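import Vale.Agent.Lib.P154.PChain.BI.R6_2

set_option linter.all false

namespace Vale.Agent.Lib.P154.PChain.BI.S7

open Vale.Agent.Lib.P154.Chain

noncomputable def pc0 : PT := (PT.nd (nat_lit 4560972) (PT.nd (nat_lit 4373538) (PT.nd (nat_lit 4233060) (PT.nd (nat_lit 4139382) (PT.nd (nat_lit 3249402) (PT.nd (nat_lit 3202602) PT.nil (PT.lf (nat_lit 76) (nat_lit 3) (nat_lit 1) (nat_lit 1) (nat_lit 191) (nat_lit 68) (nat_lit 191))) (PT.nd (nat_lit 78) (PT.lf (nat_lit 152) (nat_lit 6) (nat_lit 2) (nat_lit 3) (nat_lit 190) (nat_lit 69) (nat_lit 191)) (PT.lf (nat_lit 152) (nat_lit 6) (nat_lit 2) (nat_lit 1) (nat_lit 191) (nat_lit 69) (nat_lit 190)))) (PT.nd (nat_lit 46878) (PT.nd (nat_lit 46800) (PT.lf (nat_lit 2432) (nat_lit 3) (nat_lit 32) (nat_lit 1) (nat_lit 181) (nat_lit 88) (nat_lit 181)) (PT.lf (nat_lit 2584) (nat_lit 6) (nat_lit 34) (nat_lit 3) (nat_lit 180) (nat_lit 89) (nat_lit 181))) (PT.nd (nat_lit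 46722) (PT.lf (nat_lit 2584) (nat_lit 6) (nat_lit 34) (nat_lit 1) (nat_lit 181) (nat_lit 89) (nat_lit 180)) (PT.lf (nat_lit 2660) (nat_lit 6) (nat_lit 35) (nat_lit 3) (nat_lit 179) (nat_lit 90) (nat_lit 181))))) (PT.nd (nat_lit 46878) (PT.nd (nat_lit 78) (PT.lf (nat_lit 2736) (nat_lit 3) (nat_lit 36) (nat_lit 1) (nat_lit 180) (nat_lit 90) (nat_lit 180)) (PT.nd (nat_lit 46722) (PT.lf (nat_lit 2660) (nat_lit 6) (nat_lit 35) (nat_lit 1) (nat_lit 181) (nat_lit 90) (nat_lit 179)) (PT.lf (nat_lit 2888) (nat_lit 6) (nat_lit 38) (nat_lit 3) (nat_lit 179) (nat_lit 91) (nat_lit 180)))) (PT.nd (nat_lit 46800) (PT.nd (nat_lit 46722) (PT.lf (nat_lit 2888) (nat_lit 6) (nat_lit 38) (nat_lit 1) (nat_lit 180) (nat_lit 91) (nat_lit 179)) (PT.lf (nat_lit 2964) (nat_lit 6) (nat_lit 39) (nat_lit 3) (nat_lit 178) (nat_lit 92) (nat_lit 180))) (PT.nd (nat_lit 78) (PT.lf (nat_lit 3040) (nat_lit 3) (nat_lit 40) (nat_lit 1)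 (nat_lit 179) (nat_lit 92) (nat_lit 179)) (PT.lf (nat_lit 2964) (nat_lit 6) (nat_lit 39) (nat_lit 1) (nat_lit 180) (nat_lit 92) (nat_lit 178)))))) (PT.nd (nat_lit 93756) (PT.nd (nat_lit 46878) (PT.nd (nat_lit 78) (PT.lf (nat_lit 3192) (nat_lit 6) (nat_lit 42) (nat_lit 3) (nat_lit 178) (nat_lit 93) (nat_lit 179)) (PT.nd (nat_lit 46722) (PT.lf (nat_lit 3192) (nat_lit 6) (nat_lit 42) (nat_lit 1) (nat_lit 179) (nat_lit 93) (nat_lit 178)) (PT.lf (nat_lit 3268) (nat_lit 6) (nat_lit 43) (nat_lit 3) (nat_lit 177) (nat_lit 94) (nat_lit 179)))) (PT.nd (nat_lit 46722) (PT.nd (nat_lit 78) (PT.lf (nat_lit 3344) (nat_lit 3) (nat_lit 44) (nat_lit 1) (nat_lit 178) (nat_lit 94) (nat_lit 178)) (PT.lf (nat_lit 3268) (nat_lit 6) (nat_lit 43) (nat_lit 1) (nat_lit 179) (nat_lit 94) (nat_lit 177))) (PT.nd (nat_lit 78) (PT.lf (nat_lit 3420) (nat_lit 6) (nat_lit 45) (nat_lit 3) (nat_lit 176) (nat_lit 95) (nat_lit 179)) (PT.lf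 (nat_lit 3496) (nat_lit 6) (nat_lit 46) (nat_lit 3) (nat_lit 177) (nat_lit 95) (nat_lit 178))))) (PT.nd (nat_lit 46800) (PT.nd (nat_lit 78) (PT.lf (nat_lit 3496) (nat_lit 6) (nat_lit 46) (nat_lit 1) (nat_lit 178) (nat_lit 95) (nat_lit 177)) (PT.nd (nat_lit 46644) (PT.lf (nat_lit 3420) (nat_lit 6) (nat_lit 45) (nat_lit 1) (nat_lit 179) (nat_lit 95) (nat_lit 176)) (PT.lf (nat_lit 3648) (nat_lit 6) (nat_lit 48) (nat_lit 3) (nat_lit 176) (nat_lit 96) (nat_lit 178)))) (PT.nd (nat_lit 46722) (PT.nd (nat_lit 78) (PT.lf (nat_lit 3724) (nat_lit 3) (nat_lit 49) (nat_lit 1) (nat_lit 177) (nat_lit 96) (nat_lit 177)) (PT.lf (nat_lit 3648) (nat_lit 6) (nat_lit 48) (nat_lit 1) (nat_lit 178) (nat_lit 96) (nat_lit 176))) (PT.nd (nat_lit 78) (PT.lf (nat_lit 3800) (nat_lit 6) (nat_lit 50) (nat_lit 3) (nat_lit 175) (nat_lit 97) (nat_lit 178)) (PT.lf (nat_lit 3876) (nat_lit 6) (nat_lit 51) (nat_lit 3) (nat_lit 176) (nat_lit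 97) (nat_lit 177))))))) (PT.nd (nat_lit 187200) (PT.nd (nat_lit 93678) (PT.nd (nat_lit 46800) (PT.nd (nat_lit 78) (PT.lf (nat_lit 3876) (nat_lit 6) (nat_lit 51) (nat_lit 1) (nat_lit 177) (nat_lit 97) (nat_lit 176)) (PT.nd (nat_lit 46644) (PT.lf (nat_lit 3800) (nat_lit 6) (nat_lit 50) (nat_lit 1) (nat_lit 178) (nat_lit 97) (nat_lit 175)) (PT.lf (nat_lit 4028) (nat_lit 6) (nat_lit 53) (nat_lit 3) (nat_lit 175) (nat_lit 98) (nat_lit 177)))) (PT.nd (nat_lit 46722) (PT.nd (nat_lit 78) (PT.lf (nat_lit 4104) (nat_lit 3) (nat_lit 54) (nat_lit 1) (nat_lit 176) (nat_lit 98) (nat_lit 176)) (PT.lf (nat_lit 4028) (nat_lit 6) (nat_lit 53) (nat_lit 1) (nat_lit 177) (nat_lit 98) (nat_lit 175))) (PT.nd (nat_lit 78) (PT.lf (nat_lit 4180) (nat_lit 6) (nat_lit 55) (nat_lit 3) (nat_lit 174) (nat_lit 99) (nat_lit 177)) (PT.lf (nat_lit 4256) (nat_lit 6) (nat_lit 56) (nat_lit 3) (nat_lit 175) (nat_lit 99) (nat_lit 176)))))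 (PT.nd (nat_lit 46722) (PT.nd (nat_lit 78) (PT.lf (nat_lit 4256) (nat_lit 6) (nat_lit 56) (nat_lit 1) (nat_lit 176) (nat_lit 99) (nat_lit 175)) (PT.nd (nat_lit 46566) (PT.lf (nat_lit 4180) (nat_lit 6) (nat_lit 55) (nat_lit 1) (nat_lit 177) (nat_lit 99) (nat_lit 174)) (PT.lf (nat_lit 4332) (nat_lit 6) (nat_lit 57) (nat_lit 3) (nat_lit 173) (nat_lit 100) (nat_lit 177)))) (PT.nd (nat_lit 156) (PT.nd (nat_lit 78) (PT.lf (nat_lit 4408) (nat_lit 6) (nat_lit 58) (nat_lit 3) (nat_lit 174) (nat_lit 100) (nat_lit 176)) (PT.lf (nat_lit 4484) (nat_lit 3) (nat_lit 59) (nat_lit 1) (nat_lit 175) (nat_lit 100) (nat_lit 175))) (PT.nd (nat_lit 78) (PT.lf (nat_lit 4408) (nat_lit 6) (nat_lit 58) (nat_lit 1) (nat_lit 176) (nat_lit 100) (nat_lit 174)) (PT.lf (nat_lit 4332) (nat_lit 6) (nat_lit 57) (nat_lit 1) (nat_lit 177) (nat_lit 100) (nat_lit 173)))))) (PT.nd (nat_lit 47034) (PT.nd (nat_lit 234) (PT.nd (nat_lit 78)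 (PT.lf (nat_lit 4560) (nat_lit 6) (nat_lit 60) (nat_lit 3) (nat_lit 173) (nat_lit 101) (nat_lit 176)) (PT.nd (nat_lit 78) (PT.lf (nat_lit 4636) (nat_lit 6) (nat_lit 61) (nat_lit 3) (nat_lit 174) (nat_lit 101) (nat_lit 175)) (PT.lf (nat_lit 4636) (nat_lit 6) (nat_lit 61) (nat_lit 1) (nat_lit 175) (nat_lit 101) (nat_lit 174)))) (PT.nd (nat_lit 46644) (PT.nd (nat_lit 46566) (PT.lf (nat_lit 4560) (nat_lit 6) (nat_lit 60) (nat_lit 1) (nat_lit 176) (nat_lit 101) (nat_lit 173)) (PT.lf (nat_lit 4712) (nat_lit 6) (nat_lit 62) (nat_lit 3) (nat_lit 172) (nat_lit 102) (nat_lit 176))) (PT.nd (nat_lit 78) (PT.lf (nat_lit 4788) (nat_lit 6) (nat_lit 63) (nat_lit 3) (nat_lit 173) (nat_lit 102) (nat_lit 175)) (PT.lf (nat_lit 4864) (nat_lit 3) (nat_lit 64) (nat_lit 1) (nat_lit 174) (nat_lit 102) (nat_lit 174))))) (PT.nd (nat_lit 46800) (PT.nd (nat_lit 46644) (PT.nd (nat_lit 78) (PT.lf (nat_lit 4788) (nat_lit 6) (nat_lit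 63) (nat_lit 1) (nat_lit 175) (nat_lit 102) (nat_lit 173)) (PT.lf (nat_lit 4712) (nat_lit 6) (nat_lit 62) (nat_lit 1) (nat_lit 176) (nat_lit 102) (nat_lit 172))) (PT.nd (nat_lit 78) (PT.lf (nat_lit 5016) (nat_lit 6) (nat_lit 66) (nat_lit 3) (nat_lit 172) (nat_lit 103) (nat_lit 175)) (PT.lf (nat_lit 5092) (nat_lit 6) (nat_lit 67) (nat_lit 3) (nat_lit 173) (nat_lit 103) (nat_lit 174)))) (PT.nd (nat_lit 46644) (PT.nd (nat_lit 78) (PT.lf (nat_lit 5092) (nat_lit 6) (nat_lit 67) (nat_lit 1) (nat_lit 174) (nat_lit 103) (nat_lit 173)) (PT.lf (nat_lit 5016) (nat_lit 6) (nat_lit 66) (nat_lit 1) (nat_lit 175) (nat_lit 103) (nat_lit 172))) (PT.nd (nat_lit 78) (PT.lf (nat_lit 5168) (nat_lit 6) (nat_lit 68) (nat_lit 3) (nat_lit 171) (nat_lit 104) (nat_lit 175)) (PT.lf (nat_lit 5244) (nat_lit 6) (nat_lit 69) (nat_lit 3) (nat_lit 172) (nat_lit 104) (nat_lit 174))))))))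
noncomputable def pc1 : PT := (PT.nd (nat_lit 234312) (PT.nd (nat_lit 140322) (PT.nd (nat_lit 46956) (PT.nd (nat_lit 46644) (PT.nd (nat_lit 78) (PT.lf (nat_lit 5320) (nat_lit 3) (nat_lit 70) (nat_lit 1) (nat_lit 173) (nat_lit 104) (nat_lit 173)) (PT.nd (nat_lit 78) (PT.lf (nat_lit 5244) (nat_lit 6) (nat_lit 69) (nat_lit 1) (nat_lit 174) (nat_lit 104) (nat_lit 172)) (PT.lf (nat_lit 5168) (nat_lit 6) (nat_lit 68) (nat_lit 1) (nat_lit 175) (nat_lit 104) (nat_lit 171)))) (PT.nd (nat_lit 156) (PT.nd (nat_lit 78) (PT.lf (nat_lit 5396) (nat_lit 6) (nat_lit 71) (nat_lit 3) (nat_lit 170) (nat_lit 105) (nat_lit 175)) (PT.lf (nat_lit 5472) (nat_lit 6) (nat_lit 72) (nat_lit 3) (nat_lit 171) (nat_lit 105) (nat_lit 174))) (PT.nd (nat_lit 78) (PT.lf (nat_lit 5548) (nat_lit 6) (nat_lit 73) (nat_lit 3) (nat_lit 172) (nat_lit 105) (nat_lit 173)) (PT.lf (nat_lit 5548) (nat_lit 6) (nat_lit 73) (nat_lit 1) (nat_lit 173)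 (nat_lit 105) (nat_lit 172))))) (PT.nd (nat_lit 46644) (PT.nd (nat_lit 78) (PT.lf (nat_lit 5472) (nat_lit 6) (nat_lit 72) (nat_lit 1) (nat_lit 174) (nat_lit 105) (nat_lit 171)) (PT.nd (nat_lit 46488) (PT.lf (nat_lit 5396) (nat_lit 6) (nat_lit 71) (nat_lit 1) (nat_lit 175) (nat_lit 105) (nat_lit 170)) (PT.lf (nat_lit 5624) (nat_lit 6) (nat_lit 74) (nat_lit 3) (nat_lit 170) (nat_lit 106) (nat_lit 174)))) (PT.nd (nat_lit 156) (PT.nd (nat_lit 78) (PT.lf (nat_lit 5700) (nat_lit 6) (nat_lit 75) (nat_lit 3) (nat_lit 171) (nat_lit 106) (nat_lit 173)) (PT.lf (nat_lit 5776) (nat_lit 3) (nat_lit 76) (nat_lit 1) (nat_lit 172) (nat_lit 106) (nat_lit 172))) (PT.nd (nat_lit 78) (PT.lf (nat_lit 5700) (nat_lit 6) (nat_lit 75) (nat_lit 1) (nat_lit 173) (nat_lit 106) (nat_lit 171)) (PT.lf (nat_lit 5624) (nat_lit 6) (nat_lit 74) (nat_lit 1) (nat_lit 174) (nat_lit 106) (nat_lit 170)))))) (PT.nd (nat_lit 46956) (PT.nd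 (nat_lit 234) (PT.nd (nat_lit 78) (PT.lf (nat_lit 5852) (nat_lit 6) (nat_lit 77) (nat_lit 3) (nat_lit 169) (nat_lit 107) (nat_lit 174)) (PT.nd (nat_lit 78) (PT.lf (nat_lit 5928) (nat_lit 6) (nat_lit 78) (nat_lit 3) (nat_lit 170) (nat_lit 107) (nat_lit 173)) (PT.lf (nat_lit 6004) (nat_lit 6) (nat_lit 79) (nat_lit 3) (nat_lit 171) (nat_lit 107) (nat_lit 172)))) (PT.nd (nat_lit 156) (PT.nd (nat_lit 78) (PT.lf (nat_lit 6004) (nat_lit 6) (nat_lit 79) (nat_lit 1) (nat_lit 172) (nat_lit 107) (nat_lit 171)) (PT.lf (nat_lit 5928) (nat_lit 6) (nat_lit 78) (nat_lit 1) (nat_lit 173) (nat_lit 107) (nat_lit 170))) (PT.nd (nat_lit 46488) (PT.lf (nat_lit 5852) (nat_lit 6) (nat_lit 77) (nat_lit 1) (nat_lit 174) (nat_lit 107) (nat_lit 169)) (PT.lf (nat_lit 6156) (nat_lit 6) (nat_lit 81) (nat_lit 3) (nat_lit 169) (nat_lit 108) (nat_lit 173))))) (PT.nd (nat_lit 46722) (PT.nd (nat_lit 156) (PT.nd (nat_lit 78) (PT.lf (nat_lit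 6232) (nat_lit 6) (nat_lit 82) (nat_lit 3) (nat_lit 170) (nat_lit 108) (nat_lit 172)) (PT.lf (nat_lit 6308) (nat_lit 3) (nat_lit 83) (nat_lit 1) (nat_lit 171) (nat_lit 108) (nat_lit 171))) (PT.nd (nat_lit 78) (PT.lf (nat_lit 6232) (nat_lit 6) (nat_lit 82) (nat_lit 1) (nat_lit 172) (nat_lit 108) (nat_lit 170)) (PT.lf (nat_lit 6156) (nat_lit 6) (nat_lit 81) (nat_lit 1) (nat_lit 173) (nat_lit 108) (nat_lit 169)))) (PT.nd (nat_lit 156) (PT.nd (nat_lit 78) (PT.lf (nat_lit 6384) (nat_lit 6) (nat_lit 84) (nat_lit 3) (nat_lit 168) (nat_lit 109) (nat_lit 173)) (PT.lf (nat_lit 6460) (nat_lit 6) (nat_lit 85) (nat_lit 3) (nat_lit 169) (nat_lit 109) (nat_lit 172))) (PT.nd (nat_lit 78) (PT.lf (nat_lit 6536) (nat_lit 6) (nat_lit 86) (nat_lit 3) (nat_lit 170) (nat_lit 109) (nat_lit 171)) (PT.lf (nat_lit 6536) (nat_lit 6) (nat_lit 86) (nat_lit 1) (nat_lit 171) (nat_lit 109) (nat_lit 170))))))) (PT.nd (nat_lit 93756)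 (PT.nd (nat_lit 46878) (PT.nd (nat_lit 46566) (PT.nd (nat_lit 78) (PT.lf (nat_lit 6460) (nat_lit 6) (nat_lit 85) (nat_lit 1) (nat_lit 172) (nat_lit 109) (nat_lit 169)) (PT.nd (nat_lit 46410) (PT.lf (nat_lit 6384) (nat_lit 6) (nat_lit 84) (nat_lit 1) (nat_lit 173) (nat_lit 109) (nat_lit 168)) (PT.lf (nat_lit 6612) (nat_lit 6) (nat_lit 87) (nat_lit 3) (nat_lit 167) (nat_lit 110) (nat_lit 173)))) (PT.nd (nat_lit 156) (PT.nd (nat_lit 78) (PT.lf (nat_lit 6688) (nat_lit 6) (nat_lit 88) (nat_lit 3) (nat_lit 168) (nat_lit 110) (nat_lit 172)) (PT.lf (nat_lit 6764) (nat_lit 6) (nat_lit 89) (nat_lit 3) (nat_lit 169) (nat_lit 110) (nat_lit 171))) (PT.nd (nat_lit 78) (PT.lf (nat_lit 6840) (nat_lit 3) (nat_lit 90) (nat_lit 1) (nat_lit 170) (nat_lit 110) (nat_lit 170)) (PT.lf (nat_lit 6764) (nat_lit 6) (nat_lit 89) (nat_lit 1) (nat_lit 171) (nat_lit 110) (nat_lit 169))))) (PT.nd (nat_lit 46566) (PT.nd (nat_lit 78)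 (PT.lf (nat_lit 6688) (nat_lit 6) (nat_lit 88) (nat_lit 1) (nat_lit 172) (nat_lit 110) (nat_lit 168)) (PT.nd (nat_lit 46410) (PT.lf (nat_lit 6612) (nat_lit 6) (nat_lit 87) (nat_lit 1) (nat_lit 173) (nat_lit 110) (nat_lit 167)) (PT.lf (nat_lit 6992) (nat_lit 6) (nat_lit 92) (nat_lit 3) (nat_lit 167) (nat_lit 111) (nat_lit 172)))) (PT.nd (nat_lit 156) (PT.nd (nat_lit 78) (PT.lf (nat_lit 7068) (nat_lit 6) (nat_lit 93) (nat_lit 3) (nat_lit 168) (nat_lit 111) (nat_lit 171)) (PT.lf (nat_lit 7144) (nat_lit 6) (nat_lit 94) (nat_lit 3) (nat_lit 169) (nat_lit 111) (nat_lit 170))) (PT.nd (nat_lit 78) (PT.lf (nat_lit 7144) (nat_lit 6) (nat_lit 94) (nat_lit 1) (nat_lit 170) (nat_lit 111) (nat_lit 169)) (PT.lf (nat_lit 7068) (nat_lit 6) (nat_lit 93) (nat_lit 1) (nat_lit 171) (nat_lit 111) (nat_lit 168)))))) (PT.nd (nat_lit 46878) (PT.nd (nat_lit 46566) (PT.nd (nat_lit 46410) (PT.lf (nat_lit 6992) (nat_lit 6) (nat_lit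 92) (nat_lit 1) (nat_lit 172) (nat_lit 111) (nat_lit 167)) (PT.nd (nat_lit 78) (PT.lf (nat_lit 7220) (nat_lit 6) (nat_lit 95) (nat_lit 3) (nat_lit 166) (nat_lit 112) (nat_lit 172)) (PT.lf (nat_lit 7296) (nat_lit 6) (nat_lit 96) (nat_lit 3) (nat_lit 167) (nat_lit 112) (nat_lit 171)))) (PT.nd (nat_lit 156) (PT.nd (nat_lit 78) (PT.lf (nat_lit 7372) (nat_lit 6) (nat_lit 97) (nat_lit 3) (nat_lit 168) (nat_lit 112) (nat_lit 170)) (PT.lf (nat_lit 7448) (nat_lit 3) (nat_lit 98) (nat_lit 1) (nat_lit 169) (nat_lit 112) (nat_lit 169))) (PT.nd (nat_lit 78) (PT.lf (nat_lit 7372) (nat_lit 6) (nat_lit 97) (nat_lit 1) (nat_lit 170) (nat_lit 112) (nat_lit 168)) (PT.lf (nat_lit 7296) (nat_lit 6) (nat_lit 96) (nat_lit 1) (nat_lit 171) (nat_lit 112) (nat_lit 167))))) (PT.nd (nat_lit 46566) (PT.nd (nat_lit 46410) (PT.nd (nat_lit 46332) (PT.lf (nat_lit 7220) (nat_lit 6) (nat_lit 95) (nat_lit 1) (nat_lit 172) (nat_lit 112)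 (nat_lit 166)) (PT.lf (nat_lit 7524) (nat_lit 6) (nat_lit 99) (nat_lit 3) (nat_lit 165) (nat_lit 113) (nat_lit 172))) (PT.nd (nat_lit 78) (PT.lf (nat_lit 7600) (nat_lit 6) (nat_lit 100) (nat_lit 3) (nat_lit 166) (nat_lit 113) (nat_lit 171)) (PT.lf (nat_lit 7676) (nat_lit 6) (nat_lit 101) (nat_lit 3) (nat_lit 167) (nat_lit 113) (nat_lit 170)))) (PT.nd (nat_lit 156) (PT.nd (nat_lit 78) (PT.lf (nat_lit 7752) (nat_lit 6) (nat_lit 102) (nat_lit 3) (nat_lit 168) (nat_lit 113) (nat_lit 169)) (PT.lf (nat_lit 7752) (nat_lit 6) (nat_lit 102) (nat_lit 1) (nat_lit 169) (nat_lit 113) (nat_lit 168))) (PT.nd (nat_lit 78) (PT.lf (nat_lit 7676) (nat_lit 6) (nat_lit 101) (nat_lit 1) (nat_lit 170) (nat_lit 113) (nat_lit 167)) (PT.lf (nat_lit 7600) (nat_lit 6) (nat_lit 100) (nat_lit 1) (nat_lit 171) (nat_lit 113) (nat_lit 166))))))))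
noncomputable def pc2 : PT := (PT.nd (nat_lit 187044) (PT.nd (nat_lit 93600) (PT.nd (nat_lit 46800) (PT.nd (nat_lit 46488) (PT.nd (nat_lit 46332) (PT.lf (nat_lit 7524) (nat_lit 6) (nat_lit 99) (nat_lit 1) (nat_lit 172) (nat_lit 113) (nat_lit 165)) (PT.nd (nat_lit 78) (PT.lf (nat_lit 7828) (nat_lit 6) (nat_lit 103) (nat_lit 3) (nat_lit 165) (nat_lit 114) (nat_lit 171)) (PT.lf (nat_lit 7904) (nat_lit 6) (nat_lit 104) (nat_lit 3) (nat_lit 166) (nat_lit 114) (nat_lit 170)))) (PT.nd (nat_lit 156) (PT.nd (nat_lit 78) (PT.lf (nat_lit 7980) (nat_lit 6) (nat_lit 105) (nat_lit 3) (nat_lit 167) (nat_lit 114) (nat_lit 169)) (PT.lf (nat_lit 8056) (nat_lit 3) (nat_lit 106) (nat_lit 1) (nat_lit 168) (nat_lit 114) (nat_lit 168))) (PT.nd (nat_lit 78) (PT.lf (nat_lit 7980) (nat_lit 6) (nat_lit 105) (nat_lit 1) (nat_lit 169) (nat_lit 114) (nat_lit 167)) (PT.lf (nat_lit 7904) (nat_lit 6) (nat_lit 104) (nat_lit 1) (nat_lit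 170) (nat_lit 114) (nat_lit 166))))) (PT.nd (nat_lit 46488) (PT.nd (nat_lit 46332) (PT.lf (nat_lit 7828) (nat_lit 6) (nat_lit 103) (nat_lit 1) (nat_lit 171) (nat_lit 114) (nat_lit 165)) (PT.nd (nat_lit 78) (PT.lf (nat_lit 8132) (nat_lit 6) (nat_lit 107) (nat_lit 3) (nat_lit 164) (nat_lit 115) (nat_lit 171)) (PT.lf (nat_lit 8208) (nat_lit 6) (nat_lit 108) (nat_lit 3) (nat_lit 165) (nat_lit 115) (nat_lit 170)))) (PT.nd (nat_lit 156) (PT.nd (nat_lit 78) (PT.lf (nat_lit 8284) (nat_lit 6) (nat_lit 109) (nat_lit 3) (nat_lit 166) (nat_lit 115) (nat_lit 169)) (PT.lf (nat_lit 8360) (nat_lit 6) (nat_lit 110) (nat_lit 3) (nat_lit 167) (nat_lit 115) (nat_lit 168))) (PT.nd (nat_lit 78) (PT.lf (nat_lit 8360) (nat_lit 6) (nat_lit 110) (nat_lit 1) (nat_lit 168) (nat_lit 115) (nat_lit 167)) (PT.lf (nat_lit 8284) (nat_lit 6) (nat_lit 109) (nat_lit 1) (nat_lit 169) (nat_lit 115) (nat_lit 166)))))) (PT.nd (nat_lit 46722)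 (PT.nd (nat_lit 46410) (PT.nd (nat_lit 78) (PT.lf (nat_lit 8208) (nat_lit 6) (nat_lit 108) (nat_lit 1) (nat_lit 170) (nat_lit 115) (nat_lit 165)) (PT.nd (nat_lit 46254) (PT.lf (nat_lit 8132) (nat_lit 6) (nat_lit 107) (nat_lit 1) (nat_lit 171) (nat_lit 115) (nat_lit 164)) (PT.lf (nat_lit 8436) (nat_lit 6) (nat_lit 111) (nat_lit 3) (nat_lit 163) (nat_lit 116) (nat_lit 171)))) (PT.nd (nat_lit 156) (PT.nd (nat_lit 78) (PT.lf (nat_lit 8512) (nat_lit 6) (nat_lit 112) (nat_lit 3) (nat_lit 164) (nat_lit 116) (nat_lit 170)) (PT.lf (nat_lit 8588) (nat_lit 6) (nat_lit 113) (nat_lit 3) (nat_lit 165) (nat_lit 116) (nat_lit 169))) (PT.nd (nat_lit 78) (PT.lf (nat_lit 8664) (nat_lit 6) (nat_lit 114) (nat_lit 3) (nat_lit 166) (nat_lit 116) (nat_lit 168)) (PT.lf (nat_lit 8740) (nat_lit 3) (nat_lit 115) (nat_lit 1) (nat_lit 167) (nat_lit 116) (nat_lit 167))))) (PT.nd (nat_lit 234) (PT.nd (nat_lit 78) (PT.lf (nat_lit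 8664) (nat_lit 6) (nat_lit 114) (nat_lit 1) (nat_lit 168) (nat_lit 116) (nat_lit 166)) (PT.nd (nat_lit 78) (PT.lf (nat_lit 8588) (nat_lit 6) (nat_lit 113) (nat_lit 1) (nat_lit 169) (nat_lit 116) (nat_lit 165)) (PT.lf (nat_lit 8512) (nat_lit 6) (nat_lit 112) (nat_lit 1) (nat_lit 170) (nat_lit 116) (nat_lit 164)))) (PT.nd (nat_lit 46332) (PT.nd (nat_lit 46254) (PT.lf (nat_lit 8436) (nat_lit 6) (nat_lit 111) (nat_lit 1) (nat_lit 171) (nat_lit 116) (nat_lit 163)) (PT.lf (nat_lit 8816) (nat_lit 6) (nat_lit 116) (nat_lit 3) (nat_lit 163) (nat_lit 117) (nat_lit 170))) (PT.nd (nat_lit 78) (PT.lf (nat_lit 8892) (nat_lit 6) (nat_lit 117) (nat_lit 3) (nat_lit 164) (nat_lit 117) (nat_lit 169)) (PT.lf (nat_lit 8968) (nat_lit 6) (nat_lit 118) (nat_lit 3) (nat_lit 165) (nat_lit 117) (nat_lit 168))))))) (PT.nd (nat_lit 93366) (PT.nd (nat_lit 46722) (PT.nd (nat_lit 234) (PT.nd (nat_lit 78) (PT.lf (nat_lit 9044) (nat_lit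 6) (nat_lit 119) (nat_lit 3) (nat_lit 166) (nat_lit 117) (nat_lit 167)) (PT.nd (nat_lit 78) (PT.lf (nat_lit 9044) (nat_lit 6) (nat_lit 119) (nat_lit 1) (nat_lit 167) (nat_lit 117) (nat_lit 166)) (PT.lf (nat_lit 8968) (nat_lit 6) (nat_lit 118) (nat_lit 1) (nat_lit 168) (nat_lit 117) (nat_lit 165)))) (PT.nd (nat_lit 46332) (PT.nd (nat_lit 78) (PT.lf (nat_lit 8892) (nat_lit 6) (nat_lit 117) (nat_lit 1) (nat_lit 169) (nat_lit 117) (nat_lit 164)) (PT.lf (nat_lit 8816) (nat_lit 6) (nat_lit 116) (nat_lit 1) (nat_lit 170) (nat_lit 117) (nat_lit 163))) (PT.nd (nat_lit 78) (PT.lf (nat_lit 9120) (nat_lit 6) (nat_lit 120) (nat_lit 3) (nat_lit 162) (nat_lit 118) (nat_lit 170)) (PT.lf (nat_lit 9196) (nat_lit 6) (nat_lit 121) (nat_lit 3) (nat_lit 163) (nat_lit 118) (nat_lit 169))))) (PT.nd (nat_lit 234) (PT.nd (nat_lit 78) (PT.lf (nat_lit 9272) (nat_lit 6) (nat_lit 122) (nat_lit 3) (nat_lit 164) (nat_lit 118) (nat_lit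 168)) (PT.nd (nat_lit 78) (PT.lf (nat_lit 9348) (nat_lit 6) (nat_lit 123) (nat_lit 3) (nat_lit 165) (nat_lit 118) (nat_lit 167)) (PT.lf (nat_lit 9424) (nat_lit 3) (nat_lit 124) (nat_lit 1) (nat_lit 166) (nat_lit 118) (nat_lit 166)))) (PT.nd (nat_lit 156) (PT.nd (nat_lit 78) (PT.lf (nat_lit 9348) (nat_lit 6) (nat_lit 123) (nat_lit 1) (nat_lit 167) (nat_lit 118) (nat_lit 165)) (PT.lf (nat_lit 9272) (nat_lit 6) (nat_lit 122) (nat_lit 1) (nat_lit 168) (nat_lit 118) (nat_lit 164))) (PT.nd (nat_lit 78) (PT.lf (nat_lit 9196) (nat_lit 6) (nat_lit 121) (nat_lit 1) (nat_lit 169) (nat_lit 118) (nat_lit 163)) (PT.lf (nat_lit 9120) (nat_lit 6) (nat_lit 120) (nat_lit 1) (nat_lit 170) (nat_lit 118) (nat_lit 162)))))) (PT.nd (nat_lit 546) (PT.nd (nat_lit 234) (PT.nd (nat_lit 78) (PT.lf (nat_lit 9500) (nat_lit 6) (nat_lit 125) (nat_lit 3) (nat_lit 161) (nat_lit 119) (nat_lit 170)) (PT.nd (nat_lit 78) (PT.lf (nat_lit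 9576) (nat_lit 6) (nat_lit 126) (nat_lit 3) (nat_lit 162) (nat_lit 119) (nat_lit 169)) (PT.lf (nat_lit 9652) (nat_lit 6) (nat_lit 127) (nat_lit 3) (nat_lit 163) (nat_lit 119) (nat_lit 168)))) (PT.nd (nat_lit 156) (PT.nd (nat_lit 78) (PT.lf (nat_lit 9728) (nat_lit 6) (nat_lit 128) (nat_lit 3) (nat_lit 164) (nat_lit 119) (nat_lit 167)) (PT.lf (nat_lit 9804) (nat_lit 6) (nat_lit 129) (nat_lit 3) (nat_lit 165) (nat_lit 119) (nat_lit 166))) (PT.nd (nat_lit 78) (PT.lf (nat_lit 9804) (nat_lit 6) (nat_lit 129) (nat_lit 1) (nat_lit 166) (nat_lit 119) (nat_lit 165)) (PT.lf (nat_lit 9728) (nat_lit 6) (nat_lit 128) (nat_lit 1) (nat_lit 167) (nat_lit 119) (nat_lit 164))))) (PT.nd (nat_lit 46410) (PT.nd (nat_lit 156) (PT.nd (nat_lit 78) (PT.lf (nat_lit 9652) (nat_lit 6) (nat_lit 127) (nat_lit 1) (nat_lit 168) (nat_lit 119) (nat_lit 163)) (PT.lf (nat_lit 9576) (nat_lit 6) (nat_lit 126) (nat_lit 1) (nat_lit 169)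 (nat_lit 119) (nat_lit 162))) (PT.nd (nat_lit 46176) (PT.lf (nat_lit 9500) (nat_lit 6) (nat_lit 125) (nat_lit 1) (nat_lit 170) (nat_lit 119) (nat_lit 161)) (PT.lf (nat_lit 9880) (nat_lit 6) (nat_lit 130) (nat_lit 3) (nat_lit 161) (nat_lit 120) (nat_lit 169)))) (PT.nd (nat_lit 156) (PT.nd (nat_lit 78) (PT.lf (nat_lit 9956) (nat_lit 6) (nat_lit 131) (nat_lit 3) (nat_lit 162) (nat_lit 120) (nat_lit 168)) (PT.lf (nat_lit 10032) (nat_lit 6) (nat_lit 132) (nat_lit 3) (nat_lit 163) (nat_lit 120) (nat_lit 167))) (PT.nd (nat_lit 78) (PT.lf (nat_lit 10108) (nat_lit 6) (nat_lit 133) (nat_lit 3) (nat_lit 164) (nat_lit 120) (nat_lit 166)) (PT.lf (nat_lit 10184) (nat_lit 3) (nat_lit 134) (nat_lit 1) (nat_lit 165) (nat_lit 120) (nat_lit 165))))))))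
noncomputable def pc3 : PT := (PT.nd (nat_lit 140400) (PT.nd (nat_lit 93210) (PT.nd (nat_lit 46644) (PT.nd (nat_lit 234) (PT.nd (nat_lit 78) (PT.lf (nat_lit 10108) (nat_lit 6) (nat_lit 133) (nat_lit 1) (nat_lit 166) (nat_lit 120) (nat_lit 164)) (PT.nd (nat_lit 78) (PT.lf (nat_lit 10032) (nat_lit 6) (nat_lit 132) (nat_lit 1) (nat_lit 167) (nat_lit 120) (nat_lit 163)) (PT.lf (nat_lit 9956) (nat_lit 6) (nat_lit 131) (nat_lit 1) (nat_lit 168) (nat_lit 120) (nat_lit 162)))) (PT.nd (nat_lit 46254) (PT.nd (nat_lit 46176) (PT.lf (nat_lit 9880) (nat_lit 6) (nat_lit 130) (nat_lit 1) (nat_lit 169) (nat_lit 120) (nat_lit 161)) (PT.lf (nat_lit 10260) (nat_lit 6) (nat_lit 135) (nat_lit 3) (nat_lit 160) (nat_lit 121) (nat_lit 169))) (PT.nd (nat_lit 78) (PT.lf (nat_lit 10336) (nat_lit 6) (nat_lit 136) (nat_lit 3) (nat_lit 161) (nat_lit 121) (nat_lit 168)) (PT.lf (nat_lit 10412) (nat_lit 6) (nat_lit 137) (nat_lit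 3) (nat_lit 162) (nat_lit 121) (nat_lit 167))))) (PT.nd (nat_lit 234) (PT.nd (nat_lit 78) (PT.lf (nat_lit 10488) (nat_lit 6) (nat_lit 138) (nat_lit 3) (nat_lit 163) (nat_lit 121) (nat_lit 166)) (PT.nd (nat_lit 78) (PT.lf (nat_lit 10564) (nat_lit 6) (nat_lit 139) (nat_lit 3) (nat_lit 164) (nat_lit 121) (nat_lit 165)) (PT.lf (nat_lit 10564) (nat_lit 6) (nat_lit 139) (nat_lit 1) (nat_lit 165) (nat_lit 121) (nat_lit 164)))) (PT.nd (nat_lit 156) (PT.nd (nat_lit 78) (PT.lf (nat_lit 10488) (nat_lit 6) (nat_lit 138) (nat_lit 1) (nat_lit 166) (nat_lit 121) (nat_lit 163)) (PT.lf (nat_lit 10412) (nat_lit 6) (nat_lit 137) (nat_lit 1) (nat_lit 167) (nat_lit 121) (nat_lit 162))) (PT.nd (nat_lit 78) (PT.lf (nat_lit 10336) (nat_lit 6) (nat_lit 136) (nat_lit 1) (nat_lit 168) (nat_lit 121) (nat_lit 161)) (PT.lf (nat_lit 10260) (nat_lit 6) (nat_lit 135) (nat_lit 1) (nat_lit 169) (nat_lit 121) (nat_lit 160)))))) (PT.nd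 (nat_lit 546) (PT.nd (nat_lit 234) (PT.nd (nat_lit 78) (PT.lf (nat_lit 10640) (nat_lit 6) (nat_lit 140) (nat_lit 3) (nat_lit 159) (nat_lit 122) (nat_lit 169)) (PT.nd (nat_lit 78) (PT.lf (nat_lit 10716) (nat_lit 6) (nat_lit 141) (nat_lit 3) (nat_lit 160) (nat_lit 122) (nat_lit 168)) (PT.lf (nat_lit 10792) (nat_lit 6) (nat_lit 142) (nat_lit 3) (nat_lit 161) (nat_lit 122) (nat_lit 167)))) (PT.nd (nat_lit 156) (PT.nd (nat_lit 78) (PT.lf (nat_lit 10868) (nat_lit 6) (nat_lit 143) (nat_lit 3) (nat_lit 162) (nat_lit 122) (nat_lit 166)) (PT.lf (nat_lit 10944) (nat_lit 6) (nat_lit 144) (nat_lit 3) (nat_lit 163) (nat_lit 122) (nat_lit 165))) (PT.nd (nat_lit 78) (PT.lf (nat_lit 11020) (nat_lit 3) (nat_lit 145) (nat_lit 1) (nat_lit 164) (nat_lit 122) (nat_lit 164)) (PT.lf (nat_lit 10944) (nat_lit 6) (nat_lit 144) (nat_lit 1) (nat_lit 165) (nat_lit 122) (nat_lit 163))))) (PT.nd (nat_lit 46332) (PT.nd (nat_lit 156)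 (PT.nd (nat_lit 78) (PT.lf (nat_lit 10868) (nat_lit 6) (nat_lit 143) (nat_lit 1) (nat_lit 166) (nat_lit 122) (nat_lit 162)) (PT.lf (nat_lit 10792) (nat_lit 6) (nat_lit 142) (nat_lit 1) (nat_lit 167) (nat_lit 122) (nat_lit 161))) (PT.nd (nat_lit 78) (PT.lf (nat_lit 10716) (nat_lit 6) (nat_lit 141) (nat_lit 1) (nat_lit 168) (nat_lit 122) (nat_lit 160)) (PT.lf (nat_lit 10640) (nat_lit 6) (nat_lit 140) (nat_lit 1) (nat_lit 169) (nat_lit 122) (nat_lit 159)))) (PT.nd (nat_lit 156) (PT.nd (nat_lit 78) (PT.lf (nat_lit 11172) (nat_lit 6) (nat_lit 147) (nat_lit 3) (nat_lit 159) (nat_lit 123) (nat_lit 168)) (PT.lf (nat_lit 11248) (nat_lit 6) (nat_lit 148) (nat_lit 3) (nat_lit 160) (nat_lit 123) (nat_lit 167))) (PT.nd (nat_lit 78) (PT.lf (nat_lit 11324) (nat_lit 6) (nat_lit 149) (nat_lit 3) (nat_lit 161) (nat_lit 123) (nat_lit 166)) (PT.lf (nat_lit 11400) (nat_lit 6) (nat_lit 150) (nat_lit 3) (nat_lit 162) (nat_lit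 123) (nat_lit 165))))))) (PT.nd (nat_lit 47112) (PT.nd (nat_lit 46566) (PT.nd (nat_lit 234) (PT.nd (nat_lit 78) (PT.lf (nat_lit 11476) (nat_lit 6) (nat_lit 151) (nat_lit 3) (nat_lit 163) (nat_lit 123) (nat_lit 164)) (PT.nd (nat_lit 78) (PT.lf (nat_lit 11476) (nat_lit 6) (nat_lit 151) (nat_lit 1) (nat_lit 164) (nat_lit 123) (nat_lit 163)) (PT.lf (nat_lit 11400) (nat_lit 6) (nat_lit 150) (nat_lit 1) (nat_lit 165) (nat_lit 123) (nat_lit 162)))) (PT.nd (nat_lit 156) (PT.nd (nat_lit 78) (PT.lf (nat_lit 11324) (nat_lit 6) (nat_lit 149) (nat_lit 1) (nat_lit 166) (nat_lit 123) (nat_lit 161)) (PT.lf (nat_lit 11248) (nat_lit 6) (nat_lit 148) (nat_lit 1) (nat_lit 167) (nat_lit 123) (nat_lit 160))) (PT.nd (nat_lit 46098) (PT.lf (nat_lit 11172) (nat_lit 6) (nat_lit 147) (nat_lit 1) (nat_lit 168) (nat_lit 123) (nat_lit 159)) (PT.lf (nat_lit 11552) (nat_lit 6) (nat_lit 152) (nat_lit 3) (nat_lit 158) (nat_lit 124)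 (nat_lit 168))))) (PT.nd (nat_lit 234) (PT.nd (nat_lit 78) (PT.lf (nat_lit 11628) (nat_lit 6) (nat_lit 153) (nat_lit 3) (nat_lit 159) (nat_lit 124) (nat_lit 167)) (PT.nd (nat_lit 78) (PT.lf (nat_lit 11704) (nat_lit 6) (nat_lit 154) (nat_lit 3) (nat_lit 160) (nat_lit 124) (nat_lit 166)) (PT.lf (nat_lit 11780) (nat_lit 6) (nat_lit 155) (nat_lit 3) (nat_lit 161) (nat_lit 124) (nat_lit 165)))) (PT.nd (nat_lit 156) (PT.nd (nat_lit 78) (PT.lf (nat_lit 11856) (nat_lit 6) (nat_lit 156) (nat_lit 3) (nat_lit 162) (nat_lit 124) (nat_lit 164)) (PT.lf (nat_lit 11932) (nat_lit 3) (nat_lit 157) (nat_lit 1) (nat_lit 163) (nat_lit 124) (nat_lit 163))) (PT.nd (nat_lit 78) (PT.lf (nat_lit 11856) (nat_lit 6) (nat_lit 156) (nat_lit 1) (nat_lit 164) (nat_lit 124) (nat_lit 162)) (PT.lf (nat_lit 11780) (nat_lit 6) (nat_lit 155) (nat_lit 1) (nat_lit 165) (nat_lit 124) (nat_lit 161)))))) (PT.nd (nat_lit 46488) (PT.nd (nat_lit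 46176) (PT.nd (nat_lit 78) (PT.lf (nat_lit 11704) (nat_lit 6) (nat_lit 154) (nat_lit 1) (nat_lit 166) (nat_lit 124) (nat_lit 160)) (PT.nd (nat_lit 78) (PT.lf (nat_lit 11628) (nat_lit 6) (nat_lit 153) (nat_lit 1) (nat_lit 167) (nat_lit 124) (nat_lit 159)) (PT.lf (nat_lit 11552) (nat_lit 6) (nat_lit 152) (nat_lit 1) (nat_lit 168) (nat_lit 124) (nat_lit 158)))) (PT.nd (nat_lit 156) (PT.nd (nat_lit 78) (PT.lf (nat_lit 12008) (nat_lit 6) (nat_lit 158) (nat_lit 3) (nat_lit 157) (nat_lit 125) (nat_lit 168)) (PT.lf (nat_lit 12084) (nat_lit 6) (nat_lit 159) (nat_lit 3) (nat_lit 158) (nat_lit 125) (nat_lit 167))) (PT.nd (nat_lit 78) (PT.lf (nat_lit 12160) (nat_lit 6) (nat_lit 160) (nat_lit 3) (nat_lit 159) (nat_lit 125) (nat_lit 166)) (PT.lf (nat_lit 12236) (nat_lit 6) (nat_lit 161) (nat_lit 3) (nat_lit 160) (nat_lit 125) (nat_lit 165))))) (PT.nd (nat_lit 312) (PT.nd (nat_lit 156) (PT.nd (nat_lit 78) (PT.lf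 (nat_lit 12312) (nat_lit 6) (nat_lit 162) (nat_lit 3) (nat_lit 161) (nat_lit 125) (nat_lit 164)) (PT.lf (nat_lit 12388) (nat_lit 6) (nat_lit 163) (nat_lit 3) (nat_lit 162) (nat_lit 125) (nat_lit 163))) (PT.nd (nat_lit 78) (PT.lf (nat_lit 12388) (nat_lit 6) (nat_lit 163) (nat_lit 1) (nat_lit 163) (nat_lit 125) (nat_lit 162)) (PT.lf (nat_lit 12312) (nat_lit 6) (nat_lit 162) (nat_lit 1) (nat_lit 164) (nat_lit 125) (nat_lit 161)))) (PT.nd (nat_lit 156) (PT.nd (nat_lit 78) (PT.lf (nat_lit 12236) (nat_lit 6) (nat_lit 161) (nat_lit 1) (nat_lit 165) (nat_lit 125) (nat_lit 160)) (PT.lf (nat_lit 12160) (nat_lit 6) (nat_lit 160) (nat_lit 1) (nat_lit 166) (nat_lit 125) (nat_lit 159))) (PT.nd (nat_lit 78) (PT.lf (nat_lit 12084) (nat_lit 6) (nat_lit 159) (nat_lit 1) (nat_lit 167) (nat_lit 125) (nat_lit 158)) (PT.lf (nat_lit 12008) (nat_lit 6) (nat_lit 158) (nat_lit 1) (nat_lit 168) (nat_lit 125) (nat_lit 157))))))))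
noncomputable def pc4 : PT := (PT.nd (nat_lit 93912) (PT.nd (nat_lit 46956) (PT.nd (nat_lit 546) (PT.nd (nat_lit 234) (PT.nd (nat_lit 78) (PT.lf (nat_lit 12464) (nat_lit 6) (nat_lit 164) (nat_lit 3) (nat_lit 156) (nat_lit 126) (nat_lit 168)) (PT.nd (nat_lit 78) (PT.lf (nat_lit 12540) (nat_lit 6) (nat_lit 165) (nat_lit 3) (nat_lit 157) (nat_lit 126) (nat_lit 167)) (PT.lf (nat_lit 12616) (nat_lit 6) (nat_lit 166) (nat_lit 3) (nat_lit 158) (nat_lit 126) (nat_lit 166)))) (PT.nd (nat_lit 156) (PT.nd (nat_lit 78) (PT.lf (nat_lit 12692) (nat_lit 6) (nat_lit 167) (nat_lit 3) (nat_lit 159) (nat_lit 126) (nat_lit 165)) (PT.lf (nat_lit 12768) (nat_lit 6) (nat_lit 168) (nat_lit 3) (nat_lit 160) (nat_lit 126) (nat_lit 164))) (PT.nd (nat_lit 78) (PT.lf (nat_lit 12844) (nat_lit 6) (nat_lit 169) (nat_lit 3) (nat_lit 161) (nat_lit 126) (nat_lit 163)) (PT.lf (nat_lit 12920) (nat_lit 3) (nat_lit 170) (nat_lit 1) (nat_lit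 162) (nat_lit 126) (nat_lit 162))))) (PT.nd (nat_lit 234) (PT.nd (nat_lit 78) (PT.lf (nat_lit 12844) (nat_lit 6) (nat_lit 169) (nat_lit 1) (nat_lit 163) (nat_lit 126) (nat_lit 161)) (PT.nd (nat_lit 78) (PT.lf (nat_lit 12768) (nat_lit 6) (nat_lit 168) (nat_lit 1) (nat_lit 164) (nat_lit 126) (nat_lit 160)) (PT.lf (nat_lit 12692) (nat_lit 6) (nat_lit 167) (nat_lit 1) (nat_lit 165) (nat_lit 126) (nat_lit 159)))) (PT.nd (nat_lit 156) (PT.nd (nat_lit 78) (PT.lf (nat_lit 12616) (nat_lit 6) (nat_lit 166) (nat_lit 1) (nat_lit 166) (nat_lit 126) (nat_lit 158)) (PT.lf (nat_lit 12540) (nat_lit 6) (nat_lit 165) (nat_lit 1) (nat_lit 167) (nat_lit 126) (nat_lit 157))) (PT.nd (nat_lit 45942) (PT.lf (nat_lit 12464) (nat_lit 6) (nat_lit 164) (nat_lit 1) (nat_lit 168) (nat_lit 126) (nat_lit 156)) (PT.lf (nat_lit 12996) (nat_lit 6) (nat_lit 171) (nat_lit 3) (nat_lit 156) (nat_lit 127) (nat_lit 167)))))) (PT.nd (nat_lit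 546) (PT.nd (nat_lit 234) (PT.nd (nat_lit 78) (PT.lf (nat_lit 13072) (nat_lit 6) (nat_lit 172) (nat_lit 3) (nat_lit 157) (nat_lit 127) (nat_lit 166)) (PT.nd (nat_lit 78) (PT.lf (nat_lit 13148) (nat_lit 6) (nat_lit 173) (nat_lit 3) (nat_lit 158) (nat_lit 127) (nat_lit 165)) (PT.lf (nat_lit 13224) (nat_lit 6) (nat_lit 174) (nat_lit 3) (nat_lit 159) (nat_lit 127) (nat_lit 164)))) (PT.nd (nat_lit 156) (PT.nd (nat_lit 78) (PT.lf (nat_lit 13300) (nat_lit 6) (nat_lit 175) (nat_lit 3) (nat_lit 160) (nat_lit 127) (nat_lit 163)) (PT.lf (nat_lit 13376) (nat_lit 6) (nat_lit 176) (nat_lit 3) (nat_lit 161) (nat_lit 127) (nat_lit 162))) (PT.nd (nat_lit 78) (PT.lf (nat_lit 13376) (nat_lit 6) (nat_lit 176) (nat_lit 1) (nat_lit 162) (nat_lit 127) (nat_lit 161)) (PT.lf (nat_lit 13300) (nat_lit 6) (nat_lit 175) (nat_lit 1) (nat_lit 163) (nat_lit 127) (nat_lit 160))))) (PT.nd (nat_lit 234) (PT.nd (nat_lit 78) (PT.lf (nat_lit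 13224) (nat_lit 6) (nat_lit 174) (nat_lit 1) (nat_lit 164) (nat_lit 127) (nat_lit 159)) (PT.nd (nat_lit 78) (PT.lf (nat_lit 13148) (nat_lit 6) (nat_lit 173) (nat_lit 1) (nat_lit 165) (nat_lit 127) (nat_lit 158)) (PT.lf (nat_lit 13072) (nat_lit 6) (nat_lit 172) (nat_lit 1) (nat_lit 166) (nat_lit 127) (nat_lit 157)))) (PT.nd (nat_lit 46020) (PT.nd (nat_lit 45942) (PT.lf (nat_lit 12996) (nat_lit 6) (nat_lit 171) (nat_lit 1) (nat_lit 167) (nat_lit 127) (nat_lit 156)) (PT.lf (nat_lit 13452) (nat_lit 6) (nat_lit 177) (nat_lit 3) (nat_lit 155) (nat_lit 128) (nat_lit 167))) (PT.nd (nat_lit 78) (PT.lf (nat_lit 13528) (nat_lit 6) (nat_lit 178) (nat_lit 3) (nat_lit 156) (nat_lit 128) (nat_lit 166)) (PT.lf (nat_lit 13604) (nat_lit 6) (nat_lit 179) (nat_lit 3) (nat_lit 157) (nat_lit 128) (nat_lit 165))))))) (PT.nd (nat_lit 46878) (PT.nd (nat_lit 546) (PT.nd (nat_lit 234) (PT.nd (nat_lit 78) (PT.lf (nat_lit 13680)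 (nat_lit 6) (nat_lit 180) (nat_lit 3) (nat_lit 158) (nat_lit 128) (nat_lit 164)) (PT.nd (nat_lit 78) (PT.lf (nat_lit 13756) (nat_lit 6) (nat_lit 181) (nat_lit 3) (nat_lit 159) (nat_lit 128) (nat_lit 163)) (PT.lf (nat_lit 13832) (nat_lit 6) (nat_lit 182) (nat_lit 3) (nat_lit 160) (nat_lit 128) (nat_lit 162)))) (PT.nd (nat_lit 156) (PT.nd (nat_lit 78) (PT.lf (nat_lit 13908) (nat_lit 3) (nat_lit 183) (nat_lit 1) (nat_lit 161) (nat_lit 128) (nat_lit 161)) (PT.lf (nat_lit 13832) (nat_lit 6) (nat_lit 182) (nat_lit 1) (nat_lit 162) (nat_lit 128) (nat_lit 160))) (PT.nd (nat_lit 78) (PT.lf (nat_lit 13756) (nat_lit 6) (nat_lit 181) (nat_lit 1) (nat_lit 163) (nat_lit 128) (nat_lit 159)) (PT.lf (nat_lit 13680) (nat_lit 6) (nat_lit 180) (nat_lit 1) (nat_lit 164) (nat_lit 128) (nat_lit 158))))) (PT.nd (nat_lit 46020) (PT.nd (nat_lit 78) (PT.lf (nat_lit 13604) (nat_lit 6) (nat_lit 179) (nat_lit 1) (nat_lit 165)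 (nat_lit 128) (nat_lit 157)) (PT.nd (nat_lit 78) (PT.lf (nat_lit 13528) (nat_lit 6) (nat_lit 178) (nat_lit 1) (nat_lit 166) (nat_lit 128) (nat_lit 156)) (PT.lf (nat_lit 13452) (nat_lit 6) (nat_lit 177) (nat_lit 1) (nat_lit 167) (nat_lit 128) (nat_lit 155)))) (PT.nd (nat_lit 156) (PT.nd (nat_lit 78) (PT.lf (nat_lit 13984) (nat_lit 6) (nat_lit 184) (nat_lit 3) (nat_lit 154) (nat_lit 129) (nat_lit 167)) (PT.lf (nat_lit 14060) (nat_lit 6) (nat_lit 185) (nat_lit 3) (nat_lit 155) (nat_lit 129) (nat_lit 166))) (PT.nd (nat_lit 78) (PT.lf (nat_lit 14136) (nat_lit 6) (nat_lit 186) (nat_lit 3) (nat_lit 156) (nat_lit 129) (nat_lit 165)) (PT.lf (nat_lit 14212) (nat_lit 6) (nat_lit 187) (nat_lit 3) (nat_lit 157) (nat_lit 129) (nat_lit 164)))))) (PT.nd (nat_lit 546) (PT.nd (nat_lit 234) (PT.nd (nat_lit 78) (PT.lf (nat_lit 14288) (nat_lit 6) (nat_lit 188) (nat_lit 3) (nat_lit 158) (nat_lit 129) (nat_lit 163)) (PT.nd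 (nat_lit 78) (PT.lf (nat_lit 14364) (nat_lit 6) (nat_lit 189) (nat_lit 3) (nat_lit 159) (nat_lit 129) (nat_lit 162)) (PT.lf (nat_lit 14440) (nat_lit 6) (nat_lit 190) (nat_lit 3) (nat_lit 160) (nat_lit 129) (nat_lit 161)))) (PT.nd (nat_lit 156) (PT.nd (nat_lit 78) (PT.lf (nat_lit 14440) (nat_lit 6) (nat_lit 190) (nat_lit 1) (nat_lit 161) (nat_lit 129) (nat_lit 160)) (PT.lf (nat_lit 14364) (nat_lit 6) (nat_lit 189) (nat_lit 1) (nat_lit 162) (nat_lit 129) (nat_lit 159))) (PT.nd (nat_lit 78) (PT.lf (nat_lit 14288) (nat_lit 6) (nat_lit 188) (nat_lit 1) (nat_lit 163) (nat_lit 129) (nat_lit 158)) (PT.lf (nat_lit 14212) (nat_lit 6) (nat_lit 187) (nat_lit 1) (nat_lit 164) (nat_lit 129) (nat_lit 157))))) (PT.nd (nat_lit 46020) (PT.nd (nat_lit 156) (PT.nd (nat_lit 78) (PT.lf (nat_lit 14136) (nat_lit 6) (nat_lit 186) (nat_lit 1) (nat_lit 165) (nat_lit 129) (nat_lit 156)) (PT.lf (nat_lit 14060) (nat_lit 6) (nat_lit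 185) (nat_lit 1) (nat_lit 166) (nat_lit 129) (nat_lit 155))) (PT.nd (nat_lit 45786) (PT.lf (nat_lit 13984) (nat_lit 6) (nat_lit 184) (nat_lit 1) (nat_lit 167) (nat_lit 129) (nat_lit 154)) (PT.lf (nat_lit 14516) (nat_lit 6) (nat_lit 191) (nat_lit 3) (nat_lit 153) (nat_lit 130) (nat_lit 167)))) (PT.nd (nat_lit 156) (PT.nd (nat_lit 78) (PT.lf (nat_lit 14592) (nat_lit 6) (nat_lit 192) (nat_lit 3) (nat_lit 154) (nat_lit 130) (nat_lit 166)) (PT.lf (nat_lit 14668) (nat_lit 6) (nat_lit 193) (nat_lit 3) (nat_lit 155) (nat_lit 130) (nat_lit 165))) (PT.nd (nat_lit 78) (PT.lf (nat_lit 14744) (nat_lit 6) (nat_lit 194) (nat_lit 3) (nat_lit 156) (nat_lit 130) (nat_lit 164)) (PT.lf (nat_lit 14820) (nat_lit 6) (nat_lit 195) (nat_lit 3) (nat_lit 157) (nat_lit 130) (nat_lit 163))))))))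
noncomputable def pc5 : PT := (PT.nd (nat_lit 93522) (PT.nd (nat_lit 46722) (PT.nd (nat_lit 546) (PT.nd (nat_lit 234) (PT.nd (nat_lit 78) (PT.lf (nat_lit 14896) (nat_lit 6) (nat_lit 196) (nat_lit 3) (nat_lit 158) (nat_lit 130) (nat_lit 162)) (PT.nd (nat_lit 78) (PT.lf (nat_lit 14972) (nat_lit 6) (nat_lit 197) (nat_lit 3) (nat_lit 159) (nat_lit 130) (nat_lit 161)) (PT.lf (nat_lit 15048) (nat_lit 3) (nat_lit 198) (nat_lit 1) (nat_lit 160) (nat_lit 130) (nat_lit 160)))) (PT.nd (nat_lit 156) (PT.nd (nat_lit 78) (PT.lf (nat_lit 14972) (nat_lit 6) (nat_lit 197) (nat_lit 1) (nat_lit 161) (nat_lit 130) (nat_lit 159)) (PT.lf (nat_lit 14896) (nat_lit 6) (nat_lit 196) (nat_lit 1) (nat_lit 162) (nat_lit 130) (nat_lit 158))) (PT.nd (nat_lit 78) (PT.lf (nat_lit 14820) (nat_lit 6) (nat_lit 195) (nat_lit 1) (nat_lit 163) (nat_lit 130) (nat_lit 157)) (PT.lf (nat_lit 14744) (nat_lit 6) (nat_lit 194) (nat_lit 1) (nat_lit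 164) (nat_lit 130) (nat_lit 156))))) (PT.nd (nat_lit 45864) (PT.nd (nat_lit 78) (PT.lf (nat_lit 14668) (nat_lit 6) (nat_lit 193) (nat_lit 1) (nat_lit 165) (nat_lit 130) (nat_lit 155)) (PT.nd (nat_lit 78) (PT.lf (nat_lit 14592) (nat_lit 6) (nat_lit 192) (nat_lit 1) (nat_lit 166) (nat_lit 130) (nat_lit 154)) (PT.lf (nat_lit 14516) (nat_lit 6) (nat_lit 191) (nat_lit 1) (nat_lit 167) (nat_lit 130) (nat_lit 153)))) (PT.nd (nat_lit 156) (PT.nd (nat_lit 78) (PT.lf (nat_lit 15124) (nat_lit 6) (nat_lit 199) (nat_lit 3) (nat_lit 152) (nat_lit 131) (nat_lit 167)) (PT.lf (nat_lit 15200) (nat_lit 6) (nat_lit 200) (nat_lit 3) (nat_lit 153) (nat_lit 131) (nat_lit 166))) (PT.nd (nat_lit 78) (PT.lf (nat_lit 15276) (nat_lit 6) (nat_lit 201) (nat_lit 3) (nat_lit 154) (nat_lit 131) (nat_lit 165)) (PT.lf (nat_lit 15352) (nat_lit 6) (nat_lit 202) (nat_lit 3) (nat_lit 155) (nat_lit 131) (nat_lit 164)))))) (PT.nd (nat_lit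 546) (PT.nd (nat_lit 234) (PT.nd (nat_lit 78) (PT.lf (nat_lit 15428) (nat_lit 6) (nat_lit 203) (nat_lit 3) (nat_lit 156) (nat_lit 131) (nat_lit 163)) (PT.nd (nat_lit 78) (PT.lf (nat_lit 15504) (nat_lit 6) (nat_lit 204) (nat_lit 3) (nat_lit 157) (nat_lit 131) (nat_lit 162)) (PT.lf (nat_lit 15580) (nat_lit 6) (nat_lit 205) (nat_lit 3) (nat_lit 158) (nat_lit 131) (nat_lit 161)))) (PT.nd (nat_lit 156) (PT.nd (nat_lit 78) (PT.lf (nat_lit 15656) (nat_lit 6) (nat_lit 206) (nat_lit 3) (nat_lit 159) (nat_lit 131) (nat_lit 160)) (PT.lf (nat_lit 15656) (nat_lit 6) (nat_lit 206) (nat_lit 1) (nat_lit 160) (nat_lit 131) (nat_lit 159))) (PT.nd (nat_lit 78) (PT.lf (nat_lit 15580) (nat_lit 6) (nat_lit 205) (nat_lit 1) (nat_lit 161) (nat_lit 131) (nat_lit 158)) (PT.lf (nat_lit 15504) (nat_lit 6) (nat_lit 204) (nat_lit 1) (nat_lit 162) (nat_lit 131) (nat_lit 157))))) (PT.nd (nat_lit 312) (PT.nd (nat_lit 156) (PT.nd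 (nat_lit 78) (PT.lf (nat_lit 15428) (nat_lit 6) (nat_lit 203) (nat_lit 1) (nat_lit 163) (nat_lit 131) (nat_lit 156)) (PT.lf (nat_lit 15352) (nat_lit 6) (nat_lit 202) (nat_lit 1) (nat_lit 164) (nat_lit 131) (nat_lit 155))) (PT.nd (nat_lit 78) (PT.lf (nat_lit 15276) (nat_lit 6) (nat_lit 201) (nat_lit 1) (nat_lit 165) (nat_lit 131) (nat_lit 154)) (PT.lf (nat_lit 15200) (nat_lit 6) (nat_lit 200) (nat_lit 1) (nat_lit 166) (nat_lit 131) (nat_lit 153)))) (PT.nd (nat_lit 45786) (PT.nd (nat_lit 45708) (PT.lf (nat_lit 15124) (nat_lit 6) (nat_lit 199) (nat_lit 1) (nat_lit 167) (nat_lit 131) (nat_lit 152)) (PT.lf (nat_lit 15732) (nat_lit 6) (nat_lit 207) (nat_lit 3) (nat_lit 152) (nat_lit 132) (nat_lit 166))) (PT.nd (nat_lit 78) (PT.lf (nat_lit 15808) (nat_lit 6) (nat_lit 208) (nat_lit 3) (nat_lit 153) (nat_lit 132) (nat_lit 165)) (PT.lf (nat_lit 15884) (nat_lit 6) (nat_lit 209) (nat_lit 3) (nat_lit 154) (nat_lit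 132) (nat_lit 164))))))) (PT.nd (nat_lit 46722) (PT.nd (nat_lit 546) (PT.nd (nat_lit 234) (PT.nd (nat_lit 78) (PT.lf (nat_lit 15960) (nat_lit 6) (nat_lit 210) (nat_lit 3) (nat_lit 155) (nat_lit 132) (nat_lit 163)) (PT.nd (nat_lit 78) (PT.lf (nat_lit 16036) (nat_lit 6) (nat_lit 211) (nat_lit 3) (nat_lit 156) (nat_lit 132) (nat_lit 162)) (PT.lf (nat_lit 16112) (nat_lit 6) (nat_lit 212) (nat_lit 3) (nat_lit 157) (nat_lit 132) (nat_lit 161)))) (PT.nd (nat_lit 156) (PT.nd (nat_lit 78) (PT.lf (nat_lit 16188) (nat_lit 6) (nat_lit 213) (nat_lit 3) (nat_lit 158) (nat_lit 132) (nat_lit 160)) (PT.lf (nat_lit 16264) (nat_lit 3) (nat_lit 214) (nat_lit 1) (nat_lit 159) (nat_lit 132) (nat_lit 159))) (PT.nd (nat_lit 78) (PT.lf (nat_lit 16188) (nat_lit 6) (nat_lit 213) (nat_lit 1) (nat_lit 160) (nat_lit 132) (nat_lit 158)) (PT.lf (nat_lit 16112) (nat_lit 6) (nat_lit 212) (nat_lit 1) (nat_lit 161) (nat_lit 132) (nat_lit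 157))))) (PT.nd (nat_lit 234) (PT.nd (nat_lit 78) (PT.lf (nat_lit 16036) (nat_lit 6) (nat_lit 211) (nat_lit 1) (nat_lit 162) (nat_lit 132) (nat_lit 156)) (PT.nd (nat_lit 78) (PT.lf (nat_lit 15960) (nat_lit 6) (nat_lit 210) (nat_lit 1) (nat_lit 163) (nat_lit 132) (nat_lit 155)) (PT.lf (nat_lit 15884) (nat_lit 6) (nat_lit 209) (nat_lit 1) (nat_lit 164) (nat_lit 132) (nat_lit 154)))) (PT.nd (nat_lit 45786) (PT.nd (nat_lit 78) (PT.lf (nat_lit 15808) (nat_lit 6) (nat_lit 208) (nat_lit 1) (nat_lit 165) (nat_lit 132) (nat_lit 153)) (PT.lf (nat_lit 15732) (nat_lit 6) (nat_lit 207) (nat_lit 1) (nat_lit 166) (nat_lit 132) (nat_lit 152))) (PT.nd (nat_lit 78) (PT.lf (nat_lit 16340) (nat_lit 6) (nat_lit 215) (nat_lit 3) (nat_lit 151) (nat_lit 133) (nat_lit 166)) (PT.lf (nat_lit 16416) (nat_lit 6) (nat_lit 216) (nat_lit 3) (nat_lit 152) (nat_lit 133) (nat_lit 165)))))) (PT.nd (nat_lit 546) (PT.nd (nat_lit 234)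 (PT.nd (nat_lit 78) (PT.lf (nat_lit 16492) (nat_lit 6) (nat_lit 217) (nat_lit 3) (nat_lit 153) (nat_lit 133) (nat_lit 164)) (PT.nd (nat_lit 78) (PT.lf (nat_lit 16568) (nat_lit 6) (nat_lit 218) (nat_lit 3) (nat_lit 154) (nat_lit 133) (nat_lit 163)) (PT.lf (nat_lit 16644) (nat_lit 6) (nat_lit 219) (nat_lit 3) (nat_lit 155) (nat_lit 133) (nat_lit 162)))) (PT.nd (nat_lit 156) (PT.nd (nat_lit 78) (PT.lf (nat_lit 16720) (nat_lit 6) (nat_lit 220) (nat_lit 3) (nat_lit 156) (nat_lit 133) (nat_lit 161)) (PT.lf (nat_lit 16796) (nat_lit 6) (nat_lit 221) (nat_lit 3) (nat_lit 157) (nat_lit 133) (nat_lit 160))) (PT.nd (nat_lit 78) (PT.lf (nat_lit 16872) (nat_lit 6) (nat_lit 222) (nat_lit 3) (nat_lit 158) (nat_lit 133) (nat_lit 159)) (PT.lf (nat_lit 16872) (nat_lit 6) (nat_lit 222) (nat_lit 1) (nat_lit 159) (nat_lit 133) (nat_lit 158))))) (PT.nd (nat_lit 312) (PT.nd (nat_lit 156) (PT.nd (nat_lit 78) (PT.lf (nat_lit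 16796) (nat_lit 6) (nat_lit 221) (nat_lit 1) (nat_lit 160) (nat_lit 133) (nat_lit 157)) (PT.lf (nat_lit 16720) (nat_lit 6) (nat_lit 220) (nat_lit 1) (nat_lit 161) (nat_lit 133) (nat_lit 156))) (PT.nd (nat_lit 78) (PT.lf (nat_lit 16644) (nat_lit 6) (nat_lit 219) (nat_lit 1) (nat_lit 162) (nat_lit 133) (nat_lit 155)) (PT.lf (nat_lit 16568) (nat_lit 6) (nat_lit 218) (nat_lit 1) (nat_lit 163) (nat_lit 133) (nat_lit 154)))) (PT.nd (nat_lit 156) (PT.nd (nat_lit 78) (PT.lf (nat_lit 16492) (nat_lit 6) (nat_lit 217) (nat_lit 1) (nat_lit 164) (nat_lit 133) (nat_lit 153)) (PT.lf (nat_lit 16416) (nat_lit 6) (nat_lit 216) (nat_lit 1) (nat_lit 165) (nat_lit 133) (nat_lit 152))) (PT.nd (nat_lit 45630) (PT.lf (nat_lit 16340) (nat_lit 6) (nat_lit 215) (nat_lit 1) (nat_lit 166) (nat_lit 133) (nat_lit 151)) (PT.lf (nat_lit 17556) (nat_lit 6) (nat_lit 231) (nat_lit 3) (nat_lit 150) (nat_lit 134) (nat_lit 166))))))))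
noncomputable def pc6 : PT := (PT.nd (nat_lit 47658) (PT.nd (nat_lit 1092) (PT.nd (nat_lit 546) (PT.nd (nat_lit 234) (PT.nd (nat_lit 78) (PT.lf (nat_lit 17632) (nat_lit 6) (nat_lit 232) (nat_lit 3) (nat_lit 151) (nat_lit 134) (nat_lit 165)) (PT.nd (nat_lit 78) (PT.lf (nat_lit 17708) (nat_lit 6) (nat_lit 233) (nat_lit 3) (nat_lit 152) (nat_lit 134) (nat_lit 164)) (PT.lf (nat_lit 17784) (nat_lit 6) (nat_lit 234) (nat_lit 3) (nat_lit 153) (nat_lit 134) (nat_lit 163)))) (PT.nd (nat_lit 156) (PT.nd (nat_lit 78) (PT.lf (nat_lit 17860) (nat_lit 6) (nat_lit 235) (nat_lit 3) (nat_lit 154) (nat_lit 134) (nat_lit 162)) (PT.lf (nat_lit 17936) (nat_lit 6) (nat_lit 236) (nat_lit 3) (nat_lit 155) (nat_lit 134) (nat_lit 161))) (PT.nd (nat_lit 78) (PT.lf (nat_lit 18012) (nat_lit 6) (nat_lit 237) (nat_lit 3) (nat_lit 156) (nat_lit 134) (nat_lit 160)) (PT.lf (nat_lit 18088) (nat_lit 6) (nat_lit 238) (nat_lit 3) (nat_lit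 157) (nat_lit 134) (nat_lit 159))))) (PT.nd (nat_lit 234) (PT.nd (nat_lit 78) (PT.lf (nat_lit 18164) (nat_lit 3) (nat_lit 239) (nat_lit 1) (nat_lit 158) (nat_lit 134) (nat_lit 158)) (PT.nd (nat_lit 78) (PT.lf (nat_lit 18088) (nat_lit 6) (nat_lit 238) (nat_lit 1) (nat_lit 159) (nat_lit 134) (nat_lit 157)) (PT.lf (nat_lit 18012) (nat_lit 6) (nat_lit 237) (nat_lit 1) (nat_lit 160) (nat_lit 134) (nat_lit 156)))) (PT.nd (nat_lit 156) (PT.nd (nat_lit 78) (PT.lf (nat_lit 17936) (nat_lit 6) (nat_lit 236) (nat_lit 1) (nat_lit 161) (nat_lit 134) (nat_lit 155)) (PT.lf (nat_lit 17860) (nat_lit 6) (nat_lit 235) (nat_lit 1) (nat_lit 162) (nat_lit 134) (nat_lit 154))) (PT.nd (nat_lit 78) (PT.lf (nat_lit 17784) (nat_lit 6) (nat_lit 234) (nat_lit 1) (nat_lit 163) (nat_lit 134) (nat_lit 153)) (PT.lf (nat_lit 17708) (nat_lit 6) (nat_lit 233) (nat_lit 1) (nat_lit 164) (nat_lit 134) (nat_lit 152)))))) (PT.nd (nat_lit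 46020) (PT.nd (nat_lit 45708) (PT.nd (nat_lit 78) (PT.lf (nat_lit 17632) (nat_lit 6) (nat_lit 232) (nat_lit 1) (nat_lit 165) (nat_lit 134) (nat_lit 151)) (PT.nd (nat_lit 45552) (PT.lf (nat_lit 17556) (nat_lit 6) (nat_lit 231) (nat_lit 1) (nat_lit 166) (nat_lit 134) (nat_lit 150)) (PT.lf (nat_lit 17480) (nat_lit 6) (nat_lit 230) (nat_lit 3) (nat_lit 149) (nat_lit 135) (nat_lit 166)))) (PT.nd (nat_lit 156) (PT.nd (nat_lit 78) (PT.lf (nat_lit 18772) (nat_lit 6) (nat_lit 247) (nat_lit 3) (nat_lit 150) (nat_lit 135) (nat_lit 165)) (PT.lf (nat_lit 18848) (nat_lit 6) (nat_lit 248) (nat_lit 3) (nat_lit 151) (nat_lit 135) (nat_lit 164))) (PT.nd (nat_lit 78) (PT.lf (nat_lit 18924) (nat_lit 6) (nat_lit 249) (nat_lit 3) (nat_lit 152) (nat_lit 135) (nat_lit 163)) (PT.lf (nat_lit 19000) (nat_lit 6) (nat_lit 250) (nat_lit 3) (nat_lit 153) (nat_lit 135) (nat_lit 162))))) (PT.nd (nat_lit 234) (PT.nd (nat_lit 78) (PT.lf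 (nat_lit 19076) (nat_lit 6) (nat_lit 251) (nat_lit 3) (nat_lit 154) (nat_lit 135) (nat_lit 161)) (PT.nd (nat_lit 78) (PT.lf (nat_lit 19152) (nat_lit 6) (nat_lit 252) (nat_lit 3) (nat_lit 155) (nat_lit 135) (nat_lit 160)) (PT.lf (nat_lit 19228) (nat_lit 6) (nat_lit 253) (nat_lit 3) (nat_lit 156) (nat_lit 135) (nat_lit 159)))) (PT.nd (nat_lit 156) (PT.nd (nat_lit 78) (PT.lf (nat_lit 19304) (nat_lit 6) (nat_lit 254) (nat_lit 3) (nat_lit 157) (nat_lit 135) (nat_lit 158)) (PT.lf (nat_lit 19304) (nat_lit 6) (nat_lit 254) (nat_lit 1) (nat_lit 158) (nat_lit 135) (nat_lit 157))) (PT.nd (nat_lit 78) (PT.lf (nat_lit 19228) (nat_lit 6) (nat_lit 253) (nat_lit 1) (nat_lit 159) (nat_lit 135) (nat_lit 156)) (PT.lf (nat_lit 19152) (nat_lit 6) (nat_lit 252) (nat_lit 1) (nat_lit 160) (nat_lit 135) (nat_lit 155))))))) (PT.nd (nat_lit 46488) (PT.nd (nat_lit 45942) (PT.nd (nat_lit 234) (PT.nd (nat_lit 78) (PT.lf (nat_lit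 19076) (nat_lit 6) (nat_lit 251) (nat_lit 1) (nat_lit 161) (nat_lit 135) (nat_lit 154)) (PT.nd (nat_lit 78) (PT.lf (nat_lit 19000) (nat_lit 6) (nat_lit 250) (nat_lit 1) (nat_lit 162) (nat_lit 135) (nat_lit 153)) (PT.lf (nat_lit 18924) (nat_lit 6) (nat_lit 249) (nat_lit 1) (nat_lit 163) (nat_lit 135) (nat_lit 152)))) (PT.nd (nat_lit 156) (PT.nd (nat_lit 78) (PT.lf (nat_lit 18848) (nat_lit 6) (nat_lit 248) (nat_lit 1) (nat_lit 164) (nat_lit 135) (nat_lit 151)) (PT.lf (nat_lit 18772) (nat_lit 6) (nat_lit 247) (nat_lit 1) (nat_lit 165) (nat_lit 135) (nat_lit 150))) (PT.nd (nat_lit 45474) (PT.lf (nat_lit 17480) (nat_lit 6) (nat_lit 230) (nat_lit 1) (nat_lit 166) (nat_lit 135) (nat_lit 149)) (PT.lf (nat_lit 17404) (nat_lit 6) (nat_lit 229) (nat_lit 3) (nat_lit 148) (nat_lit 136) (nat_lit 166))))) (PT.nd (nat_lit 234) (PT.nd (nat_lit 78) (PT.lf (nat_lit 18696) (nat_lit 6) (nat_lit 246) (nat_lit 3) (nat_lit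 149) (nat_lit 136) (nat_lit 165)) (PT.nd (nat_lit 78) (PT.lf (nat_lit 19912) (nat_lit 6) (nat_lit 262) (nat_lit 3) (nat_lit 150) (nat_lit 136) (nat_lit 164)) (PT.lf (nat_lit 19988) (nat_lit 6) (nat_lit 263) (nat_lit 3) (nat_lit 151) (nat_lit 136) (nat_lit 163)))) (PT.nd (nat_lit 156) (PT.nd (nat_lit 78) (PT.lf (nat_lit 20064) (nat_lit 6) (nat_lit 264) (nat_lit 3) (nat_lit 152) (nat_lit 136) (nat_lit 162)) (PT.lf (nat_lit 20140) (nat_lit 6) (nat_lit 265) (nat_lit 3) (nat_lit 153) (nat_lit 136) (nat_lit 161))) (PT.nd (nat_lit 78) (PT.lf (nat_lit 20216) (nat_lit 6) (nat_lit 266) (nat_lit 3) (nat_lit 154) (nat_lit 136) (nat_lit 160)) (PT.lf (nat_lit 20292) (nat_lit 6) (nat_lit 267) (nat_lit 3) (nat_lit 155) (nat_lit 136) (nat_lit 159)))))) (PT.nd (nat_lit 546) (PT.nd (nat_lit 234) (PT.nd (nat_lit 78) (PT.lf (nat_lit 20368) (nat_lit 6) (nat_lit 268) (nat_lit 3) (nat_lit 156) (nat_lit 136) (nat_lit 158))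 (PT.nd (nat_lit 78) (PT.lf (nat_lit 20444) (nat_lit 3) (nat_lit 269) (nat_lit 1) (nat_lit 157) (nat_lit 136) (nat_lit 157)) (PT.lf (nat_lit 20368) (nat_lit 6) (nat_lit 268) (nat_lit 1) (nat_lit 158) (nat_lit 136) (nat_lit 156)))) (PT.nd (nat_lit 156) (PT.nd (nat_lit 78) (PT.lf (nat_lit 20292) (nat_lit 6) (nat_lit 267) (nat_lit 1) (nat_lit 159) (nat_lit 136) (nat_lit 155)) (PT.lf (nat_lit 20216) (nat_lit 6) (nat_lit 266) (nat_lit 1) (nat_lit 160) (nat_lit 136) (nat_lit 154))) (PT.nd (nat_lit 78) (PT.lf (nat_lit 20140) (nat_lit 6) (nat_lit 265) (nat_lit 1) (nat_lit 161) (nat_lit 136) (nat_lit 153)) (PT.lf (nat_lit 20064) (nat_lit 6) (nat_lit 264) (nat_lit 1) (nat_lit 162) (nat_lit 136) (nat_lit 152))))) (PT.nd (nat_lit 45630) (PT.nd (nat_lit 156) (PT.nd (nat_lit 78) (PT.lf (nat_lit 19988) (nat_lit 6) (nat_lit 263) (nat_lit 1) (nat_lit 163) (nat_lit 136) (nat_lit 151)) (PT.lf (nat_lit 19912) (nat_lit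 6) (nat_lit 262) (nat_lit 1) (nat_lit 164) (nat_lit 136) (nat_lit 150))) (PT.nd (nat_lit 78) (PT.lf (nat_lit 18696) (nat_lit 6) (nat_lit 246) (nat_lit 1) (nat_lit 165) (nat_lit 136) (nat_lit 149)) (PT.lf (nat_lit 17404) (nat_lit 6) (nat_lit 229) (nat_lit 1) (nat_lit 166) (nat_lit 136) (nat_lit 148)))) (PT.nd (nat_lit 156) (PT.nd (nat_lit 78) (PT.lf (nat_lit 17328) (nat_lit 6) (nat_lit 228) (nat_lit 3) (nat_lit 147) (nat_lit 137) (nat_lit 166)) (PT.lf (nat_lit 18620) (nat_lit 6) (nat_lit 245) (nat_lit 3) (nat_lit 148) (nat_lit 137) (nat_lit 165))) (PT.nd (nat_lit 78) (PT.lf (nat_lit 19836) (nat_lit 6) (nat_lit 261) (nat_lit 3) (nat_lit 149) (nat_lit 137) (nat_lit 164)) (PT.lf (nat_lit 20976) (nat_lit 6) (nat_lit 276) (nat_lit 3) (nat_lit 150) (nat_lit 137) (nat_lit 163))))))))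
noncomputable def pc7 : PT := (PT.nd (nat_lit 47502) (PT.nd (nat_lit 1092) (PT.nd (nat_lit 546) (PT.nd (nat_lit 234) (PT.nd (nat_lit 78) (PT.lf (nat_lit 21052) (nat_lit 6) (nat_lit 277) (nat_lit 3) (nat_lit 151) (nat_lit 137) (nat_lit 162)) (PT.nd (nat_lit 78) (PT.lf (nat_lit 21128) (nat_lit 6) (nat_lit 278) (nat_lit 3) (nat_lit 152) (nat_lit 137) (nat_lit 161)) (PT.lf (nat_lit 21204) (nat_lit 6) (nat_lit 279) (nat_lit 3) (nat_lit 153) (nat_lit 137) (nat_lit 160)))) (PT.nd (nat_lit 156) (PT.nd (nat_lit 78) (PT.lf (nat_lit 21280) (nat_lit 6) (nat_lit 280) (nat_lit 3) (nat_lit 154) (nat_lit 137) (nat_lit 159)) (PT.lf (nat_lit 21356) (nat_lit 6) (nat_lit 281) (nat_lit 3) (nat_lit 155) (nat_lit 137) (nat_lit 158))) (PT.nd (nat_lit 78) (PT.lf (nat_lit 21432) (nat_lit 6) (nat_lit 282) (nat_lit 3) (nat_lit 156) (nat_lit 137) (nat_lit 157)) (PT.lf (nat_lit 21432) (nat_lit 6) (nat_lit 282) (nat_lit 1) (nat_lit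 157) (nat_lit 137) (nat_lit 156))))) (PT.nd (nat_lit 234) (PT.nd (nat_lit 78) (PT.lf (nat_lit 21356) (nat_lit 6) (nat_lit 281) (nat_lit 1) (nat_lit 158) (nat_lit 137) (nat_lit 155)) (PT.nd (nat_lit 78) (PT.lf (nat_lit 21280) (nat_lit 6) (nat_lit 280) (nat_lit 1) (nat_lit 159) (nat_lit 137) (nat_lit 154)) (PT.lf (nat_lit 21204) (nat_lit 6) (nat_lit 279) (nat_lit 1) (nat_lit 160) (nat_lit 137) (nat_lit 153)))) (PT.nd (nat_lit 156) (PT.nd (nat_lit 78) (PT.lf (nat_lit 21128) (nat_lit 6) (nat_lit 278) (nat_lit 1) (nat_lit 161) (nat_lit 137) (nat_lit 152)) (PT.lf (nat_lit 21052) (nat_lit 6) (nat_lit 277) (nat_lit 1) (nat_lit 162) (nat_lit 137) (nat_lit 151))) (PT.nd (nat_lit 78) (PT.lf (nat_lit 20976) (nat_lit 6) (nat_lit 276) (nat_lit 1) (nat_lit 163) (nat_lit 137) (nat_lit 150)) (PT.lf (nat_lit 19836) (nat_lit 6) (nat_lit 261) (nat_lit 1) (nat_lit 164) (nat_lit 137) (nat_lit 149)))))) (PT.nd (nat_lit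 45786) (PT.nd (nat_lit 45474) (PT.nd (nat_lit 78) (PT.lf (nat_lit 18620) (nat_lit 6) (nat_lit 245) (nat_lit 1) (nat_lit 165) (nat_lit 137) (nat_lit 148)) (PT.nd (nat_lit 45318) (PT.lf (nat_lit 17328) (nat_lit 6) (nat_lit 228) (nat_lit 1) (nat_lit 166) (nat_lit 137) (nat_lit 147)) (PT.lf (nat_lit 17252) (nat_lit 6) (nat_lit 227) (nat_lit 3) (nat_lit 146) (nat_lit 138) (nat_lit 166)))) (PT.nd (nat_lit 156) (PT.nd (nat_lit 78) (PT.lf (nat_lit 18544) (nat_lit 6) (nat_lit 244) (nat_lit 3) (nat_lit 147) (nat_lit 138) (nat_lit 165)) (PT.lf (nat_lit 19760) (nat_lit 6) (nat_lit 260) (nat_lit 3) (nat_lit 148) (nat_lit 138) (nat_lit 164))) (PT.nd (nat_lit 78) (PT.lf (nat_lit 20900) (nat_lit 6) (nat_lit 275) (nat_lit 3) (nat_lit 149) (nat_lit 138) (nat_lit 163)) (PT.lf (nat_lit 21964) (nat_lit 6) (nat_lit 289) (nat_lit 3) (nat_lit 150) (nat_lit 138) (nat_lit 162))))) (PT.nd (nat_lit 312) (PT.nd (nat_lit 156)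 (PT.nd (nat_lit 78) (PT.lf (nat_lit 22040) (nat_lit 6) (nat_lit 290) (nat_lit 3) (nat_lit 151) (nat_lit 138) (nat_lit 161)) (PT.lf (nat_lit 22116) (nat_lit 6) (nat_lit 291) (nat_lit 3) (nat_lit 152) (nat_lit 138) (nat_lit 160))) (PT.nd (nat_lit 78) (PT.lf (nat_lit 22192) (nat_lit 6) (nat_lit 292) (nat_lit 3) (nat_lit 153) (nat_lit 138) (nat_lit 159)) (PT.lf (nat_lit 22268) (nat_lit 6) (nat_lit 293) (nat_lit 3) (nat_lit 154) (nat_lit 138) (nat_lit 158)))) (PT.nd (nat_lit 156) (PT.nd (nat_lit 78) (PT.lf (nat_lit 22344) (nat_lit 6) (nat_lit 294) (nat_lit 3) (nat_lit 155) (nat_lit 138) (nat_lit 157)) (PT.lf (nat_lit 22420) (nat_lit 3) (nat_lit 295) (nat_lit 1) (nat_lit 156) (nat_lit 138) (nat_lit 156))) (PT.nd (nat_lit 78) (PT.lf (nat_lit 22344) (nat_lit 6) (nat_lit 294) (nat_lit 1) (nat_lit 157) (nat_lit 138) (nat_lit 155)) (PT.lf (nat_lit 22268) (nat_lit 6) (nat_lit 293) (nat_lit 1) (nat_lit 158) (nat_lit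 138) (nat_lit 154))))))) (PT.nd (nat_lit 46254) (PT.nd (nat_lit 546) (PT.nd (nat_lit 234) (PT.nd (nat_lit 78) (PT.lf (nat_lit 22192) (nat_lit 6) (nat_lit 292) (nat_lit 1) (nat_lit 159) (nat_lit 138) (nat_lit 153)) (PT.nd (nat_lit 78) (PT.lf (nat_lit 22116) (nat_lit 6) (nat_lit 291) (nat_lit 1) (nat_lit 160) (nat_lit 138) (nat_lit 152)) (PT.lf (nat_lit 22040) (nat_lit 6) (nat_lit 290) (nat_lit 1) (nat_lit 161) (nat_lit 138) (nat_lit 151)))) (PT.nd (nat_lit 156) (PT.nd (nat_lit 78) (PT.lf (nat_lit 21964) (nat_lit 6) (nat_lit 289) (nat_lit 1) (nat_lit 162) (nat_lit 138) (nat_lit 150)) (PT.lf (nat_lit 20900) (nat_lit 6) (nat_lit 275) (nat_lit 1) (nat_lit 163) (nat_lit 138) (nat_lit 149))) (PT.nd (nat_lit 78) (PT.lf (nat_lit 19760) (nat_lit 6) (nat_lit 260) (nat_lit 1) (nat_lit 164) (nat_lit 138) (nat_lit 148)) (PT.lf (nat_lit 18544) (nat_lit 6) (nat_lit 244) (nat_lit 1) (nat_lit 165) (nat_lit 138) (nat_lit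 147))))) (PT.nd (nat_lit 45396) (PT.nd (nat_lit 45240) (PT.lf (nat_lit 17252) (nat_lit 6) (nat_lit 227) (nat_lit 1) (nat_lit 166) (nat_lit 138) (nat_lit 146)) (PT.nd (nat_lit 78) (PT.lf (nat_lit 17176) (nat_lit 6) (nat_lit 226) (nat_lit 3) (nat_lit 145) (nat_lit 139) (nat_lit 166)) (PT.lf (nat_lit 18468) (nat_lit 6) (nat_lit 243) (nat_lit 3) (nat_lit 146) (nat_lit 139) (nat_lit 165)))) (PT.nd (nat_lit 156) (PT.nd (nat_lit 78) (PT.lf (nat_lit 19684) (nat_lit 6) (nat_lit 259) (nat_lit 3) (nat_lit 147) (nat_lit 139) (nat_lit 164)) (PT.lf (nat_lit 20824) (nat_lit 6) (nat_lit 274) (nat_lit 3) (nat_lit 148) (nat_lit 139) (nat_lit 163))) (PT.nd (nat_lit 78) (PT.lf (nat_lit 21888) (nat_lit 6) (nat_lit 288) (nat_lit 3) (nat_lit 149) (nat_lit 139) (nat_lit 162)) (PT.lf (nat_lit 22876) (nat_lit 6) (nat_lit 301) (nat_lit 3) (nat_lit 150) (nat_lit 139) (nat_lit 161)))))) (PT.nd (nat_lit 546) (PT.nd (nat_lit 234)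 (PT.nd (nat_lit 78) (PT.lf (nat_lit 22952) (nat_lit 6) (nat_lit 302) (nat_lit 3) (nat_lit 151) (nat_lit 139) (nat_lit 160)) (PT.nd (nat_lit 78) (PT.lf (nat_lit 23028) (nat_lit 6) (nat_lit 303) (nat_lit 3) (nat_lit 152) (nat_lit 139) (nat_lit 159)) (PT.lf (nat_lit 23104) (nat_lit 6) (nat_lit 304) (nat_lit 3) (nat_lit 153) (nat_lit 139) (nat_lit 158)))) (PT.nd (nat_lit 156) (PT.nd (nat_lit 78) (PT.lf (nat_lit 23180) (nat_lit 6) (nat_lit 305) (nat_lit 3) (nat_lit 154) (nat_lit 139) (nat_lit 157)) (PT.lf (nat_lit 23256) (nat_lit 6) (nat_lit 306) (nat_lit 3) (nat_lit 155) (nat_lit 139) (nat_lit 156))) (PT.nd (nat_lit 78) (PT.lf (nat_lit 23256) (nat_lit 6) (nat_lit 306) (nat_lit 1) (nat_lit 156) (nat_lit 139) (nat_lit 155)) (PT.lf (nat_lit 23180) (nat_lit 6) (nat_lit 305) (nat_lit 1) (nat_lit 157) (nat_lit 139) (nat_lit 154))))) (PT.nd (nat_lit 312) (PT.nd (nat_lit 156) (PT.nd (nat_lit 78) (PT.lf (nat_lit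 23104) (nat_lit 6) (nat_lit 304) (nat_lit 1) (nat_lit 158) (nat_lit 139) (nat_lit 153)) (PT.lf (nat_lit 23028) (nat_lit 6) (nat_lit 303) (nat_lit 1) (nat_lit 159) (nat_lit 139) (nat_lit 152))) (PT.nd (nat_lit 78) (PT.lf (nat_lit 22952) (nat_lit 6) (nat_lit 302) (nat_lit 1) (nat_lit 160) (nat_lit 139) (nat_lit 151)) (PT.lf (nat_lit 22876) (nat_lit 6) (nat_lit 301) (nat_lit 1) (nat_lit 161) (nat_lit 139) (nat_lit 150)))) (PT.nd (nat_lit 156) (PT.nd (nat_lit 78) (PT.lf (nat_lit 21888) (nat_lit 6) (nat_lit 288) (nat_lit 1) (nat_lit 162) (nat_lit 139) (nat_lit 149)) (PT.lf (nat_lit 20824) (nat_lit 6) (nat_lit 274) (nat_lit 1) (nat_lit 163) (nat_lit 139) (nat_lit 148))) (PT.nd (nat_lit 78) (PT.lf (nat_lit 19684) (nat_lit 6) (nat_lit 259) (nat_lit 1) (nat_lit 164) (nat_lit 139) (nat_lit 147)) (PT.lf (nat_lit 18468) (nat_lit 6) (nat_lit 243) (nat_lit 1) (nat_lit 165) (nat_lit 139) (nat_lit 146))))))))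
noncomputable def pc8 : PT := (PT.nd (nat_lit 92352) (PT.nd (nat_lit 46176) (PT.nd (nat_lit 45630) (PT.nd (nat_lit 45318) (PT.nd (nat_lit 45162) (PT.lf (nat_lit 17176) (nat_lit 6) (nat_lit 226) (nat_lit 1) (nat_lit 166) (nat_lit 139) (nat_lit 145)) (PT.nd (nat_lit 78) (PT.lf (nat_lit 17100) (nat_lit 6) (nat_lit 225) (nat_lit 3) (nat_lit 144) (nat_lit 140) (nat_lit 166)) (PT.lf (nat_lit 18392) (nat_lit 6) (nat_lit 242) (nat_lit 3) (nat_lit 145) (nat_lit 140) (nat_lit 165)))) (PT.nd (nat_lit 156) (PT.nd (nat_lit 78) (PT.lf (nat_lit 19608) (nat_lit 6) (nat_lit 258) (nat_lit 3) (nat_lit 146) (nat_lit 140) (nat_lit 164)) (PT.lf (nat_lit 20748) (nat_lit 6) (nat_lit 273) (nat_lit 3) (nat_lit 147) (nat_lit 140) (nat_lit 163))) (PT.nd (nat_lit 78) (PT.lf (nat_lit 21812) (nat_lit 6) (nat_lit 287) (nat_lit 3) (nat_lit 148) (nat_lit 140) (nat_lit 162)) (PT.lf (nat_lit 22800) (nat_lit 6) (nat_lit 300) (nat_lit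 3) (nat_lit 149) (nat_lit 140) (nat_lit 161))))) (PT.nd (nat_lit 234) (PT.nd (nat_lit 78) (PT.lf (nat_lit 23712) (nat_lit 6) (nat_lit 312) (nat_lit 3) (nat_lit 150) (nat_lit 140) (nat_lit 160)) (PT.nd (nat_lit 78) (PT.lf (nat_lit 23788) (nat_lit 6) (nat_lit 313) (nat_lit 3) (nat_lit 151) (nat_lit 140) (nat_lit 159)) (PT.lf (nat_lit 23864) (nat_lit 6) (nat_lit 314) (nat_lit 3) (nat_lit 152) (nat_lit 140) (nat_lit 158)))) (PT.nd (nat_lit 156) (PT.nd (nat_lit 78) (PT.lf (nat_lit 23940) (nat_lit 6) (nat_lit 315) (nat_lit 3) (nat_lit 153) (nat_lit 140) (nat_lit 157)) (PT.lf (nat_lit 24016) (nat_lit 6) (nat_lit 316) (nat_lit 3) (nat_lit 154) (nat_lit 140) (nat_lit 156))) (PT.nd (nat_lit 78) (PT.lf (nat_lit 24092) (nat_lit 3) (nat_lit 317) (nat_lit 1) (nat_lit 155) (nat_lit 140) (nat_lit 155)) (PT.lf (nat_lit 24016) (nat_lit 6) (nat_lit 316) (nat_lit 1) (nat_lit 156) (nat_lit 140) (nat_lit 154)))))) (PT.nd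 (nat_lit 546) (PT.nd (nat_lit 234) (PT.nd (nat_lit 78) (PT.lf (nat_lit 23940) (nat_lit 6) (nat_lit 315) (nat_lit 1) (nat_lit 157) (nat_lit 140) (nat_lit 153)) (PT.nd (nat_lit 78) (PT.lf (nat_lit 23864) (nat_lit 6) (nat_lit 314) (nat_lit 1) (nat_lit 158) (nat_lit 140) (nat_lit 152)) (PT.lf (nat_lit 23788) (nat_lit 6) (nat_lit 313) (nat_lit 1) (nat_lit 159) (nat_lit 140) (nat_lit 151)))) (PT.nd (nat_lit 156) (PT.nd (nat_lit 78) (PT.lf (nat_lit 23712) (nat_lit 6) (nat_lit 312) (nat_lit 1) (nat_lit 160) (nat_lit 140) (nat_lit 150)) (PT.lf (nat_lit 22800) (nat_lit 6) (nat_lit 300) (nat_lit 1) (nat_lit 161) (nat_lit 140) (nat_lit 149))) (PT.nd (nat_lit 78) (PT.lf (nat_lit 21812) (nat_lit 6) (nat_lit 287) (nat_lit 1) (nat_lit 162) (nat_lit 140) (nat_lit 148)) (PT.lf (nat_lit 20748) (nat_lit 6) (nat_lit 273) (nat_lit 1) (nat_lit 163) (nat_lit 140) (nat_lit 147))))) (PT.nd (nat_lit 45318) (PT.nd (nat_lit 78)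 (PT.lf (nat_lit 19608) (nat_lit 6) (nat_lit 258) (nat_lit 1) (nat_lit 164) (nat_lit 140) (nat_lit 146)) (PT.nd (nat_lit 78) (PT.lf (nat_lit 18392) (nat_lit 6) (nat_lit 242) (nat_lit 1) (nat_lit 165) (nat_lit 140) (nat_lit 145)) (PT.lf (nat_lit 17100) (nat_lit 6) (nat_lit 225) (nat_lit 1) (nat_lit 166) (nat_lit 140) (nat_lit 144)))) (PT.nd (nat_lit 156) (PT.nd (nat_lit 78) (PT.lf (nat_lit 18316) (nat_lit 6) (nat_lit 241) (nat_lit 3) (nat_lit 144) (nat_lit 141) (nat_lit 165)) (PT.lf (nat_lit 19532) (nat_lit 6) (nat_lit 257) (nat_lit 3) (nat_lit 145) (nat_lit 141) (nat_lit 164))) (PT.nd (nat_lit 78) (PT.lf (nat_lit 20672) (nat_lit 6) (nat_lit 272) (nat_lit 3) (nat_lit 146) (nat_lit 141) (nat_lit 163)) (PT.lf (nat_lit 21736) (nat_lit 6) (nat_lit 286) (nat_lit 3) (nat_lit 147) (nat_lit 141) (nat_lit 162))))))) (PT.nd (nat_lit 1092) (PT.nd (nat_lit 546) (PT.nd (nat_lit 234) (PT.nd (nat_lit 78) (PT.lf (nat_lit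 22724) (nat_lit 6) (nat_lit 299) (nat_lit 3) (nat_lit 148) (nat_lit 141) (nat_lit 161)) (PT.nd (nat_lit 78) (PT.lf (nat_lit 23636) (nat_lit 6) (nat_lit 311) (nat_lit 3) (nat_lit 149) (nat_lit 141) (nat_lit 160)) (PT.lf (nat_lit 24472) (nat_lit 6) (nat_lit 322) (nat_lit 3) (nat_lit 150) (nat_lit 141) (nat_lit 159)))) (PT.nd (nat_lit 156) (PT.nd (nat_lit 78) (PT.lf (nat_lit 24548) (nat_lit 6) (nat_lit 323) (nat_lit 3) (nat_lit 151) (nat_lit 141) (nat_lit 158)) (PT.lf (nat_lit 24624) (nat_lit 6) (nat_lit 324) (nat_lit 3) (nat_lit 152) (nat_lit 141) (nat_lit 157))) (PT.nd (nat_lit 78) (PT.lf (nat_lit 24700) (nat_lit 6) (nat_lit 325) (nat_lit 3) (nat_lit 153) (nat_lit 141) (nat_lit 156)) (PT.lf (nat_lit 24776) (nat_lit 6) (nat_lit 326) (nat_lit 3) (nat_lit 154) (nat_lit 141) (nat_lit 155))))) (PT.nd (nat_lit 234) (PT.nd (nat_lit 78) (PT.lf (nat_lit 24776) (nat_lit 6) (nat_lit 326) (nat_lit 1) (nat_lit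 155) (nat_lit 141) (nat_lit 154)) (PT.nd (nat_lit 78) (PT.lf (nat_lit 24700) (nat_lit 6) (nat_lit 325) (nat_lit 1) (nat_lit 156) (nat_lit 141) (nat_lit 153)) (PT.lf (nat_lit 24624) (nat_lit 6) (nat_lit 324) (nat_lit 1) (nat_lit 157) (nat_lit 141) (nat_lit 152)))) (PT.nd (nat_lit 156) (PT.nd (nat_lit 78) (PT.lf (nat_lit 24548) (nat_lit 6) (nat_lit 323) (nat_lit 1) (nat_lit 158) (nat_lit 141) (nat_lit 151)) (PT.lf (nat_lit 24472) (nat_lit 6) (nat_lit 322) (nat_lit 1) (nat_lit 159) (nat_lit 141) (nat_lit 150))) (PT.nd (nat_lit 78) (PT.lf (nat_lit 23636) (nat_lit 6) (nat_lit 311) (nat_lit 1) (nat_lit 160) (nat_lit 141) (nat_lit 149)) (PT.lf (nat_lit 22724) (nat_lit 6) (nat_lit 299) (nat_lit 1) (nat_lit 161) (nat_lit 141) (nat_lit 148)))))) (PT.nd (nat_lit 45630) (PT.nd (nat_lit 234) (PT.nd (nat_lit 78) (PT.lf (nat_lit 21736) (nat_lit 6) (nat_lit 286) (nat_lit 1) (nat_lit 162) (nat_lit 141) (nat_lit 147))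 (PT.nd (nat_lit 78) (PT.lf (nat_lit 20672) (nat_lit 6) (nat_lit 272) (nat_lit 1) (nat_lit 163) (nat_lit 141) (nat_lit 146)) (PT.lf (nat_lit 19532) (nat_lit 6) (nat_lit 257) (nat_lit 1) (nat_lit 164) (nat_lit 141) (nat_lit 145)))) (PT.nd (nat_lit 45240) (PT.nd (nat_lit 45162) (PT.lf (nat_lit 18316) (nat_lit 6) (nat_lit 241) (nat_lit 1) (nat_lit 165) (nat_lit 141) (nat_lit 144)) (PT.lf (nat_lit 18240) (nat_lit 6) (nat_lit 240) (nat_lit 3) (nat_lit 143) (nat_lit 142) (nat_lit 165))) (PT.nd (nat_lit 78) (PT.lf (nat_lit 19456) (nat_lit 6) (nat_lit 256) (nat_lit 3) (nat_lit 144) (nat_lit 142) (nat_lit 164)) (PT.lf (nat_lit 20596) (nat_lit 6) (nat_lit 271) (nat_lit 3) (nat_lit 145) (nat_lit 142) (nat_lit 163))))) (PT.nd (nat_lit 312) (PT.nd (nat_lit 156) (PT.nd (nat_lit 78) (PT.lf (nat_lit 21660) (nat_lit 6) (nat_lit 285) (nat_lit 3) (nat_lit 146) (nat_lit 142) (nat_lit 162)) (PT.lf (nat_lit 22648) (nat_lit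 6) (nat_lit 298) (nat_lit 3) (nat_lit 147) (nat_lit 142) (nat_lit 161))) (PT.nd (nat_lit 78) (PT.lf (nat_lit 23560) (nat_lit 6) (nat_lit 310) (nat_lit 3) (nat_lit 148) (nat_lit 142) (nat_lit 160)) (PT.lf (nat_lit 24396) (nat_lit 6) (nat_lit 321) (nat_lit 3) (nat_lit 149) (nat_lit 142) (nat_lit 159)))) (PT.nd (nat_lit 156) (PT.nd (nat_lit 78) (PT.lf (nat_lit 25156) (nat_lit 6) (nat_lit 331) (nat_lit 3) (nat_lit 150) (nat_lit 142) (nat_lit 158)) (PT.lf (nat_lit 25232) (nat_lit 6) (nat_lit 332) (nat_lit 3) (nat_lit 151) (nat_lit 142) (nat_lit 157))) (PT.nd (nat_lit 78) (PT.lf (nat_lit 25308) (nat_lit 6) (nat_lit 333) (nat_lit 3) (nat_lit 152) (nat_lit 142) (nat_lit 156)) (PT.lf (nat_lit 25384) (nat_lit 6) (nat_lit 334) (nat_lit 3) (nat_lit 153) (nat_lit 142) (nat_lit 155))))))))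
noncomputable def pc9 : PT := (PT.nd (nat_lit 47268) (PT.nd (nat_lit 46098) (PT.nd (nat_lit 546) (PT.nd (nat_lit 234) (PT.nd (nat_lit 78) (PT.lf (nat_lit 25460) (nat_lit 3) (nat_lit 335) (nat_lit 1) (nat_lit 154) (nat_lit 142) (nat_lit 154)) (PT.nd (nat_lit 78) (PT.lf (nat_lit 25384) (nat_lit 6) (nat_lit 334) (nat_lit 1) (nat_lit 155) (nat_lit 142) (nat_lit 153)) (PT.lf (nat_lit 25308) (nat_lit 6) (nat_lit 333) (nat_lit 1) (nat_lit 156) (nat_lit 142) (nat_lit 152)))) (PT.nd (nat_lit 156) (PT.nd (nat_lit 78) (PT.lf (nat_lit 25232) (nat_lit 6) (nat_lit 332) (nat_lit 1) (nat_lit 157) (nat_lit 142) (nat_lit 151)) (PT.lf (nat_lit 25156) (nat_lit 6) (nat_lit 331) (nat_lit 1) (nat_lit 158) (nat_lit 142) (nat_lit 150))) (PT.nd (nat_lit 78) (PT.lf (nat_lit 24396) (nat_lit 6) (nat_lit 321) (nat_lit 1) (nat_lit 159) (nat_lit 142) (nat_lit 149)) (PT.lf (nat_lit 23560) (nat_lit 6) (nat_lit 310) (nat_lit 1) (nat_lit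 160) (nat_lit 142) (nat_lit 148))))) (PT.nd (nat_lit 234) (PT.nd (nat_lit 78) (PT.lf (nat_lit 22648) (nat_lit 6) (nat_lit 298) (nat_lit 1) (nat_lit 161) (nat_lit 142) (nat_lit 147)) (PT.nd (nat_lit 78) (PT.lf (nat_lit 21660) (nat_lit 6) (nat_lit 285) (nat_lit 1) (nat_lit 162) (nat_lit 142) (nat_lit 146)) (PT.lf (nat_lit 20596) (nat_lit 6) (nat_lit 271) (nat_lit 1) (nat_lit 163) (nat_lit 142) (nat_lit 145)))) (PT.nd (nat_lit 45162) (PT.nd (nat_lit 78) (PT.lf (nat_lit 19456) (nat_lit 6) (nat_lit 256) (nat_lit 1) (nat_lit 164) (nat_lit 142) (nat_lit 144)) (PT.lf (nat_lit 18240) (nat_lit 6) (nat_lit 240) (nat_lit 1) (nat_lit 165) (nat_lit 142) (nat_lit 143))) (PT.nd (nat_lit 78) (PT.lf (nat_lit 18240) (nat_lit 6) (nat_lit 240) (nat_lit 5) (nat_lit 142) (nat_lit 143) (nat_lit 165)) (PT.lf (nat_lit 19380) (nat_lit 3) (nat_lit 255) (nat_lit 3) (nat_lit 143) (nat_lit 143) (nat_lit 164)))))) (PT.nd (nat_lit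 546) (PT.nd (nat_lit 234) (PT.nd (nat_lit 78) (PT.lf (nat_lit 20520) (nat_lit 6) (nat_lit 270) (nat_lit 3) (nat_lit 144) (nat_lit 143) (nat_lit 163)) (PT.nd (nat_lit 78) (PT.lf (nat_lit 21584) (nat_lit 6) (nat_lit 284) (nat_lit 3) (nat_lit 145) (nat_lit 143) (nat_lit 162)) (PT.lf (nat_lit 22572) (nat_lit 6) (nat_lit 297) (nat_lit 3) (nat_lit 146) (nat_lit 143) (nat_lit 161)))) (PT.nd (nat_lit 156) (PT.nd (nat_lit 78) (PT.lf (nat_lit 23484) (nat_lit 6) (nat_lit 309) (nat_lit 3) (nat_lit 147) (nat_lit 143) (nat_lit 160)) (PT.lf (nat_lit 24320) (nat_lit 6) (nat_lit 320) (nat_lit 3) (nat_lit 148) (nat_lit 143) (nat_lit 159))) (PT.nd (nat_lit 78) (PT.lf (nat_lit 25080) (nat_lit 6) (nat_lit 330) (nat_lit 3) (nat_lit 149) (nat_lit 143) (nat_lit 158)) (PT.lf (nat_lit 25764) (nat_lit 6) (nat_lit 339) (nat_lit 3) (nat_lit 150) (nat_lit 143) (nat_lit 157))))) (PT.nd (nat_lit 312) (PT.nd (nat_lit 156) (PT.nd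 (nat_lit 78) (PT.lf (nat_lit 25840) (nat_lit 6) (nat_lit 340) (nat_lit 3) (nat_lit 151) (nat_lit 143) (nat_lit 156)) (PT.lf (nat_lit 25916) (nat_lit 6) (nat_lit 341) (nat_lit 3) (nat_lit 152) (nat_lit 143) (nat_lit 155))) (PT.nd (nat_lit 78) (PT.lf (nat_lit 25992) (nat_lit 6) (nat_lit 342) (nat_lit 3) (nat_lit 153) (nat_lit 143) (nat_lit 154)) (PT.lf (nat_lit 25992) (nat_lit 6) (nat_lit 342) (nat_lit 1) (nat_lit 154) (nat_lit 143) (nat_lit 153)))) (PT.nd (nat_lit 156) (PT.nd (nat_lit 78) (PT.lf (nat_lit 25916) (nat_lit 6) (nat_lit 341) (nat_lit 1) (nat_lit 155) (nat_lit 143) (nat_lit 152)) (PT.lf (nat_lit 25840) (nat_lit 6) (nat_lit 340) (nat_lit 1) (nat_lit 156) (nat_lit 143) (nat_lit 151))) (PT.nd (nat_lit 78) (PT.lf (nat_lit 25764) (nat_lit 6) (nat_lit 339) (nat_lit 1) (nat_lit 157) (nat_lit 143) (nat_lit 150)) (PT.lf (nat_lit 25080) (nat_lit 6) (nat_lit 330) (nat_lit 1) (nat_lit 158) (nat_lit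 143) (nat_lit 149))))))) (PT.nd (nat_lit 45942) (PT.nd (nat_lit 45396) (PT.nd (nat_lit 234) (PT.nd (nat_lit 78) (PT.lf (nat_lit 24320) (nat_lit 6) (nat_lit 320) (nat_lit 1) (nat_lit 159) (nat_lit 143) (nat_lit 148)) (PT.nd (nat_lit 78) (PT.lf (nat_lit 23484) (nat_lit 6) (nat_lit 309) (nat_lit 1) (nat_lit 160) (nat_lit 143) (nat_lit 147)) (PT.lf (nat_lit 22572) (nat_lit 6) (nat_lit 297) (nat_lit 1) (nat_lit 161) (nat_lit 143) (nat_lit 146)))) (PT.nd (nat_lit 156) (PT.nd (nat_lit 78) (PT.lf (nat_lit 21584) (nat_lit 6) (nat_lit 284) (nat_lit 1) (nat_lit 162) (nat_lit 143) (nat_lit 145)) (PT.lf (nat_lit 20520) (nat_lit 6) (nat_lit 270) (nat_lit 1) (nat_lit 163) (nat_lit 143) (nat_lit 144))) (PT.nd (nat_lit 78) (PT.lf (nat_lit 19380) (nat_lit 3) (nat_lit 255) (nat_lit 0) (nat_lit 164) (nat_lit 143) (nat_lit 143)) (PT.lf (nat_lit 18240) (nat_lit 6) (nat_lit 240) (nat_lit 0) (nat_lit 165) (nat_lit 143) (nat_lit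 142))))) (PT.nd (nat_lit 234) (PT.nd (nat_lit 78) (PT.lf (nat_lit 17100) (nat_lit 6) (nat_lit 225) (nat_lit 5) (nat_lit 140) (nat_lit 144) (nat_lit 166)) (PT.nd (nat_lit 78) (PT.lf (nat_lit 18316) (nat_lit 6) (nat_lit 241) (nat_lit 5) (nat_lit 141) (nat_lit 144) (nat_lit 165)) (PT.lf (nat_lit 19456) (nat_lit 6) (nat_lit 256) (nat_lit 5) (nat_lit 142) (nat_lit 144) (nat_lit 164)))) (PT.nd (nat_lit 156) (PT.nd (nat_lit 78) (PT.lf (nat_lit 20520) (nat_lit 6) (nat_lit 270) (nat_lit 5) (nat_lit 143) (nat_lit 144) (nat_lit 163)) (PT.lf (nat_lit 21508) (nat_lit 3) (nat_lit 283) (nat_lit 3) (nat_lit 144) (nat_lit 144) (nat_lit 162))) (PT.nd (nat_lit 78) (PT.lf (nat_lit 22496) (nat_lit 6) (nat_lit 296) (nat_lit 3) (nat_lit 145) (nat_lit 144) (nat_lit 161)) (PT.lf (nat_lit 23408) (nat_lit 6) (nat_lit 308) (nat_lit 3) (nat_lit 146) (nat_lit 144) (nat_lit 160)))))) (PT.nd (nat_lit 546) (PT.nd (nat_lit 234) (PT.nd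 (nat_lit 78) (PT.lf (nat_lit 24244) (nat_lit 6) (nat_lit 319) (nat_lit 3) (nat_lit 147) (nat_lit 144) (nat_lit 159)) (PT.nd (nat_lit 78) (PT.lf (nat_lit 25004) (nat_lit 6) (nat_lit 329) (nat_lit 3) (nat_lit 148) (nat_lit 144) (nat_lit 158)) (PT.lf (nat_lit 25688) (nat_lit 6) (nat_lit 338) (nat_lit 3) (nat_lit 149) (nat_lit 144) (nat_lit 157)))) (PT.nd (nat_lit 156) (PT.nd (nat_lit 78) (PT.lf (nat_lit 26296) (nat_lit 6) (nat_lit 346) (nat_lit 3) (nat_lit 150) (nat_lit 144) (nat_lit 156)) (PT.lf (nat_lit 26372) (nat_lit 6) (nat_lit 347) (nat_lit 3) (nat_lit 151) (nat_lit 144) (nat_lit 155))) (PT.nd (nat_lit 78) (PT.lf (nat_lit 26448) (nat_lit 6) (nat_lit 348) (nat_lit 3) (nat_lit 152) (nat_lit 144) (nat_lit 154)) (PT.lf (nat_lit 26524) (nat_lit 3) (nat_lit 349) (nat_lit 1) (nat_lit 153) (nat_lit 144) (nat_lit 153))))) (PT.nd (nat_lit 312) (PT.nd (nat_lit 156) (PT.nd (nat_lit 78) (PT.lf (nat_lit 26448)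 (nat_lit 6) (nat_lit 348) (nat_lit 1) (nat_lit 154) (nat_lit 144) (nat_lit 152)) (PT.lf (nat_lit 26372) (nat_lit 6) (nat_lit 347) (nat_lit 1) (nat_lit 155) (nat_lit 144) (nat_lit 151))) (PT.nd (nat_lit 78) (PT.lf (nat_lit 26296) (nat_lit 6) (nat_lit 346) (nat_lit 1) (nat_lit 156) (nat_lit 144) (nat_lit 150)) (PT.lf (nat_lit 25688) (nat_lit 6) (nat_lit 338) (nat_lit 1) (nat_lit 157) (nat_lit 144) (nat_lit 149)))) (PT.nd (nat_lit 156) (PT.nd (nat_lit 78) (PT.lf (nat_lit 25004) (nat_lit 6) (nat_lit 329) (nat_lit 1) (nat_lit 158) (nat_lit 144) (nat_lit 148)) (PT.lf (nat_lit 24244) (nat_lit 6) (nat_lit 319) (nat_lit 1) (nat_lit 159) (nat_lit 144) (nat_lit 147))) (PT.nd (nat_lit 78) (PT.lf (nat_lit 23408) (nat_lit 6) (nat_lit 308) (nat_lit 1) (nat_lit 160) (nat_lit 144) (nat_lit 146)) (PT.lf (nat_lit 22496) (nat_lit 6) (nat_lit 296) (nat_lit 1) (nat_lit 161) (nat_lit 144) (nat_lit 145))))))))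
noncomputable def pc10 : PT := (PT.nd (nat_lit 46878) (PT.nd (nat_lit 45786) (PT.nd (nat_lit 45240) (PT.nd (nat_lit 234) (PT.nd (nat_lit 78) (PT.lf (nat_lit 21508) (nat_lit 3) (nat_lit 283) (nat_lit 0) (nat_lit 162) (nat_lit 144) (nat_lit 144)) (PT.nd (nat_lit 78) (PT.lf (nat_lit 20520) (nat_lit 6) (nat_lit 270) (nat_lit 0) (nat_lit 163) (nat_lit 144) (nat_lit 143)) (PT.lf (nat_lit 19456) (nat_lit 6) (nat_lit 256) (nat_lit 0) (nat_lit 164) (nat_lit 144) (nat_lit 142)))) (PT.nd (nat_lit 44850) (PT.nd (nat_lit 78) (PT.lf (nat_lit 18316) (nat_lit 6) (nat_lit 241) (nat_lit 0) (nat_lit 165) (nat_lit 144) (nat_lit 141)) (PT.lf (nat_lit 17100) (nat_lit 6) (nat_lit 225) (nat_lit 0) (nat_lit 166) (nat_lit 144) (nat_lit 140))) (PT.nd (nat_lit 78) (PT.lf (nat_lit 17176) (nat_lit 6) (nat_lit 226) (nat_lit 5) (nat_lit 139) (nat_lit 145) (nat_lit 166)) (PT.lf (nat_lit 18392) (nat_lit 6) (nat_lit 242) (nat_lit 5)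 (nat_lit 140) (nat_lit 145) (nat_lit 165))))) (PT.nd (nat_lit 234) (PT.nd (nat_lit 78) (PT.lf (nat_lit 19532) (nat_lit 6) (nat_lit 257) (nat_lit 5) (nat_lit 141) (nat_lit 145) (nat_lit 164)) (PT.nd (nat_lit 78) (PT.lf (nat_lit 20596) (nat_lit 6) (nat_lit 271) (nat_lit 5) (nat_lit 142) (nat_lit 145) (nat_lit 163)) (PT.lf (nat_lit 21584) (nat_lit 6) (nat_lit 284) (nat_lit 5) (nat_lit 143) (nat_lit 145) (nat_lit 162)))) (PT.nd (nat_lit 156) (PT.nd (nat_lit 78) (PT.lf (nat_lit 22496) (nat_lit 6) (nat_lit 296) (nat_lit 5) (nat_lit 144) (nat_lit 145) (nat_lit 161)) (PT.lf (nat_lit 23332) (nat_lit 3) (nat_lit 307) (nat_lit 3) (nat_lit 145) (nat_lit 145) (nat_lit 160))) (PT.nd (nat_lit 78) (PT.lf (nat_lit 24168) (nat_lit 6) (nat_lit 318) (nat_lit 3) (nat_lit 146) (nat_lit 145) (nat_lit 159)) (PT.lf (nat_lit 24928) (nat_lit 6) (nat_lit 328) (nat_lit 3) (nat_lit 147) (nat_lit 145) (nat_lit 158)))))) (PT.nd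 (nat_lit 546) (PT.nd (nat_lit 234) (PT.nd (nat_lit 78) (PT.lf (nat_lit 25612) (nat_lit 6) (nat_lit 337) (nat_lit 3) (nat_lit 148) (nat_lit 145) (nat_lit 157)) (PT.nd (nat_lit 78) (PT.lf (nat_lit 26220) (nat_lit 6) (nat_lit 345) (nat_lit 3) (nat_lit 149) (nat_lit 145) (nat_lit 156)) (PT.lf (nat_lit 26752) (nat_lit 6) (nat_lit 352) (nat_lit 3) (nat_lit 150) (nat_lit 145) (nat_lit 155)))) (PT.nd (nat_lit 156) (PT.nd (nat_lit 78) (PT.lf (nat_lit 26828) (nat_lit 6) (nat_lit 353) (nat_lit 3) (nat_lit 151) (nat_lit 145) (nat_lit 154)) (PT.lf (nat_lit 26904) (nat_lit 6) (nat_lit 354) (nat_lit 3) (nat_lit 152) (nat_lit 145) (nat_lit 153))) (PT.nd (nat_lit 78) (PT.lf (nat_lit 26904) (nat_lit 6) (nat_lit 354) (nat_lit 1) (nat_lit 153) (nat_lit 145) (nat_lit 152)) (PT.lf (nat_lit 26828) (nat_lit 6) (nat_lit 353) (nat_lit 1) (nat_lit 154) (nat_lit 145) (nat_lit 151))))) (PT.nd (nat_lit 234) (PT.nd (nat_lit 78)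 (PT.lf (nat_lit 26752) (nat_lit 6) (nat_lit 352) (nat_lit 1) (nat_lit 155) (nat_lit 145) (nat_lit 150)) (PT.nd (nat_lit 78) (PT.lf (nat_lit 26220) (nat_lit 6) (nat_lit 345) (nat_lit 1) (nat_lit 156) (nat_lit 145) (nat_lit 149)) (PT.lf (nat_lit 25612) (nat_lit 6) (nat_lit 337) (nat_lit 1) (nat_lit 157) (nat_lit 145) (nat_lit 148)))) (PT.nd (nat_lit 156) (PT.nd (nat_lit 78) (PT.lf (nat_lit 24928) (nat_lit 6) (nat_lit 328) (nat_lit 1) (nat_lit 158) (nat_lit 145) (nat_lit 147)) (PT.lf (nat_lit 24168) (nat_lit 6) (nat_lit 318) (nat_lit 1) (nat_lit 159) (nat_lit 145) (nat_lit 146))) (PT.nd (nat_lit 78) (PT.lf (nat_lit 23332) (nat_lit 3) (nat_lit 307) (nat_lit 0) (nat_lit 160) (nat_lit 145) (nat_lit 145)) (PT.lf (nat_lit 22496) (nat_lit 6) (nat_lit 296) (nat_lit 0) (nat_lit 161) (nat_lit 145) (nat_lit 144))))))) (PT.nd (nat_lit 45708) (PT.nd (nat_lit 45162) (PT.nd (nat_lit 234) (PT.nd (nat_lit 78) (PT.lf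 (nat_lit 21584) (nat_lit 6) (nat_lit 284) (nat_lit 0) (nat_lit 162) (nat_lit 145) (nat_lit 143)) (PT.nd (nat_lit 78) (PT.lf (nat_lit 20596) (nat_lit 6) (nat_lit 271) (nat_lit 0) (nat_lit 163) (nat_lit 145) (nat_lit 142)) (PT.lf (nat_lit 19532) (nat_lit 6) (nat_lit 257) (nat_lit 0) (nat_lit 164) (nat_lit 145) (nat_lit 141)))) (PT.nd (nat_lit 44772) (PT.nd (nat_lit 78) (PT.lf (nat_lit 18392) (nat_lit 6) (nat_lit 242) (nat_lit 0) (nat_lit 165) (nat_lit 145) (nat_lit 140)) (PT.lf (nat_lit 17176) (nat_lit 6) (nat_lit 226) (nat_lit 0) (nat_lit 166) (nat_lit 145) (nat_lit 139))) (PT.nd (nat_lit 78) (PT.lf (nat_lit 17252) (nat_lit 6) (nat_lit 227) (nat_lit 5) (nat_lit 138) (nat_lit 146) (nat_lit 166)) (PT.lf (nat_lit 18468) (nat_lit 6) (nat_lit 243) (nat_lit 5) (nat_lit 139) (nat_lit 146) (nat_lit 165))))) (PT.nd (nat_lit 234) (PT.nd (nat_lit 78) (PT.lf (nat_lit 19608) (nat_lit 6) (nat_lit 258) (nat_lit 5)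 (nat_lit 140) (nat_lit 146) (nat_lit 164)) (PT.nd (nat_lit 78) (PT.lf (nat_lit 20672) (nat_lit 6) (nat_lit 272) (nat_lit 5) (nat_lit 141) (nat_lit 146) (nat_lit 163)) (PT.lf (nat_lit 21660) (nat_lit 6) (nat_lit 285) (nat_lit 5) (nat_lit 142) (nat_lit 146) (nat_lit 162)))) (PT.nd (nat_lit 156) (PT.nd (nat_lit 78) (PT.lf (nat_lit 22572) (nat_lit 6) (nat_lit 297) (nat_lit 5) (nat_lit 143) (nat_lit 146) (nat_lit 161)) (PT.lf (nat_lit 23408) (nat_lit 6) (nat_lit 308) (nat_lit 5) (nat_lit 144) (nat_lit 146) (nat_lit 160))) (PT.nd (nat_lit 78) (PT.lf (nat_lit 24168) (nat_lit 6) (nat_lit 318) (nat_lit 5) (nat_lit 145) (nat_lit 146) (nat_lit 159)) (PT.lf (nat_lit 24852) (nat_lit 3) (nat_lit 327) (nat_lit 3) (nat_lit 146) (nat_lit 146) (nat_lit 158)))))) (PT.nd (nat_lit 546) (PT.nd (nat_lit 234) (PT.nd (nat_lit 78) (PT.lf (nat_lit 25536) (nat_lit 6) (nat_lit 336) (nat_lit 3) (nat_lit 147) (nat_lit 146) (nat_lit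 157)) (PT.nd (nat_lit 78) (PT.lf (nat_lit 26144) (nat_lit 6) (nat_lit 344) (nat_lit 3) (nat_lit 148) (nat_lit 146) (nat_lit 156)) (PT.lf (nat_lit 26676) (nat_lit 6) (nat_lit 351) (nat_lit 3) (nat_lit 149) (nat_lit 146) (nat_lit 155)))) (PT.nd (nat_lit 156) (PT.nd (nat_lit 78) (PT.lf (nat_lit 27132) (nat_lit 6) (nat_lit 357) (nat_lit 3) (nat_lit 150) (nat_lit 146) (nat_lit 154)) (PT.lf (nat_lit 27208) (nat_lit 6) (nat_lit 358) (nat_lit 3) (nat_lit 151) (nat_lit 146) (nat_lit 153))) (PT.nd (nat_lit 78) (PT.lf (nat_lit 27284) (nat_lit 3) (nat_lit 359) (nat_lit 1) (nat_lit 152) (nat_lit 146) (nat_lit 152)) (PT.lf (nat_lit 27208) (nat_lit 6) (nat_lit 358) (nat_lit 1) (nat_lit 153) (nat_lit 146) (nat_lit 151))))) (PT.nd (nat_lit 312) (PT.nd (nat_lit 156) (PT.nd (nat_lit 78) (PT.lf (nat_lit 27132) (nat_lit 6) (nat_lit 357) (nat_lit 1) (nat_lit 154) (nat_lit 146) (nat_lit 150)) (PT.lf (nat_lit 26676) (nat_lit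 6) (nat_lit 351) (nat_lit 1) (nat_lit 155) (nat_lit 146) (nat_lit 149))) (PT.nd (nat_lit 78) (PT.lf (nat_lit 26144) (nat_lit 6) (nat_lit 344) (nat_lit 1) (nat_lit 156) (nat_lit 146) (nat_lit 148)) (PT.lf (nat_lit 25536) (nat_lit 6) (nat_lit 336) (nat_lit 1) (nat_lit 157) (nat_lit 146) (nat_lit 147)))) (PT.nd (nat_lit 156) (PT.nd (nat_lit 78) (PT.lf (nat_lit 24852) (nat_lit 3) (nat_lit 327) (nat_lit 0) (nat_lit 158) (nat_lit 146) (nat_lit 146)) (PT.lf (nat_lit 24168) (nat_lit 6) (nat_lit 318) (nat_lit 0) (nat_lit 159) (nat_lit 146) (nat_lit 145))) (PT.nd (nat_lit 78) (PT.lf (nat_lit 23408) (nat_lit 6) (nat_lit 308) (nat_lit 0) (nat_lit 160) (nat_lit 146) (nat_lit 144)) (PT.lf (nat_lit 22572) (nat_lit 6) (nat_lit 297) (nat_lit 0) (nat_lit 161) (nat_lit 146) (nat_lit 143))))))))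
noncomputable def pc11 : PT := (PT.nd (nat_lit 46800) (PT.nd (nat_lit 45630) (PT.nd (nat_lit 45084) (PT.nd (nat_lit 234) (PT.nd (nat_lit 78) (PT.lf (nat_lit 21660) (nat_lit 6) (nat_lit 285) (nat_lit 0) (nat_lit 162) (nat_lit 146) (nat_lit 142)) (PT.nd (nat_lit 78) (PT.lf (nat_lit 20672) (nat_lit 6) (nat_lit 272) (nat_lit 0) (nat_lit 163) (nat_lit 146) (nat_lit 141)) (PT.lf (nat_lit 19608) (nat_lit 6) (nat_lit 258) (nat_lit 0) (nat_lit 164) (nat_lit 146) (nat_lit 140)))) (PT.nd (nat_lit 44694) (PT.nd (nat_lit 78) (PT.lf (nat_lit 18468) (nat_lit 6) (nat_lit 243) (nat_lit 0) (nat_lit 165) (nat_lit 146) (nat_lit 139)) (PT.lf (nat_lit 17252) (nat_lit 6) (nat_lit 227) (nat_lit 0) (nat_lit 166) (nat_lit 146) (nat_lit 138))) (PT.nd (nat_lit 78) (PT.lf (nat_lit 17328) (nat_lit 6) (nat_lit 228) (nat_lit 5) (nat_lit 137) (nat_lit 147) (nat_lit 166)) (PT.lf (nat_lit 18544) (nat_lit 6) (nat_lit 244) (nat_lit 5)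 (nat_lit 138) (nat_lit 147) (nat_lit 165))))) (PT.nd (nat_lit 234) (PT.nd (nat_lit 78) (PT.lf (nat_lit 19684) (nat_lit 6) (nat_lit 259) (nat_lit 5) (nat_lit 139) (nat_lit 147) (nat_lit 164)) (PT.nd (nat_lit 78) (PT.lf (nat_lit 20748) (nat_lit 6) (nat_lit 273) (nat_lit 5) (nat_lit 140) (nat_lit 147) (nat_lit 163)) (PT.lf (nat_lit 21736) (nat_lit 6) (nat_lit 286) (nat_lit 5) (nat_lit 141) (nat_lit 147) (nat_lit 162)))) (PT.nd (nat_lit 156) (PT.nd (nat_lit 78) (PT.lf (nat_lit 22648) (nat_lit 6) (nat_lit 298) (nat_lit 5) (nat_lit 142) (nat_lit 147) (nat_lit 161)) (PT.lf (nat_lit 23484) (nat_lit 6) (nat_lit 309) (nat_lit 5) (nat_lit 143) (nat_lit 147) (nat_lit 160))) (PT.nd (nat_lit 78) (PT.lf (nat_lit 24244) (nat_lit 6) (nat_lit 319) (nat_lit 5) (nat_lit 144) (nat_lit 147) (nat_lit 159)) (PT.lf (nat_lit 24928) (nat_lit 6) (nat_lit 328) (nat_lit 5) (nat_lit 145) (nat_lit 147) (nat_lit 158)))))) (PT.nd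 (nat_lit 546) (PT.nd (nat_lit 234) (PT.nd (nat_lit 78) (PT.lf (nat_lit 25536) (nat_lit 6) (nat_lit 336) (nat_lit 5) (nat_lit 146) (nat_lit 147) (nat_lit 157)) (PT.nd (nat_lit 78) (PT.lf (nat_lit 26068) (nat_lit 3) (nat_lit 343) (nat_lit 3) (nat_lit 147) (nat_lit 147) (nat_lit 156)) (PT.lf (nat_lit 26600) (nat_lit 6) (nat_lit 350) (nat_lit 3) (nat_lit 148) (nat_lit 147) (nat_lit 155)))) (PT.nd (nat_lit 156) (PT.nd (nat_lit 78) (PT.lf (nat_lit 27056) (nat_lit 6) (nat_lit 356) (nat_lit 3) (nat_lit 149) (nat_lit 147) (nat_lit 154)) (PT.lf (nat_lit 27436) (nat_lit 6) (nat_lit 361) (nat_lit 3) (nat_lit 150) (nat_lit 147) (nat_lit 153))) (PT.nd (nat_lit 78) (PT.lf (nat_lit 27512) (nat_lit 6) (nat_lit 362) (nat_lit 3) (nat_lit 151) (nat_lit 147) (nat_lit 152)) (PT.lf (nat_lit 27512) (nat_lit 6) (nat_lit 362) (nat_lit 1) (nat_lit 152) (nat_lit 147) (nat_lit 151))))) (PT.nd (nat_lit 312) (PT.nd (nat_lit 156)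 (PT.nd (nat_lit 78) (PT.lf (nat_lit 27436) (nat_lit 6) (nat_lit 361) (nat_lit 1) (nat_lit 153) (nat_lit 147) (nat_lit 150)) (PT.lf (nat_lit 27056) (nat_lit 6) (nat_lit 356) (nat_lit 1) (nat_lit 154) (nat_lit 147) (nat_lit 149))) (PT.nd (nat_lit 78) (PT.lf (nat_lit 26600) (nat_lit 6) (nat_lit 350) (nat_lit 1) (nat_lit 155) (nat_lit 147) (nat_lit 148)) (PT.lf (nat_lit 26068) (nat_lit 3) (nat_lit 343) (nat_lit 0) (nat_lit 156) (nat_lit 147) (nat_lit 147)))) (PT.nd (nat_lit 156) (PT.nd (nat_lit 78) (PT.lf (nat_lit 25536) (nat_lit 6) (nat_lit 336) (nat_lit 0) (nat_lit 157) (nat_lit 147) (nat_lit 146)) (PT.lf (nat_lit 24928) (nat_lit 6) (nat_lit 328) (nat_lit 0) (nat_lit 158) (nat_lit 147) (nat_lit 145))) (PT.nd (nat_lit 78) (PT.lf (nat_lit 24244) (nat_lit 6) (nat_lit 319) (nat_lit 0) (nat_lit 159) (nat_lit 147) (nat_lit 144)) (PT.lf (nat_lit 23484) (nat_lit 6) (nat_lit 309) (nat_lit 0) (nat_lit 160) (nat_lit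 147) (nat_lit 143))))))) (PT.nd (nat_lit 45552) (PT.nd (nat_lit 45006) (PT.nd (nat_lit 234) (PT.nd (nat_lit 78) (PT.lf (nat_lit 22648) (nat_lit 6) (nat_lit 298) (nat_lit 0) (nat_lit 161) (nat_lit 147) (nat_lit 142)) (PT.nd (nat_lit 78) (PT.lf (nat_lit 21736) (nat_lit 6) (nat_lit 286) (nat_lit 0) (nat_lit 162) (nat_lit 147) (nat_lit 141)) (PT.lf (nat_lit 20748) (nat_lit 6) (nat_lit 273) (nat_lit 0) (nat_lit 163) (nat_lit 147) (nat_lit 140)))) (PT.nd (nat_lit 156) (PT.nd (nat_lit 78) (PT.lf (nat_lit 19684) (nat_lit 6) (nat_lit 259) (nat_lit 0) (nat_lit 164) (nat_lit 147) (nat_lit 139)) (PT.lf (nat_lit 18544) (nat_lit 6) (nat_lit 244) (nat_lit 0) (nat_lit 165) (nat_lit 147) (nat_lit 138))) (PT.nd (nat_lit 44538) (PT.lf (nat_lit 17328) (nat_lit 6) (nat_lit 228) (nat_lit 0) (nat_lit 166) (nat_lit 147) (nat_lit 137)) (PT.lf (nat_lit 17404) (nat_lit 6) (nat_lit 229) (nat_lit 5) (nat_lit 136) (nat_lit 148)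 (nat_lit 166))))) (PT.nd (nat_lit 234) (PT.nd (nat_lit 78) (PT.lf (nat_lit 18620) (nat_lit 6) (nat_lit 245) (nat_lit 5) (nat_lit 137) (nat_lit 148) (nat_lit 165)) (PT.nd (nat_lit 78) (PT.lf (nat_lit 19760) (nat_lit 6) (nat_lit 260) (nat_lit 5) (nat_lit 138) (nat_lit 148) (nat_lit 164)) (PT.lf (nat_lit 20824) (nat_lit 6) (nat_lit 274) (nat_lit 5) (nat_lit 139) (nat_lit 148) (nat_lit 163)))) (PT.nd (nat_lit 156) (PT.nd (nat_lit 78) (PT.lf (nat_lit 21812) (nat_lit 6) (nat_lit 287) (nat_lit 5) (nat_lit 140) (nat_lit 148) (nat_lit 162)) (PT.lf (nat_lit 22724) (nat_lit 6) (nat_lit 299) (nat_lit 5) (nat_lit 141) (nat_lit 148) (nat_lit 161))) (PT.nd (nat_lit 78) (PT.lf (nat_lit 23560) (nat_lit 6) (nat_lit 310) (nat_lit 5) (nat_lit 142) (nat_lit 148) (nat_lit 160)) (PT.lf (nat_lit 24320) (nat_lit 6) (nat_lit 320) (nat_lit 5) (nat_lit 143) (nat_lit 148) (nat_lit 159)))))) (PT.nd (nat_lit 546) (PT.nd (nat_lit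 234) (PT.nd (nat_lit 78) (PT.lf (nat_lit 25004) (nat_lit 6) (nat_lit 329) (nat_lit 5) (nat_lit 144) (nat_lit 148) (nat_lit 158)) (PT.nd (nat_lit 78) (PT.lf (nat_lit 25612) (nat_lit 6) (nat_lit 337) (nat_lit 5) (nat_lit 145) (nat_lit 148) (nat_lit 157)) (PT.lf (nat_lit 26144) (nat_lit 6) (nat_lit 344) (nat_lit 5) (nat_lit 146) (nat_lit 148) (nat_lit 156)))) (PT.nd (nat_lit 156) (PT.nd (nat_lit 78) (PT.lf (nat_lit 26600) (nat_lit 6) (nat_lit 350) (nat_lit 5) (nat_lit 147) (nat_lit 148) (nat_lit 155)) (PT.lf (nat_lit 26980) (nat_lit 3) (nat_lit 355) (nat_lit 3) (nat_lit 148) (nat_lit 148) (nat_lit 154))) (PT.nd (nat_lit 78) (PT.lf (nat_lit 27360) (nat_lit 6) (nat_lit 360) (nat_lit 3) (nat_lit 149) (nat_lit 148) (nat_lit 153)) (PT.lf (nat_lit 27664) (nat_lit 6) (nat_lit 364) (nat_lit 3) (nat_lit 150) (nat_lit 148) (nat_lit 152))))) (PT.nd (nat_lit 312) (PT.nd (nat_lit 156) (PT.nd (nat_lit 78) (PT.lf (nat_lit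 27740) (nat_lit 3) (nat_lit 365) (nat_lit 1) (nat_lit 151) (nat_lit 148) (nat_lit 151)) (PT.lf (nat_lit 27664) (nat_lit 6) (nat_lit 364) (nat_lit 1) (nat_lit 152) (nat_lit 148) (nat_lit 150))) (PT.nd (nat_lit 78) (PT.lf (nat_lit 27360) (nat_lit 6) (nat_lit 360) (nat_lit 1) (nat_lit 153) (nat_lit 148) (nat_lit 149)) (PT.lf (nat_lit 26980) (nat_lit 3) (nat_lit 355) (nat_lit 0) (nat_lit 154) (nat_lit 148) (nat_lit 148)))) (PT.nd (nat_lit 156) (PT.nd (nat_lit 78) (PT.lf (nat_lit 26600) (nat_lit 6) (nat_lit 350) (nat_lit 0) (nat_lit 155) (nat_lit 148) (nat_lit 147)) (PT.lf (nat_lit 26144) (nat_lit 6) (nat_lit 344) (nat_lit 0) (nat_lit 156) (nat_lit 148) (nat_lit 146))) (PT.nd (nat_lit 78) (PT.lf (nat_lit 25612) (nat_lit 6) (nat_lit 337) (nat_lit 0) (nat_lit 157) (nat_lit 148) (nat_lit 145)) (PT.lf (nat_lit 25004) (nat_lit 6) (nat_lit 329) (nat_lit 0) (nat_lit 158) (nat_lit 148) (nat_lit 144))))))))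
noncomputable def pc12 : PT := (PT.nd (nat_lit 46566) (PT.nd (nat_lit 45474) (PT.nd (nat_lit 546) (PT.nd (nat_lit 234) (PT.nd (nat_lit 78) (PT.lf (nat_lit 24320) (nat_lit 6) (nat_lit 320) (nat_lit 0) (nat_lit 159) (nat_lit 148) (nat_lit 143)) (PT.nd (nat_lit 78) (PT.lf (nat_lit 23560) (nat_lit 6) (nat_lit 310) (nat_lit 0) (nat_lit 160) (nat_lit 148) (nat_lit 142)) (PT.lf (nat_lit 22724) (nat_lit 6) (nat_lit 299) (nat_lit 0) (nat_lit 161) (nat_lit 148) (nat_lit 141)))) (PT.nd (nat_lit 156) (PT.nd (nat_lit 78) (PT.lf (nat_lit 21812) (nat_lit 6) (nat_lit 287) (nat_lit 0) (nat_lit 162) (nat_lit 148) (nat_lit 140)) (PT.lf (nat_lit 20824) (nat_lit 6) (nat_lit 274) (nat_lit 0) (nat_lit 163) (nat_lit 148) (nat_lit 139))) (PT.nd (nat_lit 78) (PT.lf (nat_lit 19760) (nat_lit 6) (nat_lit 260) (nat_lit 0) (nat_lit 164) (nat_lit 148) (nat_lit 138)) (PT.lf (nat_lit 18620) (nat_lit 6) (nat_lit 245) (nat_lit 0) (nat_lit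 165) (nat_lit 148) (nat_lit 137))))) (PT.nd (nat_lit 44616) (PT.nd (nat_lit 44460) (PT.lf (nat_lit 17404) (nat_lit 6) (nat_lit 229) (nat_lit 0) (nat_lit 166) (nat_lit 148) (nat_lit 136)) (PT.nd (nat_lit 78) (PT.lf (nat_lit 17480) (nat_lit 6) (nat_lit 230) (nat_lit 5) (nat_lit 135) (nat_lit 149) (nat_lit 166)) (PT.lf (nat_lit 18696) (nat_lit 6) (nat_lit 246) (nat_lit 5) (nat_lit 136) (nat_lit 149) (nat_lit 165)))) (PT.nd (nat_lit 156) (PT.nd (nat_lit 78) (PT.lf (nat_lit 19836) (nat_lit 6) (nat_lit 261) (nat_lit 5) (nat_lit 137) (nat_lit 149) (nat_lit 164)) (PT.lf (nat_lit 20900) (nat_lit 6) (nat_lit 275) (nat_lit 5) (nat_lit 138) (nat_lit 149) (nat_lit 163))) (PT.nd (nat_lit 78) (PT.lf (nat_lit 21888) (nat_lit 6) (nat_lit 288) (nat_lit 5) (nat_lit 139) (nat_lit 149) (nat_lit 162)) (PT.lf (nat_lit 22800) (nat_lit 6) (nat_lit 300) (nat_lit 5) (nat_lit 140) (nat_lit 149) (nat_lit 161)))))) (PT.nd (nat_lit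 546) (PT.nd (nat_lit 234) (PT.nd (nat_lit 78) (PT.lf (nat_lit 23636) (nat_lit 6) (nat_lit 311) (nat_lit 5) (nat_lit 141) (nat_lit 149) (nat_lit 160)) (PT.nd (nat_lit 78) (PT.lf (nat_lit 24396) (nat_lit 6) (nat_lit 321) (nat_lit 5) (nat_lit 142) (nat_lit 149) (nat_lit 159)) (PT.lf (nat_lit 25080) (nat_lit 6) (nat_lit 330) (nat_lit 5) (nat_lit 143) (nat_lit 149) (nat_lit 158)))) (PT.nd (nat_lit 156) (PT.nd (nat_lit 78) (PT.lf (nat_lit 25688) (nat_lit 6) (nat_lit 338) (nat_lit 5) (nat_lit 144) (nat_lit 149) (nat_lit 157)) (PT.lf (nat_lit 26220) (nat_lit 6) (nat_lit 345) (nat_lit 5) (nat_lit 145) (nat_lit 149) (nat_lit 156))) (PT.nd (nat_lit 78) (PT.lf (nat_lit 26676) (nat_lit 6) (nat_lit 351) (nat_lit 5) (nat_lit 146) (nat_lit 149) (nat_lit 155)) (PT.lf (nat_lit 27056) (nat_lit 6) (nat_lit 356) (nat_lit 5) (nat_lit 147) (nat_lit 149) (nat_lit 154))))) (PT.nd (nat_lit 234) (PT.nd (nat_lit 78) (PT.lf (nat_lit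 27360) (nat_lit 6) (nat_lit 360) (nat_lit 5) (nat_lit 148) (nat_lit 149) (nat_lit 153)) (PT.nd (nat_lit 78) (PT.lf (nat_lit 27588) (nat_lit 3) (nat_lit 363) (nat_lit 3) (nat_lit 149) (nat_lit 149) (nat_lit 152)) (PT.lf (nat_lit 27816) (nat_lit 6) (nat_lit 366) (nat_lit 3) (nat_lit 150) (nat_lit 149) (nat_lit 151)))) (PT.nd (nat_lit 156) (PT.nd (nat_lit 78) (PT.lf (nat_lit 27816) (nat_lit 6) (nat_lit 366) (nat_lit 1) (nat_lit 151) (nat_lit 149) (nat_lit 150)) (PT.lf (nat_lit 27588) (nat_lit 3) (nat_lit 363) (nat_lit 0) (nat_lit 152) (nat_lit 149) (nat_lit 149))) (PT.nd (nat_lit 78) (PT.lf (nat_lit 27360) (nat_lit 6) (nat_lit 360) (nat_lit 0) (nat_lit 153) (nat_lit 149) (nat_lit 148)) (PT.lf (nat_lit 27056) (nat_lit 6) (nat_lit 356) (nat_lit 0) (nat_lit 154) (nat_lit 149) (nat_lit 147))))))) (PT.nd (nat_lit 45396) (PT.nd (nat_lit 546) (PT.nd (nat_lit 234) (PT.nd (nat_lit 78) (PT.lf (nat_lit 26676) (nat_lit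 6) (nat_lit 351) (nat_lit 0) (nat_lit 155) (nat_lit 149) (nat_lit 146)) (PT.nd (nat_lit 78) (PT.lf (nat_lit 26220) (nat_lit 6) (nat_lit 345) (nat_lit 0) (nat_lit 156) (nat_lit 149) (nat_lit 145)) (PT.lf (nat_lit 25688) (nat_lit 6) (nat_lit 338) (nat_lit 0) (nat_lit 157) (nat_lit 149) (nat_lit 144)))) (PT.nd (nat_lit 156) (PT.nd (nat_lit 78) (PT.lf (nat_lit 25080) (nat_lit 6) (nat_lit 330) (nat_lit 0) (nat_lit 158) (nat_lit 149) (nat_lit 143)) (PT.lf (nat_lit 24396) (nat_lit 6) (nat_lit 321) (nat_lit 0) (nat_lit 159) (nat_lit 149) (nat_lit 142))) (PT.nd (nat_lit 78) (PT.lf (nat_lit 23636) (nat_lit 6) (nat_lit 311) (nat_lit 0) (nat_lit 160) (nat_lit 149) (nat_lit 141)) (PT.lf (nat_lit 22800) (nat_lit 6) (nat_lit 300) (nat_lit 0) (nat_lit 161) (nat_lit 149) (nat_lit 140))))) (PT.nd (nat_lit 234) (PT.nd (nat_lit 78) (PT.lf (nat_lit 21888) (nat_lit 6) (nat_lit 288) (nat_lit 0) (nat_lit 162) (nat_lit 149)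 (nat_lit 139)) (PT.nd (nat_lit 78) (PT.lf (nat_lit 20900) (nat_lit 6) (nat_lit 275) (nat_lit 0) (nat_lit 163) (nat_lit 149) (nat_lit 138)) (PT.lf (nat_lit 19836) (nat_lit 6) (nat_lit 261) (nat_lit 0) (nat_lit 164) (nat_lit 149) (nat_lit 137)))) (PT.nd (nat_lit 44460) (PT.nd (nat_lit 78) (PT.lf (nat_lit 18696) (nat_lit 6) (nat_lit 246) (nat_lit 0) (nat_lit 165) (nat_lit 149) (nat_lit 136)) (PT.lf (nat_lit 17480) (nat_lit 6) (nat_lit 230) (nat_lit 0) (nat_lit 166) (nat_lit 149) (nat_lit 135))) (PT.nd (nat_lit 78) (PT.lf (nat_lit 17556) (nat_lit 6) (nat_lit 231) (nat_lit 5) (nat_lit 134) (nat_lit 150) (nat_lit 166)) (PT.lf (nat_lit 18772) (nat_lit 6) (nat_lit 247) (nat_lit 5) (nat_lit 135) (nat_lit 150) (nat_lit 165)))))) (PT.nd (nat_lit 546) (PT.nd (nat_lit 234) (PT.nd (nat_lit 78) (PT.lf (nat_lit 19912) (nat_lit 6) (nat_lit 262) (nat_lit 5) (nat_lit 136) (nat_lit 150) (nat_lit 164)) (PT.nd (nat_lit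 78) (PT.lf (nat_lit 20976) (nat_lit 6) (nat_lit 276) (nat_lit 5) (nat_lit 137) (nat_lit 150) (nat_lit 163)) (PT.lf (nat_lit 21964) (nat_lit 6) (nat_lit 289) (nat_lit 5) (nat_lit 138) (nat_lit 150) (nat_lit 162)))) (PT.nd (nat_lit 156) (PT.nd (nat_lit 78) (PT.lf (nat_lit 22876) (nat_lit 6) (nat_lit 301) (nat_lit 5) (nat_lit 139) (nat_lit 150) (nat_lit 161)) (PT.lf (nat_lit 23712) (nat_lit 6) (nat_lit 312) (nat_lit 5) (nat_lit 140) (nat_lit 150) (nat_lit 160))) (PT.nd (nat_lit 78) (PT.lf (nat_lit 24472) (nat_lit 6) (nat_lit 322) (nat_lit 5) (nat_lit 141) (nat_lit 150) (nat_lit 159)) (PT.lf (nat_lit 25156) (nat_lit 6) (nat_lit 331) (nat_lit 5) (nat_lit 142) (nat_lit 150) (nat_lit 158))))) (PT.nd (nat_lit 312) (PT.nd (nat_lit 156) (PT.nd (nat_lit 78) (PT.lf (nat_lit 25764) (nat_lit 6) (nat_lit 339) (nat_lit 5) (nat_lit 143) (nat_lit 150) (nat_lit 157)) (PT.lf (nat_lit 26296) (nat_lit 6) (nat_lit 346)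 (nat_lit 5) (nat_lit 144) (nat_lit 150) (nat_lit 156))) (PT.nd (nat_lit 78) (PT.lf (nat_lit 26752) (nat_lit 6) (nat_lit 352) (nat_lit 5) (nat_lit 145) (nat_lit 150) (nat_lit 155)) (PT.lf (nat_lit 27132) (nat_lit 6) (nat_lit 357) (nat_lit 5) (nat_lit 146) (nat_lit 150) (nat_lit 154)))) (PT.nd (nat_lit 156) (PT.nd (nat_lit 78) (PT.lf (nat_lit 27436) (nat_lit 6) (nat_lit 361) (nat_lit 5) (nat_lit 147) (nat_lit 150) (nat_lit 153)) (PT.lf (nat_lit 27664) (nat_lit 6) (nat_lit 364) (nat_lit 5) (nat_lit 148) (nat_lit 150) (nat_lit 152))) (PT.nd (nat_lit 78) (PT.lf (nat_lit 27816) (nat_lit 6) (nat_lit 366) (nat_lit 5) (nat_lit 149) (nat_lit 150) (nat_lit 151)) (PT.lf (nat_lit 27892) (nat_lit 1) (nat_lit 367) (nat_lit 0) (nat_lit 150) (nat_lit 150) (nat_lit 150))))))))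
noncomputable def pc13 : PT := (PT.nd (nat_lit 46488) (PT.nd (nat_lit 1092) (PT.nd (nat_lit 546) (PT.nd (nat_lit 234) (PT.nd (nat_lit 78) (PT.lf (nat_lit 27816) (nat_lit 6) (nat_lit 366) (nat_lit 0) (nat_lit 151) (nat_lit 150) (nat_lit 149)) (PT.nd (nat_lit 78) (PT.lf (nat_lit 27664) (nat_lit 6) (nat_lit 364) (nat_lit 0) (nat_lit 152) (nat_lit 150) (nat_lit 148)) (PT.lf (nat_lit 27436) (nat_lit 6) (nat_lit 361) (nat_lit 0) (nat_lit 153) (nat_lit 150) (nat_lit 147)))) (PT.nd (nat_lit 156) (PT.nd (nat_lit 78) (PT.lf (nat_lit 27132) (nat_lit 6) (nat_lit 357) (nat_lit 0) (nat_lit 154) (nat_lit 150) (nat_lit 146)) (PT.lf (nat_lit 26752) (nat_lit 6) (nat_lit 352) (nat_lit 0) (nat_lit 155) (nat_lit 150) (nat_lit 145))) (PT.nd (nat_lit 78) (PT.lf (nat_lit 26296) (nat_lit 6) (nat_lit 346) (nat_lit 0) (nat_lit 156) (nat_lit 150) (nat_lit 144)) (PT.lf (nat_lit 25764) (nat_lit 6) (nat_lit 339) (nat_lit 0) (nat_lit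 157) (nat_lit 150) (nat_lit 143))))) (PT.nd (nat_lit 234) (PT.nd (nat_lit 78) (PT.lf (nat_lit 25156) (nat_lit 6) (nat_lit 331) (nat_lit 0) (nat_lit 158) (nat_lit 150) (nat_lit 142)) (PT.nd (nat_lit 78) (PT.lf (nat_lit 24472) (nat_lit 6) (nat_lit 322) (nat_lit 0) (nat_lit 159) (nat_lit 150) (nat_lit 141)) (PT.lf (nat_lit 23712) (nat_lit 6) (nat_lit 312) (nat_lit 0) (nat_lit 160) (nat_lit 150) (nat_lit 140)))) (PT.nd (nat_lit 156) (PT.nd (nat_lit 78) (PT.lf (nat_lit 22876) (nat_lit 6) (nat_lit 301) (nat_lit 0) (nat_lit 161) (nat_lit 150) (nat_lit 139)) (PT.lf (nat_lit 21964) (nat_lit 6) (nat_lit 289) (nat_lit 0) (nat_lit 162) (nat_lit 150) (nat_lit 138))) (PT.nd (nat_lit 78) (PT.lf (nat_lit 20976) (nat_lit 6) (nat_lit 276) (nat_lit 0) (nat_lit 163) (nat_lit 150) (nat_lit 137)) (PT.lf (nat_lit 19912) (nat_lit 6) (nat_lit 262) (nat_lit 0) (nat_lit 164) (nat_lit 150) (nat_lit 136)))))) (PT.nd (nat_lit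 44772) (PT.nd (nat_lit 44460) (PT.nd (nat_lit 78) (PT.lf (nat_lit 18772) (nat_lit 6) (nat_lit 247) (nat_lit 0) (nat_lit 165) (nat_lit 150) (nat_lit 135)) (PT.nd (nat_lit 44304) (PT.lf (nat_lit 17556) (nat_lit 6) (nat_lit 231) (nat_lit 0) (nat_lit 166) (nat_lit 150) (nat_lit 134)) (PT.lf (nat_lit 16340) (nat_lit 6) (nat_lit 215) (nat_lit 5) (nat_lit 133) (nat_lit 151) (nat_lit 166)))) (PT.nd (nat_lit 156) (PT.nd (nat_lit 78) (PT.lf (nat_lit 17632) (nat_lit 6) (nat_lit 232) (nat_lit 5) (nat_lit 134) (nat_lit 151) (nat_lit 165)) (PT.lf (nat_lit 18848) (nat_lit 6) (nat_lit 248) (nat_lit 5) (nat_lit 135) (nat_lit 151) (nat_lit 164))) (PT.nd (nat_lit 78) (PT.lf (nat_lit 19988) (nat_lit 6) (nat_lit 263) (nat_lit 5) (nat_lit 136) (nat_lit 151) (nat_lit 163)) (PT.lf (nat_lit 21052) (nat_lit 6) (nat_lit 277) (nat_lit 5) (nat_lit 137) (nat_lit 151) (nat_lit 162))))) (PT.nd (nat_lit 312) (PT.nd (nat_lit 156)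 (PT.nd (nat_lit 78) (PT.lf (nat_lit 22040) (nat_lit 6) (nat_lit 290) (nat_lit 5) (nat_lit 138) (nat_lit 151) (nat_lit 161)) (PT.lf (nat_lit 22952) (nat_lit 6) (nat_lit 302) (nat_lit 5) (nat_lit 139) (nat_lit 151) (nat_lit 160))) (PT.nd (nat_lit 78) (PT.lf (nat_lit 23788) (nat_lit 6) (nat_lit 313) (nat_lit 5) (nat_lit 140) (nat_lit 151) (nat_lit 159)) (PT.lf (nat_lit 24548) (nat_lit 6) (nat_lit 323) (nat_lit 5) (nat_lit 141) (nat_lit 151) (nat_lit 158)))) (PT.nd (nat_lit 156) (PT.nd (nat_lit 78) (PT.lf (nat_lit 25232) (nat_lit 6) (nat_lit 332) (nat_lit 5) (nat_lit 142) (nat_lit 151) (nat_lit 157)) (PT.lf (nat_lit 25840) (nat_lit 6) (nat_lit 340) (nat_lit 5) (nat_lit 143) (nat_lit 151) (nat_lit 156))) (PT.nd (nat_lit 78) (PT.lf (nat_lit 26372) (nat_lit 6) (nat_lit 347) (nat_lit 5) (nat_lit 144) (nat_lit 151) (nat_lit 155)) (PT.lf (nat_lit 26828) (nat_lit 6) (nat_lit 353) (nat_lit 5) (nat_lit 145) (nat_lit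 151) (nat_lit 154))))))) (PT.nd (nat_lit 1092) (PT.nd (nat_lit 546) (PT.nd (nat_lit 234) (PT.nd (nat_lit 78) (PT.lf (nat_lit 27208) (nat_lit 6) (nat_lit 358) (nat_lit 5) (nat_lit 146) (nat_lit 151) (nat_lit 153)) (PT.nd (nat_lit 78) (PT.lf (nat_lit 27512) (nat_lit 6) (nat_lit 362) (nat_lit 5) (nat_lit 147) (nat_lit 151) (nat_lit 152)) (PT.lf (nat_lit 27740) (nat_lit 3) (nat_lit 365) (nat_lit 4) (nat_lit 148) (nat_lit 151) (nat_lit 151)))) (PT.nd (nat_lit 156) (PT.nd (nat_lit 78) (PT.lf (nat_lit 27816) (nat_lit 6) (nat_lit 366) (nat_lit 4) (nat_lit 149) (nat_lit 151) (nat_lit 150)) (PT.lf (nat_lit 27816) (nat_lit 6) (nat_lit 366) (nat_lit 2) (nat_lit 150) (nat_lit 151) (nat_lit 149))) (PT.nd (nat_lit 78) (PT.lf (nat_lit 27740) (nat_lit 3) (nat_lit 365) (nat_lit 0) (nat_lit 151) (nat_lit 151) (nat_lit 148)) (PT.lf (nat_lit 27512) (nat_lit 6) (nat_lit 362) (nat_lit 0) (nat_lit 152) (nat_lit 151) (nat_lit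 147))))) (PT.nd (nat_lit 234) (PT.nd (nat_lit 78) (PT.lf (nat_lit 27208) (nat_lit 6) (nat_lit 358) (nat_lit 0) (nat_lit 153) (nat_lit 151) (nat_lit 146)) (PT.nd (nat_lit 78) (PT.lf (nat_lit 26828) (nat_lit 6) (nat_lit 353) (nat_lit 0) (nat_lit 154) (nat_lit 151) (nat_lit 145)) (PT.lf (nat_lit 26372) (nat_lit 6) (nat_lit 347) (nat_lit 0) (nat_lit 155) (nat_lit 151) (nat_lit 144)))) (PT.nd (nat_lit 156) (PT.nd (nat_lit 78) (PT.lf (nat_lit 25840) (nat_lit 6) (nat_lit 340) (nat_lit 0) (nat_lit 156) (nat_lit 151) (nat_lit 143)) (PT.lf (nat_lit 25232) (nat_lit 6) (nat_lit 332) (nat_lit 0) (nat_lit 157) (nat_lit 151) (nat_lit 142))) (PT.nd (nat_lit 78) (PT.lf (nat_lit 24548) (nat_lit 6) (nat_lit 323) (nat_lit 0) (nat_lit 158) (nat_lit 151) (nat_lit 141)) (PT.lf (nat_lit 23788) (nat_lit 6) (nat_lit 313) (nat_lit 0) (nat_lit 159) (nat_lit 151) (nat_lit 140)))))) (PT.nd (nat_lit 44616) (PT.nd (nat_lit 234)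 (PT.nd (nat_lit 78) (PT.lf (nat_lit 22952) (nat_lit 6) (nat_lit 302) (nat_lit 0) (nat_lit 160) (nat_lit 151) (nat_lit 139)) (PT.nd (nat_lit 78) (PT.lf (nat_lit 22040) (nat_lit 6) (nat_lit 290) (nat_lit 0) (nat_lit 161) (nat_lit 151) (nat_lit 138)) (PT.lf (nat_lit 21052) (nat_lit 6) (nat_lit 277) (nat_lit 0) (nat_lit 162) (nat_lit 151) (nat_lit 137)))) (PT.nd (nat_lit 156) (PT.nd (nat_lit 78) (PT.lf (nat_lit 19988) (nat_lit 6) (nat_lit 263) (nat_lit 0) (nat_lit 163) (nat_lit 151) (nat_lit 136)) (PT.lf (nat_lit 18848) (nat_lit 6) (nat_lit 248) (nat_lit 0) (nat_lit 164) (nat_lit 151) (nat_lit 135))) (PT.nd (nat_lit 78) (PT.lf (nat_lit 17632) (nat_lit 6) (nat_lit 232) (nat_lit 0) (nat_lit 165) (nat_lit 151) (nat_lit 134)) (PT.lf (nat_lit 16340) (nat_lit 6) (nat_lit 215) (nat_lit 0) (nat_lit 166) (nat_lit 151) (nat_lit 133))))) (PT.nd (nat_lit 312) (PT.nd (nat_lit 156) (PT.nd (nat_lit 78) (PT.lf (nat_lit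 15124) (nat_lit 6) (nat_lit 199) (nat_lit 5) (nat_lit 131) (nat_lit 152) (nat_lit 167)) (PT.lf (nat_lit 15732) (nat_lit 6) (nat_lit 207) (nat_lit 5) (nat_lit 132) (nat_lit 152) (nat_lit 166))) (PT.nd (nat_lit 78) (PT.lf (nat_lit 16416) (nat_lit 6) (nat_lit 216) (nat_lit 5) (nat_lit 133) (nat_lit 152) (nat_lit 165)) (PT.lf (nat_lit 17708) (nat_lit 6) (nat_lit 233) (nat_lit 5) (nat_lit 134) (nat_lit 152) (nat_lit 164)))) (PT.nd (nat_lit 156) (PT.nd (nat_lit 78) (PT.lf (nat_lit 18924) (nat_lit 6) (nat_lit 249) (nat_lit 5) (nat_lit 135) (nat_lit 152) (nat_lit 163)) (PT.lf (nat_lit 20064) (nat_lit 6) (nat_lit 264) (nat_lit 5) (nat_lit 136) (nat_lit 152) (nat_lit 162))) (PT.nd (nat_lit 78) (PT.lf (nat_lit 21128) (nat_lit 6) (nat_lit 278) (nat_lit 5) (nat_lit 137) (nat_lit 152) (nat_lit 161)) (PT.lf (nat_lit 22116) (nat_lit 6) (nat_lit 291) (nat_lit 5) (nat_lit 138) (nat_lit 152) (nat_lit 160))))))))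
noncomputable def pc14 : PT := (PT.nd (nat_lit 2184) (PT.nd (nat_lit 1092) (PT.nd (nat_lit 546) (PT.nd (nat_lit 234) (PT.nd (nat_lit 78) (PT.lf (nat_lit 23028) (nat_lit 6) (nat_lit 303) (nat_lit 5) (nat_lit 139) (nat_lit 152) (nat_lit 159)) (PT.nd (nat_lit 78) (PT.lf (nat_lit 23864) (nat_lit 6) (nat_lit 314) (nat_lit 5) (nat_lit 140) (nat_lit 152) (nat_lit 158)) (PT.lf (nat_lit 24624) (nat_lit 6) (nat_lit 324) (nat_lit 5) (nat_lit 141) (nat_lit 152) (nat_lit 157)))) (PT.nd (nat_lit 156) (PT.nd (nat_lit 78) (PT.lf (nat_lit 25308) (nat_lit 6) (nat_lit 333) (nat_lit 5) (nat_lit 142) (nat_lit 152) (nat_lit 156)) (PT.lf (nat_lit 25916) (nat_lit 6) (nat_lit 341) (nat_lit 5) (nat_lit 143) (nat_lit 152) (nat_lit 155))) (PT.nd (nat_lit 78) (PT.lf (nat_lit 26448) (nat_lit 6) (nat_lit 348) (nat_lit 5) (nat_lit 144) (nat_lit 152) (nat_lit 154)) (PT.lf (nat_lit 26904) (nat_lit 6) (nat_lit 354) (nat_lit 5) (nat_lit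 145) (nat_lit 152) (nat_lit 153))))) (PT.nd (nat_lit 234) (PT.nd (nat_lit 78) (PT.lf (nat_lit 27284) (nat_lit 3) (nat_lit 359) (nat_lit 4) (nat_lit 146) (nat_lit 152) (nat_lit 152)) (PT.nd (nat_lit 78) (PT.lf (nat_lit 27512) (nat_lit 6) (nat_lit 362) (nat_lit 4) (nat_lit 147) (nat_lit 152) (nat_lit 151)) (PT.lf (nat_lit 27664) (nat_lit 6) (nat_lit 364) (nat_lit 4) (nat_lit 148) (nat_lit 152) (nat_lit 150)))) (PT.nd (nat_lit 156) (PT.nd (nat_lit 78) (PT.lf (nat_lit 27588) (nat_lit 3) (nat_lit 363) (nat_lit 2) (nat_lit 149) (nat_lit 152) (nat_lit 149)) (PT.lf (nat_lit 27664) (nat_lit 6) (nat_lit 364) (nat_lit 2) (nat_lit 150) (nat_lit 152) (nat_lit 148))) (PT.nd (nat_lit 78) (PT.lf (nat_lit 27512) (nat_lit 6) (nat_lit 362) (nat_lit 2) (nat_lit 151) (nat_lit 152) (nat_lit 147)) (PT.lf (nat_lit 27284) (nat_lit 3) (nat_lit 359) (nat_lit 0) (nat_lit 152) (nat_lit 152) (nat_lit 146)))))) (PT.nd (nat_lit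 546) (PT.nd (nat_lit 234) (PT.nd (nat_lit 78) (PT.lf (nat_lit 26904) (nat_lit 6) (nat_lit 354) (nat_lit 0) (nat_lit 153) (nat_lit 152) (nat_lit 145)) (PT.nd (nat_lit 78) (PT.lf (nat_lit 26448) (nat_lit 6) (nat_lit 348) (nat_lit 0) (nat_lit 154) (nat_lit 152) (nat_lit 144)) (PT.lf (nat_lit 25916) (nat_lit 6) (nat_lit 341) (nat_lit 0) (nat_lit 155) (nat_lit 152) (nat_lit 143)))) (PT.nd (nat_lit 156) (PT.nd (nat_lit 78) (PT.lf (nat_lit 25308) (nat_lit 6) (nat_lit 333) (nat_lit 0) (nat_lit 156) (nat_lit 152) (nat_lit 142)) (PT.lf (nat_lit 24624) (nat_lit 6) (nat_lit 324) (nat_lit 0) (nat_lit 157) (nat_lit 152) (nat_lit 141))) (PT.nd (nat_lit 78) (PT.lf (nat_lit 23864) (nat_lit 6) (nat_lit 314) (nat_lit 0) (nat_lit 158) (nat_lit 152) (nat_lit 140)) (PT.lf (nat_lit 23028) (nat_lit 6) (nat_lit 303) (nat_lit 0) (nat_lit 159) (nat_lit 152) (nat_lit 139))))) (PT.nd (nat_lit 234) (PT.nd (nat_lit 78) (PT.lf (nat_lit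 22116) (nat_lit 6) (nat_lit 291) (nat_lit 0) (nat_lit 160) (nat_lit 152) (nat_lit 138)) (PT.nd (nat_lit 78) (PT.lf (nat_lit 21128) (nat_lit 6) (nat_lit 278) (nat_lit 0) (nat_lit 161) (nat_lit 152) (nat_lit 137)) (PT.lf (nat_lit 20064) (nat_lit 6) (nat_lit 264) (nat_lit 0) (nat_lit 162) (nat_lit 152) (nat_lit 136)))) (PT.nd (nat_lit 156) (PT.nd (nat_lit 78) (PT.lf (nat_lit 18924) (nat_lit 6) (nat_lit 249) (nat_lit 0) (nat_lit 163) (nat_lit 152) (nat_lit 135)) (PT.lf (nat_lit 17708) (nat_lit 6) (nat_lit 233) (nat_lit 0) (nat_lit 164) (nat_lit 152) (nat_lit 134))) (PT.nd (nat_lit 78) (PT.lf (nat_lit 16416) (nat_lit 6) (nat_lit 216) (nat_lit 0) (nat_lit 165) (nat_lit 152) (nat_lit 133)) (PT.lf (nat_lit 15732) (nat_lit 6) (nat_lit 207) (nat_lit 0) (nat_lit 166) (nat_lit 152) (nat_lit 132))))))) (PT.nd (nat_lit 45006) (PT.nd (nat_lit 44460) (PT.nd (nat_lit 44148) (PT.nd (nat_lit 43992) (PT.lf (nat_lit 15124)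 (nat_lit 6) (nat_lit 199) (nat_lit 0) (nat_lit 167) (nat_lit 152) (nat_lit 131)) (PT.nd (nat_lit 78) (PT.lf (nat_lit 14516) (nat_lit 6) (nat_lit 191) (nat_lit 5) (nat_lit 130) (nat_lit 153) (nat_lit 167)) (PT.lf (nat_lit 15200) (nat_lit 6) (nat_lit 200) (nat_lit 5) (nat_lit 131) (nat_lit 153) (nat_lit 166)))) (PT.nd (nat_lit 156) (PT.nd (nat_lit 78) (PT.lf (nat_lit 15808) (nat_lit 6) (nat_lit 208) (nat_lit 5) (nat_lit 132) (nat_lit 153) (nat_lit 165)) (PT.lf (nat_lit 16492) (nat_lit 6) (nat_lit 217) (nat_lit 5) (nat_lit 133) (nat_lit 153) (nat_lit 164))) (PT.nd (nat_lit 78) (PT.lf (nat_lit 17784) (nat_lit 6) (nat_lit 234) (nat_lit 5) (nat_lit 134) (nat_lit 153) (nat_lit 163)) (PT.lf (nat_lit 19000) (nat_lit 6) (nat_lit 250) (nat_lit 5) (nat_lit 135) (nat_lit 153) (nat_lit 162))))) (PT.nd (nat_lit 234) (PT.nd (nat_lit 78) (PT.lf (nat_lit 20140) (nat_lit 6) (nat_lit 265) (nat_lit 5) (nat_lit 136) (nat_lit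 153) (nat_lit 161)) (PT.nd (nat_lit 78) (PT.lf (nat_lit 21204) (nat_lit 6) (nat_lit 279) (nat_lit 5) (nat_lit 137) (nat_lit 153) (nat_lit 160)) (PT.lf (nat_lit 22192) (nat_lit 6) (nat_lit 292) (nat_lit 5) (nat_lit 138) (nat_lit 153) (nat_lit 159)))) (PT.nd (nat_lit 156) (PT.nd (nat_lit 78) (PT.lf (nat_lit 23104) (nat_lit 6) (nat_lit 304) (nat_lit 5) (nat_lit 139) (nat_lit 153) (nat_lit 158)) (PT.lf (nat_lit 23940) (nat_lit 6) (nat_lit 315) (nat_lit 5) (nat_lit 140) (nat_lit 153) (nat_lit 157))) (PT.nd (nat_lit 78) (PT.lf (nat_lit 24700) (nat_lit 6) (nat_lit 325) (nat_lit 5) (nat_lit 141) (nat_lit 153) (nat_lit 156)) (PT.lf (nat_lit 25384) (nat_lit 6) (nat_lit 334) (nat_lit 5) (nat_lit 142) (nat_lit 153) (nat_lit 155)))))) (PT.nd (nat_lit 546) (PT.nd (nat_lit 234) (PT.nd (nat_lit 78) (PT.lf (nat_lit 25992) (nat_lit 6) (nat_lit 342) (nat_lit 5) (nat_lit 143) (nat_lit 153) (nat_lit 154)) (PT.nd (nat_lit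 78) (PT.lf (nat_lit 26524) (nat_lit 3) (nat_lit 349) (nat_lit 4) (nat_lit 144) (nat_lit 153) (nat_lit 153)) (PT.lf (nat_lit 26904) (nat_lit 6) (nat_lit 354) (nat_lit 4) (nat_lit 145) (nat_lit 153) (nat_lit 152)))) (PT.nd (nat_lit 156) (PT.nd (nat_lit 78) (PT.lf (nat_lit 27208) (nat_lit 6) (nat_lit 358) (nat_lit 4) (nat_lit 146) (nat_lit 153) (nat_lit 151)) (PT.lf (nat_lit 27436) (nat_lit 6) (nat_lit 361) (nat_lit 4) (nat_lit 147) (nat_lit 153) (nat_lit 150))) (PT.nd (nat_lit 78) (PT.lf (nat_lit 27360) (nat_lit 6) (nat_lit 360) (nat_lit 4) (nat_lit 148) (nat_lit 153) (nat_lit 149)) (PT.lf (nat_lit 27360) (nat_lit 6) (nat_lit 360) (nat_lit 2) (nat_lit 149) (nat_lit 153) (nat_lit 148))))) (PT.nd (nat_lit 312) (PT.nd (nat_lit 156) (PT.nd (nat_lit 78) (PT.lf (nat_lit 27436) (nat_lit 6) (nat_lit 361) (nat_lit 2) (nat_lit 150) (nat_lit 153) (nat_lit 147)) (PT.lf (nat_lit 27208) (nat_lit 6) (nat_lit 358)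 (nat_lit 2) (nat_lit 151) (nat_lit 153) (nat_lit 146))) (PT.nd (nat_lit 78) (PT.lf (nat_lit 26904) (nat_lit 6) (nat_lit 354) (nat_lit 2) (nat_lit 152) (nat_lit 153) (nat_lit 145)) (PT.lf (nat_lit 26524) (nat_lit 3) (nat_lit 349) (nat_lit 0) (nat_lit 153) (nat_lit 153) (nat_lit 144)))) (PT.nd (nat_lit 156) (PT.nd (nat_lit 78) (PT.lf (nat_lit 25992) (nat_lit 6) (nat_lit 342) (nat_lit 0) (nat_lit 154) (nat_lit 153) (nat_lit 143)) (PT.lf (nat_lit 25384) (nat_lit 6) (nat_lit 334) (nat_lit 0) (nat_lit 155) (nat_lit 153) (nat_lit 142))) (PT.nd (nat_lit 78) (PT.lf (nat_lit 24700) (nat_lit 6) (nat_lit 325) (nat_lit 0) (nat_lit 156) (nat_lit 153) (nat_lit 141)) (PT.lf (nat_lit 23940) (nat_lit 6) (nat_lit 315) (nat_lit 0) (nat_lit 157) (nat_lit 153) (nat_lit 140))))))))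
noncomputable def pc15 : PT := (PT.nd (nat_lit 46098) (PT.nd (nat_lit 44928) (PT.nd (nat_lit 546) (PT.nd (nat_lit 234) (PT.nd (nat_lit 78) (PT.lf (nat_lit 23104) (nat_lit 6) (nat_lit 304) (nat_lit 0) (nat_lit 158) (nat_lit 153) (nat_lit 139)) (PT.nd (nat_lit 78) (PT.lf (nat_lit 22192) (nat_lit 6) (nat_lit 292) (nat_lit 0) (nat_lit 159) (nat_lit 153) (nat_lit 138)) (PT.lf (nat_lit 21204) (nat_lit 6) (nat_lit 279) (nat_lit 0) (nat_lit 160) (nat_lit 153) (nat_lit 137)))) (PT.nd (nat_lit 156) (PT.nd (nat_lit 78) (PT.lf (nat_lit 20140) (nat_lit 6) (nat_lit 265) (nat_lit 0) (nat_lit 161) (nat_lit 153) (nat_lit 136)) (PT.lf (nat_lit 19000) (nat_lit 6) (nat_lit 250) (nat_lit 0) (nat_lit 162) (nat_lit 153) (nat_lit 135))) (PT.nd (nat_lit 78) (PT.lf (nat_lit 17784) (nat_lit 6) (nat_lit 234) (nat_lit 0) (nat_lit 163) (nat_lit 153) (nat_lit 134)) (PT.lf (nat_lit 16492) (nat_lit 6) (nat_lit 217) (nat_lit 0) (nat_lit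 164) (nat_lit 153) (nat_lit 133))))) (PT.nd (nat_lit 44070) (PT.nd (nat_lit 78) (PT.lf (nat_lit 15808) (nat_lit 6) (nat_lit 208) (nat_lit 0) (nat_lit 165) (nat_lit 153) (nat_lit 132)) (PT.nd (nat_lit 78) (PT.lf (nat_lit 15200) (nat_lit 6) (nat_lit 200) (nat_lit 0) (nat_lit 166) (nat_lit 153) (nat_lit 131)) (PT.lf (nat_lit 14516) (nat_lit 6) (nat_lit 191) (nat_lit 0) (nat_lit 167) (nat_lit 153) (nat_lit 130)))) (PT.nd (nat_lit 156) (PT.nd (nat_lit 78) (PT.lf (nat_lit 13984) (nat_lit 6) (nat_lit 184) (nat_lit 5) (nat_lit 129) (nat_lit 154) (nat_lit 167)) (PT.lf (nat_lit 14592) (nat_lit 6) (nat_lit 192) (nat_lit 5) (nat_lit 130) (nat_lit 154) (nat_lit 166))) (PT.nd (nat_lit 78) (PT.lf (nat_lit 15276) (nat_lit 6) (nat_lit 201) (nat_lit 5) (nat_lit 131) (nat_lit 154) (nat_lit 165)) (PT.lf (nat_lit 15884) (nat_lit 6) (nat_lit 209) (nat_lit 5) (nat_lit 132) (nat_lit 154) (nat_lit 164)))))) (PT.nd (nat_lit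 546) (PT.nd (nat_lit 234) (PT.nd (nat_lit 78) (PT.lf (nat_lit 16568) (nat_lit 6) (nat_lit 218) (nat_lit 5) (nat_lit 133) (nat_lit 154) (nat_lit 163)) (PT.nd (nat_lit 78) (PT.lf (nat_lit 17860) (nat_lit 6) (nat_lit 235) (nat_lit 5) (nat_lit 134) (nat_lit 154) (nat_lit 162)) (PT.lf (nat_lit 19076) (nat_lit 6) (nat_lit 251) (nat_lit 5) (nat_lit 135) (nat_lit 154) (nat_lit 161)))) (PT.nd (nat_lit 156) (PT.nd (nat_lit 78) (PT.lf (nat_lit 20216) (nat_lit 6) (nat_lit 266) (nat_lit 5) (nat_lit 136) (nat_lit 154) (nat_lit 160)) (PT.lf (nat_lit 21280) (nat_lit 6) (nat_lit 280) (nat_lit 5) (nat_lit 137) (nat_lit 154) (nat_lit 159))) (PT.nd (nat_lit 78) (PT.lf (nat_lit 22268) (nat_lit 6) (nat_lit 293) (nat_lit 5) (nat_lit 138) (nat_lit 154) (nat_lit 158)) (PT.lf (nat_lit 23180) (nat_lit 6) (nat_lit 305) (nat_lit 5) (nat_lit 139) (nat_lit 154) (nat_lit 157))))) (PT.nd (nat_lit 312) (PT.nd (nat_lit 156) (PT.nd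 (nat_lit 78) (PT.lf (nat_lit 24016) (nat_lit 6) (nat_lit 316) (nat_lit 5) (nat_lit 140) (nat_lit 154) (nat_lit 156)) (PT.lf (nat_lit 24776) (nat_lit 6) (nat_lit 326) (nat_lit 5) (nat_lit 141) (nat_lit 154) (nat_lit 155))) (PT.nd (nat_lit 78) (PT.lf (nat_lit 25460) (nat_lit 3) (nat_lit 335) (nat_lit 4) (nat_lit 142) (nat_lit 154) (nat_lit 154)) (PT.lf (nat_lit 25992) (nat_lit 6) (nat_lit 342) (nat_lit 4) (nat_lit 143) (nat_lit 154) (nat_lit 153)))) (PT.nd (nat_lit 156) (PT.nd (nat_lit 78) (PT.lf (nat_lit 26448) (nat_lit 6) (nat_lit 348) (nat_lit 4) (nat_lit 144) (nat_lit 154) (nat_lit 152)) (PT.lf (nat_lit 26828) (nat_lit 6) (nat_lit 353) (nat_lit 4) (nat_lit 145) (nat_lit 154) (nat_lit 151))) (PT.nd (nat_lit 78) (PT.lf (nat_lit 27132) (nat_lit 6) (nat_lit 357) (nat_lit 4) (nat_lit 146) (nat_lit 154) (nat_lit 150)) (PT.lf (nat_lit 27056) (nat_lit 6) (nat_lit 356) (nat_lit 4) (nat_lit 147) (nat_lit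 154) (nat_lit 149))))))) (PT.nd (nat_lit 1092) (PT.nd (nat_lit 546) (PT.nd (nat_lit 234) (PT.nd (nat_lit 78) (PT.lf (nat_lit 26980) (nat_lit 3) (nat_lit 355) (nat_lit 2) (nat_lit 148) (nat_lit 154) (nat_lit 148)) (PT.nd (nat_lit 78) (PT.lf (nat_lit 27056) (nat_lit 6) (nat_lit 356) (nat_lit 2) (nat_lit 149) (nat_lit 154) (nat_lit 147)) (PT.lf (nat_lit 27132) (nat_lit 6) (nat_lit 357) (nat_lit 2) (nat_lit 150) (nat_lit 154) (nat_lit 146)))) (PT.nd (nat_lit 156) (PT.nd (nat_lit 78) (PT.lf (nat_lit 26828) (nat_lit 6) (nat_lit 353) (nat_lit 2) (nat_lit 151) (nat_lit 154) (nat_lit 145)) (PT.lf (nat_lit 26448) (nat_lit 6) (nat_lit 348) (nat_lit 2) (nat_lit 152) (nat_lit 154) (nat_lit 144))) (PT.nd (nat_lit 78) (PT.lf (nat_lit 25992) (nat_lit 6) (nat_lit 342) (nat_lit 2) (nat_lit 153) (nat_lit 154) (nat_lit 143)) (PT.lf (nat_lit 25460) (nat_lit 3) (nat_lit 335) (nat_lit 0) (nat_lit 154) (nat_lit 154) (nat_lit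 142))))) (PT.nd (nat_lit 234) (PT.nd (nat_lit 78) (PT.lf (nat_lit 24776) (nat_lit 6) (nat_lit 326) (nat_lit 0) (nat_lit 155) (nat_lit 154) (nat_lit 141)) (PT.nd (nat_lit 78) (PT.lf (nat_lit 24016) (nat_lit 6) (nat_lit 316) (nat_lit 0) (nat_lit 156) (nat_lit 154) (nat_lit 140)) (PT.lf (nat_lit 23180) (nat_lit 6) (nat_lit 305) (nat_lit 0) (nat_lit 157) (nat_lit 154) (nat_lit 139)))) (PT.nd (nat_lit 156) (PT.nd (nat_lit 78) (PT.lf (nat_lit 22268) (nat_lit 6) (nat_lit 293) (nat_lit 0) (nat_lit 158) (nat_lit 154) (nat_lit 138)) (PT.lf (nat_lit 21280) (nat_lit 6) (nat_lit 280) (nat_lit 0) (nat_lit 159) (nat_lit 154) (nat_lit 137))) (PT.nd (nat_lit 78) (PT.lf (nat_lit 20216) (nat_lit 6) (nat_lit 266) (nat_lit 0) (nat_lit 160) (nat_lit 154) (nat_lit 136)) (PT.lf (nat_lit 19076) (nat_lit 6) (nat_lit 251) (nat_lit 0) (nat_lit 161) (nat_lit 154) (nat_lit 135)))))) (PT.nd (nat_lit 44304) (PT.nd (nat_lit 234)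 (PT.nd (nat_lit 78) (PT.lf (nat_lit 17860) (nat_lit 6) (nat_lit 235) (nat_lit 0) (nat_lit 162) (nat_lit 154) (nat_lit 134)) (PT.nd (nat_lit 78) (PT.lf (nat_lit 16568) (nat_lit 6) (nat_lit 218) (nat_lit 0) (nat_lit 163) (nat_lit 154) (nat_lit 133)) (PT.lf (nat_lit 15884) (nat_lit 6) (nat_lit 209) (nat_lit 0) (nat_lit 164) (nat_lit 154) (nat_lit 132)))) (PT.nd (nat_lit 156) (PT.nd (nat_lit 78) (PT.lf (nat_lit 15276) (nat_lit 6) (nat_lit 201) (nat_lit 0) (nat_lit 165) (nat_lit 154) (nat_lit 131)) (PT.lf (nat_lit 14592) (nat_lit 6) (nat_lit 192) (nat_lit 0) (nat_lit 166) (nat_lit 154) (nat_lit 130))) (PT.nd (nat_lit 43836) (PT.lf (nat_lit 13984) (nat_lit 6) (nat_lit 184) (nat_lit 0) (nat_lit 167) (nat_lit 154) (nat_lit 129)) (PT.lf (nat_lit 13452) (nat_lit 6) (nat_lit 177) (nat_lit 5) (nat_lit 128) (nat_lit 155) (nat_lit 167))))) (PT.nd (nat_lit 312) (PT.nd (nat_lit 156) (PT.nd (nat_lit 78) (PT.lf (nat_lit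 14060) (nat_lit 6) (nat_lit 185) (nat_lit 5) (nat_lit 129) (nat_lit 155) (nat_lit 166)) (PT.lf (nat_lit 14668) (nat_lit 6) (nat_lit 193) (nat_lit 5) (nat_lit 130) (nat_lit 155) (nat_lit 165))) (PT.nd (nat_lit 78) (PT.lf (nat_lit 15352) (nat_lit 6) (nat_lit 202) (nat_lit 5) (nat_lit 131) (nat_lit 155) (nat_lit 164)) (PT.lf (nat_lit 15960) (nat_lit 6) (nat_lit 210) (nat_lit 5) (nat_lit 132) (nat_lit 155) (nat_lit 163)))) (PT.nd (nat_lit 156) (PT.nd (nat_lit 78) (PT.lf (nat_lit 16644) (nat_lit 6) (nat_lit 219) (nat_lit 5) (nat_lit 133) (nat_lit 155) (nat_lit 162)) (PT.lf (nat_lit 17936) (nat_lit 6) (nat_lit 236) (nat_lit 5) (nat_lit 134) (nat_lit 155) (nat_lit 161))) (PT.nd (nat_lit 78) (PT.lf (nat_lit 19152) (nat_lit 6) (nat_lit 252) (nat_lit 5) (nat_lit 135) (nat_lit 155) (nat_lit 160)) (PT.lf (nat_lit 20292) (nat_lit 6) (nat_lit 267) (nat_lit 5) (nat_lit 136) (nat_lit 155) (nat_lit 159))))))))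
noncomputable def pc16 : PT := (PT.nd (nat_lit 2184) (PT.nd (nat_lit 1092) (PT.nd (nat_lit 546) (PT.nd (nat_lit 234) (PT.nd (nat_lit 78) (PT.lf (nat_lit 21356) (nat_lit 6) (nat_lit 281) (nat_lit 5) (nat_lit 137) (nat_lit 155) (nat_lit 158)) (PT.nd (nat_lit 78) (PT.lf (nat_lit 22344) (nat_lit 6) (nat_lit 294) (nat_lit 5) (nat_lit 138) (nat_lit 155) (nat_lit 157)) (PT.lf (nat_lit 23256) (nat_lit 6) (nat_lit 306) (nat_lit 5) (nat_lit 139) (nat_lit 155) (nat_lit 156)))) (PT.nd (nat_lit 156) (PT.nd (nat_lit 78) (PT.lf (nat_lit 24092) (nat_lit 3) (nat_lit 317) (nat_lit 4) (nat_lit 140) (nat_lit 155) (nat_lit 155)) (PT.lf (nat_lit 24776) (nat_lit 6) (nat_lit 326) (nat_lit 4) (nat_lit 141) (nat_lit 155) (nat_lit 154))) (PT.nd (nat_lit 78) (PT.lf (nat_lit 25384) (nat_lit 6) (nat_lit 334) (nat_lit 4) (nat_lit 142) (nat_lit 155) (nat_lit 153)) (PT.lf (nat_lit 25916) (nat_lit 6) (nat_lit 341) (nat_lit 4) (nat_lit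 143) (nat_lit 155) (nat_lit 152))))) (PT.nd (nat_lit 234) (PT.nd (nat_lit 78) (PT.lf (nat_lit 26372) (nat_lit 6) (nat_lit 347) (nat_lit 4) (nat_lit 144) (nat_lit 155) (nat_lit 151)) (PT.nd (nat_lit 78) (PT.lf (nat_lit 26752) (nat_lit 6) (nat_lit 352) (nat_lit 4) (nat_lit 145) (nat_lit 155) (nat_lit 150)) (PT.lf (nat_lit 26676) (nat_lit 6) (nat_lit 351) (nat_lit 4) (nat_lit 146) (nat_lit 155) (nat_lit 149)))) (PT.nd (nat_lit 156) (PT.nd (nat_lit 78) (PT.lf (nat_lit 26600) (nat_lit 6) (nat_lit 350) (nat_lit 4) (nat_lit 147) (nat_lit 155) (nat_lit 148)) (PT.lf (nat_lit 26600) (nat_lit 6) (nat_lit 350) (nat_lit 2) (nat_lit 148) (nat_lit 155) (nat_lit 147))) (PT.nd (nat_lit 78) (PT.lf (nat_lit 26676) (nat_lit 6) (nat_lit 351) (nat_lit 2) (nat_lit 149) (nat_lit 155) (nat_lit 146)) (PT.lf (nat_lit 26752) (nat_lit 6) (nat_lit 352) (nat_lit 2) (nat_lit 150) (nat_lit 155) (nat_lit 145)))))) (PT.nd (nat_lit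 546) (PT.nd (nat_lit 234) (PT.nd (nat_lit 78) (PT.lf (nat_lit 26372) (nat_lit 6) (nat_lit 347) (nat_lit 2) (nat_lit 151) (nat_lit 155) (nat_lit 144)) (PT.nd (nat_lit 78) (PT.lf (nat_lit 25916) (nat_lit 6) (nat_lit 341) (nat_lit 2) (nat_lit 152) (nat_lit 155) (nat_lit 143)) (PT.lf (nat_lit 25384) (nat_lit 6) (nat_lit 334) (nat_lit 2) (nat_lit 153) (nat_lit 155) (nat_lit 142)))) (PT.nd (nat_lit 156) (PT.nd (nat_lit 78) (PT.lf (nat_lit 24776) (nat_lit 6) (nat_lit 326) (nat_lit 2) (nat_lit 154) (nat_lit 155) (nat_lit 141)) (PT.lf (nat_lit 24092) (nat_lit 3) (nat_lit 317) (nat_lit 0) (nat_lit 155) (nat_lit 155) (nat_lit 140))) (PT.nd (nat_lit 78) (PT.lf (nat_lit 23256) (nat_lit 6) (nat_lit 306) (nat_lit 0) (nat_lit 156) (nat_lit 155) (nat_lit 139)) (PT.lf (nat_lit 22344) (nat_lit 6) (nat_lit 294) (nat_lit 0) (nat_lit 157) (nat_lit 155) (nat_lit 138))))) (PT.nd (nat_lit 234) (PT.nd (nat_lit 78) (PT.lf (nat_lit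 21356) (nat_lit 6) (nat_lit 281) (nat_lit 0) (nat_lit 158) (nat_lit 155) (nat_lit 137)) (PT.nd (nat_lit 78) (PT.lf (nat_lit 20292) (nat_lit 6) (nat_lit 267) (nat_lit 0) (nat_lit 159) (nat_lit 155) (nat_lit 136)) (PT.lf (nat_lit 19152) (nat_lit 6) (nat_lit 252) (nat_lit 0) (nat_lit 160) (nat_lit 155) (nat_lit 135)))) (PT.nd (nat_lit 156) (PT.nd (nat_lit 78) (PT.lf (nat_lit 17936) (nat_lit 6) (nat_lit 236) (nat_lit 0) (nat_lit 161) (nat_lit 155) (nat_lit 134)) (PT.lf (nat_lit 16644) (nat_lit 6) (nat_lit 219) (nat_lit 0) (nat_lit 162) (nat_lit 155) (nat_lit 133))) (PT.nd (nat_lit 78) (PT.lf (nat_lit 15960) (nat_lit 6) (nat_lit 210) (nat_lit 0) (nat_lit 163) (nat_lit 155) (nat_lit 132)) (PT.lf (nat_lit 15352) (nat_lit 6) (nat_lit 202) (nat_lit 0) (nat_lit 164) (nat_lit 155) (nat_lit 131))))))) (PT.nd (nat_lit 44694) (PT.nd (nat_lit 44148) (PT.nd (nat_lit 43836) (PT.nd (nat_lit 78) (PT.lf (nat_lit 14668)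 (nat_lit 6) (nat_lit 193) (nat_lit 0) (nat_lit 165) (nat_lit 155) (nat_lit 130)) (PT.nd (nat_lit 78) (PT.lf (nat_lit 14060) (nat_lit 6) (nat_lit 185) (nat_lit 0) (nat_lit 166) (nat_lit 155) (nat_lit 129)) (PT.lf (nat_lit 13452) (nat_lit 6) (nat_lit 177) (nat_lit 0) (nat_lit 167) (nat_lit 155) (nat_lit 128)))) (PT.nd (nat_lit 156) (PT.nd (nat_lit 78) (PT.lf (nat_lit 12464) (nat_lit 6) (nat_lit 164) (nat_lit 5) (nat_lit 126) (nat_lit 156) (nat_lit 168)) (PT.lf (nat_lit 12996) (nat_lit 6) (nat_lit 171) (nat_lit 5) (nat_lit 127) (nat_lit 156) (nat_lit 167))) (PT.nd (nat_lit 78) (PT.lf (nat_lit 13528) (nat_lit 6) (nat_lit 178) (nat_lit 5) (nat_lit 128) (nat_lit 156) (nat_lit 166)) (PT.lf (nat_lit 14136) (nat_lit 6) (nat_lit 186) (nat_lit 5) (nat_lit 129) (nat_lit 156) (nat_lit 165))))) (PT.nd (nat_lit 234) (PT.nd (nat_lit 78) (PT.lf (nat_lit 14744) (nat_lit 6) (nat_lit 194) (nat_lit 5) (nat_lit 130) (nat_lit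 156) (nat_lit 164)) (PT.nd (nat_lit 78) (PT.lf (nat_lit 15428) (nat_lit 6) (nat_lit 203) (nat_lit 5) (nat_lit 131) (nat_lit 156) (nat_lit 163)) (PT.lf (nat_lit 16036) (nat_lit 6) (nat_lit 211) (nat_lit 5) (nat_lit 132) (nat_lit 156) (nat_lit 162)))) (PT.nd (nat_lit 156) (PT.nd (nat_lit 78) (PT.lf (nat_lit 16720) (nat_lit 6) (nat_lit 220) (nat_lit 5) (nat_lit 133) (nat_lit 156) (nat_lit 161)) (PT.lf (nat_lit 18012) (nat_lit 6) (nat_lit 237) (nat_lit 5) (nat_lit 134) (nat_lit 156) (nat_lit 160))) (PT.nd (nat_lit 78) (PT.lf (nat_lit 19228) (nat_lit 6) (nat_lit 253) (nat_lit 5) (nat_lit 135) (nat_lit 156) (nat_lit 159)) (PT.lf (nat_lit 20368) (nat_lit 6) (nat_lit 268) (nat_lit 5) (nat_lit 136) (nat_lit 156) (nat_lit 158)))))) (PT.nd (nat_lit 546) (PT.nd (nat_lit 234) (PT.nd (nat_lit 78) (PT.lf (nat_lit 21432) (nat_lit 6) (nat_lit 282) (nat_lit 5) (nat_lit 137) (nat_lit 156) (nat_lit 157)) (PT.nd (nat_lit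 78) (PT.lf (nat_lit 22420) (nat_lit 3) (nat_lit 295) (nat_lit 4) (nat_lit 138) (nat_lit 156) (nat_lit 156)) (PT.lf (nat_lit 23256) (nat_lit 6) (nat_lit 306) (nat_lit 4) (nat_lit 139) (nat_lit 156) (nat_lit 155)))) (PT.nd (nat_lit 156) (PT.nd (nat_lit 78) (PT.lf (nat_lit 24016) (nat_lit 6) (nat_lit 316) (nat_lit 4) (nat_lit 140) (nat_lit 156) (nat_lit 154)) (PT.lf (nat_lit 24700) (nat_lit 6) (nat_lit 325) (nat_lit 4) (nat_lit 141) (nat_lit 156) (nat_lit 153))) (PT.nd (nat_lit 78) (PT.lf (nat_lit 25308) (nat_lit 6) (nat_lit 333) (nat_lit 4) (nat_lit 142) (nat_lit 156) (nat_lit 152)) (PT.lf (nat_lit 25840) (nat_lit 6) (nat_lit 340) (nat_lit 4) (nat_lit 143) (nat_lit 156) (nat_lit 151))))) (PT.nd (nat_lit 312) (PT.nd (nat_lit 156) (PT.nd (nat_lit 78) (PT.lf (nat_lit 26296) (nat_lit 6) (nat_lit 346) (nat_lit 4) (nat_lit 144) (nat_lit 156) (nat_lit 150)) (PT.lf (nat_lit 26220) (nat_lit 6) (nat_lit 345)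 (nat_lit 4) (nat_lit 145) (nat_lit 156) (nat_lit 149))) (PT.nd (nat_lit 78) (PT.lf (nat_lit 26144) (nat_lit 6) (nat_lit 344) (nat_lit 4) (nat_lit 146) (nat_lit 156) (nat_lit 148)) (PT.lf (nat_lit 26068) (nat_lit 3) (nat_lit 343) (nat_lit 2) (nat_lit 147) (nat_lit 156) (nat_lit 147)))) (PT.nd (nat_lit 156) (PT.nd (nat_lit 78) (PT.lf (nat_lit 26144) (nat_lit 6) (nat_lit 344) (nat_lit 2) (nat_lit 148) (nat_lit 156) (nat_lit 146)) (PT.lf (nat_lit 26220) (nat_lit 6) (nat_lit 345) (nat_lit 2) (nat_lit 149) (nat_lit 156) (nat_lit 145))) (PT.nd (nat_lit 78) (PT.lf (nat_lit 26296) (nat_lit 6) (nat_lit 346) (nat_lit 2) (nat_lit 150) (nat_lit 156) (nat_lit 144)) (PT.lf (nat_lit 25840) (nat_lit 6) (nat_lit 340) (nat_lit 2) (nat_lit 151) (nat_lit 156) (nat_lit 143))))))))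
noncomputable def pc17 : PT := (PT.nd (nat_lit 45708) (PT.nd (nat_lit 1092) (PT.nd (nat_lit 546) (PT.nd (nat_lit 234) (PT.nd (nat_lit 78) (PT.lf (nat_lit 25308) (nat_lit 6) (nat_lit 333) (nat_lit 2) (nat_lit 152) (nat_lit 156) (nat_lit 142)) (PT.nd (nat_lit 78) (PT.lf (nat_lit 24700) (nat_lit 6) (nat_lit 325) (nat_lit 2) (nat_lit 153) (nat_lit 156) (nat_lit 141)) (PT.lf (nat_lit 24016) (nat_lit 6) (nat_lit 316) (nat_lit 2) (nat_lit 154) (nat_lit 156) (nat_lit 140)))) (PT.nd (nat_lit 156) (PT.nd (nat_lit 78) (PT.lf (nat_lit 23256) (nat_lit 6) (nat_lit 306) (nat_lit 2) (nat_lit 155) (nat_lit 156) (nat_lit 139)) (PT.lf (nat_lit 22420) (nat_lit 3) (nat_lit 295) (nat_lit 0) (nat_lit 156) (nat_lit 156) (nat_lit 138))) (PT.nd (nat_lit 78) (PT.lf (nat_lit 21432) (nat_lit 6) (nat_lit 282) (nat_lit 0) (nat_lit 157) (nat_lit 156) (nat_lit 137)) (PT.lf (nat_lit 20368) (nat_lit 6) (nat_lit 268) (nat_lit 0) (nat_lit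 158) (nat_lit 156) (nat_lit 136))))) (PT.nd (nat_lit 234) (PT.nd (nat_lit 78) (PT.lf (nat_lit 19228) (nat_lit 6) (nat_lit 253) (nat_lit 0) (nat_lit 159) (nat_lit 156) (nat_lit 135)) (PT.nd (nat_lit 78) (PT.lf (nat_lit 18012) (nat_lit 6) (nat_lit 237) (nat_lit 0) (nat_lit 160) (nat_lit 156) (nat_lit 134)) (PT.lf (nat_lit 16720) (nat_lit 6) (nat_lit 220) (nat_lit 0) (nat_lit 161) (nat_lit 156) (nat_lit 133)))) (PT.nd (nat_lit 156) (PT.nd (nat_lit 78) (PT.lf (nat_lit 16036) (nat_lit 6) (nat_lit 211) (nat_lit 0) (nat_lit 162) (nat_lit 156) (nat_lit 132)) (PT.lf (nat_lit 15428) (nat_lit 6) (nat_lit 203) (nat_lit 0) (nat_lit 163) (nat_lit 156) (nat_lit 131))) (PT.nd (nat_lit 78) (PT.lf (nat_lit 14744) (nat_lit 6) (nat_lit 194) (nat_lit 0) (nat_lit 164) (nat_lit 156) (nat_lit 130)) (PT.lf (nat_lit 14136) (nat_lit 6) (nat_lit 186) (nat_lit 0) (nat_lit 165) (nat_lit 156) (nat_lit 129)))))) (PT.nd (nat_lit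 43992) (PT.nd (nat_lit 43680) (PT.nd (nat_lit 78) (PT.lf (nat_lit 13528) (nat_lit 6) (nat_lit 178) (nat_lit 0) (nat_lit 166) (nat_lit 156) (nat_lit 128)) (PT.nd (nat_lit 78) (PT.lf (nat_lit 12996) (nat_lit 6) (nat_lit 171) (nat_lit 0) (nat_lit 167) (nat_lit 156) (nat_lit 127)) (PT.lf (nat_lit 12464) (nat_lit 6) (nat_lit 164) (nat_lit 0) (nat_lit 168) (nat_lit 156) (nat_lit 126)))) (PT.nd (nat_lit 156) (PT.nd (nat_lit 78) (PT.lf (nat_lit 12008) (nat_lit 6) (nat_lit 158) (nat_lit 5) (nat_lit 125) (nat_lit 157) (nat_lit 168)) (PT.lf (nat_lit 12540) (nat_lit 6) (nat_lit 165) (nat_lit 5) (nat_lit 126) (nat_lit 157) (nat_lit 167))) (PT.nd (nat_lit 78) (PT.lf (nat_lit 13072) (nat_lit 6) (nat_lit 172) (nat_lit 5) (nat_lit 127) (nat_lit 157) (nat_lit 166)) (PT.lf (nat_lit 13604) (nat_lit 6) (nat_lit 179) (nat_lit 5) (nat_lit 128) (nat_lit 157) (nat_lit 165))))) (PT.nd (nat_lit 312) (PT.nd (nat_lit 156) (PT.nd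 (nat_lit 78) (PT.lf (nat_lit 14212) (nat_lit 6) (nat_lit 187) (nat_lit 5) (nat_lit 129) (nat_lit 157) (nat_lit 164)) (PT.lf (nat_lit 14820) (nat_lit 6) (nat_lit 195) (nat_lit 5) (nat_lit 130) (nat_lit 157) (nat_lit 163))) (PT.nd (nat_lit 78) (PT.lf (nat_lit 15504) (nat_lit 6) (nat_lit 204) (nat_lit 5) (nat_lit 131) (nat_lit 157) (nat_lit 162)) (PT.lf (nat_lit 16112) (nat_lit 6) (nat_lit 212) (nat_lit 5) (nat_lit 132) (nat_lit 157) (nat_lit 161)))) (PT.nd (nat_lit 156) (PT.nd (nat_lit 78) (PT.lf (nat_lit 16796) (nat_lit 6) (nat_lit 221) (nat_lit 5) (nat_lit 133) (nat_lit 157) (nat_lit 160)) (PT.lf (nat_lit 18088) (nat_lit 6) (nat_lit 238) (nat_lit 5) (nat_lit 134) (nat_lit 157) (nat_lit 159))) (PT.nd (nat_lit 78) (PT.lf (nat_lit 19304) (nat_lit 6) (nat_lit 254) (nat_lit 5) (nat_lit 135) (nat_lit 157) (nat_lit 158)) (PT.lf (nat_lit 20444) (nat_lit 3) (nat_lit 269) (nat_lit 4) (nat_lit 136) (nat_lit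 157) (nat_lit 157))))))) (PT.nd (nat_lit 1092) (PT.nd (nat_lit 546) (PT.nd (nat_lit 234) (PT.nd (nat_lit 78) (PT.lf (nat_lit 21432) (nat_lit 6) (nat_lit 282) (nat_lit 4) (nat_lit 137) (nat_lit 157) (nat_lit 156)) (PT.nd (nat_lit 78) (PT.lf (nat_lit 22344) (nat_lit 6) (nat_lit 294) (nat_lit 4) (nat_lit 138) (nat_lit 157) (nat_lit 155)) (PT.lf (nat_lit 23180) (nat_lit 6) (nat_lit 305) (nat_lit 4) (nat_lit 139) (nat_lit 157) (nat_lit 154)))) (PT.nd (nat_lit 156) (PT.nd (nat_lit 78) (PT.lf (nat_lit 23940) (nat_lit 6) (nat_lit 315) (nat_lit 4) (nat_lit 140) (nat_lit 157) (nat_lit 153)) (PT.lf (nat_lit 24624) (nat_lit 6) (nat_lit 324) (nat_lit 4) (nat_lit 141) (nat_lit 157) (nat_lit 152))) (PT.nd (nat_lit 78) (PT.lf (nat_lit 25232) (nat_lit 6) (nat_lit 332) (nat_lit 4) (nat_lit 142) (nat_lit 157) (nat_lit 151)) (PT.lf (nat_lit 25764) (nat_lit 6) (nat_lit 339) (nat_lit 4) (nat_lit 143) (nat_lit 157) (nat_lit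 150))))) (PT.nd (nat_lit 234) (PT.nd (nat_lit 78) (PT.lf (nat_lit 25688) (nat_lit 6) (nat_lit 338) (nat_lit 4) (nat_lit 144) (nat_lit 157) (nat_lit 149)) (PT.nd (nat_lit 78) (PT.lf (nat_lit 25612) (nat_lit 6) (nat_lit 337) (nat_lit 4) (nat_lit 145) (nat_lit 157) (nat_lit 148)) (PT.lf (nat_lit 25536) (nat_lit 6) (nat_lit 336) (nat_lit 4) (nat_lit 146) (nat_lit 157) (nat_lit 147)))) (PT.nd (nat_lit 156) (PT.nd (nat_lit 78) (PT.lf (nat_lit 25536) (nat_lit 6) (nat_lit 336) (nat_lit 2) (nat_lit 147) (nat_lit 157) (nat_lit 146)) (PT.lf (nat_lit 25612) (nat_lit 6) (nat_lit 337) (nat_lit 2) (nat_lit 148) (nat_lit 157) (nat_lit 145))) (PT.nd (nat_lit 78) (PT.lf (nat_lit 25688) (nat_lit 6) (nat_lit 338) (nat_lit 2) (nat_lit 149) (nat_lit 157) (nat_lit 144)) (PT.lf (nat_lit 25764) (nat_lit 6) (nat_lit 339) (nat_lit 2) (nat_lit 150) (nat_lit 157) (nat_lit 143)))))) (PT.nd (nat_lit 546) (PT.nd (nat_lit 234) (PT.nd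 (nat_lit 78) (PT.lf (nat_lit 25232) (nat_lit 6) (nat_lit 332) (nat_lit 2) (nat_lit 151) (nat_lit 157) (nat_lit 142)) (PT.nd (nat_lit 78) (PT.lf (nat_lit 24624) (nat_lit 6) (nat_lit 324) (nat_lit 2) (nat_lit 152) (nat_lit 157) (nat_lit 141)) (PT.lf (nat_lit 23940) (nat_lit 6) (nat_lit 315) (nat_lit 2) (nat_lit 153) (nat_lit 157) (nat_lit 140)))) (PT.nd (nat_lit 156) (PT.nd (nat_lit 78) (PT.lf (nat_lit 23180) (nat_lit 6) (nat_lit 305) (nat_lit 2) (nat_lit 154) (nat_lit 157) (nat_lit 139)) (PT.lf (nat_lit 22344) (nat_lit 6) (nat_lit 294) (nat_lit 2) (nat_lit 155) (nat_lit 157) (nat_lit 138))) (PT.nd (nat_lit 78) (PT.lf (nat_lit 21432) (nat_lit 6) (nat_lit 282) (nat_lit 2) (nat_lit 156) (nat_lit 157) (nat_lit 137)) (PT.lf (nat_lit 20444) (nat_lit 3) (nat_lit 269) (nat_lit 0) (nat_lit 157) (nat_lit 157) (nat_lit 136))))) (PT.nd (nat_lit 312) (PT.nd (nat_lit 156) (PT.nd (nat_lit 78) (PT.lf (nat_lit 19304)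 (nat_lit 6) (nat_lit 254) (nat_lit 0) (nat_lit 158) (nat_lit 157) (nat_lit 135)) (PT.lf (nat_lit 18088) (nat_lit 6) (nat_lit 238) (nat_lit 0) (nat_lit 159) (nat_lit 157) (nat_lit 134))) (PT.nd (nat_lit 78) (PT.lf (nat_lit 16796) (nat_lit 6) (nat_lit 221) (nat_lit 0) (nat_lit 160) (nat_lit 157) (nat_lit 133)) (PT.lf (nat_lit 16112) (nat_lit 6) (nat_lit 212) (nat_lit 0) (nat_lit 161) (nat_lit 157) (nat_lit 132)))) (PT.nd (nat_lit 156) (PT.nd (nat_lit 78) (PT.lf (nat_lit 15504) (nat_lit 6) (nat_lit 204) (nat_lit 0) (nat_lit 162) (nat_lit 157) (nat_lit 131)) (PT.lf (nat_lit 14820) (nat_lit 6) (nat_lit 195) (nat_lit 0) (nat_lit 163) (nat_lit 157) (nat_lit 130))) (PT.nd (nat_lit 78) (PT.lf (nat_lit 14212) (nat_lit 6) (nat_lit 187) (nat_lit 0) (nat_lit 164) (nat_lit 157) (nat_lit 129)) (PT.lf (nat_lit 13604) (nat_lit 6) (nat_lit 179) (nat_lit 0) (nat_lit 165) (nat_lit 157) (nat_lit 128))))))))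
noncomputable def pc18 : PT := (PT.nd (nat_lit 45552) (PT.nd (nat_lit 44460) (PT.nd (nat_lit 43914) (PT.nd (nat_lit 43602) (PT.nd (nat_lit 78) (PT.lf (nat_lit 13072) (nat_lit 6) (nat_lit 172) (nat_lit 0) (nat_lit 166) (nat_lit 157) (nat_lit 127)) (PT.nd (nat_lit 78) (PT.lf (nat_lit 12540) (nat_lit 6) (nat_lit 165) (nat_lit 0) (nat_lit 167) (nat_lit 157) (nat_lit 126)) (PT.lf (nat_lit 12008) (nat_lit 6) (nat_lit 158) (nat_lit 0) (nat_lit 168) (nat_lit 157) (nat_lit 125)))) (PT.nd (nat_lit 156) (PT.nd (nat_lit 78) (PT.lf (nat_lit 11552) (nat_lit 6) (nat_lit 152) (nat_lit 5) (nat_lit 124) (nat_lit 158) (nat_lit 168)) (PT.lf (nat_lit 12084) (nat_lit 6) (nat_lit 159) (nat_lit 5) (nat_lit 125) (nat_lit 158) (nat_lit 167))) (PT.nd (nat_lit 78) (PT.lf (nat_lit 12616) (nat_lit 6) (nat_lit 166) (nat_lit 5) (nat_lit 126) (nat_lit 158) (nat_lit 166)) (PT.lf (nat_lit 13148) (nat_lit 6) (nat_lit 173) (nat_lit 5)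 (nat_lit 127) (nat_lit 158) (nat_lit 165))))) (PT.nd (nat_lit 234) (PT.nd (nat_lit 78) (PT.lf (nat_lit 13680) (nat_lit 6) (nat_lit 180) (nat_lit 5) (nat_lit 128) (nat_lit 158) (nat_lit 164)) (PT.nd (nat_lit 78) (PT.lf (nat_lit 14288) (nat_lit 6) (nat_lit 188) (nat_lit 5) (nat_lit 129) (nat_lit 158) (nat_lit 163)) (PT.lf (nat_lit 14896) (nat_lit 6) (nat_lit 196) (nat_lit 5) (nat_lit 130) (nat_lit 158) (nat_lit 162)))) (PT.nd (nat_lit 156) (PT.nd (nat_lit 78) (PT.lf (nat_lit 15580) (nat_lit 6) (nat_lit 205) (nat_lit 5) (nat_lit 131) (nat_lit 158) (nat_lit 161)) (PT.lf (nat_lit 16188) (nat_lit 6) (nat_lit 213) (nat_lit 5) (nat_lit 132) (nat_lit 158) (nat_lit 160))) (PT.nd (nat_lit 78) (PT.lf (nat_lit 16872) (nat_lit 6) (nat_lit 222) (nat_lit 5) (nat_lit 133) (nat_lit 158) (nat_lit 159)) (PT.lf (nat_lit 18164) (nat_lit 3) (nat_lit 239) (nat_lit 4) (nat_lit 134) (nat_lit 158) (nat_lit 158)))))) (PT.nd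 (nat_lit 546) (PT.nd (nat_lit 234) (PT.nd (nat_lit 78) (PT.lf (nat_lit 19304) (nat_lit 6) (nat_lit 254) (nat_lit 4) (nat_lit 135) (nat_lit 158) (nat_lit 157)) (PT.nd (nat_lit 78) (PT.lf (nat_lit 20368) (nat_lit 6) (nat_lit 268) (nat_lit 4) (nat_lit 136) (nat_lit 158) (nat_lit 156)) (PT.lf (nat_lit 21356) (nat_lit 6) (nat_lit 281) (nat_lit 4) (nat_lit 137) (nat_lit 158) (nat_lit 155)))) (PT.nd (nat_lit 156) (PT.nd (nat_lit 78) (PT.lf (nat_lit 22268) (nat_lit 6) (nat_lit 293) (nat_lit 4) (nat_lit 138) (nat_lit 158) (nat_lit 154)) (PT.lf (nat_lit 23104) (nat_lit 6) (nat_lit 304) (nat_lit 4) (nat_lit 139) (nat_lit 158) (nat_lit 153))) (PT.nd (nat_lit 78) (PT.lf (nat_lit 23864) (nat_lit 6) (nat_lit 314) (nat_lit 4) (nat_lit 140) (nat_lit 158) (nat_lit 152)) (PT.lf (nat_lit 24548) (nat_lit 6) (nat_lit 323) (nat_lit 4) (nat_lit 141) (nat_lit 158) (nat_lit 151))))) (PT.nd (nat_lit 234) (PT.nd (nat_lit 78)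 (PT.lf (nat_lit 25156) (nat_lit 6) (nat_lit 331) (nat_lit 4) (nat_lit 142) (nat_lit 158) (nat_lit 150)) (PT.nd (nat_lit 78) (PT.lf (nat_lit 25080) (nat_lit 6) (nat_lit 330) (nat_lit 4) (nat_lit 143) (nat_lit 158) (nat_lit 149)) (PT.lf (nat_lit 25004) (nat_lit 6) (nat_lit 329) (nat_lit 4) (nat_lit 144) (nat_lit 158) (nat_lit 148)))) (PT.nd (nat_lit 156) (PT.nd (nat_lit 78) (PT.lf (nat_lit 24928) (nat_lit 6) (nat_lit 328) (nat_lit 4) (nat_lit 145) (nat_lit 158) (nat_lit 147)) (PT.lf (nat_lit 24852) (nat_lit 3) (nat_lit 327) (nat_lit 2) (nat_lit 146) (nat_lit 158) (nat_lit 146))) (PT.nd (nat_lit 78) (PT.lf (nat_lit 24928) (nat_lit 6) (nat_lit 328) (nat_lit 2) (nat_lit 147) (nat_lit 158) (nat_lit 145)) (PT.lf (nat_lit 25004) (nat_lit 6) (nat_lit 329) (nat_lit 2) (nat_lit 148) (nat_lit 158) (nat_lit 144))))))) (PT.nd (nat_lit 1092) (PT.nd (nat_lit 546) (PT.nd (nat_lit 234) (PT.nd (nat_lit 78) (PT.lf (nat_lit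 25080) (nat_lit 6) (nat_lit 330) (nat_lit 2) (nat_lit 149) (nat_lit 158) (nat_lit 143)) (PT.nd (nat_lit 78) (PT.lf (nat_lit 25156) (nat_lit 6) (nat_lit 331) (nat_lit 2) (nat_lit 150) (nat_lit 158) (nat_lit 142)) (PT.lf (nat_lit 24548) (nat_lit 6) (nat_lit 323) (nat_lit 2) (nat_lit 151) (nat_lit 158) (nat_lit 141)))) (PT.nd (nat_lit 156) (PT.nd (nat_lit 78) (PT.lf (nat_lit 23864) (nat_lit 6) (nat_lit 314) (nat_lit 2) (nat_lit 152) (nat_lit 158) (nat_lit 140)) (PT.lf (nat_lit 23104) (nat_lit 6) (nat_lit 304) (nat_lit 2) (nat_lit 153) (nat_lit 158) (nat_lit 139))) (PT.nd (nat_lit 78) (PT.lf (nat_lit 22268) (nat_lit 6) (nat_lit 293) (nat_lit 2) (nat_lit 154) (nat_lit 158) (nat_lit 138)) (PT.lf (nat_lit 21356) (nat_lit 6) (nat_lit 281) (nat_lit 2) (nat_lit 155) (nat_lit 158) (nat_lit 137))))) (PT.nd (nat_lit 234) (PT.nd (nat_lit 78) (PT.lf (nat_lit 20368) (nat_lit 6) (nat_lit 268) (nat_lit 2) (nat_lit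 156) (nat_lit 158) (nat_lit 136)) (PT.nd (nat_lit 78) (PT.lf (nat_lit 19304) (nat_lit 6) (nat_lit 254) (nat_lit 2) (nat_lit 157) (nat_lit 158) (nat_lit 135)) (PT.lf (nat_lit 18164) (nat_lit 3) (nat_lit 239) (nat_lit 0) (nat_lit 158) (nat_lit 158) (nat_lit 134)))) (PT.nd (nat_lit 156) (PT.nd (nat_lit 78) (PT.lf (nat_lit 16872) (nat_lit 6) (nat_lit 222) (nat_lit 0) (nat_lit 159) (nat_lit 158) (nat_lit 133)) (PT.lf (nat_lit 16188) (nat_lit 6) (nat_lit 213) (nat_lit 0) (nat_lit 160) (nat_lit 158) (nat_lit 132))) (PT.nd (nat_lit 78) (PT.lf (nat_lit 15580) (nat_lit 6) (nat_lit 205) (nat_lit 0) (nat_lit 161) (nat_lit 158) (nat_lit 131)) (PT.lf (nat_lit 14896) (nat_lit 6) (nat_lit 196) (nat_lit 0) (nat_lit 162) (nat_lit 158) (nat_lit 130)))))) (PT.nd (nat_lit 43758) (PT.nd (nat_lit 234) (PT.nd (nat_lit 78) (PT.lf (nat_lit 14288) (nat_lit 6) (nat_lit 188) (nat_lit 0) (nat_lit 163) (nat_lit 158) (nat_lit 129))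 (PT.nd (nat_lit 78) (PT.lf (nat_lit 13680) (nat_lit 6) (nat_lit 180) (nat_lit 0) (nat_lit 164) (nat_lit 158) (nat_lit 128)) (PT.lf (nat_lit 13148) (nat_lit 6) (nat_lit 173) (nat_lit 0) (nat_lit 165) (nat_lit 158) (nat_lit 127)))) (PT.nd (nat_lit 156) (PT.nd (nat_lit 78) (PT.lf (nat_lit 12616) (nat_lit 6) (nat_lit 166) (nat_lit 0) (nat_lit 166) (nat_lit 158) (nat_lit 126)) (PT.lf (nat_lit 12084) (nat_lit 6) (nat_lit 159) (nat_lit 0) (nat_lit 167) (nat_lit 158) (nat_lit 125))) (PT.nd (nat_lit 43290) (PT.lf (nat_lit 11552) (nat_lit 6) (nat_lit 152) (nat_lit 0) (nat_lit 168) (nat_lit 158) (nat_lit 124)) (PT.lf (nat_lit 10640) (nat_lit 6) (nat_lit 140) (nat_lit 5) (nat_lit 122) (nat_lit 159) (nat_lit 169))))) (PT.nd (nat_lit 312) (PT.nd (nat_lit 156) (PT.nd (nat_lit 78) (PT.lf (nat_lit 11172) (nat_lit 6) (nat_lit 147) (nat_lit 5) (nat_lit 123) (nat_lit 159) (nat_lit 168)) (PT.lf (nat_lit 11628) (nat_lit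 6) (nat_lit 153) (nat_lit 5) (nat_lit 124) (nat_lit 159) (nat_lit 167))) (PT.nd (nat_lit 78) (PT.lf (nat_lit 12160) (nat_lit 6) (nat_lit 160) (nat_lit 5) (nat_lit 125) (nat_lit 159) (nat_lit 166)) (PT.lf (nat_lit 12692) (nat_lit 6) (nat_lit 167) (nat_lit 5) (nat_lit 126) (nat_lit 159) (nat_lit 165)))) (PT.nd (nat_lit 156) (PT.nd (nat_lit 78) (PT.lf (nat_lit 13224) (nat_lit 6) (nat_lit 174) (nat_lit 5) (nat_lit 127) (nat_lit 159) (nat_lit 164)) (PT.lf (nat_lit 13756) (nat_lit 6) (nat_lit 181) (nat_lit 5) (nat_lit 128) (nat_lit 159) (nat_lit 163))) (PT.nd (nat_lit 78) (PT.lf (nat_lit 14364) (nat_lit 6) (nat_lit 189) (nat_lit 5) (nat_lit 129) (nat_lit 159) (nat_lit 162)) (PT.lf (nat_lit 14972) (nat_lit 6) (nat_lit 197) (nat_lit 5) (nat_lit 130) (nat_lit 159) (nat_lit 161))))))))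
noncomputable def pc19 : PT := (PT.nd (nat_lit 2262) (PT.nd (nat_lit 1092) (PT.nd (nat_lit 546) (PT.nd (nat_lit 234) (PT.nd (nat_lit 78) (PT.lf (nat_lit 15656) (nat_lit 6) (nat_lit 206) (nat_lit 5) (nat_lit 131) (nat_lit 159) (nat_lit 160)) (PT.nd (nat_lit 78) (PT.lf (nat_lit 16264) (nat_lit 3) (nat_lit 214) (nat_lit 4) (nat_lit 132) (nat_lit 159) (nat_lit 159)) (PT.lf (nat_lit 16872) (nat_lit 6) (nat_lit 222) (nat_lit 4) (nat_lit 133) (nat_lit 159) (nat_lit 158)))) (PT.nd (nat_lit 156) (PT.nd (nat_lit 78) (PT.lf (nat_lit 18088) (nat_lit 6) (nat_lit 238) (nat_lit 4) (nat_lit 134) (nat_lit 159) (nat_lit 157)) (PT.lf (nat_lit 19228) (nat_lit 6) (nat_lit 253) (nat_lit 4) (nat_lit 135) (nat_lit 159) (nat_lit 156))) (PT.nd (nat_lit 78) (PT.lf (nat_lit 20292) (nat_lit 6) (nat_lit 267) (nat_lit 4) (nat_lit 136) (nat_lit 159) (nat_lit 155)) (PT.lf (nat_lit 21280) (nat_lit 6) (nat_lit 280) (nat_lit 4) (nat_lit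 137) (nat_lit 159) (nat_lit 154))))) (PT.nd (nat_lit 234) (PT.nd (nat_lit 78) (PT.lf (nat_lit 22192) (nat_lit 6) (nat_lit 292) (nat_lit 4) (nat_lit 138) (nat_lit 159) (nat_lit 153)) (PT.nd (nat_lit 78) (PT.lf (nat_lit 23028) (nat_lit 6) (nat_lit 303) (nat_lit 4) (nat_lit 139) (nat_lit 159) (nat_lit 152)) (PT.lf (nat_lit 23788) (nat_lit 6) (nat_lit 313) (nat_lit 4) (nat_lit 140) (nat_lit 159) (nat_lit 151)))) (PT.nd (nat_lit 156) (PT.nd (nat_lit 78) (PT.lf (nat_lit 24472) (nat_lit 6) (nat_lit 322) (nat_lit 4) (nat_lit 141) (nat_lit 159) (nat_lit 150)) (PT.lf (nat_lit 24396) (nat_lit 6) (nat_lit 321) (nat_lit 4) (nat_lit 142) (nat_lit 159) (nat_lit 149))) (PT.nd (nat_lit 78) (PT.lf (nat_lit 24320) (nat_lit 6) (nat_lit 320) (nat_lit 4) (nat_lit 143) (nat_lit 159) (nat_lit 148)) (PT.lf (nat_lit 24244) (nat_lit 6) (nat_lit 319) (nat_lit 4) (nat_lit 144) (nat_lit 159) (nat_lit 147)))))) (PT.nd (nat_lit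 546) (PT.nd (nat_lit 234) (PT.nd (nat_lit 78) (PT.lf (nat_lit 24168) (nat_lit 6) (nat_lit 318) (nat_lit 4) (nat_lit 145) (nat_lit 159) (nat_lit 146)) (PT.nd (nat_lit 78) (PT.lf (nat_lit 24168) (nat_lit 6) (nat_lit 318) (nat_lit 2) (nat_lit 146) (nat_lit 159) (nat_lit 145)) (PT.lf (nat_lit 24244) (nat_lit 6) (nat_lit 319) (nat_lit 2) (nat_lit 147) (nat_lit 159) (nat_lit 144)))) (PT.nd (nat_lit 156) (PT.nd (nat_lit 78) (PT.lf (nat_lit 24320) (nat_lit 6) (nat_lit 320) (nat_lit 2) (nat_lit 148) (nat_lit 159) (nat_lit 143)) (PT.lf (nat_lit 24396) (nat_lit 6) (nat_lit 321) (nat_lit 2) (nat_lit 149) (nat_lit 159) (nat_lit 142))) (PT.nd (nat_lit 78) (PT.lf (nat_lit 24472) (nat_lit 6) (nat_lit 322) (nat_lit 2) (nat_lit 150) (nat_lit 159) (nat_lit 141)) (PT.lf (nat_lit 23788) (nat_lit 6) (nat_lit 313) (nat_lit 2) (nat_lit 151) (nat_lit 159) (nat_lit 140))))) (PT.nd (nat_lit 312) (PT.nd (nat_lit 156) (PT.nd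 (nat_lit 78) (PT.lf (nat_lit 23028) (nat_lit 6) (nat_lit 303) (nat_lit 2) (nat_lit 152) (nat_lit 159) (nat_lit 139)) (PT.lf (nat_lit 22192) (nat_lit 6) (nat_lit 292) (nat_lit 2) (nat_lit 153) (nat_lit 159) (nat_lit 138))) (PT.nd (nat_lit 78) (PT.lf (nat_lit 21280) (nat_lit 6) (nat_lit 280) (nat_lit 2) (nat_lit 154) (nat_lit 159) (nat_lit 137)) (PT.lf (nat_lit 20292) (nat_lit 6) (nat_lit 267) (nat_lit 2) (nat_lit 155) (nat_lit 159) (nat_lit 136)))) (PT.nd (nat_lit 156) (PT.nd (nat_lit 78) (PT.lf (nat_lit 19228) (nat_lit 6) (nat_lit 253) (nat_lit 2) (nat_lit 156) (nat_lit 159) (nat_lit 135)) (PT.lf (nat_lit 18088) (nat_lit 6) (nat_lit 238) (nat_lit 2) (nat_lit 157) (nat_lit 159) (nat_lit 134))) (PT.nd (nat_lit 78) (PT.lf (nat_lit 16872) (nat_lit 6) (nat_lit 222) (nat_lit 2) (nat_lit 158) (nat_lit 159) (nat_lit 133)) (PT.lf (nat_lit 16264) (nat_lit 3) (nat_lit 214) (nat_lit 0) (nat_lit 159) (nat_lit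 159) (nat_lit 132))))))) (PT.nd (nat_lit 44148) (PT.nd (nat_lit 546) (PT.nd (nat_lit 234) (PT.nd (nat_lit 78) (PT.lf (nat_lit 15656) (nat_lit 6) (nat_lit 206) (nat_lit 0) (nat_lit 160) (nat_lit 159) (nat_lit 131)) (PT.nd (nat_lit 78) (PT.lf (nat_lit 14972) (nat_lit 6) (nat_lit 197) (nat_lit 0) (nat_lit 161) (nat_lit 159) (nat_lit 130)) (PT.lf (nat_lit 14364) (nat_lit 6) (nat_lit 189) (nat_lit 0) (nat_lit 162) (nat_lit 159) (nat_lit 129)))) (PT.nd (nat_lit 156) (PT.nd (nat_lit 78) (PT.lf (nat_lit 13756) (nat_lit 6) (nat_lit 181) (nat_lit 0) (nat_lit 163) (nat_lit 159) (nat_lit 128)) (PT.lf (nat_lit 13224) (nat_lit 6) (nat_lit 174) (nat_lit 0) (nat_lit 164) (nat_lit 159) (nat_lit 127))) (PT.nd (nat_lit 78) (PT.lf (nat_lit 12692) (nat_lit 6) (nat_lit 167) (nat_lit 0) (nat_lit 165) (nat_lit 159) (nat_lit 126)) (PT.lf (nat_lit 12160) (nat_lit 6) (nat_lit 160) (nat_lit 0) (nat_lit 166) (nat_lit 159) (nat_lit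 125))))) (PT.nd (nat_lit 43290) (PT.nd (nat_lit 78) (PT.lf (nat_lit 11628) (nat_lit 6) (nat_lit 153) (nat_lit 0) (nat_lit 167) (nat_lit 159) (nat_lit 124)) (PT.nd (nat_lit 78) (PT.lf (nat_lit 11172) (nat_lit 6) (nat_lit 147) (nat_lit 0) (nat_lit 168) (nat_lit 159) (nat_lit 123)) (PT.lf (nat_lit 10640) (nat_lit 6) (nat_lit 140) (nat_lit 0) (nat_lit 169) (nat_lit 159) (nat_lit 122)))) (PT.nd (nat_lit 156) (PT.nd (nat_lit 78) (PT.lf (nat_lit 10260) (nat_lit 6) (nat_lit 135) (nat_lit 5) (nat_lit 121) (nat_lit 160) (nat_lit 169)) (PT.lf (nat_lit 10716) (nat_lit 6) (nat_lit 141) (nat_lit 5) (nat_lit 122) (nat_lit 160) (nat_lit 168))) (PT.nd (nat_lit 78) (PT.lf (nat_lit 11248) (nat_lit 6) (nat_lit 148) (nat_lit 5) (nat_lit 123) (nat_lit 160) (nat_lit 167)) (PT.lf (nat_lit 11704) (nat_lit 6) (nat_lit 154) (nat_lit 5) (nat_lit 124) (nat_lit 160) (nat_lit 166)))))) (PT.nd (nat_lit 546) (PT.nd (nat_lit 234)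 (PT.nd (nat_lit 78) (PT.lf (nat_lit 12236) (nat_lit 6) (nat_lit 161) (nat_lit 5) (nat_lit 125) (nat_lit 160) (nat_lit 165)) (PT.nd (nat_lit 78) (PT.lf (nat_lit 12768) (nat_lit 6) (nat_lit 168) (nat_lit 5) (nat_lit 126) (nat_lit 160) (nat_lit 164)) (PT.lf (nat_lit 13300) (nat_lit 6) (nat_lit 175) (nat_lit 5) (nat_lit 127) (nat_lit 160) (nat_lit 163)))) (PT.nd (nat_lit 156) (PT.nd (nat_lit 78) (PT.lf (nat_lit 13832) (nat_lit 6) (nat_lit 182) (nat_lit 5) (nat_lit 128) (nat_lit 160) (nat_lit 162)) (PT.lf (nat_lit 14440) (nat_lit 6) (nat_lit 190) (nat_lit 5) (nat_lit 129) (nat_lit 160) (nat_lit 161))) (PT.nd (nat_lit 78) (PT.lf (nat_lit 15048) (nat_lit 3) (nat_lit 198) (nat_lit 4) (nat_lit 130) (nat_lit 160) (nat_lit 160)) (PT.lf (nat_lit 15656) (nat_lit 6) (nat_lit 206) (nat_lit 4) (nat_lit 131) (nat_lit 160) (nat_lit 159))))) (PT.nd (nat_lit 312) (PT.nd (nat_lit 156) (PT.nd (nat_lit 78) (PT.lf (nat_lit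 16188) (nat_lit 6) (nat_lit 213) (nat_lit 4) (nat_lit 132) (nat_lit 160) (nat_lit 158)) (PT.lf (nat_lit 16796) (nat_lit 6) (nat_lit 221) (nat_lit 4) (nat_lit 133) (nat_lit 160) (nat_lit 157))) (PT.nd (nat_lit 78) (PT.lf (nat_lit 18012) (nat_lit 6) (nat_lit 237) (nat_lit 4) (nat_lit 134) (nat_lit 160) (nat_lit 156)) (PT.lf (nat_lit 19152) (nat_lit 6) (nat_lit 252) (nat_lit 4) (nat_lit 135) (nat_lit 160) (nat_lit 155)))) (PT.nd (nat_lit 156) (PT.nd (nat_lit 78) (PT.lf (nat_lit 20216) (nat_lit 6) (nat_lit 266) (nat_lit 4) (nat_lit 136) (nat_lit 160) (nat_lit 154)) (PT.lf (nat_lit 21204) (nat_lit 6) (nat_lit 279) (nat_lit 4) (nat_lit 137) (nat_lit 160) (nat_lit 153))) (PT.nd (nat_lit 78) (PT.lf (nat_lit 22116) (nat_lit 6) (nat_lit 291) (nat_lit 4) (nat_lit 138) (nat_lit 160) (nat_lit 152)) (PT.lf (nat_lit 22952) (nat_lit 6) (nat_lit 302) (nat_lit 4) (nat_lit 139) (nat_lit 160) (nat_lit 151))))))))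
noncomputable def pc20 : PT := (PT.nd (nat_lit 2184) (PT.nd (nat_lit 1092) (PT.nd (nat_lit 546) (PT.nd (nat_lit 234) (PT.nd (nat_lit 78) (PT.lf (nat_lit 23712) (nat_lit 6) (nat_lit 312) (nat_lit 4) (nat_lit 140) (nat_lit 160) (nat_lit 150)) (PT.nd (nat_lit 78) (PT.lf (nat_lit 23636) (nat_lit 6) (nat_lit 311) (nat_lit 4) (nat_lit 141) (nat_lit 160) (nat_lit 149)) (PT.lf (nat_lit 23560) (nat_lit 6) (nat_lit 310) (nat_lit 4) (nat_lit 142) (nat_lit 160) (nat_lit 148)))) (PT.nd (nat_lit 156) (PT.nd (nat_lit 78) (PT.lf (nat_lit 23484) (nat_lit 6) (nat_lit 309) (nat_lit 4) (nat_lit 143) (nat_lit 160) (nat_lit 147)) (PT.lf (nat_lit 23408) (nat_lit 6) (nat_lit 308) (nat_lit 4) (nat_lit 144) (nat_lit 160) (nat_lit 146))) (PT.nd (nat_lit 78) (PT.lf (nat_lit 23332) (nat_lit 3) (nat_lit 307) (nat_lit 2) (nat_lit 145) (nat_lit 160) (nat_lit 145)) (PT.lf (nat_lit 23408) (nat_lit 6) (nat_lit 308) (nat_lit 2) (nat_lit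 146) (nat_lit 160) (nat_lit 144))))) (PT.nd (nat_lit 234) (PT.nd (nat_lit 78) (PT.lf (nat_lit 23484) (nat_lit 6) (nat_lit 309) (nat_lit 2) (nat_lit 147) (nat_lit 160) (nat_lit 143)) (PT.nd (nat_lit 78) (PT.lf (nat_lit 23560) (nat_lit 6) (nat_lit 310) (nat_lit 2) (nat_lit 148) (nat_lit 160) (nat_lit 142)) (PT.lf (nat_lit 23636) (nat_lit 6) (nat_lit 311) (nat_lit 2) (nat_lit 149) (nat_lit 160) (nat_lit 141)))) (PT.nd (nat_lit 156) (PT.nd (nat_lit 78) (PT.lf (nat_lit 23712) (nat_lit 6) (nat_lit 312) (nat_lit 2) (nat_lit 150) (nat_lit 160) (nat_lit 140)) (PT.lf (nat_lit 22952) (nat_lit 6) (nat_lit 302) (nat_lit 2) (nat_lit 151) (nat_lit 160) (nat_lit 139))) (PT.nd (nat_lit 78) (PT.lf (nat_lit 22116) (nat_lit 6) (nat_lit 291) (nat_lit 2) (nat_lit 152) (nat_lit 160) (nat_lit 138)) (PT.lf (nat_lit 21204) (nat_lit 6) (nat_lit 279) (nat_lit 2) (nat_lit 153) (nat_lit 160) (nat_lit 137)))))) (PT.nd (nat_lit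 546) (PT.nd (nat_lit 234) (PT.nd (nat_lit 78) (PT.lf (nat_lit 20216) (nat_lit 6) (nat_lit 266) (nat_lit 2) (nat_lit 154) (nat_lit 160) (nat_lit 136)) (PT.nd (nat_lit 78) (PT.lf (nat_lit 19152) (nat_lit 6) (nat_lit 252) (nat_lit 2) (nat_lit 155) (nat_lit 160) (nat_lit 135)) (PT.lf (nat_lit 18012) (nat_lit 6) (nat_lit 237) (nat_lit 2) (nat_lit 156) (nat_lit 160) (nat_lit 134)))) (PT.nd (nat_lit 156) (PT.nd (nat_lit 78) (PT.lf (nat_lit 16796) (nat_lit 6) (nat_lit 221) (nat_lit 2) (nat_lit 157) (nat_lit 160) (nat_lit 133)) (PT.lf (nat_lit 16188) (nat_lit 6) (nat_lit 213) (nat_lit 2) (nat_lit 158) (nat_lit 160) (nat_lit 132))) (PT.nd (nat_lit 78) (PT.lf (nat_lit 15656) (nat_lit 6) (nat_lit 206) (nat_lit 2) (nat_lit 159) (nat_lit 160) (nat_lit 131)) (PT.lf (nat_lit 15048) (nat_lit 3) (nat_lit 198) (nat_lit 0) (nat_lit 160) (nat_lit 160) (nat_lit 130))))) (PT.nd (nat_lit 234) (PT.nd (nat_lit 78) (PT.lf (nat_lit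 14440) (nat_lit 6) (nat_lit 190) (nat_lit 0) (nat_lit 161) (nat_lit 160) (nat_lit 129)) (PT.nd (nat_lit 78) (PT.lf (nat_lit 13832) (nat_lit 6) (nat_lit 182) (nat_lit 0) (nat_lit 162) (nat_lit 160) (nat_lit 128)) (PT.lf (nat_lit 13300) (nat_lit 6) (nat_lit 175) (nat_lit 0) (nat_lit 163) (nat_lit 160) (nat_lit 127)))) (PT.nd (nat_lit 156) (PT.nd (nat_lit 78) (PT.lf (nat_lit 12768) (nat_lit 6) (nat_lit 168) (nat_lit 0) (nat_lit 164) (nat_lit 160) (nat_lit 126)) (PT.lf (nat_lit 12236) (nat_lit 6) (nat_lit 161) (nat_lit 0) (nat_lit 165) (nat_lit 160) (nat_lit 125))) (PT.nd (nat_lit 78) (PT.lf (nat_lit 11704) (nat_lit 6) (nat_lit 154) (nat_lit 0) (nat_lit 166) (nat_lit 160) (nat_lit 124)) (PT.lf (nat_lit 11248) (nat_lit 6) (nat_lit 148) (nat_lit 0) (nat_lit 167) (nat_lit 160) (nat_lit 123))))))) (PT.nd (nat_lit 43992) (PT.nd (nat_lit 43446) (PT.nd (nat_lit 43134) (PT.nd (nat_lit 78) (PT.lf (nat_lit 10716)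 (nat_lit 6) (nat_lit 141) (nat_lit 0) (nat_lit 168) (nat_lit 160) (nat_lit 122)) (PT.nd (nat_lit 42978) (PT.lf (nat_lit 10260) (nat_lit 6) (nat_lit 135) (nat_lit 0) (nat_lit 169) (nat_lit 160) (nat_lit 121)) (PT.lf (nat_lit 9500) (nat_lit 6) (nat_lit 125) (nat_lit 5) (nat_lit 119) (nat_lit 161) (nat_lit 170)))) (PT.nd (nat_lit 156) (PT.nd (nat_lit 78) (PT.lf (nat_lit 9880) (nat_lit 6) (nat_lit 130) (nat_lit 5) (nat_lit 120) (nat_lit 161) (nat_lit 169)) (PT.lf (nat_lit 10336) (nat_lit 6) (nat_lit 136) (nat_lit 5) (nat_lit 121) (nat_lit 161) (nat_lit 168))) (PT.nd (nat_lit 78) (PT.lf (nat_lit 10792) (nat_lit 6) (nat_lit 142) (nat_lit 5) (nat_lit 122) (nat_lit 161) (nat_lit 167)) (PT.lf (nat_lit 11324) (nat_lit 6) (nat_lit 149) (nat_lit 5) (nat_lit 123) (nat_lit 161) (nat_lit 166))))) (PT.nd (nat_lit 234) (PT.nd (nat_lit 78) (PT.lf (nat_lit 11780) (nat_lit 6) (nat_lit 155) (nat_lit 5) (nat_lit 124) (nat_lit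 161) (nat_lit 165)) (PT.nd (nat_lit 78) (PT.lf (nat_lit 12312) (nat_lit 6) (nat_lit 162) (nat_lit 5) (nat_lit 125) (nat_lit 161) (nat_lit 164)) (PT.lf (nat_lit 12844) (nat_lit 6) (nat_lit 169) (nat_lit 5) (nat_lit 126) (nat_lit 161) (nat_lit 163)))) (PT.nd (nat_lit 156) (PT.nd (nat_lit 78) (PT.lf (nat_lit 13376) (nat_lit 6) (nat_lit 176) (nat_lit 5) (nat_lit 127) (nat_lit 161) (nat_lit 162)) (PT.lf (nat_lit 13908) (nat_lit 3) (nat_lit 183) (nat_lit 4) (nat_lit 128) (nat_lit 161) (nat_lit 161))) (PT.nd (nat_lit 78) (PT.lf (nat_lit 14440) (nat_lit 6) (nat_lit 190) (nat_lit 4) (nat_lit 129) (nat_lit 161) (nat_lit 160)) (PT.lf (nat_lit 14972) (nat_lit 6) (nat_lit 197) (nat_lit 4) (nat_lit 130) (nat_lit 161) (nat_lit 159)))))) (PT.nd (nat_lit 546) (PT.nd (nat_lit 234) (PT.nd (nat_lit 78) (PT.lf (nat_lit 15580) (nat_lit 6) (nat_lit 205) (nat_lit 4) (nat_lit 131) (nat_lit 161) (nat_lit 158)) (PT.nd (nat_lit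 78) (PT.lf (nat_lit 16112) (nat_lit 6) (nat_lit 212) (nat_lit 4) (nat_lit 132) (nat_lit 161) (nat_lit 157)) (PT.lf (nat_lit 16720) (nat_lit 6) (nat_lit 220) (nat_lit 4) (nat_lit 133) (nat_lit 161) (nat_lit 156)))) (PT.nd (nat_lit 156) (PT.nd (nat_lit 78) (PT.lf (nat_lit 17936) (nat_lit 6) (nat_lit 236) (nat_lit 4) (nat_lit 134) (nat_lit 161) (nat_lit 155)) (PT.lf (nat_lit 19076) (nat_lit 6) (nat_lit 251) (nat_lit 4) (nat_lit 135) (nat_lit 161) (nat_lit 154))) (PT.nd (nat_lit 78) (PT.lf (nat_lit 20140) (nat_lit 6) (nat_lit 265) (nat_lit 4) (nat_lit 136) (nat_lit 161) (nat_lit 153)) (PT.lf (nat_lit 21128) (nat_lit 6) (nat_lit 278) (nat_lit 4) (nat_lit 137) (nat_lit 161) (nat_lit 152))))) (PT.nd (nat_lit 312) (PT.nd (nat_lit 156) (PT.nd (nat_lit 78) (PT.lf (nat_lit 22040) (nat_lit 6) (nat_lit 290) (nat_lit 4) (nat_lit 138) (nat_lit 161) (nat_lit 151)) (PT.lf (nat_lit 22876) (nat_lit 6) (nat_lit 301)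 (nat_lit 4) (nat_lit 139) (nat_lit 161) (nat_lit 150))) (PT.nd (nat_lit 78) (PT.lf (nat_lit 22800) (nat_lit 6) (nat_lit 300) (nat_lit 4) (nat_lit 140) (nat_lit 161) (nat_lit 149)) (PT.lf (nat_lit 22724) (nat_lit 6) (nat_lit 299) (nat_lit 4) (nat_lit 141) (nat_lit 161) (nat_lit 148)))) (PT.nd (nat_lit 156) (PT.nd (nat_lit 78) (PT.lf (nat_lit 22648) (nat_lit 6) (nat_lit 298) (nat_lit 4) (nat_lit 142) (nat_lit 161) (nat_lit 147)) (PT.lf (nat_lit 22572) (nat_lit 6) (nat_lit 297) (nat_lit 4) (nat_lit 143) (nat_lit 161) (nat_lit 146))) (PT.nd (nat_lit 78) (PT.lf (nat_lit 22496) (nat_lit 6) (nat_lit 296) (nat_lit 4) (nat_lit 144) (nat_lit 161) (nat_lit 145)) (PT.lf (nat_lit 22496) (nat_lit 6) (nat_lit 296) (nat_lit 2) (nat_lit 145) (nat_lit 161) (nat_lit 144))))))))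
noncomputable def pc21 : PT := (PT.nd (nat_lit 45006) (PT.nd (nat_lit 1092) (PT.nd (nat_lit 546) (PT.nd (nat_lit 234) (PT.nd (nat_lit 78) (PT.lf (nat_lit 22572) (nat_lit 6) (nat_lit 297) (nat_lit 2) (nat_lit 146) (nat_lit 161) (nat_lit 143)) (PT.nd (nat_lit 78) (PT.lf (nat_lit 22648) (nat_lit 6) (nat_lit 298) (nat_lit 2) (nat_lit 147) (nat_lit 161) (nat_lit 142)) (PT.lf (nat_lit 22724) (nat_lit 6) (nat_lit 299) (nat_lit 2) (nat_lit 148) (nat_lit 161) (nat_lit 141)))) (PT.nd (nat_lit 156) (PT.nd (nat_lit 78) (PT.lf (nat_lit 22800) (nat_lit 6) (nat_lit 300) (nat_lit 2) (nat_lit 149) (nat_lit 161) (nat_lit 140)) (PT.lf (nat_lit 22876) (nat_lit 6) (nat_lit 301) (nat_lit 2) (nat_lit 150) (nat_lit 161) (nat_lit 139))) (PT.nd (nat_lit 78) (PT.lf (nat_lit 22040) (nat_lit 6) (nat_lit 290) (nat_lit 2) (nat_lit 151) (nat_lit 161) (nat_lit 138)) (PT.lf (nat_lit 21128) (nat_lit 6) (nat_lit 278) (nat_lit 2) (nat_lit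 152) (nat_lit 161) (nat_lit 137))))) (PT.nd (nat_lit 234) (PT.nd (nat_lit 78) (PT.lf (nat_lit 20140) (nat_lit 6) (nat_lit 265) (nat_lit 2) (nat_lit 153) (nat_lit 161) (nat_lit 136)) (PT.nd (nat_lit 78) (PT.lf (nat_lit 19076) (nat_lit 6) (nat_lit 251) (nat_lit 2) (nat_lit 154) (nat_lit 161) (nat_lit 135)) (PT.lf (nat_lit 17936) (nat_lit 6) (nat_lit 236) (nat_lit 2) (nat_lit 155) (nat_lit 161) (nat_lit 134)))) (PT.nd (nat_lit 156) (PT.nd (nat_lit 78) (PT.lf (nat_lit 16720) (nat_lit 6) (nat_lit 220) (nat_lit 2) (nat_lit 156) (nat_lit 161) (nat_lit 133)) (PT.lf (nat_lit 16112) (nat_lit 6) (nat_lit 212) (nat_lit 2) (nat_lit 157) (nat_lit 161) (nat_lit 132))) (PT.nd (nat_lit 78) (PT.lf (nat_lit 15580) (nat_lit 6) (nat_lit 205) (nat_lit 2) (nat_lit 158) (nat_lit 161) (nat_lit 131)) (PT.lf (nat_lit 14972) (nat_lit 6) (nat_lit 197) (nat_lit 2) (nat_lit 159) (nat_lit 161) (nat_lit 130)))))) (PT.nd (nat_lit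 546) (PT.nd (nat_lit 234) (PT.nd (nat_lit 78) (PT.lf (nat_lit 14440) (nat_lit 6) (nat_lit 190) (nat_lit 2) (nat_lit 160) (nat_lit 161) (nat_lit 129)) (PT.nd (nat_lit 78) (PT.lf (nat_lit 13908) (nat_lit 3) (nat_lit 183) (nat_lit 0) (nat_lit 161) (nat_lit 161) (nat_lit 128)) (PT.lf (nat_lit 13376) (nat_lit 6) (nat_lit 176) (nat_lit 0) (nat_lit 162) (nat_lit 161) (nat_lit 127)))) (PT.nd (nat_lit 156) (PT.nd (nat_lit 78) (PT.lf (nat_lit 12844) (nat_lit 6) (nat_lit 169) (nat_lit 0) (nat_lit 163) (nat_lit 161) (nat_lit 126)) (PT.lf (nat_lit 12312) (nat_lit 6) (nat_lit 162) (nat_lit 0) (nat_lit 164) (nat_lit 161) (nat_lit 125))) (PT.nd (nat_lit 78) (PT.lf (nat_lit 11780) (nat_lit 6) (nat_lit 155) (nat_lit 0) (nat_lit 165) (nat_lit 161) (nat_lit 124)) (PT.lf (nat_lit 11324) (nat_lit 6) (nat_lit 149) (nat_lit 0) (nat_lit 166) (nat_lit 161) (nat_lit 123))))) (PT.nd (nat_lit 43056) (PT.nd (nat_lit 156) (PT.nd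 (nat_lit 78) (PT.lf (nat_lit 10792) (nat_lit 6) (nat_lit 142) (nat_lit 0) (nat_lit 167) (nat_lit 161) (nat_lit 122)) (PT.lf (nat_lit 10336) (nat_lit 6) (nat_lit 136) (nat_lit 0) (nat_lit 168) (nat_lit 161) (nat_lit 121))) (PT.nd (nat_lit 78) (PT.lf (nat_lit 9880) (nat_lit 6) (nat_lit 130) (nat_lit 0) (nat_lit 169) (nat_lit 161) (nat_lit 120)) (PT.lf (nat_lit 9500) (nat_lit 6) (nat_lit 125) (nat_lit 0) (nat_lit 170) (nat_lit 161) (nat_lit 119)))) (PT.nd (nat_lit 156) (PT.nd (nat_lit 78) (PT.lf (nat_lit 9120) (nat_lit 6) (nat_lit 120) (nat_lit 5) (nat_lit 118) (nat_lit 162) (nat_lit 170)) (PT.lf (nat_lit 9576) (nat_lit 6) (nat_lit 126) (nat_lit 5) (nat_lit 119) (nat_lit 162) (nat_lit 169))) (PT.nd (nat_lit 78) (PT.lf (nat_lit 9956) (nat_lit 6) (nat_lit 131) (nat_lit 5) (nat_lit 120) (nat_lit 162) (nat_lit 168)) (PT.lf (nat_lit 10412) (nat_lit 6) (nat_lit 137) (nat_lit 5) (nat_lit 121) (nat_lit 162)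 (nat_lit 167))))))) (PT.nd (nat_lit 1092) (PT.nd (nat_lit 546) (PT.nd (nat_lit 234) (PT.nd (nat_lit 78) (PT.lf (nat_lit 10868) (nat_lit 6) (nat_lit 143) (nat_lit 5) (nat_lit 122) (nat_lit 162) (nat_lit 166)) (PT.nd (nat_lit 78) (PT.lf (nat_lit 11400) (nat_lit 6) (nat_lit 150) (nat_lit 5) (nat_lit 123) (nat_lit 162) (nat_lit 165)) (PT.lf (nat_lit 11856) (nat_lit 6) (nat_lit 156) (nat_lit 5) (nat_lit 124) (nat_lit 162) (nat_lit 164)))) (PT.nd (nat_lit 156) (PT.nd (nat_lit 78) (PT.lf (nat_lit 12388) (nat_lit 6) (nat_lit 163) (nat_lit 5) (nat_lit 125) (nat_lit 162) (nat_lit 163)) (PT.lf (nat_lit 12920) (nat_lit 3) (nat_lit 170) (nat_lit 4) (nat_lit 126) (nat_lit 162) (nat_lit 162))) (PT.nd (nat_lit 78) (PT.lf (nat_lit 13376) (nat_lit 6) (nat_lit 176) (nat_lit 4) (nat_lit 127) (nat_lit 162) (nat_lit 161)) (PT.lf (nat_lit 13832) (nat_lit 6) (nat_lit 182) (nat_lit 4) (nat_lit 128) (nat_lit 162) (nat_lit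 160))))) (PT.nd (nat_lit 234) (PT.nd (nat_lit 78) (PT.lf (nat_lit 14364) (nat_lit 6) (nat_lit 189) (nat_lit 4) (nat_lit 129) (nat_lit 162) (nat_lit 159)) (PT.nd (nat_lit 78) (PT.lf (nat_lit 14896) (nat_lit 6) (nat_lit 196) (nat_lit 4) (nat_lit 130) (nat_lit 162) (nat_lit 158)) (PT.lf (nat_lit 15504) (nat_lit 6) (nat_lit 204) (nat_lit 4) (nat_lit 131) (nat_lit 162) (nat_lit 157)))) (PT.nd (nat_lit 156) (PT.nd (nat_lit 78) (PT.lf (nat_lit 16036) (nat_lit 6) (nat_lit 211) (nat_lit 4) (nat_lit 132) (nat_lit 162) (nat_lit 156)) (PT.lf (nat_lit 16644) (nat_lit 6) (nat_lit 219) (nat_lit 4) (nat_lit 133) (nat_lit 162) (nat_lit 155))) (PT.nd (nat_lit 78) (PT.lf (nat_lit 17860) (nat_lit 6) (nat_lit 235) (nat_lit 4) (nat_lit 134) (nat_lit 162) (nat_lit 154)) (PT.lf (nat_lit 19000) (nat_lit 6) (nat_lit 250) (nat_lit 4) (nat_lit 135) (nat_lit 162) (nat_lit 153)))))) (PT.nd (nat_lit 546) (PT.nd (nat_lit 234) (PT.nd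 (nat_lit 78) (PT.lf (nat_lit 20064) (nat_lit 6) (nat_lit 264) (nat_lit 4) (nat_lit 136) (nat_lit 162) (nat_lit 152)) (PT.nd (nat_lit 78) (PT.lf (nat_lit 21052) (nat_lit 6) (nat_lit 277) (nat_lit 4) (nat_lit 137) (nat_lit 162) (nat_lit 151)) (PT.lf (nat_lit 21964) (nat_lit 6) (nat_lit 289) (nat_lit 4) (nat_lit 138) (nat_lit 162) (nat_lit 150)))) (PT.nd (nat_lit 156) (PT.nd (nat_lit 78) (PT.lf (nat_lit 21888) (nat_lit 6) (nat_lit 288) (nat_lit 4) (nat_lit 139) (nat_lit 162) (nat_lit 149)) (PT.lf (nat_lit 21812) (nat_lit 6) (nat_lit 287) (nat_lit 4) (nat_lit 140) (nat_lit 162) (nat_lit 148))) (PT.nd (nat_lit 78) (PT.lf (nat_lit 21736) (nat_lit 6) (nat_lit 286) (nat_lit 4) (nat_lit 141) (nat_lit 162) (nat_lit 147)) (PT.lf (nat_lit 21660) (nat_lit 6) (nat_lit 285) (nat_lit 4) (nat_lit 142) (nat_lit 162) (nat_lit 146))))) (PT.nd (nat_lit 312) (PT.nd (nat_lit 156) (PT.nd (nat_lit 78) (PT.lf (nat_lit 21584)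 (nat_lit 6) (nat_lit 284) (nat_lit 4) (nat_lit 143) (nat_lit 162) (nat_lit 145)) (PT.lf (nat_lit 21508) (nat_lit 3) (nat_lit 283) (nat_lit 2) (nat_lit 144) (nat_lit 162) (nat_lit 144))) (PT.nd (nat_lit 78) (PT.lf (nat_lit 21584) (nat_lit 6) (nat_lit 284) (nat_lit 2) (nat_lit 145) (nat_lit 162) (nat_lit 143)) (PT.lf (nat_lit 21660) (nat_lit 6) (nat_lit 285) (nat_lit 2) (nat_lit 146) (nat_lit 162) (nat_lit 142)))) (PT.nd (nat_lit 156) (PT.nd (nat_lit 78) (PT.lf (nat_lit 21736) (nat_lit 6) (nat_lit 286) (nat_lit 2) (nat_lit 147) (nat_lit 162) (nat_lit 141)) (PT.lf (nat_lit 21812) (nat_lit 6) (nat_lit 287) (nat_lit 2) (nat_lit 148) (nat_lit 162) (nat_lit 140))) (PT.nd (nat_lit 78) (PT.lf (nat_lit 21888) (nat_lit 6) (nat_lit 288) (nat_lit 2) (nat_lit 149) (nat_lit 162) (nat_lit 139)) (PT.lf (nat_lit 21964) (nat_lit 6) (nat_lit 289) (nat_lit 2) (nat_lit 150) (nat_lit 162) (nat_lit 138))))))))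
noncomputable def pc22 : PT := (PT.nd (nat_lit 44772) (PT.nd (nat_lit 1092) (PT.nd (nat_lit 546) (PT.nd (nat_lit 234) (PT.nd (nat_lit 78) (PT.lf (nat_lit 21052) (nat_lit 6) (nat_lit 277) (nat_lit 2) (nat_lit 151) (nat_lit 162) (nat_lit 137)) (PT.nd (nat_lit 78) (PT.lf (nat_lit 20064) (nat_lit 6) (nat_lit 264) (nat_lit 2) (nat_lit 152) (nat_lit 162) (nat_lit 136)) (PT.lf (nat_lit 19000) (nat_lit 6) (nat_lit 250) (nat_lit 2) (nat_lit 153) (nat_lit 162) (nat_lit 135)))) (PT.nd (nat_lit 156) (PT.nd (nat_lit 78) (PT.lf (nat_lit 17860) (nat_lit 6) (nat_lit 235) (nat_lit 2) (nat_lit 154) (nat_lit 162) (nat_lit 134)) (PT.lf (nat_lit 16644) (nat_lit 6) (nat_lit 219) (nat_lit 2) (nat_lit 155) (nat_lit 162) (nat_lit 133))) (PT.nd (nat_lit 78) (PT.lf (nat_lit 16036) (nat_lit 6) (nat_lit 211) (nat_lit 2) (nat_lit 156) (nat_lit 162) (nat_lit 132)) (PT.lf (nat_lit 15504) (nat_lit 6) (nat_lit 204) (nat_lit 2) (nat_lit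 157) (nat_lit 162) (nat_lit 131))))) (PT.nd (nat_lit 234) (PT.nd (nat_lit 78) (PT.lf (nat_lit 14896) (nat_lit 6) (nat_lit 196) (nat_lit 2) (nat_lit 158) (nat_lit 162) (nat_lit 130)) (PT.nd (nat_lit 78) (PT.lf (nat_lit 14364) (nat_lit 6) (nat_lit 189) (nat_lit 2) (nat_lit 159) (nat_lit 162) (nat_lit 129)) (PT.lf (nat_lit 13832) (nat_lit 6) (nat_lit 182) (nat_lit 2) (nat_lit 160) (nat_lit 162) (nat_lit 128)))) (PT.nd (nat_lit 156) (PT.nd (nat_lit 78) (PT.lf (nat_lit 13376) (nat_lit 6) (nat_lit 176) (nat_lit 2) (nat_lit 161) (nat_lit 162) (nat_lit 127)) (PT.lf (nat_lit 12920) (nat_lit 3) (nat_lit 170) (nat_lit 0) (nat_lit 162) (nat_lit 162) (nat_lit 126))) (PT.nd (nat_lit 78) (PT.lf (nat_lit 12388) (nat_lit 6) (nat_lit 163) (nat_lit 0) (nat_lit 163) (nat_lit 162) (nat_lit 125)) (PT.lf (nat_lit 11856) (nat_lit 6) (nat_lit 156) (nat_lit 0) (nat_lit 164) (nat_lit 162) (nat_lit 124)))))) (PT.nd (nat_lit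 43134) (PT.nd (nat_lit 234) (PT.nd (nat_lit 78) (PT.lf (nat_lit 11400) (nat_lit 6) (nat_lit 150) (nat_lit 0) (nat_lit 165) (nat_lit 162) (nat_lit 123)) (PT.nd (nat_lit 78) (PT.lf (nat_lit 10868) (nat_lit 6) (nat_lit 143) (nat_lit 0) (nat_lit 166) (nat_lit 162) (nat_lit 122)) (PT.lf (nat_lit 10412) (nat_lit 6) (nat_lit 137) (nat_lit 0) (nat_lit 167) (nat_lit 162) (nat_lit 121)))) (PT.nd (nat_lit 156) (PT.nd (nat_lit 78) (PT.lf (nat_lit 9956) (nat_lit 6) (nat_lit 131) (nat_lit 0) (nat_lit 168) (nat_lit 162) (nat_lit 120)) (PT.lf (nat_lit 9576) (nat_lit 6) (nat_lit 126) (nat_lit 0) (nat_lit 169) (nat_lit 162) (nat_lit 119))) (PT.nd (nat_lit 42666) (PT.lf (nat_lit 9120) (nat_lit 6) (nat_lit 120) (nat_lit 0) (nat_lit 170) (nat_lit 162) (nat_lit 118)) (PT.lf (nat_lit 8436) (nat_lit 6) (nat_lit 111) (nat_lit 5) (nat_lit 116) (nat_lit 163) (nat_lit 171))))) (PT.nd (nat_lit 234) (PT.nd (nat_lit 78) (PT.lf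 (nat_lit 8816) (nat_lit 6) (nat_lit 116) (nat_lit 5) (nat_lit 117) (nat_lit 163) (nat_lit 170)) (PT.nd (nat_lit 78) (PT.lf (nat_lit 9196) (nat_lit 6) (nat_lit 121) (nat_lit 5) (nat_lit 118) (nat_lit 163) (nat_lit 169)) (PT.lf (nat_lit 9652) (nat_lit 6) (nat_lit 127) (nat_lit 5) (nat_lit 119) (nat_lit 163) (nat_lit 168)))) (PT.nd (nat_lit 156) (PT.nd (nat_lit 78) (PT.lf (nat_lit 10032) (nat_lit 6) (nat_lit 132) (nat_lit 5) (nat_lit 120) (nat_lit 163) (nat_lit 167)) (PT.lf (nat_lit 10488) (nat_lit 6) (nat_lit 138) (nat_lit 5) (nat_lit 121) (nat_lit 163) (nat_lit 166))) (PT.nd (nat_lit 78) (PT.lf (nat_lit 10944) (nat_lit 6) (nat_lit 144) (nat_lit 5) (nat_lit 122) (nat_lit 163) (nat_lit 165)) (PT.lf (nat_lit 11476) (nat_lit 6) (nat_lit 151) (nat_lit 5) (nat_lit 123) (nat_lit 163) (nat_lit 164))))))) (PT.nd (nat_lit 1092) (PT.nd (nat_lit 546) (PT.nd (nat_lit 234) (PT.nd (nat_lit 78) (PT.lf (nat_lit 11932)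 (nat_lit 3) (nat_lit 157) (nat_lit 4) (nat_lit 124) (nat_lit 163) (nat_lit 163)) (PT.nd (nat_lit 78) (PT.lf (nat_lit 12388) (nat_lit 6) (nat_lit 163) (nat_lit 4) (nat_lit 125) (nat_lit 163) (nat_lit 162)) (PT.lf (nat_lit 12844) (nat_lit 6) (nat_lit 169) (nat_lit 4) (nat_lit 126) (nat_lit 163) (nat_lit 161)))) (PT.nd (nat_lit 156) (PT.nd (nat_lit 78) (PT.lf (nat_lit 13300) (nat_lit 6) (nat_lit 175) (nat_lit 4) (nat_lit 127) (nat_lit 163) (nat_lit 160)) (PT.lf (nat_lit 13756) (nat_lit 6) (nat_lit 181) (nat_lit 4) (nat_lit 128) (nat_lit 163) (nat_lit 159))) (PT.nd (nat_lit 78) (PT.lf (nat_lit 14288) (nat_lit 6) (nat_lit 188) (nat_lit 4) (nat_lit 129) (nat_lit 163) (nat_lit 158)) (PT.lf (nat_lit 14820) (nat_lit 6) (nat_lit 195) (nat_lit 4) (nat_lit 130) (nat_lit 163) (nat_lit 157))))) (PT.nd (nat_lit 234) (PT.nd (nat_lit 78) (PT.lf (nat_lit 15428) (nat_lit 6) (nat_lit 203) (nat_lit 4) (nat_lit 131) (nat_lit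 163) (nat_lit 156)) (PT.nd (nat_lit 78) (PT.lf (nat_lit 15960) (nat_lit 6) (nat_lit 210) (nat_lit 4) (nat_lit 132) (nat_lit 163) (nat_lit 155)) (PT.lf (nat_lit 16568) (nat_lit 6) (nat_lit 218) (nat_lit 4) (nat_lit 133) (nat_lit 163) (nat_lit 154)))) (PT.nd (nat_lit 156) (PT.nd (nat_lit 78) (PT.lf (nat_lit 17784) (nat_lit 6) (nat_lit 234) (nat_lit 4) (nat_lit 134) (nat_lit 163) (nat_lit 153)) (PT.lf (nat_lit 18924) (nat_lit 6) (nat_lit 249) (nat_lit 4) (nat_lit 135) (nat_lit 163) (nat_lit 152))) (PT.nd (nat_lit 78) (PT.lf (nat_lit 19988) (nat_lit 6) (nat_lit 263) (nat_lit 4) (nat_lit 136) (nat_lit 163) (nat_lit 151)) (PT.lf (nat_lit 20976) (nat_lit 6) (nat_lit 276) (nat_lit 4) (nat_lit 137) (nat_lit 163) (nat_lit 150)))))) (PT.nd (nat_lit 546) (PT.nd (nat_lit 234) (PT.nd (nat_lit 78) (PT.lf (nat_lit 20900) (nat_lit 6) (nat_lit 275) (nat_lit 4) (nat_lit 138) (nat_lit 163) (nat_lit 149)) (PT.nd (nat_lit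 78) (PT.lf (nat_lit 20824) (nat_lit 6) (nat_lit 274) (nat_lit 4) (nat_lit 139) (nat_lit 163) (nat_lit 148)) (PT.lf (nat_lit 20748) (nat_lit 6) (nat_lit 273) (nat_lit 4) (nat_lit 140) (nat_lit 163) (nat_lit 147)))) (PT.nd (nat_lit 156) (PT.nd (nat_lit 78) (PT.lf (nat_lit 20672) (nat_lit 6) (nat_lit 272) (nat_lit 4) (nat_lit 141) (nat_lit 163) (nat_lit 146)) (PT.lf (nat_lit 20596) (nat_lit 6) (nat_lit 271) (nat_lit 4) (nat_lit 142) (nat_lit 163) (nat_lit 145))) (PT.nd (nat_lit 78) (PT.lf (nat_lit 20520) (nat_lit 6) (nat_lit 270) (nat_lit 4) (nat_lit 143) (nat_lit 163) (nat_lit 144)) (PT.lf (nat_lit 20520) (nat_lit 6) (nat_lit 270) (nat_lit 2) (nat_lit 144) (nat_lit 163) (nat_lit 143))))) (PT.nd (nat_lit 312) (PT.nd (nat_lit 156) (PT.nd (nat_lit 78) (PT.lf (nat_lit 20596) (nat_lit 6) (nat_lit 271) (nat_lit 2) (nat_lit 145) (nat_lit 163) (nat_lit 142)) (PT.lf (nat_lit 20672) (nat_lit 6) (nat_lit 272)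 (nat_lit 2) (nat_lit 146) (nat_lit 163) (nat_lit 141))) (PT.nd (nat_lit 78) (PT.lf (nat_lit 20748) (nat_lit 6) (nat_lit 273) (nat_lit 2) (nat_lit 147) (nat_lit 163) (nat_lit 140)) (PT.lf (nat_lit 20824) (nat_lit 6) (nat_lit 274) (nat_lit 2) (nat_lit 148) (nat_lit 163) (nat_lit 139)))) (PT.nd (nat_lit 156) (PT.nd (nat_lit 78) (PT.lf (nat_lit 20900) (nat_lit 6) (nat_lit 275) (nat_lit 2) (nat_lit 149) (nat_lit 163) (nat_lit 138)) (PT.lf (nat_lit 20976) (nat_lit 6) (nat_lit 276) (nat_lit 2) (nat_lit 150) (nat_lit 163) (nat_lit 137))) (PT.nd (nat_lit 78) (PT.lf (nat_lit 19988) (nat_lit 6) (nat_lit 263) (nat_lit 2) (nat_lit 151) (nat_lit 163) (nat_lit 136)) (PT.lf (nat_lit 18924) (nat_lit 6) (nat_lit 249) (nat_lit 2) (nat_lit 152) (nat_lit 163) (nat_lit 135))))))))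
noncomputable def pc23 : PT := (PT.nd (nat_lit 44694) (PT.nd (nat_lit 1092) (PT.nd (nat_lit 546) (PT.nd (nat_lit 234) (PT.nd (nat_lit 78) (PT.lf (nat_lit 17784) (nat_lit 6) (nat_lit 234) (nat_lit 2) (nat_lit 153) (nat_lit 163) (nat_lit 134)) (PT.nd (nat_lit 78) (PT.lf (nat_lit 16568) (nat_lit 6) (nat_lit 218) (nat_lit 2) (nat_lit 154) (nat_lit 163) (nat_lit 133)) (PT.lf (nat_lit 15960) (nat_lit 6) (nat_lit 210) (nat_lit 2) (nat_lit 155) (nat_lit 163) (nat_lit 132)))) (PT.nd (nat_lit 156) (PT.nd (nat_lit 78) (PT.lf (nat_lit 15428) (nat_lit 6) (nat_lit 203) (nat_lit 2) (nat_lit 156) (nat_lit 163) (nat_lit 131)) (PT.lf (nat_lit 14820) (nat_lit 6) (nat_lit 195) (nat_lit 2) (nat_lit 157) (nat_lit 163) (nat_lit 130))) (PT.nd (nat_lit 78) (PT.lf (nat_lit 14288) (nat_lit 6) (nat_lit 188) (nat_lit 2) (nat_lit 158) (nat_lit 163) (nat_lit 129)) (PT.lf (nat_lit 13756) (nat_lit 6) (nat_lit 181) (nat_lit 2) (nat_lit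 159) (nat_lit 163) (nat_lit 128))))) (PT.nd (nat_lit 234) (PT.nd (nat_lit 78) (PT.lf (nat_lit 13300) (nat_lit 6) (nat_lit 175) (nat_lit 2) (nat_lit 160) (nat_lit 163) (nat_lit 127)) (PT.nd (nat_lit 78) (PT.lf (nat_lit 12844) (nat_lit 6) (nat_lit 169) (nat_lit 2) (nat_lit 161) (nat_lit 163) (nat_lit 126)) (PT.lf (nat_lit 12388) (nat_lit 6) (nat_lit 163) (nat_lit 2) (nat_lit 162) (nat_lit 163) (nat_lit 125)))) (PT.nd (nat_lit 156) (PT.nd (nat_lit 78) (PT.lf (nat_lit 11932) (nat_lit 3) (nat_lit 157) (nat_lit 0) (nat_lit 163) (nat_lit 163) (nat_lit 124)) (PT.lf (nat_lit 11476) (nat_lit 6) (nat_lit 151) (nat_lit 0) (nat_lit 164) (nat_lit 163) (nat_lit 123))) (PT.nd (nat_lit 78) (PT.lf (nat_lit 10944) (nat_lit 6) (nat_lit 144) (nat_lit 0) (nat_lit 165) (nat_lit 163) (nat_lit 122)) (PT.lf (nat_lit 10488) (nat_lit 6) (nat_lit 138) (nat_lit 0) (nat_lit 166) (nat_lit 163) (nat_lit 121)))))) (PT.nd (nat_lit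 42978) (PT.nd (nat_lit 234) (PT.nd (nat_lit 78) (PT.lf (nat_lit 10032) (nat_lit 6) (nat_lit 132) (nat_lit 0) (nat_lit 167) (nat_lit 163) (nat_lit 120)) (PT.nd (nat_lit 78) (PT.lf (nat_lit 9652) (nat_lit 6) (nat_lit 127) (nat_lit 0) (nat_lit 168) (nat_lit 163) (nat_lit 119)) (PT.lf (nat_lit 9196) (nat_lit 6) (nat_lit 121) (nat_lit 0) (nat_lit 169) (nat_lit 163) (nat_lit 118)))) (PT.nd (nat_lit 42588) (PT.nd (nat_lit 78) (PT.lf (nat_lit 8816) (nat_lit 6) (nat_lit 116) (nat_lit 0) (nat_lit 170) (nat_lit 163) (nat_lit 117)) (PT.lf (nat_lit 8436) (nat_lit 6) (nat_lit 111) (nat_lit 0) (nat_lit 171) (nat_lit 163) (nat_lit 116))) (PT.nd (nat_lit 78) (PT.lf (nat_lit 8132) (nat_lit 6) (nat_lit 107) (nat_lit 5) (nat_lit 115) (nat_lit 164) (nat_lit 171)) (PT.lf (nat_lit 8512) (nat_lit 6) (nat_lit 112) (nat_lit 5) (nat_lit 116) (nat_lit 164) (nat_lit 170))))) (PT.nd (nat_lit 312) (PT.nd (nat_lit 156) (PT.nd (nat_lit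 78) (PT.lf (nat_lit 8892) (nat_lit 6) (nat_lit 117) (nat_lit 5) (nat_lit 117) (nat_lit 164) (nat_lit 169)) (PT.lf (nat_lit 9272) (nat_lit 6) (nat_lit 122) (nat_lit 5) (nat_lit 118) (nat_lit 164) (nat_lit 168))) (PT.nd (nat_lit 78) (PT.lf (nat_lit 9728) (nat_lit 6) (nat_lit 128) (nat_lit 5) (nat_lit 119) (nat_lit 164) (nat_lit 167)) (PT.lf (nat_lit 10108) (nat_lit 6) (nat_lit 133) (nat_lit 5) (nat_lit 120) (nat_lit 164) (nat_lit 166)))) (PT.nd (nat_lit 156) (PT.nd (nat_lit 78) (PT.lf (nat_lit 10564) (nat_lit 6) (nat_lit 139) (nat_lit 5) (nat_lit 121) (nat_lit 164) (nat_lit 165)) (PT.lf (nat_lit 11020) (nat_lit 3) (nat_lit 145) (nat_lit 4) (nat_lit 122) (nat_lit 164) (nat_lit 164))) (PT.nd (nat_lit 78) (PT.lf (nat_lit 11476) (nat_lit 6) (nat_lit 151) (nat_lit 4) (nat_lit 123) (nat_lit 164) (nat_lit 163)) (PT.lf (nat_lit 11856) (nat_lit 6) (nat_lit 156) (nat_lit 4) (nat_lit 124) (nat_lit 164) (nat_lit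 162))))))) (PT.nd (nat_lit 1092) (PT.nd (nat_lit 546) (PT.nd (nat_lit 234) (PT.nd (nat_lit 78) (PT.lf (nat_lit 12312) (nat_lit 6) (nat_lit 162) (nat_lit 4) (nat_lit 125) (nat_lit 164) (nat_lit 161)) (PT.nd (nat_lit 78) (PT.lf (nat_lit 12768) (nat_lit 6) (nat_lit 168) (nat_lit 4) (nat_lit 126) (nat_lit 164) (nat_lit 160)) (PT.lf (nat_lit 13224) (nat_lit 6) (nat_lit 174) (nat_lit 4) (nat_lit 127) (nat_lit 164) (nat_lit 159)))) (PT.nd (nat_lit 156) (PT.nd (nat_lit 78) (PT.lf (nat_lit 13680) (nat_lit 6) (nat_lit 180) (nat_lit 4) (nat_lit 128) (nat_lit 164) (nat_lit 158)) (PT.lf (nat_lit 14212) (nat_lit 6) (nat_lit 187) (nat_lit 4) (nat_lit 129) (nat_lit 164) (nat_lit 157))) (PT.nd (nat_lit 78) (PT.lf (nat_lit 14744) (nat_lit 6) (nat_lit 194) (nat_lit 4) (nat_lit 130) (nat_lit 164) (nat_lit 156)) (PT.lf (nat_lit 15352) (nat_lit 6) (nat_lit 202) (nat_lit 4) (nat_lit 131) (nat_lit 164) (nat_lit 155)))))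 (PT.nd (nat_lit 234) (PT.nd (nat_lit 78) (PT.lf (nat_lit 15884) (nat_lit 6) (nat_lit 209) (nat_lit 4) (nat_lit 132) (nat_lit 164) (nat_lit 154)) (PT.nd (nat_lit 78) (PT.lf (nat_lit 16492) (nat_lit 6) (nat_lit 217) (nat_lit 4) (nat_lit 133) (nat_lit 164) (nat_lit 153)) (PT.lf (nat_lit 17708) (nat_lit 6) (nat_lit 233) (nat_lit 4) (nat_lit 134) (nat_lit 164) (nat_lit 152)))) (PT.nd (nat_lit 156) (PT.nd (nat_lit 78) (PT.lf (nat_lit 18848) (nat_lit 6) (nat_lit 248) (nat_lit 4) (nat_lit 135) (nat_lit 164) (nat_lit 151)) (PT.lf (nat_lit 19912) (nat_lit 6) (nat_lit 262) (nat_lit 4) (nat_lit 136) (nat_lit 164) (nat_lit 150))) (PT.nd (nat_lit 78) (PT.lf (nat_lit 19836) (nat_lit 6) (nat_lit 261) (nat_lit 4) (nat_lit 137) (nat_lit 164) (nat_lit 149)) (PT.lf (nat_lit 19760) (nat_lit 6) (nat_lit 260) (nat_lit 4) (nat_lit 138) (nat_lit 164) (nat_lit 148)))))) (PT.nd (nat_lit 546) (PT.nd (nat_lit 234) (PT.nd (nat_lit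 78) (PT.lf (nat_lit 19684) (nat_lit 6) (nat_lit 259) (nat_lit 4) (nat_lit 139) (nat_lit 164) (nat_lit 147)) (PT.nd (nat_lit 78) (PT.lf (nat_lit 19608) (nat_lit 6) (nat_lit 258) (nat_lit 4) (nat_lit 140) (nat_lit 164) (nat_lit 146)) (PT.lf (nat_lit 19532) (nat_lit 6) (nat_lit 257) (nat_lit 4) (nat_lit 141) (nat_lit 164) (nat_lit 145)))) (PT.nd (nat_lit 156) (PT.nd (nat_lit 78) (PT.lf (nat_lit 19456) (nat_lit 6) (nat_lit 256) (nat_lit 4) (nat_lit 142) (nat_lit 164) (nat_lit 144)) (PT.lf (nat_lit 19380) (nat_lit 3) (nat_lit 255) (nat_lit 2) (nat_lit 143) (nat_lit 164) (nat_lit 143))) (PT.nd (nat_lit 78) (PT.lf (nat_lit 19456) (nat_lit 6) (nat_lit 256) (nat_lit 2) (nat_lit 144) (nat_lit 164) (nat_lit 142)) (PT.lf (nat_lit 19532) (nat_lit 6) (nat_lit 257) (nat_lit 2) (nat_lit 145) (nat_lit 164) (nat_lit 141))))) (PT.nd (nat_lit 312) (PT.nd (nat_lit 156) (PT.nd (nat_lit 78) (PT.lf (nat_lit 19608) (nat_lit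 6) (nat_lit 258) (nat_lit 2) (nat_lit 146) (nat_lit 164) (nat_lit 140)) (PT.lf (nat_lit 19684) (nat_lit 6) (nat_lit 259) (nat_lit 2) (nat_lit 147) (nat_lit 164) (nat_lit 139))) (PT.nd (nat_lit 78) (PT.lf (nat_lit 19760) (nat_lit 6) (nat_lit 260) (nat_lit 2) (nat_lit 148) (nat_lit 164) (nat_lit 138)) (PT.lf (nat_lit 19836) (nat_lit 6) (nat_lit 261) (nat_lit 2) (nat_lit 149) (nat_lit 164) (nat_lit 137)))) (PT.nd (nat_lit 156) (PT.nd (nat_lit 78) (PT.lf (nat_lit 19912) (nat_lit 6) (nat_lit 262) (nat_lit 2) (nat_lit 150) (nat_lit 164) (nat_lit 136)) (PT.lf (nat_lit 18848) (nat_lit 6) (nat_lit 248) (nat_lit 2) (nat_lit 151) (nat_lit 164) (nat_lit 135))) (PT.nd (nat_lit 78) (PT.lf (nat_lit 17708) (nat_lit 6) (nat_lit 233) (nat_lit 2) (nat_lit 152) (nat_lit 164) (nat_lit 134)) (PT.lf (nat_lit 16492) (nat_lit 6) (nat_lit 217) (nat_lit 2) (nat_lit 153) (nat_lit 164) (nat_lit 133))))))))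
noncomputable def pc24 : PT := (PT.nd (nat_lit 44460) (PT.nd (nat_lit 1092) (PT.nd (nat_lit 546) (PT.nd (nat_lit 234) (PT.nd (nat_lit 78) (PT.lf (nat_lit 15884) (nat_lit 6) (nat_lit 209) (nat_lit 2) (nat_lit 154) (nat_lit 164) (nat_lit 132)) (PT.nd (nat_lit 78) (PT.lf (nat_lit 15352) (nat_lit 6) (nat_lit 202) (nat_lit 2) (nat_lit 155) (nat_lit 164) (nat_lit 131)) (PT.lf (nat_lit 14744) (nat_lit 6) (nat_lit 194) (nat_lit 2) (nat_lit 156) (nat_lit 164) (nat_lit 130)))) (PT.nd (nat_lit 156) (PT.nd (nat_lit 78) (PT.lf (nat_lit 14212) (nat_lit 6) (nat_lit 187) (nat_lit 2) (nat_lit 157) (nat_lit 164) (nat_lit 129)) (PT.lf (nat_lit 13680) (nat_lit 6) (nat_lit 180) (nat_lit 2) (nat_lit 158) (nat_lit 164) (nat_lit 128))) (PT.nd (nat_lit 78) (PT.lf (nat_lit 13224) (nat_lit 6) (nat_lit 174) (nat_lit 2) (nat_lit 159) (nat_lit 164) (nat_lit 127)) (PT.lf (nat_lit 12768) (nat_lit 6) (nat_lit 168) (nat_lit 2) (nat_lit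 160) (nat_lit 164) (nat_lit 126))))) (PT.nd (nat_lit 234) (PT.nd (nat_lit 78) (PT.lf (nat_lit 12312) (nat_lit 6) (nat_lit 162) (nat_lit 2) (nat_lit 161) (nat_lit 164) (nat_lit 125)) (PT.nd (nat_lit 78) (PT.lf (nat_lit 11856) (nat_lit 6) (nat_lit 156) (nat_lit 2) (nat_lit 162) (nat_lit 164) (nat_lit 124)) (PT.lf (nat_lit 11476) (nat_lit 6) (nat_lit 151) (nat_lit 2) (nat_lit 163) (nat_lit 164) (nat_lit 123)))) (PT.nd (nat_lit 156) (PT.nd (nat_lit 78) (PT.lf (nat_lit 11020) (nat_lit 3) (nat_lit 145) (nat_lit 0) (nat_lit 164) (nat_lit 164) (nat_lit 122)) (PT.lf (nat_lit 10564) (nat_lit 6) (nat_lit 139) (nat_lit 0) (nat_lit 165) (nat_lit 164) (nat_lit 121))) (PT.nd (nat_lit 78) (PT.lf (nat_lit 10108) (nat_lit 6) (nat_lit 133) (nat_lit 0) (nat_lit 166) (nat_lit 164) (nat_lit 120)) (PT.lf (nat_lit 9728) (nat_lit 6) (nat_lit 128) (nat_lit 0) (nat_lit 167) (nat_lit 164) (nat_lit 119)))))) (PT.nd (nat_lit 42822)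 (PT.nd (nat_lit 234) (PT.nd (nat_lit 78) (PT.lf (nat_lit 9272) (nat_lit 6) (nat_lit 122) (nat_lit 0) (nat_lit 168) (nat_lit 164) (nat_lit 118)) (PT.nd (nat_lit 78) (PT.lf (nat_lit 8892) (nat_lit 6) (nat_lit 117) (nat_lit 0) (nat_lit 169) (nat_lit 164) (nat_lit 117)) (PT.lf (nat_lit 8512) (nat_lit 6) (nat_lit 112) (nat_lit 0) (nat_lit 170) (nat_lit 164) (nat_lit 116)))) (PT.nd (nat_lit 42432) (PT.nd (nat_lit 42354) (PT.lf (nat_lit 8132) (nat_lit 6) (nat_lit 107) (nat_lit 0) (nat_lit 171) (nat_lit 164) (nat_lit 115)) (PT.lf (nat_lit 7524) (nat_lit 6) (nat_lit 99) (nat_lit 5) (nat_lit 113) (nat_lit 165) (nat_lit 172))) (PT.nd (nat_lit 78) (PT.lf (nat_lit 7828) (nat_lit 6) (nat_lit 103) (nat_lit 5) (nat_lit 114) (nat_lit 165) (nat_lit 171)) (PT.lf (nat_lit 8208) (nat_lit 6) (nat_lit 108) (nat_lit 5) (nat_lit 115) (nat_lit 165) (nat_lit 170))))) (PT.nd (nat_lit 234) (PT.nd (nat_lit 78) (PT.lf (nat_lit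 8588) (nat_lit 6) (nat_lit 113) (nat_lit 5) (nat_lit 116) (nat_lit 165) (nat_lit 169)) (PT.nd (nat_lit 78) (PT.lf (nat_lit 8968) (nat_lit 6) (nat_lit 118) (nat_lit 5) (nat_lit 117) (nat_lit 165) (nat_lit 168)) (PT.lf (nat_lit 9348) (nat_lit 6) (nat_lit 123) (nat_lit 5) (nat_lit 118) (nat_lit 165) (nat_lit 167)))) (PT.nd (nat_lit 156) (PT.nd (nat_lit 78) (PT.lf (nat_lit 9804) (nat_lit 6) (nat_lit 129) (nat_lit 5) (nat_lit 119) (nat_lit 165) (nat_lit 166)) (PT.lf (nat_lit 10184) (nat_lit 3) (nat_lit 134) (nat_lit 4) (nat_lit 120) (nat_lit 165) (nat_lit 165))) (PT.nd (nat_lit 78) (PT.lf (nat_lit 10564) (nat_lit 6) (nat_lit 139) (nat_lit 4) (nat_lit 121) (nat_lit 165) (nat_lit 164)) (PT.lf (nat_lit 10944) (nat_lit 6) (nat_lit 144) (nat_lit 4) (nat_lit 122) (nat_lit 165) (nat_lit 163))))))) (PT.nd (nat_lit 1092) (PT.nd (nat_lit 546) (PT.nd (nat_lit 234) (PT.nd (nat_lit 78) (PT.lf (nat_lit 11400) (nat_lit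 6) (nat_lit 150) (nat_lit 4) (nat_lit 123) (nat_lit 165) (nat_lit 162)) (PT.nd (nat_lit 78) (PT.lf (nat_lit 11780) (nat_lit 6) (nat_lit 155) (nat_lit 4) (nat_lit 124) (nat_lit 165) (nat_lit 161)) (PT.lf (nat_lit 12236) (nat_lit 6) (nat_lit 161) (nat_lit 4) (nat_lit 125) (nat_lit 165) (nat_lit 160)))) (PT.nd (nat_lit 156) (PT.nd (nat_lit 78) (PT.lf (nat_lit 12692) (nat_lit 6) (nat_lit 167) (nat_lit 4) (nat_lit 126) (nat_lit 165) (nat_lit 159)) (PT.lf (nat_lit 13148) (nat_lit 6) (nat_lit 173) (nat_lit 4) (nat_lit 127) (nat_lit 165) (nat_lit 158))) (PT.nd (nat_lit 78) (PT.lf (nat_lit 13604) (nat_lit 6) (nat_lit 179) (nat_lit 4) (nat_lit 128) (nat_lit 165) (nat_lit 157)) (PT.lf (nat_lit 14136) (nat_lit 6) (nat_lit 186) (nat_lit 4) (nat_lit 129) (nat_lit 165) (nat_lit 156))))) (PT.nd (nat_lit 234) (PT.nd (nat_lit 78) (PT.lf (nat_lit 14668) (nat_lit 6) (nat_lit 193) (nat_lit 4) (nat_lit 130) (nat_lit 165)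 (nat_lit 155)) (PT.nd (nat_lit 78) (PT.lf (nat_lit 15276) (nat_lit 6) (nat_lit 201) (nat_lit 4) (nat_lit 131) (nat_lit 165) (nat_lit 154)) (PT.lf (nat_lit 15808) (nat_lit 6) (nat_lit 208) (nat_lit 4) (nat_lit 132) (nat_lit 165) (nat_lit 153)))) (PT.nd (nat_lit 156) (PT.nd (nat_lit 78) (PT.lf (nat_lit 16416) (nat_lit 6) (nat_lit 216) (nat_lit 4) (nat_lit 133) (nat_lit 165) (nat_lit 152)) (PT.lf (nat_lit 17632) (nat_lit 6) (nat_lit 232) (nat_lit 4) (nat_lit 134) (nat_lit 165) (nat_lit 151))) (PT.nd (nat_lit 78) (PT.lf (nat_lit 18772) (nat_lit 6) (nat_lit 247) (nat_lit 4) (nat_lit 135) (nat_lit 165) (nat_lit 150)) (PT.lf (nat_lit 18696) (nat_lit 6) (nat_lit 246) (nat_lit 4) (nat_lit 136) (nat_lit 165) (nat_lit 149)))))) (PT.nd (nat_lit 546) (PT.nd (nat_lit 234) (PT.nd (nat_lit 78) (PT.lf (nat_lit 18620) (nat_lit 6) (nat_lit 245) (nat_lit 4) (nat_lit 137) (nat_lit 165) (nat_lit 148)) (PT.nd (nat_lit 78)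 (PT.lf (nat_lit 18544) (nat_lit 6) (nat_lit 244) (nat_lit 4) (nat_lit 138) (nat_lit 165) (nat_lit 147)) (PT.lf (nat_lit 18468) (nat_lit 6) (nat_lit 243) (nat_lit 4) (nat_lit 139) (nat_lit 165) (nat_lit 146)))) (PT.nd (nat_lit 156) (PT.nd (nat_lit 78) (PT.lf (nat_lit 18392) (nat_lit 6) (nat_lit 242) (nat_lit 4) (nat_lit 140) (nat_lit 165) (nat_lit 145)) (PT.lf (nat_lit 18316) (nat_lit 6) (nat_lit 241) (nat_lit 4) (nat_lit 141) (nat_lit 165) (nat_lit 144))) (PT.nd (nat_lit 78) (PT.lf (nat_lit 18240) (nat_lit 6) (nat_lit 240) (nat_lit 4) (nat_lit 142) (nat_lit 165) (nat_lit 143)) (PT.lf (nat_lit 18240) (nat_lit 6) (nat_lit 240) (nat_lit 2) (nat_lit 143) (nat_lit 165) (nat_lit 142))))) (PT.nd (nat_lit 312) (PT.nd (nat_lit 156) (PT.nd (nat_lit 78) (PT.lf (nat_lit 18316) (nat_lit 6) (nat_lit 241) (nat_lit 2) (nat_lit 144) (nat_lit 165) (nat_lit 141)) (PT.lf (nat_lit 18392) (nat_lit 6) (nat_lit 242) (nat_lit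 2) (nat_lit 145) (nat_lit 165) (nat_lit 140))) (PT.nd (nat_lit 78) (PT.lf (nat_lit 18468) (nat_lit 6) (nat_lit 243) (nat_lit 2) (nat_lit 146) (nat_lit 165) (nat_lit 139)) (PT.lf (nat_lit 18544) (nat_lit 6) (nat_lit 244) (nat_lit 2) (nat_lit 147) (nat_lit 165) (nat_lit 138)))) (PT.nd (nat_lit 156) (PT.nd (nat_lit 78) (PT.lf (nat_lit 18620) (nat_lit 6) (nat_lit 245) (nat_lit 2) (nat_lit 148) (nat_lit 165) (nat_lit 137)) (PT.lf (nat_lit 18696) (nat_lit 6) (nat_lit 246) (nat_lit 2) (nat_lit 149) (nat_lit 165) (nat_lit 136))) (PT.nd (nat_lit 78) (PT.lf (nat_lit 18772) (nat_lit 6) (nat_lit 247) (nat_lit 2) (nat_lit 150) (nat_lit 165) (nat_lit 135)) (PT.lf (nat_lit 17632) (nat_lit 6) (nat_lit 232) (nat_lit 2) (nat_lit 151) (nat_lit 165) (nat_lit 134))))))))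
noncomputable def pc25 : PT := (PT.nd (nat_lit 44382) (PT.nd (nat_lit 1092) (PT.nd (nat_lit 546) (PT.nd (nat_lit 234) (PT.nd (nat_lit 78) (PT.lf (nat_lit 16416) (nat_lit 6) (nat_lit 216) (nat_lit 2) (nat_lit 152) (nat_lit 165) (nat_lit 133)) (PT.nd (nat_lit 78) (PT.lf (nat_lit 15808) (nat_lit 6) (nat_lit 208) (nat_lit 2) (nat_lit 153) (nat_lit 165) (nat_lit 132)) (PT.lf (nat_lit 15276) (nat_lit 6) (nat_lit 201) (nat_lit 2) (nat_lit 154) (nat_lit 165) (nat_lit 131)))) (PT.nd (nat_lit 156) (PT.nd (nat_lit 78) (PT.lf (nat_lit 14668) (nat_lit 6) (nat_lit 193) (nat_lit 2) (nat_lit 155) (nat_lit 165) (nat_lit 130)) (PT.lf (nat_lit 14136) (nat_lit 6) (nat_lit 186) (nat_lit 2) (nat_lit 156) (nat_lit 165) (nat_lit 129))) (PT.nd (nat_lit 78) (PT.lf (nat_lit 13604) (nat_lit 6) (nat_lit 179) (nat_lit 2) (nat_lit 157) (nat_lit 165) (nat_lit 128)) (PT.lf (nat_lit 13148) (nat_lit 6) (nat_lit 173) (nat_lit 2) (nat_lit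 158) (nat_lit 165) (nat_lit 127))))) (PT.nd (nat_lit 234) (PT.nd (nat_lit 78) (PT.lf (nat_lit 12692) (nat_lit 6) (nat_lit 167) (nat_lit 2) (nat_lit 159) (nat_lit 165) (nat_lit 126)) (PT.nd (nat_lit 78) (PT.lf (nat_lit 12236) (nat_lit 6) (nat_lit 161) (nat_lit 2) (nat_lit 160) (nat_lit 165) (nat_lit 125)) (PT.lf (nat_lit 11780) (nat_lit 6) (nat_lit 155) (nat_lit 2) (nat_lit 161) (nat_lit 165) (nat_lit 124)))) (PT.nd (nat_lit 156) (PT.nd (nat_lit 78) (PT.lf (nat_lit 11400) (nat_lit 6) (nat_lit 150) (nat_lit 2) (nat_lit 162) (nat_lit 165) (nat_lit 123)) (PT.lf (nat_lit 10944) (nat_lit 6) (nat_lit 144) (nat_lit 2) (nat_lit 163) (nat_lit 165) (nat_lit 122))) (PT.nd (nat_lit 78) (PT.lf (nat_lit 10564) (nat_lit 6) (nat_lit 139) (nat_lit 2) (nat_lit 164) (nat_lit 165) (nat_lit 121)) (PT.lf (nat_lit 10184) (nat_lit 3) (nat_lit 134) (nat_lit 0) (nat_lit 165) (nat_lit 165) (nat_lit 120)))))) (PT.nd (nat_lit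 42666) (PT.nd (nat_lit 234) (PT.nd (nat_lit 78) (PT.lf (nat_lit 9804) (nat_lit 6) (nat_lit 129) (nat_lit 0) (nat_lit 166) (nat_lit 165) (nat_lit 119)) (PT.nd (nat_lit 78) (PT.lf (nat_lit 9348) (nat_lit 6) (nat_lit 123) (nat_lit 0) (nat_lit 167) (nat_lit 165) (nat_lit 118)) (PT.lf (nat_lit 8968) (nat_lit 6) (nat_lit 118) (nat_lit 0) (nat_lit 168) (nat_lit 165) (nat_lit 117)))) (PT.nd (nat_lit 156) (PT.nd (nat_lit 78) (PT.lf (nat_lit 8588) (nat_lit 6) (nat_lit 113) (nat_lit 0) (nat_lit 169) (nat_lit 165) (nat_lit 116)) (PT.lf (nat_lit 8208) (nat_lit 6) (nat_lit 108) (nat_lit 0) (nat_lit 170) (nat_lit 165) (nat_lit 115))) (PT.nd (nat_lit 78) (PT.lf (nat_lit 7828) (nat_lit 6) (nat_lit 103) (nat_lit 0) (nat_lit 171) (nat_lit 165) (nat_lit 114)) (PT.lf (nat_lit 7524) (nat_lit 6) (nat_lit 99) (nat_lit 0) (nat_lit 172) (nat_lit 165) (nat_lit 113))))) (PT.nd (nat_lit 312) (PT.nd (nat_lit 156) (PT.nd (nat_lit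 78) (PT.lf (nat_lit 7220) (nat_lit 6) (nat_lit 95) (nat_lit 5) (nat_lit 112) (nat_lit 166) (nat_lit 172)) (PT.lf (nat_lit 7600) (nat_lit 6) (nat_lit 100) (nat_lit 5) (nat_lit 113) (nat_lit 166) (nat_lit 171))) (PT.nd (nat_lit 78) (PT.lf (nat_lit 7904) (nat_lit 6) (nat_lit 104) (nat_lit 5) (nat_lit 114) (nat_lit 166) (nat_lit 170)) (PT.lf (nat_lit 8284) (nat_lit 6) (nat_lit 109) (nat_lit 5) (nat_lit 115) (nat_lit 166) (nat_lit 169)))) (PT.nd (nat_lit 156) (PT.nd (nat_lit 78) (PT.lf (nat_lit 8664) (nat_lit 6) (nat_lit 114) (nat_lit 5) (nat_lit 116) (nat_lit 166) (nat_lit 168)) (PT.lf (nat_lit 9044) (nat_lit 6) (nat_lit 119) (nat_lit 5) (nat_lit 117) (nat_lit 166) (nat_lit 167))) (PT.nd (nat_lit 78) (PT.lf (nat_lit 9424) (nat_lit 3) (nat_lit 124) (nat_lit 4) (nat_lit 118) (nat_lit 166) (nat_lit 166)) (PT.lf (nat_lit 9804) (nat_lit 6) (nat_lit 129) (nat_lit 4) (nat_lit 119) (nat_lit 166) (nat_lit 165)))))))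 (PT.nd (nat_lit 1092) (PT.nd (nat_lit 546) (PT.nd (nat_lit 234) (PT.nd (nat_lit 78) (PT.lf (nat_lit 10108) (nat_lit 6) (nat_lit 133) (nat_lit 4) (nat_lit 120) (nat_lit 166) (nat_lit 164)) (PT.nd (nat_lit 78) (PT.lf (nat_lit 10488) (nat_lit 6) (nat_lit 138) (nat_lit 4) (nat_lit 121) (nat_lit 166) (nat_lit 163)) (PT.lf (nat_lit 10868) (nat_lit 6) (nat_lit 143) (nat_lit 4) (nat_lit 122) (nat_lit 166) (nat_lit 162)))) (PT.nd (nat_lit 156) (PT.nd (nat_lit 78) (PT.lf (nat_lit 11324) (nat_lit 6) (nat_lit 149) (nat_lit 4) (nat_lit 123) (nat_lit 166) (nat_lit 161)) (PT.lf (nat_lit 11704) (nat_lit 6) (nat_lit 154) (nat_lit 4) (nat_lit 124) (nat_lit 166) (nat_lit 160))) (PT.nd (nat_lit 78) (PT.lf (nat_lit 12160) (nat_lit 6) (nat_lit 160) (nat_lit 4) (nat_lit 125) (nat_lit 166) (nat_lit 159)) (PT.lf (nat_lit 12616) (nat_lit 6) (nat_lit 166) (nat_lit 4) (nat_lit 126) (nat_lit 166) (nat_lit 158))))) (PT.nd (nat_lit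 234) (PT.nd (nat_lit 78) (PT.lf (nat_lit 13072) (nat_lit 6) (nat_lit 172) (nat_lit 4) (nat_lit 127) (nat_lit 166) (nat_lit 157)) (PT.nd (nat_lit 78) (PT.lf (nat_lit 13528) (nat_lit 6) (nat_lit 178) (nat_lit 4) (nat_lit 128) (nat_lit 166) (nat_lit 156)) (PT.lf (nat_lit 14060) (nat_lit 6) (nat_lit 185) (nat_lit 4) (nat_lit 129) (nat_lit 166) (nat_lit 155)))) (PT.nd (nat_lit 156) (PT.nd (nat_lit 78) (PT.lf (nat_lit 14592) (nat_lit 6) (nat_lit 192) (nat_lit 4) (nat_lit 130) (nat_lit 166) (nat_lit 154)) (PT.lf (nat_lit 15200) (nat_lit 6) (nat_lit 200) (nat_lit 4) (nat_lit 131) (nat_lit 166) (nat_lit 153))) (PT.nd (nat_lit 78) (PT.lf (nat_lit 15732) (nat_lit 6) (nat_lit 207) (nat_lit 4) (nat_lit 132) (nat_lit 166) (nat_lit 152)) (PT.lf (nat_lit 16340) (nat_lit 6) (nat_lit 215) (nat_lit 4) (nat_lit 133) (nat_lit 166) (nat_lit 151)))))) (PT.nd (nat_lit 780) (PT.nd (nat_lit 234) (PT.nd (nat_lit 78) (PT.lf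 (nat_lit 17556) (nat_lit 6) (nat_lit 231) (nat_lit 4) (nat_lit 134) (nat_lit 166) (nat_lit 150)) (PT.nd (nat_lit 78) (PT.lf (nat_lit 17480) (nat_lit 6) (nat_lit 230) (nat_lit 4) (nat_lit 135) (nat_lit 166) (nat_lit 149)) (PT.lf (nat_lit 17404) (nat_lit 6) (nat_lit 229) (nat_lit 4) (nat_lit 136) (nat_lit 166) (nat_lit 148)))) (PT.nd (nat_lit 156) (PT.nd (nat_lit 78) (PT.lf (nat_lit 17328) (nat_lit 6) (nat_lit 228) (nat_lit 4) (nat_lit 137) (nat_lit 166) (nat_lit 147)) (PT.lf (nat_lit 17252) (nat_lit 6) (nat_lit 227) (nat_lit 4) (nat_lit 138) (nat_lit 166) (nat_lit 146))) (PT.nd (nat_lit 78) (PT.lf (nat_lit 17176) (nat_lit 6) (nat_lit 226) (nat_lit 4) (nat_lit 139) (nat_lit 166) (nat_lit 145)) (PT.lf (nat_lit 17100) (nat_lit 6) (nat_lit 225) (nat_lit 4) (nat_lit 140) (nat_lit 166) (nat_lit 144))))) (PT.nd (nat_lit 312) (PT.nd (nat_lit 156) (PT.nd (nat_lit 78) (PT.lf (nat_lit 17100) (nat_lit 6) (nat_lit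 225) (nat_lit 2) (nat_lit 144) (nat_lit 166) (nat_lit 140)) (PT.lf (nat_lit 17176) (nat_lit 6) (nat_lit 226) (nat_lit 2) (nat_lit 145) (nat_lit 166) (nat_lit 139))) (PT.nd (nat_lit 78) (PT.lf (nat_lit 17252) (nat_lit 6) (nat_lit 227) (nat_lit 2) (nat_lit 146) (nat_lit 166) (nat_lit 138)) (PT.lf (nat_lit 17328) (nat_lit 6) (nat_lit 228) (nat_lit 2) (nat_lit 147) (nat_lit 166) (nat_lit 137)))) (PT.nd (nat_lit 156) (PT.nd (nat_lit 78) (PT.lf (nat_lit 17404) (nat_lit 6) (nat_lit 229) (nat_lit 2) (nat_lit 148) (nat_lit 166) (nat_lit 136)) (PT.lf (nat_lit 17480) (nat_lit 6) (nat_lit 230) (nat_lit 2) (nat_lit 149) (nat_lit 166) (nat_lit 135))) (PT.nd (nat_lit 78) (PT.lf (nat_lit 17556) (nat_lit 6) (nat_lit 231) (nat_lit 2) (nat_lit 150) (nat_lit 166) (nat_lit 134)) (PT.lf (nat_lit 16340) (nat_lit 6) (nat_lit 215) (nat_lit 2) (nat_lit 151) (nat_lit 166) (nat_lit 133))))))))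
noncomputable def pc26 : PT := (PT.nd (nat_lit 44148) (PT.nd (nat_lit 1092) (PT.nd (nat_lit 546) (PT.nd (nat_lit 234) (PT.nd (nat_lit 78) (PT.lf (nat_lit 15732) (nat_lit 6) (nat_lit 207) (nat_lit 2) (nat_lit 152) (nat_lit 166) (nat_lit 132)) (PT.nd (nat_lit 78) (PT.lf (nat_lit 15200) (nat_lit 6) (nat_lit 200) (nat_lit 2) (nat_lit 153) (nat_lit 166) (nat_lit 131)) (PT.lf (nat_lit 14592) (nat_lit 6) (nat_lit 192) (nat_lit 2) (nat_lit 154) (nat_lit 166) (nat_lit 130)))) (PT.nd (nat_lit 156) (PT.nd (nat_lit 78) (PT.lf (nat_lit 14060) (nat_lit 6) (nat_lit 185) (nat_lit 2) (nat_lit 155) (nat_lit 166) (nat_lit 129)) (PT.lf (nat_lit 13528) (nat_lit 6) (nat_lit 178) (nat_lit 2) (nat_lit 156) (nat_lit 166) (nat_lit 128))) (PT.nd (nat_lit 78) (PT.lf (nat_lit 13072) (nat_lit 6) (nat_lit 172) (nat_lit 2) (nat_lit 157) (nat_lit 166) (nat_lit 127)) (PT.lf (nat_lit 12616) (nat_lit 6) (nat_lit 166) (nat_lit 2) (nat_lit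 158) (nat_lit 166) (nat_lit 126))))) (PT.nd (nat_lit 234) (PT.nd (nat_lit 78) (PT.lf (nat_lit 12160) (nat_lit 6) (nat_lit 160) (nat_lit 2) (nat_lit 159) (nat_lit 166) (nat_lit 125)) (PT.nd (nat_lit 78) (PT.lf (nat_lit 11704) (nat_lit 6) (nat_lit 154) (nat_lit 2) (nat_lit 160) (nat_lit 166) (nat_lit 124)) (PT.lf (nat_lit 11324) (nat_lit 6) (nat_lit 149) (nat_lit 2) (nat_lit 161) (nat_lit 166) (nat_lit 123)))) (PT.nd (nat_lit 156) (PT.nd (nat_lit 78) (PT.lf (nat_lit 10868) (nat_lit 6) (nat_lit 143) (nat_lit 2) (nat_lit 162) (nat_lit 166) (nat_lit 122)) (PT.lf (nat_lit 10488) (nat_lit 6) (nat_lit 138) (nat_lit 2) (nat_lit 163) (nat_lit 166) (nat_lit 121))) (PT.nd (nat_lit 78) (PT.lf (nat_lit 10108) (nat_lit 6) (nat_lit 133) (nat_lit 2) (nat_lit 164) (nat_lit 166) (nat_lit 120)) (PT.lf (nat_lit 9804) (nat_lit 6) (nat_lit 129) (nat_lit 2) (nat_lit 165) (nat_lit 166) (nat_lit 119)))))) (PT.nd (nat_lit 42510)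 (PT.nd (nat_lit 234) (PT.nd (nat_lit 78) (PT.lf (nat_lit 9424) (nat_lit 3) (nat_lit 124) (nat_lit 0) (nat_lit 166) (nat_lit 166) (nat_lit 118)) (PT.nd (nat_lit 78) (PT.lf (nat_lit 9044) (nat_lit 6) (nat_lit 119) (nat_lit 0) (nat_lit 167) (nat_lit 166) (nat_lit 117)) (PT.lf (nat_lit 8664) (nat_lit 6) (nat_lit 114) (nat_lit 0) (nat_lit 168) (nat_lit 166) (nat_lit 116)))) (PT.nd (nat_lit 156) (PT.nd (nat_lit 78) (PT.lf (nat_lit 8284) (nat_lit 6) (nat_lit 109) (nat_lit 0) (nat_lit 169) (nat_lit 166) (nat_lit 115)) (PT.lf (nat_lit 7904) (nat_lit 6) (nat_lit 104) (nat_lit 0) (nat_lit 170) (nat_lit 166) (nat_lit 114))) (PT.nd (nat_lit 78) (PT.lf (nat_lit 7600) (nat_lit 6) (nat_lit 100) (nat_lit 0) (nat_lit 171) (nat_lit 166) (nat_lit 113)) (PT.lf (nat_lit 7220) (nat_lit 6) (nat_lit 95) (nat_lit 0) (nat_lit 172) (nat_lit 166) (nat_lit 112))))) (PT.nd (nat_lit 234) (PT.nd (nat_lit 78) (PT.lf (nat_lit 6612)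 (nat_lit 6) (nat_lit 87) (nat_lit 5) (nat_lit 110) (nat_lit 167) (nat_lit 173)) (PT.nd (nat_lit 78) (PT.lf (nat_lit 6992) (nat_lit 6) (nat_lit 92) (nat_lit 5) (nat_lit 111) (nat_lit 167) (nat_lit 172)) (PT.lf (nat_lit 7296) (nat_lit 6) (nat_lit 96) (nat_lit 5) (nat_lit 112) (nat_lit 167) (nat_lit 171)))) (PT.nd (nat_lit 156) (PT.nd (nat_lit 78) (PT.lf (nat_lit 7676) (nat_lit 6) (nat_lit 101) (nat_lit 5) (nat_lit 113) (nat_lit 167) (nat_lit 170)) (PT.lf (nat_lit 7980) (nat_lit 6) (nat_lit 105) (nat_lit 5) (nat_lit 114) (nat_lit 167) (nat_lit 169))) (PT.nd (nat_lit 78) (PT.lf (nat_lit 8360) (nat_lit 6) (nat_lit 110) (nat_lit 5) (nat_lit 115) (nat_lit 167) (nat_lit 168)) (PT.lf (nat_lit 8740) (nat_lit 3) (nat_lit 115) (nat_lit 4) (nat_lit 116) (nat_lit 167) (nat_lit 167))))))) (PT.nd (nat_lit 1092) (PT.nd (nat_lit 546) (PT.nd (nat_lit 234) (PT.nd (nat_lit 78) (PT.lf (nat_lit 9044) (nat_lit 6) (nat_lit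 119) (nat_lit 4) (nat_lit 117) (nat_lit 167) (nat_lit 166)) (PT.nd (nat_lit 78) (PT.lf (nat_lit 9348) (nat_lit 6) (nat_lit 123) (nat_lit 4) (nat_lit 118) (nat_lit 167) (nat_lit 165)) (PT.lf (nat_lit 9728) (nat_lit 6) (nat_lit 128) (nat_lit 4) (nat_lit 119) (nat_lit 167) (nat_lit 164)))) (PT.nd (nat_lit 156) (PT.nd (nat_lit 78) (PT.lf (nat_lit 10032) (nat_lit 6) (nat_lit 132) (nat_lit 4) (nat_lit 120) (nat_lit 167) (nat_lit 163)) (PT.lf (nat_lit 10412) (nat_lit 6) (nat_lit 137) (nat_lit 4) (nat_lit 121) (nat_lit 167) (nat_lit 162))) (PT.nd (nat_lit 78) (PT.lf (nat_lit 10792) (nat_lit 6) (nat_lit 142) (nat_lit 4) (nat_lit 122) (nat_lit 167) (nat_lit 161)) (PT.lf (nat_lit 11248) (nat_lit 6) (nat_lit 148) (nat_lit 4) (nat_lit 123) (nat_lit 167) (nat_lit 160))))) (PT.nd (nat_lit 234) (PT.nd (nat_lit 78) (PT.lf (nat_lit 11628) (nat_lit 6) (nat_lit 153) (nat_lit 4) (nat_lit 124) (nat_lit 167) (nat_lit 159))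 (PT.nd (nat_lit 78) (PT.lf (nat_lit 12084) (nat_lit 6) (nat_lit 159) (nat_lit 4) (nat_lit 125) (nat_lit 167) (nat_lit 158)) (PT.lf (nat_lit 12540) (nat_lit 6) (nat_lit 165) (nat_lit 4) (nat_lit 126) (nat_lit 167) (nat_lit 157)))) (PT.nd (nat_lit 156) (PT.nd (nat_lit 78) (PT.lf (nat_lit 12996) (nat_lit 6) (nat_lit 171) (nat_lit 4) (nat_lit 127) (nat_lit 167) (nat_lit 156)) (PT.lf (nat_lit 13452) (nat_lit 6) (nat_lit 177) (nat_lit 4) (nat_lit 128) (nat_lit 167) (nat_lit 155))) (PT.nd (nat_lit 78) (PT.lf (nat_lit 13984) (nat_lit 6) (nat_lit 184) (nat_lit 4) (nat_lit 129) (nat_lit 167) (nat_lit 154)) (PT.lf (nat_lit 14516) (nat_lit 6) (nat_lit 191) (nat_lit 4) (nat_lit 130) (nat_lit 167) (nat_lit 153)))))) (PT.nd (nat_lit 2106) (PT.nd (nat_lit 1794) (PT.nd (nat_lit 1638) (PT.lf (nat_lit 15124) (nat_lit 6) (nat_lit 199) (nat_lit 4) (nat_lit 131) (nat_lit 167) (nat_lit 152)) (PT.nd (nat_lit 78) (PT.lf (nat_lit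 15124) (nat_lit 6) (nat_lit 199) (nat_lit 2) (nat_lit 152) (nat_lit 167) (nat_lit 131)) (PT.lf (nat_lit 14516) (nat_lit 6) (nat_lit 191) (nat_lit 2) (nat_lit 153) (nat_lit 167) (nat_lit 130)))) (PT.nd (nat_lit 156) (PT.nd (nat_lit 78) (PT.lf (nat_lit 13984) (nat_lit 6) (nat_lit 184) (nat_lit 2) (nat_lit 154) (nat_lit 167) (nat_lit 129)) (PT.lf (nat_lit 13452) (nat_lit 6) (nat_lit 177) (nat_lit 2) (nat_lit 155) (nat_lit 167) (nat_lit 128))) (PT.nd (nat_lit 78) (PT.lf (nat_lit 12996) (nat_lit 6) (nat_lit 171) (nat_lit 2) (nat_lit 156) (nat_lit 167) (nat_lit 127)) (PT.lf (nat_lit 12540) (nat_lit 6) (nat_lit 165) (nat_lit 2) (nat_lit 157) (nat_lit 167) (nat_lit 126))))) (PT.nd (nat_lit 312) (PT.nd (nat_lit 156) (PT.nd (nat_lit 78) (PT.lf (nat_lit 12084) (nat_lit 6) (nat_lit 159) (nat_lit 2) (nat_lit 158) (nat_lit 167) (nat_lit 125)) (PT.lf (nat_lit 11628) (nat_lit 6) (nat_lit 153) (nat_lit 2) (nat_lit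 159) (nat_lit 167) (nat_lit 124))) (PT.nd (nat_lit 78) (PT.lf (nat_lit 11248) (nat_lit 6) (nat_lit 148) (nat_lit 2) (nat_lit 160) (nat_lit 167) (nat_lit 123)) (PT.lf (nat_lit 10792) (nat_lit 6) (nat_lit 142) (nat_lit 2) (nat_lit 161) (nat_lit 167) (nat_lit 122)))) (PT.nd (nat_lit 156) (PT.nd (nat_lit 78) (PT.lf (nat_lit 10412) (nat_lit 6) (nat_lit 137) (nat_lit 2) (nat_lit 162) (nat_lit 167) (nat_lit 121)) (PT.lf (nat_lit 10032) (nat_lit 6) (nat_lit 132) (nat_lit 2) (nat_lit 163) (nat_lit 167) (nat_lit 120))) (PT.nd (nat_lit 78) (PT.lf (nat_lit 9728) (nat_lit 6) (nat_lit 128) (nat_lit 2) (nat_lit 164) (nat_lit 167) (nat_lit 119)) (PT.lf (nat_lit 9348) (nat_lit 6) (nat_lit 123) (nat_lit 2) (nat_lit 165) (nat_lit 167) (nat_lit 118))))))))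
noncomputable def pc27 : PT := (PT.nd (nat_lit 46332) (PT.nd (nat_lit 42900) (PT.nd (nat_lit 546) (PT.nd (nat_lit 234) (PT.nd (nat_lit 78) (PT.lf (nat_lit 9044) (nat_lit 6) (nat_lit 119) (nat_lit 2) (nat_lit 166) (nat_lit 167) (nat_lit 117)) (PT.nd (nat_lit 78) (PT.lf (nat_lit 8740) (nat_lit 3) (nat_lit 115) (nat_lit 0) (nat_lit 167) (nat_lit 167) (nat_lit 116)) (PT.lf (nat_lit 8360) (nat_lit 6) (nat_lit 110) (nat_lit 0) (nat_lit 168) (nat_lit 167) (nat_lit 115)))) (PT.nd (nat_lit 156) (PT.nd (nat_lit 78) (PT.lf (nat_lit 7980) (nat_lit 6) (nat_lit 105) (nat_lit 0) (nat_lit 169) (nat_lit 167) (nat_lit 114)) (PT.lf (nat_lit 7676) (nat_lit 6) (nat_lit 101) (nat_lit 0) (nat_lit 170) (nat_lit 167) (nat_lit 113))) (PT.nd (nat_lit 78) (PT.lf (nat_lit 7296) (nat_lit 6) (nat_lit 96) (nat_lit 0) (nat_lit 171) (nat_lit 167) (nat_lit 112)) (PT.lf (nat_lit 6992) (nat_lit 6) (nat_lit 92) (nat_lit 0) (nat_lit 172)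 (nat_lit 167) (nat_lit 111))))) (PT.nd (nat_lit 42042) (PT.nd (nat_lit 41886) (PT.lf (nat_lit 6612) (nat_lit 6) (nat_lit 87) (nat_lit 0) (nat_lit 173) (nat_lit 167) (nat_lit 110)) (PT.nd (nat_lit 78) (PT.lf (nat_lit 6384) (nat_lit 6) (nat_lit 84) (nat_lit 5) (nat_lit 109) (nat_lit 168) (nat_lit 173)) (PT.lf (nat_lit 6688) (nat_lit 6) (nat_lit 88) (nat_lit 5) (nat_lit 110) (nat_lit 168) (nat_lit 172)))) (PT.nd (nat_lit 156) (PT.nd (nat_lit 78) (PT.lf (nat_lit 7068) (nat_lit 6) (nat_lit 93) (nat_lit 5) (nat_lit 111) (nat_lit 168) (nat_lit 171)) (PT.lf (nat_lit 7372) (nat_lit 6) (nat_lit 97) (nat_lit 5) (nat_lit 112) (nat_lit 168) (nat_lit 170))) (PT.nd (nat_lit 78) (PT.lf (nat_lit 7752) (nat_lit 6) (nat_lit 102) (nat_lit 5) (nat_lit 113) (nat_lit 168) (nat_lit 169)) (PT.lf (nat_lit 8056) (nat_lit 3) (nat_lit 106) (nat_lit 4) (nat_lit 114) (nat_lit 168) (nat_lit 168)))))) (PT.nd (nat_lit 546) (PT.nd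 (nat_lit 234) (PT.nd (nat_lit 78) (PT.lf (nat_lit 8360) (nat_lit 6) (nat_lit 110) (nat_lit 4) (nat_lit 115) (nat_lit 168) (nat_lit 167)) (PT.nd (nat_lit 78) (PT.lf (nat_lit 8664) (nat_lit 6) (nat_lit 114) (nat_lit 4) (nat_lit 116) (nat_lit 168) (nat_lit 166)) (PT.lf (nat_lit 8968) (nat_lit 6) (nat_lit 118) (nat_lit 4) (nat_lit 117) (nat_lit 168) (nat_lit 165)))) (PT.nd (nat_lit 156) (PT.nd (nat_lit 78) (PT.lf (nat_lit 9272) (nat_lit 6) (nat_lit 122) (nat_lit 4) (nat_lit 118) (nat_lit 168) (nat_lit 164)) (PT.lf (nat_lit 9652) (nat_lit 6) (nat_lit 127) (nat_lit 4) (nat_lit 119) (nat_lit 168) (nat_lit 163))) (PT.nd (nat_lit 78) (PT.lf (nat_lit 9956) (nat_lit 6) (nat_lit 131) (nat_lit 4) (nat_lit 120) (nat_lit 168) (nat_lit 162)) (PT.lf (nat_lit 10336) (nat_lit 6) (nat_lit 136) (nat_lit 4) (nat_lit 121) (nat_lit 168) (nat_lit 161))))) (PT.nd (nat_lit 312) (PT.nd (nat_lit 156) (PT.nd (nat_lit 78) (PT.lf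 (nat_lit 10716) (nat_lit 6) (nat_lit 141) (nat_lit 4) (nat_lit 122) (nat_lit 168) (nat_lit 160)) (PT.lf (nat_lit 11172) (nat_lit 6) (nat_lit 147) (nat_lit 4) (nat_lit 123) (nat_lit 168) (nat_lit 159))) (PT.nd (nat_lit 78) (PT.lf (nat_lit 11552) (nat_lit 6) (nat_lit 152) (nat_lit 4) (nat_lit 124) (nat_lit 168) (nat_lit 158)) (PT.lf (nat_lit 12008) (nat_lit 6) (nat_lit 158) (nat_lit 4) (nat_lit 125) (nat_lit 168) (nat_lit 157)))) (PT.nd (nat_lit 2418) (PT.nd (nat_lit 2340) (PT.lf (nat_lit 12464) (nat_lit 6) (nat_lit 164) (nat_lit 4) (nat_lit 126) (nat_lit 168) (nat_lit 156)) (PT.lf (nat_lit 12464) (nat_lit 6) (nat_lit 164) (nat_lit 2) (nat_lit 156) (nat_lit 168) (nat_lit 126))) (PT.nd (nat_lit 78) (PT.lf (nat_lit 12008) (nat_lit 6) (nat_lit 158) (nat_lit 2) (nat_lit 157) (nat_lit 168) (nat_lit 125)) (PT.lf (nat_lit 11552) (nat_lit 6) (nat_lit 152) (nat_lit 2) (nat_lit 158) (nat_lit 168) (nat_lit 124)))))))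 (PT.nd (nat_lit 1092) (PT.nd (nat_lit 546) (PT.nd (nat_lit 234) (PT.nd (nat_lit 78) (PT.lf (nat_lit 11172) (nat_lit 6) (nat_lit 147) (nat_lit 2) (nat_lit 159) (nat_lit 168) (nat_lit 123)) (PT.nd (nat_lit 78) (PT.lf (nat_lit 10716) (nat_lit 6) (nat_lit 141) (nat_lit 2) (nat_lit 160) (nat_lit 168) (nat_lit 122)) (PT.lf (nat_lit 10336) (nat_lit 6) (nat_lit 136) (nat_lit 2) (nat_lit 161) (nat_lit 168) (nat_lit 121)))) (PT.nd (nat_lit 156) (PT.nd (nat_lit 78) (PT.lf (nat_lit 9956) (nat_lit 6) (nat_lit 131) (nat_lit 2) (nat_lit 162) (nat_lit 168) (nat_lit 120)) (PT.lf (nat_lit 9652) (nat_lit 6) (nat_lit 127) (nat_lit 2) (nat_lit 163) (nat_lit 168) (nat_lit 119))) (PT.nd (nat_lit 78) (PT.lf (nat_lit 9272) (nat_lit 6) (nat_lit 122) (nat_lit 2) (nat_lit 164) (nat_lit 168) (nat_lit 118)) (PT.lf (nat_lit 8968) (nat_lit 6) (nat_lit 118) (nat_lit 2) (nat_lit 165) (nat_lit 168) (nat_lit 117))))) (PT.nd (nat_lit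 234) (PT.nd (nat_lit 78) (PT.lf (nat_lit 8664) (nat_lit 6) (nat_lit 114) (nat_lit 2) (nat_lit 166) (nat_lit 168) (nat_lit 116)) (PT.nd (nat_lit 78) (PT.lf (nat_lit 8360) (nat_lit 6) (nat_lit 110) (nat_lit 2) (nat_lit 167) (nat_lit 168) (nat_lit 115)) (PT.lf (nat_lit 8056) (nat_lit 3) (nat_lit 106) (nat_lit 0) (nat_lit 168) (nat_lit 168) (nat_lit 114)))) (PT.nd (nat_lit 156) (PT.nd (nat_lit 78) (PT.lf (nat_lit 7752) (nat_lit 6) (nat_lit 102) (nat_lit 0) (nat_lit 169) (nat_lit 168) (nat_lit 113)) (PT.lf (nat_lit 7372) (nat_lit 6) (nat_lit 97) (nat_lit 0) (nat_lit 170) (nat_lit 168) (nat_lit 112))) (PT.nd (nat_lit 78) (PT.lf (nat_lit 7068) (nat_lit 6) (nat_lit 93) (nat_lit 0) (nat_lit 171) (nat_lit 168) (nat_lit 111)) (PT.lf (nat_lit 6688) (nat_lit 6) (nat_lit 88) (nat_lit 0) (nat_lit 172) (nat_lit 168) (nat_lit 110)))))) (PT.nd (nat_lit 42198) (PT.nd (nat_lit 41886) (PT.nd (nat_lit 41730) (PT.lf (nat_lit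 6384) (nat_lit 6) (nat_lit 84) (nat_lit 0) (nat_lit 173) (nat_lit 168) (nat_lit 109)) (PT.nd (nat_lit 78) (PT.lf (nat_lit 5852) (nat_lit 6) (nat_lit 77) (nat_lit 5) (nat_lit 107) (nat_lit 169) (nat_lit 174)) (PT.lf (nat_lit 6156) (nat_lit 6) (nat_lit 81) (nat_lit 5) (nat_lit 108) (nat_lit 169) (nat_lit 173)))) (PT.nd (nat_lit 156) (PT.nd (nat_lit 78) (PT.lf (nat_lit 6460) (nat_lit 6) (nat_lit 85) (nat_lit 5) (nat_lit 109) (nat_lit 169) (nat_lit 172)) (PT.lf (nat_lit 6764) (nat_lit 6) (nat_lit 89) (nat_lit 5) (nat_lit 110) (nat_lit 169) (nat_lit 171))) (PT.nd (nat_lit 78) (PT.lf (nat_lit 7144) (nat_lit 6) (nat_lit 94) (nat_lit 5) (nat_lit 111) (nat_lit 169) (nat_lit 170)) (PT.lf (nat_lit 7448) (nat_lit 3) (nat_lit 98) (nat_lit 4) (nat_lit 112) (nat_lit 169) (nat_lit 169))))) (PT.nd (nat_lit 312) (PT.nd (nat_lit 156) (PT.nd (nat_lit 78) (PT.lf (nat_lit 7752) (nat_lit 6) (nat_lit 102) (nat_lit 4) (nat_lit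 113) (nat_lit 169) (nat_lit 168)) (PT.lf (nat_lit 7980) (nat_lit 6) (nat_lit 105) (nat_lit 4) (nat_lit 114) (nat_lit 169) (nat_lit 167))) (PT.nd (nat_lit 78) (PT.lf (nat_lit 8284) (nat_lit 6) (nat_lit 109) (nat_lit 4) (nat_lit 115) (nat_lit 169) (nat_lit 166)) (PT.lf (nat_lit 8588) (nat_lit 6) (nat_lit 113) (nat_lit 4) (nat_lit 116) (nat_lit 169) (nat_lit 165)))) (PT.nd (nat_lit 156) (PT.nd (nat_lit 78) (PT.lf (nat_lit 8892) (nat_lit 6) (nat_lit 117) (nat_lit 4) (nat_lit 117) (nat_lit 169) (nat_lit 164)) (PT.lf (nat_lit 9196) (nat_lit 6) (nat_lit 121) (nat_lit 4) (nat_lit 118) (nat_lit 169) (nat_lit 163))) (PT.nd (nat_lit 78) (PT.lf (nat_lit 9576) (nat_lit 6) (nat_lit 126) (nat_lit 4) (nat_lit 119) (nat_lit 169) (nat_lit 162)) (PT.lf (nat_lit 9880) (nat_lit 6) (nat_lit 130) (nat_lit 4) (nat_lit 120) (nat_lit 169) (nat_lit 161))))))))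
noncomputable def pc28 : PT := (PT.nd (nat_lit 46410) (PT.nd (nat_lit 3900) (PT.nd (nat_lit 3354) (PT.nd (nat_lit 3042) (PT.nd (nat_lit 78) (PT.lf (nat_lit 10260) (nat_lit 6) (nat_lit 135) (nat_lit 4) (nat_lit 121) (nat_lit 169) (nat_lit 160)) (PT.nd (nat_lit 2886) (PT.lf (nat_lit 10640) (nat_lit 6) (nat_lit 140) (nat_lit 4) (nat_lit 122) (nat_lit 169) (nat_lit 159)) (PT.lf (nat_lit 10640) (nat_lit 6) (nat_lit 140) (nat_lit 2) (nat_lit 159) (nat_lit 169) (nat_lit 122)))) (PT.nd (nat_lit 156) (PT.nd (nat_lit 78) (PT.lf (nat_lit 10260) (nat_lit 6) (nat_lit 135) (nat_lit 2) (nat_lit 160) (nat_lit 169) (nat_lit 121)) (PT.lf (nat_lit 9880) (nat_lit 6) (nat_lit 130) (nat_lit 2) (nat_lit 161) (nat_lit 169) (nat_lit 120))) (PT.nd (nat_lit 78) (PT.lf (nat_lit 9576) (nat_lit 6) (nat_lit 126) (nat_lit 2) (nat_lit 162) (nat_lit 169) (nat_lit 119)) (PT.lf (nat_lit 9196) (nat_lit 6) (nat_lit 121) (nat_lit 2) (nat_lit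 163) (nat_lit 169) (nat_lit 118))))) (PT.nd (nat_lit 234) (PT.nd (nat_lit 78) (PT.lf (nat_lit 8892) (nat_lit 6) (nat_lit 117) (nat_lit 2) (nat_lit 164) (nat_lit 169) (nat_lit 117)) (PT.nd (nat_lit 78) (PT.lf (nat_lit 8588) (nat_lit 6) (nat_lit 113) (nat_lit 2) (nat_lit 165) (nat_lit 169) (nat_lit 116)) (PT.lf (nat_lit 8284) (nat_lit 6) (nat_lit 109) (nat_lit 2) (nat_lit 166) (nat_lit 169) (nat_lit 115)))) (PT.nd (nat_lit 156) (PT.nd (nat_lit 78) (PT.lf (nat_lit 7980) (nat_lit 6) (nat_lit 105) (nat_lit 2) (nat_lit 167) (nat_lit 169) (nat_lit 114)) (PT.lf (nat_lit 7752) (nat_lit 6) (nat_lit 102) (nat_lit 2) (nat_lit 168) (nat_lit 169) (nat_lit 113))) (PT.nd (nat_lit 78) (PT.lf (nat_lit 7448) (nat_lit 3) (nat_lit 98) (nat_lit 0) (nat_lit 169) (nat_lit 169) (nat_lit 112)) (PT.lf (nat_lit 7144) (nat_lit 6) (nat_lit 94) (nat_lit 0) (nat_lit 170) (nat_lit 169) (nat_lit 111)))))) (PT.nd (nat_lit 41964) (PT.nd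 (nat_lit 234) (PT.nd (nat_lit 78) (PT.lf (nat_lit 6764) (nat_lit 6) (nat_lit 89) (nat_lit 0) (nat_lit 171) (nat_lit 169) (nat_lit 110)) (PT.nd (nat_lit 78) (PT.lf (nat_lit 6460) (nat_lit 6) (nat_lit 85) (nat_lit 0) (nat_lit 172) (nat_lit 169) (nat_lit 109)) (PT.lf (nat_lit 6156) (nat_lit 6) (nat_lit 81) (nat_lit 0) (nat_lit 173) (nat_lit 169) (nat_lit 108)))) (PT.nd (nat_lit 41574) (PT.nd (nat_lit 41496) (PT.lf (nat_lit 5852) (nat_lit 6) (nat_lit 77) (nat_lit 0) (nat_lit 174) (nat_lit 169) (nat_lit 107)) (PT.lf (nat_lit 5396) (nat_lit 6) (nat_lit 71) (nat_lit 5) (nat_lit 105) (nat_lit 170) (nat_lit 175))) (PT.nd (nat_lit 78) (PT.lf (nat_lit 5624) (nat_lit 6) (nat_lit 74) (nat_lit 5) (nat_lit 106) (nat_lit 170) (nat_lit 174)) (PT.lf (nat_lit 5928) (nat_lit 6) (nat_lit 78) (nat_lit 5) (nat_lit 107) (nat_lit 170) (nat_lit 173))))) (PT.nd (nat_lit 234) (PT.nd (nat_lit 78) (PT.lf (nat_lit 6232) (nat_lit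 6) (nat_lit 82) (nat_lit 5) (nat_lit 108) (nat_lit 170) (nat_lit 172)) (PT.nd (nat_lit 78) (PT.lf (nat_lit 6536) (nat_lit 6) (nat_lit 86) (nat_lit 5) (nat_lit 109) (nat_lit 170) (nat_lit 171)) (PT.lf (nat_lit 6840) (nat_lit 3) (nat_lit 90) (nat_lit 4) (nat_lit 110) (nat_lit 170) (nat_lit 170)))) (PT.nd (nat_lit 156) (PT.nd (nat_lit 78) (PT.lf (nat_lit 7144) (nat_lit 6) (nat_lit 94) (nat_lit 4) (nat_lit 111) (nat_lit 170) (nat_lit 169)) (PT.lf (nat_lit 7372) (nat_lit 6) (nat_lit 97) (nat_lit 4) (nat_lit 112) (nat_lit 170) (nat_lit 168))) (PT.nd (nat_lit 78) (PT.lf (nat_lit 7676) (nat_lit 6) (nat_lit 101) (nat_lit 4) (nat_lit 113) (nat_lit 170) (nat_lit 167)) (PT.lf (nat_lit 7904) (nat_lit 6) (nat_lit 104) (nat_lit 4) (nat_lit 114) (nat_lit 170) (nat_lit 166))))))) (PT.nd (nat_lit 4290) (PT.nd (nat_lit 3744) (PT.nd (nat_lit 234) (PT.nd (nat_lit 78) (PT.lf (nat_lit 8208) (nat_lit 6) (nat_lit 108) (nat_lit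 4) (nat_lit 115) (nat_lit 170) (nat_lit 165)) (PT.nd (nat_lit 78) (PT.lf (nat_lit 8512) (nat_lit 6) (nat_lit 112) (nat_lit 4) (nat_lit 116) (nat_lit 170) (nat_lit 164)) (PT.lf (nat_lit 8816) (nat_lit 6) (nat_lit 116) (nat_lit 4) (nat_lit 117) (nat_lit 170) (nat_lit 163)))) (PT.nd (nat_lit 3354) (PT.nd (nat_lit 78) (PT.lf (nat_lit 9120) (nat_lit 6) (nat_lit 120) (nat_lit 4) (nat_lit 118) (nat_lit 170) (nat_lit 162)) (PT.lf (nat_lit 9500) (nat_lit 6) (nat_lit 125) (nat_lit 4) (nat_lit 119) (nat_lit 170) (nat_lit 161))) (PT.nd (nat_lit 78) (PT.lf (nat_lit 9500) (nat_lit 6) (nat_lit 125) (nat_lit 2) (nat_lit 161) (nat_lit 170) (nat_lit 119)) (PT.lf (nat_lit 9120) (nat_lit 6) (nat_lit 120) (nat_lit 2) (nat_lit 162) (nat_lit 170) (nat_lit 118))))) (PT.nd (nat_lit 234) (PT.nd (nat_lit 78) (PT.lf (nat_lit 8816) (nat_lit 6) (nat_lit 116) (nat_lit 2) (nat_lit 163) (nat_lit 170) (nat_lit 117)) (PT.nd (nat_lit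 78) (PT.lf (nat_lit 8512) (nat_lit 6) (nat_lit 112) (nat_lit 2) (nat_lit 164) (nat_lit 170) (nat_lit 116)) (PT.lf (nat_lit 8208) (nat_lit 6) (nat_lit 108) (nat_lit 2) (nat_lit 165) (nat_lit 170) (nat_lit 115)))) (PT.nd (nat_lit 156) (PT.nd (nat_lit 78) (PT.lf (nat_lit 7904) (nat_lit 6) (nat_lit 104) (nat_lit 2) (nat_lit 166) (nat_lit 170) (nat_lit 114)) (PT.lf (nat_lit 7676) (nat_lit 6) (nat_lit 101) (nat_lit 2) (nat_lit 167) (nat_lit 170) (nat_lit 113))) (PT.nd (nat_lit 78) (PT.lf (nat_lit 7372) (nat_lit 6) (nat_lit 97) (nat_lit 2) (nat_lit 168) (nat_lit 170) (nat_lit 112)) (PT.lf (nat_lit 7144) (nat_lit 6) (nat_lit 94) (nat_lit 2) (nat_lit 169) (nat_lit 170) (nat_lit 111)))))) (PT.nd (nat_lit 41808) (PT.nd (nat_lit 234) (PT.nd (nat_lit 78) (PT.lf (nat_lit 6840) (nat_lit 3) (nat_lit 90) (nat_lit 0) (nat_lit 170) (nat_lit 170) (nat_lit 110)) (PT.nd (nat_lit 78) (PT.lf (nat_lit 6536) (nat_lit 6) (nat_lit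 86) (nat_lit 0) (nat_lit 171) (nat_lit 170) (nat_lit 109)) (PT.lf (nat_lit 6232) (nat_lit 6) (nat_lit 82) (nat_lit 0) (nat_lit 172) (nat_lit 170) (nat_lit 108)))) (PT.nd (nat_lit 156) (PT.nd (nat_lit 78) (PT.lf (nat_lit 5928) (nat_lit 6) (nat_lit 78) (nat_lit 0) (nat_lit 173) (nat_lit 170) (nat_lit 107)) (PT.lf (nat_lit 5624) (nat_lit 6) (nat_lit 74) (nat_lit 0) (nat_lit 174) (nat_lit 170) (nat_lit 106))) (PT.nd (nat_lit 41340) (PT.lf (nat_lit 5396) (nat_lit 6) (nat_lit 71) (nat_lit 0) (nat_lit 175) (nat_lit 170) (nat_lit 105)) (PT.lf (nat_lit 5168) (nat_lit 6) (nat_lit 68) (nat_lit 5) (nat_lit 104) (nat_lit 171) (nat_lit 175))))) (PT.nd (nat_lit 312) (PT.nd (nat_lit 156) (PT.nd (nat_lit 78) (PT.lf (nat_lit 5472) (nat_lit 6) (nat_lit 72) (nat_lit 5) (nat_lit 105) (nat_lit 171) (nat_lit 174)) (PT.lf (nat_lit 5700) (nat_lit 6) (nat_lit 75) (nat_lit 5) (nat_lit 106) (nat_lit 171) (nat_lit 173))) (PT.nd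 (nat_lit 78) (PT.lf (nat_lit 6004) (nat_lit 6) (nat_lit 79) (nat_lit 5) (nat_lit 107) (nat_lit 171) (nat_lit 172)) (PT.lf (nat_lit 6308) (nat_lit 3) (nat_lit 83) (nat_lit 4) (nat_lit 108) (nat_lit 171) (nat_lit 171)))) (PT.nd (nat_lit 156) (PT.nd (nat_lit 78) (PT.lf (nat_lit 6536) (nat_lit 6) (nat_lit 86) (nat_lit 4) (nat_lit 109) (nat_lit 171) (nat_lit 170)) (PT.lf (nat_lit 6764) (nat_lit 6) (nat_lit 89) (nat_lit 4) (nat_lit 110) (nat_lit 171) (nat_lit 169))) (PT.nd (nat_lit 78) (PT.lf (nat_lit 7068) (nat_lit 6) (nat_lit 93) (nat_lit 4) (nat_lit 111) (nat_lit 171) (nat_lit 168)) (PT.lf (nat_lit 7296) (nat_lit 6) (nat_lit 96) (nat_lit 4) (nat_lit 112) (nat_lit 171) (nat_lit 167))))))))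
noncomputable def pc29 : PT := (PT.nd (nat_lit 50934) (PT.nd (nat_lit 4680) (PT.nd (nat_lit 4134) (PT.nd (nat_lit 234) (PT.nd (nat_lit 78) (PT.lf (nat_lit 7600) (nat_lit 6) (nat_lit 100) (nat_lit 4) (nat_lit 113) (nat_lit 171) (nat_lit 166)) (PT.nd (nat_lit 78) (PT.lf (nat_lit 7828) (nat_lit 6) (nat_lit 103) (nat_lit 4) (nat_lit 114) (nat_lit 171) (nat_lit 165)) (PT.lf (nat_lit 8132) (nat_lit 6) (nat_lit 107) (nat_lit 4) (nat_lit 115) (nat_lit 171) (nat_lit 164)))) (PT.nd (nat_lit 3744) (PT.nd (nat_lit 3666) (PT.lf (nat_lit 8436) (nat_lit 6) (nat_lit 111) (nat_lit 4) (nat_lit 116) (nat_lit 171) (nat_lit 163)) (PT.lf (nat_lit 8436) (nat_lit 6) (nat_lit 111) (nat_lit 2) (nat_lit 163) (nat_lit 171) (nat_lit 116))) (PT.nd (nat_lit 78) (PT.lf (nat_lit 8132) (nat_lit 6) (nat_lit 107) (nat_lit 2) (nat_lit 164) (nat_lit 171) (nat_lit 115)) (PT.lf (nat_lit 7828) (nat_lit 6) (nat_lit 103) (nat_lit 2) (nat_lit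 165) (nat_lit 171) (nat_lit 114))))) (PT.nd (nat_lit 234) (PT.nd (nat_lit 78) (PT.lf (nat_lit 7600) (nat_lit 6) (nat_lit 100) (nat_lit 2) (nat_lit 166) (nat_lit 171) (nat_lit 113)) (PT.nd (nat_lit 78) (PT.lf (nat_lit 7296) (nat_lit 6) (nat_lit 96) (nat_lit 2) (nat_lit 167) (nat_lit 171) (nat_lit 112)) (PT.lf (nat_lit 7068) (nat_lit 6) (nat_lit 93) (nat_lit 2) (nat_lit 168) (nat_lit 171) (nat_lit 111)))) (PT.nd (nat_lit 156) (PT.nd (nat_lit 78) (PT.lf (nat_lit 6764) (nat_lit 6) (nat_lit 89) (nat_lit 2) (nat_lit 169) (nat_lit 171) (nat_lit 110)) (PT.lf (nat_lit 6536) (nat_lit 6) (nat_lit 86) (nat_lit 2) (nat_lit 170) (nat_lit 171) (nat_lit 109))) (PT.nd (nat_lit 78) (PT.lf (nat_lit 6308) (nat_lit 3) (nat_lit 83) (nat_lit 0) (nat_lit 171) (nat_lit 171) (nat_lit 108)) (PT.lf (nat_lit 6004) (nat_lit 6) (nat_lit 79) (nat_lit 0) (nat_lit 172) (nat_lit 171) (nat_lit 107)))))) (PT.nd (nat_lit 41652) (PT.nd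 (nat_lit 41340) (PT.nd (nat_lit 78) (PT.lf (nat_lit 5700) (nat_lit 6) (nat_lit 75) (nat_lit 0) (nat_lit 173) (nat_lit 171) (nat_lit 106)) (PT.nd (nat_lit 78) (PT.lf (nat_lit 5472) (nat_lit 6) (nat_lit 72) (nat_lit 0) (nat_lit 174) (nat_lit 171) (nat_lit 105)) (PT.lf (nat_lit 5168) (nat_lit 6) (nat_lit 68) (nat_lit 0) (nat_lit 175) (nat_lit 171) (nat_lit 104)))) (PT.nd (nat_lit 156) (PT.nd (nat_lit 78) (PT.lf (nat_lit 4712) (nat_lit 6) (nat_lit 62) (nat_lit 5) (nat_lit 102) (nat_lit 172) (nat_lit 176)) (PT.lf (nat_lit 5016) (nat_lit 6) (nat_lit 66) (nat_lit 5) (nat_lit 103) (nat_lit 172) (nat_lit 175))) (PT.nd (nat_lit 78) (PT.lf (nat_lit 5244) (nat_lit 6) (nat_lit 69) (nat_lit 5) (nat_lit 104) (nat_lit 172) (nat_lit 174)) (PT.lf (nat_lit 5548) (nat_lit 6) (nat_lit 73) (nat_lit 5) (nat_lit 105) (nat_lit 172) (nat_lit 173))))) (PT.nd (nat_lit 312) (PT.nd (nat_lit 156) (PT.nd (nat_lit 78) (PT.lf (nat_lit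 5776) (nat_lit 3) (nat_lit 76) (nat_lit 4) (nat_lit 106) (nat_lit 172) (nat_lit 172)) (PT.lf (nat_lit 6004) (nat_lit 6) (nat_lit 79) (nat_lit 4) (nat_lit 107) (nat_lit 172) (nat_lit 171))) (PT.nd (nat_lit 78) (PT.lf (nat_lit 6232) (nat_lit 6) (nat_lit 82) (nat_lit 4) (nat_lit 108) (nat_lit 172) (nat_lit 170)) (PT.lf (nat_lit 6460) (nat_lit 6) (nat_lit 85) (nat_lit 4) (nat_lit 109) (nat_lit 172) (nat_lit 169)))) (PT.nd (nat_lit 156) (PT.nd (nat_lit 78) (PT.lf (nat_lit 6688) (nat_lit 6) (nat_lit 88) (nat_lit 4) (nat_lit 110) (nat_lit 172) (nat_lit 168)) (PT.lf (nat_lit 6992) (nat_lit 6) (nat_lit 92) (nat_lit 4) (nat_lit 111) (nat_lit 172) (nat_lit 167))) (PT.nd (nat_lit 78) (PT.lf (nat_lit 7220) (nat_lit 6) (nat_lit 95) (nat_lit 4) (nat_lit 112) (nat_lit 172) (nat_lit 166)) (PT.lf (nat_lit 7524) (nat_lit 6) (nat_lit 99) (nat_lit 4) (nat_lit 113) (nat_lit 172) (nat_lit 165))))))) (PT.nd (nat_lit 41964)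 (PT.nd (nat_lit 546) (PT.nd (nat_lit 234) (PT.nd (nat_lit 78) (PT.lf (nat_lit 7524) (nat_lit 6) (nat_lit 99) (nat_lit 2) (nat_lit 165) (nat_lit 172) (nat_lit 113)) (PT.nd (nat_lit 78) (PT.lf (nat_lit 7220) (nat_lit 6) (nat_lit 95) (nat_lit 2) (nat_lit 166) (nat_lit 172) (nat_lit 112)) (PT.lf (nat_lit 6992) (nat_lit 6) (nat_lit 92) (nat_lit 2) (nat_lit 167) (nat_lit 172) (nat_lit 111)))) (PT.nd (nat_lit 156) (PT.nd (nat_lit 78) (PT.lf (nat_lit 6688) (nat_lit 6) (nat_lit 88) (nat_lit 2) (nat_lit 168) (nat_lit 172) (nat_lit 110)) (PT.lf (nat_lit 6460) (nat_lit 6) (nat_lit 85) (nat_lit 2) (nat_lit 169) (nat_lit 172) (nat_lit 109))) (PT.nd (nat_lit 78) (PT.lf (nat_lit 6232) (nat_lit 6) (nat_lit 82) (nat_lit 2) (nat_lit 170) (nat_lit 172) (nat_lit 108)) (PT.lf (nat_lit 6004) (nat_lit 6) (nat_lit 79) (nat_lit 2) (nat_lit 171) (nat_lit 172) (nat_lit 107))))) (PT.nd (nat_lit 234) (PT.nd (nat_lit 78) (PT.lf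 (nat_lit 5776) (nat_lit 3) (nat_lit 76) (nat_lit 0) (nat_lit 172) (nat_lit 172) (nat_lit 106)) (PT.nd (nat_lit 78) (PT.lf (nat_lit 5548) (nat_lit 6) (nat_lit 73) (nat_lit 0) (nat_lit 173) (nat_lit 172) (nat_lit 105)) (PT.lf (nat_lit 5244) (nat_lit 6) (nat_lit 69) (nat_lit 0) (nat_lit 174) (nat_lit 172) (nat_lit 104)))) (PT.nd (nat_lit 41028) (PT.nd (nat_lit 78) (PT.lf (nat_lit 5016) (nat_lit 6) (nat_lit 66) (nat_lit 0) (nat_lit 175) (nat_lit 172) (nat_lit 103)) (PT.lf (nat_lit 4712) (nat_lit 6) (nat_lit 62) (nat_lit 0) (nat_lit 176) (nat_lit 172) (nat_lit 102))) (PT.nd (nat_lit 78) (PT.lf (nat_lit 4332) (nat_lit 6) (nat_lit 57) (nat_lit 5) (nat_lit 100) (nat_lit 173) (nat_lit 177)) (PT.lf (nat_lit 4560) (nat_lit 6) (nat_lit 60) (nat_lit 5) (nat_lit 101) (nat_lit 173) (nat_lit 176)))))) (PT.nd (nat_lit 546) (PT.nd (nat_lit 234) (PT.nd (nat_lit 78) (PT.lf (nat_lit 4788) (nat_lit 6) (nat_lit 63) (nat_lit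 5) (nat_lit 102) (nat_lit 173) (nat_lit 175)) (PT.nd (nat_lit 78) (PT.lf (nat_lit 5092) (nat_lit 6) (nat_lit 67) (nat_lit 5) (nat_lit 103) (nat_lit 173) (nat_lit 174)) (PT.lf (nat_lit 5320) (nat_lit 3) (nat_lit 70) (nat_lit 4) (nat_lit 104) (nat_lit 173) (nat_lit 173)))) (PT.nd (nat_lit 156) (PT.nd (nat_lit 78) (PT.lf (nat_lit 5548) (nat_lit 6) (nat_lit 73) (nat_lit 4) (nat_lit 105) (nat_lit 173) (nat_lit 172)) (PT.lf (nat_lit 5700) (nat_lit 6) (nat_lit 75) (nat_lit 4) (nat_lit 106) (nat_lit 173) (nat_lit 171))) (PT.nd (nat_lit 78) (PT.lf (nat_lit 5928) (nat_lit 6) (nat_lit 78) (nat_lit 4) (nat_lit 107) (nat_lit 173) (nat_lit 170)) (PT.lf (nat_lit 6156) (nat_lit 6) (nat_lit 81) (nat_lit 4) (nat_lit 108) (nat_lit 173) (nat_lit 169))))) (PT.nd (nat_lit 4680) (PT.nd (nat_lit 4524) (PT.nd (nat_lit 78) (PT.lf (nat_lit 6384) (nat_lit 6) (nat_lit 84) (nat_lit 4) (nat_lit 109) (nat_lit 173) (nat_lit 168))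 (PT.lf (nat_lit 6612) (nat_lit 6) (nat_lit 87) (nat_lit 4) (nat_lit 110) (nat_lit 173) (nat_lit 167))) (PT.nd (nat_lit 78) (PT.lf (nat_lit 6612) (nat_lit 6) (nat_lit 87) (nat_lit 2) (nat_lit 167) (nat_lit 173) (nat_lit 110)) (PT.lf (nat_lit 6384) (nat_lit 6) (nat_lit 84) (nat_lit 2) (nat_lit 168) (nat_lit 173) (nat_lit 109)))) (PT.nd (nat_lit 156) (PT.nd (nat_lit 78) (PT.lf (nat_lit 6156) (nat_lit 6) (nat_lit 81) (nat_lit 2) (nat_lit 169) (nat_lit 173) (nat_lit 108)) (PT.lf (nat_lit 5928) (nat_lit 6) (nat_lit 78) (nat_lit 2) (nat_lit 170) (nat_lit 173) (nat_lit 107))) (PT.nd (nat_lit 78) (PT.lf (nat_lit 5700) (nat_lit 6) (nat_lit 75) (nat_lit 2) (nat_lit 171) (nat_lit 173) (nat_lit 106)) (PT.lf (nat_lit 5548) (nat_lit 6) (nat_lit 73) (nat_lit 2) (nat_lit 172) (nat_lit 173) (nat_lit 105))))))))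
noncomputable def pc30 : PT := (PT.nd (nat_lit 88218) (PT.nd (nat_lit 46566) (PT.nd (nat_lit 41262) (PT.nd (nat_lit 234) (PT.nd (nat_lit 78) (PT.lf (nat_lit 5320) (nat_lit 3) (nat_lit 70) (nat_lit 0) (nat_lit 173) (nat_lit 173) (nat_lit 104)) (PT.nd (nat_lit 78) (PT.lf (nat_lit 5092) (nat_lit 6) (nat_lit 67) (nat_lit 0) (nat_lit 174) (nat_lit 173) (nat_lit 103)) (PT.lf (nat_lit 4788) (nat_lit 6) (nat_lit 63) (nat_lit 0) (nat_lit 175) (nat_lit 173) (nat_lit 102)))) (PT.nd (nat_lit 40872) (PT.nd (nat_lit 78) (PT.lf (nat_lit 4560) (nat_lit 6) (nat_lit 60) (nat_lit 0) (nat_lit 176) (nat_lit 173) (nat_lit 101)) (PT.lf (nat_lit 4332) (nat_lit 6) (nat_lit 57) (nat_lit 0) (nat_lit 177) (nat_lit 173) (nat_lit 100))) (PT.nd (nat_lit 78) (PT.lf (nat_lit 4180) (nat_lit 6) (nat_lit 55) (nat_lit 5) (nat_lit 99) (nat_lit 174) (nat_lit 177)) (PT.lf (nat_lit 4408) (nat_lit 6) (nat_lit 58) (nat_lit 5) (nat_lit 100)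 (nat_lit 174) (nat_lit 176))))) (PT.nd (nat_lit 234) (PT.nd (nat_lit 78) (PT.lf (nat_lit 4636) (nat_lit 6) (nat_lit 61) (nat_lit 5) (nat_lit 101) (nat_lit 174) (nat_lit 175)) (PT.nd (nat_lit 78) (PT.lf (nat_lit 4864) (nat_lit 3) (nat_lit 64) (nat_lit 4) (nat_lit 102) (nat_lit 174) (nat_lit 174)) (PT.lf (nat_lit 5092) (nat_lit 6) (nat_lit 67) (nat_lit 4) (nat_lit 103) (nat_lit 174) (nat_lit 173)))) (PT.nd (nat_lit 156) (PT.nd (nat_lit 78) (PT.lf (nat_lit 5244) (nat_lit 6) (nat_lit 69) (nat_lit 4) (nat_lit 104) (nat_lit 174) (nat_lit 172)) (PT.lf (nat_lit 5472) (nat_lit 6) (nat_lit 72) (nat_lit 4) (nat_lit 105) (nat_lit 174) (nat_lit 171))) (PT.nd (nat_lit 78) (PT.lf (nat_lit 5624) (nat_lit 6) (nat_lit 74) (nat_lit 4) (nat_lit 106) (nat_lit 174) (nat_lit 170)) (PT.lf (nat_lit 5852) (nat_lit 6) (nat_lit 77) (nat_lit 4) (nat_lit 107) (nat_lit 174) (nat_lit 169)))))) (PT.nd (nat_lit 546) (PT.nd (nat_lit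 234) (PT.nd (nat_lit 78) (PT.lf (nat_lit 5852) (nat_lit 6) (nat_lit 77) (nat_lit 2) (nat_lit 169) (nat_lit 174) (nat_lit 107)) (PT.nd (nat_lit 78) (PT.lf (nat_lit 5624) (nat_lit 6) (nat_lit 74) (nat_lit 2) (nat_lit 170) (nat_lit 174) (nat_lit 106)) (PT.lf (nat_lit 5472) (nat_lit 6) (nat_lit 72) (nat_lit 2) (nat_lit 171) (nat_lit 174) (nat_lit 105)))) (PT.nd (nat_lit 156) (PT.nd (nat_lit 78) (PT.lf (nat_lit 5244) (nat_lit 6) (nat_lit 69) (nat_lit 2) (nat_lit 172) (nat_lit 174) (nat_lit 104)) (PT.lf (nat_lit 5092) (nat_lit 6) (nat_lit 67) (nat_lit 2) (nat_lit 173) (nat_lit 174) (nat_lit 103))) (PT.nd (nat_lit 78) (PT.lf (nat_lit 4864) (nat_lit 3) (nat_lit 64) (nat_lit 0) (nat_lit 174) (nat_lit 174) (nat_lit 102)) (PT.lf (nat_lit 4636) (nat_lit 6) (nat_lit 61) (nat_lit 0) (nat_lit 175) (nat_lit 174) (nat_lit 101))))) (PT.nd (nat_lit 40794) (PT.nd (nat_lit 78) (PT.lf (nat_lit 4408) (nat_lit 6) (nat_lit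 58) (nat_lit 0) (nat_lit 176) (nat_lit 174) (nat_lit 100)) (PT.nd (nat_lit 40638) (PT.lf (nat_lit 4180) (nat_lit 6) (nat_lit 55) (nat_lit 0) (nat_lit 177) (nat_lit 174) (nat_lit 99)) (PT.lf (nat_lit 3800) (nat_lit 6) (nat_lit 50) (nat_lit 5) (nat_lit 97) (nat_lit 175) (nat_lit 178)))) (PT.nd (nat_lit 156) (PT.nd (nat_lit 78) (PT.lf (nat_lit 4028) (nat_lit 6) (nat_lit 53) (nat_lit 5) (nat_lit 98) (nat_lit 175) (nat_lit 177)) (PT.lf (nat_lit 4256) (nat_lit 6) (nat_lit 56) (nat_lit 5) (nat_lit 99) (nat_lit 175) (nat_lit 176))) (PT.nd (nat_lit 78) (PT.lf (nat_lit 4484) (nat_lit 3) (nat_lit 59) (nat_lit 4) (nat_lit 100) (nat_lit 175) (nat_lit 175)) (PT.lf (nat_lit 4636) (nat_lit 6) (nat_lit 61) (nat_lit 4) (nat_lit 101) (nat_lit 175) (nat_lit 174))))))) (PT.nd (nat_lit 46410) (PT.nd (nat_lit 5538) (PT.nd (nat_lit 234) (PT.nd (nat_lit 78) (PT.lf (nat_lit 4788) (nat_lit 6) (nat_lit 63) (nat_lit 4) (nat_lit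 102) (nat_lit 175) (nat_lit 173)) (PT.nd (nat_lit 78) (PT.lf (nat_lit 5016) (nat_lit 6) (nat_lit 66) (nat_lit 4) (nat_lit 103) (nat_lit 175) (nat_lit 172)) (PT.lf (nat_lit 5168) (nat_lit 6) (nat_lit 68) (nat_lit 4) (nat_lit 104) (nat_lit 175) (nat_lit 171)))) (PT.nd (nat_lit 5148) (PT.nd (nat_lit 5070) (PT.lf (nat_lit 5396) (nat_lit 6) (nat_lit 71) (nat_lit 4) (nat_lit 105) (nat_lit 175) (nat_lit 170)) (PT.lf (nat_lit 5396) (nat_lit 6) (nat_lit 71) (nat_lit 2) (nat_lit 170) (nat_lit 175) (nat_lit 105))) (PT.nd (nat_lit 78) (PT.lf (nat_lit 5168) (nat_lit 6) (nat_lit 68) (nat_lit 2) (nat_lit 171) (nat_lit 175) (nat_lit 104)) (PT.lf (nat_lit 5016) (nat_lit 6) (nat_lit 66) (nat_lit 2) (nat_lit 172) (nat_lit 175) (nat_lit 103))))) (PT.nd (nat_lit 234) (PT.nd (nat_lit 78) (PT.lf (nat_lit 4788) (nat_lit 6) (nat_lit 63) (nat_lit 2) (nat_lit 173) (nat_lit 175) (nat_lit 102)) (PT.nd (nat_lit 78) (PT.lf (nat_lit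 4636) (nat_lit 6) (nat_lit 61) (nat_lit 2) (nat_lit 174) (nat_lit 175) (nat_lit 101)) (PT.lf (nat_lit 4484) (nat_lit 3) (nat_lit 59) (nat_lit 0) (nat_lit 175) (nat_lit 175) (nat_lit 100)))) (PT.nd (nat_lit 156) (PT.nd (nat_lit 78) (PT.lf (nat_lit 4256) (nat_lit 6) (nat_lit 56) (nat_lit 0) (nat_lit 176) (nat_lit 175) (nat_lit 99)) (PT.lf (nat_lit 4028) (nat_lit 6) (nat_lit 53) (nat_lit 0) (nat_lit 177) (nat_lit 175) (nat_lit 98))) (PT.nd (nat_lit 40404) (PT.lf (nat_lit 3800) (nat_lit 6) (nat_lit 50) (nat_lit 0) (nat_lit 178) (nat_lit 175) (nat_lit 97)) (PT.lf (nat_lit 3420) (nat_lit 6) (nat_lit 45) (nat_lit 5) (nat_lit 95) (nat_lit 176) (nat_lit 179)))))) (PT.nd (nat_lit 5928) (PT.nd (nat_lit 234) (PT.nd (nat_lit 78) (PT.lf (nat_lit 3648) (nat_lit 6) (nat_lit 48) (nat_lit 5) (nat_lit 96) (nat_lit 176) (nat_lit 178)) (PT.nd (nat_lit 78) (PT.lf (nat_lit 3876) (nat_lit 6) (nat_lit 51) (nat_lit 5) (nat_lit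 97) (nat_lit 176) (nat_lit 177)) (PT.lf (nat_lit 4104) (nat_lit 3) (nat_lit 54) (nat_lit 4) (nat_lit 98) (nat_lit 176) (nat_lit 176)))) (PT.nd (nat_lit 156) (PT.nd (nat_lit 78) (PT.lf (nat_lit 4256) (nat_lit 6) (nat_lit 56) (nat_lit 4) (nat_lit 99) (nat_lit 176) (nat_lit 175)) (PT.lf (nat_lit 4408) (nat_lit 6) (nat_lit 58) (nat_lit 4) (nat_lit 100) (nat_lit 176) (nat_lit 174))) (PT.nd (nat_lit 78) (PT.lf (nat_lit 4560) (nat_lit 6) (nat_lit 60) (nat_lit 4) (nat_lit 101) (nat_lit 176) (nat_lit 173)) (PT.lf (nat_lit 4712) (nat_lit 6) (nat_lit 62) (nat_lit 4) (nat_lit 102) (nat_lit 176) (nat_lit 172))))) (PT.nd (nat_lit 312) (PT.nd (nat_lit 156) (PT.nd (nat_lit 78) (PT.lf (nat_lit 4712) (nat_lit 6) (nat_lit 62) (nat_lit 2) (nat_lit 172) (nat_lit 176) (nat_lit 102)) (PT.lf (nat_lit 4560) (nat_lit 6) (nat_lit 60) (nat_lit 2) (nat_lit 173) (nat_lit 176) (nat_lit 101))) (PT.nd (nat_lit 78) (PT.lf (nat_lit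 4408) (nat_lit 6) (nat_lit 58) (nat_lit 2) (nat_lit 174) (nat_lit 176) (nat_lit 100)) (PT.lf (nat_lit 4256) (nat_lit 6) (nat_lit 56) (nat_lit 2) (nat_lit 175) (nat_lit 176) (nat_lit 99)))) (PT.nd (nat_lit 156) (PT.nd (nat_lit 78) (PT.lf (nat_lit 4104) (nat_lit 3) (nat_lit 54) (nat_lit 0) (nat_lit 176) (nat_lit 176) (nat_lit 98)) (PT.lf (nat_lit 3876) (nat_lit 6) (nat_lit 51) (nat_lit 0) (nat_lit 177) (nat_lit 176) (nat_lit 97))) (PT.nd (nat_lit 78) (PT.lf (nat_lit 3648) (nat_lit 6) (nat_lit 48) (nat_lit 0) (nat_lit 178) (nat_lit 176) (nat_lit 96)) (PT.lf (nat_lit 3420) (nat_lit 6) (nat_lit 45) (nat_lit 0) (nat_lit 179) (nat_lit 176) (nat_lit 95))))))))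
noncomputable def pc31 : PT := (PT.nd (nat_lit 93678) (PT.nd (nat_lit 46722) (PT.nd (nat_lit 6162) (PT.nd (nat_lit 234) (PT.nd (nat_lit 78) (PT.lf (nat_lit 3268) (nat_lit 6) (nat_lit 43) (nat_lit 5) (nat_lit 94) (nat_lit 177) (nat_lit 179)) (PT.nd (nat_lit 78) (PT.lf (nat_lit 3496) (nat_lit 6) (nat_lit 46) (nat_lit 5) (nat_lit 95) (nat_lit 177) (nat_lit 178)) (PT.lf (nat_lit 3724) (nat_lit 3) (nat_lit 49) (nat_lit 4) (nat_lit 96) (nat_lit 177) (nat_lit 177)))) (PT.nd (nat_lit 156) (PT.nd (nat_lit 78) (PT.lf (nat_lit 3876) (nat_lit 6) (nat_lit 51) (nat_lit 4) (nat_lit 97) (nat_lit 177) (nat_lit 176)) (PT.lf (nat_lit 4028) (nat_lit 6) (nat_lit 53) (nat_lit 4) (nat_lit 98) (nat_lit 177) (nat_lit 175))) (PT.nd (nat_lit 78) (PT.lf (nat_lit 4180) (nat_lit 6) (nat_lit 55) (nat_lit 4) (nat_lit 99) (nat_lit 177) (nat_lit 174)) (PT.lf (nat_lit 4332) (nat_lit 6) (nat_lit 57) (nat_lit 4) (nat_lit 100) (nat_lit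 177) (nat_lit 173))))) (PT.nd (nat_lit 234) (PT.nd (nat_lit 78) (PT.lf (nat_lit 4332) (nat_lit 6) (nat_lit 57) (nat_lit 2) (nat_lit 173) (nat_lit 177) (nat_lit 100)) (PT.nd (nat_lit 78) (PT.lf (nat_lit 4180) (nat_lit 6) (nat_lit 55) (nat_lit 2) (nat_lit 174) (nat_lit 177) (nat_lit 99)) (PT.lf (nat_lit 4028) (nat_lit 6) (nat_lit 53) (nat_lit 2) (nat_lit 175) (nat_lit 177) (nat_lit 98)))) (PT.nd (nat_lit 156) (PT.nd (nat_lit 78) (PT.lf (nat_lit 3876) (nat_lit 6) (nat_lit 51) (nat_lit 2) (nat_lit 176) (nat_lit 177) (nat_lit 97)) (PT.lf (nat_lit 3724) (nat_lit 3) (nat_lit 49) (nat_lit 0) (nat_lit 177) (nat_lit 177) (nat_lit 96))) (PT.nd (nat_lit 78) (PT.lf (nat_lit 3496) (nat_lit 6) (nat_lit 46) (nat_lit 0) (nat_lit 178) (nat_lit 177) (nat_lit 95)) (PT.lf (nat_lit 3268) (nat_lit 6) (nat_lit 43) (nat_lit 0) (nat_lit 179) (nat_lit 177) (nat_lit 94)))))) (PT.nd (nat_lit 6552) (PT.nd (nat_lit 234) (PT.nd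 (nat_lit 78) (PT.lf (nat_lit 2964) (nat_lit 6) (nat_lit 39) (nat_lit 5) (nat_lit 92) (nat_lit 178) (nat_lit 180)) (PT.nd (nat_lit 78) (PT.lf (nat_lit 3192) (nat_lit 6) (nat_lit 42) (nat_lit 5) (nat_lit 93) (nat_lit 178) (nat_lit 179)) (PT.lf (nat_lit 3344) (nat_lit 3) (nat_lit 44) (nat_lit 4) (nat_lit 94) (nat_lit 178) (nat_lit 178)))) (PT.nd (nat_lit 156) (PT.nd (nat_lit 78) (PT.lf (nat_lit 3496) (nat_lit 6) (nat_lit 46) (nat_lit 4) (nat_lit 95) (nat_lit 178) (nat_lit 177)) (PT.lf (nat_lit 3648) (nat_lit 6) (nat_lit 48) (nat_lit 4) (nat_lit 96) (nat_lit 178) (nat_lit 176))) (PT.nd (nat_lit 6084) (PT.lf (nat_lit 3800) (nat_lit 6) (nat_lit 50) (nat_lit 4) (nat_lit 97) (nat_lit 178) (nat_lit 175)) (PT.lf (nat_lit 3800) (nat_lit 6) (nat_lit 50) (nat_lit 2) (nat_lit 175) (nat_lit 178) (nat_lit 97))))) (PT.nd (nat_lit 312) (PT.nd (nat_lit 156) (PT.nd (nat_lit 78) (PT.lf (nat_lit 3648) (nat_lit 6) (nat_lit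 48) (nat_lit 2) (nat_lit 176) (nat_lit 178) (nat_lit 96)) (PT.lf (nat_lit 3496) (nat_lit 6) (nat_lit 46) (nat_lit 2) (nat_lit 177) (nat_lit 178) (nat_lit 95))) (PT.nd (nat_lit 78) (PT.lf (nat_lit 3344) (nat_lit 3) (nat_lit 44) (nat_lit 0) (nat_lit 178) (nat_lit 178) (nat_lit 94)) (PT.lf (nat_lit 3192) (nat_lit 6) (nat_lit 42) (nat_lit 0) (nat_lit 179) (nat_lit 178) (nat_lit 93)))) (PT.nd (nat_lit 39936) (PT.nd (nat_lit 39858) (PT.lf (nat_lit 2964) (nat_lit 6) (nat_lit 39) (nat_lit 0) (nat_lit 180) (nat_lit 178) (nat_lit 92)) (PT.lf (nat_lit 2660) (nat_lit 6) (nat_lit 35) (nat_lit 5) (nat_lit 90) (nat_lit 179) (nat_lit 181))) (PT.nd (nat_lit 78) (PT.lf (nat_lit 2888) (nat_lit 6) (nat_lit 38) (nat_lit 5) (nat_lit 91) (nat_lit 179) (nat_lit 180)) (PT.lf (nat_lit 3040) (nat_lit 3) (nat_lit 40) (nat_lit 4) (nat_lit 92) (nat_lit 179) (nat_lit 179))))))) (PT.nd (nat_lit 53586) (PT.nd (nat_lit 6786) (PT.nd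 (nat_lit 6474) (PT.nd (nat_lit 78) (PT.lf (nat_lit 3192) (nat_lit 6) (nat_lit 42) (nat_lit 4) (nat_lit 93) (nat_lit 179) (nat_lit 178)) (PT.nd (nat_lit 78) (PT.lf (nat_lit 3268) (nat_lit 6) (nat_lit 43) (nat_lit 4) (nat_lit 94) (nat_lit 179) (nat_lit 177)) (PT.lf (nat_lit 3420) (nat_lit 6) (nat_lit 45) (nat_lit 4) (nat_lit 95) (nat_lit 179) (nat_lit 176)))) (PT.nd (nat_lit 156) (PT.nd (nat_lit 78) (PT.lf (nat_lit 3420) (nat_lit 6) (nat_lit 45) (nat_lit 2) (nat_lit 176) (nat_lit 179) (nat_lit 95)) (PT.lf (nat_lit 3268) (nat_lit 6) (nat_lit 43) (nat_lit 2) (nat_lit 177) (nat_lit 179) (nat_lit 94))) (PT.nd (nat_lit 78) (PT.lf (nat_lit 3192) (nat_lit 6) (nat_lit 42) (nat_lit 2) (nat_lit 178) (nat_lit 179) (nat_lit 93)) (PT.lf (nat_lit 3040) (nat_lit 3) (nat_lit 40) (nat_lit 0) (nat_lit 179) (nat_lit 179) (nat_lit 92))))) (PT.nd (nat_lit 39858) (PT.nd (nat_lit 78) (PT.lf (nat_lit 2888) (nat_lit 6) (nat_lit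 38) (nat_lit 0) (nat_lit 180) (nat_lit 179) (nat_lit 91)) (PT.nd (nat_lit 39702) (PT.lf (nat_lit 2660) (nat_lit 6) (nat_lit 35) (nat_lit 0) (nat_lit 181) (nat_lit 179) (nat_lit 90)) (PT.lf (nat_lit 2584) (nat_lit 6) (nat_lit 34) (nat_lit 5) (nat_lit 89) (nat_lit 180) (nat_lit 181)))) (PT.nd (nat_lit 156) (PT.nd (nat_lit 78) (PT.lf (nat_lit 2736) (nat_lit 3) (nat_lit 36) (nat_lit 4) (nat_lit 90) (nat_lit 180) (nat_lit 180)) (PT.lf (nat_lit 2888) (nat_lit 6) (nat_lit 38) (nat_lit 4) (nat_lit 91) (nat_lit 180) (nat_lit 179))) (PT.nd (nat_lit 6708) (PT.lf (nat_lit 2964) (nat_lit 6) (nat_lit 39) (nat_lit 4) (nat_lit 92) (nat_lit 180) (nat_lit 178)) (PT.lf (nat_lit 2964) (nat_lit 6) (nat_lit 39) (nat_lit 2) (nat_lit 178) (nat_lit 180) (nat_lit 92)))))) (PT.nd (nat_lit 46956) (PT.nd (nat_lit 39780) (PT.nd (nat_lit 78) (PT.lf (nat_lit 2888) (nat_lit 6) (nat_lit 38) (nat_lit 2) (nat_lit 179) (nat_lit 180)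 (nat_lit 91)) (PT.nd (nat_lit 78) (PT.lf (nat_lit 2736) (nat_lit 3) (nat_lit 36) (nat_lit 0) (nat_lit 180) (nat_lit 180) (nat_lit 90)) (PT.lf (nat_lit 2584) (nat_lit 6) (nat_lit 34) (nat_lit 0) (nat_lit 181) (nat_lit 180) (nat_lit 89)))) (PT.nd (nat_lit 156) (PT.nd (nat_lit 78) (PT.lf (nat_lit 2432) (nat_lit 3) (nat_lit 32) (nat_lit 4) (nat_lit 88) (nat_lit 181) (nat_lit 181)) (PT.lf (nat_lit 2584) (nat_lit 6) (nat_lit 34) (nat_lit 4) (nat_lit 89) (nat_lit 181) (nat_lit 180))) (PT.nd (nat_lit 6942) (PT.lf (nat_lit 2660) (nat_lit 6) (nat_lit 35) (nat_lit 4) (nat_lit 90) (nat_lit 181) (nat_lit 179)) (PT.lf (nat_lit 2660) (nat_lit 6) (nat_lit 35) (nat_lit 2) (nat_lit 179) (nat_lit 181) (nat_lit 90))))) (PT.nd (nat_lit 460044) (PT.nd (nat_lit 413244) (PT.nd (nat_lit 78) (PT.lf (nat_lit 2584) (nat_lit 6) (nat_lit 34) (nat_lit 2) (nat_lit 180) (nat_lit 181) (nat_lit 89)) (PT.lf (nat_lit 2432) (nat_lit 3)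 (nat_lit 32) (nat_lit 0) (nat_lit 181) (nat_lit 181) (nat_lit 88))) (PT.nd (nat_lit 9516) (PT.lf (nat_lit 152) (nat_lit 6) (nat_lit 2) (nat_lit 5) (nat_lit 69) (nat_lit 190) (nat_lit 191)) (PT.lf (nat_lit 152) (nat_lit 6) (nat_lit 2) (nat_lit 0) (nat_lit 191) (nat_lit 190) (nat_lit 69)))) (PT.nd (nat_lit 9516) (PT.nd (nat_lit 78) (PT.lf (nat_lit 76) (nat_lit 3) (nat_lit 1) (nat_lit 4) (nat_lit 68) (nat_lit 191) (nat_lit 191)) (PT.lf (nat_lit 152) (nat_lit 6) (nat_lit 2) (nat_lit 4) (nat_lit 69) (nat_lit 191) (nat_lit 190))) (PT.nd (nat_lit 78) (PT.lf (nat_lit 152) (nat_lit 6) (nat_lit 2) (nat_lit 2) (nat_lit 190) (nat_lit 191) (nat_lit 69)) (PT.lf (nat_lit 76) (nat_lit 3) (nat_lit 1) (nat_lit 0) (nat_lit 191) (nat_lit 191) (nat_lit 68))))))))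
noncomputable def xc0 : XT := (XT.nd (nat_lit 140556) (nat_lit 0) (nat_lit 0) (XT.nd (nat_lit 93600) (nat_lit 0) (nat_lit 0) (XT.nd (nat_lit 46878) (nat_lit 0) (nat_lit 0) (XT.nd (nat_lit 156) (nat_lit 152) (nat_lit 0) (XT.nd (nat_lit 78) (nat_lit 152) (nat_lit 0) (XT.lf (nat_lit 0) (nat_lit 6072240177) (nat_lit 152) (nat_lit 1210849794) (nat_lit 152) (nat_lit 1210849794) (nat_lit 12) (nat_lit 4) (nat_lit 14) (nat_lit 5) (nat_lit 14) (nat_lit 4) (nat_lit 386) (nat_lit 257) (nat_lit 257)) (XT.lf (nat_lit 0) (nat_lit 5441384025) (nat_lit 152) (nat_lit 6963702848) (nat_lit 0) (nat_lit 4923135589) (nat_lit 10) (nat_lit 5) (nat_lit 12) (nat_lit 4) (nat_lit 10) (nat_lit 4) (nat_lit 387) (nat_lit 257) (nat_lit 256))) (XT.nd (nat_lit 46566) (nat_lit 0) (nat_lit 456) (XT.lf (nat_lit 0) (nat_lit 8191079883) (nat_lit 152) (nat_lit 5255011142) (nat_lit 152) (nat_lit 4233608884) (nat_lit 8) (nat_lit 4) (nat_lit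 10) (nat_lit 5) (nat_lit 10) (nat_lit 4) (nat_lit 388) (nat_lit 257) (nat_lit 255)) (XT.nd (nat_lit 78) (nat_lit 152) (nat_lit 0) (XT.lf (nat_lit 0) (nat_lit 7358971020) (nat_lit 152) (nat_lit 404680643) (nat_lit 152) (nat_lit 404680643) (nat_lit 16) (nat_lit 4) (nat_lit 18) (nat_lit 5) (nat_lit 18) (nat_lit 4) (nat_lit 384) (nat_lit 258) (nat_lit 258)) (XT.lf (nat_lit 0) (nat_lit 7032170853) (nat_lit 152) (nat_lit 3137763590) (nat_lit 0) (nat_lit 6487699046) (nat_lit 14) (nat_lit 5) (nat_lit 16) (nat_lit 4) (nat_lit 14) (nat_lit 4) (nat_lit 385) (nat_lit 258) (nat_lit 257))))) (XT.nd (nat_lit 156) (nat_lit 152) (nat_lit 0) (XT.nd (nat_lit 78) (nat_lit 152) (nat_lit 0) (XT.lf (nat_lit 0) (nat_lit 11996260350) (nat_lit 152) (nat_lit 3033168827) (nat_lit 152) (nat_lit 1960083615) (nat_lit 12) (nat_lit 4) (nat_lit 14) (nat_lit 5) (nat_lit 14) (nat_lit 4) (nat_lit 386) (nat_lit 258) (nat_lit 256)) (XT.lf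 (nat_lit 0) (nat_lit 5811209991) (nat_lit 152) (nat_lit 7264297050) (nat_lit 0) (nat_lit 4256011843) (nat_lit 10) (nat_lit 5) (nat_lit 12) (nat_lit 4) (nat_lit 10) (nat_lit 4) (nat_lit 387) (nat_lit 258) (nat_lit 255))) (XT.nd (nat_lit 46410) (nat_lit 0) (nat_lit 760) (XT.lf (nat_lit 0) (nat_lit 7740817337) (nat_lit 152) (nat_lit 5993755511) (nat_lit 152) (nat_lit 3950058507) (nat_lit 8) (nat_lit 4) (nat_lit 10) (nat_lit 5) (nat_lit 10) (nat_lit 4) (nat_lit 388) (nat_lit 258) (nat_lit 254)) (XT.nd (nat_lit 78) (nat_lit 0) (nat_lit 0) (XT.lf (nat_lit 0) (nat_lit 127199030) (nat_lit 152) (nat_lit 7606445863) (nat_lit 0) (nat_lit 127199030) (nat_lit 18) (nat_lit 5) (nat_lit 20) (nat_lit 4) (nat_lit 18) (nat_lit 4) (nat_lit 382) (nat_lit 259) (nat_lit 259)) (XT.lf (nat_lit 0) (nat_lit 8053180739) (nat_lit 152) (nat_lit 490419978) (nat_lit 0) (nat_lit 7481158658) (nat_lit 18) (nat_lit 5) (nat_lit 20) (nat_lit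 4) (nat_lit 18) (nat_lit 4) (nat_lit 383) (nat_lit 259) (nat_lit 258)))))) (XT.nd (nat_lit 46566) (nat_lit 0) (nat_lit 532) (XT.nd (nat_lit 156) (nat_lit 456) (nat_lit 0) (XT.nd (nat_lit 78) (nat_lit 152) (nat_lit 0) (XT.lf (nat_lit 0) (nat_lit 14571544006) (nat_lit 152) (nat_lit 1447063770) (nat_lit 152) (nat_lit 319680446) (nat_lit 16) (nat_lit 4) (nat_lit 18) (nat_lit 5) (nat_lit 18) (nat_lit 4) (nat_lit 384) (nat_lit 259) (nat_lit 257)) (XT.lf (nat_lit 0) (nat_lit 7430048548) (nat_lit 152) (nat_lit 3434704017) (nat_lit 0) (nat_lit 5796157374) (nat_lit 14) (nat_lit 5) (nat_lit 16) (nat_lit 4) (nat_lit 14) (nat_lit 4) (nat_lit 385) (nat_lit 259) (nat_lit 256))) (XT.nd (nat_lit 78) (nat_lit 304) (nat_lit 0) (XT.lf (nat_lit 0) (nat_lit 11551470825) (nat_lit 152) (nat_lit 3795025626) (nat_lit 152) (nat_lit 1647917554) (nat_lit 12) (nat_lit 4) (nat_lit 14) (nat_lit 5) (nat_lit 14) (nat_lit 4) (nat_lit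 386) (nat_lit 259) (nat_lit 255)) (XT.nd (nat_lit 78) (nat_lit 152) (nat_lit 0) (XT.lf (nat_lit 0) (nat_lit 6032936634) (nat_lit 152) (nat_lit 7865748109) (nat_lit 0) (nat_lit 3439429864) (nat_lit 10) (nat_lit 5) (nat_lit 12) (nat_lit 4) (nat_lit 10) (nat_lit 4) (nat_lit 387) (nat_lit 259) (nat_lit 254)) (XT.lf (nat_lit 0) (nat_lit 6989942625) (nat_lit 152) (nat_lit 6885345050) (nat_lit 152) (nat_lit 3817567546) (nat_lit 8) (nat_lit 4) (nat_lit 10) (nat_lit 5) (nat_lit 10) (nat_lit 4) (nat_lit 388) (nat_lit 259) (nat_lit 253))))) (XT.nd (nat_lit 156) (nat_lit 380) (nat_lit 0) (XT.nd (nat_lit 78) (nat_lit 152) (nat_lit 0) (XT.lf (nat_lit 0) (nat_lit 422796220) (nat_lit 228) (nat_lit 6724670545) (nat_lit 0) (nat_lit 422796220) (nat_lit 22) (nat_lit 5) (nat_lit 25) (nat_lit 4) (nat_lit 22) (nat_lit 4) (nat_lit 380) (nat_lit 260) (nat_lit 260)) (XT.lf (nat_lit 0) (nat_lit 1152347560) (nat_lit 152) (nat_lit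 7437787768) (nat_lit 152) (nat_lit 6836821370) (nat_lit 20) (nat_lit 4) (nat_lit 22) (nat_lit 5) (nat_lit 22) (nat_lit 4) (nat_lit 381) (nat_lit 260) (nat_lit 259))) (XT.nd (nat_lit 78) (nat_lit 228) (nat_lit 0) (XT.lf (nat_lit 0) (nat_lit 358953757) (nat_lit 76) (nat_lit 405097073) (nat_lit 152) (nat_lit 14959237150) (nat_lit 18) (nat_lit 5) (nat_lit 19) (nat_lit 5) (nat_lit 20) (nat_lit 4) (nat_lit 382) (nat_lit 260) (nat_lit 258)) (XT.nd (nat_lit 78) (nat_lit 228) (nat_lit 0) (XT.lf (nat_lit 0) (nat_lit 8480436231) (nat_lit 152) (nat_lit 783710314) (nat_lit 0) (nat_lit 6763870164) (nat_lit 18) (nat_lit 5) (nat_lit 20) (nat_lit 4) (nat_lit 18) (nat_lit 4) (nat_lit 383) (nat_lit 260) (nat_lit 257)) (XT.lf (nat_lit 0) (nat_lit 22112760) (nat_lit 228) (nat_lit 2211083964) (nat_lit 76) (nat_lit 14109960832) (nat_lit 15) (nat_lit 5) (nat_lit 18) (nat_lit 5) (nat_lit 16) (nat_lit 4) (nat_lit 384) (nat_lit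 260) (nat_lit 256))))))) (XT.nd (nat_lit 46800) (nat_lit 0) (nat_lit 0) (XT.nd (nat_lit 46410) (nat_lit 0) (nat_lit 760) (XT.nd (nat_lit 156) (nat_lit 304) (nat_lit 0) (XT.nd (nat_lit 78) (nat_lit 152) (nat_lit 0) (XT.lf (nat_lit 0) (nat_lit 7681679790) (nat_lit 152) (nat_lit 4028844333) (nat_lit 0) (nat_lit 4956941578) (nat_lit 14) (nat_lit 5) (nat_lit 16) (nat_lit 4) (nat_lit 14) (nat_lit 4) (nat_lit 385) (nat_lit 260) (nat_lit 255)) (XT.lf (nat_lit 0) (nat_lit 10809723126) (nat_lit 152) (nat_lit 4707935685) (nat_lit 152) (nat_lit 1484928639) (nat_lit 12) (nat_lit 4) (nat_lit 14) (nat_lit 5) (nat_lit 14) (nat_lit 4) (nat_lit 386) (nat_lit 260) (nat_lit 254))) (XT.nd (nat_lit 78) (nat_lit 152) (nat_lit 0) (XT.lf (nat_lit 0) (nat_lit 6106757697) (nat_lit 152) (nat_lit 8768581566) (nat_lit 0) (nat_lit 2472676134) (nat_lit 10) (nat_lit 5) (nat_lit 12) (nat_lit 4) (nat_lit 10) (nat_lit 4) (nat_lit 387)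 (nat_lit 260) (nat_lit 253)) (XT.nd (nat_lit 46098) (nat_lit 0) (nat_lit 1444) (XT.lf (nat_lit 0) (nat_lit 5937799643) (nat_lit 152) (nat_lit 7930558817) (nat_lit 152) (nat_lit 3836020231) (nat_lit 8) (nat_lit 4) (nat_lit 10) (nat_lit 5) (nat_lit 10) (nat_lit 4) (nat_lit 388) (nat_lit 260) (nat_lit 252)) (XT.lf (nat_lit 0) (nat_lit 513468374) (nat_lit 228) (nat_lit 6268753582) (nat_lit 0) (nat_lit 513468374) (nat_lit 27) (nat_lit 5) (nat_lit 30) (nat_lit 4) (nat_lit 27) (nat_lit 4) (nat_lit 378) (nat_lit 261) (nat_lit 261))))) (XT.nd (nat_lit 156) (nat_lit 304) (nat_lit 0) (XT.nd (nat_lit 78) (nat_lit 228) (nat_lit 0) (XT.lf (nat_lit 0) (nat_lit 1912717458) (nat_lit 152) (nat_lit 6790396436) (nat_lit 152) (nat_lit 6159021138) (nat_lit 25) (nat_lit 4) (nat_lit 27) (nat_lit 5) (nat_lit 27) (nat_lit 4) (nat_lit 379) (nat_lit 261) (nat_lit 260)) (XT.lf (nat_lit 0) (nat_lit 1382914412) (nat_lit 228) (nat_lit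 13596302421) (nat_lit 0) (nat_lit 162952624) (nat_lit 22) (nat_lit 5) (nat_lit 25) (nat_lit 4) (nat_lit 22) (nat_lit 4) (nat_lit 380) (nat_lit 261) (nat_lit 259))) (XT.nd (nat_lit 78) (nat_lit 152) (nat_lit 0) (XT.lf (nat_lit 0) (nat_lit 858856134) (nat_lit 152) (nat_lit 8187401042) (nat_lit 152) (nat_lit 6383976732) (nat_lit 20) (nat_lit 4) (nat_lit 22) (nat_lit 5) (nat_lit 22) (nat_lit 4) (nat_lit 381) (nat_lit 261) (nat_lit 258)) (XT.nd (nat_lit 78) (nat_lit 76) (nat_lit 0) (XT.lf (nat_lit 0) (nat_lit 1130204196) (nat_lit 228) (nat_lit 86880302) (nat_lit 76) (nat_lit 14511046189) (nat_lit 19) (nat_lit 5) (nat_lit 22) (nat_lit 5) (nat_lit 20) (nat_lit 4) (nat_lit 382) (nat_lit 261) (nat_lit 257)) (XT.lf (nat_lit 0) (nat_lit 8763298465) (nat_lit 152) (nat_lit 1370547261) (nat_lit 0) (nat_lit 5900688500) (nat_lit 18) (nat_lit 5) (nat_lit 20) (nat_lit 4) (nat_lit 18) (nat_lit 4) (nat_lit 383) (nat_lit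 261) (nat_lit 256)))))) (XT.nd (nat_lit 46254) (nat_lit 0) (nat_lit 1064) (XT.nd (nat_lit 156) (nat_lit 456) (nat_lit 0) (XT.nd (nat_lit 78) (nat_lit 76) (nat_lit 0) (XT.lf (nat_lit 0) (nat_lit 214350242) (nat_lit 228) (nat_lit 2953103712) (nat_lit 76) (nat_lit 13183803446) (nat_lit 15) (nat_lit 5) (nat_lit 18) (nat_lit 5) (nat_lit 16) (nat_lit 4) (nat_lit 384) (nat_lit 261) (nat_lit 255)) (XT.lf (nat_lit 0) (nat_lit 7787284453) (nat_lit 152) (nat_lit 4920703691) (nat_lit 0) (nat_lit 3969318363) (nat_lit 14) (nat_lit 5) (nat_lit 16) (nat_lit 4) (nat_lit 14) (nat_lit 4) (nat_lit 385) (nat_lit 261) (nat_lit 254))) (XT.nd (nat_lit 78) (nat_lit 304) (nat_lit 0) (XT.lf (nat_lit 0) (nat_lit 9770369127) (nat_lit 152) (nat_lit 5772696691) (nat_lit 152) (nat_lit 1470974453) (nat_lit 12) (nat_lit 4) (nat_lit 14) (nat_lit 5) (nat_lit 14) (nat_lit 4) (nat_lit 386) (nat_lit 261) (nat_lit 253)) (XT.nd (nat_lit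 78) (nat_lit 152) (nat_lit 0) (XT.lf (nat_lit 0) (nat_lit 6032737684) (nat_lit 152) (nat_lit 9973586303) (nat_lit 0) (nat_lit 1354905917) (nat_lit 10) (nat_lit 5) (nat_lit 12) (nat_lit 4) (nat_lit 10) (nat_lit 4) (nat_lit 387) (nat_lit 261) (nat_lit 252)) (XT.lf (nat_lit 0) (nat_lit 4583469042) (nat_lit 152) (nat_lit 9130310106) (nat_lit 152) (nat_lit 4005432685) (nat_lit 8) (nat_lit 4) (nat_lit 10) (nat_lit 5) (nat_lit 10) (nat_lit 4) (nat_lit 388) (nat_lit 261) (nat_lit 251))))) (XT.nd (nat_lit 156) (nat_lit 608) (nat_lit 0) (XT.nd (nat_lit 78) (nat_lit 152) (nat_lit 0) (XT.lf (nat_lit 0) (nat_lit 429695781) (nat_lit 228) (nat_lit 6176712962) (nat_lit 0) (nat_lit 429695781) (nat_lit 32) (nat_lit 5) (nat_lit 35) (nat_lit 4) (nat_lit 32) (nat_lit 4) (nat_lit 376) (nat_lit 262) (nat_lit 262)) (XT.lf (nat_lit 0) (nat_lit 1913455779) (nat_lit 152) (nat_lit 6539051822) (nat_lit 152) (nat_lit 5875728934)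 (nat_lit 30) (nat_lit 4) (nat_lit 32) (nat_lit 5) (nat_lit 32) (nat_lit 4) (nat_lit 377) (nat_lit 262) (nat_lit 261))) (XT.nd (nat_lit 78) (nat_lit 380) (nat_lit 0) (XT.lf (nat_lit 0) (nat_lit 1596044805) (nat_lit 228) (nat_lit 12682617599) (nat_lit 0) (nat_lit 314352951) (nat_lit 27) (nat_lit 5) (nat_lit 30) (nat_lit 4) (nat_lit 27) (nat_lit 4) (nat_lit 378) (nat_lit 262) (nat_lit 260)) (XT.nd (nat_lit 78) (nat_lit 228) (nat_lit 0) (XT.lf (nat_lit 0) (nat_lit 1622922394) (nat_lit 152) (nat_lit 7568574811) (nat_lit 152) (nat_lit 5673897231) (nat_lit 25) (nat_lit 4) (nat_lit 27) (nat_lit 5) (nat_lit 27) (nat_lit 4) (nat_lit 379) (nat_lit 262) (nat_lit 259)) (XT.lf (nat_lit 0) (nat_lit 1105319986) (nat_lit 152) (nat_lit 674447012) (nat_lit 228) (nat_lit 13367246767) (nat_lit 22) (nat_lit 5) (nat_lit 24) (nat_lit 5) (nat_lit 25) (nat_lit 4) (nat_lit 380) (nat_lit 262) (nat_lit 258))))))))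
noncomputable def xc1 : XT := (XT.nd (nat_lit 47268) (nat_lit 0) (nat_lit 0) (XT.nd (nat_lit 46488) (nat_lit 0) (nat_lit 456) (XT.nd (nat_lit 390) (nat_lit 456) (nat_lit 0) (XT.nd (nat_lit 156) (nat_lit 380) (nat_lit 0) (XT.nd (nat_lit 78) (nat_lit 76) (nat_lit 0) (XT.lf (nat_lit 0) (nat_lit 271616835) (nat_lit 152) (nat_lit 9086316195) (nat_lit 152) (nat_lit 6078858165) (nat_lit 20) (nat_lit 4) (nat_lit 22) (nat_lit 5) (nat_lit 22) (nat_lit 4) (nat_lit 381) (nat_lit 262) (nat_lit 257)) (XT.lf (nat_lit 0) (nat_lit 1355183634) (nat_lit 228) (nat_lit 819956475) (nat_lit 76) (nat_lit 13561039979) (nat_lit 19) (nat_lit 5) (nat_lit 22) (nat_lit 5) (nat_lit 20) (nat_lit 4) (nat_lit 382) (nat_lit 262) (nat_lit 256))) (XT.nd (nat_lit 78) (nat_lit 304) (nat_lit 0) (XT.lf (nat_lit 0) (nat_lit 8902014602) (nat_lit 152) (nat_lit 2251443586) (nat_lit 0) (nat_lit 4890859428) (nat_lit 18) (nat_lit 5) (nat_lit 20)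 (nat_lit 4) (nat_lit 18) (nat_lit 4) (nat_lit 383) (nat_lit 262) (nat_lit 255)) (XT.nd (nat_lit 78) (nat_lit 76) (nat_lit 0) (XT.lf (nat_lit 0) (nat_lit 261392641) (nat_lit 228) (nat_lit 3991376247) (nat_lit 76) (nat_lit 12109867453) (nat_lit 15) (nat_lit 5) (nat_lit 18) (nat_lit 5) (nat_lit 16) (nat_lit 4) (nat_lit 384) (nat_lit 262) (nat_lit 254)) (XT.lf (nat_lit 0) (nat_lit 7746954810) (nat_lit 152) (nat_lit 6111061384) (nat_lit 0) (nat_lit 2832424756) (nat_lit 14) (nat_lit 5) (nat_lit 16) (nat_lit 4) (nat_lit 14) (nat_lit 4) (nat_lit 385) (nat_lit 262) (nat_lit 253))))) (XT.nd (nat_lit 156) (nat_lit 152) (nat_lit 0) (XT.nd (nat_lit 78) (nat_lit 152) (nat_lit 0) (XT.lf (nat_lit 0) (nat_lit 8432500652) (nat_lit 152) (nat_lit 6990239019) (nat_lit 152) (nat_lit 1606042801) (nat_lit 12) (nat_lit 4) (nat_lit 14) (nat_lit 5) (nat_lit 14) (nat_lit 4) (nat_lit 386) (nat_lit 262) (nat_lit 252)) (XT.lf (nat_lit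 0) (nat_lit 5810811916) (nat_lit 152) (nat_lit 11481815238) (nat_lit 0) (nat_lit 85142519) (nat_lit 10) (nat_lit 5) (nat_lit 12) (nat_lit 4) (nat_lit 10) (nat_lit 4) (nat_lit 387) (nat_lit 262) (nat_lit 251))) (XT.nd (nat_lit 45786) (nat_lit 0) (nat_lit 2052) (XT.lf (nat_lit 0) (nat_lit 2925767427) (nat_lit 152) (nat_lit 10485647243) (nat_lit 152) (nat_lit 4325952940) (nat_lit 8) (nat_lit 4) (nat_lit 10) (nat_lit 5) (nat_lit 10) (nat_lit 4) (nat_lit 388) (nat_lit 262) (nat_lit 250)) (XT.nd (nat_lit 78) (nat_lit 152) (nat_lit 0) (XT.lf (nat_lit 0) (nat_lit 198755521) (nat_lit 228) (nat_lit 6393055427) (nat_lit 0) (nat_lit 198755521) (nat_lit 37) (nat_lit 5) (nat_lit 40) (nat_lit 4) (nat_lit 37) (nat_lit 4) (nat_lit 374) (nat_lit 263) (nat_lit 263)) (XT.lf (nat_lit 0) (nat_lit 1270297634) (nat_lit 152) (nat_lit 6624949758) (nat_lit 152) (nat_lit 5928062732) (nat_lit 35) (nat_lit 4) (nat_lit 37) (nat_lit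 5) (nat_lit 37) (nat_lit 4) (nat_lit 375) (nat_lit 263) (nat_lit 262)))))) (XT.nd (nat_lit 390) (nat_lit 608) (nat_lit 0) (XT.nd (nat_lit 156) (nat_lit 608) (nat_lit 0) (XT.nd (nat_lit 78) (nat_lit 152) (nat_lit 0) (XT.lf (nat_lit 0) (nat_lit 1461848123) (nat_lit 228) (nat_lit 12496684642) (nat_lit 0) (nat_lit 115302661) (nat_lit 32) (nat_lit 5) (nat_lit 35) (nat_lit 4) (nat_lit 32) (nat_lit 4) (nat_lit 376) (nat_lit 263) (nat_lit 261)) (XT.lf (nat_lit 0) (nat_lit 1627358714) (nat_lit 152) (nat_lit 7347334309) (nat_lit 152) (nat_lit 5356786044) (nat_lit 30) (nat_lit 4) (nat_lit 32) (nat_lit 5) (nat_lit 32) (nat_lit 4) (nat_lit 377) (nat_lit 263) (nat_lit 260))) (XT.nd (nat_lit 78) (nat_lit 380) (nat_lit 0) (XT.lf (nat_lit 0) (nat_lit 1476205854) (nat_lit 152) (nat_lit 549536502) (nat_lit 228) (nat_lit 12572107147) (nat_lit 27) (nat_lit 5) (nat_lit 29) (nat_lit 5) (nat_lit 30) (nat_lit 4) (nat_lit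 378) (nat_lit 263) (nat_lit 259)) (XT.nd (nat_lit 78) (nat_lit 228) (nat_lit 0) (XT.lf (nat_lit 0) (nat_lit 1043079048) (nat_lit 152) (nat_lit 8494236226) (nat_lit 152) (nat_lit 5334600819) (nat_lit 25) (nat_lit 4) (nat_lit 27) (nat_lit 5) (nat_lit 27) (nat_lit 4) (nat_lit 379) (nat_lit 263) (nat_lit 258)) (XT.lf (nat_lit 0) (nat_lit 371551711) (nat_lit 152) (nat_lit 1662599256) (nat_lit 228) (nat_lit 13120959089) (nat_lit 22) (nat_lit 5) (nat_lit 24) (nat_lit 5) (nat_lit 25) (nat_lit 4) (nat_lit 380) (nat_lit 263) (nat_lit 257))))) (XT.nd (nat_lit 156) (nat_lit 380) (nat_lit 0) (XT.nd (nat_lit 78) (nat_lit 228) (nat_lit 0) (XT.lf (nat_lit 0) (nat_lit 9529394994) (nat_lit 228) (nat_lit 601884728) (nat_lit 0) (nat_lit 5315275368) (nat_lit 22) (nat_lit 5) (nat_lit 25) (nat_lit 4) (nat_lit 22) (nat_lit 4) (nat_lit 381) (nat_lit 263) (nat_lit 256)) (XT.lf (nat_lit 0) (nat_lit 1436855163) (nat_lit 228)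 (nat_lit 1845623056) (nat_lit 76) (nat_lit 12465011608) (nat_lit 19) (nat_lit 5) (nat_lit 22) (nat_lit 5) (nat_lit 20) (nat_lit 4) (nat_lit 382) (nat_lit 263) (nat_lit 255))) (XT.nd (nat_lit 78) (nat_lit 304) (nat_lit 0) (XT.lf (nat_lit 0) (nat_lit 8896705850) (nat_lit 152) (nat_lit 3427169007) (nat_lit 0) (nat_lit 3733500575) (nat_lit 18) (nat_lit 5) (nat_lit 20) (nat_lit 4) (nat_lit 18) (nat_lit 4) (nat_lit 383) (nat_lit 263) (nat_lit 254)) (XT.nd (nat_lit 78) (nat_lit 76) (nat_lit 0) (XT.lf (nat_lit 0) (nat_lit 163281062) (nat_lit 228) (nat_lit 5326808799) (nat_lit 76) (nat_lit 10887214461) (nat_lit 15) (nat_lit 5) (nat_lit 18) (nat_lit 5) (nat_lit 16) (nat_lit 4) (nat_lit 384) (nat_lit 263) (nat_lit 253)) (XT.lf (nat_lit 0) (nat_lit 7560655624) (nat_lit 152) (nat_lit 7600957532) (nat_lit 0) (nat_lit 1545267356) (nat_lit 14) (nat_lit 5) (nat_lit 16) (nat_lit 4) (nat_lit 14) (nat_lit 4) (nat_lit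 385) (nat_lit 263) (nat_lit 252))))))) (XT.nd (nat_lit 46332) (nat_lit 0) (nat_lit 152) (XT.nd (nat_lit 45942) (nat_lit 0) (nat_lit 1444) (XT.nd (nat_lit 156) (nat_lit 152) (nat_lit 0) (XT.nd (nat_lit 78) (nat_lit 152) (nat_lit 0) (XT.lf (nat_lit 0) (nat_lit 6794948691) (nat_lit 152) (nat_lit 8361626541) (nat_lit 152) (nat_lit 1890251706) (nat_lit 12) (nat_lit 4) (nat_lit 14) (nat_lit 5) (nat_lit 14) (nat_lit 4) (nat_lit 386) (nat_lit 263) (nat_lit 251)) (XT.lf (nat_lit 0) (nat_lit 4094086089) (nat_lit 76) (nat_lit 1355501202) (nat_lit 152) (nat_lit 11947885851) (nat_lit 10) (nat_lit 5) (nat_lit 11) (nat_lit 5) (nat_lit 12) (nat_lit 4) (nat_lit 387) (nat_lit 263) (nat_lit 250))) (XT.nd (nat_lit 45630) (nat_lit 0) (nat_lit 2432) (XT.lf (nat_lit 0) (nat_lit 963246321) (nat_lit 152) (nat_lit 11997754504) (nat_lit 152) (nat_lit 4797861061) (nat_lit 8) (nat_lit 4) (nat_lit 10) (nat_lit 5) (nat_lit 10)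 (nat_lit 4) (nat_lit 388) (nat_lit 263) (nat_lit 249)) (XT.nd (nat_lit 78) (nat_lit 456) (nat_lit 0) (XT.lf (nat_lit 0) (nat_lit 6250253916) (nat_lit 228) (nat_lit 153938869) (nat_lit 228) (nat_lit 153938869) (nat_lit 46) (nat_lit 4) (nat_lit 49) (nat_lit 5) (nat_lit 49) (nat_lit 4) (nat_lit 372) (nat_lit 264) (nat_lit 264)) (XT.lf (nat_lit 0) (nat_lit 86780910) (nat_lit 228) (nat_lit 6995465017) (nat_lit 228) (nat_lit 6263315507) (nat_lit 40) (nat_lit 4) (nat_lit 43) (nat_lit 5) (nat_lit 43) (nat_lit 4) (nat_lit 373) (nat_lit 264) (nat_lit 263))))) (XT.nd (nat_lit 156) (nat_lit 608) (nat_lit 0) (XT.nd (nat_lit 78) (nat_lit 152) (nat_lit 0) (XT.lf (nat_lit 0) (nat_lit 652687281) (nat_lit 152) (nat_lit 384768935) (nat_lit 228) (nat_lit 12545245306) (nat_lit 37) (nat_lit 5) (nat_lit 39) (nat_lit 5) (nat_lit 40) (nat_lit 4) (nat_lit 374) (nat_lit 264) (nat_lit 262)) (XT.lf (nat_lit 0) (nat_lit 987902141)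 (nat_lit 152) (nat_lit 7464952307) (nat_lit 152) (nat_lit 5373682299) (nat_lit 35) (nat_lit 4) (nat_lit 37) (nat_lit 5) (nat_lit 37) (nat_lit 4) (nat_lit 375) (nat_lit 264) (nat_lit 261))) (XT.nd (nat_lit 78) (nat_lit 380) (nat_lit 0) (XT.lf (nat_lit 0) (nat_lit 1146955725) (nat_lit 152) (nat_lit 781315855) (nat_lit 228) (nat_lit 12150342937) (nat_lit 32) (nat_lit 5) (nat_lit 34) (nat_lit 5) (nat_lit 35) (nat_lit 4) (nat_lit 376) (nat_lit 264) (nat_lit 260)) (XT.nd (nat_lit 78) (nat_lit 228) (nat_lit 0) (XT.lf (nat_lit 0) (nat_lit 1054914596) (nat_lit 152) (nat_lit 8301282663) (nat_lit 152) (nat_lit 4981769705) (nat_lit 30) (nat_lit 4) (nat_lit 32) (nat_lit 5) (nat_lit 32) (nat_lit 4) (nat_lit 377) (nat_lit 264) (nat_lit 259)) (XT.lf (nat_lit 0) (nat_lit 751479418) (nat_lit 152) (nat_lit 1564375425) (nat_lit 228) (nat_lit 12290043487) (nat_lit 27) (nat_lit 5) (nat_lit 29) (nat_lit 5) (nat_lit 30)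 (nat_lit 4) (nat_lit 378) (nat_lit 264) (nat_lit 258)))))) (XT.nd (nat_lit 390) (nat_lit 608) (nat_lit 0) (XT.nd (nat_lit 156) (nat_lit 456) (nat_lit 0) (XT.nd (nat_lit 78) (nat_lit 76) (nat_lit 0) (XT.lf (nat_lit 0) (nat_lit 172680759) (nat_lit 152) (nat_lit 9568189510) (nat_lit 152) (nat_lit 5140835431) (nat_lit 25) (nat_lit 4) (nat_lit 27) (nat_lit 5) (nat_lit 27) (nat_lit 4) (nat_lit 379) (nat_lit 264) (nat_lit 257)) (XT.lf (nat_lit 0) (nat_lit 2149469135) (nat_lit 228) (nat_lit 646395198) (nat_lit 76) (nat_lit 12370537454) (nat_lit 24) (nat_lit 5) (nat_lit 27) (nat_lit 5) (nat_lit 25) (nat_lit 4) (nat_lit 380) (nat_lit 264) (nat_lit 256))) (XT.nd (nat_lit 78) (nat_lit 304) (nat_lit 0) (XT.lf (nat_lit 0) (nat_lit 9560508716) (nat_lit 228) (nat_lit 1762985840) (nat_lit 0) (nat_lit 4136045254) (nat_lit 22) (nat_lit 5) (nat_lit 25) (nat_lit 4) (nat_lit 22) (nat_lit 4) (nat_lit 381) (nat_lit 264)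 (nat_lit 255)) (XT.nd (nat_lit 78) (nat_lit 76) (nat_lit 0) (XT.lf (nat_lit 0) (nat_lit 1375290145) (nat_lit 228) (nat_lit 3164776261) (nat_lit 76) (nat_lit 11222003382) (nat_lit 19) (nat_lit 5) (nat_lit 22) (nat_lit 5) (nat_lit 20) (nat_lit 4) (nat_lit 382) (nat_lit 264) (nat_lit 254)) (XT.lf (nat_lit 0) (nat_lit 8747367571) (nat_lit 152) (nat_lit 4898750856) (nat_lit 0) (nat_lit 2427600656) (nat_lit 18) (nat_lit 5) (nat_lit 20) (nat_lit 4) (nat_lit 18) (nat_lit 4) (nat_lit 383) (nat_lit 264) (nat_lit 253))))) (XT.nd (nat_lit 156) (nat_lit 304) (nat_lit 0) (XT.nd (nat_lit 78) (nat_lit 152) (nat_lit 0) (XT.lf (nat_lit 0) (nat_lit 9434168598) (nat_lit 152) (nat_lit 6879960715) (nat_lit 152) (nat_lit 81134313) (nat_lit 16) (nat_lit 4) (nat_lit 18) (nat_lit 5) (nat_lit 18) (nat_lit 4) (nat_lit 384) (nat_lit 264) (nat_lit 252)) (XT.lf (nat_lit 0) (nat_lit 7228224109) (nat_lit 152) (nat_lit 9391693984)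 (nat_lit 0) (nat_lit 106721462) (nat_lit 14) (nat_lit 5) (nat_lit 16) (nat_lit 4) (nat_lit 14) (nat_lit 4) (nat_lit 385) (nat_lit 264) (nat_lit 251))) (XT.nd (nat_lit 78) (nat_lit 152) (nat_lit 0) (XT.lf (nat_lit 0) (nat_lit 4856282373) (nat_lit 152) (nat_lit 9888057557) (nat_lit 152) (nat_lit 2323849506) (nat_lit 12) (nat_lit 4) (nat_lit 14) (nat_lit 5) (nat_lit 14) (nat_lit 4) (nat_lit 386) (nat_lit 264) (nat_lit 250)) (XT.nd (nat_lit 78) (nat_lit 0) (nat_lit 0) (XT.lf (nat_lit 0) (nat_lit 1987841693) (nat_lit 76) (nat_lit 2953673562) (nat_lit 152) (nat_lit 12478986930) (nat_lit 10) (nat_lit 5) (nat_lit 11) (nat_lit 5) (nat_lit 12) (nat_lit 4) (nat_lit 387) (nat_lit 264) (nat_lit 249)) (XT.lf (nat_lit 0) (nat_lit 12370622227) (nat_lit 152) (nat_lit 1288683178) (nat_lit 0) (nat_lit 4124238474) (nat_lit 10) (nat_lit 5) (nat_lit 12) (nat_lit 4) (nat_lit 10) (nat_lit 4) (nat_lit 388) (nat_lit 264) (nat_lit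 248))))))))
noncomputable def xc2 : XT := (XT.nd (nat_lit 46800) (nat_lit 0) (nat_lit 0) (XT.nd (nat_lit 780) (nat_lit 1292) (nat_lit 0) (XT.nd (nat_lit 390) (nat_lit 760) (nat_lit 0) (XT.nd (nat_lit 156) (nat_lit 912) (nat_lit 0) (XT.nd (nat_lit 78) (nat_lit 228) (nat_lit 0) (XT.lf (nat_lit 0) (nat_lit 5126661436) (nat_lit 228) (nat_lit 605634225) (nat_lit 228) (nat_lit 605634225) (nat_lit 52) (nat_lit 4) (nat_lit 55) (nat_lit 5) (nat_lit 55) (nat_lit 4) (nat_lit 370) (nat_lit 265) (nat_lit 265)) (XT.lf (nat_lit 0) (nat_lit 6069030330) (nat_lit 228) (nat_lit 1524274623) (nat_lit 0) (nat_lit 5299834056) (nat_lit 49) (nat_lit 5) (nat_lit 52) (nat_lit 4) (nat_lit 49) (nat_lit 4) (nat_lit 371) (nat_lit 265) (nat_lit 264))) (XT.nd (nat_lit 78) (nat_lit 608) (nat_lit 0) (XT.lf (nat_lit 0) (nat_lit 376596775) (nat_lit 304) (nat_lit 755263288) (nat_lit 76) (nat_lit 11985928977) (nat_lit 45) (nat_lit 5) (nat_lit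 49) (nat_lit 5) (nat_lit 46) (nat_lit 4) (nat_lit 372) (nat_lit 265) (nat_lit 263)) (XT.nd (nat_lit 78) (nat_lit 456) (nat_lit 0) (XT.lf (nat_lit 0) (nat_lit 7678222986) (nat_lit 228) (nat_lit 189390522) (nat_lit 0) (nat_lit 5481134715) (nat_lit 43) (nat_lit 5) (nat_lit 46) (nat_lit 4) (nat_lit 43) (nat_lit 4) (nat_lit 373) (nat_lit 265) (nat_lit 262)) (XT.lf (nat_lit 0) (nat_lit 227046897) (nat_lit 152) (nat_lit 1314664142) (nat_lit 228) (nat_lit 12045726790) (nat_lit 37) (nat_lit 5) (nat_lit 39) (nat_lit 5) (nat_lit 40) (nat_lit 4) (nat_lit 374) (nat_lit 265) (nat_lit 261))))) (XT.nd (nat_lit 156) (nat_lit 380) (nat_lit 0) (XT.nd (nat_lit 78) (nat_lit 228) (nat_lit 0) (XT.lf (nat_lit 0) (nat_lit 422864401) (nat_lit 152) (nat_lit 8448804363) (nat_lit 152) (nat_lit 4961324049) (nat_lit 35) (nat_lit 4) (nat_lit 37) (nat_lit 5) (nat_lit 37) (nat_lit 4) (nat_lit 375) (nat_lit 265) (nat_lit 260)) (XT.lf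 (nat_lit 0) (nat_lit 431267120) (nat_lit 152) (nat_lit 1824424851) (nat_lit 228) (nat_lit 11830926080) (nat_lit 32) (nat_lit 5) (nat_lit 34) (nat_lit 5) (nat_lit 35) (nat_lit 4) (nat_lit 376) (nat_lit 265) (nat_lit 259))) (XT.nd (nat_lit 78) (nat_lit 228) (nat_lit 0) (XT.lf (nat_lit 0) (nat_lit 195623231) (nat_lit 152) (nat_lit 9401730429) (nat_lit 152) (nat_lit 4750352234) (nat_lit 30) (nat_lit 4) (nat_lit 32) (nat_lit 5) (nat_lit 32) (nat_lit 4) (nat_lit 377) (nat_lit 265) (nat_lit 258)) (XT.nd (nat_lit 78) (nat_lit 152) (nat_lit 0) (XT.lf (nat_lit 0) (nat_lit 2466270712) (nat_lit 228) (nat_lit 258865149) (nat_lit 76) (nat_lit 11892040310) (nat_lit 29) (nat_lit 5) (nat_lit 32) (nat_lit 5) (nat_lit 30) (nat_lit 4) (nat_lit 378) (nat_lit 265) (nat_lit 257)) (XT.lf (nat_lit 0) (nat_lit 9808761515) (nat_lit 228) (nat_lit 976061666) (nat_lit 0) (nat_lit 4109820202) (nat_lit 27) (nat_lit 5) (nat_lit 30)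 (nat_lit 4) (nat_lit 27) (nat_lit 4) (nat_lit 379) (nat_lit 265) (nat_lit 256)))))) (XT.nd (nat_lit 390) (nat_lit 456) (nat_lit 0) (XT.nd (nat_lit 156) (nat_lit 456) (nat_lit 0) (XT.nd (nat_lit 78) (nat_lit 152) (nat_lit 0) (XT.lf (nat_lit 0) (nat_lit 2125884985) (nat_lit 228) (nat_lit 1949283519) (nat_lit 76) (nat_lit 11105729069) (nat_lit 24) (nat_lit 5) (nat_lit 27) (nat_lit 5) (nat_lit 25) (nat_lit 4) (nat_lit 380) (nat_lit 265) (nat_lit 255)) (XT.lf (nat_lit 0) (nat_lit 9449537867) (nat_lit 228) (nat_lit 3216263357) (nat_lit 0) (nat_lit 2809990746) (nat_lit 22) (nat_lit 5) (nat_lit 25) (nat_lit 4) (nat_lit 22) (nat_lit 4) (nat_lit 381) (nat_lit 265) (nat_lit 254))) (XT.nd (nat_lit 78) (nat_lit 228) (nat_lit 0) (XT.lf (nat_lit 0) (nat_lit 1170434788) (nat_lit 228) (nat_lit 4778568745) (nat_lit 76) (nat_lit 9830929178) (nat_lit 19) (nat_lit 5) (nat_lit 22) (nat_lit 5) (nat_lit 20) (nat_lit 4) (nat_lit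 382) (nat_lit 265) (nat_lit 253)) (XT.nd (nat_lit 78) (nat_lit 152) (nat_lit 0) (XT.lf (nat_lit 0) (nat_lit 8453869274) (nat_lit 152) (nat_lit 6667474981) (nat_lit 0) (nat_lit 972018593) (nat_lit 18) (nat_lit 5) (nat_lit 20) (nat_lit 4) (nat_lit 18) (nat_lit 4) (nat_lit 383) (nat_lit 265) (nat_lit 252)) (XT.lf (nat_lit 0) (nat_lit 7519333011) (nat_lit 152) (nat_lit 8422061916) (nat_lit 152) (nat_lit 475104937) (nat_lit 16) (nat_lit 4) (nat_lit 18) (nat_lit 5) (nat_lit 18) (nat_lit 4) (nat_lit 384) (nat_lit 265) (nat_lit 251))))) (XT.nd (nat_lit 156) (nat_lit 152) (nat_lit 0) (XT.nd (nat_lit 78) (nat_lit 152) (nat_lit 0) (XT.lf (nat_lit 0) (nat_lit 5254938307) (nat_lit 76) (nat_lit 1504197731) (nat_lit 152) (nat_lit 9990403981) (nat_lit 14) (nat_lit 5) (nat_lit 15) (nat_lit 5) (nat_lit 16) (nat_lit 4) (nat_lit 385) (nat_lit 265) (nat_lit 250)) (XT.lf (nat_lit 0) (nat_lit 2614807718) (nat_lit 152) (nat_lit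 11570865841) (nat_lit 152) (nat_lit 2907215071) (nat_lit 12) (nat_lit 4) (nat_lit 14) (nat_lit 5) (nat_lit 14) (nat_lit 4) (nat_lit 386) (nat_lit 265) (nat_lit 249))) (XT.nd (nat_lit 78) (nat_lit 76) (nat_lit 0) (XT.lf (nat_lit 0) (nat_lit 4288344914) (nat_lit 228) (nat_lit 418486345) (nat_lit 76) (nat_lit 12740001804) (nat_lit 11) (nat_lit 5) (nat_lit 14) (nat_lit 5) (nat_lit 12) (nat_lit 4) (nat_lit 387) (nat_lit 265) (nat_lit 248)) (XT.nd (nat_lit 45318) (nat_lit 0) (nat_lit 3724) (XT.lf (nat_lit 0) (nat_lit 11639534552) (nat_lit 152) (nat_lit 3832450260) (nat_lit 0) (nat_lit 2339454913) (nat_lit 10) (nat_lit 5) (nat_lit 12) (nat_lit 4) (nat_lit 10) (nat_lit 4) (nat_lit 388) (nat_lit 265) (nat_lit 247)) (XT.lf (nat_lit 0) (nat_lit 3852749721) (nat_lit 228) (nat_lit 1138296826) (nat_lit 228) (nat_lit 1138296826) (nat_lit 59) (nat_lit 4) (nat_lit 62) (nat_lit 5) (nat_lit 62) (nat_lit 4) (nat_lit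 368) (nat_lit 266) (nat_lit 266))))))) (XT.nd (nat_lit 780) (nat_lit 1444) (nat_lit 0) (XT.nd (nat_lit 390) (nat_lit 1064) (nat_lit 0) (XT.nd (nat_lit 156) (nat_lit 684) (nat_lit 0) (XT.nd (nat_lit 78) (nat_lit 228) (nat_lit 0) (XT.lf (nat_lit 0) (nat_lit 4889138682) (nat_lit 304) (nat_lit 3494505531) (nat_lit 0) (nat_lit 4081021076) (nat_lit 55) (nat_lit 5) (nat_lit 59) (nat_lit 4) (nat_lit 55) (nat_lit 4) (nat_lit 369) (nat_lit 266) (nat_lit 265)) (XT.lf (nat_lit 0) (nat_lit 10119702793) (nat_lit 228) (nat_lit 2075211873) (nat_lit 228) (nat_lit 482514067) (nat_lit 52) (nat_lit 4) (nat_lit 55) (nat_lit 5) (nat_lit 55) (nat_lit 4) (nat_lit 370) (nat_lit 266) (nat_lit 264))) (XT.nd (nat_lit 78) (nat_lit 456) (nat_lit 0) (XT.lf (nat_lit 0) (nat_lit 6704460139) (nat_lit 228) (nat_lit 1795641782) (nat_lit 0) (nat_lit 4396199202) (nat_lit 49) (nat_lit 5) (nat_lit 52) (nat_lit 4) (nat_lit 49) (nat_lit 4)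 (nat_lit 371) (nat_lit 266) (nat_lit 263)) (XT.nd (nat_lit 78) (nat_lit 152) (nat_lit 0) (XT.lf (nat_lit 0) (nat_lit 922394950) (nat_lit 304) (nat_lit 1170064399) (nat_lit 76) (nat_lit 11029985093) (nat_lit 45) (nat_lit 5) (nat_lit 49) (nat_lit 5) (nat_lit 46) (nat_lit 4) (nat_lit 372) (nat_lit 266) (nat_lit 262)) (XT.lf (nat_lit 0) (nat_lit 8139675720) (nat_lit 228) (nat_lit 739697413) (nat_lit 0) (nat_lit 4475728903) (nat_lit 43) (nat_lit 5) (nat_lit 46) (nat_lit 4) (nat_lit 43) (nat_lit 4) (nat_lit 373) (nat_lit 266) (nat_lit 261))))) (XT.nd (nat_lit 156) (nat_lit 608) (nat_lit 0) (XT.nd (nat_lit 78) (nat_lit 152) (nat_lit 0) (XT.lf (nat_lit 0) (nat_lit 1911214823) (nat_lit 304) (nat_lit 473313391) (nat_lit 76) (nat_lit 11210807810) (nat_lit 39) (nat_lit 5) (nat_lit 43) (nat_lit 5) (nat_lit 40) (nat_lit 4) (nat_lit 374) (nat_lit 266) (nat_lit 260)) (XT.lf (nat_lit 0) (nat_lit 9154817683) (nat_lit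 228) (nat_lit 419731300) (nat_lit 0) (nat_lit 4268079751) (nat_lit 37) (nat_lit 5) (nat_lit 40) (nat_lit 4) (nat_lit 37) (nat_lit 4) (nat_lit 375) (nat_lit 266) (nat_lit 259))) (XT.nd (nat_lit 78) (nat_lit 380) (nat_lit 0) (XT.lf (nat_lit 0) (nat_lit 2447336124) (nat_lit 228) (nat_lit 562294056) (nat_lit 76) (nat_lit 11088164026) (nat_lit 34) (nat_lit 5) (nat_lit 37) (nat_lit 5) (nat_lit 35) (nat_lit 4) (nat_lit 376) (nat_lit 266) (nat_lit 258)) (XT.nd (nat_lit 78) (nat_lit 228) (nat_lit 0) (XT.lf (nat_lit 0) (nat_lit 9704549200) (nat_lit 228) (nat_lit 938790189) (nat_lit 0) (nat_lit 3717241456) (nat_lit 32) (nat_lit 5) (nat_lit 35) (nat_lit 4) (nat_lit 32) (nat_lit 4) (nat_lit 377) (nat_lit 266) (nat_lit 257)) (XT.lf (nat_lit 0) (nat_lit 2482178459) (nat_lit 228) (nat_lit 1545495405) (nat_lit 76) (nat_lit 10603917875) (nat_lit 29) (nat_lit 5) (nat_lit 32) (nat_lit 5) (nat_lit 30) (nat_lit 4) (nat_lit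 378) (nat_lit 266) (nat_lit 256)))))) (XT.nd (nat_lit 390) (nat_lit 608) (nat_lit 0) (XT.nd (nat_lit 156) (nat_lit 456) (nat_lit 0) (XT.nd (nat_lit 78) (nat_lit 228) (nat_lit 0) (XT.lf (nat_lit 0) (nat_lit 9737640425) (nat_lit 228) (nat_lit 2411035959) (nat_lit 0) (nat_lit 2762132220) (nat_lit 27) (nat_lit 5) (nat_lit 30) (nat_lit 4) (nat_lit 27) (nat_lit 4) (nat_lit 379) (nat_lit 266) (nat_lit 255)) (XT.lf (nat_lit 0) (nat_lit 1960965549) (nat_lit 228) (nat_lit 3543124666) (nat_lit 76) (nat_lit 9694568112) (nat_lit 24) (nat_lit 5) (nat_lit 27) (nat_lit 5) (nat_lit 25) (nat_lit 4) (nat_lit 380) (nat_lit 266) (nat_lit 254))) (XT.nd (nat_lit 78) (nat_lit 304) (nat_lit 0) (XT.lf (nat_lit 0) (nat_lit 9196385482) (nat_lit 228) (nat_lit 4962987133) (nat_lit 0) (nat_lit 1335953157) (nat_lit 22) (nat_lit 5) (nat_lit 25) (nat_lit 4) (nat_lit 22) (nat_lit 4) (nat_lit 381) (nat_lit 266) (nat_lit 253)) (XT.nd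 (nat_lit 78) (nat_lit 76) (nat_lit 0) (XT.lf (nat_lit 0) (nat_lit 822110089) (nat_lit 228) (nat_lit 6688410620) (nat_lit 76) (nat_lit 8290573493) (nat_lit 19) (nat_lit 5) (nat_lit 22) (nat_lit 5) (nat_lit 20) (nat_lit 4) (nat_lit 382) (nat_lit 266) (nat_lit 252)) (XT.lf (nat_lit 0) (nat_lit 7377179078) (nat_lit 76) (nat_lit 642949884) (nat_lit 152) (nat_lit 8096111443) (nat_lit 18) (nat_lit 5) (nat_lit 19) (nat_lit 5) (nat_lit 20) (nat_lit 4) (nat_lit 383) (nat_lit 266) (nat_lit 251))))) (XT.nd (nat_lit 156) (nat_lit 304) (nat_lit 0) (XT.nd (nat_lit 78) (nat_lit 152) (nat_lit 0) (XT.lf (nat_lit 0) (nat_lit 5305411307) (nat_lit 152) (nat_lit 10118836636) (nat_lit 152) (nat_lit 1016805137) (nat_lit 16) (nat_lit 4) (nat_lit 18) (nat_lit 5) (nat_lit 18) (nat_lit 4) (nat_lit 384) (nat_lit 266) (nat_lit 250)) (XT.lf (nat_lit 0) (nat_lit 2872304167) (nat_lit 76) (nat_lit 3272618089) (nat_lit 152) (nat_lit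 10630840844) (nat_lit 14) (nat_lit 5) (nat_lit 15) (nat_lit 5) (nat_lit 16) (nat_lit 4) (nat_lit 385) (nat_lit 266) (nat_lit 249))) (XT.nd (nat_lit 78) (nat_lit 152) (nat_lit 0) (XT.lf (nat_lit 0) (nat_lit 68566156) (nat_lit 152) (nat_lit 13411521808) (nat_lit 152) (nat_lit 3640858139) (nat_lit 12) (nat_lit 4) (nat_lit 14) (nat_lit 5) (nat_lit 14) (nat_lit 4) (nat_lit 386) (nat_lit 266) (nat_lit 248)) (XT.nd (nat_lit 78) (nat_lit 76) (nat_lit 0) (XT.lf (nat_lit 0) (nat_lit 3501654451) (nat_lit 228) (nat_lit 3102459836) (nat_lit 76) (nat_lit 10872131521) (nat_lit 11) (nat_lit 5) (nat_lit 14) (nat_lit 5) (nat_lit 12) (nat_lit 4) (nat_lit 387) (nat_lit 266) (nat_lit 247)) (XT.lf (nat_lit 0) (nat_lit 10760844954) (nat_lit 152) (nat_lit 6682910780) (nat_lit 0) (nat_lit 398943145) (nat_lit 10) (nat_lit 5) (nat_lit 12) (nat_lit 4) (nat_lit 10) (nat_lit 4) (nat_lit 388) (nat_lit 266) (nat_lit 246))))))))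
noncomputable def xc3 : XT := (XT.nd (nat_lit 1560) (nat_lit 304) (nat_lit 0) (XT.nd (nat_lit 780) (nat_lit 1748) (nat_lit 0) (XT.nd (nat_lit 390) (nat_lit 1064) (nat_lit 0) (XT.nd (nat_lit 156) (nat_lit 836) (nat_lit 0) (XT.nd (nat_lit 78) (nat_lit 304) (nat_lit 0) (XT.lf (nat_lit 0) (nat_lit 2462375881) (nat_lit 228) (nat_lit 1734665883) (nat_lit 228) (nat_lit 1734665883) (nat_lit 66) (nat_lit 4) (nat_lit 69) (nat_lit 5) (nat_lit 69) (nat_lit 4) (nat_lit 366) (nat_lit 267) (nat_lit 267)) (XT.lf (nat_lit 0) (nat_lit 3577788510) (nat_lit 304) (nat_lit 5752193540) (nat_lit 0) (nat_lit 2728780153) (nat_lit 62) (nat_lit 5) (nat_lit 66) (nat_lit 4) (nat_lit 62) (nat_lit 4) (nat_lit 367) (nat_lit 267) (nat_lit 266))) (XT.nd (nat_lit 78) (nat_lit 608) (nat_lit 0) (XT.lf (nat_lit 0) (nat_lit 7573720190) (nat_lit 228) (nat_lit 3179909027) (nat_lit 228) (nat_lit 1506620712) (nat_lit 59) (nat_lit 4) (nat_lit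 62) (nat_lit 5) (nat_lit 62) (nat_lit 4) (nat_lit 368) (nat_lit 267) (nat_lit 265)) (XT.nd (nat_lit 78) (nat_lit 304) (nat_lit 0) (XT.lf (nat_lit 0) (nat_lit 5565338591) (nat_lit 304) (nat_lit 3762196817) (nat_lit 0) (nat_lit 3140279651) (nat_lit 55) (nat_lit 5) (nat_lit 59) (nat_lit 4) (nat_lit 55) (nat_lit 4) (nat_lit 369) (nat_lit 267) (nat_lit 264)) (XT.lf (nat_lit 0) (nat_lit 110223239) (nat_lit 304) (nat_lit 2964136345) (nat_lit 76) (nat_lit 9607762902) (nat_lit 51) (nat_lit 5) (nat_lit 55) (nat_lit 5) (nat_lit 52) (nat_lit 4) (nat_lit 370) (nat_lit 267) (nat_lit 263))))) (XT.nd (nat_lit 156) (nat_lit 608) (nat_lit 0) (XT.nd (nat_lit 78) (nat_lit 304) (nat_lit 0) (XT.lf (nat_lit 0) (nat_lit 7206678712) (nat_lit 228) (nat_lit 2338613216) (nat_lit 0) (nat_lit 3357336185) (nat_lit 49) (nat_lit 5) (nat_lit 52) (nat_lit 4) (nat_lit 49) (nat_lit 4) (nat_lit 371) (nat_lit 267) (nat_lit 262)) (XT.lf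 (nat_lit 0) (nat_lit 1334031568) (nat_lit 304) (nat_lit 1858522313) (nat_lit 76) (nat_lit 9937719686) (nat_lit 45) (nat_lit 5) (nat_lit 49) (nat_lit 5) (nat_lit 46) (nat_lit 4) (nat_lit 372) (nat_lit 267) (nat_lit 261))) (XT.nd (nat_lit 78) (nat_lit 456) (nat_lit 0) (XT.lf (nat_lit 0) (nat_lit 8466443903) (nat_lit 228) (nat_lit 1565758762) (nat_lit 0) (nat_lit 3332437032) (nat_lit 43) (nat_lit 5) (nat_lit 46) (nat_lit 4) (nat_lit 43) (nat_lit 4) (nat_lit 373) (nat_lit 267) (nat_lit 260)) (XT.nd (nat_lit 78) (nat_lit 152) (nat_lit 0) (XT.lf (nat_lit 0) (nat_lit 2146476460) (nat_lit 304) (nat_lit 1448629777) (nat_lit 76) (nat_lit 10011293049) (nat_lit 39) (nat_lit 5) (nat_lit 43) (nat_lit 5) (nat_lit 40) (nat_lit 4) (nat_lit 374) (nat_lit 267) (nat_lit 259)) (XT.lf (nat_lit 0) (nat_lit 9304373449) (nat_lit 228) (nat_lit 1536935051) (nat_lit 0) (nat_lit 3014107934) (nat_lit 37) (nat_lit 5) (nat_lit 40)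 (nat_lit 4) (nat_lit 37) (nat_lit 4) (nat_lit 375) (nat_lit 267) (nat_lit 258)))))) (XT.nd (nat_lit 390) (nat_lit 760) (nat_lit 0) (XT.nd (nat_lit 156) (nat_lit 608) (nat_lit 0) (XT.nd (nat_lit 78) (nat_lit 152) (nat_lit 0) (XT.lf (nat_lit 0) (nat_lit 2504327361) (nat_lit 228) (nat_lit 1832665115) (nat_lit 76) (nat_lit 9775141154) (nat_lit 34) (nat_lit 5) (nat_lit 37) (nat_lit 5) (nat_lit 35) (nat_lit 4) (nat_lit 376) (nat_lit 267) (nat_lit 257)) (XT.lf (nat_lit 0) (nat_lit 9674839793) (nat_lit 228) (nat_lit 2355453152) (nat_lit 0) (nat_lit 2346370873) (nat_lit 32) (nat_lit 5) (nat_lit 35) (nat_lit 4) (nat_lit 32) (nat_lit 4) (nat_lit 377) (nat_lit 267) (nat_lit 256))) (XT.nd (nat_lit 78) (nat_lit 380) (nat_lit 0) (XT.lf (nat_lit 0) (nat_lit 2358712879) (nat_lit 228) (nat_lit 3119391378) (nat_lit 76) (nat_lit 9171150954) (nat_lit 29) (nat_lit 5) (nat_lit 32) (nat_lit 5) (nat_lit 30) (nat_lit 4) (nat_lit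 378) (nat_lit 267) (nat_lit 255)) (XT.nd (nat_lit 78) (nat_lit 228) (nat_lit 0) (XT.lf (nat_lit 0) (nat_lit 9526323697) (nat_lit 228) (nat_lit 4135760719) (nat_lit 0) (nat_lit 1268153496) (nat_lit 27) (nat_lit 5) (nat_lit 30) (nat_lit 4) (nat_lit 27) (nat_lit 4) (nat_lit 379) (nat_lit 267) (nat_lit 254)) (XT.lf (nat_lit 0) (nat_lit 1654566723) (nat_lit 228) (nat_lit 5429311314) (nat_lit 76) (nat_lit 8135821531) (nat_lit 24) (nat_lit 5) (nat_lit 27) (nat_lit 5) (nat_lit 25) (nat_lit 4) (nat_lit 380) (nat_lit 267) (nat_lit 253))))) (XT.nd (nat_lit 156) (nat_lit 380) (nat_lit 0) (XT.nd (nat_lit 78) (nat_lit 228) (nat_lit 0) (XT.lf (nat_lit 0) (nat_lit 8511546543) (nat_lit 152) (nat_lit 291174312) (nat_lit 228) (nat_lit 6715399617) (nat_lit 22) (nat_lit 5) (nat_lit 24) (nat_lit 5) (nat_lit 25) (nat_lit 4) (nat_lit 381) (nat_lit 267) (nat_lit 252)) (XT.lf (nat_lit 0) (nat_lit 330011689) (nat_lit 228) (nat_lit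 8895970679) (nat_lit 76) (nat_lit 6599590386) (nat_lit 19) (nat_lit 5) (nat_lit 22) (nat_lit 5) (nat_lit 20) (nat_lit 4) (nat_lit 382) (nat_lit 267) (nat_lit 251))) (XT.nd (nat_lit 78) (nat_lit 304) (nat_lit 0) (XT.lf (nat_lit 0) (nat_lit 5023768234) (nat_lit 76) (nat_lit 2425218513) (nat_lit 152) (nat_lit 8693320611) (nat_lit 18) (nat_lit 5) (nat_lit 19) (nat_lit 5) (nat_lit 20) (nat_lit 4) (nat_lit 383) (nat_lit 267) (nat_lit 250)) (XT.nd (nat_lit 78) (nat_lit 152) (nat_lit 0) (XT.lf (nat_lit 0) (nat_lit 2790468993) (nat_lit 152) (nat_lit 11971767492) (nat_lit 152) (nat_lit 1706708241) (nat_lit 16) (nat_lit 4) (nat_lit 18) (nat_lit 5) (nat_lit 18) (nat_lit 4) (nat_lit 384) (nat_lit 267) (nat_lit 249)) (XT.lf (nat_lit 0) (nat_lit 185677395) (nat_lit 76) (nat_lit 5198666562) (nat_lit 152) (nat_lit 11421001799) (nat_lit 14) (nat_lit 5) (nat_lit 15) (nat_lit 5) (nat_lit 16) (nat_lit 4) (nat_lit 385)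 (nat_lit 267) (nat_lit 248))))))) (XT.nd (nat_lit 45708) (nat_lit 0) (nat_lit 1064) (XT.nd (nat_lit 45318) (nat_lit 0) (nat_lit 3116) (XT.nd (nat_lit 156) (nat_lit 76) (nat_lit 0) (XT.nd (nat_lit 78) (nat_lit 228) (nat_lit 0) (XT.lf (nat_lit 0) (nat_lit 12645046521) (nat_lit 152) (nat_lit 2748145772) (nat_lit 0) (nat_lit 1758832480) (nat_lit 14) (nat_lit 5) (nat_lit 16) (nat_lit 4) (nat_lit 14) (nat_lit 4) (nat_lit 386) (nat_lit 267) (nat_lit 247)) (XT.lf (nat_lit 0) (nat_lit 2567850079) (nat_lit 228) (nat_lit 6092494898) (nat_lit 76) (nat_lit 8848679268) (nat_lit 11) (nat_lit 5) (nat_lit 14) (nat_lit 5) (nat_lit 12) (nat_lit 4) (nat_lit 387) (nat_lit 267) (nat_lit 246))) (XT.nd (nat_lit 45006) (nat_lit 0) (nat_lit 4484) (XT.lf (nat_lit 0) (nat_lit 8023392089) (nat_lit 76) (nat_lit 1721571137) (nat_lit 152) (nat_lit 8132161876) (nat_lit 10) (nat_lit 5) (nat_lit 11) (nat_lit 5) (nat_lit 12) (nat_lit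 4) (nat_lit 388) (nat_lit 267) (nat_lit 245)) (XT.nd (nat_lit 78) (nat_lit 304) (nat_lit 0) (XT.lf (nat_lit 0) (nat_lit 985714161) (nat_lit 304) (nat_lit 2379348166) (nat_lit 304) (nat_lit 2379348166) (nat_lit 73) (nat_lit 4) (nat_lit 77) (nat_lit 5) (nat_lit 77) (nat_lit 4) (nat_lit 364) (nat_lit 268) (nat_lit 268)) (XT.lf (nat_lit 0) (nat_lit 2166887989) (nat_lit 304) (nat_lit 8232342167) (nat_lit 0) (nat_lit 1274919809) (nat_lit 69) (nat_lit 5) (nat_lit 73) (nat_lit 4) (nat_lit 69) (nat_lit 4) (nat_lit 365) (nat_lit 268) (nat_lit 267))))) (XT.nd (nat_lit 156) (nat_lit 836) (nat_lit 0) (XT.nd (nat_lit 78) (nat_lit 304) (nat_lit 0) (XT.lf (nat_lit 0) (nat_lit 4794820495) (nat_lit 228) (nat_lit 4414054734) (nat_lit 228) (nat_lit 2656098030) (nat_lit 66) (nat_lit 4) (nat_lit 69) (nat_lit 5) (nat_lit 69) (nat_lit 4) (nat_lit 366) (nat_lit 268) (nat_lit 266)) (XT.lf (nat_lit 0) (nat_lit 4296735346) (nat_lit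 304) (nat_lit 6016196958) (nat_lit 0) (nat_lit 1748968423) (nat_lit 62) (nat_lit 5) (nat_lit 66) (nat_lit 4) (nat_lit 62) (nat_lit 4) (nat_lit 367) (nat_lit 268) (nat_lit 265))) (XT.nd (nat_lit 78) (nat_lit 608) (nat_lit 0) (XT.lf (nat_lit 0) (nat_lit 7178267283) (nat_lit 228) (nat_lit 4217356144) (nat_lit 228) (nat_lit 869317417) (nat_lit 59) (nat_lit 4) (nat_lit 62) (nat_lit 5) (nat_lit 62) (nat_lit 4) (nat_lit 368) (nat_lit 268) (nat_lit 264)) (XT.nd (nat_lit 78) (nat_lit 304) (nat_lit 0) (XT.lf (nat_lit 0) (nat_lit 6110211657) (nat_lit 304) (nat_lit 4297813294) (nat_lit 0) (nat_lit 2066092399) (nat_lit 55) (nat_lit 5) (nat_lit 59) (nat_lit 4) (nat_lit 55) (nat_lit 4) (nat_lit 369) (nat_lit 268) (nat_lit 263)) (XT.lf (nat_lit 0) (nat_lit 564357096) (nat_lit 304) (nat_lit 3643660010) (nat_lit 76) (nat_lit 8481897290) (nat_lit 51) (nat_lit 5) (nat_lit 55) (nat_lit 5) (nat_lit 52) (nat_lit 4) (nat_lit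 370) (nat_lit 268) (nat_lit 262)))))) (XT.nd (nat_lit 390) (nat_lit 988) (nat_lit 0) (XT.nd (nat_lit 156) (nat_lit 608) (nat_lit 0) (XT.nd (nat_lit 78) (nat_lit 304) (nat_lit 0) (XT.lf (nat_lit 0) (nat_lit 7576124880) (nat_lit 228) (nat_lit 3153663367) (nat_lit 0) (nat_lit 2182337261) (nat_lit 49) (nat_lit 5) (nat_lit 52) (nat_lit 4) (nat_lit 49) (nat_lit 4) (nat_lit 371) (nat_lit 268) (nat_lit 261)) (XT.lf (nat_lit 0) (nat_lit 1611866312) (nat_lit 304) (nat_lit 2821238594) (nat_lit 76) (nat_lit 8708178347) (nat_lit 45) (nat_lit 5) (nat_lit 49) (nat_lit 5) (nat_lit 46) (nat_lit 4) (nat_lit 372) (nat_lit 268) (nat_lit 260))) (XT.nd (nat_lit 78) (nat_lit 456) (nat_lit 0) (XT.lf (nat_lit 0) (nat_lit 8658813059) (nat_lit 228) (nat_lit 2668296368) (nat_lit 0) (nat_lit 2050260109) (nat_lit 43) (nat_lit 5) (nat_lit 46) (nat_lit 4) (nat_lit 43) (nat_lit 4) (nat_lit 373) (nat_lit 268) (nat_lit 259)) (XT.nd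 (nat_lit 78) (nat_lit 152) (nat_lit 0) (XT.lf (nat_lit 0) (nat_lit 2246227380) (nat_lit 304) (nat_lit 2702732239) (nat_lit 76) (nat_lit 8671707147) (nat_lit 39) (nat_lit 5) (nat_lit 43) (nat_lit 5) (nat_lit 40) (nat_lit 4) (nat_lit 374) (nat_lit 268) (nat_lit 258)) (XT.lf (nat_lit 0) (nat_lit 9317721225) (nat_lit 228) (nat_lit 2935268992) (nat_lit 0) (nat_lit 1618431778) (nat_lit 37) (nat_lit 5) (nat_lit 40) (nat_lit 4) (nat_lit 37) (nat_lit 4) (nat_lit 375) (nat_lit 268) (nat_lit 257))))) (XT.nd (nat_lit 156) (nat_lit 608) (nat_lit 0) (XT.nd (nat_lit 78) (nat_lit 152) (nat_lit 0) (XT.lf (nat_lit 0) (nat_lit 2423915407) (nat_lit 228) (nat_lit 3386612237) (nat_lit 76) (nat_lit 8319177211) (nat_lit 34) (nat_lit 5) (nat_lit 37) (nat_lit 5) (nat_lit 35) (nat_lit 4) (nat_lit 376) (nat_lit 268) (nat_lit 256)) (XT.lf (nat_lit 0) (nat_lit 9506929366) (nat_lit 228) (nat_lit 4058169153) (nat_lit 0) (nat_lit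 830895753) (nat_lit 32) (nat_lit 5) (nat_lit 35) (nat_lit 4) (nat_lit 32) (nat_lit 4) (nat_lit 377) (nat_lit 268) (nat_lit 255))) (XT.nd (nat_lit 78) (nat_lit 380) (nat_lit 0) (XT.lf (nat_lit 0) (nat_lit 2095766092) (nat_lit 228) (nat_lit 4981928316) (nat_lit 76) (nat_lit 7592487616) (nat_lit 29) (nat_lit 5) (nat_lit 32) (nat_lit 5) (nat_lit 30) (nat_lit 4) (nat_lit 378) (nat_lit 268) (nat_lit 254)) (XT.nd (nat_lit 78) (nat_lit 228) (nat_lit 0) (XT.lf (nat_lit 0) (nat_lit 8798699445) (nat_lit 152) (nat_lit 378383960) (nat_lit 228) (nat_lit 5775815745) (nat_lit 27) (nat_lit 5) (nat_lit 29) (nat_lit 5) (nat_lit 30) (nat_lit 4) (nat_lit 379) (nat_lit 268) (nat_lit 253)) (XT.lf (nat_lit 0) (nat_lit 1206420779) (nat_lit 228) (nat_lit 7609491589) (nat_lit 76) (nat_lit 6428127314) (nat_lit 24) (nat_lit 5) (nat_lit 27) (nat_lit 5) (nat_lit 25) (nat_lit 4) (nat_lit 380) (nat_lit 268) (nat_lit 252))))))))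
noncomputable def xc4 : XT := (XT.nd (nat_lit 46332) (nat_lit 0) (nat_lit 0) (XT.nd (nat_lit 45552) (nat_lit 0) (nat_lit 2508) (XT.nd (nat_lit 390) (nat_lit 380) (nat_lit 0) (XT.nd (nat_lit 156) (nat_lit 380) (nat_lit 0) (XT.nd (nat_lit 78) (nat_lit 152) (nat_lit 0) (XT.lf (nat_lit 0) (nat_lit 6187340424) (nat_lit 152) (nat_lit 2088747981) (nat_lit 228) (nat_lit 7267949818) (nat_lit 22) (nat_lit 5) (nat_lit 24) (nat_lit 5) (nat_lit 25) (nat_lit 4) (nat_lit 381) (nat_lit 268) (nat_lit 251)) (XT.lf (nat_lit 0) (nat_lit 4448156527) (nat_lit 152) (nat_lit 11094832087) (nat_lit 152) (nat_lit 310360839) (nat_lit 20) (nat_lit 4) (nat_lit 22) (nat_lit 5) (nat_lit 22) (nat_lit 4) (nat_lit 382) (nat_lit 268) (nat_lit 250))) (XT.nd (nat_lit 78) (nat_lit 228) (nat_lit 0) (XT.lf (nat_lit 0) (nat_lit 2370121714) (nat_lit 76) (nat_lit 4363427000) (nat_lit 152) (nat_lit 9438165671) (nat_lit 18) (nat_lit 5) (nat_lit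 19) (nat_lit 5) (nat_lit 20) (nat_lit 4) (nat_lit 383) (nat_lit 268) (nat_lit 249)) (XT.nd (nat_lit 78) (nat_lit 228) (nat_lit 0) (XT.lf (nat_lit 0) (nat_lit 13954961886) (nat_lit 152) (nat_lit 27328276) (nat_lit 0) (nat_lit 2517905414) (nat_lit 18) (nat_lit 5) (nat_lit 20) (nat_lit 4) (nat_lit 18) (nat_lit 4) (nat_lit 384) (nat_lit 268) (nat_lit 248)) (XT.lf (nat_lit 0) (nat_lit 4494963343) (nat_lit 228) (nat_lit 2770471439) (nat_lit 76) (nat_lit 9572514515) (nat_lit 15) (nat_lit 5) (nat_lit 18) (nat_lit 5) (nat_lit 16) (nat_lit 4) (nat_lit 385) (nat_lit 268) (nat_lit 247))))) (XT.nd (nat_lit 156) (nat_lit 76) (nat_lit 0) (XT.nd (nat_lit 78) (nat_lit 228) (nat_lit 0) (XT.lf (nat_lit 0) (nat_lit 11314751018) (nat_lit 76) (nat_lit 351710956) (nat_lit 152) (nat_lit 5519956973) (nat_lit 14) (nat_lit 5) (nat_lit 15) (nat_lit 5) (nat_lit 16) (nat_lit 4) (nat_lit 386) (nat_lit 268) (nat_lit 246)) (XT.lf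 (nat_lit 0) (nat_lit 1486115854) (nat_lit 228) (nat_lit 9391204184) (nat_lit 76) (nat_lit 6667876979) (nat_lit 11) (nat_lit 5) (nat_lit 14) (nat_lit 5) (nat_lit 12) (nat_lit 4) (nat_lit 387) (nat_lit 268) (nat_lit 245))) (XT.nd (nat_lit 44850) (nat_lit 0) (nat_lit 5092) (XT.lf (nat_lit 0) (nat_lit 4574726175) (nat_lit 76) (nat_lit 4008760553) (nat_lit 152) (nat_lit 9331412050) (nat_lit 10) (nat_lit 5) (nat_lit 11) (nat_lit 5) (nat_lit 12) (nat_lit 4) (nat_lit 388) (nat_lit 268) (nat_lit 244)) (XT.nd (nat_lit 78) (nat_lit 608) (nat_lit 0) (XT.lf (nat_lit 0) (nat_lit 2511835680) (nat_lit 304) (nat_lit 543144895) (nat_lit 0) (nat_lit 2511835680) (nat_lit 85) (nat_lit 5) (nat_lit 89) (nat_lit 4) (nat_lit 85) (nat_lit 4) (nat_lit 362) (nat_lit 269) (nat_lit 269)) (XT.lf (nat_lit 0) (nat_lit 430949538) (nat_lit 228) (nat_lit 255581819) (nat_lit 304) (nat_lit 10623084878) (nat_lit 77) (nat_lit 5) (nat_lit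 80) (nat_lit 5) (nat_lit 81) (nat_lit 4) (nat_lit 363) (nat_lit 269) (nat_lit 268)))))) (XT.nd (nat_lit 390) (nat_lit 1216) (nat_lit 0) (XT.nd (nat_lit 156) (nat_lit 760) (nat_lit 0) (XT.nd (nat_lit 78) (nat_lit 304) (nat_lit 0) (XT.lf (nat_lit 0) (nat_lit 1843353422) (nat_lit 304) (nat_lit 5746965101) (nat_lit 304) (nat_lit 3900055788) (nat_lit 73) (nat_lit 4) (nat_lit 77) (nat_lit 5) (nat_lit 77) (nat_lit 4) (nat_lit 364) (nat_lit 269) (nat_lit 267)) (XT.lf (nat_lit 0) (nat_lit 2930659466) (nat_lit 304) (nat_lit 8492643374) (nat_lit 0) (nat_lit 253975537) (nat_lit 69) (nat_lit 5) (nat_lit 73) (nat_lit 4) (nat_lit 69) (nat_lit 4) (nat_lit 365) (nat_lit 269) (nat_lit 266))) (XT.nd (nat_lit 78) (nat_lit 532) (nat_lit 0) (XT.lf (nat_lit 0) (nat_lit 4404913159) (nat_lit 228) (nat_lit 5491092418) (nat_lit 228) (nat_lit 1973642932) (nat_lit 66) (nat_lit 4) (nat_lit 69) (nat_lit 5) (nat_lit 69) (nat_lit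 4) (nat_lit 366) (nat_lit 269) (nat_lit 265)) (XT.nd (nat_lit 78) (nat_lit 228) (nat_lit 0) (XT.lf (nat_lit 0) (nat_lit 4886248866) (nat_lit 304) (nat_lit 6544434476) (nat_lit 0) (nat_lit 637497174) (nat_lit 62) (nat_lit 5) (nat_lit 66) (nat_lit 4) (nat_lit 62) (nat_lit 4) (nat_lit 367) (nat_lit 269) (nat_lit 264)) (XT.lf (nat_lit 0) (nat_lit 6518795181) (nat_lit 228) (nat_lit 5389841508) (nat_lit 228) (nat_lit 364126899) (nat_lit 59) (nat_lit 4) (nat_lit 62) (nat_lit 5) (nat_lit 62) (nat_lit 4) (nat_lit 368) (nat_lit 269) (nat_lit 263))))) (XT.nd (nat_lit 156) (nat_lit 608) (nat_lit 0) (XT.nd (nat_lit 78) (nat_lit 304) (nat_lit 0) (XT.lf (nat_lit 0) (nat_lit 6524233983) (nat_lit 304) (nat_lit 5101822976) (nat_lit 0) (nat_lit 857520710) (nat_lit 55) (nat_lit 5) (nat_lit 59) (nat_lit 4) (nat_lit 55) (nat_lit 4) (nat_lit 369) (nat_lit 269) (nat_lit 262)) (XT.lf (nat_lit 0) (nat_lit 886612576) (nat_lit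 304) (nat_lit 4593757894) (nat_lit 76) (nat_lit 7220503457) (nat_lit 51) (nat_lit 5) (nat_lit 55) (nat_lit 5) (nat_lit 52) (nat_lit 4) (nat_lit 370) (nat_lit 269) (nat_lit 261))) (XT.nd (nat_lit 78) (nat_lit 456) (nat_lit 0) (XT.lf (nat_lit 0) (nat_lit 7813121462) (nat_lit 228) (nat_lit 4241504413) (nat_lit 0) (nat_lit 870175732) (nat_lit 49) (nat_lit 5) (nat_lit 52) (nat_lit 4) (nat_lit 49) (nat_lit 4) (nat_lit 371) (nat_lit 269) (nat_lit 260)) (XT.nd (nat_lit 78) (nat_lit 152) (nat_lit 0) (XT.lf (nat_lit 0) (nat_lit 1756141951) (nat_lit 304) (nat_lit 4059054451) (nat_lit 76) (nat_lit 7340286720) (nat_lit 45) (nat_lit 5) (nat_lit 49) (nat_lit 5) (nat_lit 46) (nat_lit 4) (nat_lit 372) (nat_lit 269) (nat_lit 259)) (XT.lf (nat_lit 0) (nat_lit 8716951279) (nat_lit 228) (nat_lit 4048273614) (nat_lit 0) (nat_lit 628077786) (nat_lit 43) (nat_lit 5) (nat_lit 46) (nat_lit 4) (nat_lit 43) (nat_lit 4) (nat_lit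 373) (nat_lit 269) (nat_lit 258))))))) (XT.nd (nat_lit 780) (nat_lit 684) (nat_lit 0) (XT.nd (nat_lit 390) (nat_lit 760) (nat_lit 0) (XT.nd (nat_lit 156) (nat_lit 608) (nat_lit 0) (XT.nd (nat_lit 78) (nat_lit 152) (nat_lit 0) (XT.lf (nat_lit 0) (nat_lit 2210554745) (nat_lit 304) (nat_lit 4236716594) (nat_lit 76) (nat_lit 7190879592) (nat_lit 39) (nat_lit 5) (nat_lit 43) (nat_lit 5) (nat_lit 40) (nat_lit 4) (nat_lit 374) (nat_lit 269) (nat_lit 257)) (XT.lf (nat_lit 0) (nat_lit 9194872676) (nat_lit 228) (nat_lit 4615954969) (nat_lit 0) (nat_lit 79831762) (nat_lit 37) (nat_lit 5) (nat_lit 40) (nat_lit 4) (nat_lit 37) (nat_lit 4) (nat_lit 375) (nat_lit 269) (nat_lit 256))) (XT.nd (nat_lit 78) (nat_lit 380) (nat_lit 0) (XT.lf (nat_lit 0) (nat_lit 2206030000) (nat_lit 228) (nat_lit 5225493238) (nat_lit 76) (nat_lit 6718999995) (nat_lit 34) (nat_lit 5) (nat_lit 37) (nat_lit 5) (nat_lit 35) (nat_lit 4) (nat_lit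 376) (nat_lit 269) (nat_lit 255)) (XT.nd (nat_lit 78) (nat_lit 228) (nat_lit 0) (XT.lf (nat_lit 0) (nat_lit 8364589947) (nat_lit 152) (nat_lit 841545122) (nat_lit 228) (nat_lit 5212344748) (nat_lit 32) (nat_lit 5) (nat_lit 34) (nat_lit 5) (nat_lit 35) (nat_lit 4) (nat_lit 377) (nat_lit 269) (nat_lit 254)) (XT.lf (nat_lit 0) (nat_lit 1693108337) (nat_lit 228) (nat_lit 7134733678) (nat_lit 76) (nat_lit 5866548445) (nat_lit 29) (nat_lit 5) (nat_lit 32) (nat_lit 5) (nat_lit 30) (nat_lit 4) (nat_lit 378) (nat_lit 269) (nat_lit 253))))) (XT.nd (nat_lit 156) (nat_lit 380) (nat_lit 0) (XT.nd (nat_lit 78) (nat_lit 228) (nat_lit 0) (XT.lf (nat_lit 0) (nat_lit 6503693506) (nat_lit 152) (nat_lit 2192785595) (nat_lit 228) (nat_lit 6282195723) (nat_lit 27) (nat_lit 5) (nat_lit 29) (nat_lit 5) (nat_lit 30) (nat_lit 4) (nat_lit 379) (nat_lit 269) (nat_lit 252)) (XT.lf (nat_lit 0) (nat_lit 616136134) (nat_lit 228)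 (nat_lit 10085570502) (nat_lit 76) (nat_lit 4569993300) (nat_lit 24) (nat_lit 5) (nat_lit 27) (nat_lit 5) (nat_lit 25) (nat_lit 4) (nat_lit 380) (nat_lit 269) (nat_lit 251))) (XT.nd (nat_lit 78) (nat_lit 228) (nat_lit 0) (XT.lf (nat_lit 0) (nat_lit 3566654370) (nat_lit 152) (nat_lit 4040584432) (nat_lit 228) (nat_lit 7966038652) (nat_lit 22) (nat_lit 5) (nat_lit 24) (nat_lit 5) (nat_lit 25) (nat_lit 4) (nat_lit 381) (nat_lit 269) (nat_lit 250)) (XT.nd (nat_lit 78) (nat_lit 76) (nat_lit 0) (XT.lf (nat_lit 0) (nat_lit 1665049885) (nat_lit 152) (nat_lit 13117574041) (nat_lit 152) (nat_lit 1101802512) (nat_lit 20) (nat_lit 4) (nat_lit 22) (nat_lit 5) (nat_lit 22) (nat_lit 4) (nat_lit 382) (nat_lit 269) (nat_lit 249)) (XT.lf (nat_lit 0) (nat_lit 5876994936) (nat_lit 228) (nat_lit 578392668) (nat_lit 76) (nat_lit 9749023470) (nat_lit 19) (nat_lit 5) (nat_lit 22) (nat_lit 5) (nat_lit 20) (nat_lit 4) (nat_lit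 383) (nat_lit 269) (nat_lit 248)))))) (XT.nd (nat_lit 45006) (nat_lit 0) (nat_lit 4788) (XT.nd (nat_lit 156) (nat_lit 380) (nat_lit 0) (XT.nd (nat_lit 78) (nat_lit 228) (nat_lit 0) (XT.lf (nat_lit 0) (nat_lit 13021641070) (nat_lit 152) (nat_lit 3110199591) (nat_lit 0) (nat_lit 402593833) (nat_lit 18) (nat_lit 5) (nat_lit 20) (nat_lit 4) (nat_lit 18) (nat_lit 4) (nat_lit 384) (nat_lit 269) (nat_lit 247)) (XT.lf (nat_lit 0) (nat_lit 3460972056) (nat_lit 228) (nat_lit 6029088461) (nat_lit 76) (nat_lit 7383842320) (nat_lit 15) (nat_lit 5) (nat_lit 18) (nat_lit 5) (nat_lit 16) (nat_lit 4) (nat_lit 385) (nat_lit 269) (nat_lit 246))) (XT.nd (nat_lit 78) (nat_lit 304) (nat_lit 0) (XT.lf (nat_lit 0) (nat_lit 7908009534) (nat_lit 76) (nat_lit 2645347273) (nat_lit 152) (nat_lit 6670604323) (nat_lit 14) (nat_lit 5) (nat_lit 15) (nat_lit 5) (nat_lit 16) (nat_lit 4) (nat_lit 386) (nat_lit 269) (nat_lit 245)) (XT.nd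 (nat_lit 78) (nat_lit 76) (nat_lit 0) (XT.lf (nat_lit 0) (nat_lit 255506570) (nat_lit 228) (nat_lit 13001470061) (nat_lit 76) (nat_lit 4327819099) (nat_lit 11) (nat_lit 5) (nat_lit 14) (nat_lit 5) (nat_lit 12) (nat_lit 4) (nat_lit 387) (nat_lit 269) (nat_lit 244)) (XT.lf (nat_lit 0) (nat_lit 813454077) (nat_lit 76) (nat_lit 6459321872) (nat_lit 152) (nat_lit 10683329454) (nat_lit 10) (nat_lit 5) (nat_lit 11) (nat_lit 5) (nat_lit 12) (nat_lit 4) (nat_lit 388) (nat_lit 269) (nat_lit 243))))) (XT.nd (nat_lit 156) (nat_lit 1216) (nat_lit 0) (XT.nd (nat_lit 78) (nat_lit 304) (nat_lit 0) (XT.lf (nat_lit 0) (nat_lit 1652116535) (nat_lit 380) (nat_lit 2094110718) (nat_lit 0) (nat_lit 1652116535) (nat_lit 93) (nat_lit 5) (nat_lit 98) (nat_lit 4) (nat_lit 93) (nat_lit 4) (nat_lit 360) (nat_lit 270) (nat_lit 270)) (XT.lf (nat_lit 0) (nat_lit 8310653776) (nat_lit 304) (nat_lit 1828516924) (nat_lit 304) (nat_lit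 824307422) (nat_lit 89) (nat_lit 4) (nat_lit 93) (nat_lit 5) (nat_lit 93) (nat_lit 4) (nat_lit 361) (nat_lit 270) (nat_lit 269))) (XT.nd (nat_lit 78) (nat_lit 912) (nat_lit 0) (XT.lf (nat_lit 0) (nat_lit 5932342455) (nat_lit 304) (nat_lit 1210843418) (nat_lit 0) (nat_lit 3991979530) (nat_lit 85) (nat_lit 5) (nat_lit 89) (nat_lit 4) (nat_lit 85) (nat_lit 4) (nat_lit 362) (nat_lit 270) (nat_lit 268)) (XT.nd (nat_lit 78) (nat_lit 304) (nat_lit 0) (XT.lf (nat_lit 0) (nat_lit 170345184) (nat_lit 228) (nat_lit 1333967589) (nat_lit 304) (nat_lit 9808282912) (nat_lit 77) (nat_lit 5) (nat_lit 80) (nat_lit 5) (nat_lit 81) (nat_lit 4) (nat_lit 363) (nat_lit 270) (nat_lit 267)) (XT.lf (nat_lit 0) (nat_lit 1459016806) (nat_lit 304) (nat_lit 6865725628) (nat_lit 304) (nat_lit 3170293198) (nat_lit 73) (nat_lit 4) (nat_lit 77) (nat_lit 5) (nat_lit 77) (nat_lit 4) (nat_lit 364) (nat_lit 270) (nat_lit 266))))))))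
noncomputable def xc5 : XT := (XT.nd (nat_lit 1560) (nat_lit 532) (nat_lit 0) (XT.nd (nat_lit 780) (nat_lit 1596) (nat_lit 0) (XT.nd (nat_lit 390) (nat_lit 1216) (nat_lit 0) (XT.nd (nat_lit 156) (nat_lit 836) (nat_lit 0) (XT.nd (nat_lit 78) (nat_lit 228) (nat_lit 0) (XT.lf (nat_lit 0) (nat_lit 2664046456) (nat_lit 228) (nat_lit 908755402) (nat_lit 304) (nat_lit 8110618077) (nat_lit 69) (nat_lit 5) (nat_lit 72) (nat_lit 5) (nat_lit 73) (nat_lit 4) (nat_lit 365) (nat_lit 270) (nat_lit 265)) (XT.lf (nat_lit 0) (nat_lit 3754689060) (nat_lit 228) (nat_lit 6701385920) (nat_lit 228) (nat_lit 1421370151) (nat_lit 66) (nat_lit 4) (nat_lit 69) (nat_lit 5) (nat_lit 69) (nat_lit 4) (nat_lit 366) (nat_lit 270) (nat_lit 264))) (XT.nd (nat_lit 78) (nat_lit 532) (nat_lit 0) (XT.lf (nat_lit 0) (nat_lit 4736168761) (nat_lit 228) (nat_lit 614666240) (nat_lit 304) (nat_lit 6726692241) (nat_lit 62) (nat_lit 5) (nat_lit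 65) (nat_lit 5) (nat_lit 66) (nat_lit 4) (nat_lit 367) (nat_lit 270) (nat_lit 263)) (XT.nd (nat_lit 78) (nat_lit 228) (nat_lit 0) (XT.lf (nat_lit 0) (nat_lit 9269089) (nat_lit 304) (nat_lit 6689058332) (nat_lit 76) (nat_lit 5585396357) (nat_lit 58) (nat_lit 5) (nat_lit 62) (nat_lit 5) (nat_lit 59) (nat_lit 4) (nat_lit 368) (nat_lit 270) (nat_lit 262)) (XT.lf (nat_lit 0) (nat_lit 6318011274) (nat_lit 228) (nat_lit 492956662) (nat_lit 304) (nat_lit 5685172336) (nat_lit 55) (nat_lit 5) (nat_lit 58) (nat_lit 5) (nat_lit 59) (nat_lit 4) (nat_lit 369) (nat_lit 270) (nat_lit 261))))) (XT.nd (nat_lit 156) (nat_lit 760) (nat_lit 0) (XT.nd (nat_lit 78) (nat_lit 152) (nat_lit 0) (XT.lf (nat_lit 0) (nat_lit 1077271262) (nat_lit 304) (nat_lit 5815260179) (nat_lit 76) (nat_lit 5822479213) (nat_lit 51) (nat_lit 5) (nat_lit 55) (nat_lit 5) (nat_lit 52) (nat_lit 4) (nat_lit 370) (nat_lit 270) (nat_lit 260)) (XT.lf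 (nat_lit 0) (nat_lit 7333686504) (nat_lit 152) (nat_lit 588006765) (nat_lit 228) (nat_lit 5018897861) (nat_lit 49) (nat_lit 5) (nat_lit 51) (nat_lit 5) (nat_lit 52) (nat_lit 4) (nat_lit 371) (nat_lit 270) (nat_lit 259))) (XT.nd (nat_lit 78) (nat_lit 456) (nat_lit 0) (XT.lf (nat_lit 0) (nat_lit 1766984550) (nat_lit 304) (nat_lit 5573051470) (nat_lit 76) (nat_lit 5832849560) (nat_lit 45) (nat_lit 5) (nat_lit 49) (nat_lit 5) (nat_lit 46) (nat_lit 4) (nat_lit 372) (nat_lit 270) (nat_lit 258)) (XT.nd (nat_lit 78) (nat_lit 304) (nat_lit 0) (XT.lf (nat_lit 0) (nat_lit 7699280034) (nat_lit 152) (nat_lit 947782964) (nat_lit 228) (nat_lit 4765266977) (nat_lit 43) (nat_lit 5) (nat_lit 45) (nat_lit 5) (nat_lit 46) (nat_lit 4) (nat_lit 373) (nat_lit 270) (nat_lit 257)) (XT.lf (nat_lit 0) (nat_lit 2039427384) (nat_lit 304) (nat_lit 6051923218) (nat_lit 76) (nat_lit 5567516457) (nat_lit 39) (nat_lit 5) (nat_lit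 43) (nat_lit 5) (nat_lit 40) (nat_lit 4) (nat_lit 374) (nat_lit 270) (nat_lit 256)))))) (XT.nd (nat_lit 390) (nat_lit 684) (nat_lit 0) (XT.nd (nat_lit 156) (nat_lit 532) (nat_lit 0) (XT.nd (nat_lit 78) (nat_lit 228) (nat_lit 0) (XT.lf (nat_lit 0) (nat_lit 7321926715) (nat_lit 152) (nat_lit 1624340034) (nat_lit 228) (nat_lit 4966667800) (nat_lit 37) (nat_lit 5) (nat_lit 39) (nat_lit 5) (nat_lit 40) (nat_lit 4) (nat_lit 375) (nat_lit 270) (nat_lit 255)) (XT.lf (nat_lit 0) (nat_lit 1850480754) (nat_lit 228) (nat_lit 7350914908) (nat_lit 76) (nat_lit 4973211294) (nat_lit 34) (nat_lit 5) (nat_lit 37) (nat_lit 5) (nat_lit 35) (nat_lit 4) (nat_lit 376) (nat_lit 270) (nat_lit 254))) (XT.nd (nat_lit 78) (nat_lit 380) (nat_lit 0) (XT.lf (nat_lit 0) (nat_lit 6098794232) (nat_lit 152) (nat_lit 2674367223) (nat_lit 228) (nat_lit 5670959298) (nat_lit 32) (nat_lit 5) (nat_lit 34) (nat_lit 5) (nat_lit 35) (nat_lit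 4) (nat_lit 377) (nat_lit 270) (nat_lit 253)) (XT.nd (nat_lit 78) (nat_lit 152) (nat_lit 0) (XT.lf (nat_lit 0) (nat_lit 1150387777) (nat_lit 228) (nat_lit 9579688557) (nat_lit 76) (nat_lit 3991825339) (nat_lit 29) (nat_lit 5) (nat_lit 32) (nat_lit 5) (nat_lit 30) (nat_lit 4) (nat_lit 378) (nat_lit 270) (nat_lit 252)) (XT.lf (nat_lit 0) (nat_lit 3915964012) (nat_lit 152) (nat_lit 4159783712) (nat_lit 228) (nat_lit 6932006595) (nat_lit 27) (nat_lit 5) (nat_lit 29) (nat_lit 5) (nat_lit 30) (nat_lit 4) (nat_lit 379) (nat_lit 270) (nat_lit 251))))) (XT.nd (nat_lit 156) (nat_lit 304) (nat_lit 0) (XT.nd (nat_lit 78) (nat_lit 228) (nat_lit 0) (XT.lf (nat_lit 0) (nat_lit 2442209074) (nat_lit 152) (nat_lit 12742124813) (nat_lit 152) (nat_lit 118355245) (nat_lit 25) (nat_lit 4) (nat_lit 27) (nat_lit 5) (nat_lit 27) (nat_lit 4) (nat_lit 380) (nat_lit 270) (nat_lit 250)) (XT.lf (nat_lit 0) (nat_lit 647198462)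 (nat_lit 152) (nat_lit 6148389151) (nat_lit 228) (nat_lit 8810276099) (nat_lit 22) (nat_lit 5) (nat_lit 24) (nat_lit 5) (nat_lit 25) (nat_lit 4) (nat_lit 381) (nat_lit 270) (nat_lit 249))) (XT.nd (nat_lit 78) (nat_lit 304) (nat_lit 0) (XT.lf (nat_lit 0) (nat_lit 13887474247) (nat_lit 228) (nat_lit 1401312435) (nat_lit 0) (nat_lit 629903220) (nat_lit 22) (nat_lit 5) (nat_lit 25) (nat_lit 4) (nat_lit 22) (nat_lit 4) (nat_lit 382) (nat_lit 270) (nat_lit 248)) (XT.nd (nat_lit 78) (nat_lit 76) (nat_lit 0) (XT.lf (nat_lit 0) (nat_lit 4892137988) (nat_lit 228) (nat_lit 3796958030) (nat_lit 76) (nat_lit 7551058760) (nat_lit 19) (nat_lit 5) (nat_lit 22) (nat_lit 5) (nat_lit 20) (nat_lit 4) (nat_lit 383) (nat_lit 270) (nat_lit 247)) (XT.lf (nat_lit 0) (nat_lit 10062077407) (nat_lit 76) (nat_lit 1893557765) (nat_lit 152) (nat_lit 4616172692) (nat_lit 18) (nat_lit 5) (nat_lit 19) (nat_lit 5) (nat_lit 20) (nat_lit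 4) (nat_lit 384) (nat_lit 270) (nat_lit 246))))))) (XT.nd (nat_lit 45240) (nat_lit 0) (nat_lit 2432) (XT.nd (nat_lit 44850) (nat_lit 0) (nat_lit 5244) (XT.nd (nat_lit 156) (nat_lit 228) (nat_lit 0) (XT.nd (nat_lit 78) (nat_lit 76) (nat_lit 0) (XT.lf (nat_lit 0) (nat_lit 2280261069) (nat_lit 228) (nat_lit 9595456196) (nat_lit 76) (nat_lit 5037544638) (nat_lit 15) (nat_lit 5) (nat_lit 18) (nat_lit 5) (nat_lit 16) (nat_lit 4) (nat_lit 385) (nat_lit 270) (nat_lit 245)) (XT.lf (nat_lit 0) (nat_lit 4192480476) (nat_lit 76) (nat_lit 5100706659) (nat_lit 152) (nat_lit 7971728413) (nat_lit 14) (nat_lit 5) (nat_lit 15) (nat_lit 5) (nat_lit 16) (nat_lit 4) (nat_lit 386) (nat_lit 270) (nat_lit 244))) (XT.nd (nat_lit 78) (nat_lit 76) (nat_lit 0) (XT.lf (nat_lit 0) (nat_lit 693858158) (nat_lit 152) (nat_lit 15793844371) (nat_lit 152) (nat_lit 1140004424) (nat_lit 12) (nat_lit 4) (nat_lit 14) (nat_lit 5) (nat_lit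 14) (nat_lit 4) (nat_lit 387) (nat_lit 270) (nat_lit 243)) (XT.nd (nat_lit 44538) (nat_lit 0) (nat_lit 6916) (XT.lf (nat_lit 0) (nat_lit 5832875783) (nat_lit 228) (nat_lit 3220906599) (nat_lit 76) (nat_lit 8946574798) (nat_lit 11) (nat_lit 5) (nat_lit 14) (nat_lit 5) (nat_lit 12) (nat_lit 4) (nat_lit 388) (nat_lit 270) (nat_lit 242)) (XT.lf (nat_lit 0) (nat_lit 789762156) (nat_lit 380) (nat_lit 3659120243) (nat_lit 0) (nat_lit 789762156) (nat_lit 102) (nat_lit 5) (nat_lit 107) (nat_lit 4) (nat_lit 102) (nat_lit 4) (nat_lit 358) (nat_lit 271) (nat_lit 271))))) (XT.nd (nat_lit 156) (nat_lit 988) (nat_lit 0) (XT.nd (nat_lit 78) (nat_lit 380) (nat_lit 0) (XT.lf (nat_lit 0) (nat_lit 4851172683) (nat_lit 304) (nat_lit 3419527401) (nat_lit 304) (nat_lit 2364504899) (nat_lit 98) (nat_lit 4) (nat_lit 102) (nat_lit 5) (nat_lit 102) (nat_lit 4) (nat_lit 359) (nat_lit 271) (nat_lit 270)) (XT.lf (nat_lit 0) (nat_lit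 4262919954) (nat_lit 380) (nat_lit 4310922674) (nat_lit 0) (nat_lit 2224374666) (nat_lit 93) (nat_lit 5) (nat_lit 98) (nat_lit 4) (nat_lit 93) (nat_lit 4) (nat_lit 360) (nat_lit 271) (nat_lit 269))) (XT.nd (nat_lit 78) (nat_lit 608) (nat_lit 0) (XT.lf (nat_lit 0) (nat_lit 55557915) (nat_lit 380) (nat_lit 2901278980) (nat_lit 76) (nat_lit 8009680612) (nat_lit 88) (nat_lit 5) (nat_lit 93) (nat_lit 5) (nat_lit 89) (nat_lit 4) (nat_lit 361) (nat_lit 271) (nat_lit 268)) (XT.nd (nat_lit 78) (nat_lit 380) (nat_lit 0) (XT.lf (nat_lit 0) (nat_lit 6718786796) (nat_lit 304) (nat_lit 1584613134) (nat_lit 0) (nat_lit 2836365485) (nat_lit 85) (nat_lit 5) (nat_lit 89) (nat_lit 4) (nat_lit 85) (nat_lit 4) (nat_lit 362) (nat_lit 271) (nat_lit 267)) (XT.lf (nat_lit 0) (nat_lit 2199561947) (nat_lit 380) (nat_lit 340280638) (nat_lit 76) (nat_lit 8778793133) (nat_lit 80) (nat_lit 5) (nat_lit 85) (nat_lit 5) (nat_lit 81)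 (nat_lit 4) (nat_lit 363) (nat_lit 271) (nat_lit 266)))))) (XT.nd (nat_lit 390) (nat_lit 1140) (nat_lit 0) (XT.nd (nat_lit 156) (nat_lit 836) (nat_lit 0) (XT.nd (nat_lit 78) (nat_lit 304) (nat_lit 0) (XT.lf (nat_lit 0) (nat_lit 818082649) (nat_lit 304) (nat_lit 8115955472) (nat_lit 304) (nat_lit 2568770906) (nat_lit 73) (nat_lit 4) (nat_lit 77) (nat_lit 5) (nat_lit 77) (nat_lit 4) (nat_lit 364) (nat_lit 271) (nat_lit 265)) (XT.lf (nat_lit 0) (nat_lit 1883028234) (nat_lit 228) (nat_lit 2207474530) (nat_lit 304) (nat_lit 7602144708) (nat_lit 69) (nat_lit 5) (nat_lit 72) (nat_lit 5) (nat_lit 73) (nat_lit 4) (nat_lit 365) (nat_lit 271) (nat_lit 264))) (XT.nd (nat_lit 78) (nat_lit 608) (nat_lit 0) (XT.lf (nat_lit 0) (nat_lit 2843580040) (nat_lit 228) (nat_lit 8045992777) (nat_lit 228) (nat_lit 998797120) (nat_lit 66) (nat_lit 4) (nat_lit 69) (nat_lit 5) (nat_lit 69) (nat_lit 4) (nat_lit 366) (nat_lit 271)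 (nat_lit 263)) (XT.nd (nat_lit 78) (nat_lit 304) (nat_lit 0) (XT.lf (nat_lit 0) (nat_lit 3681182691) (nat_lit 228) (nat_lit 2010796484) (nat_lit 304) (nat_lit 6397948308) (nat_lit 62) (nat_lit 5) (nat_lit 65) (nat_lit 5) (nat_lit 66) (nat_lit 4) (nat_lit 367) (nat_lit 271) (nat_lit 262)) (XT.lf (nat_lit 0) (nat_lit 248267127) (nat_lit 304) (nat_lit 7894210746) (nat_lit 76) (nat_lit 4155324111) (nat_lit 58) (nat_lit 5) (nat_lit 62) (nat_lit 5) (nat_lit 59) (nat_lit 4) (nat_lit 368) (nat_lit 271) (nat_lit 261))))) (XT.nd (nat_lit 156) (nat_lit 608) (nat_lit 0) (XT.nd (nat_lit 78) (nat_lit 304) (nat_lit 0) (XT.lf (nat_lit 0) (nat_lit 4980740607) (nat_lit 228) (nat_lit 1993260424) (nat_lit 304) (nat_lit 5537748364) (nat_lit 55) (nat_lit 5) (nat_lit 58) (nat_lit 5) (nat_lit 59) (nat_lit 4) (nat_lit 369) (nat_lit 271) (nat_lit 260)) (XT.lf (nat_lit 0) (nat_lit 1136499749) (nat_lit 304) (nat_lit 7309234198)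 (nat_lit 76) (nat_lit 4286602986) (nat_lit 51) (nat_lit 5) (nat_lit 55) (nat_lit 5) (nat_lit 52) (nat_lit 4) (nat_lit 370) (nat_lit 271) (nat_lit 259))) (XT.nd (nat_lit 78) (nat_lit 456) (nat_lit 0) (XT.lf (nat_lit 0) (nat_lit 5705572319) (nat_lit 152) (nat_lit 2199184896) (nat_lit 228) (nat_lit 5054694221) (nat_lit 49) (nat_lit 5) (nat_lit 51) (nat_lit 5) (nat_lit 52) (nat_lit 4) (nat_lit 371) (nat_lit 271) (nat_lit 258)) (XT.nd (nat_lit 78) (nat_lit 152) (nat_lit 0) (XT.lf (nat_lit 0) (nat_lit 1644403583) (nat_lit 304) (nat_lit 7364552562) (nat_lit 76) (nat_lit 4184549689) (nat_lit 45) (nat_lit 5) (nat_lit 49) (nat_lit 5) (nat_lit 46) (nat_lit 4) (nat_lit 372) (nat_lit 271) (nat_lit 257)) (XT.lf (nat_lit 0) (nat_lit 5771498484) (nat_lit 152) (nat_lit 2676499994) (nat_lit 228) (nat_lit 4986491344) (nat_lit 43) (nat_lit 5) (nat_lit 45) (nat_lit 5) (nat_lit 46) (nat_lit 4) (nat_lit 373) (nat_lit 271)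 (nat_lit 256))))))))
noncomputable def xc6 : XT := (XT.nd (nat_lit 45864) (nat_lit 0) (nat_lit 1216) (XT.nd (nat_lit 780) (nat_lit 608) (nat_lit 0) (XT.nd (nat_lit 390) (nat_lit 760) (nat_lit 0) (XT.nd (nat_lit 156) (nat_lit 608) (nat_lit 0) (XT.nd (nat_lit 78) (nat_lit 152) (nat_lit 0) (XT.lf (nat_lit 0) (nat_lit 1732695768) (nat_lit 304) (nat_lit 8149938214) (nat_lit 76) (nat_lit 3800199269) (nat_lit 39) (nat_lit 5) (nat_lit 43) (nat_lit 5) (nat_lit 40) (nat_lit 4) (nat_lit 374) (nat_lit 271) (nat_lit 255)) (XT.lf (nat_lit 0) (nat_lit 5085366446) (nat_lit 152) (nat_lit 3477248279) (nat_lit 228) (nat_lit 5375833592) (nat_lit 37) (nat_lit 5) (nat_lit 39) (nat_lit 5) (nat_lit 40) (nat_lit 4) (nat_lit 375) (nat_lit 271) (nat_lit 254))) (XT.nd (nat_lit 78) (nat_lit 380) (nat_lit 0) (XT.lf (nat_lit 0) (nat_lit 1356956996) (nat_lit 228) (nat_lit 9764734412) (nat_lit 76) (nat_lit 3080285661) (nat_lit 34)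 (nat_lit 5) (nat_lit 37) (nat_lit 5) (nat_lit 35) (nat_lit 4) (nat_lit 376) (nat_lit 271) (nat_lit 253)) (XT.nd (nat_lit 78) (nat_lit 228) (nat_lit 0) (XT.lf (nat_lit 0) (nat_lit 3544033903) (nat_lit 152) (nat_lit 4658129880) (nat_lit 228) (nat_lit 6270885034) (nat_lit 32) (nat_lit 5) (nat_lit 34) (nat_lit 5) (nat_lit 35) (nat_lit 4) (nat_lit 377) (nat_lit 271) (nat_lit 252)) (XT.lf (nat_lit 0) (nat_lit 467130191) (nat_lit 228) (nat_lit 12318929321) (nat_lit 76) (nat_lit 1966680191) (nat_lit 29) (nat_lit 5) (nat_lit 32) (nat_lit 5) (nat_lit 30) (nat_lit 4) (nat_lit 378) (nat_lit 271) (nat_lit 251))))) (XT.nd (nat_lit 156) (nat_lit 608) (nat_lit 0) (XT.nd (nat_lit 78) (nat_lit 0) (nat_lit 0) (XT.lf (nat_lit 0) (nat_lit 1033249838) (nat_lit 152) (nat_lit 6281097049) (nat_lit 228) (nat_lit 7725816157) (nat_lit 27) (nat_lit 5) (nat_lit 29) (nat_lit 5) (nat_lit 30) (nat_lit 4) (nat_lit 379) (nat_lit 271)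 (nat_lit 250)) (XT.lf (nat_lit 0) (nat_lit 14334636888) (nat_lit 228) (nat_lit 596001727) (nat_lit 0) (nat_lit 406232767) (nat_lit 27) (nat_lit 5) (nat_lit 30) (nat_lit 4) (nat_lit 27) (nat_lit 4) (nat_lit 380) (nat_lit 271) (nat_lit 249))) (XT.nd (nat_lit 78) (nat_lit 380) (nat_lit 0) (XT.lf (nat_lit 0) (nat_lit 5857135005) (nat_lit 228) (nat_lit 2539825339) (nat_lit 76) (nat_lit 7244530940) (nat_lit 24) (nat_lit 5) (nat_lit 27) (nat_lit 5) (nat_lit 25) (nat_lit 4) (nat_lit 381) (nat_lit 271) (nat_lit 248)) (XT.nd (nat_lit 78) (nat_lit 228) (nat_lit 0) (XT.lf (nat_lit 0) (nat_lit 11198605142) (nat_lit 152) (nat_lit 1672572604) (nat_lit 228) (nat_lit 3084703631) (nat_lit 22) (nat_lit 5) (nat_lit 24) (nat_lit 5) (nat_lit 25) (nat_lit 4) (nat_lit 382) (nat_lit 271) (nat_lit 247)) (XT.lf (nat_lit 0) (nat_lit 3762728911) (nat_lit 228) (nat_lit 7319471283) (nat_lit 76) (nat_lit 5197084301) (nat_lit 19)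 (nat_lit 5) (nat_lit 22) (nat_lit 5) (nat_lit 20) (nat_lit 4) (nat_lit 383) (nat_lit 271) (nat_lit 246)))))) (XT.nd (nat_lit 44694) (nat_lit 0) (nat_lit 6232) (XT.nd (nat_lit 156) (nat_lit 304) (nat_lit 0) (XT.nd (nat_lit 78) (nat_lit 228) (nat_lit 0) (XT.lf (nat_lit 0) (nat_lit 6392246261) (nat_lit 76) (nat_lit 4355149546) (nat_lit 152) (nat_lit 5865124871) (nat_lit 18) (nat_lit 5) (nat_lit 19) (nat_lit 5) (nat_lit 20) (nat_lit 4) (nat_lit 384) (nat_lit 271) (nat_lit 245)) (XT.lf (nat_lit 0) (nat_lit 951798692) (nat_lit 228) (nat_lit 13472690889) (nat_lit 76) (nat_lit 2531571304) (nat_lit 15) (nat_lit 5) (nat_lit 18) (nat_lit 5) (nat_lit 16) (nat_lit 4) (nat_lit 385) (nat_lit 271) (nat_lit 244))) (XT.nd (nat_lit 78) (nat_lit 228) (nat_lit 0) (XT.lf (nat_lit 0) (nat_lit 164917266) (nat_lit 76) (nat_lit 7719934575) (nat_lit 152) (nat_lit 9424466148) (nat_lit 14) (nat_lit 5) (nat_lit 15) (nat_lit 5)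 (nat_lit 16) (nat_lit 4) (nat_lit 386) (nat_lit 271) (nat_lit 243)) (XT.nd (nat_lit 78) (nat_lit 228) (nat_lit 0) (XT.lf (nat_lit 0) (nat_lit 14201343501) (nat_lit 76) (nat_lit 808702144) (nat_lit 152) (nat_lit 2663456004) (nat_lit 14) (nat_lit 5) (nat_lit 15) (nat_lit 5) (nat_lit 16) (nat_lit 4) (nat_lit 387) (nat_lit 271) (nat_lit 242)) (XT.lf (nat_lit 0) (nat_lit 4248674973) (nat_lit 228) (nat_lit 7559864269) (nat_lit 76) (nat_lit 6239430595) (nat_lit 11) (nat_lit 5) (nat_lit 14) (nat_lit 5) (nat_lit 12) (nat_lit 4) (nat_lit 388) (nat_lit 271) (nat_lit 241))))) (XT.nd (nat_lit 156) (nat_lit 1064) (nat_lit 0) (XT.nd (nat_lit 78) (nat_lit 684) (nat_lit 0) (XT.lf (nat_lit 0) (nat_lit 4955878946) (nat_lit 380) (nat_lit 65682917) (nat_lit 380) (nat_lit 65682917) (nat_lit 116) (nat_lit 4) (nat_lit 121) (nat_lit 5) (nat_lit 121) (nat_lit 4) (nat_lit 356) (nat_lit 272) (nat_lit 272)) (XT.lf (nat_lit 0)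 (nat_lit 1399913737) (nat_lit 304) (nat_lit 5016261552) (nat_lit 304) (nat_lit 3907854911) (nat_lit 107) (nat_lit 4) (nat_lit 111) (nat_lit 5) (nat_lit 111) (nat_lit 4) (nat_lit 357) (nat_lit 272) (nat_lit 271))) (XT.nd (nat_lit 78) (nat_lit 684) (nat_lit 0) (XT.lf (nat_lit 0) (nat_lit 2590717429) (nat_lit 380) (nat_lit 7439077118) (nat_lit 0) (nat_lit 449021749) (nat_lit 102) (nat_lit 5) (nat_lit 107) (nat_lit 4) (nat_lit 102) (nat_lit 4) (nat_lit 358) (nat_lit 272) (nat_lit 270)) (XT.nd (nat_lit 78) (nat_lit 380) (nat_lit 0) (XT.lf (nat_lit 0) (nat_lit 4609853996) (nat_lit 304) (nat_lit 4597190792) (nat_lit 304) (nat_lit 1431201420) (nat_lit 98) (nat_lit 4) (nat_lit 102) (nat_lit 5) (nat_lit 102) (nat_lit 4) (nat_lit 359) (nat_lit 272) (nat_lit 269)) (XT.lf (nat_lit 0) (nat_lit 5101273003) (nat_lit 380) (nat_lit 4679133598) (nat_lit 0) (nat_lit 1022401174) (nat_lit 93) (nat_lit 5) (nat_lit 98) (nat_lit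 4) (nat_lit 93) (nat_lit 4) (nat_lit 360) (nat_lit 272) (nat_lit 268))))))) (XT.nd (nat_lit 780) (nat_lit 1824) (nat_lit 0) (XT.nd (nat_lit 390) (nat_lit 1368) (nat_lit 0) (XT.nd (nat_lit 156) (nat_lit 1216) (nat_lit 0) (XT.nd (nat_lit 78) (nat_lit 228) (nat_lit 0) (XT.lf (nat_lit 0) (nat_lit 803386965) (nat_lit 380) (nat_lit 3402593927) (nat_lit 76) (nat_lit 6766534267) (nat_lit 88) (nat_lit 5) (nat_lit 93) (nat_lit 5) (nat_lit 89) (nat_lit 4) (nat_lit 361) (nat_lit 272) (nat_lit 267)) (XT.lf (nat_lit 0) (nat_lit 7383691570) (nat_lit 304) (nat_lit 2207925535) (nat_lit 0) (nat_lit 1555819465) (nat_lit 85) (nat_lit 5) (nat_lit 89) (nat_lit 4) (nat_lit 85) (nat_lit 4) (nat_lit 362) (nat_lit 272) (nat_lit 266))) (XT.nd (nat_lit 78) (nat_lit 836) (nat_lit 0) (XT.lf (nat_lit 0) (nat_lit 2773407314) (nat_lit 380) (nat_lit 1100321814) (nat_lit 76) (nat_lit 7454002063) (nat_lit 80) (nat_lit 5) (nat_lit 85)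 (nat_lit 5) (nat_lit 81) (nat_lit 4) (nat_lit 363) (nat_lit 272) (nat_lit 265)) (XT.nd (nat_lit 78) (nat_lit 608) (nat_lit 0) (XT.lf (nat_lit 0) (nat_lit 9419257450) (nat_lit 304) (nat_lit 78959754) (nat_lit 0) (nat_lit 2015473694) (nat_lit 77) (nat_lit 5) (nat_lit 81) (nat_lit 4) (nat_lit 77) (nat_lit 4) (nat_lit 364) (nat_lit 272) (nat_lit 264)) (XT.lf (nat_lit 0) (nat_lit 842602205) (nat_lit 228) (nat_lit 3639941448) (nat_lit 304) (nat_lit 7222458816) (nat_lit 69) (nat_lit 5) (nat_lit 72) (nat_lit 5) (nat_lit 73) (nat_lit 4) (nat_lit 365) (nat_lit 272) (nat_lit 263))))) (XT.nd (nat_lit 156) (nat_lit 836) (nat_lit 0) (XT.nd (nat_lit 78) (nat_lit 304) (nat_lit 0) (XT.lf (nat_lit 0) (nat_lit 1670789985) (nat_lit 228) (nat_lit 9526087889) (nat_lit 228) (nat_lit 705554600) (nat_lit 66) (nat_lit 4) (nat_lit 69) (nat_lit 5) (nat_lit 69) (nat_lit 4) (nat_lit 366) (nat_lit 272) (nat_lit 262)) (XT.lf (nat_lit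 0) (nat_lit 2362143941) (nat_lit 228) (nat_lit 3543641473) (nat_lit 304) (nat_lit 6199690541) (nat_lit 62) (nat_lit 5) (nat_lit 65) (nat_lit 5) (nat_lit 66) (nat_lit 4) (nat_lit 367) (nat_lit 272) (nat_lit 261))) (XT.nd (nat_lit 78) (nat_lit 532) (nat_lit 0) (XT.lf (nat_lit 0) (nat_lit 357851640) (nat_lit 304) (nat_lit 9368114540) (nat_lit 76) (nat_lit 2589091610) (nat_lit 58) (nat_lit 5) (nat_lit 62) (nat_lit 5) (nat_lit 59) (nat_lit 4) (nat_lit 368) (nat_lit 272) (nat_lit 260)) (XT.nd (nat_lit 78) (nat_lit 304) (nat_lit 0) (XT.lf (nat_lit 0) (nat_lit 3374528618) (nat_lit 228) (nat_lit 3633305520) (nat_lit 304) (nat_lit 5522697372) (nat_lit 55) (nat_lit 5) (nat_lit 58) (nat_lit 5) (nat_lit 59) (nat_lit 4) (nat_lit 369) (nat_lit 272) (nat_lit 259)) (XT.lf (nat_lit 0) (nat_lit 1064349790) (nat_lit 304) (nat_lit 9076985364) (nat_lit 76) (nat_lit 2611532746) (nat_lit 51) (nat_lit 5) (nat_lit 55) (nat_lit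 5) (nat_lit 52) (nat_lit 4) (nat_lit 370) (nat_lit 272) (nat_lit 258)))))) (XT.nd (nat_lit 390) (nat_lit 760) (nat_lit 0) (XT.nd (nat_lit 156) (nat_lit 608) (nat_lit 0) (XT.nd (nat_lit 78) (nat_lit 304) (nat_lit 0) (XT.lf (nat_lit 0) (nat_lit 3803371352) (nat_lit 152) (nat_lit 3953202307) (nat_lit 228) (nat_lit 5224939840) (nat_lit 49) (nat_lit 5) (nat_lit 51) (nat_lit 5) (nat_lit 52) (nat_lit 4) (nat_lit 371) (nat_lit 272) (nat_lit 257)) (XT.lf (nat_lit 0) (nat_lit 1388291941) (nat_lit 304) (nat_lit 9435123116) (nat_lit 76) (nat_lit 2393946845) (nat_lit 45) (nat_lit 5) (nat_lit 49) (nat_lit 5) (nat_lit 46) (nat_lit 4) (nat_lit 372) (nat_lit 272) (nat_lit 256))) (XT.nd (nat_lit 78) (nat_lit 456) (nat_lit 0) (XT.lf (nat_lit 0) (nat_lit 3564214680) (nat_lit 152) (nat_lit 4551237010) (nat_lit 228) (nat_lit 5344432537) (nat_lit 43) (nat_lit 5) (nat_lit 45) (nat_lit 5) (nat_lit 46) (nat_lit 4) (nat_lit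 373) (nat_lit 272) (nat_lit 255)) (XT.nd (nat_lit 78) (nat_lit 152) (nat_lit 0) (XT.lf (nat_lit 0) (nat_lit 1290091879) (nat_lit 304) (nat_lit 10532594797) (nat_lit 76) (nat_lit 1887383770) (nat_lit 39) (nat_lit 5) (nat_lit 43) (nat_lit 5) (nat_lit 40) (nat_lit 4) (nat_lit 374) (nat_lit 272) (nat_lit 254)) (XT.lf (nat_lit 0) (nat_lit 2563605069) (nat_lit 152) (nat_lit 5479451098) (nat_lit 228) (nat_lit 5924177342) (nat_lit 37) (nat_lit 5) (nat_lit 39) (nat_lit 5) (nat_lit 40) (nat_lit 4) (nat_lit 375) (nat_lit 272) (nat_lit 253))))) (XT.nd (nat_lit 156) (nat_lit 380) (nat_lit 0) (XT.nd (nat_lit 78) (nat_lit 152) (nat_lit 0) (XT.lf (nat_lit 0) (nat_lit 725027490) (nat_lit 228) (nat_lit 12469060911) (nat_lit 76) (nat_lit 1038569082) (nat_lit 34) (nat_lit 5) (nat_lit 37) (nat_lit 5) (nat_lit 35) (nat_lit 4) (nat_lit 376) (nat_lit 272) (nat_lit 252)) (XT.lf (nat_lit 0) (nat_lit 698076642) (nat_lit 152)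 (nat_lit 6794566476) (nat_lit 228) (nat_lit 7012646164) (nat_lit 32) (nat_lit 5) (nat_lit 34) (nat_lit 5) (nat_lit 35) (nat_lit 4) (nat_lit 377) (nat_lit 272) (nat_lit 251))) (XT.nd (nat_lit 78) (nat_lit 380) (nat_lit 0) (XT.lf (nat_lit 0) (nat_lit 14222601826) (nat_lit 152) (nat_lit 207322343) (nat_lit 228) (nat_lit 356859339) (nat_lit 32) (nat_lit 5) (nat_lit 34) (nat_lit 5) (nat_lit 35) (nat_lit 4) (nat_lit 378) (nat_lit 272) (nat_lit 250)) (XT.nd (nat_lit 78) (nat_lit 152) (nat_lit 0) (XT.lf (nat_lit 0) (nat_lit 6425550829) (nat_lit 228) (nat_lit 2118810021) (nat_lit 76) (nat_lit 6531289677) (nat_lit 29) (nat_lit 5) (nat_lit 32) (nat_lit 5) (nat_lit 30) (nat_lit 4) (nat_lit 379) (nat_lit 272) (nat_lit 249)) (XT.lf (nat_lit 0) (nat_lit 11462453895) (nat_lit 152) (nat_lit 1910104125) (nat_lit 228) (nat_lit 2001273882) (nat_lit 27) (nat_lit 5) (nat_lit 29) (nat_lit 5) (nat_lit 30) (nat_lit 4) (nat_lit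 380) (nat_lit 272) (nat_lit 248))))))))
noncomputable def xc7 : XT := (XT.nd (nat_lit 45708) (nat_lit 0) (nat_lit 532) (XT.nd (nat_lit 44928) (nat_lit 0) (nat_lit 4636) (XT.nd (nat_lit 390) (nat_lit 532) (nat_lit 0) (XT.nd (nat_lit 156) (nat_lit 304) (nat_lit 0) (XT.nd (nat_lit 78) (nat_lit 152) (nat_lit 0) (XT.lf (nat_lit 0) (nat_lit 4780513683) (nat_lit 228) (nat_lit 6018507337) (nat_lit 76) (nat_lit 4881381227) (nat_lit 24) (nat_lit 5) (nat_lit 27) (nat_lit 5) (nat_lit 25) (nat_lit 4) (nat_lit 381) (nat_lit 272) (nat_lit 247)) (XT.lf (nat_lit 0) (nat_lit 7574448084) (nat_lit 152) (nat_lit 4141891774) (nat_lit 228) (nat_lit 4280023635) (nat_lit 22) (nat_lit 5) (nat_lit 24) (nat_lit 5) (nat_lit 25) (nat_lit 4) (nat_lit 382) (nat_lit 272) (nat_lit 246))) (XT.nd (nat_lit 78) (nat_lit 76) (nat_lit 0) (XT.lf (nat_lit 0) (nat_lit 2487780843) (nat_lit 228) (nat_lit 11149010350) (nat_lit 76) (nat_lit 2685043222)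 (nat_lit 19) (nat_lit 5) (nat_lit 22) (nat_lit 5) (nat_lit 20) (nat_lit 4) (nat_lit 383) (nat_lit 272) (nat_lit 245)) (XT.nd (nat_lit 78) (nat_lit 0) (nat_lit 0) (XT.lf (nat_lit 0) (nat_lit 2414236435) (nat_lit 76) (nat_lit 6978982155) (nat_lit 152) (nat_lit 7263442896) (nat_lit 18) (nat_lit 5) (nat_lit 19) (nat_lit 5) (nat_lit 20) (nat_lit 4) (nat_lit 384) (nat_lit 272) (nat_lit 244)) (XT.lf (nat_lit 0) (nat_lit 16344675723) (nat_lit 76) (nat_lit 130197163) (nat_lit 152) (nat_lit 527291835) (nat_lit 18) (nat_lit 5) (nat_lit 19) (nat_lit 5) (nat_lit 20) (nat_lit 4) (nat_lit 385) (nat_lit 272) (nat_lit 243))))) (XT.nd (nat_lit 156) (nat_lit 228) (nat_lit 0) (XT.nd (nat_lit 78) (nat_lit 76) (nat_lit 0) (XT.lf (nat_lit 0) (nat_lit 6354247982) (nat_lit 228) (nat_lit 4123401490) (nat_lit 76) (nat_lit 6879015226) (nat_lit 15) (nat_lit 5) (nat_lit 18) (nat_lit 5) (nat_lit 16) (nat_lit 4) (nat_lit 386) (nat_lit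 272) (nat_lit 242)) (XT.lf (nat_lit 0) (nat_lit 9765096445) (nat_lit 76) (nat_lit 3635973666) (nat_lit 152) (nat_lit 4321351335) (nat_lit 14) (nat_lit 5) (nat_lit 15) (nat_lit 5) (nat_lit 16) (nat_lit 4) (nat_lit 387) (nat_lit 272) (nat_lit 241))) (XT.nd (nat_lit 44226) (nat_lit 0) (nat_lit 8360) (XT.lf (nat_lit 0) (nat_lit 2513507783) (nat_lit 228) (nat_lit 12217878851) (nat_lit 76) (nat_lit 3367703975) (nat_lit 11) (nat_lit 5) (nat_lit 14) (nat_lit 5) (nat_lit 12) (nat_lit 4) (nat_lit 388) (nat_lit 272) (nat_lit 240)) (XT.nd (nat_lit 78) (nat_lit 380) (nat_lit 0) (XT.lf (nat_lit 0) (nat_lit 3140435404) (nat_lit 380) (nat_lit 901467290) (nat_lit 380) (nat_lit 901467290) (nat_lit 126) (nat_lit 4) (nat_lit 131) (nat_lit 5) (nat_lit 131) (nat_lit 4) (nat_lit 354) (nat_lit 273) (nat_lit 273)) (XT.lf (nat_lit 0) (nat_lit 4605506919) (nat_lit 380) (nat_lit 1982329827) (nat_lit 0) (nat_lit 3441014902) (nat_lit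 121) (nat_lit 5) (nat_lit 126) (nat_lit 4) (nat_lit 121) (nat_lit 4) (nat_lit 355) (nat_lit 273) (nat_lit 272)))))) (XT.nd (nat_lit 390) (nat_lit 1596) (nat_lit 0) (XT.nd (nat_lit 156) (nat_lit 1064) (nat_lit 0) (XT.nd (nat_lit 78) (nat_lit 608) (nat_lit 0) (XT.lf (nat_lit 0) (nat_lit 945275118) (nat_lit 456) (nat_lit 385611051) (nat_lit 76) (nat_lit 8844973740) (nat_lit 115) (nat_lit 5) (nat_lit 121) (nat_lit 5) (nat_lit 116) (nat_lit 4) (nat_lit 356) (nat_lit 273) (nat_lit 271)) (XT.lf (nat_lit 0) (nat_lit 1162346044) (nat_lit 304) (nat_lit 6245454832) (nat_lit 304) (nat_lit 2919266398) (nat_lit 107) (nat_lit 4) (nat_lit 111) (nat_lit 5) (nat_lit 111) (nat_lit 4) (nat_lit 357) (nat_lit 273) (nat_lit 270))) (XT.nd (nat_lit 78) (nat_lit 684) (nat_lit 0) (XT.lf (nat_lit 0) (nat_lit 2676326236) (nat_lit 304) (nat_lit 812433285) (nat_lit 380) (nat_lit 6994534167) (nat_lit 102) (nat_lit 5) (nat_lit 106)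 (nat_lit 5) (nat_lit 107) (nat_lit 4) (nat_lit 358) (nat_lit 273) (nat_lit 269)) (XT.nd (nat_lit 78) (nat_lit 380) (nat_lit 0) (XT.lf (nat_lit 0) (nat_lit 4127005761) (nat_lit 304) (nat_lit 5898524096) (nat_lit 304) (nat_lit 618801457) (nat_lit 98) (nat_lit 4) (nat_lit 102) (nat_lit 5) (nat_lit 102) (nat_lit 4) (nat_lit 359) (nat_lit 273) (nat_lit 268)) (XT.lf (nat_lit 0) (nat_lit 5515255557) (nat_lit 304) (nat_lit 306760897) (nat_lit 380) (nat_lit 4988406746) (nat_lit 93) (nat_lit 5) (nat_lit 97) (nat_lit 5) (nat_lit 98) (nat_lit 4) (nat_lit 360) (nat_lit 273) (nat_lit 267))))) (XT.nd (nat_lit 156) (nat_lit 988) (nat_lit 0) (XT.nd (nat_lit 78) (nat_lit 228) (nat_lit 0) (XT.lf (nat_lit 0) (nat_lit 1430644111) (nat_lit 380) (nat_lit 4151855278) (nat_lit 76) (nat_lit 5399083971) (nat_lit 88) (nat_lit 5) (nat_lit 93) (nat_lit 5) (nat_lit 89) (nat_lit 4) (nat_lit 361) (nat_lit 273) (nat_lit 266)) (XT.lf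 (nat_lit 0) (nat_lit 7927637761) (nat_lit 304) (nat_lit 3081325261) (nat_lit 0) (nat_lit 149222547) (nat_lit 85) (nat_lit 5) (nat_lit 89) (nat_lit 4) (nat_lit 85) (nat_lit 4) (nat_lit 362) (nat_lit 273) (nat_lit 265))) (XT.nd (nat_lit 78) (nat_lit 608) (nat_lit 0) (XT.lf (nat_lit 0) (nat_lit 3225244301) (nat_lit 380) (nat_lit 2112676565) (nat_lit 76) (nat_lit 6001991308) (nat_lit 80) (nat_lit 5) (nat_lit 85) (nat_lit 5) (nat_lit 81) (nat_lit 4) (nat_lit 363) (nat_lit 273) (nat_lit 264)) (XT.nd (nat_lit 78) (nat_lit 380) (nat_lit 0) (XT.lf (nat_lit 0) (nat_lit 9787290740) (nat_lit 304) (nat_lit 1219832220) (nat_lit 0) (nat_lit 520438468) (nat_lit 77) (nat_lit 5) (nat_lit 81) (nat_lit 4) (nat_lit 77) (nat_lit 4) (nat_lit 364) (nat_lit 273) (nat_lit 263)) (XT.lf (nat_lit 0) (nat_lit 4752241638) (nat_lit 380) (nat_lit 452132142) (nat_lit 76) (nat_lit 6516062449) (nat_lit 72) (nat_lit 5) (nat_lit 77) (nat_lit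 5) (nat_lit 73) (nat_lit 4) (nat_lit 365) (nat_lit 273) (nat_lit 262))))))) (XT.nd (nat_lit 780) (nat_lit 1596) (nat_lit 0) (XT.nd (nat_lit 390) (nat_lit 912) (nat_lit 0) (XT.nd (nat_lit 156) (nat_lit 836) (nat_lit 0) (XT.nd (nat_lit 78) (nat_lit 304) (nat_lit 0) (XT.lf (nat_lit 0) (nat_lit 235294126) (nat_lit 228) (nat_lit 11142964542) (nat_lit 228) (nat_lit 541386360) (nat_lit 66) (nat_lit 4) (nat_lit 69) (nat_lit 5) (nat_lit 69) (nat_lit 4) (nat_lit 366) (nat_lit 273) (nat_lit 261)) (XT.lf (nat_lit 0) (nat_lit 777899952) (nat_lit 228) (nat_lit 5214540587) (nat_lit 304) (nat_lit 6131745704) (nat_lit 62) (nat_lit 5) (nat_lit 65) (nat_lit 5) (nat_lit 66) (nat_lit 4) (nat_lit 367) (nat_lit 273) (nat_lit 260))) (XT.nd (nat_lit 78) (nat_lit 532) (nat_lit 0) (XT.lf (nat_lit 0) (nat_lit 338118379) (nat_lit 304) (nat_lit 11112057593) (nat_lit 76) (nat_lit 885330303) (nat_lit 58) (nat_lit 5) (nat_lit 62)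 (nat_lit 5) (nat_lit 59) (nat_lit 4) (nat_lit 368) (nat_lit 273) (nat_lit 259)) (XT.nd (nat_lit 78) (nat_lit 304) (nat_lit 0) (XT.lf (nat_lit 0) (nat_lit 1497971821) (nat_lit 228) (nat_lit 5414525000) (nat_lit 304) (nat_lit 5640006206) (nat_lit 55) (nat_lit 5) (nat_lit 58) (nat_lit 5) (nat_lit 59) (nat_lit 4) (nat_lit 369) (nat_lit 273) (nat_lit 258)) (XT.lf (nat_lit 0) (nat_lit 860758341) (nat_lit 304) (nat_lit 11120058314) (nat_lit 76) (nat_lit 795804841) (nat_lit 51) (nat_lit 5) (nat_lit 55) (nat_lit 5) (nat_lit 52) (nat_lit 4) (nat_lit 370) (nat_lit 273) (nat_lit 257))))) (XT.nd (nat_lit 156) (nat_lit 456) (nat_lit 0) (XT.nd (nat_lit 78) (nat_lit 304) (nat_lit 0) (XT.lf (nat_lit 0) (nat_lit 1625421486) (nat_lit 152) (nat_lit 5851591635) (nat_lit 228) (nat_lit 5529783477) (nat_lit 49) (nat_lit 5) (nat_lit 51) (nat_lit 5) (nat_lit 52) (nat_lit 4) (nat_lit 371) (nat_lit 273) (nat_lit 256)) (XT.lf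 (nat_lit 0) (nat_lit 998425838) (nat_lit 304) (nat_lit 11786572369) (nat_lit 76) (nat_lit 459476424) (nat_lit 45) (nat_lit 5) (nat_lit 49) (nat_lit 5) (nat_lit 46) (nat_lit 4) (nat_lit 372) (nat_lit 273) (nat_lit 255))) (XT.nd (nat_lit 78) (nat_lit 304) (nat_lit 0) (XT.lf (nat_lit 0) (nat_lit 1075499927) (nat_lit 152) (nat_lit 6573632130) (nat_lit 228) (nat_lit 5839403319) (nat_lit 43) (nat_lit 5) (nat_lit 45) (nat_lit 5) (nat_lit 46) (nat_lit 4) (nat_lit 373) (nat_lit 273) (nat_lit 254)) (XT.nd (nat_lit 78) (nat_lit 0) (nat_lit 0) (XT.lf (nat_lit 0) (nat_lit 537469298) (nat_lit 228) (nat_lit 174895213) (nat_lit 304) (nat_lit 13028215224) (nat_lit 39) (nat_lit 5) (nat_lit 42) (nat_lit 5) (nat_lit 43) (nat_lit 5) (nat_lit 374) (nat_lit 273) (nat_lit 253)) (XT.lf (nat_lit 0) (nat_lit 7388731433) (nat_lit 304) (nat_lit 242340323) (nat_lit 76) (nat_lit 6368211632) (nat_lit 39) (nat_lit 5) (nat_lit 43)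 (nat_lit 5) (nat_lit 40) (nat_lit 4) (nat_lit 375) (nat_lit 273) (nat_lit 252)))))) (XT.nd (nat_lit 390) (nat_lit 684) (nat_lit 0) (XT.nd (nat_lit 156) (nat_lit 532) (nat_lit 0) (XT.nd (nat_lit 78) (nat_lit 228) (nat_lit 0) (XT.lf (nat_lit 0) (nat_lit 13074672021) (nat_lit 152) (nat_lit 1160855095) (nat_lit 228) (nat_lit 30835312) (nat_lit 37) (nat_lit 5) (nat_lit 39) (nat_lit 5) (nat_lit 40) (nat_lit 4) (nat_lit 376) (nat_lit 273) (nat_lit 251)) (XT.lf (nat_lit 0) (nat_lit 6659831749) (nat_lit 228) (nat_lit 2409542752) (nat_lit 76) (nat_lit 5471178776) (nat_lit 34) (nat_lit 5) (nat_lit 37) (nat_lit 5) (nat_lit 35) (nat_lit 4) (nat_lit 377) (nat_lit 273) (nat_lit 250))) (XT.nd (nat_lit 78) (nat_lit 380) (nat_lit 0) (XT.lf (nat_lit 0) (nat_lit 10983336326) (nat_lit 152) (nat_lit 2541557418) (nat_lit 228) (nat_lit 1298605892) (nat_lit 32) (nat_lit 5) (nat_lit 34) (nat_lit 5) (nat_lit 35) (nat_lit 4)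 (nat_lit 378) (nat_lit 273) (nat_lit 249)) (XT.nd (nat_lit 78) (nat_lit 152) (nat_lit 0) (XT.lf (nat_lit 0) (nat_lit 5403289387) (nat_lit 228) (nat_lit 5553662752) (nat_lit 76) (nat_lit 4157401508) (nat_lit 29) (nat_lit 5) (nat_lit 32) (nat_lit 5) (nat_lit 30) (nat_lit 4) (nat_lit 379) (nat_lit 273) (nat_lit 248)) (XT.lf (nat_lit 0) (nat_lit 7883969248) (nat_lit 152) (nat_lit 4388709531) (nat_lit 228) (nat_lit 3141415764) (nat_lit 27) (nat_lit 5) (nat_lit 29) (nat_lit 5) (nat_lit 30) (nat_lit 4) (nat_lit 380) (nat_lit 273) (nat_lit 247))))) (XT.nd (nat_lit 156) (nat_lit 304) (nat_lit 0) (XT.nd (nat_lit 78) (nat_lit 152) (nat_lit 0) (XT.lf (nat_lit 0) (nat_lit 3560580868) (nat_lit 228) (nat_lit 9800375279) (nat_lit 76) (nat_lit 2361758495) (nat_lit 24) (nat_lit 5) (nat_lit 27) (nat_lit 5) (nat_lit 25) (nat_lit 4) (nat_lit 381) (nat_lit 273) (nat_lit 246)) (XT.lf (nat_lit 0) (nat_lit 3645966537) (nat_lit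 152) (nat_lit 6771840863) (nat_lit 228) (nat_lit 5622447102) (nat_lit 22) (nat_lit 5) (nat_lit 24) (nat_lit 5) (nat_lit 25) (nat_lit 4) (nat_lit 382) (nat_lit 273) (nat_lit 245))) (XT.nd (nat_lit 78) (nat_lit 76) (nat_lit 0) (XT.lf (nat_lit 0) (nat_lit 1066179753) (nat_lit 228) (nat_lit 15288921432) (nat_lit 76) (nat_lit 12740537) (nat_lit 19) (nat_lit 5) (nat_lit 22) (nat_lit 5) (nat_lit 20) (nat_lit 4) (nat_lit 383) (nat_lit 273) (nat_lit 244)) (XT.nd (nat_lit 78) (nat_lit 76) (nat_lit 0) (XT.lf (nat_lit 0) (nat_lit 7904096781) (nat_lit 228) (nat_lit 1850831425) (nat_lit 76) (nat_lit 6949097118) (nat_lit 19) (nat_lit 5) (nat_lit 22) (nat_lit 5) (nat_lit 20) (nat_lit 4) (nat_lit 384) (nat_lit 273) (nat_lit 243)) (XT.lf (nat_lit 0) (nat_lit 11963034474) (nat_lit 76) (nat_lit 2959607086) (nat_lit 152) (nat_lit 2128155132) (nat_lit 18) (nat_lit 5) (nat_lit 19) (nat_lit 5) (nat_lit 20) (nat_lit 4) (nat_lit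 385) (nat_lit 273) (nat_lit 242))))))))
noncomputable def xc8 : XT := (XT.nd (nat_lit 45552) (nat_lit 0) (nat_lit 228) (XT.nd (nat_lit 44772) (nat_lit 0) (nat_lit 3800) (XT.nd (nat_lit 44382) (nat_lit 0) (nat_lit 6916) (XT.nd (nat_lit 156) (nat_lit 228) (nat_lit 0) (XT.nd (nat_lit 78) (nat_lit 76) (nat_lit 0) (XT.lf (nat_lit 0) (nat_lit 4676030963) (nat_lit 228) (nat_lit 8724717355) (nat_lit 76) (nat_lit 4006728868) (nat_lit 15) (nat_lit 5) (nat_lit 18) (nat_lit 5) (nat_lit 16) (nat_lit 4) (nat_lit 386) (nat_lit 273) (nat_lit 241)) (XT.lf (nat_lit 0) (nat_lit 5012213587) (nat_lit 76) (nat_lit 6630616202) (nat_lit 152) (nat_lit 6132010103) (nat_lit 14) (nat_lit 5) (nat_lit 15) (nat_lit 5) (nat_lit 16) (nat_lit 4) (nat_lit 387) (nat_lit 273) (nat_lit 240))) (XT.nd (nat_lit 44070) (nat_lit 0) (nat_lit 9120) (XT.lf (nat_lit 0) (nat_lit 625858048) (nat_lit 228) (nat_lit 17199020454) (nat_lit 76) (nat_lit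 328885660) (nat_lit 11) (nat_lit 5) (nat_lit 14) (nat_lit 5) (nat_lit 12) (nat_lit 4) (nat_lit 388) (nat_lit 273) (nat_lit 239)) (XT.nd (nat_lit 78) (nat_lit 456) (nat_lit 0) (XT.lf (nat_lit 0) (nat_lit 1375745922) (nat_lit 380) (nat_lit 1715658212) (nat_lit 380) (nat_lit 1715658212) (nat_lit 137) (nat_lit 4) (nat_lit 142) (nat_lit 5) (nat_lit 142) (nat_lit 4) (nat_lit 352) (nat_lit 274) (nat_lit 274)) (XT.lf (nat_lit 0) (nat_lit 2849234650) (nat_lit 456) (nat_lit 5273928460) (nat_lit 0) (nat_lit 1625819337) (nat_lit 131) (nat_lit 5) (nat_lit 137) (nat_lit 4) (nat_lit 131) (nat_lit 4) (nat_lit 353) (nat_lit 274) (nat_lit 273))))) (XT.nd (nat_lit 156) (nat_lit 1444) (nat_lit 0) (XT.nd (nat_lit 78) (nat_lit 380) (nat_lit 0) (XT.lf (nat_lit 0) (nat_lit 6167584185) (nat_lit 380) (nat_lit 3065923505) (nat_lit 380) (nat_lit 654726335) (nat_lit 126) (nat_lit 4) (nat_lit 131) (nat_lit 5) (nat_lit 131) (nat_lit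 4) (nat_lit 354) (nat_lit 274) (nat_lit 272)) (XT.lf (nat_lit 0) (nat_lit 5656649511) (nat_lit 380) (nat_lit 2213050131) (nat_lit 0) (nat_lit 2162155942) (nat_lit 121) (nat_lit 5) (nat_lit 126) (nat_lit 4) (nat_lit 121) (nat_lit 4) (nat_lit 355) (nat_lit 274) (nat_lit 271))) (XT.nd (nat_lit 78) (nat_lit 988) (nat_lit 0) (XT.lf (nat_lit 0) (nat_lit 1906001990) (nat_lit 456) (nat_lit 742014960) (nat_lit 76) (nat_lit 7532202032) (nat_lit 115) (nat_lit 5) (nat_lit 121) (nat_lit 5) (nat_lit 116) (nat_lit 4) (nat_lit 356) (nat_lit 274) (nat_lit 270)) (XT.nd (nat_lit 78) (nat_lit 380) (nat_lit 0) (XT.lf (nat_lit 0) (nat_lit 687003074) (nat_lit 304) (nat_lit 7596508803) (nat_lit 304) (nat_lit 2049632199) (nat_lit 107) (nat_lit 4) (nat_lit 111) (nat_lit 5) (nat_lit 111) (nat_lit 4) (nat_lit 357) (nat_lit 274) (nat_lit 269)) (XT.lf (nat_lit 0) (nat_lit 2070049542) (nat_lit 304) (nat_lit 2202858992) (nat_lit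 380) (nat_lit 6217847202) (nat_lit 102) (nat_lit 5) (nat_lit 106) (nat_lit 5) (nat_lit 107) (nat_lit 4) (nat_lit 358) (nat_lit 274) (nat_lit 268)))))) (XT.nd (nat_lit 390) (nat_lit 1444) (nat_lit 0) (XT.nd (nat_lit 156) (nat_lit 988) (nat_lit 0) (XT.nd (nat_lit 78) (nat_lit 304) (nat_lit 0) (XT.lf (nat_lit 0) (nat_lit 72442135) (nat_lit 380) (nat_lit 7251736142) (nat_lit 76) (nat_lit 3329277812) (nat_lit 97) (nat_lit 5) (nat_lit 102) (nat_lit 5) (nat_lit 98) (nat_lit 4) (nat_lit 359) (nat_lit 274) (nat_lit 267)) (XT.lf (nat_lit 0) (nat_lit 4655845311) (nat_lit 304) (nat_lit 1775485577) (nat_lit 380) (nat_lit 4389628319) (nat_lit 93) (nat_lit 5) (nat_lit 97) (nat_lit 5) (nat_lit 98) (nat_lit 4) (nat_lit 360) (nat_lit 274) (nat_lit 266))) (XT.nd (nat_lit 78) (nat_lit 608) (nat_lit 0) (XT.lf (nat_lit 0) (nat_lit 1937877440) (nat_lit 380) (nat_lit 5149717729) (nat_lit 76) (nat_lit 3906134863) (nat_lit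 88) (nat_lit 5) (nat_lit 93) (nat_lit 5) (nat_lit 89) (nat_lit 4) (nat_lit 361) (nat_lit 274) (nat_lit 265)) (XT.nd (nat_lit 78) (nat_lit 380) (nat_lit 0) (XT.lf (nat_lit 0) (nat_lit 6957154568) (nat_lit 228) (nat_lit 1403055662) (nat_lit 304) (nat_lit 2811629383) (nat_lit 85) (nat_lit 5) (nat_lit 88) (nat_lit 5) (nat_lit 89) (nat_lit 4) (nat_lit 362) (nat_lit 274) (nat_lit 264)) (XT.lf (nat_lit 0) (nat_lit 3555467716) (nat_lit 380) (nat_lit 3378229472) (nat_lit 76) (nat_lit 4421492121) (nat_lit 80) (nat_lit 5) (nat_lit 85) (nat_lit 5) (nat_lit 81) (nat_lit 4) (nat_lit 363) (nat_lit 274) (nat_lit 263))))) (XT.nd (nat_lit 156) (nat_lit 836) (nat_lit 0) (XT.nd (nat_lit 78) (nat_lit 380) (nat_lit 0) (XT.lf (nat_lit 0) (nat_lit 8920863781) (nat_lit 228) (nat_lit 1119553139) (nat_lit 304) (nat_lit 1503976667) (nat_lit 77) (nat_lit 5) (nat_lit 80) (nat_lit 5) (nat_lit 81) (nat_lit 4) (nat_lit 364) (nat_lit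 274) (nat_lit 262)) (XT.lf (nat_lit 0) (nat_lit 4904023486) (nat_lit 380) (nat_lit 1993840089) (nat_lit 76) (nat_lit 4841014843) (nat_lit 72) (nat_lit 5) (nat_lit 77) (nat_lit 5) (nat_lit 73) (nat_lit 4) (nat_lit 365) (nat_lit 274) (nat_lit 261))) (XT.nd (nat_lit 78) (nat_lit 608) (nat_lit 0) (XT.lf (nat_lit 0) (nat_lit 10488508432) (nat_lit 228) (nat_lit 961111743) (nat_lit 304) (nat_lit 490087537) (nat_lit 69) (nat_lit 5) (nat_lit 72) (nat_lit 5) (nat_lit 73) (nat_lit 4) (nat_lit 366) (nat_lit 274) (nat_lit 260)) (XT.nd (nat_lit 78) (nat_lit 304) (nat_lit 0) (XT.lf (nat_lit 0) (nat_lit 5958986464) (nat_lit 304) (nat_lit 1058861849) (nat_lit 76) (nat_lit 5128087058) (nat_lit 65) (nat_lit 5) (nat_lit 69) (nat_lit 5) (nat_lit 66) (nat_lit 4) (nat_lit 367) (nat_lit 274) (nat_lit 259)) (XT.lf (nat_lit 0) (nat_lit 200379774) (nat_lit 304) (nat_lit 764661465) (nat_lit 76) (nat_lit 11393897472) (nat_lit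 61) (nat_lit 5) (nat_lit 65) (nat_lit 5) (nat_lit 62) (nat_lit 5) (nat_lit 368) (nat_lit 274) (nat_lit 258))))))) (XT.nd (nat_lit 780) (nat_lit 1368) (nat_lit 0) (XT.nd (nat_lit 390) (nat_lit 988) (nat_lit 0) (XT.nd (nat_lit 156) (nat_lit 684) (nat_lit 0) (XT.nd (nat_lit 78) (nat_lit 304) (nat_lit 0) (XT.lf (nat_lit 0) (nat_lit 6692129703) (nat_lit 304) (nat_lit 642037157) (nat_lit 76) (nat_lit 5243431806) (nat_lit 58) (nat_lit 5) (nat_lit 62) (nat_lit 5) (nat_lit 59) (nat_lit 4) (nat_lit 369) (nat_lit 274) (nat_lit 257)) (XT.lf (nat_lit 0) (nat_lit 537377338) (nat_lit 304) (nat_lit 635966869) (nat_lit 76) (nat_lit 11630037675) (nat_lit 54) (nat_lit 5) (nat_lit 58) (nat_lit 5) (nat_lit 55) (nat_lit 5) (nat_lit 370) (nat_lit 274) (nat_lit 256))) (XT.nd (nat_lit 78) (nat_lit 456) (nat_lit 0) (XT.lf (nat_lit 0) (nat_lit 7071221406) (nat_lit 304) (nat_lit 819292378) (nat_lit 76) (nat_lit 5144701239) (nat_lit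 51) (nat_lit 5) (nat_lit 55) (nat_lit 5) (nat_lit 52) (nat_lit 4) (nat_lit 371) (nat_lit 274) (nat_lit 255)) (XT.nd (nat_lit 78) (nat_lit 228) (nat_lit 0) (XT.lf (nat_lit 0) (nat_lit 492637902) (nat_lit 228) (nat_lit 1141788267) (nat_lit 76) (nat_lit 11640078072) (nat_lit 48) (nat_lit 5) (nat_lit 51) (nat_lit 5) (nat_lit 49) (nat_lit 5) (nat_lit 372) (nat_lit 274) (nat_lit 254)) (XT.lf (nat_lit 0) (nat_lit 7059649000) (nat_lit 304) (nat_lit 1674566275) (nat_lit 76) (nat_lit 4786032695) (nat_lit 45) (nat_lit 5) (nat_lit 49) (nat_lit 5) (nat_lit 46) (nat_lit 4) (nat_lit 373) (nat_lit 274) (nat_lit 253))))) (XT.nd (nat_lit 156) (nat_lit 532) (nat_lit 0) (XT.nd (nat_lit 78) (nat_lit 228) (nat_lit 0) (XT.lf (nat_lit 0) (nat_lit 26864356) (nat_lit 228) (nat_lit 2370434732) (nat_lit 76) (nat_lit 11376531580) (nat_lit 42) (nat_lit 5) (nat_lit 45) (nat_lit 5) (nat_lit 43) (nat_lit 5) (nat_lit 374) (nat_lit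 274) (nat_lit 252)) (XT.lf (nat_lit 0) (nat_lit 6615999629) (nat_lit 304) (nat_lit 3300721218) (nat_lit 76) (nat_lit 4117566495) (nat_lit 39) (nat_lit 5) (nat_lit 43) (nat_lit 5) (nat_lit 40) (nat_lit 4) (nat_lit 375) (nat_lit 274) (nat_lit 251))) (XT.nd (nat_lit 78) (nat_lit 380) (nat_lit 0) (XT.lf (nat_lit 0) (nat_lit 9877323536) (nat_lit 152) (nat_lit 3509271610) (nat_lit 228) (nat_lit 916303386) (nat_lit 37) (nat_lit 5) (nat_lit 39) (nat_lit 5) (nat_lit 40) (nat_lit 4) (nat_lit 376) (nat_lit 274) (nat_lit 250)) (XT.nd (nat_lit 78) (nat_lit 152) (nat_lit 0) (XT.lf (nat_lit 0) (nat_lit 5693592845) (nat_lit 228) (nat_lit 5800546116) (nat_lit 76) (nat_lit 3084920833) (nat_lit 34) (nat_lit 5) (nat_lit 37) (nat_lit 5) (nat_lit 35) (nat_lit 4) (nat_lit 377) (nat_lit 274) (nat_lit 249)) (XT.lf (nat_lit 0) (nat_lit 7450545448) (nat_lit 152) (nat_lit 5031075113) (nat_lit 228) (nat_lit 2381933808) (nat_lit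 32) (nat_lit 5) (nat_lit 34) (nat_lit 5) (nat_lit 35) (nat_lit 4) (nat_lit 378) (nat_lit 274) (nat_lit 248)))))) (XT.nd (nat_lit 390) (nat_lit 608) (nat_lit 0) (XT.nd (nat_lit 156) (nat_lit 380) (nat_lit 0) (XT.nd (nat_lit 78) (nat_lit 152) (nat_lit 0) (XT.lf (nat_lit 0) (nat_lit 4239960779) (nat_lit 228) (nat_lit 9287860940) (nat_lit 76) (nat_lit 1628618673) (nat_lit 29) (nat_lit 5) (nat_lit 32) (nat_lit 5) (nat_lit 30) (nat_lit 4) (nat_lit 379) (nat_lit 274) (nat_lit 247)) (XT.lf (nat_lit 0) (nat_lit 4005014919) (nat_lit 152) (nat_lit 7026350602) (nat_lit 228) (nat_lit 4426382417) (nat_lit 27) (nat_lit 5) (nat_lit 29) (nat_lit 5) (nat_lit 30) (nat_lit 4) (nat_lit 380) (nat_lit 274) (nat_lit 246))) (XT.nd (nat_lit 78) (nat_lit 152) (nat_lit 0) (XT.lf (nat_lit 0) (nat_lit 1877607588) (nat_lit 152) (nat_lit 320745503) (nat_lit 228) (nat_lit 13570070700) (nat_lit 24) (nat_lit 5) (nat_lit 26) (nat_lit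 5) (nat_lit 27) (nat_lit 5) (nat_lit 381) (nat_lit 274) (nat_lit 245)) (XT.nd (nat_lit 78) (nat_lit 152) (nat_lit 0) (XT.lf (nat_lit 0) (nat_lit 8978278172) (nat_lit 228) (nat_lit 582530627) (nat_lit 76) (nat_lit 6526707310) (nat_lit 24) (nat_lit 5) (nat_lit 27) (nat_lit 5) (nat_lit 25) (nat_lit 4) (nat_lit 382) (nat_lit 274) (nat_lit 244)) (XT.lf (nat_lit 0) (nat_lit 13112882882) (nat_lit 152) (nat_lit 2834408135) (nat_lit 228) (nat_lit 469189049) (nat_lit 22) (nat_lit 5) (nat_lit 24) (nat_lit 5) (nat_lit 25) (nat_lit 4) (nat_lit 383) (nat_lit 274) (nat_lit 243))))) (XT.nd (nat_lit 156) (nat_lit 304) (nat_lit 0) (XT.nd (nat_lit 78) (nat_lit 76) (nat_lit 0) (XT.lf (nat_lit 0) (nat_lit 6284264672) (nat_lit 228) (nat_lit 6395502438) (nat_lit 76) (nat_lit 4074775762) (nat_lit 19) (nat_lit 5) (nat_lit 22) (nat_lit 5) (nat_lit 20) (nat_lit 4) (nat_lit 384) (nat_lit 274) (nat_lit 242)) (XT.lf (nat_lit 0)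 (nat_lit 7268669299) (nat_lit 76) (nat_lit 5954791491) (nat_lit 152) (nat_lit 3879446190) (nat_lit 18) (nat_lit 5) (nat_lit 19) (nat_lit 5) (nat_lit 20) (nat_lit 4) (nat_lit 385) (nat_lit 274) (nat_lit 241))) (XT.nd (nat_lit 78) (nat_lit 76) (nat_lit 0) (XT.lf (nat_lit 0) (nat_lit 2847663630) (nat_lit 228) (nat_lit 13645213816) (nat_lit 76) (nat_lit 968943826) (nat_lit 15) (nat_lit 5) (nat_lit 18) (nat_lit 5) (nat_lit 16) (nat_lit 4) (nat_lit 386) (nat_lit 274) (nat_lit 240)) (XT.nd (nat_lit 78) (nat_lit 76) (nat_lit 0) (XT.lf (nat_lit 0) (nat_lit 9734187380) (nat_lit 228) (nat_lit 60652041) (nat_lit 76) (nat_lit 8035955388) (nat_lit 15) (nat_lit 5) (nat_lit 18) (nat_lit 5) (nat_lit 16) (nat_lit 4) (nat_lit 387) (nat_lit 274) (nat_lit 239)) (XT.lf (nat_lit 0) (nat_lit 13943576219) (nat_lit 76) (nat_lit 2880186912) (nat_lit 152) (nat_lit 1387155800) (nat_lit 14) (nat_lit 5) (nat_lit 15) (nat_lit 5)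 (nat_lit 16) (nat_lit 4) (nat_lit 388) (nat_lit 274) (nat_lit 238))))))))
noncomputable def xc9 : XT := (XT.nd (nat_lit 1560) (nat_lit 3344) (nat_lit 0) (XT.nd (nat_lit 780) (nat_lit 2964) (nat_lit 0) (XT.nd (nat_lit 390) (nat_lit 2128) (nat_lit 0) (XT.nd (nat_lit 156) (nat_lit 1292) (nat_lit 0) (XT.nd (nat_lit 78) (nat_lit 912) (nat_lit 0) (XT.lf (nat_lit 0) (nat_lit 2178166740) (nat_lit 456) (nat_lit 321605690) (nat_lit 0) (nat_lit 2178166740) (nat_lit 154) (nat_lit 5) (nat_lit 160) (nat_lit 4) (nat_lit 154) (nat_lit 4) (nat_lit 350) (nat_lit 275) (nat_lit 275)) (XT.lf (nat_lit 0) (nat_lit 1016525443) (nat_lit 380) (nat_lit 135728008) (nat_lit 456) (nat_lit 8331622334) (nat_lit 142) (nat_lit 5) (nat_lit 147) (nat_lit 5) (nat_lit 148) (nat_lit 4) (nat_lit 351) (nat_lit 275) (nat_lit 274))) (XT.nd (nat_lit 78) (nat_lit 912) (nat_lit 0) (XT.lf (nat_lit 0) (nat_lit 2640102386) (nat_lit 380) (nat_lit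 4754360087) (nat_lit 380) (nat_lit 2221156339) (nat_lit 137) (nat_lit 4) (nat_lit 142) (nat_lit 5) (nat_lit 142) (nat_lit 4) (nat_lit 352) (nat_lit 275) (nat_lit 273)) (XT.nd (nat_lit 78) (nat_lit 456) (nat_lit 0) (XT.lf (nat_lit 0) (nat_lit 3961208139) (nat_lit 456) (nat_lit 5500884184) (nat_lit 0) (nat_lit 289893196) (nat_lit 131) (nat_lit 5) (nat_lit 137) (nat_lit 4) (nat_lit 131) (nat_lit 4) (nat_lit 353) (nat_lit 275) (nat_lit 272)) (XT.lf (nat_lit 0) (nat_lit 374724624) (nat_lit 456) (nat_lit 4067557470) (nat_lit 76) (nat_lit 5450386100) (nat_lit 125) (nat_lit 5) (nat_lit 131) (nat_lit 5) (nat_lit 126) (nat_lit 4) (nat_lit 354) (nat_lit 275) (nat_lit 271))))) (XT.nd (nat_lit 156) (nat_lit 1368) (nat_lit 0) (XT.nd (nat_lit 78) (nat_lit 456) (nat_lit 0) (XT.lf (nat_lit 0) (nat_lit 6595361151) (nat_lit 380) (nat_lit 2674692337) (nat_lit 0) (nat_lit 767812590) (nat_lit 121) (nat_lit 5) (nat_lit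 126) (nat_lit 4) (nat_lit 121) (nat_lit 4) (nat_lit 355) (nat_lit 275) (nat_lit 270)) (XT.lf (nat_lit 0) (nat_lit 2753377136) (nat_lit 456) (nat_lit 1331401900) (nat_lit 76) (nat_lit 6102808606) (nat_lit 115) (nat_lit 5) (nat_lit 121) (nat_lit 5) (nat_lit 116) (nat_lit 4) (nat_lit 356) (nat_lit 275) (nat_lit 269))) (XT.nd (nat_lit 78) (nat_lit 1064) (nat_lit 0) (XT.lf (nat_lit 0) (nat_lit 9044245732) (nat_lit 380) (nat_lit 26182566) (nat_lit 0) (nat_lit 1271834171) (nat_lit 111) (nat_lit 5) (nat_lit 116) (nat_lit 4) (nat_lit 111) (nat_lit 4) (nat_lit 357) (nat_lit 275) (nat_lit 268)) (XT.nd (nat_lit 78) (nat_lit 380) (nat_lit 0) (XT.lf (nat_lit 0) (nat_lit 1223392511) (nat_lit 304) (nat_lit 3717503041) (nat_lit 380) (nat_lit 5560372487) (nat_lit 102) (nat_lit 5) (nat_lit 106) (nat_lit 5) (nat_lit 107) (nat_lit 4) (nat_lit 358) (nat_lit 275) (nat_lit 267)) (XT.lf (nat_lit 0) (nat_lit 637549654) (nat_lit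 380) (nat_lit 8235029904) (nat_lit 76) (nat_lit 1792993661) (nat_lit 97) (nat_lit 5) (nat_lit 102) (nat_lit 5) (nat_lit 98) (nat_lit 4) (nat_lit 359) (nat_lit 275) (nat_lit 266)))))) (XT.nd (nat_lit 390) (nat_lit 1444) (nat_lit 0) (XT.nd (nat_lit 156) (nat_lit 836) (nat_lit 0) (XT.nd (nat_lit 78) (nat_lit 380) (nat_lit 0) (XT.lf (nat_lit 0) (nat_lit 3551553349) (nat_lit 304) (nat_lit 3371469043) (nat_lit 380) (nat_lit 3911537137) (nat_lit 93) (nat_lit 5) (nat_lit 97) (nat_lit 5) (nat_lit 98) (nat_lit 4) (nat_lit 360) (nat_lit 275) (nat_lit 265)) (XT.lf (nat_lit 0) (nat_lit 2325530168) (nat_lit 380) (nat_lit 6397053198) (nat_lit 76) (nat_lit 2286382425) (nat_lit 88) (nat_lit 5) (nat_lit 93) (nat_lit 5) (nat_lit 89) (nat_lit 4) (nat_lit 361) (nat_lit 275) (nat_lit 264))) (XT.nd (nat_lit 78) (nat_lit 608) (nat_lit 0) (XT.lf (nat_lit 0) (nat_lit 5586850837) (nat_lit 228) (nat_lit 3087646500) (nat_lit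 304) (nat_lit 2514059087) (nat_lit 85) (nat_lit 5) (nat_lit 88) (nat_lit 5) (nat_lit 89) (nat_lit 4) (nat_lit 362) (nat_lit 275) (nat_lit 263)) (XT.nd (nat_lit 78) (nat_lit 228) (nat_lit 0) (XT.lf (nat_lit 0) (nat_lit 3764366104) (nat_lit 380) (nat_lit 4898086357) (nat_lit 76) (nat_lit 2711123484) (nat_lit 80) (nat_lit 5) (nat_lit 85) (nat_lit 5) (nat_lit 81) (nat_lit 4) (nat_lit 363) (nat_lit 275) (nat_lit 262)) (XT.lf (nat_lit 0) (nat_lit 7275967628) (nat_lit 228) (nat_lit 2899904649) (nat_lit 304) (nat_lit 1388389507) (nat_lit 77) (nat_lit 5) (nat_lit 80) (nat_lit 5) (nat_lit 81) (nat_lit 4) (nat_lit 364) (nat_lit 275) (nat_lit 261))))) (XT.nd (nat_lit 156) (nat_lit 836) (nat_lit 0) (XT.nd (nat_lit 78) (nat_lit 228) (nat_lit 0) (XT.lf (nat_lit 0) (nat_lit 4932551090) (nat_lit 380) (nat_lit 3794919639) (nat_lit 76) (nat_lit 3032983835) (nat_lit 72) (nat_lit 5) (nat_lit 77) (nat_lit 5) (nat_lit 73)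 (nat_lit 4) (nat_lit 365) (nat_lit 275) (nat_lit 260)) (XT.lf (nat_lit 0) (nat_lit 8560211346) (nat_lit 228) (nat_lit 2844290963) (nat_lit 304) (nat_lit 558266195) (nat_lit 69) (nat_lit 5) (nat_lit 72) (nat_lit 5) (nat_lit 73) (nat_lit 4) (nat_lit 366) (nat_lit 275) (nat_lit 259))) (XT.nd (nat_lit 78) (nat_lit 532) (nat_lit 0) (XT.lf (nat_lit 0) (nat_lit 5805213694) (nat_lit 304) (nat_lit 3150110536) (nat_lit 76) (nat_lit 3215421722) (nat_lit 65) (nat_lit 5) (nat_lit 69) (nat_lit 5) (nat_lit 66) (nat_lit 4) (nat_lit 367) (nat_lit 275) (nat_lit 258)) (XT.nd (nat_lit 78) (nat_lit 304) (nat_lit 0) (XT.lf (nat_lit 0) (nat_lit 9374863815) (nat_lit 228) (nat_lit 2959400595) (nat_lit 304) (nat_lit 51001506) (nat_lit 62) (nat_lit 5) (nat_lit 65) (nat_lit 5) (nat_lit 66) (nat_lit 4) (nat_lit 368) (nat_lit 275) (nat_lit 257)) (XT.lf (nat_lit 0) (nat_lit 6353816531) (nat_lit 304) (nat_lit 3032670102) (nat_lit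 76) (nat_lit 3219208198) (nat_lit 58) (nat_lit 5) (nat_lit 62) (nat_lit 5) (nat_lit 59) (nat_lit 4) (nat_lit 369) (nat_lit 275) (nat_lit 256))))))) (XT.nd (nat_lit 780) (nat_lit 1140) (nat_lit 0) (XT.nd (nat_lit 390) (nat_lit 1064) (nat_lit 0) (XT.nd (nat_lit 156) (nat_lit 608) (nat_lit 0) (XT.nd (nat_lit 78) (nat_lit 228) (nat_lit 0) (XT.lf (nat_lit 0) (nat_lit 100854243) (nat_lit 304) (nat_lit 3185243684) (nat_lit 76) (nat_lit 9546935910) (nat_lit 54) (nat_lit 5) (nat_lit 58) (nat_lit 5) (nat_lit 55) (nat_lit 5) (nat_lit 370) (nat_lit 275) (nat_lit 255)) (XT.lf (nat_lit 0) (nat_lit 6545819092) (nat_lit 304) (nat_lit 3518816585) (nat_lit 76) (nat_lit 3002018424) (nat_lit 51) (nat_lit 5) (nat_lit 55) (nat_lit 5) (nat_lit 52) (nat_lit 4) (nat_lit 371) (nat_lit 275) (nat_lit 254))) (XT.nd (nat_lit 78) (nat_lit 456) (nat_lit 0) (XT.lf (nat_lit 0) (nat_lit 9302038231) (nat_lit 152) (nat_lit 3871331478)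 (nat_lit 228) (nat_lit 134147329) (nat_lit 49) (nat_lit 5) (nat_lit 51) (nat_lit 5) (nat_lit 52) (nat_lit 4) (nat_lit 372) (nat_lit 275) (nat_lit 253)) (XT.nd (nat_lit 78) (nat_lit 152) (nat_lit 0) (XT.lf (nat_lit 0) (nat_lit 6344300868) (nat_lit 304) (nat_lit 4692803765) (nat_lit 76) (nat_lit 2517988815) (nat_lit 45) (nat_lit 5) (nat_lit 49) (nat_lit 5) (nat_lit 46) (nat_lit 4) (nat_lit 373) (nat_lit 275) (nat_lit 252)) (XT.lf (nat_lit 0) (nat_lit 8248208295) (nat_lit 152) (nat_lit 4761833807) (nat_lit 228) (nat_lit 800159443) (nat_lit 43) (nat_lit 5) (nat_lit 45) (nat_lit 5) (nat_lit 46) (nat_lit 4) (nat_lit 374) (nat_lit 275) (nat_lit 251))))) (XT.nd (nat_lit 156) (nat_lit 608) (nat_lit 0) (XT.nd (nat_lit 78) (nat_lit 152) (nat_lit 0) (XT.lf (nat_lit 0) (nat_lit 5707540930) (nat_lit 304) (nat_lit 6647832131) (nat_lit 76) (nat_lit 1717235793) (nat_lit 39) (nat_lit 5) (nat_lit 43) (nat_lit 5) (nat_lit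 40) (nat_lit 4) (nat_lit 375) (nat_lit 275) (nat_lit 250)) (XT.lf (nat_lit 0) (nat_lit 6390271751) (nat_lit 152) (nat_lit 6011398366) (nat_lit 228) (nat_lit 1941087161) (nat_lit 37) (nat_lit 5) (nat_lit 39) (nat_lit 5) (nat_lit 40) (nat_lit 4) (nat_lit 376) (nat_lit 275) (nat_lit 249))) (XT.nd (nat_lit 78) (nat_lit 380) (nat_lit 0) (XT.lf (nat_lit 0) (nat_lit 4588549745) (nat_lit 228) (nat_lit 9487051865) (nat_lit 76) (nat_lit 545331521) (nat_lit 34) (nat_lit 5) (nat_lit 37) (nat_lit 5) (nat_lit 35) (nat_lit 4) (nat_lit 377) (nat_lit 275) (nat_lit 248)) (XT.nd (nat_lit 78) (nat_lit 228) (nat_lit 0) (XT.lf (nat_lit 0) (nat_lit 3621142285) (nat_lit 152) (nat_lit 7678050733) (nat_lit 228) (nat_lit 3607789685) (nat_lit 32) (nat_lit 5) (nat_lit 34) (nat_lit 5) (nat_lit 35) (nat_lit 4) (nat_lit 378) (nat_lit 275) (nat_lit 247)) (XT.lf (nat_lit 0) (nat_lit 1870185235) (nat_lit 152) (nat_lit 1071318983) (nat_lit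 228) (nat_lit 12260304207) (nat_lit 29) (nat_lit 5) (nat_lit 31) (nat_lit 5) (nat_lit 32) (nat_lit 5) (nat_lit 379) (nat_lit 275) (nat_lit 246)))))) (XT.nd (nat_lit 390) (nat_lit 380) (nat_lit 0) (XT.nd (nat_lit 156) (nat_lit 532) (nat_lit 0) (XT.nd (nat_lit 78) (nat_lit 228) (nat_lit 0) (XT.lf (nat_lit 0) (nat_lit 9648687991) (nat_lit 228) (nat_lit 175466609) (nat_lit 76) (nat_lit 5680652544) (nat_lit 29) (nat_lit 5) (nat_lit 32) (nat_lit 5) (nat_lit 30) (nat_lit 4) (nat_lit 380) (nat_lit 275) (nat_lit 245)) (XT.lf (nat_lit 0) (nat_lit 723323812) (nat_lit 228) (nat_lit 2457972623) (nat_lit 76) (nat_lit 12635659523) (nat_lit 26) (nat_lit 5) (nat_lit 29) (nat_lit 5) (nat_lit 27) (nat_lit 5) (nat_lit 381) (nat_lit 275) (nat_lit 244))) (XT.nd (nat_lit 78) (nat_lit 380) (nat_lit 0) (XT.lf (nat_lit 0) (nat_lit 7418352773) (nat_lit 228) (nat_lit 5070584158) (nat_lit 76) (nat_lit 3648815509) (nat_lit 24)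 (nat_lit 5) (nat_lit 27) (nat_lit 5) (nat_lit 25) (nat_lit 4) (nat_lit 382) (nat_lit 275) (nat_lit 243)) (XT.nd (nat_lit 78) (nat_lit 228) (nat_lit 0) (XT.lf (nat_lit 0) (nat_lit 8477007400) (nat_lit 152) (nat_lit 5831671117) (nat_lit 228) (nat_lit 2159617682) (nat_lit 22) (nat_lit 5) (nat_lit 24) (nat_lit 5) (nat_lit 25) (nat_lit 4) (nat_lit 383) (nat_lit 275) (nat_lit 242)) (XT.lf (nat_lit 0) (nat_lit 4516632052) (nat_lit 228) (nat_lit 11255410819) (nat_lit 76) (nat_lit 1036528896) (nat_lit 19) (nat_lit 5) (nat_lit 22) (nat_lit 5) (nat_lit 20) (nat_lit 4) (nat_lit 384) (nat_lit 275) (nat_lit 241))))) (XT.nd (nat_lit 156) (nat_lit 228) (nat_lit 0) (XT.nd (nat_lit 78) (nat_lit 76) (nat_lit 0) (XT.lf (nat_lit 0) (nat_lit 2257478327) (nat_lit 76) (nat_lit 9118367529) (nat_lit 152) (nat_lit 5782695265) (nat_lit 18) (nat_lit 5) (nat_lit 19) (nat_lit 5) (nat_lit 20) (nat_lit 4) (nat_lit 385) (nat_lit 275)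 (nat_lit 240)) (XT.lf (nat_lit 0) (nat_lit 891254264) (nat_lit 152) (nat_lit 1366299897) (nat_lit 76) (nat_lit 15261716160) (nat_lit 17) (nat_lit 5) (nat_lit 19) (nat_lit 5) (nat_lit 18) (nat_lit 5) (nat_lit 386) (nat_lit 275) (nat_lit 239))) (XT.nd (nat_lit 78) (nat_lit 76) (nat_lit 0) (XT.lf (nat_lit 0) (nat_lit 7707729936) (nat_lit 228) (nat_lit 5388738352) (nat_lit 76) (nat_lit 4793181707) (nat_lit 15) (nat_lit 5) (nat_lit 18) (nat_lit 5) (nat_lit 16) (nat_lit 4) (nat_lit 387) (nat_lit 275) (nat_lit 238)) (XT.nd (nat_lit 43758) (nat_lit 0) (nat_lit 11552) (XT.lf (nat_lit 0) (nat_lit 8461937234) (nat_lit 76) (nat_lit 6254785593) (nat_lit 152) (nat_lit 3554667970) (nat_lit 14) (nat_lit 5) (nat_lit 15) (nat_lit 5) (nat_lit 16) (nat_lit 4) (nat_lit 388) (nat_lit 275) (nat_lit 237)) (XT.lf (nat_lit 0) (nat_lit 1313826415) (nat_lit 532) (nat_lit 1927907458) (nat_lit 0) (nat_lit 1313826415) (nat_lit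 166) (nat_lit 5) (nat_lit 173) (nat_lit 4) (nat_lit 166) (nat_lit 4) (nat_lit 348) (nat_lit 276) (nat_lit 276))))))))
noncomputable def xc10 : XT := (XT.nd (nat_lit 1560) (nat_lit 3648) (nat_lit 0) (XT.nd (nat_lit 780) (nat_lit 3040) (nat_lit 0) (XT.nd (nat_lit 390) (nat_lit 2204) (nat_lit 0) (XT.nd (nat_lit 156) (nat_lit 1748) (nat_lit 0) (XT.nd (nat_lit 78) (nat_lit 456) (nat_lit 0) (XT.lf (nat_lit 0) (nat_lit 6944217372) (nat_lit 456) (nat_lit 1832738302) (nat_lit 456) (nat_lit 455373829) (nat_lit 160) (nat_lit 4) (nat_lit 166) (nat_lit 5) (nat_lit 166) (nat_lit 4) (nat_lit 349) (nat_lit 276) (nat_lit 275)) (XT.lf (nat_lit 0) (nat_lit 5633747364) (nat_lit 456) (nat_lit 751248191) (nat_lit 0) (nat_lit 2972363508) (nat_lit 154) (nat_lit 5) (nat_lit 160) (nat_lit 4) (nat_lit 154) (nat_lit 4) (nat_lit 350) (nat_lit 276) (nat_lit 274))) (XT.nd (nat_lit 78) (nat_lit 836) (nat_lit 0) (XT.lf (nat_lit 0)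 (nat_lit 787006540) (nat_lit 380) (nat_lit 1550236869) (nat_lit 456) (nat_lit 7149452392) (nat_lit 142) (nat_lit 5) (nat_lit 147) (nat_lit 5) (nat_lit 148) (nat_lit 4) (nat_lit 351) (nat_lit 276) (nat_lit 273)) (XT.nd (nat_lit 78) (nat_lit 456) (nat_lit 0) (XT.lf (nat_lit 0) (nat_lit 2305836679) (nat_lit 380) (nat_lit 6191443381) (nat_lit 380) (nat_lit 1122822407) (nat_lit 137) (nat_lit 4) (nat_lit 142) (nat_lit 5) (nat_lit 142) (nat_lit 4) (nat_lit 352) (nat_lit 276) (nat_lit 272)) (XT.lf (nat_lit 0) (nat_lit 3795218072) (nat_lit 380) (nat_lit 1175123036) (nat_lit 456) (nat_lit 4787500585) (nat_lit 131) (nat_lit 5) (nat_lit 136) (nat_lit 5) (nat_lit 137) (nat_lit 4) (nat_lit 353) (nat_lit 276) (nat_lit 271))))) (XT.nd (nat_lit 156) (nat_lit 1444) (nat_lit 0) (XT.nd (nat_lit 78) (nat_lit 304) (nat_lit 0) (XT.lf (nat_lit 0) (nat_lit 1284195567) (nat_lit 456) (nat_lit 4647945791) (nat_lit 76) (nat_lit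 3967883981) (nat_lit 125) (nat_lit 5) (nat_lit 131) (nat_lit 5) (nat_lit 126) (nat_lit 4) (nat_lit 354) (nat_lit 276) (nat_lit 270)) (XT.lf (nat_lit 0) (nat_lit 6674241072) (nat_lit 304) (nat_lit 753110694) (nat_lit 380) (nat_lit 2619438824) (nat_lit 121) (nat_lit 5) (nat_lit 125) (nat_lit 5) (nat_lit 126) (nat_lit 4) (nat_lit 355) (nat_lit 276) (nat_lit 269))) (XT.nd (nat_lit 78) (nat_lit 988) (nat_lit 0) (XT.lf (nat_lit 0) (nat_lit 3488140983) (nat_lit 456) (nat_lit 2154286872) (nat_lit 76) (nat_lit 4555544479) (nat_lit 115) (nat_lit 5) (nat_lit 121) (nat_lit 5) (nat_lit 116) (nat_lit 4) (nat_lit 356) (nat_lit 276) (nat_lit 268)) (XT.nd (nat_lit 78) (nat_lit 684) (nat_lit 0) (XT.lf (nat_lit 0) (nat_lit 9386205202) (nat_lit 304) (nat_lit 312328414) (nat_lit 380) (nat_lit 655739479) (nat_lit 111) (nat_lit 5) (nat_lit 115) (nat_lit 5) (nat_lit 116) (nat_lit 4) (nat_lit 357) (nat_lit 276) (nat_lit 267))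 (XT.lf (nat_lit 0) (nat_lit 135615347) (nat_lit 304) (nat_lit 5357688908) (nat_lit 380) (nat_lit 5021535529) (nat_lit 102) (nat_lit 5) (nat_lit 106) (nat_lit 5) (nat_lit 107) (nat_lit 4) (nat_lit 358) (nat_lit 276) (nat_lit 266)))))) (XT.nd (nat_lit 390) (nat_lit 1368) (nat_lit 0) (XT.nd (nat_lit 156) (nat_lit 988) (nat_lit 0) (XT.nd (nat_lit 78) (nat_lit 304) (nat_lit 0) (XT.lf (nat_lit 0) (nat_lit 1085130573) (nat_lit 380) (nat_lit 9464048360) (nat_lit 76) (nat_lit 131594714) (nat_lit 97) (nat_lit 5) (nat_lit 102) (nat_lit 5) (nat_lit 98) (nat_lit 4) (nat_lit 359) (nat_lit 276) (nat_lit 265)) (XT.lf (nat_lit 0) (nat_lit 2201414755) (nat_lit 304) (nat_lit 5096105843) (nat_lit 380) (nat_lit 3553715450) (nat_lit 93) (nat_lit 5) (nat_lit 97) (nat_lit 5) (nat_lit 98) (nat_lit 4) (nat_lit 360) (nat_lit 276) (nat_lit 264))) (XT.nd (nat_lit 78) (nat_lit 608) (nat_lit 0) (XT.lf (nat_lit 0) (nat_lit 2593941018)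 (nat_lit 380) (nat_lit 7894951589) (nat_lit 76) (nat_lit 538411339) (nat_lit 88) (nat_lit 5) (nat_lit 93) (nat_lit 5) (nat_lit 89) (nat_lit 4) (nat_lit 361) (nat_lit 276) (nat_lit 263)) (XT.nd (nat_lit 78) (nat_lit 380) (nat_lit 0) (XT.lf (nat_lit 0) (nat_lit 3965753126) (nat_lit 228) (nat_lit 4904038851) (nat_lit 304) (nat_lit 2338578270) (nat_lit 85) (nat_lit 5) (nat_lit 88) (nat_lit 5) (nat_lit 89) (nat_lit 4) (nat_lit 362) (nat_lit 276) (nat_lit 262)) (XT.lf (nat_lit 0) (nat_lit 3852121998) (nat_lit 380) (nat_lit 6673575252) (nat_lit 76) (nat_lit 869390899) (nat_lit 80) (nat_lit 5) (nat_lit 85) (nat_lit 5) (nat_lit 81) (nat_lit 4) (nat_lit 363) (nat_lit 276) (nat_lit 261))))) (XT.nd (nat_lit 156) (nat_lit 760) (nat_lit 0) (XT.nd (nat_lit 78) (nat_lit 380) (nat_lit 0) (XT.lf (nat_lit 0) (nat_lit 5375095876) (nat_lit 228) (nat_lit 4815255356) (nat_lit 304) (nat_lit 1396900623) (nat_lit 77) (nat_lit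 5) (nat_lit 80) (nat_lit 5) (nat_lit 81) (nat_lit 4) (nat_lit 364) (nat_lit 276) (nat_lit 260)) (XT.lf (nat_lit 0) (nat_lit 4837849378) (nat_lit 380) (nat_lit 5856944550) (nat_lit 76) (nat_lit 1090389593) (nat_lit 72) (nat_lit 5) (nat_lit 77) (nat_lit 5) (nat_lit 73) (nat_lit 4) (nat_lit 365) (nat_lit 276) (nat_lit 259))) (XT.nd (nat_lit 78) (nat_lit 532) (nat_lit 0) (XT.lf (nat_lit 0) (nat_lit 6370509289) (nat_lit 228) (nat_lit 4865728982) (nat_lit 304) (nat_lit 752741830) (nat_lit 69) (nat_lit 5) (nat_lit 72) (nat_lit 5) (nat_lit 73) (nat_lit 4) (nat_lit 366) (nat_lit 276) (nat_lit 258)) (XT.nd (nat_lit 78) (nat_lit 228) (nat_lit 0) (XT.lf (nat_lit 0) (nat_lit 5525937221) (nat_lit 304) (nat_lit 5507875711) (nat_lit 76) (nat_lit 1164927744) (nat_lit 65) (nat_lit 5) (nat_lit 69) (nat_lit 5) (nat_lit 66) (nat_lit 4) (nat_lit 367) (nat_lit 276) (nat_lit 257)) (XT.lf (nat_lit 0) (nat_lit 6887010032)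 (nat_lit 228) (nat_lit 5094007651) (nat_lit 304) (nat_lit 433732890) (nat_lit 62) (nat_lit 5) (nat_lit 65) (nat_lit 5) (nat_lit 66) (nat_lit 4) (nat_lit 368) (nat_lit 276) (nat_lit 256))))))) (XT.nd (nat_lit 780) (nat_lit 1520) (nat_lit 0) (XT.nd (nat_lit 390) (nat_lit 836) (nat_lit 0) (XT.nd (nat_lit 156) (nat_lit 760) (nat_lit 0) (XT.nd (nat_lit 78) (nat_lit 228) (nat_lit 0) (XT.lf (nat_lit 0) (nat_lit 5887535864) (nat_lit 304) (nat_lit 5695662086) (nat_lit 76) (nat_lit 1053812636) (nat_lit 58) (nat_lit 5) (nat_lit 62) (nat_lit 5) (nat_lit 59) (nat_lit 4) (nat_lit 369) (nat_lit 276) (nat_lit 255)) (XT.lf (nat_lit 0) (nat_lit 6852851250) (nat_lit 228) (nat_lit 5541610711) (nat_lit 304) (nat_lit 471400612) (nat_lit 55) (nat_lit 5) (nat_lit 58) (nat_lit 5) (nat_lit 59) (nat_lit 4) (nat_lit 370) (nat_lit 276) (nat_lit 254))) (XT.nd (nat_lit 78) (nat_lit 456) (nat_lit 0) (XT.lf (nat_lit 0) (nat_lit 5889793778)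 (nat_lit 304) (nat_lit 6496827638) (nat_lit 76) (nat_lit 714730956) (nat_lit 51) (nat_lit 5) (nat_lit 55) (nat_lit 5) (nat_lit 52) (nat_lit 4) (nat_lit 371) (nat_lit 276) (nat_lit 253)) (XT.nd (nat_lit 78) (nat_lit 304) (nat_lit 0) (XT.lf (nat_lit 0) (nat_lit 6188738221) (nat_lit 152) (nat_lit 6253458837) (nat_lit 228) (nat_lit 901530189) (nat_lit 49) (nat_lit 5) (nat_lit 51) (nat_lit 5) (nat_lit 52) (nat_lit 4) (nat_lit 372) (nat_lit 276) (nat_lit 252)) (XT.lf (nat_lit 0) (nat_lit 5495479741) (nat_lit 304) (nat_lit 7995955211) (nat_lit 76) (nat_lit 101806962) (nat_lit 45) (nat_lit 5) (nat_lit 49) (nat_lit 5) (nat_lit 46) (nat_lit 4) (nat_lit 373) (nat_lit 276) (nat_lit 251))))) (XT.nd (nat_lit 156) (nat_lit 380) (nat_lit 0) (XT.nd (nat_lit 78) (nat_lit 304) (nat_lit 0) (XT.lf (nat_lit 0) (nat_lit 4806965881) (nat_lit 152) (nat_lit 7278340813) (nat_lit 228) (nat_lit 1764569913) (nat_lit 43) (nat_lit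 5) (nat_lit 45) (nat_lit 5) (nat_lit 46) (nat_lit 4) (nat_lit 374) (nat_lit 276) (nat_lit 250)) (XT.lf (nat_lit 0) (nat_lit 3822081213) (nat_lit 228) (nat_lit 845972938) (nat_lit 304) (nat_lit 9446117400) (nat_lit 39) (nat_lit 5) (nat_lit 42) (nat_lit 5) (nat_lit 43) (nat_lit 5) (nat_lit 375) (nat_lit 276) (nat_lit 249))) (XT.nd (nat_lit 78) (nat_lit 228) (nat_lit 0) (XT.lf (nat_lit 0) (nat_lit 2610469726) (nat_lit 152) (nat_lit 8669421688) (nat_lit 228) (nat_lit 3106082080) (nat_lit 37) (nat_lit 5) (nat_lit 39) (nat_lit 5) (nat_lit 40) (nat_lit 4) (nat_lit 376) (nat_lit 276) (nat_lit 248)) (XT.nd (nat_lit 78) (nat_lit 0) (nat_lit 0) (XT.lf (nat_lit 0) (nat_lit 1179502315) (nat_lit 152) (nat_lit 2178378035) (nat_lit 228) (nat_lit 11308046654) (nat_lit 34) (nat_lit 5) (nat_lit 36) (nat_lit 5) (nat_lit 37) (nat_lit 5) (nat_lit 377) (nat_lit 276) (nat_lit 247)) (XT.lf (nat_lit 0) (nat_lit 9979877626)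 (nat_lit 228) (nat_lit 501553854) (nat_lit 76) (nat_lit 4472325113) (nat_lit 34) (nat_lit 5) (nat_lit 37) (nat_lit 5) (nat_lit 35) (nat_lit 4) (nat_lit 378) (nat_lit 276) (nat_lit 246)))))) (XT.nd (nat_lit 390) (nat_lit 608) (nat_lit 0) (XT.nd (nat_lit 156) (nat_lit 532) (nat_lit 0) (XT.nd (nat_lit 78) (nat_lit 152) (nat_lit 0) (XT.lf (nat_lit 0) (nat_lit 1527447778) (nat_lit 228) (nat_lit 2410844507) (nat_lit 76) (nat_lit 11311791849) (nat_lit 31) (nat_lit 5) (nat_lit 34) (nat_lit 5) (nat_lit 32) (nat_lit 5) (nat_lit 379) (nat_lit 276) (nat_lit 245)) (XT.lf (nat_lit 0) (nat_lit 8150282426) (nat_lit 228) (nat_lit 4606902492) (nat_lit 76) (nat_lit 2797591476) (nat_lit 29) (nat_lit 5) (nat_lit 32) (nat_lit 5) (nat_lit 30) (nat_lit 4) (nat_lit 380) (nat_lit 276) (nat_lit 244))) (XT.nd (nat_lit 78) (nat_lit 380) (nat_lit 0) (XT.lf (nat_lit 0) (nat_lit 8786451899) (nat_lit 152) (nat_lit 6187091258) (nat_lit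 228) (nat_lit 895044366) (nat_lit 27) (nat_lit 5) (nat_lit 29) (nat_lit 5) (nat_lit 30) (nat_lit 4) (nat_lit 381) (nat_lit 276) (nat_lit 243)) (XT.nd (nat_lit 78) (nat_lit 152) (nat_lit 0) (XT.lf (nat_lit 0) (nat_lit 5712996130) (nat_lit 228) (nat_lit 9869933164) (nat_lit 76) (nat_lit 608551539) (nat_lit 24) (nat_lit 5) (nat_lit 27) (nat_lit 5) (nat_lit 25) (nat_lit 4) (nat_lit 382) (nat_lit 276) (nat_lit 242)) (XT.lf (nat_lit 0) (nat_lit 3528267784) (nat_lit 152) (nat_lit 8995750850) (nat_lit 228) (nat_lit 3999597906) (nat_lit 22) (nat_lit 5) (nat_lit 24) (nat_lit 5) (nat_lit 25) (nat_lit 4) (nat_lit 383) (nat_lit 276) (nat_lit 241))))) (XT.nd (nat_lit 156) (nat_lit 380) (nat_lit 0) (XT.nd (nat_lit 78) (nat_lit 0) (nat_lit 0) (XT.lf (nat_lit 0) (nat_lit 416805705) (nat_lit 152) (nat_lit 2197113801) (nat_lit 228) (nat_lit 14251954408) (nat_lit 19) (nat_lit 5) (nat_lit 21) (nat_lit 5) (nat_lit 22)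 (nat_lit 5) (nat_lit 384) (nat_lit 276) (nat_lit 240)) (XT.lf (nat_lit 0) (nat_lit 9398146740) (nat_lit 228) (nat_lit 3034589061) (nat_lit 76) (nat_lit 4784612637) (nat_lit 19) (nat_lit 5) (nat_lit 22) (nat_lit 5) (nat_lit 20) (nat_lit 4) (nat_lit 385) (nat_lit 276) (nat_lit 239))) (XT.nd (nat_lit 78) (nat_lit 304) (nat_lit 0) (XT.lf (nat_lit 0) (nat_lit 10744835523) (nat_lit 76) (nat_lit 5634733809) (nat_lit 152) (nat_lit 1199935209) (nat_lit 18) (nat_lit 5) (nat_lit 19) (nat_lit 5) (nat_lit 20) (nat_lit 4) (nat_lit 386) (nat_lit 276) (nat_lit 238)) (XT.nd (nat_lit 78) (nat_lit 76) (nat_lit 0) (XT.lf (nat_lit 0) (nat_lit 5529144150) (nat_lit 228) (nat_lit 11042437036) (nat_lit 76) (nat_lit 1380526541) (nat_lit 15) (nat_lit 5) (nat_lit 18) (nat_lit 5) (nat_lit 16) (nat_lit 4) (nat_lit 387) (nat_lit 276) (nat_lit 237)) (XT.lf (nat_lit 0) (nat_lit 2652768714) (nat_lit 76) (nat_lit 9803969389) (nat_lit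 152) (nat_lit 5878743285) (nat_lit 14) (nat_lit 5) (nat_lit 15) (nat_lit 5) (nat_lit 16) (nat_lit 4) (nat_lit 388) (nat_lit 276) (nat_lit 236))))))))
noncomputable def xc11 : XT := (XT.nd (nat_lit 1560) (nat_lit 4028) (nat_lit 0) (XT.nd (nat_lit 780) (nat_lit 3724) (nat_lit 0) (XT.nd (nat_lit 390) (nat_lit 2508) (nat_lit 0) (XT.nd (nat_lit 156) (nat_lit 1444) (nat_lit 0) (XT.nd (nat_lit 78) (nat_lit 456) (nat_lit 0) (XT.lf (nat_lit 0) (nat_lit 494083880) (nat_lit 532) (nat_lit 3451649445) (nat_lit 0) (nat_lit 494083880) (nat_lit 179) (nat_lit 5) (nat_lit 186) (nat_lit 4) (nat_lit 179) (nat_lit 4) (nat_lit 346) (nat_lit 277) (nat_lit 277)) (XT.lf (nat_lit 0) (nat_lit 3563498733) (nat_lit 456) (nat_lit 3438812222) (nat_lit 456) (nat_lit 1991753107) (nat_lit 173) (nat_lit 4) (nat_lit 179) (nat_lit 5) (nat_lit 179) (nat_lit 4) (nat_lit 347) (nat_lit 277) (nat_lit 276))) (XT.nd (nat_lit 78) (nat_lit 912)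 (nat_lit 0) (XT.lf (nat_lit 0) (nat_lit 3973357138) (nat_lit 532) (nat_lit 3961938760) (nat_lit 0) (nat_lit 1177307258) (nat_lit 166) (nat_lit 5) (nat_lit 173) (nat_lit 4) (nat_lit 166) (nat_lit 4) (nat_lit 348) (nat_lit 277) (nat_lit 275)) (XT.nd (nat_lit 78) (nat_lit 380) (nat_lit 0) (XT.lf (nat_lit 0) (nat_lit 804458682) (nat_lit 532) (nat_lit 2508290402) (nat_lit 76) (nat_lit 5922424064) (nat_lit 159) (nat_lit 5) (nat_lit 166) (nat_lit 5) (nat_lit 160) (nat_lit 4) (nat_lit 349) (nat_lit 277) (nat_lit 274)) (XT.lf (nat_lit 0) (nat_lit 6805721344) (nat_lit 456) (nat_lit 1075453022) (nat_lit 0) (nat_lit 1480628149) (nat_lit 154) (nat_lit 5) (nat_lit 160) (nat_lit 4) (nat_lit 154) (nat_lit 4) (nat_lit 350) (nat_lit 277) (nat_lit 273))))) (XT.nd (nat_lit 156) (nat_lit 1216) (nat_lit 0) (XT.nd (nat_lit 78) (nat_lit 380) (nat_lit 0) (XT.lf (nat_lit 0) (nat_lit 336393358) (nat_lit 380) (nat_lit 3078089214)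 (nat_lit 456) (nat_lit 6078024845) (nat_lit 142) (nat_lit 5) (nat_lit 147) (nat_lit 5) (nat_lit 148) (nat_lit 4) (nat_lit 351) (nat_lit 277) (nat_lit 272)) (XT.lf (nat_lit 0) (nat_lit 1748402647) (nat_lit 380) (nat_lit 7743822012) (nat_lit 380) (nat_lit 135354920) (nat_lit 137) (nat_lit 4) (nat_lit 142) (nat_lit 5) (nat_lit 142) (nat_lit 4) (nat_lit 352) (nat_lit 277) (nat_lit 271))) (XT.nd (nat_lit 78) (nat_lit 760) (nat_lit 0) (XT.lf (nat_lit 0) (nat_lit 3112078250) (nat_lit 380) (nat_lit 2760464140) (nat_lit 456) (nat_lit 3894113158) (nat_lit 131) (nat_lit 5) (nat_lit 136) (nat_lit 5) (nat_lit 137) (nat_lit 4) (nat_lit 353) (nat_lit 277) (nat_lit 270)) (XT.nd (nat_lit 78) (nat_lit 304) (nat_lit 0) (XT.lf (nat_lit 0) (nat_lit 2083068030) (nat_lit 456) (nat_lit 5458071021) (nat_lit 76) (nat_lit 2369257854) (nat_lit 125) (nat_lit 5) (nat_lit 131) (nat_lit 5) (nat_lit 126) (nat_lit 4) (nat_lit 354)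 (nat_lit 277) (nat_lit 269)) (XT.lf (nat_lit 0) (nat_lit 5750452889) (nat_lit 304) (nat_lit 2403829352) (nat_lit 380) (nat_lit 1904336000) (nat_lit 121) (nat_lit 5) (nat_lit 125) (nat_lit 5) (nat_lit 126) (nat_lit 4) (nat_lit 355) (nat_lit 277) (nat_lit 268)))))) (XT.nd (nat_lit 390) (nat_lit 1596) (nat_lit 0) (XT.nd (nat_lit 156) (nat_lit 1368) (nat_lit 0) (XT.nd (nat_lit 78) (nat_lit 304) (nat_lit 0) (XT.lf (nat_lit 0) (nat_lit 4110935557) (nat_lit 456) (nat_lit 3211388901) (nat_lit 76) (nat_lit 2889057672) (nat_lit 115) (nat_lit 5) (nat_lit 121) (nat_lit 5) (nat_lit 116) (nat_lit 4) (nat_lit 356) (nat_lit 277) (nat_lit 267)) (XT.lf (nat_lit 0) (nat_lit 8213512418) (nat_lit 304) (nat_lit 2036108807) (nat_lit 380) (nat_lit 119511739) (nat_lit 111) (nat_lit 5) (nat_lit 115) (nat_lit 5) (nat_lit 116) (nat_lit 4) (nat_lit 357) (nat_lit 277) (nat_lit 266))) (XT.nd (nat_lit 78) (nat_lit 988) (nat_lit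 0) (XT.lf (nat_lit 0) (nat_lit 5938371080) (nat_lit 380) (nat_lit 1178569861) (nat_lit 76) (nat_lit 3414386814) (nat_lit 106) (nat_lit 5) (nat_lit 111) (nat_lit 5) (nat_lit 107) (nat_lit 4) (nat_lit 358) (nat_lit 277) (nat_lit 265)) (XT.nd (nat_lit 78) (nat_lit 608) (nat_lit 0) (XT.lf (nat_lit 0) (nat_lit 1428108725) (nat_lit 380) (nat_lit 248606030) (nat_lit 76) (nat_lit 9022105244) (nat_lit 101) (nat_lit 5) (nat_lit 106) (nat_lit 5) (nat_lit 102) (nat_lit 5) (nat_lit 359) (nat_lit 277) (nat_lit 264)) (XT.lf (nat_lit 0) (nat_lit 604249797) (nat_lit 304) (nat_lit 6950902943) (nat_lit 380) (nat_lit 3315850598) (nat_lit 93) (nat_lit 5) (nat_lit 97) (nat_lit 5) (nat_lit 98) (nat_lit 4) (nat_lit 360) (nat_lit 277) (nat_lit 263))))) (XT.nd (nat_lit 156) (nat_lit 988) (nat_lit 0) (XT.nd (nat_lit 78) (nat_lit 228) (nat_lit 0) (XT.lf (nat_lit 0) (nat_lit 1395051332) (nat_lit 304) (nat_lit 1357104416) (nat_lit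 380) (nat_lit 8296428552) (nat_lit 88) (nat_lit 5) (nat_lit 92) (nat_lit 5) (nat_lit 93) (nat_lit 5) (nat_lit 361) (nat_lit 277) (nat_lit 262)) (XT.lf (nat_lit 0) (nat_lit 2092444941) (nat_lit 228) (nat_lit 6853819853) (nat_lit 304) (nat_lit 2285033598) (nat_lit 85) (nat_lit 5) (nat_lit 88) (nat_lit 5) (nat_lit 89) (nat_lit 4) (nat_lit 362) (nat_lit 277) (nat_lit 261))) (XT.nd (nat_lit 78) (nat_lit 608) (nat_lit 0) (XT.lf (nat_lit 0) (nat_lit 2706079918) (nat_lit 304) (nat_lit 1120003966) (nat_lit 380) (nat_lit 7593515397) (nat_lit 80) (nat_lit 5) (nat_lit 84) (nat_lit 5) (nat_lit 85) (nat_lit 5) (nat_lit 363) (nat_lit 277) (nat_lit 260)) (XT.nd (nat_lit 78) (nat_lit 380) (nat_lit 0) (XT.lf (nat_lit 0) (nat_lit 3216587571) (nat_lit 228) (nat_lit 6867278867) (nat_lit 304) (nat_lit 1529517453) (nat_lit 77) (nat_lit 5) (nat_lit 80) (nat_lit 5) (nat_lit 81) (nat_lit 4) (nat_lit 364) (nat_lit 277) (nat_lit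 259)) (XT.lf (nat_lit 0) (nat_lit 3624737182) (nat_lit 304) (nat_lit 1001601478) (nat_lit 380) (nat_lit 7186618175) (nat_lit 72) (nat_lit 5) (nat_lit 76) (nat_lit 5) (nat_lit 77) (nat_lit 5) (nat_lit 365) (nat_lit 277) (nat_lit 258))))))) (XT.nd (nat_lit 780) (nat_lit 1748) (nat_lit 0) (XT.nd (nat_lit 390) (nat_lit 988) (nat_lit 0) (XT.nd (nat_lit 156) (nat_lit 760) (nat_lit 0) (XT.nd (nat_lit 78) (nat_lit 304) (nat_lit 0) (XT.lf (nat_lit 0) (nat_lit 3917488930) (nat_lit 228) (nat_lit 7027192104) (nat_lit 304) (nat_lit 1073684372) (nat_lit 69) (nat_lit 5) (nat_lit 72) (nat_lit 5) (nat_lit 73) (nat_lit 4) (nat_lit 366) (nat_lit 277) (nat_lit 257)) (XT.lf (nat_lit 0) (nat_lit 4088846906) (nat_lit 228) (nat_lit 1038810758) (nat_lit 304) (nat_lit 7102151446) (nat_lit 65) (nat_lit 5) (nat_lit 68) (nat_lit 5) (nat_lit 69) (nat_lit 5) (nat_lit 367) (nat_lit 277) (nat_lit 256))) (XT.nd (nat_lit 78) (nat_lit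 532) (nat_lit 0) (XT.lf (nat_lit 0) (nat_lit 4129886700) (nat_lit 228) (nat_lit 7372072253) (nat_lit 304) (nat_lit 945485861) (nat_lit 62) (nat_lit 5) (nat_lit 65) (nat_lit 5) (nat_lit 66) (nat_lit 4) (nat_lit 368) (nat_lit 277) (nat_lit 255)) (XT.nd (nat_lit 78) (nat_lit 228) (nat_lit 0) (XT.lf (nat_lit 0) (nat_lit 4029813962) (nat_lit 228) (nat_lit 1271320569) (nat_lit 304) (nat_lit 7370273682) (nat_lit 58) (nat_lit 5) (nat_lit 61) (nat_lit 5) (nat_lit 62) (nat_lit 5) (nat_lit 369) (nat_lit 277) (nat_lit 254)) (XT.lf (nat_lit 0) (nat_lit 3781731262) (nat_lit 228) (nat_lit 7943428535) (nat_lit 304) (nat_lit 1176767865) (nat_lit 55) (nat_lit 5) (nat_lit 58) (nat_lit 5) (nat_lit 59) (nat_lit 4) (nat_lit 370) (nat_lit 277) (nat_lit 253))))) (XT.nd (nat_lit 156) (nat_lit 532) (nat_lit 0) (XT.nd (nat_lit 78) (nat_lit 152) (nat_lit 0) (XT.lf (nat_lit 0) (nat_lit 3371876005) (nat_lit 228) (nat_lit 1742006492)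 (nat_lit 304) (nat_lit 8025231450) (nat_lit 51) (nat_lit 5) (nat_lit 54) (nat_lit 5) (nat_lit 55) (nat_lit 5) (nat_lit 371) (nat_lit 277) (nat_lit 252)) (XT.lf (nat_lit 0) (nat_lit 2793401446) (nat_lit 152) (nat_lit 8786195575) (nat_lit 228) (nat_lit 1803634307) (nat_lit 49) (nat_lit 5) (nat_lit 51) (nat_lit 5) (nat_lit 52) (nat_lit 4) (nat_lit 372) (nat_lit 277) (nat_lit 251))) (XT.nd (nat_lit 78) (nat_lit 228) (nat_lit 0) (XT.lf (nat_lit 0) (nat_lit 2031280917) (nat_lit 228) (nat_lit 2497377646) (nat_lit 304) (nat_lit 9105743848) (nat_lit 45) (nat_lit 5) (nat_lit 48) (nat_lit 5) (nat_lit 49) (nat_lit 5) (nat_lit 373) (nat_lit 277) (nat_lit 250)) (XT.nd (nat_lit 78) (nat_lit 76) (nat_lit 0) (XT.lf (nat_lit 0) (nat_lit 1076842058) (nat_lit 152) (nat_lit 9949199269) (nat_lit 228) (nat_lit 2866852728) (nat_lit 43) (nat_lit 5) (nat_lit 45) (nat_lit 5) (nat_lit 46) (nat_lit 4) (nat_lit 374) (nat_lit 277)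 (nat_lit 249)) (XT.lf (nat_lit 0) (nat_lit 3503993833) (nat_lit 228) (nat_lit 83508306) (nat_lit 76) (nat_lit 10571362356) (nat_lit 42) (nat_lit 5) (nat_lit 45) (nat_lit 5) (nat_lit 43) (nat_lit 5) (nat_lit 375) (nat_lit 277) (nat_lit 248)))))) (XT.nd (nat_lit 390) (nat_lit 760) (nat_lit 0) (XT.nd (nat_lit 156) (nat_lit 532) (nat_lit 0) (XT.nd (nat_lit 78) (nat_lit 228) (nat_lit 0) (XT.lf (nat_lit 0) (nat_lit 10029793095) (nat_lit 304) (nat_lit 1446166485) (nat_lit 76) (nat_lit 2956435074) (nat_lit 39) (nat_lit 5) (nat_lit 43) (nat_lit 5) (nat_lit 40) (nat_lit 4) (nat_lit 376) (nat_lit 277) (nat_lit 247)) (XT.lf (nat_lit 0) (nat_lit 2010966793) (nat_lit 228) (nat_lit 3037985371) (nat_lit 76) (nat_lit 9664919417) (nat_lit 36) (nat_lit 5) (nat_lit 39) (nat_lit 5) (nat_lit 37) (nat_lit 5) (nat_lit 377) (nat_lit 277) (nat_lit 246))) (XT.nd (nat_lit 78) (nat_lit 380) (nat_lit 0) (XT.lf (nat_lit 0) (nat_lit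 8544700817) (nat_lit 228) (nat_lit 4876343276) (nat_lit 76) (nat_lit 1582429232) (nat_lit 34) (nat_lit 5) (nat_lit 37) (nat_lit 5) (nat_lit 35) (nat_lit 4) (nat_lit 378) (nat_lit 277) (nat_lit 245)) (XT.nd (nat_lit 78) (nat_lit 228) (nat_lit 0) (XT.lf (nat_lit 0) (nat_lit 8330624523) (nat_lit 152) (nat_lit 6954826531) (nat_lit 228) (nat_lit 16105559) (nat_lit 32) (nat_lit 5) (nat_lit 34) (nat_lit 5) (nat_lit 35) (nat_lit 4) (nat_lit 379) (nat_lit 277) (nat_lit 244)) (XT.lf (nat_lit 0) (nat_lit 6260875205) (nat_lit 152) (nat_lit 249581569) (nat_lit 228) (nat_lit 9097730228) (nat_lit 29) (nat_lit 5) (nat_lit 31) (nat_lit 5) (nat_lit 32) (nat_lit 5) (nat_lit 380) (nat_lit 277) (nat_lit 243))))) (XT.nd (nat_lit 156) (nat_lit 380) (nat_lit 0) (XT.nd (nat_lit 78) (nat_lit 228) (nat_lit 0) (XT.lf (nat_lit 0) (nat_lit 3900164717) (nat_lit 152) (nat_lit 9353295291) (nat_lit 228) (nat_lit 2670149455) (nat_lit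 27) (nat_lit 5) (nat_lit 29) (nat_lit 5) (nat_lit 30) (nat_lit 4) (nat_lit 381) (nat_lit 277) (nat_lit 242)) (XT.lf (nat_lit 0) (nat_lit 1246551484) (nat_lit 152) (nat_lit 2631250464) (nat_lit 228) (nat_lit 12370604610) (nat_lit 24) (nat_lit 5) (nat_lit 26) (nat_lit 5) (nat_lit 27) (nat_lit 5) (nat_lit 382) (nat_lit 277) (nat_lit 241))) (XT.nd (nat_lit 78) (nat_lit 380) (nat_lit 0) (XT.lf (nat_lit 0) (nat_lit 10603033998) (nat_lit 228) (nat_lit 1714870381) (nat_lit 76) (nat_lit 4264359407) (nat_lit 24) (nat_lit 5) (nat_lit 27) (nat_lit 5) (nat_lit 25) (nat_lit 4) (nat_lit 383) (nat_lit 277) (nat_lit 240)) (XT.nd (nat_lit 78) (nat_lit 152) (nat_lit 0) (XT.lf (nat_lit 0) (nat_lit 600895744) (nat_lit 228) (nat_lit 4981836536) (nat_lit 76) (nat_lit 11343238481) (nat_lit 21) (nat_lit 5) (nat_lit 24) (nat_lit 5) (nat_lit 22) (nat_lit 5) (nat_lit 384) (nat_lit 277) (nat_lit 239)) (XT.lf (nat_lit 0) (nat_lit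 7285426277) (nat_lit 228) (nat_lit 8618639335) (nat_lit 76) (nat_lit 1375378884) (nat_lit 19) (nat_lit 5) (nat_lit 22) (nat_lit 5) (nat_lit 20) (nat_lit 4) (nat_lit 385) (nat_lit 277) (nat_lit 238))))))))
noncomputable def xc12 : XT := (XT.nd (nat_lit 45006) (nat_lit 0) (nat_lit 1064) (XT.nd (nat_lit 44226) (nat_lit 0) (nat_lit 5852) (XT.nd (nat_lit 43836) (nat_lit 0) (nat_lit 10032) (XT.nd (nat_lit 43602) (nat_lit 0) (nat_lit 12464) (XT.nd (nat_lit 78) (nat_lit 228) (nat_lit 0) (XT.lf (nat_lit 0) (nat_lit 5007236154) (nat_lit 76) (nat_lit 9178940294) (nat_lit 152) (nat_lit 3457042725) (nat_lit 18) (nat_lit 5) (nat_lit 19) (nat_lit 5) (nat_lit 20) (nat_lit 4) (nat_lit 386) (nat_lit 277) (nat_lit 237)) (XT.lf (nat_lit 0) (nat_lit 976737706) (nat_lit 152) (nat_lit 2234295224) (nat_lit 228) (nat_lit 14806899522) (nat_lit 15) (nat_lit 5) (nat_lit 17) (nat_lit 5) (nat_lit 18) (nat_lit 5) (nat_lit 387)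 (nat_lit 277) (nat_lit 236))) (XT.nd (nat_lit 78) (nat_lit 1596) (nat_lit 0) (XT.lf (nat_lit 0) (nat_lit 3780042772) (nat_lit 532) (nat_lit 275129434) (nat_lit 532) (nat_lit 275129434) (nat_lit 200) (nat_lit 4) (nat_lit 207) (nat_lit 5) (nat_lit 207) (nat_lit 4) (nat_lit 344) (nat_lit 278) (nat_lit 278)) (XT.nd (nat_lit 78) (nat_lit 532) (nat_lit 0) (XT.lf (nat_lit 0) (nat_lit 370243289) (nat_lit 532) (nat_lit 4959424857) (nat_lit 532) (nat_lit 3439144550) (nat_lit 186) (nat_lit 4) (nat_lit 193) (nat_lit 5) (nat_lit 193) (nat_lit 4) (nat_lit 345) (nat_lit 278) (nat_lit 277)) (XT.lf (nat_lit 0) (nat_lit 1870063280) (nat_lit 456) (nat_lit 539017850) (nat_lit 532) (nat_lit 6471968550) (nat_lit 179) (nat_lit 5) (nat_lit 185) (nat_lit 5) (nat_lit 186) (nat_lit 4) (nat_lit 346) (nat_lit 278) (nat_lit 276))))) (XT.nd (nat_lit 156) (nat_lit 1444) (nat_lit 0) (XT.nd (nat_lit 78) (nat_lit 532) (nat_lit 0) (XT.lf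 (nat_lit 0) (nat_lit 3355428756) (nat_lit 456) (nat_lit 4992015677) (nat_lit 456) (nat_lit 649573911) (nat_lit 173) (nat_lit 4) (nat_lit 179) (nat_lit 5) (nat_lit 179) (nat_lit 4) (nat_lit 347) (nat_lit 278) (nat_lit 275)) (XT.lf (nat_lit 0) (nat_lit 4834106232) (nat_lit 456) (nat_lit 383982876) (nat_lit 532) (nat_lit 3898913216) (nat_lit 166) (nat_lit 5) (nat_lit 172) (nat_lit 5) (nat_lit 173) (nat_lit 4) (nat_lit 348) (nat_lit 278) (nat_lit 274))) (XT.nd (nat_lit 78) (nat_lit 912) (nat_lit 0) (XT.lf (nat_lit 0) (nat_lit 1953974603) (nat_lit 532) (nat_lit 2945812329) (nat_lit 76) (nat_lit 4341136530) (nat_lit 159) (nat_lit 5) (nat_lit 166) (nat_lit 5) (nat_lit 160) (nat_lit 4) (nat_lit 349) (nat_lit 278) (nat_lit 273)) (XT.nd (nat_lit 78) (nat_lit 532) (nat_lit 0) (XT.lf (nat_lit 0) (nat_lit 7752296978) (nat_lit 380) (nat_lit 121773128) (nat_lit 456) (nat_lit 1495126663) (nat_lit 154) (nat_lit 5)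 (nat_lit 159) (nat_lit 5) (nat_lit 160) (nat_lit 4) (nat_lit 350) (nat_lit 278) (nat_lit 272)) (XT.lf (nat_lit 0) (nat_lit 4387091855) (nat_lit 532) (nat_lit 331304973) (nat_lit 76) (nat_lit 4782875292) (nat_lit 147) (nat_lit 5) (nat_lit 154) (nat_lit 5) (nat_lit 148) (nat_lit 4) (nat_lit 351) (nat_lit 278) (nat_lit 271)))))) (XT.nd (nat_lit 390) (nat_lit 1748) (nat_lit 0) (XT.nd (nat_lit 156) (nat_lit 1216) (nat_lit 0) (XT.nd (nat_lit 78) (nat_lit 380) (nat_lit 0) (XT.lf (nat_lit 0) (nat_lit 732376065) (nat_lit 456) (nat_lit 8675561732) (nat_lit 76) (nat_lit 230022518) (nat_lit 136) (nat_lit 5) (nat_lit 142) (nat_lit 5) (nat_lit 137) (nat_lit 4) (nat_lit 352) (nat_lit 278) (nat_lit 270)) (XT.lf (nat_lit 0) (nat_lit 2203030285) (nat_lit 380) (nat_lit 4463662835) (nat_lit 456) (nat_lit 3111779805) (nat_lit 131) (nat_lit 5) (nat_lit 136) (nat_lit 5) (nat_lit 137) (nat_lit 4) (nat_lit 353) (nat_lit 278)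 (nat_lit 269))) (XT.nd (nat_lit 78) (nat_lit 760) (nat_lit 0) (XT.lf (nat_lit 0) (nat_lit 2772040056) (nat_lit 456) (nat_lit 6498641037) (nat_lit 76) (nat_lit 653110862) (nat_lit 125) (nat_lit 5) (nat_lit 131) (nat_lit 5) (nat_lit 126) (nat_lit 4) (nat_lit 354) (nat_lit 278) (nat_lit 268)) (XT.nd (nat_lit 78) (nat_lit 456) (nat_lit 0) (XT.lf (nat_lit 0) (nat_lit 4596154424) (nat_lit 304) (nat_lit 4175581932) (nat_lit 380) (nat_lit 1301724035) (nat_lit 121) (nat_lit 5) (nat_lit 125) (nat_lit 5) (nat_lit 126) (nat_lit 4) (nat_lit 355) (nat_lit 278) (nat_lit 267)) (XT.lf (nat_lit 0) (nat_lit 4622305047) (nat_lit 456) (nat_lit 4503631668) (nat_lit 76) (nat_lit 1101892033) (nat_lit 115) (nat_lit 5) (nat_lit 121) (nat_lit 5) (nat_lit 116) (nat_lit 4) (nat_lit 356) (nat_lit 278) (nat_lit 266))))) (XT.nd (nat_lit 156) (nat_lit 1064) (nat_lit 0) (XT.nd (nat_lit 78) (nat_lit 304) (nat_lit 0) (XT.lf (nat_lit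 0) (nat_lit 298631692) (nat_lit 380) (nat_lit 3583475549) (nat_lit 76) (nat_lit 6504875877) (nat_lit 110) (nat_lit 5) (nat_lit 115) (nat_lit 5) (nat_lit 111) (nat_lit 5) (nat_lit 357) (nat_lit 278) (nat_lit 265)) (XT.lf (nat_lit 0) (nat_lit 6271184127) (nat_lit 380) (nat_lit 2731019032) (nat_lit 76) (nat_lit 1548649216) (nat_lit 106) (nat_lit 5) (nat_lit 111) (nat_lit 5) (nat_lit 107) (nat_lit 4) (nat_lit 358) (nat_lit 278) (nat_lit 264))) (XT.nd (nat_lit 78) (nat_lit 684) (nat_lit 0) (XT.lf (nat_lit 0) (nat_lit 1665450462) (nat_lit 380) (nat_lit 1941462477) (nat_lit 76) (nat_lit 7112841773) (nat_lit 101) (nat_lit 5) (nat_lit 106) (nat_lit 5) (nat_lit 102) (nat_lit 5) (nat_lit 359) (nat_lit 278) (nat_lit 263)) (XT.nd (nat_lit 78) (nat_lit 380) (nat_lit 0) (XT.lf (nat_lit 0) (nat_lit 7704203514) (nat_lit 380) (nat_lit 1225056746) (nat_lit 76) (nat_lit 1964457217) (nat_lit 97) (nat_lit 5) (nat_lit 102)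 (nat_lit 5) (nat_lit 98) (nat_lit 4) (nat_lit 360) (nat_lit 278) (nat_lit 262)) (XT.lf (nat_lit 0) (nat_lit 2799776419) (nat_lit 380) (nat_lit 589178045) (nat_lit 76) (nat_lit 7683881704) (nat_lit 92) (nat_lit 5) (nat_lit 97) (nat_lit 5) (nat_lit 93) (nat_lit 5) (nat_lit 361) (nat_lit 278) (nat_lit 261))))))) (XT.nd (nat_lit 780) (nat_lit 1900) (nat_lit 0) (XT.nd (nat_lit 390) (nat_lit 1140) (nat_lit 0) (XT.nd (nat_lit 156) (nat_lit 836) (nat_lit 0) (XT.nd (nat_lit 78) (nat_lit 608) (nat_lit 0) (XT.lf (nat_lit 0) (nat_lit 8904207973) (nat_lit 380) (nat_lit 34255353) (nat_lit 76) (nat_lit 2318893060) (nat_lit 88) (nat_lit 5) (nat_lit 93) (nat_lit 5) (nat_lit 89) (nat_lit 4) (nat_lit 362) (nat_lit 278) (nat_lit 260)) (XT.lf (nat_lit 0) (nat_lit 428115349) (nat_lit 304) (nat_lit 3257441354) (nat_lit 380) (nat_lit 7761587501) (nat_lit 80) (nat_lit 5) (nat_lit 84) (nat_lit 5) (nat_lit 85) (nat_lit 5) (nat_lit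 363) (nat_lit 278) (nat_lit 259))) (XT.nd (nat_lit 78) (nat_lit 608) (nat_lit 0) (XT.lf (nat_lit 0) (nat_lit 798556637) (nat_lit 228) (nat_lit 9057768212) (nat_lit 304) (nat_lit 1786355875) (nat_lit 77) (nat_lit 5) (nat_lit 80) (nat_lit 5) (nat_lit 81) (nat_lit 4) (nat_lit 364) (nat_lit 278) (nat_lit 258)) (XT.nd (nat_lit 78) (nat_lit 228) (nat_lit 0) (XT.lf (nat_lit 0) (nat_lit 1051412050) (nat_lit 304) (nat_lit 3247995348) (nat_lit 380) (nat_lit 7544359910) (nat_lit 72) (nat_lit 5) (nat_lit 76) (nat_lit 5) (nat_lit 77) (nat_lit 5) (nat_lit 365) (nat_lit 278) (nat_lit 257)) (XT.lf (nat_lit 0) (nat_lit 1199006853) (nat_lit 228) (nat_lit 9330568988) (nat_lit 304) (nat_lit 1521374256) (nat_lit 69) (nat_lit 5) (nat_lit 72) (nat_lit 5) (nat_lit 73) (nat_lit 4) (nat_lit 366) (nat_lit 278) (nat_lit 256))))) (XT.nd (nat_lit 156) (nat_lit 608) (nat_lit 0) (XT.nd (nat_lit 78) (nat_lit 228) (nat_lit 0) (XT.lf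 (nat_lit 0) (nat_lit 1210426138) (nat_lit 228) (nat_lit 3401445478) (nat_lit 304) (nat_lit 7652069896) (nat_lit 65) (nat_lit 5) (nat_lit 68) (nat_lit 5) (nat_lit 69) (nat_lit 5) (nat_lit 367) (nat_lit 278) (nat_lit 255)) (XT.lf (nat_lit 0) (nat_lit 1101084680) (nat_lit 228) (nat_lit 9795584943) (nat_lit 304) (nat_lit 1586707582) (nat_lit 62) (nat_lit 5) (nat_lit 65) (nat_lit 5) (nat_lit 66) (nat_lit 4) (nat_lit 368) (nat_lit 278) (nat_lit 254))) (XT.nd (nat_lit 78) (nat_lit 304) (nat_lit 0) (XT.lf (nat_lit 0) (nat_lit 836258541) (nat_lit 228) (nat_lit 3757467589) (nat_lit 304) (nat_lit 8115199113) (nat_lit 58) (nat_lit 5) (nat_lit 61) (nat_lit 5) (nat_lit 62) (nat_lit 5) (nat_lit 369) (nat_lit 278) (nat_lit 253)) (XT.nd (nat_lit 78) (nat_lit 76) (nat_lit 0) (XT.lf (nat_lit 0) (nat_lit 432423471) (nat_lit 228) (nat_lit 10494326858) (nat_lit 304) (nat_lit 2014523557) (nat_lit 55) (nat_lit 5) (nat_lit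 58) (nat_lit 5) (nat_lit 59) (nat_lit 4) (nat_lit 370) (nat_lit 278) (nat_lit 252)) (XT.lf (nat_lit 0) (nat_lit 4212723387) (nat_lit 304) (nat_lit 145250740) (nat_lit 76) (nat_lit 8822091374) (nat_lit 54) (nat_lit 5) (nat_lit 58) (nat_lit 5) (nat_lit 55) (nat_lit 5) (nat_lit 371) (nat_lit 278) (nat_lit 251)))))) (XT.nd (nat_lit 390) (nat_lit 760) (nat_lit 0) (XT.nd (nat_lit 156) (nat_lit 684) (nat_lit 0) (XT.nd (nat_lit 78) (nat_lit 228) (nat_lit 0) (XT.lf (nat_lit 0) (nat_lit 10590574466) (nat_lit 304) (nat_lit 875306530) (nat_lit 76) (nat_lit 1960067630) (nat_lit 51) (nat_lit 5) (nat_lit 55) (nat_lit 5) (nat_lit 52) (nat_lit 4) (nat_lit 372) (nat_lit 278) (nat_lit 250)) (XT.lf (nat_lit 0) (nat_lit 3440279353) (nat_lit 228) (nat_lit 1800074660) (nat_lit 76) (nat_lit 8438311154) (nat_lit 48) (nat_lit 5) (nat_lit 51) (nat_lit 5) (nat_lit 49) (nat_lit 5) (nat_lit 373) (nat_lit 278) (nat_lit 249))) (XT.nd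 (nat_lit 78) (nat_lit 456) (nat_lit 0) (XT.lf (nat_lit 0) (nat_lit 9850444066) (nat_lit 304) (nat_lit 2906792758) (nat_lit 76) (nat_lit 1181672181) (nat_lit 45) (nat_lit 5) (nat_lit 49) (nat_lit 5) (nat_lit 46) (nat_lit 4) (nat_lit 374) (nat_lit 278) (nat_lit 248)) (XT.nd (nat_lit 78) (nat_lit 228) (nat_lit 0) (XT.lf (nat_lit 0) (nat_lit 2229231979) (nat_lit 228) (nat_lit 4230983700) (nat_lit 76) (nat_lit 7746213278) (nat_lit 42) (nat_lit 5) (nat_lit 45) (nat_lit 5) (nat_lit 43) (nat_lit 5) (nat_lit 375) (nat_lit 278) (nat_lit 247)) (XT.lf (nat_lit 0) (nat_lit 8659654470) (nat_lit 304) (nat_lit 5764250826) (nat_lit 76) (nat_lit 57968592) (nat_lit 39) (nat_lit 5) (nat_lit 43) (nat_lit 5) (nat_lit 40) (nat_lit 4) (nat_lit 376) (nat_lit 278) (nat_lit 246))))) (XT.nd (nat_lit 156) (nat_lit 380) (nat_lit 0) (XT.nd (nat_lit 78) (nat_lit 152) (nat_lit 0) (XT.lf (nat_lit 0) (nat_lit 532669153) (nat_lit 228)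 (nat_lit 7539565614) (nat_lit 76) (nat_lit 6692853247) (nat_lit 36) (nat_lit 5) (nat_lit 39) (nat_lit 5) (nat_lit 37) (nat_lit 5) (nat_lit 377) (nat_lit 278) (nat_lit 245)) (XT.lf (nat_lit 0) (nat_lit 5492263068) (nat_lit 152) (nat_lit 1486284571) (nat_lit 228) (nat_lit 8077905917) (nat_lit 34) (nat_lit 5) (nat_lit 36) (nat_lit 5) (nat_lit 37) (nat_lit 5) (nat_lit 378) (nat_lit 278) (nat_lit 244))) (XT.nd (nat_lit 78) (nat_lit 228) (nat_lit 0) (XT.lf (nat_lit 0) (nat_lit 3506822484) (nat_lit 152) (nat_lit 10124841528) (nat_lit 228) (nat_lit 1724632006) (nat_lit 32) (nat_lit 5) (nat_lit 34) (nat_lit 5) (nat_lit 35) (nat_lit 4) (nat_lit 379) (nat_lit 278) (nat_lit 243)) (XT.nd (nat_lit 78) (nat_lit 0) (nat_lit 0) (XT.lf (nat_lit 0) (nat_lit 1246032842) (nat_lit 152) (nat_lit 3499604327) (nat_lit 228) (nat_lit 10919091291) (nat_lit 29) (nat_lit 5) (nat_lit 31) (nat_lit 5) (nat_lit 32) (nat_lit 5) (nat_lit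 380) (nat_lit 278) (nat_lit 242)) (XT.lf (nat_lit 0) (nat_lit 11396670982) (nat_lit 228) (nat_lit 1282253425) (nat_lit 76) (nat_lit 3303071904) (nat_lit 29) (nat_lit 5) (nat_lit 32) (nat_lit 5) (nat_lit 30) (nat_lit 4) (nat_lit 381) (nat_lit 278) (nat_lit 241))))))))
noncomputable def xc13 : XT := (XT.nd (nat_lit 44850) (nat_lit 0) (nat_lit 1900) (XT.nd (nat_lit 44070) (nat_lit 0) (nat_lit 7904) (XT.nd (nat_lit 390) (nat_lit 152) (nat_lit 0) (XT.nd (nat_lit 156) (nat_lit 380) (nat_lit 0) (XT.nd (nat_lit 78) (nat_lit 152) (nat_lit 0) (XT.lf (nat_lit 0) (nat_lit 1926120387) (nat_lit 228) (nat_lit 4095595623) (nat_lit 76) (nat_lit 10286564270) (nat_lit 26) (nat_lit 5) (nat_lit 29) (nat_lit 5) (nat_lit 27) (nat_lit 5) (nat_lit 382) (nat_lit 278) (nat_lit 240)) (XT.lf (nat_lit 0) (nat_lit 8557751303) (nat_lit 228) (nat_lit 7229303923) (nat_lit 76) (nat_lit 856959850) (nat_lit 24) (nat_lit 5) (nat_lit 27)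 (nat_lit 5) (nat_lit 25) (nat_lit 4) (nat_lit 383) (nat_lit 278) (nat_lit 239))) (XT.nd (nat_lit 78) (nat_lit 228) (nat_lit 0) (XT.lf (nat_lit 0) (nat_lit 6282104008) (nat_lit 152) (nat_lit 9127586882) (nat_lit 228) (nat_lit 1579714763) (nat_lit 22) (nat_lit 5) (nat_lit 24) (nat_lit 5) (nat_lit 25) (nat_lit 4) (nat_lit 384) (nat_lit 278) (nat_lit 238)) (XT.nd (nat_lit 78) (nat_lit 0) (nat_lit 0) (XT.lf (nat_lit 0) (nat_lit 2801219893) (nat_lit 152) (nat_lit 2234469118) (nat_lit 228) (nat_lit 12309197533) (nat_lit 19) (nat_lit 5) (nat_lit 21) (nat_lit 5) (nat_lit 22) (nat_lit 5) (nat_lit 385) (nat_lit 278) (nat_lit 237)) (XT.lf (nat_lit 0) (nat_lit 11847265773) (nat_lit 228) (nat_lit 1044973190) (nat_lit 76) (nat_lit 4818210702) (nat_lit 19) (nat_lit 5) (nat_lit 22) (nat_lit 5) (nat_lit 20) (nat_lit 4) (nat_lit 386) (nat_lit 278) (nat_lit 236))))) (XT.nd (nat_lit 43446) (nat_lit 0) (nat_lit 12844)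 (XT.nd (nat_lit 43368) (nat_lit 0) (nat_lit 15048) (XT.lf (nat_lit 0) (nat_lit 781494543) (nat_lit 152) (nat_lit 5229213436) (nat_lit 76) (nat_lit 12075871229) (nat_lit 17) (nat_lit 5) (nat_lit 19) (nat_lit 5) (nat_lit 18) (nat_lit 5) (nat_lit 387) (nat_lit 278) (nat_lit 235)) (XT.lf (nat_lit 0) (nat_lit 2248529096) (nat_lit 608) (nat_lit 989078168) (nat_lit 608) (nat_lit 989078168) (nat_lit 215) (nat_lit 4) (nat_lit 223) (nat_lit 5) (nat_lit 223) (nat_lit 4) (nat_lit 342) (nat_lit 279) (nat_lit 279))) (XT.nd (nat_lit 78) (nat_lit 1596) (nat_lit 0) (XT.lf (nat_lit 0) (nat_lit 3783646511) (nat_lit 608) (nat_lit 2585643824) (nat_lit 0) (nat_lit 2186440021) (nat_lit 207) (nat_lit 5) (nat_lit 215) (nat_lit 4) (nat_lit 207) (nat_lit 4) (nat_lit 343) (nat_lit 279) (nat_lit 278)) (XT.nd (nat_lit 78) (nat_lit 988) (nat_lit 0) (XT.lf (nat_lit 0) (nat_lit 960880056) (nat_lit 608) (nat_lit 1206914689) (nat_lit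 76) (nat_lit 6494144660) (nat_lit 199) (nat_lit 5) (nat_lit 207) (nat_lit 5) (nat_lit 200) (nat_lit 4) (nat_lit 344) (nat_lit 279) (nat_lit 277)) (XT.lf (nat_lit 0) (nat_lit 166089409) (nat_lit 532) (nat_lit 6583926681) (nat_lit 532) (nat_lit 2021757361) (nat_lit 186) (nat_lit 4) (nat_lit 193) (nat_lit 5) (nat_lit 193) (nat_lit 4) (nat_lit 345) (nat_lit 279) (nat_lit 276)))))) (XT.nd (nat_lit 390) (nat_lit 2508) (nat_lit 0) (XT.nd (nat_lit 156) (nat_lit 1368) (nat_lit 0) (XT.nd (nat_lit 78) (nat_lit 532) (nat_lit 0) (XT.lf (nat_lit 0) (nat_lit 1550966892) (nat_lit 456) (nat_lit 2184749052) (nat_lit 532) (nat_lit 5149577113) (nat_lit 179) (nat_lit 5) (nat_lit 185) (nat_lit 5) (nat_lit 186) (nat_lit 4) (nat_lit 346) (nat_lit 279) (nat_lit 275)) (XT.lf (nat_lit 0) (nat_lit 581174639) (nat_lit 532) (nat_lit 6067646011) (nat_lit 76) (nat_lit 2354032366) (nat_lit 172) (nat_lit 5) (nat_lit 179) (nat_lit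 5) (nat_lit 173) (nat_lit 4) (nat_lit 347) (nat_lit 279) (nat_lit 274))) (XT.nd (nat_lit 78) (nat_lit 912) (nat_lit 0) (XT.lf (nat_lit 0) (nat_lit 4299279541) (nat_lit 456) (nat_lit 2069612738) (nat_lit 532) (nat_lit 2755310530) (nat_lit 166) (nat_lit 5) (nat_lit 172) (nat_lit 5) (nat_lit 173) (nat_lit 4) (nat_lit 348) (nat_lit 279) (nat_lit 273)) (XT.nd (nat_lit 78) (nat_lit 380) (nat_lit 0) (XT.lf (nat_lit 0) (nat_lit 3000150672) (nat_lit 532) (nat_lit 3598103626) (nat_lit 76) (nat_lit 2651390305) (nat_lit 159) (nat_lit 5) (nat_lit 166) (nat_lit 5) (nat_lit 160) (nat_lit 4) (nat_lit 349) (nat_lit 279) (nat_lit 272)) (XT.lf (nat_lit 0) (nat_lit 6993616737) (nat_lit 380) (nat_lit 1855786835) (nat_lit 456) (nat_lit 529951186) (nat_lit 154) (nat_lit 5) (nat_lit 159) (nat_lit 5) (nat_lit 160) (nat_lit 4) (nat_lit 350) (nat_lit 279) (nat_lit 271))))) (XT.nd (nat_lit 156) (nat_lit 1520) (nat_lit 0) (XT.nd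 (nat_lit 78) (nat_lit 456) (nat_lit 0) (XT.lf (nat_lit 0) (nat_lit 5257365516) (nat_lit 532) (nat_lit 1213754180) (nat_lit 76) (nat_lit 3041848983) (nat_lit 147) (nat_lit 5) (nat_lit 154) (nat_lit 5) (nat_lit 148) (nat_lit 4) (nat_lit 351) (nat_lit 279) (nat_lit 270)) (XT.lf (nat_lit 0) (nat_lit 1501029714) (nat_lit 456) (nat_lit 57674995) (nat_lit 76) (nat_lit 8092432053) (nat_lit 141) (nat_lit 5) (nat_lit 147) (nat_lit 5) (nat_lit 142) (nat_lit 5) (nat_lit 352) (nat_lit 279) (nat_lit 269))) (XT.nd (nat_lit 78) (nat_lit 760) (nat_lit 0) (XT.lf (nat_lit 0) (nat_lit 1067279866) (nat_lit 380) (nat_lit 6286207353) (nat_lit 456) (nat_lit 2439816933) (nat_lit 131) (nat_lit 5) (nat_lit 136) (nat_lit 5) (nat_lit 137) (nat_lit 4) (nat_lit 353) (nat_lit 279) (nat_lit 268)) (XT.nd (nat_lit 78) (nat_lit 304) (nat_lit 0) (XT.lf (nat_lit 0) (nat_lit 2161724898) (nat_lit 380) (nat_lit 1197765449) (nat_lit 456)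 (nat_lit 6580576314) (nat_lit 125) (nat_lit 5) (nat_lit 130) (nat_lit 5) (nat_lit 131) (nat_lit 5) (nat_lit 354) (nat_lit 279) (nat_lit 267)) (XT.lf (nat_lit 0) (nat_lit 3210337068) (nat_lit 304) (nat_lit 6069916567) (nat_lit 380) (nat_lit 811076376) (nat_lit 121) (nat_lit 5) (nat_lit 125) (nat_lit 5) (nat_lit 126) (nat_lit 4) (nat_lit 355) (nat_lit 279) (nat_lit 266))))))) (XT.nd (nat_lit 780) (nat_lit 2584) (nat_lit 0) (XT.nd (nat_lit 390) (nat_lit 1596) (nat_lit 0) (XT.nd (nat_lit 156) (nat_lit 988) (nat_lit 0) (XT.nd (nat_lit 78) (nat_lit 380) (nat_lit 0) (XT.lf (nat_lit 0) (nat_lit 4209763395) (nat_lit 380) (nat_lit 818245477) (nat_lit 456) (nat_lit 5219211432) (nat_lit 115) (nat_lit 5) (nat_lit 120) (nat_lit 5) (nat_lit 121) (nat_lit 5) (nat_lit 356) (nat_lit 279) (nat_lit 265)) (XT.lf (nat_lit 0) (nat_lit 602952704) (nat_lit 380) (nat_lit 5250951570) (nat_lit 76) (nat_lit 4553973458) (nat_lit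 110) (nat_lit 5) (nat_lit 115) (nat_lit 5) (nat_lit 111) (nat_lit 5) (nat_lit 357) (nat_lit 279) (nat_lit 264))) (XT.nd (nat_lit 78) (nat_lit 684) (nat_lit 0) (XT.lf (nat_lit 0) (nat_lit 6045611125) (nat_lit 304) (nat_lit 448454236) (nat_lit 380) (nat_lit 4079324720) (nat_lit 106) (nat_lit 5) (nat_lit 110) (nat_lit 5) (nat_lit 111) (nat_lit 5) (nat_lit 358) (nat_lit 279) (nat_lit 263)) (XT.nd (nat_lit 78) (nat_lit 304) (nat_lit 0) (XT.lf (nat_lit 0) (nat_lit 1788591893) (nat_lit 380) (nat_lit 3878409330) (nat_lit 76) (nat_lit 5076770279) (nat_lit 101) (nat_lit 5) (nat_lit 106) (nat_lit 5) (nat_lit 102) (nat_lit 5) (nat_lit 359) (nat_lit 279) (nat_lit 262)) (XT.lf (nat_lit 0) (nat_lit 7625476316) (nat_lit 304) (nat_lit 117570143) (nat_lit 380) (nat_lit 3176386991) (nat_lit 97) (nat_lit 5) (nat_lit 101) (nat_lit 5) (nat_lit 102) (nat_lit 5) (nat_lit 360) (nat_lit 279) (nat_lit 261))))) (XT.nd (nat_lit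 156) (nat_lit 912) (nat_lit 0) (XT.nd (nat_lit 78) (nat_lit 304) (nat_lit 0) (XT.lf (nat_lit 0) (nat_lit 2740122405) (nat_lit 380) (nat_lit 2804680260) (nat_lit 76) (nat_lit 5555212523) (nat_lit 92) (nat_lit 5) (nat_lit 97) (nat_lit 5) (nat_lit 93) (nat_lit 5) (nat_lit 361) (nat_lit 279) (nat_lit 260)) (XT.lf (nat_lit 0) (nat_lit 8758604959) (nat_lit 380) (nat_lit 2385865250) (nat_lit 76) (nat_lit 141796386) (nat_lit 88) (nat_lit 5) (nat_lit 93) (nat_lit 5) (nat_lit 89) (nat_lit 4) (nat_lit 362) (nat_lit 279) (nat_lit 259))) (XT.nd (nat_lit 78) (nat_lit 608) (nat_lit 0) (XT.lf (nat_lit 0) (nat_lit 3438388010) (nat_lit 304) (nat_lit 2080883347) (nat_lit 76) (nat_lit 5958316224) (nat_lit 84) (nat_lit 5) (nat_lit 88) (nat_lit 5) (nat_lit 85) (nat_lit 5) (nat_lit 363) (nat_lit 279) (nat_lit 258)) (XT.nd (nat_lit 78) (nat_lit 304) (nat_lit 0) (XT.lf (nat_lit 0) (nat_lit 9519741055) (nat_lit 380) (nat_lit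 1856438675) (nat_lit 76) (nat_lit 298743957) (nat_lit 80) (nat_lit 5) (nat_lit 85) (nat_lit 5) (nat_lit 81) (nat_lit 4) (nat_lit 364) (nat_lit 279) (nat_lit 257)) (XT.lf (nat_lit 0) (nat_lit 3861196539) (nat_lit 304) (nat_lit 1763235403) (nat_lit 76) (nat_lit 6253121387) (nat_lit 76) (nat_lit 5) (nat_lit 80) (nat_lit 5) (nat_lit 77) (nat_lit 5) (nat_lit 365) (nat_lit 279) (nat_lit 256)))))) (XT.nd (nat_lit 390) (nat_lit 1216) (nat_lit 0) (XT.nd (nat_lit 156) (nat_lit 760) (nat_lit 0) (XT.nd (nat_lit 78) (nat_lit 304) (nat_lit 0) (XT.lf (nat_lit 0) (nat_lit 10002164395) (nat_lit 380) (nat_lit 1763871391) (nat_lit 76) (nat_lit 320494771) (nat_lit 72) (nat_lit 5) (nat_lit 77) (nat_lit 5) (nat_lit 73) (nat_lit 4) (nat_lit 366) (nat_lit 279) (nat_lit 255)) (XT.lf (nat_lit 0) (nat_lit 3983054284) (nat_lit 304) (nat_lit 1913663603) (nat_lit 76) (nat_lit 6404351300) (nat_lit 68) (nat_lit 5) (nat_lit 72) (nat_lit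 5) (nat_lit 69) (nat_lit 5) (nat_lit 367) (nat_lit 279) (nat_lit 254))) (XT.nd (nat_lit 78) (nat_lit 532) (nat_lit 0) (XT.lf (nat_lit 0) (nat_lit 10178917923) (nat_lit 304) (nat_lit 2173162367) (nat_lit 76) (nat_lit 170212914) (nat_lit 65) (nat_lit 5) (nat_lit 69) (nat_lit 5) (nat_lit 66) (nat_lit 4) (nat_lit 368) (nat_lit 279) (nat_lit 253)) (XT.nd (nat_lit 78) (nat_lit 228) (nat_lit 0) (XT.lf (nat_lit 0) (nat_lit 3774867967) (nat_lit 304) (nat_lit 2600477628) (nat_lit 76) (nat_lit 6374045359) (nat_lit 61) (nat_lit 5) (nat_lit 65) (nat_lit 5) (nat_lit 62) (nat_lit 5) (nat_lit 369) (nat_lit 279) (nat_lit 252)) (XT.lf (nat_lit 0) (nat_lit 9826176667) (nat_lit 228) (nat_lit 194384857) (nat_lit 304) (nat_lit 2962933590) (nat_lit 58) (nat_lit 5) (nat_lit 61) (nat_lit 5) (nat_lit 62) (nat_lit 5) (nat_lit 370) (nat_lit 279) (nat_lit 251))))) (XT.nd (nat_lit 156) (nat_lit 684) (nat_lit 0) (XT.nd (nat_lit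 78) (nat_lit 228) (nat_lit 0) (XT.lf (nat_lit 0) (nat_lit 3203611249) (nat_lit 304) (nat_lit 3899108008) (nat_lit 76) (nat_lit 6121161914) (nat_lit 54) (nat_lit 5) (nat_lit 58) (nat_lit 5) (nat_lit 55) (nat_lit 5) (nat_lit 371) (nat_lit 279) (nat_lit 250)) (XT.lf (nat_lit 0) (nat_lit 8674386917) (nat_lit 228) (nat_lit 819442946) (nat_lit 304) (nat_lit 3977695311) (nat_lit 51) (nat_lit 5) (nat_lit 54) (nat_lit 5) (nat_lit 55) (nat_lit 5) (nat_lit 372) (nat_lit 279) (nat_lit 249))) (XT.nd (nat_lit 78) (nat_lit 456) (nat_lit 0) (XT.lf (nat_lit 0) (nat_lit 2231952377) (nat_lit 228) (nat_lit 5892917898) (nat_lit 76) (nat_lit 5601147360) (nat_lit 48) (nat_lit 5) (nat_lit 51) (nat_lit 5) (nat_lit 49) (nat_lit 5) (nat_lit 373) (nat_lit 279) (nat_lit 248)) (XT.nd (nat_lit 78) (nat_lit 228) (nat_lit 0) (XT.lf (nat_lit 0) (nat_lit 6808493631) (nat_lit 228) (nat_lit 1750127866) (nat_lit 304) (nat_lit 5429317491)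 (nat_lit 45) (nat_lit 5) (nat_lit 48) (nat_lit 5) (nat_lit 49) (nat_lit 5) (nat_lit 374) (nat_lit 279) (nat_lit 247)) (XT.lf (nat_lit 0) (nat_lit 817839233) (nat_lit 228) (nat_lit 8674096258) (nat_lit 76) (nat_lit 4765467315) (nat_lit 42) (nat_lit 5) (nat_lit 45) (nat_lit 5) (nat_lit 43) (nat_lit 5) (nat_lit 375) (nat_lit 279) (nat_lit 246))))))))
noncomputable def xc14 : XT := (XT.nd (nat_lit 44694) (nat_lit 0) (nat_lit 3800) (XT.nd (nat_lit 780) (nat_lit 228) (nat_lit 0) (XT.nd (nat_lit 390) (nat_lit 760) (nat_lit 0) (XT.nd (nat_lit 156) (nat_lit 456) (nat_lit 0) (XT.nd (nat_lit 78) (nat_lit 152) (nat_lit 0) (XT.lf (nat_lit 0) (nat_lit 4132879884) (nat_lit 228) (nat_lit 3038175395) (nat_lit 304) (nat_lit 7363343614) (nat_lit 39) (nat_lit 5) (nat_lit 42) (nat_lit 5) (nat_lit 43) (nat_lit 5) (nat_lit 376) (nat_lit 279) (nat_lit 245)) (XT.lf (nat_lit 0) (nat_lit 2467845621) (nat_lit 152) (nat_lit 11251391441)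 (nat_lit 228) (nat_lit 1100394266) (nat_lit 37) (nat_lit 5) (nat_lit 39) (nat_lit 5) (nat_lit 40) (nat_lit 4) (nat_lit 377) (nat_lit 279) (nat_lit 244))) (XT.nd (nat_lit 78) (nat_lit 228) (nat_lit 0) (XT.lf (nat_lit 0) (nat_lit 541697491) (nat_lit 152) (nat_lit 4740170181) (nat_lit 228) (nat_lit 9830839550) (nat_lit 34) (nat_lit 5) (nat_lit 36) (nat_lit 5) (nat_lit 37) (nat_lit 5) (nat_lit 378) (nat_lit 279) (nat_lit 243)) (XT.nd (nat_lit 78) (nat_lit 228) (nat_lit 0) (XT.lf (nat_lit 0) (nat_lit 11845783609) (nat_lit 228) (nat_lit 1604804477) (nat_lit 76) (nat_lit 1963751910) (nat_lit 34) (nat_lit 5) (nat_lit 37) (nat_lit 5) (nat_lit 35) (nat_lit 4) (nat_lit 379) (nat_lit 279) (nat_lit 242)) (XT.lf (nat_lit 0) (nat_lit 2862381080) (nat_lit 228) (nat_lit 4028722180) (nat_lit 76) (nat_lit 8833184922) (nat_lit 31) (nat_lit 5) (nat_lit 34) (nat_lit 5) (nat_lit 32) (nat_lit 5) (nat_lit 380) (nat_lit 279)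 (nat_lit 241))))) (XT.nd (nat_lit 156) (nat_lit 456) (nat_lit 0) (XT.nd (nat_lit 78) (nat_lit 152) (nat_lit 0) (XT.lf (nat_lit 0) (nat_lit 9315653415) (nat_lit 152) (nat_lit 105527401) (nat_lit 228) (nat_lit 6622225724) (nat_lit 29) (nat_lit 5) (nat_lit 31) (nat_lit 5) (nat_lit 32) (nat_lit 5) (nat_lit 381) (nat_lit 279) (nat_lit 240)) (XT.lf (nat_lit 0) (nat_lit 6631086779) (nat_lit 152) (nat_lit 9573734622) (nat_lit 228) (nat_lit 166726995) (nat_lit 27) (nat_lit 5) (nat_lit 29) (nat_lit 5) (nat_lit 30) (nat_lit 4) (nat_lit 382) (nat_lit 279) (nat_lit 239))) (XT.nd (nat_lit 78) (nat_lit 228) (nat_lit 0) (XT.lf (nat_lit 0) (nat_lit 3625003287) (nat_lit 152) (nat_lit 2756368441) (nat_lit 228) (nat_lit 10327652876) (nat_lit 24) (nat_lit 5) (nat_lit 26) (nat_lit 5) (nat_lit 27) (nat_lit 5) (nat_lit 383) (nat_lit 279) (nat_lit 238)) (XT.nd (nat_lit 78) (nat_lit 76) (nat_lit 0) (XT.lf (nat_lit 0) (nat_lit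 291651316) (nat_lit 152) (nat_lit 12842957466) (nat_lit 228) (nat_lit 3921785677) (nat_lit 22) (nat_lit 5) (nat_lit 24) (nat_lit 5) (nat_lit 25) (nat_lit 4) (nat_lit 384) (nat_lit 279) (nat_lit 237)) (XT.lf (nat_lit 0) (nat_lit 2664698649) (nat_lit 228) (nat_lit 3352157391) (nat_lit 76) (nat_lit 11396521134) (nat_lit 21) (nat_lit 5) (nat_lit 24) (nat_lit 5) (nat_lit 22) (nat_lit 5) (nat_lit 385) (nat_lit 279) (nat_lit 236)))))) (XT.nd (nat_lit 43524) (nat_lit 0) (nat_lit 11704) (XT.nd (nat_lit 43290) (nat_lit 0) (nat_lit 14972) (XT.nd (nat_lit 78) (nat_lit 76) (nat_lit 0) (XT.lf (nat_lit 0) (nat_lit 9388590299) (nat_lit 228) (nat_lit 7360931509) (nat_lit 76) (nat_lit 1031177019) (nat_lit 19) (nat_lit 5) (nat_lit 22) (nat_lit 5) (nat_lit 20) (nat_lit 4) (nat_lit 386) (nat_lit 279) (nat_lit 235)) (XT.lf (nat_lit 0) (nat_lit 6390108587) (nat_lit 76) (nat_lit 9948018838) (nat_lit 152) (nat_lit 1820443650)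 (nat_lit 18) (nat_lit 5) (nat_lit 19) (nat_lit 5) (nat_lit 20) (nat_lit 4) (nat_lit 387) (nat_lit 279) (nat_lit 234))) (XT.nd (nat_lit 78) (nat_lit 1216) (nat_lit 0) (XT.lf (nat_lit 0) (nat_lit 833442521) (nat_lit 608) (nat_lit 1647781611) (nat_lit 608) (nat_lit 1647781611) (nat_lit 231) (nat_lit 4) (nat_lit 239) (nat_lit 5) (nat_lit 239) (nat_lit 4) (nat_lit 340) (nat_lit 280) (nat_lit 280)) (XT.nd (nat_lit 78) (nat_lit 608) (nat_lit 0) (XT.lf (nat_lit 0) (nat_lit 2355006983) (nat_lit 608) (nat_lit 5322685453) (nat_lit 0) (nat_lit 676981845) (nat_lit 223) (nat_lit 5) (nat_lit 231) (nat_lit 4) (nat_lit 223) (nat_lit 4) (nat_lit 341) (nat_lit 280) (nat_lit 279)) (XT.lf (nat_lit 0) (nat_lit 4400429509) (nat_lit 608) (nat_lit 3680792313) (nat_lit 608) (nat_lit 373616554) (nat_lit 215) (nat_lit 4) (nat_lit 223) (nat_lit 5) (nat_lit 223) (nat_lit 4) (nat_lit 342) (nat_lit 280) (nat_lit 278))))) (XT.nd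 (nat_lit 156) (nat_lit 2052) (nat_lit 0) (XT.nd (nat_lit 78) (nat_lit 608) (nat_lit 0) (XT.lf (nat_lit 0) (nat_lit 5284243019) (nat_lit 608) (nat_lit 2783202394) (nat_lit 0) (nat_lit 491227932) (nat_lit 207) (nat_lit 5) (nat_lit 215) (nat_lit 4) (nat_lit 207) (nat_lit 4) (nat_lit 343) (nat_lit 280) (nat_lit 277)) (XT.lf (nat_lit 0) (nat_lit 2367353480) (nat_lit 608) (nat_lit 1516481359) (nat_lit 76) (nat_lit 4782308440) (nat_lit 199) (nat_lit 5) (nat_lit 207) (nat_lit 5) (nat_lit 200) (nat_lit 4) (nat_lit 344) (nat_lit 280) (nat_lit 276))) (XT.nd (nat_lit 78) (nat_lit 1596) (nat_lit 0) (XT.lf (nat_lit 0) (nat_lit 8073246550) (nat_lit 532) (nat_lit 239217662) (nat_lit 0) (nat_lit 465201856) (nat_lit 193) (nat_lit 5) (nat_lit 200) (nat_lit 4) (nat_lit 193) (nat_lit 4) (nat_lit 345) (nat_lit 280) (nat_lit 275)) (XT.nd (nat_lit 78) (nat_lit 532) (nat_lit 0) (XT.lf (nat_lit 0) (nat_lit 1025398664) (nat_lit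 456) (nat_lit 3937331633) (nat_lit 532) (nat_lit 3929767979) (nat_lit 179) (nat_lit 5) (nat_lit 185) (nat_lit 5) (nat_lit 186) (nat_lit 4) (nat_lit 346) (nat_lit 280) (nat_lit 274)) (XT.lf (nat_lit 0) (nat_lit 1702124876) (nat_lit 532) (nat_lit 6708831179) (nat_lit 76) (nat_lit 600622639) (nat_lit 172) (nat_lit 5) (nat_lit 179) (nat_lit 5) (nat_lit 173) (nat_lit 4) (nat_lit 347) (nat_lit 280) (nat_lit 273))))))) (XT.nd (nat_lit 780) (nat_lit 3192) (nat_lit 0) (XT.nd (nat_lit 390) (nat_lit 2356) (nat_lit 0) (XT.nd (nat_lit 156) (nat_lit 1368) (nat_lit 0) (XT.nd (nat_lit 78) (nat_lit 532) (nat_lit 0) (XT.lf (nat_lit 0) (nat_lit 3553617350) (nat_lit 456) (nat_lit 3865409412) (nat_lit 532) (nat_lit 1715339047) (nat_lit 166) (nat_lit 5) (nat_lit 172) (nat_lit 5) (nat_lit 173) (nat_lit 4) (nat_lit 348) (nat_lit 280) (nat_lit 272)) (XT.lf (nat_lit 0) (nat_lit 3943901026) (nat_lit 532) (nat_lit 4465734255)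 (nat_lit 76) (nat_lit 851708910) (nat_lit 159) (nat_lit 5) (nat_lit 166) (nat_lit 5) (nat_lit 160) (nat_lit 4) (nat_lit 349) (nat_lit 280) (nat_lit 271))) (XT.nd (nat_lit 78) (nat_lit 912) (nat_lit 0) (XT.lf (nat_lit 0) (nat_lit 326020186) (nat_lit 456) (nat_lit 3375043406) (nat_lit 76) (nat_lit 5691373689) (nat_lit 153) (nat_lit 5) (nat_lit 159) (nat_lit 5) (nat_lit 154) (nat_lit 5) (nat_lit 350) (nat_lit 280) (nat_lit 270)) (XT.nd (nat_lit 78) (nat_lit 456) (nat_lit 0) (XT.lf (nat_lit 0) (nat_lit 6023879900) (nat_lit 532) (nat_lit 2316137193) (nat_lit 76) (nat_lit 1187633902) (nat_lit 147) (nat_lit 5) (nat_lit 154) (nat_lit 5) (nat_lit 148) (nat_lit 4) (nat_lit 351) (nat_lit 280) (nat_lit 269)) (XT.lf (nat_lit 0) (nat_lit 2172548229) (nat_lit 456) (nat_lit 1288980197) (nat_lit 76) (nat_lit 6205619677) (nat_lit 141) (nat_lit 5) (nat_lit 147) (nat_lit 5) (nat_lit 142) (nat_lit 5) (nat_lit 352) (nat_lit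 280) (nat_lit 268))))) (XT.nd (nat_lit 156) (nat_lit 1140) (nat_lit 0) (XT.nd (nat_lit 78) (nat_lit 836) (nat_lit 0) (XT.lf (nat_lit 0) (nat_lit 7935447700) (nat_lit 456) (nat_lit 292281149) (nat_lit 76) (nat_lit 1583394881) (nat_lit 136) (nat_lit 5) (nat_lit 142) (nat_lit 5) (nat_lit 137) (nat_lit 4) (nat_lit 353) (nat_lit 280) (nat_lit 267)) (XT.lf (nat_lit 0) (nat_lit 663690843) (nat_lit 380) (nat_lit 3179548245) (nat_lit 456) (nat_lit 6116050016) (nat_lit 125) (nat_lit 5) (nat_lit 130) (nat_lit 5) (nat_lit 131) (nat_lit 5) (nat_lit 354) (nat_lit 280) (nat_lit 266))) (XT.nd (nat_lit 78) (nat_lit 836) (nat_lit 0) (XT.lf (nat_lit 0) (nat_lit 1591789911) (nat_lit 304) (nat_lit 8088488502) (nat_lit 380) (nat_lit 431964300) (nat_lit 121) (nat_lit 5) (nat_lit 125) (nat_lit 5) (nat_lit 126) (nat_lit 4) (nat_lit 355) (nat_lit 280) (nat_lit 265)) (XT.nd (nat_lit 78) (nat_lit 380) (nat_lit 0) (XT.lf (nat_lit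 0) (nat_lit 2452566694) (nat_lit 380) (nat_lit 2878582084) (nat_lit 456) (nat_lit 4938370023) (nat_lit 115) (nat_lit 5) (nat_lit 120) (nat_lit 5) (nat_lit 121) (nat_lit 5) (nat_lit 356) (nat_lit 280) (nat_lit 264)) (XT.lf (nat_lit 0) (nat_lit 795284625) (nat_lit 380) (nat_lit 7158729677) (nat_lit 76) (nat_lit 2477836279) (nat_lit 110) (nat_lit 5) (nat_lit 115) (nat_lit 5) (nat_lit 111) (nat_lit 5) (nat_lit 357) (nat_lit 280) (nat_lit 263)))))) (XT.nd (nat_lit 390) (nat_lit 1520) (nat_lit 0) (XT.nd (nat_lit 156) (nat_lit 988) (nat_lit 0) (XT.nd (nat_lit 78) (nat_lit 380) (nat_lit 0) (XT.lf (nat_lit 0) (nat_lit 4020267447) (nat_lit 304) (nat_lit 2595053364) (nat_lit 380) (nat_lit 3983477530) (nat_lit 106) (nat_lit 5) (nat_lit 110) (nat_lit 5) (nat_lit 111) (nat_lit 5) (nat_lit 358) (nat_lit 280) (nat_lit 262)) (XT.lf (nat_lit 0) (nat_lit 1797640619) (nat_lit 380) (nat_lit 6061139068) (nat_lit 76) (nat_lit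 2912111669) (nat_lit 101) (nat_lit 5) (nat_lit 106) (nat_lit 5) (nat_lit 102) (nat_lit 5) (nat_lit 359) (nat_lit 280) (nat_lit 261))) (XT.nd (nat_lit 78) (nat_lit 684) (nat_lit 0) (XT.lf (nat_lit 0) (nat_lit 5322788666) (nat_lit 304) (nat_lit 2358022809) (nat_lit 380) (nat_lit 3267180330) (nat_lit 97) (nat_lit 5) (nat_lit 101) (nat_lit 5) (nat_lit 102) (nat_lit 5) (nat_lit 360) (nat_lit 280) (nat_lit 260)) (XT.nd (nat_lit 78) (nat_lit 304) (nat_lit 0) (XT.lf (nat_lit 0) (nat_lit 2564083982) (nat_lit 380) (nat_lit 5271687538) (nat_lit 76) (nat_lit 3294554740) (nat_lit 92) (nat_lit 5) (nat_lit 97) (nat_lit 5) (nat_lit 93) (nat_lit 5) (nat_lit 361) (nat_lit 280) (nat_lit 259)) (XT.lf (nat_lit 0) (nat_lit 6311886506) (nat_lit 304) (nat_lit 2198128184) (nat_lit 380) (nat_lit 2808025868) (nat_lit 88) (nat_lit 5) (nat_lit 92) (nat_lit 5) (nat_lit 93) (nat_lit 5) (nat_lit 362) (nat_lit 280) (nat_lit 258)))))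 (XT.nd (nat_lit 156) (nat_lit 912) (nat_lit 0) (XT.nd (nat_lit 78) (nat_lit 304) (nat_lit 0) (XT.lf (nat_lit 0) (nat_lit 3075133419) (nat_lit 304) (nat_lit 4841749892) (nat_lit 76) (nat_lit 3594257270) (nat_lit 84) (nat_lit 5) (nat_lit 88) (nat_lit 5) (nat_lit 85) (nat_lit 5) (nat_lit 363) (nat_lit 280) (nat_lit 257)) (XT.lf (nat_lit 0) (nat_lit 6934547401) (nat_lit 304) (nat_lit 2147893689) (nat_lit 380) (nat_lit 2627527457) (nat_lit 80) (nat_lit 5) (nat_lit 84) (nat_lit 5) (nat_lit 85) (nat_lit 5) (nat_lit 364) (nat_lit 280) (nat_lit 256))) (XT.nd (nat_lit 78) (nat_lit 608) (nat_lit 0) (XT.lf (nat_lit 0) (nat_lit 3308274341) (nat_lit 304) (nat_lit 4827823236) (nat_lit 76) (nat_lit 3778307822) (nat_lit 76) (nat_lit 5) (nat_lit 80) (nat_lit 5) (nat_lit 77) (nat_lit 5) (nat_lit 365) (nat_lit 280) (nat_lit 255)) (XT.nd (nat_lit 78) (nat_lit 304) (nat_lit 0) (XT.lf (nat_lit 0) (nat_lit 7132407278) (nat_lit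 304) (nat_lit 2242061633) (nat_lit 380) (nat_lit 2750419305) (nat_lit 72) (nat_lit 5) (nat_lit 76) (nat_lit 5) (nat_lit 77) (nat_lit 5) (nat_lit 366) (nat_lit 280) (nat_lit 254)) (XT.lf (nat_lit 0) (nat_lit 3237692242) (nat_lit 304) (nat_lit 5292139328) (nat_lit 76) (nat_lit 3811452286) (nat_lit 68) (nat_lit 5) (nat_lit 72) (nat_lit 5) (nat_lit 69) (nat_lit 5) (nat_lit 367) (nat_lit 280) (nat_lit 253))))))))
noncomputable def xc15 : XT := (XT.nd (nat_lit 44538) (nat_lit 0) (nat_lit 6916) (XT.nd (nat_lit 780) (nat_lit 1520) (nat_lit 0) (XT.nd (nat_lit 390) (nat_lit 912) (nat_lit 0) (XT.nd (nat_lit 156) (nat_lit 760) (nat_lit 0) (XT.nd (nat_lit 78) (nat_lit 304) (nat_lit 0) (XT.lf (nat_lit 0) (nat_lit 6841114612) (nat_lit 228) (nat_lit 2517949473) (nat_lit 304) (nat_lit 3204942977) (nat_lit 65) (nat_lit 5) (nat_lit 68) (nat_lit 5) (nat_lit 69) (nat_lit 5) (nat_lit 368) (nat_lit 280) (nat_lit 252)) (XT.lf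 (nat_lit 0) (nat_lit 2833973688) (nat_lit 304) (nat_lit 6303336630) (nat_lit 76) (nat_lit 3655727801) (nat_lit 61) (nat_lit 5) (nat_lit 65) (nat_lit 5) (nat_lit 62) (nat_lit 5) (nat_lit 369) (nat_lit 280) (nat_lit 251))) (XT.nd (nat_lit 78) (nat_lit 532) (nat_lit 0) (XT.lf (nat_lit 0) (nat_lit 5989631099) (nat_lit 228) (nat_lit 3015835628) (nat_lit 304) (nat_lit 4023168208) (nat_lit 58) (nat_lit 5) (nat_lit 61) (nat_lit 5) (nat_lit 62) (nat_lit 5) (nat_lit 370) (nat_lit 280) (nat_lit 250)) (XT.nd (nat_lit 78) (nat_lit 228) (nat_lit 0) (XT.lf (nat_lit 0) (nat_lit 2063771880) (nat_lit 304) (nat_lit 7937198630) (nat_lit 76) (nat_lit 3270066584) (nat_lit 54) (nat_lit 5) (nat_lit 58) (nat_lit 5) (nat_lit 55) (nat_lit 5) (nat_lit 371) (nat_lit 280) (nat_lit 249)) (XT.lf (nat_lit 0) (nat_lit 4499463062) (nat_lit 228) (nat_lit 3779377695) (nat_lit 304) (nat_lit 5241351324) (nat_lit 51) (nat_lit 5) (nat_lit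 54) (nat_lit 5) (nat_lit 55) (nat_lit 5) (nat_lit 372) (nat_lit 280) (nat_lit 248))))) (XT.nd (nat_lit 156) (nat_lit 456) (nat_lit 0) (XT.nd (nat_lit 78) (nat_lit 228) (nat_lit 0) (XT.lf (nat_lit 0) (nat_lit 889433391) (nat_lit 228) (nat_lit 10277465681) (nat_lit 76) (nat_lit 2609865884) (nat_lit 48) (nat_lit 5) (nat_lit 51) (nat_lit 5) (nat_lit 49) (nat_lit 5) (nat_lit 373) (nat_lit 280) (nat_lit 247)) (XT.lf (nat_lit 0) (nat_lit 2283816071) (nat_lit 228) (nat_lit 4856067107) (nat_lit 304) (nat_lit 6900334901) (nat_lit 45) (nat_lit 5) (nat_lit 48) (nat_lit 5) (nat_lit 49) (nat_lit 5) (nat_lit 374) (nat_lit 280) (nat_lit 246))) (XT.nd (nat_lit 78) (nat_lit 304) (nat_lit 0) (XT.lf (nat_lit 0) (nat_lit 890194076) (nat_lit 152) (nat_lit 12680402453) (nat_lit 228) (nat_lit 741137815) (nat_lit 43) (nat_lit 5) (nat_lit 45) (nat_lit 5) (nat_lit 46) (nat_lit 4) (nat_lit 375) (nat_lit 280) (nat_lit 245)) (XT.nd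 (nat_lit 78) (nat_lit 228) (nat_lit 0) (XT.lf (nat_lit 0) (nat_lit 5549280181) (nat_lit 228) (nat_lit 743455423) (nat_lit 76) (nat_lit 8297548252) (nat_lit 42) (nat_lit 5) (nat_lit 45) (nat_lit 5) (nat_lit 43) (nat_lit 5) (nat_lit 376) (nat_lit 280) (nat_lit 244)) (XT.lf (nat_lit 0) (nat_lit 12010306272) (nat_lit 304) (nat_lit 2564453038) (nat_lit 76) (nat_lit 302506719) (nat_lit 39) (nat_lit 5) (nat_lit 43) (nat_lit 5) (nat_lit 40) (nat_lit 4) (nat_lit 377) (nat_lit 280) (nat_lit 243)))))) (XT.nd (nat_lit 390) (nat_lit 608) (nat_lit 0) (XT.nd (nat_lit 156) (nat_lit 532) (nat_lit 0) (XT.nd (nat_lit 78) (nat_lit 152) (nat_lit 0) (XT.lf (nat_lit 0) (nat_lit 3473401823) (nat_lit 228) (nat_lit 4656392479) (nat_lit 76) (nat_lit 7042084704) (nat_lit 36) (nat_lit 5) (nat_lit 39) (nat_lit 5) (nat_lit 37) (nat_lit 5) (nat_lit 378) (nat_lit 280) (nat_lit 242)) (XT.lf (nat_lit 0) (nat_lit 8485795375) (nat_lit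 152) (nat_lit 1464198346) (nat_lit 228) (nat_lit 5525270660) (nat_lit 34) (nat_lit 5) (nat_lit 36) (nat_lit 5) (nat_lit 37) (nat_lit 5) (nat_lit 379) (nat_lit 280) (nat_lit 241))) (XT.nd (nat_lit 78) (nat_lit 304) (nat_lit 0) (XT.lf (nat_lit 0) (nat_lit 842670472) (nat_lit 228) (nat_lit 9601071262) (nat_lit 76) (nat_lit 5343503926) (nat_lit 31) (nat_lit 5) (nat_lit 34) (nat_lit 5) (nat_lit 32) (nat_lit 5) (nat_lit 380) (nat_lit 280) (nat_lit 240)) (XT.nd (nat_lit 78) (nat_lit 152) (nat_lit 0) (XT.lf (nat_lit 0) (nat_lit 3593561231) (nat_lit 152) (nat_lit 3728531710) (nat_lit 228) (nat_lit 8785864280) (nat_lit 29) (nat_lit 5) (nat_lit 31) (nat_lit 5) (nat_lit 32) (nat_lit 5) (nat_lit 381) (nat_lit 280) (nat_lit 239)) (XT.lf (nat_lit 0) (nat_lit 716281048) (nat_lit 152) (nat_lit 13285845956) (nat_lit 228) (nat_lit 2436049694) (nat_lit 27) (nat_lit 5) (nat_lit 29) (nat_lit 5) (nat_lit 30) (nat_lit 4)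 (nat_lit 382) (nat_lit 280) (nat_lit 238))))) (XT.nd (nat_lit 156) (nat_lit 380) (nat_lit 0) (XT.nd (nat_lit 78) (nat_lit 152) (nat_lit 0) (XT.lf (nat_lit 0) (nat_lit 4077059181) (nat_lit 228) (nat_lit 2462702033) (nat_lit 76) (nat_lit 10237486647) (nat_lit 26) (nat_lit 5) (nat_lit 29) (nat_lit 5) (nat_lit 27) (nat_lit 5) (nat_lit 383) (nat_lit 280) (nat_lit 237)) (XT.lf (nat_lit 0) (nat_lit 10746837441) (nat_lit 228) (nat_lit 5949362009) (nat_lit 76) (nat_lit 430092517) (nat_lit 24) (nat_lit 5) (nat_lit 27) (nat_lit 5) (nat_lit 25) (nat_lit 4) (nat_lit 384) (nat_lit 280) (nat_lit 236))) (XT.nd (nat_lit 78) (nat_lit 152) (nat_lit 0) (XT.lf (nat_lit 0) (nat_lit 159621312) (nat_lit 228) (nat_lit 9798935368) (nat_lit 76) (nat_lit 7526634793) (nat_lit 21) (nat_lit 5) (nat_lit 24) (nat_lit 5) (nat_lit 22) (nat_lit 5) (nat_lit 385) (nat_lit 280) (nat_lit 235)) (XT.nd (nat_lit 78) (nat_lit 0) (nat_lit 0)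 (XT.lf (nat_lit 0) (nat_lit 3823170278) (nat_lit 152) (nat_lit 2971614788) (nat_lit 228) (nat_lit 11059507308) (nat_lit 19) (nat_lit 5) (nat_lit 21) (nat_lit 5) (nat_lit 22) (nat_lit 5) (nat_lit 386) (nat_lit 280) (nat_lit 234)) (XT.lf (nat_lit 0) (nat_lit 13644961461) (nat_lit 228) (nat_lit 414163774) (nat_lit 76) (nat_lit 4175031157) (nat_lit 19) (nat_lit 5) (nat_lit 22) (nat_lit 5) (nat_lit 20) (nat_lit 4) (nat_lit 387) (nat_lit 280) (nat_lit 233))))))) (XT.nd (nat_lit 780) (nat_lit 4712) (nat_lit 0) (XT.nd (nat_lit 390) (nat_lit 3192) (nat_lit 0) (XT.nd (nat_lit 156) (nat_lit 1900) (nat_lit 0) (XT.nd (nat_lit 78) (nat_lit 1292) (nat_lit 0) (XT.lf (nat_lit 0) (nat_lit 1791694323) (nat_lit 684) (nat_lit 453612738) (nat_lit 0) (nat_lit 1791694323) (nat_lit 256) (nat_lit 5) (nat_lit 265) (nat_lit 4) (nat_lit 256) (nat_lit 4) (nat_lit 338) (nat_lit 281) (nat_lit 281)) (XT.lf (nat_lit 0) (nat_lit 326906573)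 (nat_lit 608) (nat_lit 725122360) (nat_lit 684) (nat_lit 7113147136) (nat_lit 239) (nat_lit 5) (nat_lit 247) (nat_lit 5) (nat_lit 248) (nat_lit 4) (nat_lit 339) (nat_lit 281) (nat_lit 280))) (XT.nd (nat_lit 78) (nat_lit 1292) (nat_lit 0) (XT.lf (nat_lit 0) (nat_lit 1572271178) (nat_lit 608) (nat_lit 5080866285) (nat_lit 608) (nat_lit 1606347434) (nat_lit 231) (nat_lit 4) (nat_lit 239) (nat_lit 5) (nat_lit 239) (nat_lit 4) (nat_lit 340) (nat_lit 281) (nat_lit 279)) (XT.nd (nat_lit 78) (nat_lit 684) (nat_lit 0) (XT.lf (nat_lit 0) (nat_lit 2833996737) (nat_lit 532) (nat_lit 1111671194) (nat_lit 608) (nat_lit 4411815569) (nat_lit 223) (nat_lit 5) (nat_lit 230) (nat_lit 5) (nat_lit 231) (nat_lit 4) (nat_lit 341) (nat_lit 281) (nat_lit 278)) (XT.lf (nat_lit 0) (nat_lit 1119353441) (nat_lit 684) (nat_lit 4356147330) (nat_lit 76) (nat_lit 2983594133) (nat_lit 214) (nat_lit 5) (nat_lit 223) (nat_lit 5) (nat_lit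 215) (nat_lit 4) (nat_lit 342) (nat_lit 281) (nat_lit 277))))) (XT.nd (nat_lit 156) (nat_lit 2052) (nat_lit 0) (XT.nd (nat_lit 78) (nat_lit 608) (nat_lit 0) (XT.lf (nat_lit 0) (nat_lit 5377322760) (nat_lit 532) (nat_lit 1320793453) (nat_lit 608) (nat_lit 1866274172) (nat_lit 207) (nat_lit 5) (nat_lit 214) (nat_lit 5) (nat_lit 215) (nat_lit 4) (nat_lit 343) (nat_lit 281) (nat_lit 276)) (XT.lf (nat_lit 0) (nat_lit 3677607105) (nat_lit 608) (nat_lit 2025915600) (nat_lit 76) (nat_lit 2969767330) (nat_lit 199) (nat_lit 5) (nat_lit 207) (nat_lit 5) (nat_lit 200) (nat_lit 4) (nat_lit 344) (nat_lit 281) (nat_lit 275))) (XT.nd (nat_lit 78) (nat_lit 1520) (nat_lit 0) (XT.lf (nat_lit 0) (nat_lit 517117716) (nat_lit 532) (nat_lit 856695430) (nat_lit 76) (nat_lit 7412419024) (nat_lit 192) (nat_lit 5) (nat_lit 199) (nat_lit 5) (nat_lit 193) (nat_lit 5) (nat_lit 345) (nat_lit 281) (nat_lit 274)) (XT.nd (nat_lit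 78) (nat_lit 532) (nat_lit 0) (XT.lf (nat_lit 0) (nat_lit 292899361) (nat_lit 456) (nat_lit 5798296974) (nat_lit 532) (nat_lit 2811475294) (nat_lit 179) (nat_lit 5) (nat_lit 185) (nat_lit 5) (nat_lit 186) (nat_lit 4) (nat_lit 346) (nat_lit 281) (nat_lit 273)) (XT.lf (nat_lit 0) (nat_lit 1453337651) (nat_lit 456) (nat_lit 1277733791) (nat_lit 532) (nat_lit 6292049990) (nat_lit 172) (nat_lit 5) (nat_lit 178) (nat_lit 5) (nat_lit 179) (nat_lit 5) (nat_lit 347) (nat_lit 281) (nat_lit 272)))))) (XT.nd (nat_lit 390) (nat_lit 2356) (nat_lit 0) (XT.nd (nat_lit 156) (nat_lit 1368) (nat_lit 0) (XT.nd (nat_lit 78) (nat_lit 532) (nat_lit 0) (XT.lf (nat_lit 0) (nat_lit 2596468110) (nat_lit 456) (nat_lit 5772942042) (nat_lit 532) (nat_lit 778090055) (nat_lit 166) (nat_lit 5) (nat_lit 172) (nat_lit 5) (nat_lit 173) (nat_lit 4) (nat_lit 348) (nat_lit 281) (nat_lit 271)) (XT.lf (nat_lit 0) (nat_lit 3719460440) (nat_lit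 456) (nat_lit 1073560124) (nat_lit 532) (nat_lit 4482872479) (nat_lit 159) (nat_lit 5) (nat_lit 165) (nat_lit 5) (nat_lit 166) (nat_lit 5) (nat_lit 349) (nat_lit 281) (nat_lit 270))) (XT.nd (nat_lit 78) (nat_lit 912) (nat_lit 0) (XT.lf (nat_lit 0) (nat_lit 1072286956) (nat_lit 456) (nat_lit 4586298425) (nat_lit 76) (nat_lit 3749858026) (nat_lit 153) (nat_lit 5) (nat_lit 159) (nat_lit 5) (nat_lit 154) (nat_lit 5) (nat_lit 350) (nat_lit 281) (nat_lit 269)) (XT.nd (nat_lit 78) (nat_lit 456) (nat_lit 0) (XT.lf (nat_lit 0) (nat_lit 5900671102) (nat_lit 456) (nat_lit 791774400) (nat_lit 532) (nat_lit 2852783585) (nat_lit 147) (nat_lit 5) (nat_lit 153) (nat_lit 5) (nat_lit 154) (nat_lit 5) (nat_lit 351) (nat_lit 281) (nat_lit 268)) (XT.lf (nat_lit 0) (nat_lit 2739746515) (nat_lit 456) (nat_lit 2743691622) (nat_lit 76) (nat_lit 4202725629) (nat_lit 141) (nat_lit 5) (nat_lit 147) (nat_lit 5) (nat_lit 142)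 (nat_lit 5) (nat_lit 352) (nat_lit 281) (nat_lit 267))))) (XT.nd (nat_lit 156) (nat_lit 1520) (nat_lit 0) (XT.nd (nat_lit 78) (nat_lit 456) (nat_lit 0) (XT.lf (nat_lit 0) (nat_lit 7965058772) (nat_lit 380) (nat_lit 457485587) (nat_lit 456) (nat_lit 1409213646) (nat_lit 136) (nat_lit 5) (nat_lit 141) (nat_lit 5) (nat_lit 142) (nat_lit 5) (nat_lit 353) (nat_lit 281) (nat_lit 266)) (XT.lf (nat_lit 0) (nat_lit 4226332575) (nat_lit 456) (nat_lit 1051898314) (nat_lit 76) (nat_lit 4703192721) (nat_lit 130) (nat_lit 5) (nat_lit 136) (nat_lit 5) (nat_lit 131) (nat_lit 5) (nat_lit 354) (nat_lit 281) (nat_lit 265))) (XT.nd (nat_lit 78) (nat_lit 1140) (nat_lit 0) (XT.lf (nat_lit 0) (nat_lit 9878064843) (nat_lit 380) (nat_lit 96415322) (nat_lit 456) (nat_lit 161690211) (nat_lit 125) (nat_lit 5) (nat_lit 130) (nat_lit 5) (nat_lit 131) (nat_lit 5) (nat_lit 355) (nat_lit 281) (nat_lit 264)) (XT.nd (nat_lit 78) (nat_lit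 380) (nat_lit 0) (XT.lf (nat_lit 0) (nat_lit 458465838) (nat_lit 380) (nat_lit 5066274516) (nat_lit 456) (nat_lit 4770148353) (nat_lit 115) (nat_lit 5) (nat_lit 120) (nat_lit 5) (nat_lit 121) (nat_lit 5) (nat_lit 356) (nat_lit 281) (nat_lit 263)) (XT.lf (nat_lit 0) (nat_lit 875795512) (nat_lit 380) (nat_lit 9308476862) (nat_lit 76) (nat_lit 274650240) (nat_lit 110) (nat_lit 5) (nat_lit 115) (nat_lit 5) (nat_lit 111) (nat_lit 5) (nat_lit 357) (nat_lit 281) (nat_lit 262))))))))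
noncomputable def xc16 : XT := (XT.nd (nat_lit 1560) (nat_lit 1520) (nat_lit 0) (XT.nd (nat_lit 780) (nat_lit 2204) (nat_lit 0) (XT.nd (nat_lit 390) (nat_lit 1520) (nat_lit 0) (XT.nd (nat_lit 156) (nat_lit 988) (nat_lit 0) (XT.nd (nat_lit 78) (nat_lit 380) (nat_lit 0) (XT.lf (nat_lit 0) (nat_lit 1752424841) (nat_lit 304) (nat_lit 4872443103) (nat_lit 380) (nat_lit 4002435180) (nat_lit 106) (nat_lit 5) (nat_lit 110) (nat_lit 5) (nat_lit 111) (nat_lit 5) (nat_lit 358) (nat_lit 281) (nat_lit 261)) (XT.lf (nat_lit 0) (nat_lit 1692604544) (nat_lit 380) (nat_lit 8491558929) (nat_lit 76) (nat_lit 616974496) (nat_lit 101) (nat_lit 5) (nat_lit 106) (nat_lit 5) (nat_lit 102) (nat_lit 5) (nat_lit 359) (nat_lit 281) (nat_lit 260))) (XT.nd (nat_lit 78) (nat_lit 684) (nat_lit 0) (XT.lf (nat_lit 0) (nat_lit 2771768266) (nat_lit 304) (nat_lit 4732751855) (nat_lit 380) (nat_lit 3475155857) (nat_lit 97) (nat_lit 5)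 (nat_lit 101) (nat_lit 5) (nat_lit 102) (nat_lit 5) (nat_lit 360) (nat_lit 281) (nat_lit 259)) (XT.nd (nat_lit 78) (nat_lit 304) (nat_lit 0) (XT.lf (nat_lit 0) (nat_lit 2271507331) (nat_lit 380) (nat_lit 7992355514) (nat_lit 76) (nat_lit 899933024) (nat_lit 92) (nat_lit 5) (nat_lit 97) (nat_lit 5) (nat_lit 93) (nat_lit 5) (nat_lit 361) (nat_lit 281) (nat_lit 258)) (XT.lf (nat_lit 0) (nat_lit 3468000281) (nat_lit 304) (nat_lit 4677763224) (nat_lit 380) (nat_lit 3207191662) (nat_lit 88) (nat_lit 5) (nat_lit 92) (nat_lit 5) (nat_lit 93) (nat_lit 5) (nat_lit 362) (nat_lit 281) (nat_lit 257))))) (XT.nd (nat_lit 156) (nat_lit 912) (nat_lit 0) (XT.nd (nat_lit 78) (nat_lit 304) (nat_lit 0) (XT.lf (nat_lit 0) (nat_lit 2592695916) (nat_lit 304) (nat_lit 7862511502) (nat_lit 76) (nat_lit 1092680696) (nat_lit 84) (nat_lit 5) (nat_lit 88) (nat_lit 5) (nat_lit 85) (nat_lit 5) (nat_lit 363) (nat_lit 281) (nat_lit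 256)) (XT.lf (nat_lit 0) (nat_lit 3787830458) (nat_lit 304) (nat_lit 4739953721) (nat_lit 380) (nat_lit 3220386925) (nat_lit 80) (nat_lit 5) (nat_lit 84) (nat_lit 5) (nat_lit 85) (nat_lit 5) (nat_lit 364) (nat_lit 281) (nat_lit 255))) (XT.nd (nat_lit 78) (nat_lit 608) (nat_lit 0) (XT.lf (nat_lit 0) (nat_lit 2633331203) (nat_lit 304) (nat_lit 8158818701) (nat_lit 76) (nat_lit 1162342341) (nat_lit 76) (nat_lit 5) (nat_lit 80) (nat_lit 5) (nat_lit 77) (nat_lit 5) (nat_lit 365) (nat_lit 281) (nat_lit 254)) (XT.nd (nat_lit 78) (nat_lit 304) (nat_lit 0) (XT.lf (nat_lit 0) (nat_lit 3672593194) (nat_lit 304) (nat_lit 4954044343) (nat_lit 380) (nat_lit 3539805118) (nat_lit 72) (nat_lit 5) (nat_lit 76) (nat_lit 5) (nat_lit 77) (nat_lit 5) (nat_lit 366) (nat_lit 281) (nat_lit 253)) (XT.lf (nat_lit 0) (nat_lit 2367275315) (nat_lit 304) (nat_lit 8943828058) (nat_lit 76) (nat_lit 1073674463) (nat_lit 68) (nat_lit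 5) (nat_lit 72) (nat_lit 5) (nat_lit 69) (nat_lit 5) (nat_lit 367) (nat_lit 281) (nat_lit 252)))))) (XT.nd (nat_lit 390) (nat_lit 912) (nat_lit 0) (XT.nd (nat_lit 156) (nat_lit 760) (nat_lit 0) (XT.nd (nat_lit 78) (nat_lit 304) (nat_lit 0) (XT.lf (nat_lit 0) (nat_lit 3057610885) (nat_lit 228) (nat_lit 5357356511) (nat_lit 304) (nat_lit 4194016324) (nat_lit 65) (nat_lit 5) (nat_lit 68) (nat_lit 5) (nat_lit 69) (nat_lit 5) (nat_lit 368) (nat_lit 281) (nat_lit 251)) (XT.lf (nat_lit 0) (nat_lit 1764791608) (nat_lit 304) (nat_lit 10286521651) (nat_lit 76) (nat_lit 788700209) (nat_lit 61) (nat_lit 5) (nat_lit 65) (nat_lit 5) (nat_lit 62) (nat_lit 5) (nat_lit 369) (nat_lit 281) (nat_lit 250))) (XT.nd (nat_lit 78) (nat_lit 532) (nat_lit 0) (XT.lf (nat_lit 0) (nat_lit 1871494635) (nat_lit 228) (nat_lit 5990196881) (nat_lit 304) (nat_lit 5215419022) (nat_lit 58) (nat_lit 5) (nat_lit 61) (nat_lit 5) (nat_lit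 62) (nat_lit 5) (nat_lit 370) (nat_lit 281) (nat_lit 249)) (XT.nd (nat_lit 78) (nat_lit 228) (nat_lit 0) (XT.lf (nat_lit 0) (nat_lit 792209303) (nat_lit 304) (nat_lit 12263051034) (nat_lit 76) (nat_lit 266314136) (nat_lit 54) (nat_lit 5) (nat_lit 58) (nat_lit 5) (nat_lit 55) (nat_lit 5) (nat_lit 371) (nat_lit 281) (nat_lit 248)) (XT.lf (nat_lit 0) (nat_lit 35375624) (nat_lit 228) (nat_lit 6896274697) (nat_lit 304) (nat_lit 6640599451) (nat_lit 51) (nat_lit 5) (nat_lit 54) (nat_lit 5) (nat_lit 55) (nat_lit 5) (nat_lit 372) (nat_lit 281) (nat_lit 247))))) (XT.nd (nat_lit 156) (nat_lit 684) (nat_lit 0) (XT.nd (nat_lit 78) (nat_lit 228) (nat_lit 0) (XT.lf (nat_lit 0) (nat_lit 12711472044) (nat_lit 228) (nat_lit 533938062) (nat_lit 304) (nat_lit 585247802) (nat_lit 51) (nat_lit 5) (nat_lit 54) (nat_lit 5) (nat_lit 55) (nat_lit 5) (nat_lit 373) (nat_lit 281) (nat_lit 246)) (XT.lf (nat_lit 0) (nat_lit 5601693267)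 (nat_lit 228) (nat_lit 2504654847) (nat_lit 76) (nat_lit 5989269767) (nat_lit 48) (nat_lit 5) (nat_lit 51) (nat_lit 5) (nat_lit 49) (nat_lit 5) (nat_lit 374) (nat_lit 281) (nat_lit 245))) (XT.nd (nat_lit 78) (nat_lit 456) (nat_lit 0) (XT.lf (nat_lit 0) (nat_lit 10302358545) (nat_lit 228) (nat_lit 1652441745) (nat_lit 304) (nat_lit 2413892943) (nat_lit 45) (nat_lit 5) (nat_lit 48) (nat_lit 5) (nat_lit 49) (nat_lit 5) (nat_lit 375) (nat_lit 281) (nat_lit 244)) (XT.nd (nat_lit 78) (nat_lit 228) (nat_lit 0) (XT.lf (nat_lit 0) (nat_lit 3816451238) (nat_lit 228) (nat_lit 5866935284) (nat_lit 76) (nat_lit 4965720306) (nat_lit 42) (nat_lit 5) (nat_lit 45) (nat_lit 5) (nat_lit 43) (nat_lit 5) (nat_lit 376) (nat_lit 281) (nat_lit 243)) (XT.lf (nat_lit 0) (nat_lit 7047342717) (nat_lit 228) (nat_lit 3150882017) (nat_lit 304) (nat_lit 4739455748) (nat_lit 39) (nat_lit 5) (nat_lit 42) (nat_lit 5) (nat_lit 43) (nat_lit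 5) (nat_lit 377) (nat_lit 281) (nat_lit 242))))))) (XT.nd (nat_lit 43602) (nat_lit 0) (nat_lit 13148) (XT.nd (nat_lit 390) (nat_lit 760) (nat_lit 0) (XT.nd (nat_lit 156) (nat_lit 380) (nat_lit 0) (XT.nd (nat_lit 78) (nat_lit 152) (nat_lit 0) (XT.lf (nat_lit 0) (nat_lit 1526464714) (nat_lit 228) (nat_lit 10157261295) (nat_lit 76) (nat_lit 3550796706) (nat_lit 36) (nat_lit 5) (nat_lit 39) (nat_lit 5) (nat_lit 37) (nat_lit 5) (nat_lit 378) (nat_lit 281) (nat_lit 241)) (XT.lf (nat_lit 0) (nat_lit 2837117106) (nat_lit 152) (nat_lit 5087253992) (nat_lit 228) (nat_lit 7615116646) (nat_lit 34) (nat_lit 5) (nat_lit 36) (nat_lit 5) (nat_lit 37) (nat_lit 5) (nat_lit 379) (nat_lit 281) (nat_lit 240))) (XT.nd (nat_lit 78) (nat_lit 228) (nat_lit 0) (XT.lf (nat_lit 0) (nat_lit 352711944) (nat_lit 152) (nat_lit 14159995496) (nat_lit 228) (nat_lit 1340936141) (nat_lit 32) (nat_lit 5) (nat_lit 34) (nat_lit 5) (nat_lit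 35) (nat_lit 4) (nat_lit 380) (nat_lit 281) (nat_lit 239)) (XT.nd (nat_lit 78) (nat_lit 152) (nat_lit 0) (XT.lf (nat_lit 0) (nat_lit 5091745387) (nat_lit 228) (nat_lit 2417244297) (nat_lit 76) (nat_lit 8666831625) (nat_lit 31) (nat_lit 5) (nat_lit 34) (nat_lit 5) (nat_lit 32) (nat_lit 5) (nat_lit 381) (nat_lit 281) (nat_lit 238)) (XT.lf (nat_lit 0) (nat_lit 11052005133) (nat_lit 152) (nat_lit 638247459) (nat_lit 228) (nat_lit 4817424064) (nat_lit 29) (nat_lit 5) (nat_lit 31) (nat_lit 5) (nat_lit 32) (nat_lit 5) (nat_lit 382) (nat_lit 281) (nat_lit 237))))) (XT.nd (nat_lit 156) (nat_lit 380) (nat_lit 0) (XT.nd (nat_lit 78) (nat_lit 152) (nat_lit 0) (XT.lf (nat_lit 0) (nat_lit 1646626747) (nat_lit 228) (nat_lit 8828855308) (nat_lit 76) (nat_lit 6373185873) (nat_lit 26) (nat_lit 5) (nat_lit 29) (nat_lit 5) (nat_lit 27) (nat_lit 5) (nat_lit 383) (nat_lit 281) (nat_lit 236)) (XT.lf (nat_lit 0) (nat_lit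 4658894157) (nat_lit 152) (nat_lit 3573492640) (nat_lit 228) (nat_lit 8967010527) (nat_lit 24) (nat_lit 5) (nat_lit 26) (nat_lit 5) (nat_lit 27) (nat_lit 5) (nat_lit 384) (nat_lit 281) (nat_lit 235))) (XT.nd (nat_lit 78) (nat_lit 228) (nat_lit 0) (XT.lf (nat_lit 0) (nat_lit 962494521) (nat_lit 152) (nat_lit 14064790594) (nat_lit 228) (nat_lit 2533141889) (nat_lit 22) (nat_lit 5) (nat_lit 24) (nat_lit 5) (nat_lit 25) (nat_lit 4) (nat_lit 385) (nat_lit 281) (nat_lit 234)) (XT.nd (nat_lit 78) (nat_lit 152) (nat_lit 0) (XT.lf (nat_lit 0) (nat_lit 4072490438) (nat_lit 228) (nat_lit 3077611365) (nat_lit 76) (nat_lit 10781014674) (nat_lit 21) (nat_lit 5) (nat_lit 24) (nat_lit 5) (nat_lit 22) (nat_lit 5) (nat_lit 386) (nat_lit 281) (nat_lit 233)) (XT.lf (nat_lit 0) (nat_lit 10837701213) (nat_lit 228) (nat_lit 7473352497) (nat_lit 76) (nat_lit 1630516) (nat_lit 19) (nat_lit 5) (nat_lit 22) (nat_lit 5) (nat_lit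 20) (nat_lit 4) (nat_lit 387) (nat_lit 281) (nat_lit 232)))))) (XT.nd (nat_lit 390) (nat_lit 2964) (nat_lit 0) (XT.nd (nat_lit 156) (nat_lit 2584) (nat_lit 0) (XT.nd (nat_lit 78) (nat_lit 684) (nat_lit 0) (XT.lf (nat_lit 0) (nat_lit 1173031119) (nat_lit 760) (nat_lit 1604394277) (nat_lit 0) (nat_lit 1173031119) (nat_lit 274) (nat_lit 5) (nat_lit 284) (nat_lit 4) (nat_lit 274) (nat_lit 4) (nat_lit 336) (nat_lit 282) (nat_lit 282)) (XT.lf (nat_lit 0) (nat_lit 5880298608) (nat_lit 684) (nat_lit 1997730883) (nat_lit 684) (nat_lit 108550500) (nat_lit 265) (nat_lit 4) (nat_lit 274) (nat_lit 5) (nat_lit 274) (nat_lit 4) (nat_lit 337) (nat_lit 282) (nat_lit 281))) (XT.nd (nat_lit 78) (nat_lit 1900) (nat_lit 0) (XT.lf (nat_lit 0) (nat_lit 5363611487) (nat_lit 684) (nat_lit 998577569) (nat_lit 0) (nat_lit 1713281981) (nat_lit 256) (nat_lit 5) (nat_lit 265) (nat_lit 4) (nat_lit 256) (nat_lit 4) (nat_lit 338)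 (nat_lit 282) (nat_lit 280)) (XT.nd (nat_lit 78) (nat_lit 608) (nat_lit 0) (XT.lf (nat_lit 0) (nat_lit 127864077) (nat_lit 608) (nat_lit 2606794802) (nat_lit 684) (nat_lit 5433238925) (nat_lit 239) (nat_lit 5) (nat_lit 247) (nat_lit 5) (nat_lit 248) (nat_lit 4) (nat_lit 339) (nat_lit 282) (nat_lit 279)) (XT.lf (nat_lit 0) (nat_lit 1288346908) (nat_lit 608) (nat_lit 6963816593) (nat_lit 608) (nat_lit 11742903) (nat_lit 231) (nat_lit 4) (nat_lit 239) (nat_lit 5) (nat_lit 239) (nat_lit 4) (nat_lit 340) (nat_lit 282) (nat_lit 278))))) (XT.nd (nat_lit 156) (nat_lit 1672) (nat_lit 0) (XT.nd (nat_lit 78) (nat_lit 684) (nat_lit 0) (XT.lf (nat_lit 0) (nat_lit 2440010203) (nat_lit 532) (nat_lit 3008216290) (nat_lit 608) (nat_lit 2914920460) (nat_lit 223) (nat_lit 5) (nat_lit 230) (nat_lit 5) (nat_lit 231) (nat_lit 4) (nat_lit 341) (nat_lit 282) (nat_lit 277)) (XT.lf (nat_lit 0) (nat_lit 2513297637) (nat_lit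 684) (nat_lit 4856227631) (nat_lit 76) (nat_lit 1096730180) (nat_lit 214) (nat_lit 5) (nat_lit 223) (nat_lit 5) (nat_lit 215) (nat_lit 4) (nat_lit 342) (nat_lit 282) (nat_lit 276))) (XT.nd (nat_lit 78) (nat_lit 1140) (nat_lit 0) (XT.lf (nat_lit 0) (nat_lit 4780074151) (nat_lit 532) (nat_lit 3241741003) (nat_lit 608) (nat_lit 551165043) (nat_lit 207) (nat_lit 5) (nat_lit 214) (nat_lit 5) (nat_lit 215) (nat_lit 4) (nat_lit 343) (nat_lit 282) (nat_lit 275)) (XT.nd (nat_lit 78) (nat_lit 532) (nat_lit 0) (XT.lf (nat_lit 0) (nat_lit 4892785811) (nat_lit 608) (nat_lit 2735662549) (nat_lit 76) (nat_lit 1054937554) (nat_lit 199) (nat_lit 5) (nat_lit 207) (nat_lit 5) (nat_lit 200) (nat_lit 4) (nat_lit 344) (nat_lit 282) (nat_lit 274)) (XT.lf (nat_lit 0) (nat_lit 1636391277) (nat_lit 532) (nat_lit 1684415874) (nat_lit 76) (nat_lit 5476786572) (nat_lit 192) (nat_lit 5) (nat_lit 199) (nat_lit 5) (nat_lit 193)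 (nat_lit 5) (nat_lit 345) (nat_lit 282) (nat_lit 273))))))))
noncomputable def xc17 : XT := (XT.nd (nat_lit 1560) (nat_lit 3952) (nat_lit 0) (XT.nd (nat_lit 780) (nat_lit 3648) (nat_lit 0) (XT.nd (nat_lit 390) (nat_lit 2204) (nat_lit 0) (XT.nd (nat_lit 156) (nat_lit 1444) (nat_lit 0) (XT.nd (nat_lit 78) (nat_lit 988) (nat_lit 0) (XT.lf (nat_lit 0) (nat_lit 7126301961) (nat_lit 608) (nat_lit 638683299) (nat_lit 76) (nat_lit 1150752710) (nat_lit 185) (nat_lit 5) (nat_lit 193) (nat_lit 5) (nat_lit 186) (nat_lit 4) (nat_lit 346) (nat_lit 282) (nat_lit 272)) (XT.lf (nat_lit 0) (nat_lit 389937002) (nat_lit 456) (nat_lit 3275347210) (nat_lit 532) (nat_lit 5372279689) (nat_lit 172) (nat_lit 5) (nat_lit 178) (nat_lit 5) (nat_lit 179) (nat_lit 5) (nat_lit 347) (nat_lit 282) (nat_lit 271))) (XT.nd (nat_lit 78) (nat_lit 912) (nat_lit 0) (XT.lf (nat_lit 0) (nat_lit 56504486) (nat_lit 532) (nat_lit 7736993741)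 (nat_lit 76) (nat_lit 1370111816) (nat_lit 165) (nat_lit 5) (nat_lit 172) (nat_lit 5) (nat_lit 166) (nat_lit 5) (nat_lit 348) (nat_lit 282) (nat_lit 270)) (XT.nd (nat_lit 78) (nat_lit 456) (nat_lit 0) (XT.lf (nat_lit 0) (nat_lit 2422793146) (nat_lit 456) (nat_lit 3124829673) (nat_lit 532) (nat_lit 3745693621) (nat_lit 159) (nat_lit 5) (nat_lit 165) (nat_lit 5) (nat_lit 166) (nat_lit 5) (nat_lit 349) (nat_lit 282) (nat_lit 269)) (XT.lf (nat_lit 0) (nat_lit 1716451608) (nat_lit 456) (nat_lit 6017120660) (nat_lit 76) (nat_lit 1693883671) (nat_lit 153) (nat_lit 5) (nat_lit 159) (nat_lit 5) (nat_lit 154) (nat_lit 5) (nat_lit 350) (nat_lit 282) (nat_lit 268))))) (XT.nd (nat_lit 156) (nat_lit 1292) (nat_lit 0) (XT.nd (nat_lit 78) (nat_lit 456) (nat_lit 0) (XT.lf (nat_lit 0) (nat_lit 4362037497) (nat_lit 456) (nat_lit 2905043813) (nat_lit 532) (nat_lit 2298568303) (nat_lit 147) (nat_lit 5) (nat_lit 153) (nat_lit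 5) (nat_lit 154) (nat_lit 5) (nat_lit 351) (nat_lit 282) (nat_lit 267)) (XT.lf (nat_lit 0) (nat_lit 3203120182) (nat_lit 456) (nat_lit 4423080377) (nat_lit 76) (nat_lit 2081999806) (nat_lit 141) (nat_lit 5) (nat_lit 147) (nat_lit 5) (nat_lit 142) (nat_lit 5) (nat_lit 352) (nat_lit 282) (nat_lit 266))) (XT.nd (nat_lit 78) (nat_lit 912) (nat_lit 0) (XT.lf (nat_lit 0) (nat_lit 6175618379) (nat_lit 380) (nat_lit 2640887847) (nat_lit 456) (nat_lit 1038692710) (nat_lit 136) (nat_lit 5) (nat_lit 141) (nat_lit 5) (nat_lit 142) (nat_lit 5) (nat_lit 353) (nat_lit 282) (nat_lit 265)) (XT.nd (nat_lit 78) (nat_lit 456) (nat_lit 0) (XT.lf (nat_lit 0) (nat_lit 4508001324) (nat_lit 456) (nat_lit 2988772165) (nat_lit 76) (nat_lit 2509738115) (nat_lit 130) (nat_lit 5) (nat_lit 136) (nat_lit 5) (nat_lit 131) (nat_lit 5) (nat_lit 354) (nat_lit 282) (nat_lit 264)) (XT.lf (nat_lit 0) (nat_lit 23739421) (nat_lit 456) (nat_lit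 2334008509) (nat_lit 76) (nat_lit 7804910833) (nat_lit 124) (nat_lit 5) (nat_lit 130) (nat_lit 5) (nat_lit 125) (nat_lit 5) (nat_lit 355) (nat_lit 282) (nat_lit 263)))))) (XT.nd (nat_lit 390) (nat_lit 1900) (nat_lit 0) (XT.nd (nat_lit 156) (nat_lit 988) (nat_lit 0) (XT.nd (nat_lit 78) (nat_lit 456) (nat_lit 0) (XT.lf (nat_lit 0) (nat_lit 5620472569) (nat_lit 380) (nat_lit 1751011569) (nat_lit 76) (nat_lit 2951637654) (nat_lit 120) (nat_lit 5) (nat_lit 125) (nat_lit 5) (nat_lit 121) (nat_lit 5) (nat_lit 356) (nat_lit 282) (nat_lit 262)) (XT.lf (nat_lit 0) (nat_lit 866056909) (nat_lit 456) (nat_lit 1210671840) (nat_lit 76) (nat_lit 8411958712) (nat_lit 114) (nat_lit 5) (nat_lit 120) (nat_lit 5) (nat_lit 115) (nat_lit 5) (nat_lit 357) (nat_lit 282) (nat_lit 261))) (XT.nd (nat_lit 78) (nat_lit 684) (nat_lit 0) (XT.lf (nat_lit 0) (nat_lit 6527648869) (nat_lit 380) (nat_lit 749932097) (nat_lit 76) (nat_lit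 3381249699) (nat_lit 110) (nat_lit 5) (nat_lit 115) (nat_lit 5) (nat_lit 111) (nat_lit 5) (nat_lit 358) (nat_lit 282) (nat_lit 260)) (XT.nd (nat_lit 78) (nat_lit 304) (nat_lit 0) (XT.lf (nat_lit 0) (nat_lit 1487572612) (nat_lit 380) (nat_lit 344822688) (nat_lit 76) (nat_lit 9001858859) (nat_lit 105) (nat_lit 5) (nat_lit 110) (nat_lit 5) (nat_lit 106) (nat_lit 5) (nat_lit 359) (nat_lit 282) (nat_lit 259)) (XT.lf (nat_lit 0) (nat_lit 7214211930) (nat_lit 380) (nat_lit 29422913) (nat_lit 76) (nat_lit 3770874941) (nat_lit 101) (nat_lit 5) (nat_lit 106) (nat_lit 5) (nat_lit 102) (nat_lit 5) (nat_lit 360) (nat_lit 282) (nat_lit 258))))) (XT.nd (nat_lit 156) (nat_lit 912) (nat_lit 0) (XT.nd (nat_lit 78) (nat_lit 304) (nat_lit 0) (XT.lf (nat_lit 0) (nat_lit 220448631) (nat_lit 304) (nat_lit 1652416755) (nat_lit 380) (nat_lit 9327373303) (nat_lit 92) (nat_lit 5) (nat_lit 96) (nat_lit 5) (nat_lit 97) (nat_lit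 5) (nat_lit 361) (nat_lit 282) (nat_lit 257)) (XT.lf (nat_lit 0) (nat_lit 367209251) (nat_lit 304) (nat_lit 7297391005) (nat_lit 380) (nat_lit 3726459330) (nat_lit 88) (nat_lit 5) (nat_lit 92) (nat_lit 5) (nat_lit 93) (nat_lit 5) (nat_lit 362) (nat_lit 282) (nat_lit 256))) (XT.nd (nat_lit 78) (nat_lit 608) (nat_lit 0) (XT.lf (nat_lit 0) (nat_lit 431662696) (nat_lit 228) (nat_lit 1569179410) (nat_lit 304) (nat_lit 9586816420) (nat_lit 84) (nat_lit 5) (nat_lit 87) (nat_lit 5) (nat_lit 88) (nat_lit 5) (nat_lit 363) (nat_lit 282) (nat_lit 255)) (XT.nd (nat_lit 78) (nat_lit 304) (nat_lit 0) (XT.lf (nat_lit 0) (nat_lit 377589354) (nat_lit 304) (nat_lit 7475730893) (nat_lit 380) (nat_lit 3936283797) (nat_lit 80) (nat_lit 5) (nat_lit 84) (nat_lit 5) (nat_lit 85) (nat_lit 5) (nat_lit 364) (nat_lit 282) (nat_lit 254)) (XT.lf (nat_lit 0) (nat_lit 227999402) (nat_lit 228) (nat_lit 1618284947) (nat_lit 304) (nat_lit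 10151354408) (nat_lit 76) (nat_lit 5) (nat_lit 79) (nat_lit 5) (nat_lit 80) (nat_lit 5) (nat_lit 365) (nat_lit 282) (nat_lit 253))))))) (XT.nd (nat_lit 780) (nat_lit 1596) (nat_lit 0) (XT.nd (nat_lit 390) (nat_lit 1216) (nat_lit 0) (XT.nd (nat_lit 156) (nat_lit 760) (nat_lit 0) (XT.nd (nat_lit 78) (nat_lit 380) (nat_lit 0) (XT.lf (nat_lit 0) (nat_lit 7756282649) (nat_lit 304) (nat_lit 56899371) (nat_lit 76) (nat_lit 4398082850) (nat_lit 76) (nat_lit 5) (nat_lit 80) (nat_lit 5) (nat_lit 77) (nat_lit 5) (nat_lit 366) (nat_lit 282) (nat_lit 252)) (XT.lf (nat_lit 0) (nat_lit 1385897725) (nat_lit 380) (nat_lit 446552288) (nat_lit 76) (nat_lit 10598842022) (nat_lit 71) (nat_lit 5) (nat_lit 76) (nat_lit 5) (nat_lit 72) (nat_lit 5) (nat_lit 367) (nat_lit 282) (nat_lit 251))) (XT.nd (nat_lit 78) (nat_lit 532) (nat_lit 0) (XT.lf (nat_lit 0) (nat_lit 7351198768) (nat_lit 304) (nat_lit 990382436) (nat_lit 76)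 (nat_lit 4315573354) (nat_lit 68) (nat_lit 5) (nat_lit 72) (nat_lit 5) (nat_lit 69) (nat_lit 5) (nat_lit 368) (nat_lit 282) (nat_lit 250)) (XT.nd (nat_lit 78) (nat_lit 228) (nat_lit 0) (XT.lf (nat_lit 0) (nat_lit 591950979) (nat_lit 304) (nat_lit 1656107701) (nat_lit 76) (nat_lit 10641788098) (nat_lit 64) (nat_lit 5) (nat_lit 68) (nat_lit 5) (nat_lit 65) (nat_lit 5) (nat_lit 369) (nat_lit 282) (nat_lit 249)) (XT.lf (nat_lit 0) (nat_lit 6604674807) (nat_lit 304) (nat_lit 2498625673) (nat_lit 76) (nat_lit 4025335038) (nat_lit 61) (nat_lit 5) (nat_lit 65) (nat_lit 5) (nat_lit 62) (nat_lit 5) (nat_lit 370) (nat_lit 282) (nat_lit 248))))) (XT.nd (nat_lit 156) (nat_lit 684) (nat_lit 0) (XT.nd (nat_lit 78) (nat_lit 304) (nat_lit 0) (XT.lf (nat_lit 0) (nat_lit 9892775144) (nat_lit 228) (nat_lit 2903996092) (nat_lit 304) (nat_lit 577852928) (nat_lit 58) (nat_lit 5) (nat_lit 61) (nat_lit 5) (nat_lit 62) (nat_lit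 5) (nat_lit 371) (nat_lit 282) (nat_lit 247)) (XT.lf (nat_lit 0) (nat_lit 5481738304) (nat_lit 304) (nat_lit 4659849112) (nat_lit 76) (nat_lit 3485543183) (nat_lit 54) (nat_lit 5) (nat_lit 58) (nat_lit 5) (nat_lit 55) (nat_lit 5) (nat_lit 372) (nat_lit 282) (nat_lit 246))) (XT.nd (nat_lit 78) (nat_lit 456) (nat_lit 0) (XT.lf (nat_lit 0) (nat_lit 7878208825) (nat_lit 228) (nat_lit 3842171712) (nat_lit 304) (nat_lit 2166667860) (nat_lit 51) (nat_lit 5) (nat_lit 54) (nat_lit 5) (nat_lit 55) (nat_lit 5) (nat_lit 373) (nat_lit 282) (nat_lit 245)) (XT.nd (nat_lit 78) (nat_lit 228) (nat_lit 0) (XT.lf (nat_lit 0) (nat_lit 3942999562) (nat_lit 228) (nat_lit 7560513696) (nat_lit 76) (nat_lit 2650667708) (nat_lit 48) (nat_lit 5) (nat_lit 51) (nat_lit 5) (nat_lit 49) (nat_lit 5) (nat_lit 374) (nat_lit 282) (nat_lit 244)) (XT.lf (nat_lit 0) (nat_lit 5104395174) (nat_lit 228) (nat_lit 5115095604) (nat_lit 304)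 (nat_lit 4209304612) (nat_lit 45) (nat_lit 5) (nat_lit 48) (nat_lit 5) (nat_lit 49) (nat_lit 5) (nat_lit 375) (nat_lit 282) (nat_lit 243)))))) (XT.nd (nat_lit 390) (nat_lit 760) (nat_lit 0) (XT.nd (nat_lit 156) (nat_lit 380) (nat_lit 0) (XT.nd (nat_lit 78) (nat_lit 228) (nat_lit 0) (XT.lf (nat_lit 0) (nat_lit 1944220932) (nat_lit 228) (nat_lit 11296239985) (nat_lit 76) (nat_lit 1470994955) (nat_lit 42) (nat_lit 5) (nat_lit 45) (nat_lit 5) (nat_lit 43) (nat_lit 5) (nat_lit 376) (nat_lit 282) (nat_lit 242)) (XT.lf (nat_lit 0) (nat_lit 1472164984) (nat_lit 228) (nat_lit 6775823621) (nat_lit 304) (nat_lit 6753607282) (nat_lit 39) (nat_lit 5) (nat_lit 42) (nat_lit 5) (nat_lit 43) (nat_lit 5) (nat_lit 377) (nat_lit 282) (nat_lit 241))) (XT.nd (nat_lit 78) (nat_lit 380) (nat_lit 0) (XT.lf (nat_lit 0) (nat_lit 14632953157) (nat_lit 228) (nat_lit 101121266) (nat_lit 304) (nat_lit 566513881) (nat_lit 39) (nat_lit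 5) (nat_lit 42) (nat_lit 5) (nat_lit 43) (nat_lit 5) (nat_lit 378) (nat_lit 282) (nat_lit 240)) (XT.nd (nat_lit 78) (nat_lit 152) (nat_lit 0) (XT.lf (nat_lit 0) (nat_lit 5774537077) (nat_lit 228) (nat_lit 3087229562) (nat_lit 76) (nat_lit 6745151734) (nat_lit 36) (nat_lit 5) (nat_lit 39) (nat_lit 5) (nat_lit 37) (nat_lit 5) (nat_lit 379) (nat_lit 282) (nat_lit 239)) (XT.lf (nat_lit 0) (nat_lit 10177333640) (nat_lit 152) (nat_lit 2111755495) (nat_lit 228) (nat_lit 3633466363) (nat_lit 34) (nat_lit 5) (nat_lit 36) (nat_lit 5) (nat_lit 37) (nat_lit 5) (nat_lit 380) (nat_lit 282) (nat_lit 238))))) (XT.nd (nat_lit 156) (nat_lit 380) (nat_lit 0) (XT.nd (nat_lit 78) (nat_lit 152) (nat_lit 0) (XT.lf (nat_lit 0) (nat_lit 2737721643) (nat_lit 228) (nat_lit 8702760014) (nat_lit 76) (nat_lit 4806385803) (nat_lit 31) (nat_lit 5) (nat_lit 34) (nat_lit 5) (nat_lit 32) (nat_lit 5) (nat_lit 381) (nat_lit 282) (nat_lit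 237)) (XT.lf (nat_lit 0) (nat_lit 4613691591) (nat_lit 152) (nat_lit 4642093004) (nat_lit 228) (nat_lit 7324552274) (nat_lit 29) (nat_lit 5) (nat_lit 31) (nat_lit 5) (nat_lit 32) (nat_lit 5) (nat_lit 382) (nat_lit 282) (nat_lit 236))) (XT.nd (nat_lit 78) (nat_lit 228) (nat_lit 0) (XT.lf (nat_lit 0) (nat_lit 1390977894) (nat_lit 152) (nat_lit 14584698319) (nat_lit 228) (nat_lit 948018613) (nat_lit 27) (nat_lit 5) (nat_lit 29) (nat_lit 5) (nat_lit 30) (nat_lit 4) (nat_lit 383) (nat_lit 282) (nat_lit 235)) (XT.nd (nat_lit 78) (nat_lit 152) (nat_lit 0) (XT.lf (nat_lit 0) (nat_lit 5582207306) (nat_lit 228) (nat_lit 2167143281) (nat_lit 76) (nat_lit 9526560874) (nat_lit 26) (nat_lit 5) (nat_lit 29) (nat_lit 5) (nat_lit 27) (nat_lit 5) (nat_lit 384) (nat_lit 282) (nat_lit 234)) (XT.lf (nat_lit 0) (nat_lit 11612863175) (nat_lit 152) (nat_lit 683729544) (nat_lit 228) (nat_lit 5341963325) (nat_lit 24) (nat_lit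 5) (nat_lit 26) (nat_lit 5) (nat_lit 27) (nat_lit 5) (nat_lit 385) (nat_lit 282) (nat_lit 233))))))))
noncomputable def xc18 : XT := (XT.nd (nat_lit 44304) (nat_lit 0) (nat_lit 2508) (XT.nd (nat_lit 43524) (nat_lit 0) (nat_lit 9120) (XT.nd (nat_lit 43134) (nat_lit 0) (nat_lit 14668) (XT.nd (nat_lit 42900) (nat_lit 0) (nat_lit 18468) (XT.nd (nat_lit 42822) (nat_lit 0) (nat_lit 20748) (XT.lf (nat_lit 0) (nat_lit 1219336043) (nat_lit 228) (nat_lit 10267967047) (nat_lit 76) (nat_lit 6523935005) (nat_lit 21) (nat_lit 5) (nat_lit 24) (nat_lit 5) (nat_lit 22) (nat_lit 5) (nat_lit 386) (nat_lit 282) (nat_lit 232)) (XT.lf (nat_lit 0) (nat_lit 621971656) (nat_lit 760) (nat_lit 2625369551) (nat_lit 0) (nat_lit 621971656) (nat_lit 294) (nat_lit 5) (nat_lit 304) (nat_lit 4) (nat_lit 294) (nat_lit 4) (nat_lit 334) (nat_lit 283) (nat_lit 283))) (XT.nd (nat_lit 78) (nat_lit 1520) (nat_lit 0) (XT.lf (nat_lit 0) (nat_lit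 3532817231) (nat_lit 760) (nat_lit 3135370610) (nat_lit 760) (nat_lit 1150597699) (nat_lit 284) (nat_lit 4) (nat_lit 294) (nat_lit 5) (nat_lit 294) (nat_lit 4) (nat_lit 335) (nat_lit 283) (nat_lit 282)) (XT.nd (nat_lit 78) (nat_lit 760) (nat_lit 0) (XT.lf (nat_lit 0) (nat_lit 4219670363) (nat_lit 760) (nat_lit 3298084923) (nat_lit 0) (nat_lit 384634184) (nat_lit 274) (nat_lit 5) (nat_lit 284) (nat_lit 4) (nat_lit 274) (nat_lit 4) (nat_lit 336) (nat_lit 283) (nat_lit 281)) (XT.lf (nat_lit 0) (nat_lit 1668647927) (nat_lit 760) (nat_lit 2298523076) (nat_lit 76) (nat_lit 4022122462) (nat_lit 264) (nat_lit 5) (nat_lit 274) (nat_lit 5) (nat_lit 265) (nat_lit 4) (nat_lit 337) (nat_lit 283) (nat_lit 280))))) (XT.nd (nat_lit 156) (nat_lit 2508) (nat_lit 0) (XT.nd (nat_lit 78) (nat_lit 684) (nat_lit 0) (XT.lf (nat_lit 0) (nat_lit 6805496940) (nat_lit 608) (nat_lit 251642926) (nat_lit 684) (nat_lit 1022704573)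 (nat_lit 256) (nat_lit 5) (nat_lit 264) (nat_lit 5) (nat_lit 265) (nat_lit 4) (nat_lit 338) (nat_lit 283) (nat_lit 279)) (XT.lf (nat_lit 0) (nat_lit 4328536345) (nat_lit 684) (nat_lit 255173505) (nat_lit 76) (nat_lit 3589832188) (nat_lit 247) (nat_lit 5) (nat_lit 256) (nat_lit 5) (nat_lit 248) (nat_lit 4) (nat_lit 339) (nat_lit 283) (nat_lit 278))) (XT.nd (nat_lit 78) (nat_lit 1216) (nat_lit 0) (XT.lf (nat_lit 0) (nat_lit 800535733) (nat_lit 608) (nat_lit 673946743) (nat_lit 684) (nat_lit 6796516450) (nat_lit 230) (nat_lit 5) (nat_lit 238) (nat_lit 5) (nat_lit 239) (nat_lit 5) (nat_lit 340) (nat_lit 283) (nat_lit 277)) (XT.nd (nat_lit 78) (nat_lit 684) (nat_lit 0) (XT.lf (nat_lit 0) (nat_lit 1854227872) (nat_lit 532) (nat_lit 5005313886) (nat_lit 608) (nat_lit 1512216908) (nat_lit 223) (nat_lit 5) (nat_lit 230) (nat_lit 5) (nat_lit 231) (nat_lit 4) (nat_lit 341) (nat_lit 283) (nat_lit 276)) (XT.lf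 (nat_lit 0) (nat_lit 2917737286) (nat_lit 608) (nat_lit 902456150) (nat_lit 684) (nat_lit 4656064164) (nat_lit 214) (nat_lit 5) (nat_lit 222) (nat_lit 5) (nat_lit 223) (nat_lit 5) (nat_lit 342) (nat_lit 283) (nat_lit 275)))))) (XT.nd (nat_lit 390) (nat_lit 2812) (nat_lit 0) (XT.nd (nat_lit 156) (nat_lit 1596) (nat_lit 0) (XT.nd (nat_lit 78) (nat_lit 532) (nat_lit 0) (XT.lf (nat_lit 0) (nat_lit 659979012) (nat_lit 608) (nat_lit 4602357237) (nat_lit 76) (nat_lit 3322091835) (nat_lit 206) (nat_lit 5) (nat_lit 214) (nat_lit 5) (nat_lit 207) (nat_lit 5) (nat_lit 343) (nat_lit 283) (nat_lit 274)) (XT.lf (nat_lit 0) (nat_lit 5043629402) (nat_lit 532) (nat_lit 976663149) (nat_lit 608) (nat_lit 2676020366) (nat_lit 199) (nat_lit 5) (nat_lit 206) (nat_lit 5) (nat_lit 207) (nat_lit 5) (nat_lit 344) (nat_lit 283) (nat_lit 273))) (XT.nd (nat_lit 78) (nat_lit 1064) (nat_lit 0) (XT.lf (nat_lit 0) (nat_lit 2660536953)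 (nat_lit 532) (nat_lit 2715447880) (nat_lit 76) (nat_lit 3435928913) (nat_lit 192) (nat_lit 5) (nat_lit 199) (nat_lit 5) (nat_lit 193) (nat_lit 5) (nat_lit 345) (nat_lit 283) (nat_lit 272)) (XT.nd (nat_lit 78) (nat_lit 532) (nat_lit 0) (XT.lf (nat_lit 0) (nat_lit 7153548209) (nat_lit 532) (nat_lit 920428644) (nat_lit 608) (nat_lit 857631359) (nat_lit 185) (nat_lit 5) (nat_lit 192) (nat_lit 5) (nat_lit 193) (nat_lit 5) (nat_lit 346) (nat_lit 283) (nat_lit 271)) (XT.lf (nat_lit 0) (nat_lit 4507369829) (nat_lit 532) (nat_lit 872754671) (nat_lit 76) (nat_lit 3674758412) (nat_lit 178) (nat_lit 5) (nat_lit 185) (nat_lit 5) (nat_lit 179) (nat_lit 5) (nat_lit 347) (nat_lit 283) (nat_lit 270))))) (XT.nd (nat_lit 156) (nat_lit 1368) (nat_lit 0) (XT.nd (nat_lit 78) (nat_lit 456) (nat_lit 0) (XT.lf (nat_lit 0) (nat_lit 33956385) (nat_lit 456) (nat_lit 751973451) (nat_lit 532) (nat_lit 8396601454) (nat_lit 165)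 (nat_lit 5) (nat_lit 171) (nat_lit 5) (nat_lit 172) (nat_lit 5) (nat_lit 348) (nat_lit 283) (nat_lit 269)) (XT.lf (nat_lit 0) (nat_lit 910190462) (nat_lit 456) (nat_lit 5292573342) (nat_lit 532) (nat_lit 3110977870) (nat_lit 159) (nat_lit 5) (nat_lit 165) (nat_lit 5) (nat_lit 166) (nat_lit 5) (nat_lit 349) (nat_lit 283) (nat_lit 268))) (XT.nd (nat_lit 78) (nat_lit 912) (nat_lit 0) (XT.lf (nat_lit 0) (nat_lit 1777521192) (nat_lit 380) (nat_lit 484702822) (nat_lit 456) (nat_lit 7187204535) (nat_lit 153) (nat_lit 5) (nat_lit 158) (nat_lit 5) (nat_lit 159) (nat_lit 5) (nat_lit 350) (nat_lit 283) (nat_lit 267)) (XT.nd (nat_lit 78) (nat_lit 456) (nat_lit 0) (XT.lf (nat_lit 0) (nat_lit 2602238201) (nat_lit 456) (nat_lit 5138237853) (nat_lit 532) (nat_lit 1848610634) (nat_lit 147) (nat_lit 5) (nat_lit 153) (nat_lit 5) (nat_lit 154) (nat_lit 5) (nat_lit 351) (nat_lit 283) (nat_lit 266)) (XT.lf (nat_lit 0)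 (nat_lit 3403600247) (nat_lit 380) (nat_lit 160516049) (nat_lit 456) (nat_lit 6169140016) (nat_lit 141) (nat_lit 5) (nat_lit 146) (nat_lit 5) (nat_lit 147) (nat_lit 5) (nat_lit 352) (nat_lit 283) (nat_lit 265))))))) (XT.nd (nat_lit 780) (nat_lit 2888) (nat_lit 0) (XT.nd (nat_lit 390) (nat_lit 1672) (nat_lit 0) (XT.nd (nat_lit 156) (nat_lit 1216) (nat_lit 0) (XT.nd (nat_lit 78) (nat_lit 456) (nat_lit 0) (XT.lf (nat_lit 0) (nat_lit 4159583228) (nat_lit 380) (nat_lit 4947677240) (nat_lit 456) (nat_lit 774414880) (nat_lit 136) (nat_lit 5) (nat_lit 141) (nat_lit 5) (nat_lit 142) (nat_lit 5) (nat_lit 353) (nat_lit 283) (nat_lit 264)) (XT.lf (nat_lit 0) (nat_lit 4684182333) (nat_lit 456) (nat_lit 5157327548) (nat_lit 76) (nat_lit 193151309) (nat_lit 130) (nat_lit 5) (nat_lit 136) (nat_lit 5) (nat_lit 131) (nat_lit 5) (nat_lit 354) (nat_lit 283) (nat_lit 263))) (XT.nd (nat_lit 78) (nat_lit 760) (nat_lit 0)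 (XT.lf (nat_lit 0) (nat_lit 100050969) (nat_lit 456) (nat_lit 4645552895) (nat_lit 76) (nat_lit 5446594988) (nat_lit 124) (nat_lit 5) (nat_lit 130) (nat_lit 5) (nat_lit 125) (nat_lit 5) (nat_lit 355) (nat_lit 283) (nat_lit 262)) (XT.nd (nat_lit 78) (nat_lit 456) (nat_lit 0) (XT.lf (nat_lit 0) (nat_lit 5611437979) (nat_lit 380) (nat_lit 4191918153) (nat_lit 76) (nat_lit 551026419) (nat_lit 120) (nat_lit 5) (nat_lit 125) (nat_lit 5) (nat_lit 121) (nat_lit 5) (nat_lit 356) (nat_lit 283) (nat_lit 261)) (XT.lf (nat_lit 0) (nat_lit 756272636) (nat_lit 456) (nat_lit 3798993168) (nat_lit 76) (nat_lit 5966101079) (nat_lit 114) (nat_lit 5) (nat_lit 120) (nat_lit 5) (nat_lit 115) (nat_lit 5) (nat_lit 357) (nat_lit 283) (nat_lit 260))))) (XT.nd (nat_lit 156) (nat_lit 988) (nat_lit 0) (XT.nd (nat_lit 78) (nat_lit 380) (nat_lit 0) (XT.lf (nat_lit 0) (nat_lit 6331620047) (nat_lit 380) (nat_lit 3472746243) (nat_lit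 76) (nat_lit 888881391) (nat_lit 110) (nat_lit 5) (nat_lit 115) (nat_lit 5) (nat_lit 111) (nat_lit 5) (nat_lit 358) (nat_lit 283) (nat_lit 259)) (XT.lf (nat_lit 0) (nat_lit 1189761724) (nat_lit 380) (nat_lit 3219619262) (nat_lit 76) (nat_lit 6460739953) (nat_lit 105) (nat_lit 5) (nat_lit 110) (nat_lit 5) (nat_lit 106) (nat_lit 5) (nat_lit 359) (nat_lit 283) (nat_lit 258))) (XT.nd (nat_lit 78) (nat_lit 684) (nat_lit 0) (XT.lf (nat_lit 0) (nat_lit 6829078357) (nat_lit 380) (nat_lit 3043953366) (nat_lit 76) (nat_lit 1179103034) (nat_lit 101) (nat_lit 5) (nat_lit 106) (nat_lit 5) (nat_lit 102) (nat_lit 5) (nat_lit 360) (nat_lit 283) (nat_lit 257)) (XT.nd (nat_lit 78) (nat_lit 304) (nat_lit 0) (XT.lf (nat_lit 0) (nat_lit 1383334210) (nat_lit 380) (nat_lit 2953676336) (nat_lit 76) (nat_lit 6902365530) (nat_lit 96) (nat_lit 5) (nat_lit 101) (nat_lit 5) (nat_lit 97) (nat_lit 5) (nat_lit 361) (nat_lit 283)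 (nat_lit 256)) (XT.lf (nat_lit 0) (nat_lit 7085538322) (nat_lit 380) (nat_lit 2953939710) (nat_lit 76) (nat_lit 1392520404) (nat_lit 92) (nat_lit 5) (nat_lit 97) (nat_lit 5) (nat_lit 93) (nat_lit 5) (nat_lit 362) (nat_lit 283) (nat_lit 255)))))) (XT.nd (nat_lit 390) (nat_lit 1292) (nat_lit 0) (XT.nd (nat_lit 156) (nat_lit 988) (nat_lit 0) (XT.nd (nat_lit 78) (nat_lit 228) (nat_lit 0) (XT.lf (nat_lit 0) (nat_lit 1317059177) (nat_lit 380) (nat_lit 3051920134) (nat_lit 76) (nat_lit 7261147170) (nat_lit 87) (nat_lit 5) (nat_lit 92) (nat_lit 5) (nat_lit 88) (nat_lit 5) (nat_lit 363) (nat_lit 283) (nat_lit 254)) (XT.lf (nat_lit 0) (nat_lit 7079880264) (nat_lit 304) (nat_lit 3255886714) (nat_lit 76) (nat_lit 1498108188) (nat_lit 84) (nat_lit 5) (nat_lit 88) (nat_lit 5) (nat_lit 85) (nat_lit 5) (nat_lit 364) (nat_lit 283) (nat_lit 253))) (XT.nd (nat_lit 78) (nat_lit 608) (nat_lit 0) (XT.lf (nat_lit 0) (nat_lit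 968024352) (nat_lit 380) (nat_lit 3570164213) (nat_lit 76) (nat_lit 7505262503) (nat_lit 79) (nat_lit 5) (nat_lit 84) (nat_lit 5) (nat_lit 80) (nat_lit 5) (nat_lit 365) (nat_lit 283) (nat_lit 252)) (XT.nd (nat_lit 78) (nat_lit 380) (nat_lit 0) (XT.lf (nat_lit 0) (nat_lit 6787890992) (nat_lit 304) (nat_lit 4008329754) (nat_lit 76) (nat_lit 1462668333) (nat_lit 76) (nat_lit 5) (nat_lit 80) (nat_lit 5) (nat_lit 77) (nat_lit 5) (nat_lit 366) (nat_lit 283) (nat_lit 251)) (XT.lf (nat_lit 0) (nat_lit 310072631) (nat_lit 380) (nat_lit 4569879945) (nat_lit 76) (nat_lit 7600567108) (nat_lit 71) (nat_lit 5) (nat_lit 76) (nat_lit 5) (nat_lit 72) (nat_lit 5) (nat_lit 367) (nat_lit 283) (nat_lit 250))))) (XT.nd (nat_lit 156) (nat_lit 836) (nat_lit 0) (XT.nd (nat_lit 78) (nat_lit 228) (nat_lit 0) (XT.lf (nat_lit 0) (nat_lit 6181985100) (nat_lit 304) (nat_lit 5275786495) (nat_lit 76) (nat_lit 1250486945) (nat_lit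 68) (nat_lit 5) (nat_lit 72) (nat_lit 5) (nat_lit 69) (nat_lit 5) (nat_lit 368) (nat_lit 283) (nat_lit 249)) (XT.lf (nat_lit 0) (nat_lit 6819138091) (nat_lit 228) (nat_lit 5427755345) (nat_lit 304) (nat_lit 695616229) (nat_lit 65) (nat_lit 5) (nat_lit 68) (nat_lit 5) (nat_lit 69) (nat_lit 5) (nat_lit 369) (nat_lit 283) (nat_lit 248))) (XT.nd (nat_lit 78) (nat_lit 532) (nat_lit 0) (XT.lf (nat_lit 0) (nat_lit 5230893144) (nat_lit 304) (nat_lit 7129447058) (nat_lit 76) (nat_lit 822963195) (nat_lit 61) (nat_lit 5) (nat_lit 65) (nat_lit 5) (nat_lit 62) (nat_lit 5) (nat_lit 370) (nat_lit 283) (nat_lit 247)) (XT.nd (nat_lit 78) (nat_lit 304) (nat_lit 0) (XT.lf (nat_lit 0) (nat_lit 5125355399) (nat_lit 228) (nat_lit 6222886401) (nat_lit 304) (nat_lit 2082552879) (nat_lit 58) (nat_lit 5) (nat_lit 61) (nat_lit 5) (nat_lit 62) (nat_lit 5) (nat_lit 371) (nat_lit 283) (nat_lit 246)) (XT.lf (nat_lit 0) (nat_lit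 3899313538) (nat_lit 304) (nat_lit 9647932761) (nat_lit 76) (nat_lit 138206701) (nat_lit 54) (nat_lit 5) (nat_lit 58) (nat_lit 5) (nat_lit 55) (nat_lit 5) (nat_lit 372) (nat_lit 283) (nat_lit 245))))))))
noncomputable def xc19 : XT := (XT.nd (nat_lit 44148) (nat_lit 0) (nat_lit 6992) (XT.nd (nat_lit 780) (nat_lit 684) (nat_lit 0) (XT.nd (nat_lit 390) (nat_lit 836) (nat_lit 0) (XT.nd (nat_lit 156) (nat_lit 456) (nat_lit 0) (XT.nd (nat_lit 78) (nat_lit 228) (nat_lit 0) (XT.lf (nat_lit 0) (nat_lit 2749941471) (nat_lit 228) (nat_lit 7312032281) (nat_lit 304) (nat_lit 3884923783) (nat_lit 51) (nat_lit 5) (nat_lit 54) (nat_lit 5) (nat_lit 55) (nat_lit 5) (nat_lit 373) (nat_lit 283) (nat_lit 244)) (XT.lf (nat_lit 0) (nat_lit 1292424269) (nat_lit 152) (nat_lit 860688562) (nat_lit 228) (nat_lit 12063030473) (nat_lit 48) (nat_lit 5) (nat_lit 50) (nat_lit 5) (nat_lit 51) (nat_lit 5) (nat_lit 374) (nat_lit 283)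 (nat_lit 243))) (XT.nd (nat_lit 78) (nat_lit 456) (nat_lit 0) (XT.lf (nat_lit 0) (nat_lit 8349256145) (nat_lit 228) (nat_lit 391945993) (nat_lit 76) (nat_lit 5751169106) (nat_lit 48) (nat_lit 5) (nat_lit 51) (nat_lit 5) (nat_lit 49) (nat_lit 5) (nat_lit 375) (nat_lit 283) (nat_lit 242)) (XT.nd (nat_lit 78) (nat_lit 228) (nat_lit 0) (XT.lf (nat_lit 0) (nat_lit 12532928838) (nat_lit 228) (nat_lit 2203457763) (nat_lit 304) (nat_lit 40410293) (nat_lit 45) (nat_lit 5) (nat_lit 48) (nat_lit 5) (nat_lit 49) (nat_lit 5) (nat_lit 376) (nat_lit 283) (nat_lit 241)) (XT.lf (nat_lit 0) (nat_lit 6184572373) (nat_lit 228) (nat_lit 4357650856) (nat_lit 76) (nat_lit 4526311289) (nat_lit 42) (nat_lit 5) (nat_lit 45) (nat_lit 5) (nat_lit 43) (nat_lit 5) (nat_lit 377) (nat_lit 283) (nat_lit 240))))) (XT.nd (nat_lit 156) (nat_lit 380) (nat_lit 0) (XT.nd (nat_lit 78) (nat_lit 228) (nat_lit 0) (XT.lf (nat_lit 0) (nat_lit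 8675737854) (nat_lit 228) (nat_lit 3926392299) (nat_lit 304) (nat_lit 2766773229) (nat_lit 39) (nat_lit 5) (nat_lit 42) (nat_lit 5) (nat_lit 43) (nat_lit 5) (nat_lit 378) (nat_lit 283) (nat_lit 239)) (XT.lf (nat_lit 0) (nat_lit 3498795184) (nat_lit 228) (nat_lit 9292053560) (nat_lit 76) (nat_lit 2886762806) (nat_lit 36) (nat_lit 5) (nat_lit 39) (nat_lit 5) (nat_lit 37) (nat_lit 5) (nat_lit 379) (nat_lit 283) (nat_lit 238))) (XT.nd (nat_lit 78) (nat_lit 228) (nat_lit 0) (XT.lf (nat_lit 0) (nat_lit 3821684405) (nat_lit 152) (nat_lit 6111952143) (nat_lit 228) (nat_lit 6061211779) (nat_lit 34) (nat_lit 5) (nat_lit 36) (nat_lit 5) (nat_lit 37) (nat_lit 5) (nat_lit 380) (nat_lit 283) (nat_lit 237)) (XT.nd (nat_lit 78) (nat_lit 0) (nat_lit 0) (XT.lf (nat_lit 0) (nat_lit 234633011) (nat_lit 228) (nat_lit 15315608318) (nat_lit 76) (nat_lit 771383058) (nat_lit 31) (nat_lit 5) (nat_lit 34) (nat_lit 5) (nat_lit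 32) (nat_lit 5) (nat_lit 381) (nat_lit 283) (nat_lit 236)) (XT.lf (nat_lit 0) (nat_lit 6685223876) (nat_lit 228) (nat_lit 2126033277) (nat_lit 76) (nat_lit 7845191111) (nat_lit 31) (nat_lit 5) (nat_lit 34) (nat_lit 5) (nat_lit 32) (nat_lit 5) (nat_lit 382) (nat_lit 283) (nat_lit 235)))))) (XT.nd (nat_lit 42978) (nat_lit 0) (nat_lit 18392) (XT.nd (nat_lit 156) (nat_lit 304) (nat_lit 0) (XT.nd (nat_lit 78) (nat_lit 228) (nat_lit 0) (XT.lf (nat_lit 0) (nat_lit 11478976540) (nat_lit 152) (nat_lit 1850943897) (nat_lit 228) (nat_lit 3671394565) (nat_lit 29) (nat_lit 5) (nat_lit 31) (nat_lit 5) (nat_lit 32) (nat_lit 5) (nat_lit 383) (nat_lit 283) (nat_lit 234)) (XT.lf (nat_lit 0) (nat_lit 2809339262) (nat_lit 228) (nat_lit 9267525914) (nat_lit 76) (nat_lit 5278728937) (nat_lit 26) (nat_lit 5) (nat_lit 29) (nat_lit 5) (nat_lit 27) (nat_lit 5) (nat_lit 384) (nat_lit 283) (nat_lit 233))) (XT.nd (nat_lit 78)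 (nat_lit 152) (nat_lit 0) (XT.lf (nat_lit 0) (nat_lit 4353908504) (nat_lit 152) (nat_lit 5087132509) (nat_lit 228) (nat_lit 8278855865) (nat_lit 24) (nat_lit 5) (nat_lit 26) (nat_lit 5) (nat_lit 27) (nat_lit 5) (nat_lit 385) (nat_lit 283) (nat_lit 232)) (XT.nd (nat_lit 42666) (nat_lit 0) (nat_lit 22192) (XT.lf (nat_lit 0) (nat_lit 278877300) (nat_lit 152) (nat_lit 16000302223) (nat_lit 228) (nat_lit 1815808376) (nat_lit 22) (nat_lit 5) (nat_lit 24) (nat_lit 5) (nat_lit 25) (nat_lit 4) (nat_lit 386) (nat_lit 283) (nat_lit 231)) (XT.lf (nat_lit 0) (nat_lit 140472971) (nat_lit 836) (nat_lit 3512473748) (nat_lit 0) (nat_lit 140472971) (nat_lit 314) (nat_lit 5) (nat_lit 325) (nat_lit 4) (nat_lit 314) (nat_lit 4) (nat_lit 332) (nat_lit 284) (nat_lit 284))))) (XT.nd (nat_lit 156) (nat_lit 2280) (nat_lit 0) (XT.nd (nat_lit 78) (nat_lit 760) (nat_lit 0) (XT.lf (nat_lit 0) (nat_lit 1460659891) (nat_lit 760)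 (nat_lit 4143099686) (nat_lit 760) (nat_lit 2057897266) (nat_lit 304) (nat_lit 4) (nat_lit 314) (nat_lit 5) (nat_lit 314) (nat_lit 4) (nat_lit 333) (nat_lit 284) (nat_lit 283)) (XT.lf (nat_lit 0) (nat_lit 2396710188) (nat_lit 684) (nat_lit 824270493) (nat_lit 760) (nat_lit 4519023701) (nat_lit 294) (nat_lit 5) (nat_lit 303) (nat_lit 5) (nat_lit 304) (nat_lit 4) (nat_lit 334) (nat_lit 284) (nat_lit 282))) (XT.nd (nat_lit 78) (nat_lit 1444) (nat_lit 0) (XT.lf (nat_lit 0) (nat_lit 736701175) (nat_lit 836) (nat_lit 4467916625) (nat_lit 76) (nat_lit 2617021523) (nat_lit 283) (nat_lit 5) (nat_lit 294) (nat_lit 5) (nat_lit 284) (nat_lit 4) (nat_lit 335) (nat_lit 284) (nat_lit 281)) (XT.nd (nat_lit 78) (nat_lit 760) (nat_lit 0) (XT.lf (nat_lit 0) (nat_lit 4329586088) (nat_lit 684) (nat_lit 1688472285) (nat_lit 760) (nat_lit 1888542453) (nat_lit 274) (nat_lit 5) (nat_lit 283) (nat_lit 5) (nat_lit 284) (nat_lit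 4) (nat_lit 336) (nat_lit 284) (nat_lit 280)) (XT.lf (nat_lit 0) (nat_lit 3357345669) (nat_lit 760) (nat_lit 2672318807) (nat_lit 76) (nat_lit 1965275422) (nat_lit 264) (nat_lit 5) (nat_lit 274) (nat_lit 5) (nat_lit 265) (nat_lit 4) (nat_lit 337) (nat_lit 284) (nat_lit 279))))))) (XT.nd (nat_lit 780) (nat_lit 4864) (nat_lit 0) (XT.nd (nat_lit 390) (nat_lit 2736) (nat_lit 0) (XT.nd (nat_lit 156) (nat_lit 2508) (nat_lit 0) (XT.nd (nat_lit 78) (nat_lit 608) (nat_lit 0) (XT.lf (nat_lit 0) (nat_lit 581059485) (nat_lit 684) (nat_lit 1748848695) (nat_lit 76) (nat_lit 5756937173) (nat_lit 255) (nat_lit 5) (nat_lit 264) (nat_lit 5) (nat_lit 256) (nat_lit 5) (nat_lit 338) (nat_lit 284) (nat_lit 278)) (XT.lf (nat_lit 0) (nat_lit 5835422808) (nat_lit 684) (nat_lit 821795959) (nat_lit 76) (nat_lit 1524887565) (nat_lit 247) (nat_lit 5) (nat_lit 256) (nat_lit 5) (nat_lit 248) (nat_lit 4) (nat_lit 339) (nat_lit 284)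 (nat_lit 277))) (XT.nd (nat_lit 78) (nat_lit 1216) (nat_lit 0) (XT.lf (nat_lit 0) (nat_lit 113897369) (nat_lit 608) (nat_lit 2765157638) (nat_lit 684) (nat_lit 5401821223) (nat_lit 230) (nat_lit 5) (nat_lit 238) (nat_lit 5) (nat_lit 239) (nat_lit 5) (nat_lit 340) (nat_lit 284) (nat_lit 276)) (XT.nd (nat_lit 78) (nat_lit 684) (nat_lit 0) (XT.lf (nat_lit 0) (nat_lit 1076137896) (nat_lit 532) (nat_lit 7104709018) (nat_lit 608) (nat_lit 202479251) (nat_lit 223) (nat_lit 5) (nat_lit 230) (nat_lit 5) (nat_lit 231) (nat_lit 4) (nat_lit 341) (nat_lit 284) (nat_lit 275)) (XT.lf (nat_lit 0) (nat_lit 2023407209) (nat_lit 608) (nat_lit 3019798961) (nat_lit 684) (nat_lit 3445863455) (nat_lit 214) (nat_lit 5) (nat_lit 222) (nat_lit 5) (nat_lit 223) (nat_lit 5) (nat_lit 342) (nat_lit 284) (nat_lit 274))))) (XT.nd (nat_lit 156) (nat_lit 1596) (nat_lit 0) (XT.nd (nat_lit 78) (nat_lit 532) (nat_lit 0) (XT.lf (nat_lit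 0) (nat_lit 1771000595) (nat_lit 608) (nat_lit 5614750108) (nat_lit 76) (nat_lit 1213020913) (nat_lit 206) (nat_lit 5) (nat_lit 214) (nat_lit 5) (nat_lit 207) (nat_lit 5) (nat_lit 343) (nat_lit 284) (nat_lit 273)) (XT.lf (nat_lit 0) (nat_lit 3932987514) (nat_lit 532) (nat_lit 3129414269) (nat_lit 608) (nat_lit 1649654772) (nat_lit 199) (nat_lit 5) (nat_lit 206) (nat_lit 5) (nat_lit 207) (nat_lit 5) (nat_lit 344) (nat_lit 284) (nat_lit 272))) (XT.nd (nat_lit 78) (nat_lit 1064) (nat_lit 0) (XT.lf (nat_lit 0) (nat_lit 3590449628) (nat_lit 532) (nat_lit 3950692349) (nat_lit 76) (nat_lit 1288062771) (nat_lit 192) (nat_lit 5) (nat_lit 199) (nat_lit 5) (nat_lit 193) (nat_lit 5) (nat_lit 345) (nat_lit 284) (nat_lit 271)) (XT.nd (nat_lit 78) (nat_lit 532) (nat_lit 0) (XT.lf (nat_lit 0) (nat_lit 5817912515) (nat_lit 532) (nat_lit 3117542700) (nat_lit 608) (nat_lit 14832885) (nat_lit 185) (nat_lit 5) (nat_lit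 192) (nat_lit 5) (nat_lit 193) (nat_lit 5) (nat_lit 346) (nat_lit 284) (nat_lit 270)) (XT.lf (nat_lit 0) (nat_lit 5256225464) (nat_lit 532) (nat_lit 2339554728) (nat_lit 76) (nat_lit 1479350180) (nat_lit 178) (nat_lit 5) (nat_lit 185) (nat_lit 5) (nat_lit 179) (nat_lit 5) (nat_lit 347) (nat_lit 284) (nat_lit 269)))))) (XT.nd (nat_lit 390) (nat_lit 2052) (nat_lit 0) (XT.nd (nat_lit 156) (nat_lit 1824) (nat_lit 0) (XT.nd (nat_lit 78) (nat_lit 456) (nat_lit 0) (XT.lf (nat_lit 0) (nat_lit 1436184897) (nat_lit 532) (nat_lit 1561799507) (nat_lit 76) (nat_lit 6206093979) (nat_lit 171) (nat_lit 5) (nat_lit 178) (nat_lit 5) (nat_lit 172) (nat_lit 5) (nat_lit 348) (nat_lit 284) (nat_lit 268)) (XT.lf (nat_lit 0) (nat_lit 6764337810) (nat_lit 532) (nat_lit 808919193) (nat_lit 76) (nat_lit 1763823152) (nat_lit 165) (nat_lit 5) (nat_lit 172) (nat_lit 5) (nat_lit 166) (nat_lit 5) (nat_lit 349) (nat_lit 284) (nat_lit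 267))) (XT.nd (nat_lit 78) (nat_lit 1292) (nat_lit 0) (XT.lf (nat_lit 0) (nat_lit 2719415325) (nat_lit 532) (nat_lit 85534267) (nat_lit 76) (nat_lit 6669244160) (nat_lit 158) (nat_lit 5) (nat_lit 165) (nat_lit 5) (nat_lit 159) (nat_lit 5) (nat_lit 350) (nat_lit 284) (nat_lit 266)) (XT.nd (nat_lit 78) (nat_lit 456) (nat_lit 0) (XT.lf (nat_lit 0) (nat_lit 619735523) (nat_lit 456) (nat_lit 7493307854) (nat_lit 532) (nat_lit 1502517410) (nat_lit 147) (nat_lit 5) (nat_lit 153) (nat_lit 5) (nat_lit 154) (nat_lit 5) (nat_lit 351) (nat_lit 284) (nat_lit 265)) (XT.lf (nat_lit 0) (nat_lit 1282545225) (nat_lit 380) (nat_lit 2553959627) (nat_lit 456) (nat_lit 5924579560) (nat_lit 141) (nat_lit 5) (nat_lit 146) (nat_lit 5) (nat_lit 147) (nat_lit 5) (nat_lit 352) (nat_lit 284) (nat_lit 264))))) (XT.nd (nat_lit 156) (nat_lit 1216) (nat_lit 0) (XT.nd (nat_lit 78) (nat_lit 456) (nat_lit 0) (XT.lf (nat_lit 0) (nat_lit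 1915191734) (nat_lit 380) (nat_lit 7379869409) (nat_lit 456) (nat_lit 616149233) (nat_lit 136) (nat_lit 5) (nat_lit 141) (nat_lit 5) (nat_lit 142) (nat_lit 5) (nat_lit 353) (nat_lit 284) (nat_lit 263)) (XT.lf (nat_lit 0) (nat_lit 2491348412) (nat_lit 380) (nat_lit 2278474502) (nat_lit 456) (nat_lit 5295778182) (nat_lit 130) (nat_lit 5) (nat_lit 135) (nat_lit 5) (nat_lit 136) (nat_lit 5) (nat_lit 354) (nat_lit 284) (nat_lit 262))) (XT.nd (nat_lit 78) (nat_lit 760) (nat_lit 0) (XT.lf (nat_lit 0) (nat_lit 69431709) (nat_lit 456) (nat_lit 7193708688) (nat_lit 76) (nat_lit 2961697056) (nat_lit 124) (nat_lit 5) (nat_lit 130) (nat_lit 5) (nat_lit 125) (nat_lit 5) (nat_lit 355) (nat_lit 284) (nat_lit 261)) (XT.nd (nat_lit 78) (nat_lit 456) (nat_lit 0) (XT.lf (nat_lit 0) (nat_lit 3503082832) (nat_lit 304) (nat_lit 2004584282) (nat_lit 380) (nat_lit 4880830414) (nat_lit 120) (nat_lit 5) (nat_lit 124) (nat_lit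 5) (nat_lit 125) (nat_lit 5) (nat_lit 356) (nat_lit 284) (nat_lit 260)) (XT.lf (nat_lit 0) (nat_lit 537058434) (nat_lit 456) (nat_lit 6630049297) (nat_lit 76) (nat_lit 3390067473) (nat_lit 114) (nat_lit 5) (nat_lit 120) (nat_lit 5) (nat_lit 115) (nat_lit 5) (nat_lit 357) (nat_lit 284) (nat_lit 259))))))))
noncomputable def xc20 : XT := (XT.nd (nat_lit 1560) (nat_lit 1596) (nat_lit 0) (XT.nd (nat_lit 780) (nat_lit 2280) (nat_lit 0) (XT.nd (nat_lit 390) (nat_lit 1520) (nat_lit 0) (XT.nd (nat_lit 156) (nat_lit 988) (nat_lit 0) (XT.nd (nat_lit 78) (nat_lit 380) (nat_lit 0) (XT.lf (nat_lit 0) (nat_lit 4277783550) (nat_lit 304) (nat_lit 1758868477) (nat_lit 380) (nat_lit 4693931383) (nat_lit 110) (nat_lit 5) (nat_lit 114) (nat_lit 5) (nat_lit 115) (nat_lit 5) (nat_lit 358) (nat_lit 284) (nat_lit 258)) (XT.lf (nat_lit 0) (nat_lit 779830415) (nat_lit 380) (nat_lit 6343527259) (nat_lit 76) (nat_lit 3785793600)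 (nat_lit 105) (nat_lit 5) (nat_lit 110) (nat_lit 5) (nat_lit 106) (nat_lit 5) (nat_lit 359) (nat_lit 284) (nat_lit 257))) (XT.nd (nat_lit 78) (nat_lit 684) (nat_lit 0) (XT.lf (nat_lit 0) (nat_lit 4771742037) (nat_lit 304) (nat_lit 1569233185) (nat_lit 380) (nat_lit 4751764703) (nat_lit 101) (nat_lit 5) (nat_lit 105) (nat_lit 5) (nat_lit 106) (nat_lit 5) (nat_lit 360) (nat_lit 284) (nat_lit 256)) (XT.nd (nat_lit 78) (nat_lit 304) (nat_lit 0) (XT.lf (nat_lit 0) (nat_lit 780230286) (nat_lit 380) (nat_lit 6380666045) (nat_lit 76) (nat_lit 4120791009) (nat_lit 96) (nat_lit 5) (nat_lit 101) (nat_lit 5) (nat_lit 97) (nat_lit 5) (nat_lit 361) (nat_lit 284) (nat_lit 255)) (XT.lf (nat_lit 0) (nat_lit 4937031705) (nat_lit 304) (nat_lit 1465191036) (nat_lit 380) (nat_lit 5073701725) (nat_lit 92) (nat_lit 5) (nat_lit 96) (nat_lit 5) (nat_lit 97) (nat_lit 5) (nat_lit 362) (nat_lit 284) (nat_lit 254))))) (XT.nd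 (nat_lit 156) (nat_lit 912) (nat_lit 0) (XT.nd (nat_lit 78) (nat_lit 228) (nat_lit 0) (XT.lf (nat_lit 0) (nat_lit 517995813) (nat_lit 380) (nat_lit 6792524920) (nat_lit 76) (nat_lit 4365263432) (nat_lit 87) (nat_lit 5) (nat_lit 92) (nat_lit 5) (nat_lit 88) (nat_lit 5) (nat_lit 363) (nat_lit 284) (nat_lit 253)) (XT.lf (nat_lit 0) (nat_lit 4720988814) (nat_lit 228) (nat_lit 1478160508) (nat_lit 304) (nat_lit 5682026610) (nat_lit 84) (nat_lit 5) (nat_lit 87) (nat_lit 5) (nat_lit 88) (nat_lit 5) (nat_lit 364) (nat_lit 284) (nat_lit 252))) (XT.nd (nat_lit 78) (nat_lit 608) (nat_lit 0) (XT.lf (nat_lit 0) (nat_lit 4457079083) (nat_lit 304) (nat_lit 7604928336) (nat_lit 380) (nat_lit 30515818) (nat_lit 80) (nat_lit 5) (nat_lit 84) (nat_lit 5) (nat_lit 85) (nat_lit 5) (nat_lit 365) (nat_lit 284) (nat_lit 251)) (XT.nd (nat_lit 78) (nat_lit 304) (nat_lit 0) (XT.lf (nat_lit 0) (nat_lit 4065643650) (nat_lit 228)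 (nat_lit 1641787410) (nat_lit 304) (nat_lit 6602189543) (nat_lit 76) (nat_lit 5) (nat_lit 79) (nat_lit 5) (nat_lit 80) (nat_lit 5) (nat_lit 366) (nat_lit 284) (nat_lit 250)) (XT.lf (nat_lit 0) (nat_lit 3556462139) (nat_lit 304) (nat_lit 8074086648) (nat_lit 380) (nat_lit 902426855) (nat_lit 72) (nat_lit 5) (nat_lit 76) (nat_lit 5) (nat_lit 77) (nat_lit 5) (nat_lit 367) (nat_lit 284) (nat_lit 249)))))) (XT.nd (nat_lit 390) (nat_lit 1140) (nat_lit 0) (XT.nd (nat_lit 156) (nat_lit 608) (nat_lit 0) (XT.nd (nat_lit 78) (nat_lit 228) (nat_lit 0) (XT.lf (nat_lit 0) (nat_lit 2907096444) (nat_lit 228) (nat_lit 1992291547) (nat_lit 304) (nat_lit 7863090665) (nat_lit 68) (nat_lit 5) (nat_lit 71) (nat_lit 5) (nat_lit 72) (nat_lit 5) (nat_lit 368) (nat_lit 284) (nat_lit 248)) (XT.lf (nat_lit 0) (nat_lit 2117790628) (nat_lit 228) (nat_lit 8759408338) (nat_lit 304) (nat_lit 2121280831) (nat_lit 65) (nat_lit 5) (nat_lit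 68) (nat_lit 5) (nat_lit 69) (nat_lit 5) (nat_lit 369) (nat_lit 284) (nat_lit 247))) (XT.nd (nat_lit 78) (nat_lit 304) (nat_lit 0) (XT.lf (nat_lit 0) (nat_lit 1174831911) (nat_lit 228) (nat_lit 2568841867) (nat_lit 304) (nat_lit 9497397611) (nat_lit 61) (nat_lit 5) (nat_lit 64) (nat_lit 5) (nat_lit 65) (nat_lit 5) (nat_lit 370) (nat_lit 284) (nat_lit 246)) (XT.nd (nat_lit 78) (nat_lit 76) (nat_lit 0) (XT.lf (nat_lit 0) (nat_lit 66984831) (nat_lit 228) (nat_lit 9701997729) (nat_lit 304) (nat_lit 3721428366) (nat_lit 58) (nat_lit 5) (nat_lit 61) (nat_lit 5) (nat_lit 62) (nat_lit 5) (nat_lit 371) (nat_lit 284) (nat_lit 245)) (XT.lf (nat_lit 0) (nat_lit 2212779210) (nat_lit 304) (nat_lit 1193177596) (nat_lit 76) (nat_lit 10340715412) (nat_lit 57) (nat_lit 5) (nat_lit 61) (nat_lit 5) (nat_lit 58) (nat_lit 5) (nat_lit 372) (nat_lit 284) (nat_lit 244))))) (XT.nd (nat_lit 156) (nat_lit 608) (nat_lit 0) (XT.nd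 (nat_lit 78) (nat_lit 304) (nat_lit 0) (XT.lf (nat_lit 0) (nat_lit 8286126784) (nat_lit 304) (nat_lit 2642691054) (nat_lit 76) (nat_lit 3081092060) (nat_lit 54) (nat_lit 5) (nat_lit 58) (nat_lit 5) (nat_lit 55) (nat_lit 5) (nat_lit 373) (nat_lit 284) (nat_lit 243)) (XT.lf (nat_lit 0) (nat_lit 271514080) (nat_lit 304) (nat_lit 4273788245) (nat_lit 76) (nat_lit 9735435811) (nat_lit 50) (nat_lit 5) (nat_lit 54) (nat_lit 5) (nat_lit 51) (nat_lit 5) (nat_lit 374) (nat_lit 284) (nat_lit 242))) (XT.nd (nat_lit 78) (nat_lit 456) (nat_lit 0) (XT.lf (nat_lit 0) (nat_lit 6375024775) (nat_lit 228) (nat_lit 6125691195) (nat_lit 76) (nat_lit 2058109126) (nat_lit 48) (nat_lit 5) (nat_lit 51) (nat_lit 5) (nat_lit 49) (nat_lit 5) (nat_lit 375) (nat_lit 284) (nat_lit 241)) (XT.nd (nat_lit 78) (nat_lit 228) (nat_lit 0) (XT.lf (nat_lit 0) (nat_lit 6654427509) (nat_lit 228) (nat_lit 6030331050) (nat_lit 304) (nat_lit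 2160046304) (nat_lit 45) (nat_lit 5) (nat_lit 48) (nat_lit 5) (nat_lit 49) (nat_lit 5) (nat_lit 376) (nat_lit 284) (nat_lit 240)) (XT.lf (nat_lit 0) (nat_lit 3989100197) (nat_lit 228) (nat_lit 10481685990) (nat_lit 76) (nat_lit 668110138) (nat_lit 42) (nat_lit 5) (nat_lit 45) (nat_lit 5) (nat_lit 43) (nat_lit 5) (nat_lit 377) (nat_lit 284) (nat_lit 239))))))) (XT.nd (nat_lit 43134) (nat_lit 0) (nat_lit 17176) (XT.nd (nat_lit 390) (nat_lit 760) (nat_lit 0) (XT.nd (nat_lit 156) (nat_lit 532) (nat_lit 0) (XT.nd (nat_lit 78) (nat_lit 76) (nat_lit 0) (XT.lf (nat_lit 0) (nat_lit 2402852880) (nat_lit 228) (nat_lit 7924817059) (nat_lit 304) (nat_lit 5113180724) (nat_lit 39) (nat_lit 5) (nat_lit 42) (nat_lit 5) (nat_lit 43) (nat_lit 5) (nat_lit 378) (nat_lit 284) (nat_lit 238)) (XT.lf (nat_lit 0) (nat_lit 1084758846) (nat_lit 304) (nat_lit 74677703) (nat_lit 76) (nat_lit 14592400459) (nat_lit 38) (nat_lit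 5) (nat_lit 42) (nat_lit 5) (nat_lit 39) (nat_lit 5) (nat_lit 379) (nat_lit 284) (nat_lit 237))) (XT.nd (nat_lit 78) (nat_lit 380) (nat_lit 0) (XT.lf (nat_lit 0) (nat_lit 7449439087) (nat_lit 228) (nat_lit 2821874607) (nat_lit 76) (nat_lit 5799168592) (nat_lit 36) (nat_lit 5) (nat_lit 39) (nat_lit 5) (nat_lit 37) (nat_lit 5) (nat_lit 380) (nat_lit 284) (nat_lit 236)) (XT.nd (nat_lit 78) (nat_lit 228) (nat_lit 0) (XT.lf (nat_lit 0) (nat_lit 10575781955) (nat_lit 152) (nat_lit 3432641333) (nat_lit 228) (nat_lit 2390206771) (nat_lit 34) (nat_lit 5) (nat_lit 36) (nat_lit 5) (nat_lit 37) (nat_lit 5) (nat_lit 381) (nat_lit 284) (nat_lit 235)) (XT.lf (nat_lit 0) (nat_lit 3994458976) (nat_lit 228) (nat_lit 9136426532) (nat_lit 76) (nat_lit 3604829145) (nat_lit 31) (nat_lit 5) (nat_lit 34) (nat_lit 5) (nat_lit 32) (nat_lit 5) (nat_lit 382) (nat_lit 284) (nat_lit 234))))) (XT.nd (nat_lit 156) (nat_lit 456)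 (nat_lit 0) (XT.nd (nat_lit 78) (nat_lit 152) (nat_lit 0) (XT.lf (nat_lit 0) (nat_lit 4312030070) (nat_lit 152) (nat_lit 6245229580) (nat_lit 228) (nat_lit 6524964396) (nat_lit 29) (nat_lit 5) (nat_lit 31) (nat_lit 5) (nat_lit 32) (nat_lit 5) (nat_lit 383) (nat_lit 284) (nat_lit 233)) (XT.lf (nat_lit 0) (nat_lit 728761879) (nat_lit 152) (nat_lit 16589873528) (nat_lit 228) (nat_lit 120468830) (nat_lit 27) (nat_lit 5) (nat_lit 29) (nat_lit 5) (nat_lit 30) (nat_lit 4) (nat_lit 384) (nat_lit 284) (nat_lit 232))) (XT.nd (nat_lit 78) (nat_lit 380) (nat_lit 0) (XT.lf (nat_lit 0) (nat_lit 6450026262) (nat_lit 228) (nat_lit 3206751894) (nat_lit 76) (nat_lit 8147904599) (nat_lit 26) (nat_lit 5) (nat_lit 29) (nat_lit 5) (nat_lit 27) (nat_lit 5) (nat_lit 385) (nat_lit 284) (nat_lit 231)) (XT.nd (nat_lit 78) (nat_lit 228) (nat_lit 0) (XT.lf (nat_lit 0) (nat_lit 10720486061) (nat_lit 152) (nat_lit 2497096330) (nat_lit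 228) (nat_lit 4963607283) (nat_lit 24) (nat_lit 5) (nat_lit 26) (nat_lit 5) (nat_lit 27) (nat_lit 5) (nat_lit 386) (nat_lit 284) (nat_lit 230)) (XT.lf (nat_lit 0) (nat_lit 1626525359) (nat_lit 228) (nat_lit 12105454666) (nat_lit 76) (nat_lit 4836237978) (nat_lit 21) (nat_lit 5) (nat_lit 24) (nat_lit 5) (nat_lit 22) (nat_lit 5) (nat_lit 387) (nat_lit 284) (nat_lit 229)))))) (XT.nd (nat_lit 390) (nat_lit 3572) (nat_lit 0) (XT.nd (nat_lit 156) (nat_lit 3192) (nat_lit 0) (XT.nd (nat_lit 78) (nat_lit 912) (nat_lit 0) (XT.lf (nat_lit 0) (nat_lit 3186720802) (nat_lit 836) (nat_lit 267889932) (nat_lit 836) (nat_lit 267889932) (nat_lit 348) (nat_lit 4) (nat_lit 359) (nat_lit 5) (nat_lit 359) (nat_lit 4) (nat_lit 330) (nat_lit 285) (nat_lit 285)) (XT.lf (nat_lit 0) (nat_lit 4690620583) (nat_lit 912) (nat_lit 324337893) (nat_lit 0) (nat_lit 2499906920) (nat_lit 336) (nat_lit 5) (nat_lit 348) (nat_lit 4) (nat_lit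 336) (nat_lit 4) (nat_lit 331) (nat_lit 285) (nat_lit 284))) (XT.nd (nat_lit 78) (nat_lit 1520) (nat_lit 0) (XT.lf (nat_lit 0) (nat_lit 465719548) (nat_lit 760) (nat_lit 1902270391) (nat_lit 836) (nat_lit 5220098484) (nat_lit 314) (nat_lit 5) (nat_lit 324) (nat_lit 5) (nat_lit 325) (nat_lit 4) (nat_lit 332) (nat_lit 285) (nat_lit 283)) (XT.nd (nat_lit 78) (nat_lit 760) (nat_lit 0) (XT.lf (nat_lit 0) (nat_lit 1290768360) (nat_lit 760) (nat_lit 6315644185) (nat_lit 760) (nat_lit 58214903) (nat_lit 304) (nat_lit 4) (nat_lit 314) (nat_lit 5) (nat_lit 314) (nat_lit 4) (nat_lit 333) (nat_lit 285) (nat_lit 282)) (XT.lf (nat_lit 0) (nat_lit 2125088674) (nat_lit 684) (nat_lit 2997694111) (nat_lit 760) (nat_lit 2621397735) (nat_lit 294) (nat_lit 5) (nat_lit 303) (nat_lit 5) (nat_lit 304) (nat_lit 4) (nat_lit 334) (nat_lit 285) (nat_lit 281))))) (XT.nd (nat_lit 156) (nat_lit 2052) (nat_lit 0) (XT.nd (nat_lit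 78) (nat_lit 684) (nat_lit 0) (XT.lf (nat_lit 0) (nat_lit 2524011986) (nat_lit 836) (nat_lit 4834033194) (nat_lit 76) (nat_lit 469262985) (nat_lit 283) (nat_lit 5) (nat_lit 294) (nat_lit 5) (nat_lit 284) (nat_lit 4) (nat_lit 335) (nat_lit 285) (nat_lit 280)) (XT.lf (nat_lit 0) (nat_lit 3875726816) (nat_lit 684) (nat_lit 3859229915) (nat_lit 760) (nat_lit 178750865) (nat_lit 274) (nat_lit 5) (nat_lit 283) (nat_lit 5) (nat_lit 284) (nat_lit 4) (nat_lit 336) (nat_lit 285) (nat_lit 279))) (XT.nd (nat_lit 78) (nat_lit 1292) (nat_lit 0) (XT.lf (nat_lit 0) (nat_lit 4775011868) (nat_lit 684) (nat_lit 186641881) (nat_lit 760) (nat_lit 3041860332) (nat_lit 264) (nat_lit 5) (nat_lit 273) (nat_lit 5) (nat_lit 274) (nat_lit 5) (nat_lit 337) (nat_lit 285) (nat_lit 278)) (XT.nd (nat_lit 78) (nat_lit 608) (nat_lit 0) (XT.lf (nat_lit 0) (nat_lit 2084803679) (nat_lit 684) (nat_lit 2413468367) (nat_lit 76) (nat_lit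 3598388396) (nat_lit 255) (nat_lit 5) (nat_lit 264) (nat_lit 5) (nat_lit 256) (nat_lit 5) (nat_lit 338) (nat_lit 285) (nat_lit 277)) (XT.lf (nat_lit 0) (nat_lit 6615169073) (nat_lit 608) (nat_lit 644822326) (nat_lit 684) (nat_lit 933539640) (nat_lit 247) (nat_lit 5) (nat_lit 255) (nat_lit 5) (nat_lit 256) (nat_lit 5) (nat_lit 339) (nat_lit 285) (nat_lit 276))))))))
noncomputable def xc21 : XT := (XT.nd (nat_lit 1560) (nat_lit 5016) (nat_lit 0) (XT.nd (nat_lit 780) (nat_lit 4560) (nat_lit 0) (XT.nd (nat_lit 390) (nat_lit 2584) (nat_lit 0) (XT.nd (nat_lit 156) (nat_lit 1748) (nat_lit 0) (XT.nd (nat_lit 78) (nat_lit 1216) (nat_lit 0) (XT.lf (nat_lit 0) (nat_lit 4199759553) (nat_lit 684) (nat_lit 753354926) (nat_lit 76) (nat_lit 3340505917) (nat_lit 238) (nat_lit 5) (nat_lit 247) (nat_lit 5) (nat_lit 239) (nat_lit 5) (nat_lit 340) (nat_lit 285) (nat_lit 275)) (XT.lf (nat_lit 0) (nat_lit 92270778) (nat_lit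 532) (nat_lit 915794471) (nat_lit 608) (nat_lit 7389543531) (nat_lit 222) (nat_lit 5) (nat_lit 229) (nat_lit 5) (nat_lit 230) (nat_lit 5) (nat_lit 341) (nat_lit 285) (nat_lit 274))) (XT.nd (nat_lit 78) (nat_lit 1140) (nat_lit 0) (XT.lf (nat_lit 0) (nat_lit 933615770) (nat_lit 608) (nat_lit 5242573392) (nat_lit 684) (nat_lit 2328657867) (nat_lit 214) (nat_lit 5) (nat_lit 222) (nat_lit 5) (nat_lit 223) (nat_lit 5) (nat_lit 342) (nat_lit 285) (nat_lit 273)) (XT.nd (nat_lit 78) (nat_lit 532) (nat_lit 0) (XT.lf (nat_lit 0) (nat_lit 1781984266) (nat_lit 532) (nat_lit 1014702989) (nat_lit 608) (nat_lit 5819275882) (nat_lit 206) (nat_lit 5) (nat_lit 213) (nat_lit 5) (nat_lit 214) (nat_lit 5) (nat_lit 343) (nat_lit 285) (nat_lit 272)) (XT.lf (nat_lit 0) (nat_lit 2621906424) (nat_lit 532) (nat_lit 5391177282) (nat_lit 608) (nat_lit 717685682) (nat_lit 199) (nat_lit 5) (nat_lit 206) (nat_lit 5) (nat_lit 207)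 (nat_lit 5) (nat_lit 344) (nat_lit 285) (nat_lit 271))))) (XT.nd (nat_lit 156) (nat_lit 1444) (nat_lit 0) (XT.nd (nat_lit 78) (nat_lit 608) (nat_lit 0) (XT.lf (nat_lit 0) (nat_lit 3451752809) (nat_lit 456) (nat_lit 981561990) (nat_lit 532) (nat_lit 4416039583) (nat_lit 192) (nat_lit 5) (nat_lit 198) (nat_lit 5) (nat_lit 199) (nat_lit 5) (nat_lit 345) (nat_lit 285) (nat_lit 270)) (XT.lf (nat_lit 0) (nat_lit 722373715) (nat_lit 608) (nat_lit 4699995143) (nat_lit 76) (nat_lit 3549481462) (nat_lit 184) (nat_lit 5) (nat_lit 192) (nat_lit 5) (nat_lit 185) (nat_lit 5) (nat_lit 346) (nat_lit 285) (nat_lit 269))) (XT.nd (nat_lit 78) (nat_lit 988) (nat_lit 0) (XT.lf (nat_lit 0) (nat_lit 5075956288) (nat_lit 456) (nat_lit 839467822) (nat_lit 532) (nat_lit 3182841490) (nat_lit 178) (nat_lit 5) (nat_lit 184) (nat_lit 5) (nat_lit 185) (nat_lit 5) (nat_lit 347) (nat_lit 285) (nat_lit 268)) (XT.nd (nat_lit 78) (nat_lit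 456) (nat_lit 0) (XT.lf (nat_lit 0) (nat_lit 1990163318) (nat_lit 532) (nat_lit 3370346047) (nat_lit 76) (nat_lit 3868114275) (nat_lit 171) (nat_lit 5) (nat_lit 178) (nat_lit 5) (nat_lit 172) (nat_lit 5) (nat_lit 348) (nat_lit 285) (nat_lit 267)) (XT.lf (nat_lit 0) (nat_lit 6627271325) (nat_lit 456) (nat_lit 611538180) (nat_lit 532) (nat_lit 2124423289) (nat_lit 165) (nat_lit 5) (nat_lit 171) (nat_lit 5) (nat_lit 172) (nat_lit 5) (nat_lit 349) (nat_lit 285) (nat_lit 266)))))) (XT.nd (nat_lit 390) (nat_lit 2280) (nat_lit 0) (XT.nd (nat_lit 156) (nat_lit 1368) (nat_lit 0) (XT.nd (nat_lit 78) (nat_lit 380) (nat_lit 0) (XT.lf (nat_lit 0) (nat_lit 3089697718) (nat_lit 532) (nat_lit 2144010501) (nat_lit 76) (nat_lit 4268039514) (nat_lit 158) (nat_lit 5) (nat_lit 165) (nat_lit 5) (nat_lit 159) (nat_lit 5) (nat_lit 350) (nat_lit 285) (nat_lit 265)) (XT.lf (nat_lit 0) (nat_lit 8076375935) (nat_lit 380) (nat_lit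 321123009) (nat_lit 456) (nat_lit 1247348301) (nat_lit 153) (nat_lit 5) (nat_lit 158) (nat_lit 5) (nat_lit 159) (nat_lit 5) (nat_lit 351) (nat_lit 285) (nat_lit 264))) (XT.nd (nat_lit 78) (nat_lit 836) (nat_lit 0) (XT.lf (nat_lit 0) (nat_lit 4013747196) (nat_lit 532) (nat_lit 1051947288) (nat_lit 76) (nat_lit 4726150026) (nat_lit 146) (nat_lit 5) (nat_lit 153) (nat_lit 5) (nat_lit 147) (nat_lit 5) (nat_lit 352) (nat_lit 285) (nat_lit 263)) (XT.nd (nat_lit 78) (nat_lit 456) (nat_lit 0) (XT.lf (nat_lit 0) (nat_lit 9383705105) (nat_lit 456) (nat_lit 552179052) (nat_lit 76) (nat_lit 7873016) (nat_lit 141) (nat_lit 5) (nat_lit 147) (nat_lit 5) (nat_lit 142) (nat_lit 5) (nat_lit 353) (nat_lit 285) (nat_lit 262)) (XT.lf (nat_lit 0) (nat_lit 4753139592) (nat_lit 456) (nat_lit 127652565) (nat_lit 76) (nat_lit 5218803367) (nat_lit 135) (nat_lit 5) (nat_lit 141) (nat_lit 5) (nat_lit 136) (nat_lit 5) (nat_lit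 354) (nat_lit 285) (nat_lit 261))))) (XT.nd (nat_lit 156) (nat_lit 1140) (nat_lit 0) (XT.nd (nat_lit 78) (nat_lit 380) (nat_lit 0) (XT.lf (nat_lit 0) (nat_lit 279443362) (nat_lit 380) (nat_lit 9912100027) (nat_lit 456) (nat_lit 69050727) (nat_lit 125) (nat_lit 5) (nat_lit 130) (nat_lit 5) (nat_lit 131) (nat_lit 5) (nat_lit 355) (nat_lit 285) (nat_lit 260)) (XT.lf (nat_lit 0) (nat_lit 600352572) (nat_lit 304) (nat_lit 4700176750) (nat_lit 380) (nat_lit 5125138011) (nat_lit 120) (nat_lit 5) (nat_lit 124) (nat_lit 5) (nat_lit 125) (nat_lit 5) (nat_lit 356) (nat_lit 285) (nat_lit 259))) (XT.nd (nat_lit 78) (nat_lit 684) (nat_lit 0) (XT.lf (nat_lit 0) (nat_lit 208222755) (nat_lit 456) (nat_lit 9706313967) (nat_lit 76) (nat_lit 681606988) (nat_lit 114) (nat_lit 5) (nat_lit 120) (nat_lit 5) (nat_lit 115) (nat_lit 5) (nat_lit 357) (nat_lit 285) (nat_lit 258)) (XT.nd (nat_lit 78) (nat_lit 380) (nat_lit 0)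 (XT.lf (nat_lit 0) (nat_lit 1082963763) (nat_lit 304) (nat_lit 4554827068) (nat_lit 380) (nat_lit 5133173571) (nat_lit 110) (nat_lit 5) (nat_lit 114) (nat_lit 5) (nat_lit 115) (nat_lit 5) (nat_lit 358) (nat_lit 285) (nat_lit 257)) (XT.lf (nat_lit 0) (nat_lit 257420493) (nat_lit 380) (nat_lit 9719276307) (nat_lit 76) (nat_lit 974682468) (nat_lit 105) (nat_lit 5) (nat_lit 110) (nat_lit 5) (nat_lit 106) (nat_lit 5) (nat_lit 359) (nat_lit 285) (nat_lit 256))))))) (XT.nd (nat_lit 780) (nat_lit 2204) (nat_lit 0) (XT.nd (nat_lit 390) (nat_lit 1216) (nat_lit 0) (XT.nd (nat_lit 156) (nat_lit 912) (nat_lit 0) (XT.nd (nat_lit 78) (nat_lit 380) (nat_lit 0) (XT.lf (nat_lit 0) (nat_lit 1274501287) (nat_lit 304) (nat_lit 4473444902) (nat_lit 380) (nat_lit 5388445178) (nat_lit 101) (nat_lit 5) (nat_lit 105) (nat_lit 5) (nat_lit 106) (nat_lit 5) (nat_lit 360) (nat_lit 285) (nat_lit 255)) (XT.lf (nat_lit 0) (nat_lit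 61595333) (nat_lit 380) (nat_lit 10066406178) (nat_lit 76) (nat_lit 1199236571) (nat_lit 96) (nat_lit 5) (nat_lit 101) (nat_lit 5) (nat_lit 97) (nat_lit 5) (nat_lit 361) (nat_lit 285) (nat_lit 254))) (XT.nd (nat_lit 78) (nat_lit 608) (nat_lit 0) (XT.lf (nat_lit 0) (nat_lit 1126738214) (nat_lit 304) (nat_lit 4485509679) (nat_lit 380) (nat_lit 5910664339) (nat_lit 92) (nat_lit 5) (nat_lit 96) (nat_lit 5) (nat_lit 97) (nat_lit 5) (nat_lit 362) (nat_lit 285) (nat_lit 253)) (XT.nd (nat_lit 78) (nat_lit 304) (nat_lit 0) (XT.lf (nat_lit 0) (nat_lit 922962844) (nat_lit 304) (nat_lit 10396549451) (nat_lit 380) (nat_lit 405162617) (nat_lit 88) (nat_lit 5) (nat_lit 92) (nat_lit 5) (nat_lit 93) (nat_lit 5) (nat_lit 363) (nat_lit 285) (nat_lit 252)) (XT.lf (nat_lit 0) (nat_lit 586685011) (nat_lit 228) (nat_lit 4622433203) (nat_lit 304) (nat_lit 6722454257) (nat_lit 84) (nat_lit 5) (nat_lit 87) (nat_lit 5) (nat_lit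 88) (nat_lit 5) (nat_lit 364) (nat_lit 285) (nat_lit 251))))) (XT.nd (nat_lit 156) (nat_lit 836) (nat_lit 0) (XT.nd (nat_lit 78) (nat_lit 76) (nat_lit 0) (XT.lf (nat_lit 0) (nat_lit 163430957) (nat_lit 304) (nat_lit 10815579933) (nat_lit 380) (nat_lit 1165777367) (nat_lit 80) (nat_lit 5) (nat_lit 84) (nat_lit 5) (nat_lit 85) (nat_lit 5) (nat_lit 365) (nat_lit 285) (nat_lit 250)) (XT.lf (nat_lit 0) (nat_lit 4516523771) (nat_lit 380) (nat_lit 398680938) (nat_lit 76) (nat_lit 7448247763) (nat_lit 79) (nat_lit 5) (nat_lit 84) (nat_lit 5) (nat_lit 80) (nat_lit 5) (nat_lit 366) (nat_lit 285) (nat_lit 249))) (XT.nd (nat_lit 78) (nat_lit 608) (nat_lit 0) (XT.lf (nat_lit 0) (nat_lit 10349160219) (nat_lit 304) (nat_lit 1064396372) (nat_lit 76) (nat_lit 1175069022) (nat_lit 76) (nat_lit 5) (nat_lit 80) (nat_lit 5) (nat_lit 77) (nat_lit 5) (nat_lit 367) (nat_lit 285) (nat_lit 248)) (XT.nd (nat_lit 78) (nat_lit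 228) (nat_lit 0) (XT.lf (nat_lit 0) (nat_lit 3510980586) (nat_lit 380) (nat_lit 1884486897) (nat_lit 76) (nat_lit 7424220920) (nat_lit 71) (nat_lit 5) (nat_lit 76) (nat_lit 5) (nat_lit 72) (nat_lit 5) (nat_lit 368) (nat_lit 285) (nat_lit 247)) (XT.lf (nat_lit 0) (nat_lit 9398098927) (nat_lit 304) (nat_lit 2832792659) (nat_lit 76) (nat_lit 826619645) (nat_lit 68) (nat_lit 5) (nat_lit 72) (nat_lit 5) (nat_lit 69) (nat_lit 5) (nat_lit 369) (nat_lit 285) (nat_lit 246)))))) (XT.nd (nat_lit 390) (nat_lit 912) (nat_lit 0) (XT.nd (nat_lit 156) (nat_lit 760) (nat_lit 0) (XT.nd (nat_lit 78) (nat_lit 228) (nat_lit 0) (XT.lf (nat_lit 0) (nat_lit 2157458567) (nat_lit 304) (nat_lit 3948414572) (nat_lit 76) (nat_lit 7195802006) (nat_lit 64) (nat_lit 5) (nat_lit 68) (nat_lit 5) (nat_lit 65) (nat_lit 5) (nat_lit 370) (nat_lit 285) (nat_lit 245)) (XT.lf (nat_lit 0) (nat_lit 8091938708) (nat_lit 304) (nat_lit 5217419735)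 (nat_lit 76) (nat_lit 243480051) (nat_lit 61) (nat_lit 5) (nat_lit 65) (nat_lit 5) (nat_lit 62) (nat_lit 5) (nat_lit 371) (nat_lit 285) (nat_lit 244))) (XT.nd (nat_lit 78) (nat_lit 456) (nat_lit 0) (XT.lf (nat_lit 0) (nat_lit 420769354) (nat_lit 304) (nat_lit 6667748923) (nat_lit 76) (nat_lit 6722321315) (nat_lit 57) (nat_lit 5) (nat_lit 61) (nat_lit 5) (nat_lit 58) (nat_lit 5) (nat_lit 372) (nat_lit 285) (nat_lit 243)) (XT.nd (nat_lit 78) (nat_lit 228) (nat_lit 0) (XT.lf (nat_lit 0) (nat_lit 5772455335) (nat_lit 228) (nat_lit 625320960) (nat_lit 304) (nat_lit 7678234479) (nat_lit 54) (nat_lit 5) (nat_lit 57) (nat_lit 5) (nat_lit 58) (nat_lit 5) (nat_lit 373) (nat_lit 285) (nat_lit 242)) (XT.lf (nat_lit 0) (nat_lit 4209167435) (nat_lit 228) (nat_lit 8377599769) (nat_lit 304) (nat_lit 1761729600) (nat_lit 51) (nat_lit 5) (nat_lit 54) (nat_lit 5) (nat_lit 55) (nat_lit 5) (nat_lit 374) (nat_lit 285)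 (nat_lit 241))))) (XT.nd (nat_lit 156) (nat_lit 456) (nat_lit 0) (XT.nd (nat_lit 78) (nat_lit 228) (nat_lit 0) (XT.lf (nat_lit 0) (nat_lit 2447990926) (nat_lit 152) (nat_lit 1825793831) (nat_lit 228) (nat_lit 10354855993) (nat_lit 48) (nat_lit 5) (nat_lit 50) (nat_lit 5) (nat_lit 51) (nat_lit 5) (nat_lit 375) (nat_lit 285) (nat_lit 240)) (XT.lf (nat_lit 0) (nat_lit 464452622) (nat_lit 228) (nat_lit 10028935297) (nat_lit 304) (nat_lit 4423041213) (nat_lit 45) (nat_lit 5) (nat_lit 48) (nat_lit 5) (nat_lit 49) (nat_lit 5) (nat_lit 376) (nat_lit 285) (nat_lit 239))) (XT.nd (nat_lit 78) (nat_lit 380) (nat_lit 0) (XT.lf (nat_lit 0) (nat_lit 1683472013) (nat_lit 304) (nat_lit 1711479787) (nat_lit 76) (nat_lit 11817314621) (nat_lit 44) (nat_lit 5) (nat_lit 48) (nat_lit 5) (nat_lit 45) (nat_lit 5) (nat_lit 377) (nat_lit 285) (nat_lit 238)) (XT.nd (nat_lit 78) (nat_lit 228) (nat_lit 0) (XT.lf (nat_lit 0) (nat_lit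 7935918329) (nat_lit 228) (nat_lit 4136214807) (nat_lit 76) (nat_lit 3443815639) (nat_lit 42) (nat_lit 5) (nat_lit 45) (nat_lit 5) (nat_lit 43) (nat_lit 5) (nat_lit 378) (nat_lit 285) (nat_lit 237)) (XT.lf (nat_lit 0) (nat_lit 9026810911) (nat_lit 228) (nat_lit 5368903108) (nat_lit 304) (nat_lit 1432642993) (nat_lit 39) (nat_lit 5) (nat_lit 42) (nat_lit 5) (nat_lit 43) (nat_lit 5) (nat_lit 379) (nat_lit 285) (nat_lit 236))))))))
noncomputable def xc22 : XT := (XT.nd (nat_lit 43758) (nat_lit 0) (nat_lit 6536) (XT.nd (nat_lit 42978) (nat_lit 0) (nat_lit 16872) (XT.nd (nat_lit 390) (nat_lit 380) (nat_lit 0) (XT.nd (nat_lit 156) (nat_lit 380) (nat_lit 0) (XT.nd (nat_lit 78) (nat_lit 152) (nat_lit 0) (XT.lf (nat_lit 0) (nat_lit 4842708504) (nat_lit 228) (nat_lit 9742215980) (nat_lit 76) (nat_lit 1564431331) (nat_lit 36) (nat_lit 5) (nat_lit 39) (nat_lit 5) (nat_lit 37) (nat_lit 5) (nat_lit 380) (nat_lit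 285) (nat_lit 235)) (XT.lf (nat_lit 0) (nat_lit 3500907955) (nat_lit 152) (nat_lit 7819666803) (nat_lit 228) (nat_lit 5158556166) (nat_lit 34) (nat_lit 5) (nat_lit 36) (nat_lit 5) (nat_lit 37) (nat_lit 5) (nat_lit 381) (nat_lit 285) (nat_lit 234))) (XT.nd (nat_lit 78) (nat_lit 152) (nat_lit 0) (XT.lf (nat_lit 0) (nat_lit 329202089) (nat_lit 152) (nat_lit 827353234) (nat_lit 228) (nat_lit 15662141644) (nat_lit 31) (nat_lit 5) (nat_lit 33) (nat_lit 5) (nat_lit 34) (nat_lit 5) (nat_lit 382) (nat_lit 285) (nat_lit 233)) (XT.nd (nat_lit 78) (nat_lit 152) (nat_lit 0) (XT.lf (nat_lit 0) (nat_lit 7651654395) (nat_lit 228) (nat_lit 3152954961) (nat_lit 76) (nat_lit 6361955635) (nat_lit 31) (nat_lit 5) (nat_lit 34) (nat_lit 5) (nat_lit 32) (nat_lit 5) (nat_lit 383) (nat_lit 285) (nat_lit 232)) (XT.lf (nat_lit 0) (nat_lit 10597433791) (nat_lit 152) (nat_lit 3750844460) (nat_lit 228) (nat_lit 3176466433) (nat_lit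 29) (nat_lit 5) (nat_lit 31) (nat_lit 5) (nat_lit 32) (nat_lit 5) (nat_lit 384) (nat_lit 285) (nat_lit 231))))) (XT.nd (nat_lit 156) (nat_lit 0) (nat_lit 0) (XT.nd (nat_lit 78) (nat_lit 152) (nat_lit 0) (XT.lf (nat_lit 0) (nat_lit 3330366631) (nat_lit 228) (nat_lit 11056672440) (nat_lit 76) (nat_lit 3505760054) (nat_lit 26) (nat_lit 5) (nat_lit 29) (nat_lit 5) (nat_lit 27) (nat_lit 5) (nat_lit 385) (nat_lit 285) (nat_lit 230)) (XT.lf (nat_lit 0) (nat_lit 2707481412) (nat_lit 152) (nat_lit 7305878923) (nat_lit 228) (nat_lit 8257641083) (nat_lit 24) (nat_lit 5) (nat_lit 26) (nat_lit 5) (nat_lit 27) (nat_lit 5) (nat_lit 386) (nat_lit 285) (nat_lit 229))) (XT.nd (nat_lit 42276) (nat_lit 0) (nat_lit 25460) (XT.lf (nat_lit 0) (nat_lit 16906975431) (nat_lit 228) (nat_lit 1740351397) (nat_lit 76) (nat_lit 13028454) (nat_lit 24) (nat_lit 5) (nat_lit 27) (nat_lit 5) (nat_lit 25) (nat_lit 4) (nat_lit 387) (nat_lit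 285) (nat_lit 228)) (XT.nd (nat_lit 78) (nat_lit 912) (nat_lit 0) (XT.lf (nat_lit 0) (nat_lit 2450998404) (nat_lit 912) (nat_lit 602770614) (nat_lit 912) (nat_lit 602770614) (nat_lit 371) (nat_lit 4) (nat_lit 383) (nat_lit 5) (nat_lit 383) (nat_lit 4) (nat_lit 328) (nat_lit 286) (nat_lit 286)) (XT.lf (nat_lit 0) (nat_lit 3937721456) (nat_lit 912) (nat_lit 1804165997) (nat_lit 0) (nat_lit 1636157682) (nat_lit 359) (nat_lit 5) (nat_lit 371) (nat_lit 4) (nat_lit 359) (nat_lit 4) (nat_lit 329) (nat_lit 286) (nat_lit 285)))))) (XT.nd (nat_lit 390) (nat_lit 3648) (nat_lit 0) (XT.nd (nat_lit 156) (nat_lit 3192) (nat_lit 0) (XT.nd (nat_lit 78) (nat_lit 836) (nat_lit 0) (XT.lf (nat_lit 0) (nat_lit 1669651088) (nat_lit 912) (nat_lit 1163396511) (nat_lit 76) (nat_lit 4613220439) (nat_lit 347) (nat_lit 5) (nat_lit 359) (nat_lit 5) (nat_lit 348) (nat_lit 4) (nat_lit 330) (nat_lit 286) (nat_lit 284)) (XT.lf (nat_lit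 0) (nat_lit 6802088931) (nat_lit 912) (nat_lit 487714032) (nat_lit 0) (nat_lit 228033727) (nat_lit 336) (nat_lit 5) (nat_lit 348) (nat_lit 4) (nat_lit 336) (nat_lit 4) (nat_lit 331) (nat_lit 286) (nat_lit 283))) (XT.nd (nat_lit 78) (nat_lit 1520) (nat_lit 0) (XT.lf (nat_lit 0) (nat_lit 199866368) (nat_lit 760) (nat_lit 4175816457) (nat_lit 836) (nat_lit 3216599856) (nat_lit 314) (nat_lit 5) (nat_lit 324) (nat_lit 5) (nat_lit 325) (nat_lit 4) (nat_lit 332) (nat_lit 286) (nat_lit 282)) (XT.nd (nat_lit 78) (nat_lit 684) (nat_lit 0) (XT.lf (nat_lit 0) (nat_lit 932529680) (nat_lit 760) (nat_lit 906687835) (nat_lit 836) (nat_lit 5830994774) (nat_lit 303) (nat_lit 5) (nat_lit 313) (nat_lit 5) (nat_lit 314) (nat_lit 5) (nat_lit 333) (nat_lit 286) (nat_lit 281)) (XT.lf (nat_lit 0) (nat_lit 1681132260) (nat_lit 684) (nat_lit 5261695296) (nat_lit 760) (nat_lit 808493910) (nat_lit 294) (nat_lit 5) (nat_lit 303)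 (nat_lit 5) (nat_lit 304) (nat_lit 4) (nat_lit 334) (nat_lit 286) (nat_lit 280))))) (XT.nd (nat_lit 156) (nat_lit 2052) (nat_lit 0) (XT.nd (nat_lit 78) (nat_lit 760) (nat_lit 0) (XT.lf (nat_lit 0) (nat_lit 2446906633) (nat_lit 760) (nat_lit 1792719648) (nat_lit 836) (nat_lit 3596087357) (nat_lit 283) (nat_lit 5) (nat_lit 293) (nat_lit 5) (nat_lit 294) (nat_lit 5) (nat_lit 335) (nat_lit 286) (nat_lit 279)) (XT.lf (nat_lit 0) (nat_lit 1426609660) (nat_lit 760) (nat_lit 4688240936) (nat_lit 76) (nat_lit 1808728293) (nat_lit 273) (nat_lit 5) (nat_lit 283) (nat_lit 5) (nat_lit 274) (nat_lit 5) (nat_lit 336) (nat_lit 286) (nat_lit 278))) (XT.nd (nat_lit 78) (nat_lit 1368) (nat_lit 0) (XT.lf (nat_lit 0) (nat_lit 4034879162) (nat_lit 684) (nat_lit 2460433122) (nat_lit 760) (nat_lit 1519464457) (nat_lit 264) (nat_lit 5) (nat_lit 273) (nat_lit 5) (nat_lit 274) (nat_lit 5) (nat_lit 337) (nat_lit 286) (nat_lit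 277)) (XT.nd (nat_lit 78) (nat_lit 684) (nat_lit 0) (XT.lf (nat_lit 0) (nat_lit 3503254912) (nat_lit 684) (nat_lit 3262147175) (nat_lit 76) (nat_lit 1344028996) (nat_lit 255) (nat_lit 5) (nat_lit 264) (nat_lit 5) (nat_lit 256) (nat_lit 5) (nat_lit 338) (nat_lit 286) (nat_lit 276)) (XT.lf (nat_lit 0) (nat_lit 397002466) (nat_lit 684) (nat_lit 2534632376) (nat_lit 76) (nat_lit 5276009303) (nat_lit 246) (nat_lit 5) (nat_lit 255) (nat_lit 5) (nat_lit 247) (nat_lit 5) (nat_lit 339) (nat_lit 286) (nat_lit 275))))))) (XT.nd (nat_lit 780) (nat_lit 4180) (nat_lit 0) (XT.nd (nat_lit 390) (nat_lit 2508) (nat_lit 0) (XT.nd (nat_lit 156) (nat_lit 2356) (nat_lit 0) (XT.nd (nat_lit 78) (nat_lit 684) (nat_lit 0) (XT.lf (nat_lit 0) (nat_lit 5434771661) (nat_lit 684) (nat_lit 1807995458) (nat_lit 76) (nat_lit 1066535015) (nat_lit 238) (nat_lit 5) (nat_lit 247) (nat_lit 5) (nat_lit 239) (nat_lit 5) (nat_lit 340) (nat_lit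 286) (nat_lit 274)) (XT.lf (nat_lit 0) (nat_lit 2142584883) (nat_lit 684) (nat_lit 1081072421) (nat_lit 76) (nat_lit 5190874221) (nat_lit 229) (nat_lit 5) (nat_lit 238) (nat_lit 5) (nat_lit 230) (nat_lit 5) (nat_lit 341) (nat_lit 286) (nat_lit 273))) (XT.nd (nat_lit 78) (nat_lit 1824) (nat_lit 0) (XT.lf (nat_lit 0) (nat_lit 7222421642) (nat_lit 608) (nat_lit 347965002) (nat_lit 76) (nat_lit 953171168) (nat_lit 222) (nat_lit 5) (nat_lit 230) (nat_lit 5) (nat_lit 223) (nat_lit 5) (nat_lit 342) (nat_lit 286) (nat_lit 272)) (XT.nd (nat_lit 78) (nat_lit 608) (nat_lit 0) (XT.lf (nat_lit 0) (nat_lit 372774639) (nat_lit 532) (nat_lit 3367252889) (nat_lit 608) (nat_lit 4895948289) (nat_lit 206) (nat_lit 5) (nat_lit 213) (nat_lit 5) (nat_lit 214) (nat_lit 5) (nat_lit 343) (nat_lit 286) (nat_lit 271)) (XT.lf (nat_lit 0) (nat_lit 119118226) (nat_lit 608) (nat_lit 7644010915) (nat_lit 76) (nat_lit 989322956) (nat_lit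 198) (nat_lit 5) (nat_lit 206) (nat_lit 5) (nat_lit 199) (nat_lit 5) (nat_lit 344) (nat_lit 286) (nat_lit 270))))) (XT.nd (nat_lit 156) (nat_lit 1444) (nat_lit 0) (XT.nd (nat_lit 78) (nat_lit 608) (nat_lit 0) (XT.lf (nat_lit 0) (nat_lit 1812059011) (nat_lit 456) (nat_lit 3380634838) (nat_lit 532) (nat_lit 3679629904) (nat_lit 192) (nat_lit 5) (nat_lit 198) (nat_lit 5) (nat_lit 199) (nat_lit 5) (nat_lit 345) (nat_lit 286) (nat_lit 269)) (XT.lf (nat_lit 0) (nat_lit 1365296815) (nat_lit 608) (nat_lit 6477009129) (nat_lit 76) (nat_lit 1154113356) (nat_lit 184) (nat_lit 5) (nat_lit 192) (nat_lit 5) (nat_lit 185) (nat_lit 5) (nat_lit 346) (nat_lit 286) (nat_lit 268))) (XT.nd (nat_lit 78) (nat_lit 988) (nat_lit 0) (XT.lf (nat_lit 0) (nat_lit 3196689251) (nat_lit 456) (nat_lit 3293882678) (nat_lit 532) (nat_lit 2633636278) (nat_lit 178) (nat_lit 5) (nat_lit 184) (nat_lit 5) (nat_lit 185) (nat_lit 5) (nat_lit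 347) (nat_lit 286) (nat_lit 267)) (XT.nd (nat_lit 78) (nat_lit 456) (nat_lit 0) (XT.lf (nat_lit 0) (nat_lit 2448128693) (nat_lit 532) (nat_lit 5393708859) (nat_lit 76) (nat_lit 1414355367) (nat_lit 171) (nat_lit 5) (nat_lit 178) (nat_lit 5) (nat_lit 172) (nat_lit 5) (nat_lit 348) (nat_lit 286) (nat_lit 266)) (XT.lf (nat_lit 0) (nat_lit 4499208749) (nat_lit 456) (nat_lit 3129881433) (nat_lit 532) (nat_lit 1763082331) (nat_lit 165) (nat_lit 5) (nat_lit 171) (nat_lit 5) (nat_lit 172) (nat_lit 5) (nat_lit 349) (nat_lit 286) (nat_lit 265)))))) (XT.nd (nat_lit 390) (nat_lit 1900) (nat_lit 0) (XT.nd (nat_lit 156) (nat_lit 1368) (nat_lit 0) (XT.nd (nat_lit 78) (nat_lit 380) (nat_lit 0) (XT.lf (nat_lit 0) (nat_lit 3361853895) (nat_lit 532) (nat_lit 4423018686) (nat_lit 76) (nat_lit 1747472804) (nat_lit 158) (nat_lit 5) (nat_lit 165) (nat_lit 5) (nat_lit 159) (nat_lit 5) (nat_lit 350) (nat_lit 286) (nat_lit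 264)) (XT.lf (nat_lit 0) (nat_lit 5690134287) (nat_lit 380) (nat_lit 2911784867) (nat_lit 456) (nat_lit 1074895938) (nat_lit 153) (nat_lit 5) (nat_lit 158) (nat_lit 5) (nat_lit 159) (nat_lit 5) (nat_lit 351) (nat_lit 286) (nat_lit 263))) (XT.nd (nat_lit 78) (nat_lit 836) (nat_lit 0) (XT.lf (nat_lit 0) (nat_lit 4098888449) (nat_lit 532) (nat_lit 3596078837) (nat_lit 76) (nat_lit 2130538395) (nat_lit 146) (nat_lit 5) (nat_lit 153) (nat_lit 5) (nat_lit 147) (nat_lit 5) (nat_lit 352) (nat_lit 286) (nat_lit 262)) (XT.nd (nat_lit 78) (nat_lit 456) (nat_lit 0) (XT.lf (nat_lit 0) (nat_lit 6737638152) (nat_lit 380) (nat_lit 2663231299) (nat_lit 456) (nat_lit 577922733) (nat_lit 141) (nat_lit 5) (nat_lit 146) (nat_lit 5) (nat_lit 147) (nat_lit 5) (nat_lit 353) (nat_lit 286) (nat_lit 261)) (XT.lf (nat_lit 0) (nat_lit 4649712348) (nat_lit 456) (nat_lit 2946593702) (nat_lit 76) (nat_lit 2540056238) (nat_lit 135)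 (nat_lit 5) (nat_lit 141) (nat_lit 5) (nat_lit 136) (nat_lit 5) (nat_lit 354) (nat_lit 286) (nat_lit 260))))) (XT.nd (nat_lit 156) (nat_lit 1064) (nat_lit 0) (XT.nd (nat_lit 78) (nat_lit 456) (nat_lit 0) (XT.lf (nat_lit 0) (nat_lit 7607203882) (nat_lit 380) (nat_lit 2408568444) (nat_lit 456) (nat_lit 283048645) (nat_lit 130) (nat_lit 5) (nat_lit 135) (nat_lit 5) (nat_lit 136) (nat_lit 5) (nat_lit 355) (nat_lit 286) (nat_lit 259)) (XT.lf (nat_lit 0) (nat_lit 5002739440) (nat_lit 456) (nat_lit 2511192640) (nat_lit 76) (nat_lit 2951734449) (nat_lit 124) (nat_lit 5) (nat_lit 130) (nat_lit 5) (nat_lit 125) (nat_lit 5) (nat_lit 356) (nat_lit 286) (nat_lit 258))) (XT.nd (nat_lit 78) (nat_lit 760) (nat_lit 0) (XT.lf (nat_lit 0) (nat_lit 8261252340) (nat_lit 304) (nat_lit 2173089265) (nat_lit 380) (nat_lit 203341502) (nat_lit 120) (nat_lit 5) (nat_lit 124) (nat_lit 5) (nat_lit 125) (nat_lit 5) (nat_lit 357)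 (nat_lit 286) (nat_lit 257)) (XT.nd (nat_lit 78) (nat_lit 304) (nat_lit 0) (XT.lf (nat_lit 0) (nat_lit 5144167812) (nat_lit 456) (nat_lit 2329822536) (nat_lit 76) (nat_lit 3340245993) (nat_lit 114) (nat_lit 5) (nat_lit 120) (nat_lit 5) (nat_lit 115) (nat_lit 5) (nat_lit 358) (nat_lit 286) (nat_lit 256)) (XT.lf (nat_lit 0) (nat_lit 8658734513) (nat_lit 304) (nat_lit 1983280958) (nat_lit 380) (nat_lit 354213216) (nat_lit 110) (nat_lit 5) (nat_lit 114) (nat_lit 5) (nat_lit 115) (nat_lit 5) (nat_lit 359) (nat_lit 286) (nat_lit 255))))))))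
noncomputable def xc23 : XT := (XT.nd (nat_lit 1560) (nat_lit 1140) (nat_lit 0) (XT.nd (nat_lit 780) (nat_lit 2204) (nat_lit 0) (XT.nd (nat_lit 390) (nat_lit 1444) (nat_lit 0) (XT.nd (nat_lit 156) (nat_lit 1064) (nat_lit 0) (XT.nd (nat_lit 78) (nat_lit 304) (nat_lit 0) (XT.lf (nat_lit 0) (nat_lit 5057809082) (nat_lit 380) (nat_lit 2446175906) (nat_lit 76) (nat_lit 3678975515) (nat_lit 105) (nat_lit 5) (nat_lit 110) (nat_lit 5) (nat_lit 106) (nat_lit 5) (nat_lit 360) (nat_lit 286) (nat_lit 254)) (XT.lf (nat_lit 0) (nat_lit 8754687091) (nat_lit 304) (nat_lit 1867089325) (nat_lit 380) (nat_lit 753604268) (nat_lit 101) (nat_lit 5) (nat_lit 105) (nat_lit 5) (nat_lit 106) (nat_lit 5) (nat_lit 361) (nat_lit 286) (nat_lit 253))) (XT.nd (nat_lit 78) (nat_lit 684) (nat_lit 0) (XT.lf (nat_lit 0) (nat_lit 4724894811) (nat_lit 380) (nat_lit 2908158687) (nat_lit 76) (nat_lit 3939749864) (nat_lit 96) (nat_lit 5)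 (nat_lit 101) (nat_lit 5) (nat_lit 97) (nat_lit 5) (nat_lit 362) (nat_lit 286) (nat_lit 252)) (XT.nd (nat_lit 78) (nat_lit 380) (nat_lit 0) (XT.lf (nat_lit 0) (nat_lit 8499746511) (nat_lit 304) (nat_lit 1854200994) (nat_lit 380) (nat_lit 1422192410) (nat_lit 92) (nat_lit 5) (nat_lit 96) (nat_lit 5) (nat_lit 97) (nat_lit 5) (nat_lit 363) (nat_lit 286) (nat_lit 251)) (XT.lf (nat_lit 0) (nat_lit 4123858007) (nat_lit 380) (nat_lit 3768402278) (nat_lit 76) (nat_lit 4092549807) (nat_lit 87) (nat_lit 5) (nat_lit 92) (nat_lit 5) (nat_lit 88) (nat_lit 5) (nat_lit 364) (nat_lit 286) (nat_lit 250))))) (XT.nd (nat_lit 156) (nat_lit 836) (nat_lit 0) (XT.nd (nat_lit 78) (nat_lit 380) (nat_lit 0) (XT.lf (nat_lit 0) (nat_lit 7839616726) (nat_lit 228) (nat_lit 1976346078) (nat_lit 304) (nat_lit 2383627738) (nat_lit 84) (nat_lit 5) (nat_lit 87) (nat_lit 5) (nat_lit 88) (nat_lit 5) (nat_lit 365) (nat_lit 286) (nat_lit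 249)) (XT.lf (nat_lit 0) (nat_lit 3230087506) (nat_lit 380) (nat_lit 5084824795) (nat_lit 76) (nat_lit 4105200240) (nat_lit 79) (nat_lit 5) (nat_lit 84) (nat_lit 5) (nat_lit 80) (nat_lit 5) (nat_lit 366) (nat_lit 286) (nat_lit 248))) (XT.nd (nat_lit 78) (nat_lit 608) (nat_lit 0) (XT.lf (nat_lit 0) (nat_lit 6714485517) (nat_lit 228) (nat_lit 2267624135) (nat_lit 304) (nat_lit 3664796548) (nat_lit 76) (nat_lit 5) (nat_lit 79) (nat_lit 5) (nat_lit 80) (nat_lit 5) (nat_lit 367) (nat_lit 286) (nat_lit 247)) (XT.nd (nat_lit 78) (nat_lit 228) (nat_lit 0) (XT.lf (nat_lit 0) (nat_lit 2015652692) (nat_lit 380) (nat_lit 6921247042) (nat_lit 76) (nat_lit 3943035978) (nat_lit 71) (nat_lit 5) (nat_lit 76) (nat_lit 5) (nat_lit 72) (nat_lit 5) (nat_lit 368) (nat_lit 286) (nat_lit 246)) (XT.lf (nat_lit 0) (nat_lit 5058383621) (nat_lit 228) (nat_lit 2764856512) (nat_lit 304) (nat_lit 5296116632) (nat_lit 68) (nat_lit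 5) (nat_lit 71) (nat_lit 5) (nat_lit 72) (nat_lit 5) (nat_lit 369) (nat_lit 286) (nat_lit 245)))))) (XT.nd (nat_lit 390) (nat_lit 1140) (nat_lit 0) (XT.nd (nat_lit 156) (nat_lit 532) (nat_lit 0) (XT.nd (nat_lit 78) (nat_lit 228) (nat_lit 0) (XT.lf (nat_lit 0) (nat_lit 448995788) (nat_lit 304) (nat_lit 9348069201) (nat_lit 76) (nat_lit 3568539943) (nat_lit 64) (nat_lit 5) (nat_lit 68) (nat_lit 5) (nat_lit 65) (nat_lit 5) (nat_lit 370) (nat_lit 286) (nat_lit 244)) (XT.lf (nat_lit 0) (nat_lit 2798480421) (nat_lit 228) (nat_lit 3507968407) (nat_lit 304) (nat_lit 7311867025) (nat_lit 61) (nat_lit 5) (nat_lit 64) (nat_lit 5) (nat_lit 65) (nat_lit 5) (nat_lit 371) (nat_lit 286) (nat_lit 243))) (XT.nd (nat_lit 78) (nat_lit 304) (nat_lit 0) (XT.lf (nat_lit 0) (nat_lit 1425436805) (nat_lit 228) (nat_lit 10927501373) (nat_lit 304) (nat_lit 1525417523) (nat_lit 58) (nat_lit 5) (nat_lit 61) (nat_lit 5) (nat_lit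 62) (nat_lit 5) (nat_lit 372) (nat_lit 286) (nat_lit 242)) (XT.nd (nat_lit 78) (nat_lit 228) (nat_lit 0) (XT.lf (nat_lit 0) (nat_lit 4395659523) (nat_lit 304) (nat_lit 143779963) (nat_lit 76) (nat_lit 9605810694) (nat_lit 57) (nat_lit 5) (nat_lit 61) (nat_lit 5) (nat_lit 58) (nat_lit 5) (nat_lit 373) (nat_lit 286) (nat_lit 241)) (XT.lf (nat_lit 0) (nat_lit 10493030612) (nat_lit 304) (nat_lit 1872815029) (nat_lit 76) (nat_lit 2053729272) (nat_lit 54) (nat_lit 5) (nat_lit 58) (nat_lit 5) (nat_lit 55) (nat_lit 5) (nat_lit 374) (nat_lit 286) (nat_lit 240))))) (XT.nd (nat_lit 156) (nat_lit 684) (nat_lit 0) (XT.nd (nat_lit 78) (nat_lit 152) (nat_lit 0) (XT.lf (nat_lit 0) (nat_lit 2071577534) (nat_lit 304) (nat_lit 3812420038) (nat_lit 76) (nat_lit 8817324086) (nat_lit 50) (nat_lit 5) (nat_lit 54) (nat_lit 5) (nat_lit 51) (nat_lit 5) (nat_lit 375) (nat_lit 286) (nat_lit 239)) (XT.lf (nat_lit 0) (nat_lit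 8199591190) (nat_lit 228) (nat_lit 5963157315) (nat_lit 76) (nat_lit 828199152) (nat_lit 48) (nat_lit 5) (nat_lit 51) (nat_lit 5) (nat_lit 49) (nat_lit 5) (nat_lit 376) (nat_lit 286) (nat_lit 238))) (XT.nd (nat_lit 78) (nat_lit 456) (nat_lit 0) (XT.lf (nat_lit 0) (nat_lit 6942486476) (nat_lit 228) (nat_lit 7606509960) (nat_lit 304) (nat_lit 739526464) (nat_lit 45) (nat_lit 5) (nat_lit 48) (nat_lit 5) (nat_lit 49) (nat_lit 5) (nat_lit 377) (nat_lit 286) (nat_lit 237)) (XT.nd (nat_lit 78) (nat_lit 228) (nat_lit 0) (XT.lf (nat_lit 0) (nat_lit 4622777228) (nat_lit 152) (nat_lit 797674981) (nat_lit 228) (nat_lit 10173897794) (nat_lit 42) (nat_lit 5) (nat_lit 44) (nat_lit 5) (nat_lit 45) (nat_lit 5) (nat_lit 378) (nat_lit 286) (nat_lit 236)) (XT.lf (nat_lit 0) (nat_lit 2044122795) (nat_lit 228) (nat_lit 9750596225) (nat_lit 304) (nat_lit 4113755027) (nat_lit 39) (nat_lit 5) (nat_lit 42) (nat_lit 5) (nat_lit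 43) (nat_lit 5) (nat_lit 379) (nat_lit 286) (nat_lit 235))))))) (XT.nd (nat_lit 42822) (nat_lit 0) (nat_lit 18240) (XT.nd (nat_lit 390) (nat_lit 380) (nat_lit 0) (XT.nd (nat_lit 156) (nat_lit 532) (nat_lit 0) (XT.nd (nat_lit 78) (nat_lit 152) (nat_lit 0) (XT.lf (nat_lit 0) (nat_lit 2110184184) (nat_lit 304) (nat_lit 772334533) (nat_lit 76) (nat_lit 13349038772) (nat_lit 38) (nat_lit 5) (nat_lit 42) (nat_lit 5) (nat_lit 39) (nat_lit 5) (nat_lit 380) (nat_lit 286) (nat_lit 234)) (XT.lf (nat_lit 0) (nat_lit 8507331779) (nat_lit 228) (nat_lit 3858245796) (nat_lit 76) (nat_lit 4197374227) (nat_lit 36) (nat_lit 5) (nat_lit 39) (nat_lit 5) (nat_lit 37) (nat_lit 5) (nat_lit 381) (nat_lit 286) (nat_lit 233))) (XT.nd (nat_lit 78) (nat_lit 380) (nat_lit 0) (XT.lf (nat_lit 0) (nat_lit 9681969755) (nat_lit 152) (nat_lit 5434508805) (nat_lit 228) (nat_lit 1787417214) (nat_lit 34) (nat_lit 5) (nat_lit 36) (nat_lit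 5) (nat_lit 37) (nat_lit 5) (nat_lit 382) (nat_lit 286) (nat_lit 232)) (XT.nd (nat_lit 78) (nat_lit 152) (nat_lit 0) (XT.lf (nat_lit 0) (nat_lit 4620050803) (nat_lit 228) (nat_lit 10903341637) (nat_lit 76) (nat_lit 1730829392) (nat_lit 31) (nat_lit 5) (nat_lit 34) (nat_lit 5) (nat_lit 32) (nat_lit 5) (nat_lit 383) (nat_lit 286) (nat_lit 231)) (XT.lf (nat_lit 0) (nat_lit 2686038844) (nat_lit 152) (nat_lit 8546907348) (nat_lit 228) (nat_lit 6381134239) (nat_lit 29) (nat_lit 5) (nat_lit 31) (nat_lit 5) (nat_lit 32) (nat_lit 5) (nat_lit 384) (nat_lit 286) (nat_lit 230))))) (XT.nd (nat_lit 156) (nat_lit 152) (nat_lit 0) (XT.nd (nat_lit 78) (nat_lit 152) (nat_lit 0) (XT.lf (nat_lit 0) (nat_lit 68126827) (nat_lit 228) (nat_lit 1266986755) (nat_lit 76) (nat_lit 16649433588) (nat_lit 28) (nat_lit 5) (nat_lit 31) (nat_lit 5) (nat_lit 29) (nat_lit 5) (nat_lit 385) (nat_lit 286) (nat_lit 229)) (XT.lf (nat_lit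 0) (nat_lit 6684893670) (nat_lit 228) (nat_lit 5587472848) (nat_lit 76) (nat_lit 6091711490) (nat_lit 26) (nat_lit 5) (nat_lit 29) (nat_lit 5) (nat_lit 27) (nat_lit 5) (nat_lit 386) (nat_lit 286) (nat_lit 228))) (XT.nd (nat_lit 42120) (nat_lit 0) (nat_lit 27284) (XT.lf (nat_lit 0) (nat_lit 8495492913) (nat_lit 152) (nat_lit 5015141878) (nat_lit 228) (nat_lit 5244158449) (nat_lit 24) (nat_lit 5) (nat_lit 26) (nat_lit 5) (nat_lit 27) (nat_lit 5) (nat_lit 387) (nat_lit 286) (nat_lit 227)) (XT.nd (nat_lit 78) (nat_lit 1140) (nat_lit 0) (XT.lf (nat_lit 0) (nat_lit 1868459897) (nat_lit 1748) (nat_lit 863521379) (nat_lit 1748) (nat_lit 863521379) (nat_lit 398) (nat_lit 4) (nat_lit 421) (nat_lit 5) (nat_lit 421) (nat_lit 4) (nat_lit 326) (nat_lit 287) (nat_lit 287)) (XT.lf (nat_lit 0) (nat_lit 3338820421) (nat_lit 1140) (nat_lit 2991539722) (nat_lit 0) (nat_lit 920797520) (nat_lit 383) (nat_lit 5) (nat_lit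 398) (nat_lit 4) (nat_lit 383) (nat_lit 4) (nat_lit 327) (nat_lit 287) (nat_lit 286)))))) (XT.nd (nat_lit 390) (nat_lit 4560) (nat_lit 0) (XT.nd (nat_lit 156) (nat_lit 2660) (nat_lit 0) (XT.nd (nat_lit 78) (nat_lit 836) (nat_lit 0) (XT.lf (nat_lit 0) (nat_lit 1123026532) (nat_lit 988) (nat_lit 2497104355) (nat_lit 76) (nat_lit 3694300357) (nat_lit 370) (nat_lit 5) (nat_lit 383) (nat_lit 5) (nat_lit 371) (nat_lit 4) (nat_lit 328) (nat_lit 287) (nat_lit 285)) (XT.lf (nat_lit 0) (nat_lit 5412880562) (nat_lit 836) (nat_lit 754306074) (nat_lit 912) (nat_lit 1213757011) (nat_lit 359) (nat_lit 5) (nat_lit 370) (nat_lit 5) (nat_lit 371) (nat_lit 4) (nat_lit 329) (nat_lit 287) (nat_lit 284))) (XT.nd (nat_lit 78) (nat_lit 1748) (nat_lit 0) (XT.lf (nat_lit 0) (nat_lit 3790184285) (nat_lit 912) (nat_lit 1419974738) (nat_lit 76) (nat_lit 2240290481) (nat_lit 347) (nat_lit 5) (nat_lit 359) (nat_lit 5) (nat_lit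 348) (nat_lit 4) (nat_lit 330) (nat_lit 287) (nat_lit 283)) (XT.nd (nat_lit 78) (nat_lit 836) (nat_lit 0) (XT.lf (nat_lit 0) (nat_lit 1309249012) (nat_lit 912) (nat_lit 837215864) (nat_lit 76) (nat_lit 5376864864) (nat_lit 335) (nat_lit 5) (nat_lit 347) (nat_lit 5) (nat_lit 336) (nat_lit 5) (nat_lit 331) (nat_lit 287) (nat_lit 282)) (XT.lf (nat_lit 0) (nat_lit 6305449943) (nat_lit 912) (nat_lit 230945514) (nat_lit 76) (nat_lit 1063036940) (nat_lit 324) (nat_lit 5) (nat_lit 336) (nat_lit 5) (nat_lit 325) (nat_lit 4) (nat_lit 332) (nat_lit 287) (nat_lit 281))))) (XT.nd (nat_lit 156) (nat_lit 2204) (nat_lit 0) (XT.nd (nat_lit 78) (nat_lit 760) (nat_lit 0) (XT.lf (nat_lit 0) (nat_lit 394466609) (nat_lit 760) (nat_lit 3269854325) (nat_lit 836) (nat_lit 4014268564) (nat_lit 303) (nat_lit 5) (nat_lit 313) (nat_lit 5) (nat_lit 314) (nat_lit 5) (nat_lit 333) (nat_lit 287) (nat_lit 280)) (XT.lf (nat_lit 0)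 (nat_lit 909189216) (nat_lit 760) (nat_lit 6702961946) (nat_lit 76) (nat_lit 149162668) (nat_lit 293) (nat_lit 5) (nat_lit 303) (nat_lit 5) (nat_lit 294) (nat_lit 5) (nat_lit 334) (nat_lit 287) (nat_lit 279))) (XT.nd (nat_lit 78) (nat_lit 1444) (nat_lit 0) (XT.lf (nat_lit 0) (nat_lit 1722252109) (nat_lit 760) (nat_lit 4154838254) (nat_lit 836) (nat_lit 1969931778) (nat_lit 283) (nat_lit 5) (nat_lit 293) (nat_lit 5) (nat_lit 294) (nat_lit 5) (nat_lit 335) (nat_lit 287) (nat_lit 278)) (XT.nd (nat_lit 78) (nat_lit 684) (nat_lit 0) (XT.lf (nat_lit 0) (nat_lit 2413258818) (nat_lit 684) (nat_lit 536902449) (nat_lit 760) (nat_lit 4986167923) (nat_lit 273) (nat_lit 5) (nat_lit 282) (nat_lit 5) (nat_lit 283) (nat_lit 5) (nat_lit 336) (nat_lit 287) (nat_lit 277)) (XT.lf (nat_lit 0) (nat_lit 3114764291) (nat_lit 684) (nat_lit 4831967633) (nat_lit 760) (nat_lit 82264386) (nat_lit 264) (nat_lit 5) (nat_lit 273)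 (nat_lit 5) (nat_lit 274) (nat_lit 5) (nat_lit 337) (nat_lit 287) (nat_lit 276))))))))
noncomputable def xc24 : XT := (XT.nd (nat_lit 1560) (nat_lit 5700) (nat_lit 0) (XT.nd (nat_lit 780) (nat_lit 4408) (nat_lit 0) (XT.nd (nat_lit 390) (nat_lit 3344) (nat_lit 0) (XT.nd (nat_lit 156) (nat_lit 1824) (nat_lit 0) (XT.nd (nat_lit 78) (nat_lit 684) (nat_lit 0) (XT.lf (nat_lit 0) (nat_lit 3822776797) (nat_lit 608) (nat_lit 1021508119) (nat_lit 684) (nat_lit 3280750874) (nat_lit 255) (nat_lit 5) (nat_lit 263) (nat_lit 5) (nat_lit 264) (nat_lit 5) (nat_lit 338) (nat_lit 287) (nat_lit 275)) (XT.lf (nat_lit 0) (nat_lit 1630042667) (nat_lit 684) (nat_lit 3684296716) (nat_lit 76) (nat_lit 2910261521) (nat_lit 246) (nat_lit 5) (nat_lit 255) (nat_lit 5) (nat_lit 247) (nat_lit 5) (nat_lit 339) (nat_lit 287) (nat_lit 274))) (XT.nd (nat_lit 78) (nat_lit 1216) (nat_lit 0) (XT.lf (nat_lit 0) (nat_lit 5266726847) (nat_lit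 608) (nat_lit 1326315439) (nat_lit 684) (nat_lit 1734735420) (nat_lit 238) (nat_lit 5) (nat_lit 246) (nat_lit 5) (nat_lit 247) (nat_lit 5) (nat_lit 340) (nat_lit 287) (nat_lit 273)) (XT.nd (nat_lit 78) (nat_lit 532) (nat_lit 0) (XT.lf (nat_lit 0) (nat_lit 3191069638) (nat_lit 684) (nat_lit 2445616901) (nat_lit 76) (nat_lit 2797722081) (nat_lit 229) (nat_lit 5) (nat_lit 238) (nat_lit 5) (nat_lit 230) (nat_lit 5) (nat_lit 341) (nat_lit 287) (nat_lit 272)) (XT.lf (nat_lit 0) (nat_lit 6723105466) (nat_lit 532) (nat_lit 1474337655) (nat_lit 608) (nat_lit 347482694) (nat_lit 222) (nat_lit 5) (nat_lit 229) (nat_lit 5) (nat_lit 230) (nat_lit 5) (nat_lit 342) (nat_lit 287) (nat_lit 271))))) (XT.nd (nat_lit 156) (nat_lit 2052) (nat_lit 0) (XT.nd (nat_lit 78) (nat_lit 608) (nat_lit 0) (XT.lf (nat_lit 0) (nat_lit 4601894765) (nat_lit 684) (nat_lit 1220479182) (nat_lit 76) (nat_lit 2836452220) (nat_lit 213) (nat_lit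 5) (nat_lit 222) (nat_lit 5) (nat_lit 214) (nat_lit 5) (nat_lit 343) (nat_lit 287) (nat_lit 270)) (XT.lf (nat_lit 0) (nat_lit 868566538) (nat_lit 608) (nat_lit 613756084) (nat_lit 76) (nat_lit 7294461780) (nat_lit 205) (nat_lit 5) (nat_lit 213) (nat_lit 5) (nat_lit 206) (nat_lit 5) (nat_lit 344) (nat_lit 287) (nat_lit 269))) (XT.nd (nat_lit 78) (nat_lit 1520) (nat_lit 0) (XT.lf (nat_lit 0) (nat_lit 5860992802) (nat_lit 608) (nat_lit 32920657) (nat_lit 76) (nat_lit 3004384624) (nat_lit 198) (nat_lit 5) (nat_lit 206) (nat_lit 5) (nat_lit 199) (nat_lit 5) (nat_lit 345) (nat_lit 287) (nat_lit 268)) (XT.nd (nat_lit 78) (nat_lit 456) (nat_lit 0) (XT.lf (nat_lit 0) (nat_lit 550048023) (nat_lit 532) (nat_lit 1373562785) (nat_lit 608) (nat_lit 7100229264) (nat_lit 184) (nat_lit 5) (nat_lit 191) (nat_lit 5) (nat_lit 192) (nat_lit 5) (nat_lit 346) (nat_lit 287) (nat_lit 267)) (XT.lf (nat_lit 0) (nat_lit 1106059675)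 (nat_lit 456) (nat_lit 5866379236) (nat_lit 532) (nat_lit 2180736603) (nat_lit 178) (nat_lit 5) (nat_lit 184) (nat_lit 5) (nat_lit 185) (nat_lit 5) (nat_lit 347) (nat_lit 287) (nat_lit 266)))))) (XT.nd (nat_lit 390) (nat_lit 1976) (nat_lit 0) (XT.nd (nat_lit 156) (nat_lit 1444) (nat_lit 0) (XT.nd (nat_lit 78) (nat_lit 456) (nat_lit 0) (XT.lf (nat_lit 0) (nat_lit 1645388104) (nat_lit 456) (nat_lit 1172707071) (nat_lit 532) (nat_lit 6468562853) (nat_lit 171) (nat_lit 5) (nat_lit 177) (nat_lit 5) (nat_lit 178) (nat_lit 5) (nat_lit 348) (nat_lit 287) (nat_lit 265)) (XT.lf (nat_lit 0) (nat_lit 2153949942) (nat_lit 456) (nat_lit 5769966820) (nat_lit 532) (nat_lit 1500239918) (nat_lit 165) (nat_lit 5) (nat_lit 171) (nat_lit 5) (nat_lit 172) (nat_lit 5) (nat_lit 349) (nat_lit 287) (nat_lit 264))) (XT.nd (nat_lit 78) (nat_lit 912) (nat_lit 0) (XT.lf (nat_lit 0) (nat_lit 2635459626) (nat_lit 456) (nat_lit 906547947)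 (nat_lit 532) (nat_lit 6023888153) (nat_lit 158) (nat_lit 5) (nat_lit 164) (nat_lit 5) (nat_lit 165) (nat_lit 5) (nat_lit 350) (nat_lit 287) (nat_lit 263)) (XT.nd (nat_lit 78) (nat_lit 532) (nat_lit 0) (XT.lf (nat_lit 0) (nat_lit 3080653267) (nat_lit 380) (nat_lit 5627869907) (nat_lit 456) (nat_lit 1003328277) (nat_lit 153) (nat_lit 5) (nat_lit 158) (nat_lit 5) (nat_lit 159) (nat_lit 5) (nat_lit 351) (nat_lit 287) (nat_lit 262)) (XT.lf (nat_lit 0) (nat_lit 3489409361) (nat_lit 456) (nat_lit 598150098) (nat_lit 532) (nat_lit 5774626750) (nat_lit 146) (nat_lit 5) (nat_lit 152) (nat_lit 5) (nat_lit 153) (nat_lit 5) (nat_lit 352) (nat_lit 287) (nat_lit 261))))) (XT.nd (nat_lit 156) (nat_lit 1140) (nat_lit 0) (XT.nd (nat_lit 78) (nat_lit 456) (nat_lit 0) (XT.lf (nat_lit 0) (nat_lit 3854138481) (nat_lit 380) (nat_lit 5463579685) (nat_lit 456) (nat_lit 699204876) (nat_lit 141) (nat_lit 5) (nat_lit 146) (nat_lit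 5) (nat_lit 147) (nat_lit 5) (nat_lit 353) (nat_lit 287) (nat_lit 260)) (XT.lf (nat_lit 0) (nat_lit 4173848447) (nat_lit 380) (nat_lit 271187605) (nat_lit 456) (nat_lit 5731185755) (nat_lit 135) (nat_lit 5) (nat_lit 140) (nat_lit 5) (nat_lit 141) (nat_lit 5) (nat_lit 354) (nat_lit 287) (nat_lit 259))) (XT.nd (nat_lit 78) (nat_lit 760) (nat_lit 0) (XT.lf (nat_lit 0) (nat_lit 4439658885) (nat_lit 380) (nat_lit 5301328813) (nat_lit 456) (nat_lit 599107789) (nat_lit 130) (nat_lit 5) (nat_lit 135) (nat_lit 5) (nat_lit 136) (nat_lit 5) (nat_lit 355) (nat_lit 287) (nat_lit 258)) (XT.nd (nat_lit 78) (nat_lit 304) (nat_lit 0) (XT.lf (nat_lit 0) (nat_lit 4602989991) (nat_lit 456) (nat_lit 5856587118) (nat_lit 76) (nat_lit 49173901) (nat_lit 124) (nat_lit 5) (nat_lit 130) (nat_lit 5) (nat_lit 125) (nat_lit 5) (nat_lit 356) (nat_lit 287) (nat_lit 257)) (XT.lf (nat_lit 0) (nat_lit 4799378746) (nat_lit 304) (nat_lit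 5166325663) (nat_lit 380) (nat_lit 716452792) (nat_lit 120) (nat_lit 5) (nat_lit 124) (nat_lit 5) (nat_lit 125) (nat_lit 5) (nat_lit 357) (nat_lit 287) (nat_lit 256))))))) (XT.nd (nat_lit 780) (nat_lit 2356) (nat_lit 0) (XT.nd (nat_lit 390) (nat_lit 1520) (nat_lit 0) (XT.nd (nat_lit 156) (nat_lit 1064) (nat_lit 0) (XT.nd (nat_lit 78) (nat_lit 304) (nat_lit 0) (XT.lf (nat_lit 0) (nat_lit 4548677542) (nat_lit 456) (nat_lit 5977039091) (nat_lit 76) (nat_lit 334853887) (nat_lit 114) (nat_lit 5) (nat_lit 120) (nat_lit 5) (nat_lit 115) (nat_lit 5) (nat_lit 358) (nat_lit 287) (nat_lit 255)) (XT.lf (nat_lit 0) (nat_lit 4891966407) (nat_lit 304) (nat_lit 5085001849) (nat_lit 380) (nat_lit 1066996706) (nat_lit 110) (nat_lit 5) (nat_lit 114) (nat_lit 5) (nat_lit 115) (nat_lit 5) (nat_lit 359) (nat_lit 287) (nat_lit 254))) (XT.nd (nat_lit 78) (nat_lit 684) (nat_lit 0) (XT.lf (nat_lit 0) (nat_lit 4263811509) (nat_lit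 380) (nat_lit 6405962329) (nat_lit 76) (nat_lit 562837174) (nat_lit 105) (nat_lit 5) (nat_lit 110) (nat_lit 5) (nat_lit 106) (nat_lit 5) (nat_lit 360) (nat_lit 287) (nat_lit 253)) (XT.nd (nat_lit 78) (nat_lit 380) (nat_lit 0) (XT.lf (nat_lit 0) (nat_lit 4672150092) (nat_lit 304) (nat_lit 5085275301) (nat_lit 380) (nat_lit 1669022997) (nat_lit 101) (nat_lit 5) (nat_lit 105) (nat_lit 5) (nat_lit 106) (nat_lit 5) (nat_lit 361) (nat_lit 287) (nat_lit 252)) (XT.lf (nat_lit 0) (nat_lit 3729286642) (nat_lit 380) (nat_lit 7191589660) (nat_lit 76) (nat_lit 704967180) (nat_lit 96) (nat_lit 5) (nat_lit 101) (nat_lit 5) (nat_lit 97) (nat_lit 5) (nat_lit 362) (nat_lit 287) (nat_lit 251))))) (XT.nd (nat_lit 156) (nat_lit 836) (nat_lit 0) (XT.nd (nat_lit 78) (nat_lit 380) (nat_lit 0) (XT.lf (nat_lit 0) (nat_lit 4090232081) (nat_lit 304) (nat_lit 5196831298) (nat_lit 380) (nat_lit 2543551533) (nat_lit 92) (nat_lit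 5) (nat_lit 96) (nat_lit 5) (nat_lit 97) (nat_lit 5) (nat_lit 363) (nat_lit 287) (nat_lit 250)) (XT.lf (nat_lit 0) (nat_lit 2923199398) (nat_lit 380) (nat_lit 8386904926) (nat_lit 76) (nat_lit 731215410) (nat_lit 87) (nat_lit 5) (nat_lit 92) (nat_lit 5) (nat_lit 88) (nat_lit 5) (nat_lit 364) (nat_lit 287) (nat_lit 249))) (XT.nd (nat_lit 78) (nat_lit 608) (nat_lit 0) (XT.lf (nat_lit 0) (nat_lit 3091556532) (nat_lit 228) (nat_lit 5451424092) (nat_lit 304) (nat_lit 3714574680) (nat_lit 84) (nat_lit 5) (nat_lit 87) (nat_lit 5) (nat_lit 88) (nat_lit 5) (nat_lit 365) (nat_lit 287) (nat_lit 248)) (XT.nd (nat_lit 78) (nat_lit 228) (nat_lit 0) (XT.lf (nat_lit 0) (nat_lit 1820601340) (nat_lit 380) (nat_lit 10050204257) (nat_lit 76) (nat_lit 609372660) (nat_lit 79) (nat_lit 5) (nat_lit 84) (nat_lit 5) (nat_lit 80) (nat_lit 5) (nat_lit 366) (nat_lit 287) (nat_lit 247)) (XT.lf (nat_lit 0) (nat_lit 1615925752)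 (nat_lit 228) (nat_lit 5883201939) (nat_lit 304) (nat_lit 5209322133) (nat_lit 76) (nat_lit 5) (nat_lit 79) (nat_lit 5) (nat_lit 80) (nat_lit 5) (nat_lit 367) (nat_lit 287) (nat_lit 246)))))) (XT.nd (nat_lit 390) (nat_lit 1216) (nat_lit 0) (XT.nd (nat_lit 156) (nat_lit 760) (nat_lit 0) (XT.nd (nat_lit 78) (nat_lit 0) (nat_lit 0) (XT.lf (nat_lit 0) (nat_lit 393222914) (nat_lit 380) (nat_lit 12245712136) (nat_lit 76) (nat_lit 304715672) (nat_lit 71) (nat_lit 5) (nat_lit 76) (nat_lit 5) (nat_lit 72) (nat_lit 5) (nat_lit 368) (nat_lit 287) (nat_lit 245)) (XT.lf (nat_lit 0) (nat_lit 6128634650) (nat_lit 380) (nat_lit 397754827) (nat_lit 76) (nat_lit 6658133197) (nat_lit 71) (nat_lit 5) (nat_lit 76) (nat_lit 5) (nat_lit 72) (nat_lit 5) (nat_lit 369) (nat_lit 287) (nat_lit 244))) (XT.nd (nat_lit 78) (nat_lit 532) (nat_lit 0) (XT.lf (nat_lit 0) (nat_lit 11832060175) (nat_lit 228) (nat_lit 203349128) (nat_lit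 304) (nat_lit 1397240026) (nat_lit 68) (nat_lit 5) (nat_lit 71) (nat_lit 5) (nat_lit 72) (nat_lit 5) (nat_lit 370) (nat_lit 287) (nat_lit 243)) (XT.nd (nat_lit 78) (nat_lit 228) (nat_lit 0) (XT.lf (nat_lit 0) (nat_lit 4410132568) (nat_lit 304) (nat_lit 2998758989) (nat_lit 76) (nat_lit 6278025063) (nat_lit 64) (nat_lit 5) (nat_lit 68) (nat_lit 5) (nat_lit 65) (nat_lit 5) (nat_lit 371) (nat_lit 287) (nat_lit 242)) (XT.lf (nat_lit 0) (nat_lit 9404627267) (nat_lit 228) (nat_lit 966047741) (nat_lit 304) (nat_lit 3578007023) (nat_lit 61) (nat_lit 5) (nat_lit 64) (nat_lit 5) (nat_lit 65) (nat_lit 5) (nat_lit 372) (nat_lit 287) (nat_lit 241))))) (XT.nd (nat_lit 156) (nat_lit 684) (nat_lit 0) (XT.nd (nat_lit 78) (nat_lit 228) (nat_lit 0) (XT.lf (nat_lit 0) (nat_lit 2296287510) (nat_lit 304) (nat_lit 6288148594) (nat_lit 76) (nat_lit 5632887300) (nat_lit 57) (nat_lit 5) (nat_lit 61) (nat_lit 5) (nat_lit 58)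 (nat_lit 5) (nat_lit 373) (nat_lit 287) (nat_lit 240)) (XT.lf (nat_lit 0) (nat_lit 6272183693) (nat_lit 228) (nat_lit 2030885540) (nat_lit 304) (nat_lit 6190396814) (nat_lit 54) (nat_lit 5) (nat_lit 57) (nat_lit 5) (nat_lit 58) (nat_lit 5) (nat_lit 374) (nat_lit 287) (nat_lit 239))) (XT.nd (nat_lit 78) (nat_lit 456) (nat_lit 0) (XT.lf (nat_lit 0) (nat_lit 4421443323) (nat_lit 228) (nat_lit 10098281327) (nat_lit 304) (nat_lit 257586981) (nat_lit 51) (nat_lit 5) (nat_lit 54) (nat_lit 5) (nat_lit 55) (nat_lit 5) (nat_lit 375) (nat_lit 287) (nat_lit 238)) (XT.nd (nat_lit 78) (nat_lit 228) (nat_lit 0) (XT.lf (nat_lit 0) (nat_lit 2343272198) (nat_lit 152) (nat_lit 3446311909) (nat_lit 228) (nat_lit 9279077049) (nat_lit 48) (nat_lit 5) (nat_lit 50) (nat_lit 5) (nat_lit 51) (nat_lit 5) (nat_lit 376) (nat_lit 287) (nat_lit 237)) (XT.lf (nat_lit 0) (nat_lit 52148835) (nat_lit 228) (nat_lit 11984873192) (nat_lit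 304) (nat_lit 3331259210) (nat_lit 45) (nat_lit 5) (nat_lit 48) (nat_lit 5) (nat_lit 49) (nat_lit 5) (nat_lit 377) (nat_lit 287) (nat_lit 236))))))))
noncomputable def xc25 : XT := (XT.nd (nat_lit 43446) (nat_lit 0) (nat_lit 8740) (XT.nd (nat_lit 42666) (nat_lit 0) (nat_lit 21812) (XT.nd (nat_lit 390) (nat_lit 608) (nat_lit 0) (XT.nd (nat_lit 156) (nat_lit 608) (nat_lit 0) (XT.nd (nat_lit 78) (nat_lit 152) (nat_lit 0) (XT.lf (nat_lit 0) (nat_lit 2798240744) (nat_lit 304) (nat_lit 2450721632) (nat_lit 76) (nat_lit 10426777134) (nat_lit 44) (nat_lit 5) (nat_lit 48) (nat_lit 5) (nat_lit 45) (nat_lit 5) (nat_lit 378) (nat_lit 287) (nat_lit 235)) (XT.lf (nat_lit 0) (nat_lit 9080111312) (nat_lit 228) (nat_lit 5200613700) (nat_lit 76) (nat_lit 1710991544) (nat_lit 42) (nat_lit 5) (nat_lit 45) (nat_lit 5) (nat_lit 43) (nat_lit 5) (nat_lit 379) (nat_lit 287) (nat_lit 234))) (XT.nd (nat_lit 78) (nat_lit 380)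 (nat_lit 0) (XT.lf (nat_lit 0) (nat_lit 8101337900) (nat_lit 228) (nat_lit 7486520871) (nat_lit 304) (nat_lit 728575731) (nat_lit 39) (nat_lit 5) (nat_lit 42) (nat_lit 5) (nat_lit 43) (nat_lit 5) (nat_lit 380) (nat_lit 287) (nat_lit 233)) (XT.nd (nat_lit 78) (nat_lit 152) (nat_lit 0) (XT.lf (nat_lit 0) (nat_lit 5138297831) (nat_lit 152) (nat_lit 430277515) (nat_lit 228) (nat_lit 11081543807) (nat_lit 36) (nat_lit 5) (nat_lit 38) (nat_lit 5) (nat_lit 39) (nat_lit 5) (nat_lit 381) (nat_lit 287) (nat_lit 232)) (XT.lf (nat_lit 0) (nat_lit 1872257233) (nat_lit 152) (nat_lit 10219767827) (nat_lit 228) (nat_lit 4900756562) (nat_lit 34) (nat_lit 5) (nat_lit 36) (nat_lit 5) (nat_lit 37) (nat_lit 5) (nat_lit 382) (nat_lit 287) (nat_lit 231))))) (XT.nd (nat_lit 156) (nat_lit 380) (nat_lit 0) (XT.nd (nat_lit 78) (nat_lit 152) (nat_lit 0) (XT.lf (nat_lit 0) (nat_lit 1463012407) (nat_lit 228) (nat_lit 1655350330)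 (nat_lit 76) (nat_lit 14226844178) (nat_lit 33) (nat_lit 5) (nat_lit 36) (nat_lit 5) (nat_lit 34) (nat_lit 5) (nat_lit 383) (nat_lit 287) (nat_lit 230)) (XT.lf (nat_lit 0) (nat_lit 7995839337) (nat_lit 228) (nat_lit 5503884049) (nat_lit 76) (nat_lit 4206947705) (nat_lit 31) (nat_lit 5) (nat_lit 34) (nat_lit 5) (nat_lit 32) (nat_lit 5) (nat_lit 384) (nat_lit 287) (nat_lit 229))) (XT.nd (nat_lit 78) (nat_lit 228) (nat_lit 0) (XT.lf (nat_lit 0) (nat_lit 8400271249) (nat_lit 152) (nat_lit 6349140739) (nat_lit 228) (nat_lit 3329080282) (nat_lit 29) (nat_lit 5) (nat_lit 31) (nat_lit 5) (nat_lit 32) (nat_lit 5) (nat_lit 385) (nat_lit 287) (nat_lit 228)) (XT.nd (nat_lit 78) (nat_lit 0) (nat_lit 0) (XT.lf (nat_lit 0) (nat_lit 3212421174) (nat_lit 228) (nat_lit 14205667496) (nat_lit 76) (nat_lit 1042749157) (nat_lit 26) (nat_lit 5) (nat_lit 29) (nat_lit 5) (nat_lit 27) (nat_lit 5) (nat_lit 386) (nat_lit 287)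 (nat_lit 227)) (XT.lf (nat_lit 0) (nat_lit 9953228245) (nat_lit 228) (nat_lit 287192645) (nat_lit 76) (nat_lit 8612834626) (nat_lit 26) (nat_lit 5) (nat_lit 29) (nat_lit 5) (nat_lit 27) (nat_lit 5) (nat_lit 387) (nat_lit 287) (nat_lit 226)))))) (XT.nd (nat_lit 390) (nat_lit 4332) (nat_lit 0) (XT.nd (nat_lit 156) (nat_lit 3876) (nat_lit 0) (XT.nd (nat_lit 78) (nat_lit 1748) (nat_lit 0) (XT.lf (nat_lit 0) (nat_lit 1442020283) (nat_lit 1596) (nat_lit 1048637655) (nat_lit 1596) (nat_lit 1048637655) (nat_lit 444) (nat_lit 4) (nat_lit 465) (nat_lit 5) (nat_lit 465) (nat_lit 4) (nat_lit 324) (nat_lit 288) (nat_lit 288)) (XT.lf (nat_lit 0) (nat_lit 2897019182) (nat_lit 1748) (nat_lit 3880337938) (nat_lit 0) (nat_lit 356644323) (nat_lit 421) (nat_lit 5) (nat_lit 444) (nat_lit 4) (nat_lit 421) (nat_lit 4) (nat_lit 325) (nat_lit 288) (nat_lit 287))) (XT.nd (nat_lit 78) (nat_lit 2052) (nat_lit 0) (XT.lf (nat_lit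 0) (nat_lit 728472479) (nat_lit 1824) (nat_lit 3535243809) (nat_lit 76) (nat_lit 2928707564) (nat_lit 397) (nat_lit 5) (nat_lit 421) (nat_lit 5) (nat_lit 398) (nat_lit 4) (nat_lit 326) (nat_lit 288) (nat_lit 286)) (XT.nd (nat_lit 78) (nat_lit 988) (nat_lit 0) (XT.lf (nat_lit 0) (nat_lit 4097551438) (nat_lit 1064) (nat_lit 1594951832) (nat_lit 1140) (nat_lit 1561471434) (nat_lit 383) (nat_lit 5) (nat_lit 397) (nat_lit 5) (nat_lit 398) (nat_lit 4) (nat_lit 327) (nat_lit 288) (nat_lit 285)) (XT.lf (nat_lit 0) (nat_lit 3360201984) (nat_lit 988) (nat_lit 2747792024) (nat_lit 76) (nat_lit 1210643418) (nat_lit 370) (nat_lit 5) (nat_lit 383) (nat_lit 5) (nat_lit 371) (nat_lit 4) (nat_lit 328) (nat_lit 288) (nat_lit 284))))) (XT.nd (nat_lit 156) (nat_lit 2584) (nat_lit 0) (XT.nd (nat_lit 78) (nat_lit 836) (nat_lit 0) (XT.lf (nat_lit 0) (nat_lit 933871286) (nat_lit 912) (nat_lit 2308540292) (nat_lit 76) (nat_lit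 4144080828) (nat_lit 358) (nat_lit 5) (nat_lit 370) (nat_lit 5) (nat_lit 359) (nat_lit 5) (nat_lit 329) (nat_lit 288) (nat_lit 283)) (XT.lf (nat_lit 0) (nat_lit 5618135419) (nat_lit 836) (nat_lit 217979314) (nat_lit 912) (nat_lit 1621475920) (nat_lit 347) (nat_lit 5) (nat_lit 358) (nat_lit 5) (nat_lit 359) (nat_lit 5) (nat_lit 330) (nat_lit 288) (nat_lit 282))) (XT.nd (nat_lit 78) (nat_lit 1672) (nat_lit 0) (XT.lf (nat_lit 0) (nat_lit 3249361830) (nat_lit 912) (nat_lit 1356733412) (nat_lit 76) (nat_lit 2925582411) (nat_lit 335) (nat_lit 5) (nat_lit 347) (nat_lit 5) (nat_lit 336) (nat_lit 5) (nat_lit 331) (nat_lit 288) (nat_lit 281)) (XT.nd (nat_lit 78) (nat_lit 760) (nat_lit 0) (XT.lf (nat_lit 0) (nat_lit 552214192) (nat_lit 912) (nat_lit 838017749) (nat_lit 76) (nat_lit 6219040804) (nat_lit 323) (nat_lit 5) (nat_lit 335) (nat_lit 5) (nat_lit 324) (nat_lit 5) (nat_lit 332) (nat_lit 288) (nat_lit 280))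 (XT.lf (nat_lit 0) (nat_lit 5412622854) (nat_lit 836) (nat_lit 310331481) (nat_lit 76) (nat_lit 1966956234) (nat_lit 313) (nat_lit 5) (nat_lit 324) (nat_lit 5) (nat_lit 314) (nat_lit 5) (nat_lit 333) (nat_lit 288) (nat_lit 279))))))) (XT.nd (nat_lit 780) (nat_lit 5472) (nat_lit 0) (XT.nd (nat_lit 390) (nat_lit 3192) (nat_lit 0) (XT.nd (nat_lit 156) (nat_lit 2128) (nat_lit 0) (XT.nd (nat_lit 78) (nat_lit 760) (nat_lit 0) (XT.lf (nat_lit 0) (nat_lit 242208116) (nat_lit 684) (nat_lit 2308492892) (nat_lit 760) (nat_lit 5223190918) (nat_lit 293) (nat_lit 5) (nat_lit 302) (nat_lit 5) (nat_lit 303) (nat_lit 5) (nat_lit 334) (nat_lit 288) (nat_lit 278)) (XT.lf (nat_lit 0) (nat_lit 821827207) (nat_lit 760) (nat_lit 6612920561) (nat_lit 836) (nat_lit 426557533) (nat_lit 283) (nat_lit 5) (nat_lit 293) (nat_lit 5) (nat_lit 294) (nat_lit 5) (nat_lit 335) (nat_lit 288) (nat_lit 277))) (XT.nd (nat_lit 78) (nat_lit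 1368) (nat_lit 0) (XT.lf (nat_lit 0) (nat_lit 1400731597) (nat_lit 684) (nat_lit 3003890390) (nat_lit 760) (nat_lit 3547190016) (nat_lit 273) (nat_lit 5) (nat_lit 282) (nat_lit 5) (nat_lit 283) (nat_lit 5) (nat_lit 336) (nat_lit 288) (nat_lit 276)) (XT.nd (nat_lit 78) (nat_lit 608) (nat_lit 0) (XT.lf (nat_lit 0) (nat_lit 1254326348) (nat_lit 760) (nat_lit 6040574090) (nat_lit 76) (nat_lit 751119730) (nat_lit 263) (nat_lit 5) (nat_lit 273) (nat_lit 5) (nat_lit 264) (nat_lit 5) (nat_lit 337) (nat_lit 288) (nat_lit 275)) (XT.lf (nat_lit 0) (nat_lit 2605857316) (nat_lit 608) (nat_lit 3506069156) (nat_lit 684) (nat_lit 2031504505) (nat_lit 255) (nat_lit 5) (nat_lit 263) (nat_lit 5) (nat_lit 264) (nat_lit 5) (nat_lit 338) (nat_lit 288) (nat_lit 274))))) (XT.nd (nat_lit 156) (nat_lit 1900) (nat_lit 0) (XT.nd (nat_lit 78) (nat_lit 608) (nat_lit 0) (XT.lf (nat_lit 0) (nat_lit 2778901916) (nat_lit 684) (nat_lit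 5022298391) (nat_lit 76) (nat_lit 443337048) (nat_lit 246) (nat_lit 5) (nat_lit 255) (nat_lit 5) (nat_lit 247) (nat_lit 5) (nat_lit 339) (nat_lit 288) (nat_lit 273)) (XT.lf (nat_lit 0) (nat_lit 3836386489) (nat_lit 608) (nat_lit 3838276175) (nat_lit 684) (nat_lit 674419011) (nat_lit 238) (nat_lit 5) (nat_lit 246) (nat_lit 5) (nat_lit 247) (nat_lit 5) (nat_lit 340) (nat_lit 288) (nat_lit 272))) (XT.nd (nat_lit 78) (nat_lit 1216) (nat_lit 0) (XT.lf (nat_lit 0) (nat_lit 4153836582) (nat_lit 684) (nat_lit 4003765129) (nat_lit 76) (nat_lit 299667701) (nat_lit 229) (nat_lit 5) (nat_lit 238) (nat_lit 5) (nat_lit 230) (nat_lit 5) (nat_lit 341) (nat_lit 288) (nat_lit 271)) (XT.nd (nat_lit 78) (nat_lit 608) (nat_lit 0) (XT.lf (nat_lit 0) (nat_lit 517420256) (nat_lit 608) (nat_lit 3502282347) (nat_lit 76) (nat_lit 4549372349) (nat_lit 221) (nat_lit 5) (nat_lit 229) (nat_lit 5) (nat_lit 222) (nat_lit 5) (nat_lit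 342) (nat_lit 288) (nat_lit 270)) (XT.lf (nat_lit 0) (nat_lit 5378735241) (nat_lit 684) (nat_lit 3007869117) (nat_lit 76) (nat_lit 298015928) (nat_lit 213) (nat_lit 5) (nat_lit 222) (nat_lit 5) (nat_lit 214) (nat_lit 5) (nat_lit 343) (nat_lit 288) (nat_lit 269)))))) (XT.nd (nat_lit 390) (nat_lit 2736) (nat_lit 0) (XT.nd (nat_lit 156) (nat_lit 1596) (nat_lit 0) (XT.nd (nat_lit 78) (nat_lit 532) (nat_lit 0) (XT.lf (nat_lit 0) (nat_lit 1542844669) (nat_lit 608) (nat_lit 2529837019) (nat_lit 76) (nat_lit 4731156708) (nat_lit 205) (nat_lit 5) (nat_lit 213) (nat_lit 5) (nat_lit 206) (nat_lit 5) (nat_lit 344) (nat_lit 288) (nat_lit 268)) (XT.lf (nat_lit 0) (nat_lit 6451690085) (nat_lit 608) (nat_lit 2058751469) (nat_lit 76) (nat_lit 416600625) (nat_lit 198) (nat_lit 5) (nat_lit 206) (nat_lit 5) (nat_lit 199) (nat_lit 5) (nat_lit 345) (nat_lit 288) (nat_lit 267))) (XT.nd (nat_lit 78) (nat_lit 1064) (nat_lit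 0) (XT.lf (nat_lit 0) (nat_lit 2407867797) (nat_lit 532) (nat_lit 1615899615) (nat_lit 76) (nat_lit 5030167900) (nat_lit 191) (nat_lit 5) (nat_lit 198) (nat_lit 5) (nat_lit 192) (nat_lit 5) (nat_lit 346) (nat_lit 288) (nat_lit 266)) (XT.nd (nat_lit 78) (nat_lit 532) (nat_lit 0) (XT.lf (nat_lit 0) (nat_lit 7369222751) (nat_lit 608) (nat_lit 1182050375) (nat_lit 76) (nat_lit 633764172) (nat_lit 184) (nat_lit 5) (nat_lit 192) (nat_lit 5) (nat_lit 185) (nat_lit 5) (nat_lit 347) (nat_lit 288) (nat_lit 265)) (XT.lf (nat_lit 0) (nat_lit 3108038676) (nat_lit 532) (nat_lit 787012969) (nat_lit 76) (nat_lit 5424840891) (nat_lit 177) (nat_lit 5) (nat_lit 184) (nat_lit 5) (nat_lit 178) (nat_lit 5) (nat_lit 348) (nat_lit 288) (nat_lit 264))))) (XT.nd (nat_lit 156) (nat_lit 1748) (nat_lit 0) (XT.nd (nat_lit 78) (nat_lit 532) (nat_lit 0) (XT.lf (nat_lit 0) (nat_lit 8126212452) (nat_lit 532) (nat_lit 405169855) (nat_lit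 76) (nat_lit 927777622) (nat_lit 171) (nat_lit 5) (nat_lit 178) (nat_lit 5) (nat_lit 172) (nat_lit 5) (nat_lit 349) (nat_lit 288) (nat_lit 263)) (XT.lf (nat_lit 0) (nat_lit 3637207803) (nat_lit 532) (nat_lit 71622632) (nat_lit 76) (nat_lit 5893459804) (nat_lit 164) (nat_lit 5) (nat_lit 171) (nat_lit 5) (nat_lit 165) (nat_lit 5) (nat_lit 350) (nat_lit 288) (nat_lit 262))) (XT.nd (nat_lit 78) (nat_lit 912) (nat_lit 0) (XT.lf (nat_lit 0) (nat_lit 245652747) (nat_lit 380) (nat_lit 8471751408) (nat_lit 456) (nat_lit 1032582783) (nat_lit 153) (nat_lit 5) (nat_lit 158) (nat_lit 5) (nat_lit 159) (nat_lit 5) (nat_lit 351) (nat_lit 288) (nat_lit 261)) (XT.nd (nat_lit 78) (nat_lit 380) (nat_lit 0) (XT.lf (nat_lit 0) (nat_lit 506261941) (nat_lit 456) (nat_lit 3484457641) (nat_lit 532) (nat_lit 5910979176) (nat_lit 146) (nat_lit 5) (nat_lit 152) (nat_lit 5) (nat_lit 153) (nat_lit 5) (nat_lit 352) (nat_lit 288)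 (nat_lit 260)) (XT.lf (nat_lit 0) (nat_lit 738612377) (nat_lit 380) (nat_lit 8395514421) (nat_lit 456) (nat_lit 924057305) (nat_lit 141) (nat_lit 5) (nat_lit 146) (nat_lit 5) (nat_lit 147) (nat_lit 5) (nat_lit 353) (nat_lit 288) (nat_lit 259))))))))
noncomputable def xc26 : XT := (XT.nd (nat_lit 1560) (nat_lit 2356) (nat_lit 0) (XT.nd (nat_lit 780) (nat_lit 2964) (nat_lit 0) (XT.nd (nat_lit 390) (nat_lit 1368) (nat_lit 0) (XT.nd (nat_lit 156) (nat_lit 1216) (nat_lit 0) (XT.nd (nat_lit 78) (nat_lit 380) (nat_lit 0) (XT.lf (nat_lit 0) (nat_lit 905417951) (nat_lit 380) (nat_lit 3249326968) (nat_lit 456) (nat_lit 6064147730) (nat_lit 135) (nat_lit 5) (nat_lit 140) (nat_lit 5) (nat_lit 141) (nat_lit 5) (nat_lit 354) (nat_lit 288) (nat_lit 258)) (XT.lf (nat_lit 0) (nat_lit 1033332470) (nat_lit 380) (nat_lit 8329521813) (nat_lit 456) (nat_lit 1021681351) (nat_lit 130) (nat_lit 5) (nat_lit 135) (nat_lit 5)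 (nat_lit 136) (nat_lit 5) (nat_lit 355) (nat_lit 288) (nat_lit 257))) (XT.nd (nat_lit 78) (nat_lit 760) (nat_lit 0) (XT.lf (nat_lit 0) (nat_lit 1088353381) (nat_lit 380) (nat_lit 3028342421) (nat_lit 456) (nat_lit 6437947339) (nat_lit 124) (nat_lit 5) (nat_lit 129) (nat_lit 5) (nat_lit 130) (nat_lit 5) (nat_lit 356) (nat_lit 288) (nat_lit 256)) (XT.nd (nat_lit 78) (nat_lit 456) (nat_lit 0) (XT.lf (nat_lit 0) (nat_lit 1091705464) (nat_lit 304) (nat_lit 8298910882) (nat_lit 380) (nat_lit 1339220376) (nat_lit 120) (nat_lit 5) (nat_lit 124) (nat_lit 5) (nat_lit 125) (nat_lit 5) (nat_lit 357) (nat_lit 288) (nat_lit 255)) (XT.lf (nat_lit 0) (nat_lit 1015217458) (nat_lit 380) (nat_lit 2847035758) (nat_lit 456) (nat_lit 7047525139) (nat_lit 114) (nat_lit 5) (nat_lit 119) (nat_lit 5) (nat_lit 120) (nat_lit 5) (nat_lit 358) (nat_lit 288) (nat_lit 254))))) (XT.nd (nat_lit 156) (nat_lit 684) (nat_lit 0) (XT.nd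 (nat_lit 78) (nat_lit 380) (nat_lit 0) (XT.lf (nat_lit 0) (nat_lit 872101682) (nat_lit 304) (nat_lit 8330070799) (nat_lit 380) (nat_lit 1892778385) (nat_lit 110) (nat_lit 5) (nat_lit 114) (nat_lit 5) (nat_lit 115) (nat_lit 5) (nat_lit 359) (nat_lit 288) (nat_lit 253)) (XT.lf (nat_lit 0) (nat_lit 642423768) (nat_lit 304) (nat_lit 2732300919) (nat_lit 380) (nat_lit 7910472294) (nat_lit 105) (nat_lit 5) (nat_lit 109) (nat_lit 5) (nat_lit 110) (nat_lit 5) (nat_lit 360) (nat_lit 288) (nat_lit 252))) (XT.nd (nat_lit 78) (nat_lit 380) (nat_lit 0) (XT.lf (nat_lit 0) (nat_lit 328925324) (nat_lit 304) (nat_lit 8450904425) (nat_lit 380) (nat_lit 2700984617) (nat_lit 101) (nat_lit 5) (nat_lit 105) (nat_lit 5) (nat_lit 106) (nat_lit 5) (nat_lit 361) (nat_lit 288) (nat_lit 251)) (XT.nd (nat_lit 78) (nat_lit 304) (nat_lit 0) (XT.lf (nat_lit 0) (nat_lit 2635355545) (nat_lit 380) (nat_lit 76793751) (nat_lit 76) (nat_lit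 8969713599) (nat_lit 100) (nat_lit 5) (nat_lit 105) (nat_lit 5) (nat_lit 101) (nat_lit 5) (nat_lit 362) (nat_lit 288) (nat_lit 250)) (XT.lf (nat_lit 0) (nat_lit 8107053809) (nat_lit 380) (nat_lit 580161233) (nat_lit 76) (nat_lit 3201149938) (nat_lit 96) (nat_lit 5) (nat_lit 101) (nat_lit 5) (nat_lit 97) (nat_lit 5) (nat_lit 363) (nat_lit 288) (nat_lit 249)))))) (XT.nd (nat_lit 390) (nat_lit 1444) (nat_lit 0) (XT.nd (nat_lit 156) (nat_lit 836) (nat_lit 0) (XT.nd (nat_lit 78) (nat_lit 304) (nat_lit 0) (XT.lf (nat_lit 0) (nat_lit 1628362346) (nat_lit 380) (nat_lit 1182280223) (nat_lit 76) (nat_lit 9290062824) (nat_lit 91) (nat_lit 5) (nat_lit 96) (nat_lit 5) (nat_lit 92) (nat_lit 5) (nat_lit 364) (nat_lit 288) (nat_lit 248)) (XT.lf (nat_lit 0) (nat_lit 7161705517) (nat_lit 380) (nat_lit 1907963958) (nat_lit 76) (nat_lit 3249008645) (nat_lit 87) (nat_lit 5) (nat_lit 92) (nat_lit 5) (nat_lit 88) (nat_lit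 5) (nat_lit 365) (nat_lit 288) (nat_lit 247))) (XT.nd (nat_lit 78) (nat_lit 532) (nat_lit 0) (XT.lf (nat_lit 0) (nat_lit 324871545) (nat_lit 304) (nat_lit 2739465212) (nat_lit 76) (nat_lit 9478604592) (nat_lit 83) (nat_lit 5) (nat_lit 87) (nat_lit 5) (nat_lit 84) (nat_lit 5) (nat_lit 366) (nat_lit 288) (nat_lit 246)) (XT.nd (nat_lit 78) (nat_lit 228) (nat_lit 0) (XT.lf (nat_lit 0) (nat_lit 5915652292) (nat_lit 380) (nat_lit 3718601517) (nat_lit 76) (nat_lit 3138721778) (nat_lit 79) (nat_lit 5) (nat_lit 84) (nat_lit 5) (nat_lit 80) (nat_lit 5) (nat_lit 367) (nat_lit 288) (nat_lit 245)) (XT.lf (nat_lit 0) (nat_lit 8189898082) (nat_lit 228) (nat_lit 3499321677) (nat_lit 304) (nat_lit 1320405116) (nat_lit 76) (nat_lit 5) (nat_lit 79) (nat_lit 5) (nat_lit 80) (nat_lit 5) (nat_lit 368) (nat_lit 288) (nat_lit 244))))) (XT.nd (nat_lit 156) (nat_lit 836) (nat_lit 0) (XT.nd (nat_lit 78) (nat_lit 228) (nat_lit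 0) (XT.lf (nat_lit 0) (nat_lit 4339497638) (nat_lit 380) (nat_lit 6078006193) (nat_lit 76) (nat_lit 2835028152) (nat_lit 71) (nat_lit 5) (nat_lit 76) (nat_lit 5) (nat_lit 72) (nat_lit 5) (nat_lit 369) (nat_lit 288) (nat_lit 243)) (XT.lf (nat_lit 0) (nat_lit 6013921438) (nat_lit 228) (nat_lit 4157500207) (nat_lit 304) (nat_lit 3330740966) (nat_lit 68) (nat_lit 5) (nat_lit 71) (nat_lit 5) (nat_lit 72) (nat_lit 5) (nat_lit 370) (nat_lit 288) (nat_lit 242))) (XT.nd (nat_lit 78) (nat_lit 532) (nat_lit 0) (XT.lf (nat_lit 0) (nat_lit 2400126083) (nat_lit 304) (nat_lit 9058933294) (nat_lit 76) (nat_lit 2299665498) (nat_lit 64) (nat_lit 5) (nat_lit 68) (nat_lit 5) (nat_lit 65) (nat_lit 5) (nat_lit 371) (nat_lit 288) (nat_lit 241)) (XT.nd (nat_lit 78) (nat_lit 304) (nat_lit 0) (XT.lf (nat_lit 0) (nat_lit 3202456417) (nat_lit 228) (nat_lit 5081827274) (nat_lit 304) (nat_lit 5737740724) (nat_lit 61) (nat_lit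 5) (nat_lit 64) (nat_lit 5) (nat_lit 65) (nat_lit 5) (nat_lit 372) (nat_lit 288) (nat_lit 240)) (XT.lf (nat_lit 0) (nat_lit 60347245) (nat_lit 304) (nat_lit 12741726213) (nat_lit 76) (nat_lit 1490969539) (nat_lit 57) (nat_lit 5) (nat_lit 61) (nat_lit 5) (nat_lit 58) (nat_lit 5) (nat_lit 373) (nat_lit 288) (nat_lit 239))))))) (XT.nd (nat_lit 780) (nat_lit 608) (nat_lit 0) (XT.nd (nat_lit 390) (nat_lit 760) (nat_lit 0) (XT.nd (nat_lit 156) (nat_lit 760) (nat_lit 0) (XT.nd (nat_lit 78) (nat_lit 228) (nat_lit 0) (XT.lf (nat_lit 0) (nat_lit 5991211813) (nat_lit 304) (nat_lit 323379228) (nat_lit 76) (nat_lit 8256118886) (nat_lit 57) (nat_lit 5) (nat_lit 61) (nat_lit 5) (nat_lit 58) (nat_lit 5) (nat_lit 374) (nat_lit 288) (nat_lit 238)) (XT.lf (nat_lit 0) (nat_lit 12114498498) (nat_lit 304) (nat_lit 2345159996) (nat_lit 76) (nat_lit 396770163) (nat_lit 54) (nat_lit 5) (nat_lit 58) (nat_lit 5) (nat_lit 55)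 (nat_lit 5) (nat_lit 375) (nat_lit 288) (nat_lit 237))) (XT.nd (nat_lit 78) (nat_lit 456) (nat_lit 0) (XT.lf (nat_lit 0) (nat_lit 3272772018) (nat_lit 304) (nat_lit 4607217486) (nat_lit 76) (nat_lit 7269417802) (nat_lit 50) (nat_lit 5) (nat_lit 54) (nat_lit 5) (nat_lit 51) (nat_lit 5) (nat_lit 376) (nat_lit 288) (nat_lit 236)) (XT.nd (nat_lit 78) (nat_lit 304) (nat_lit 0) (XT.lf (nat_lit 0) (nat_lit 8372897205) (nat_lit 152) (nat_lit 1060723571) (nat_lit 228) (nat_lit 6017143728) (nat_lit 48) (nat_lit 5) (nat_lit 50) (nat_lit 5) (nat_lit 51) (nat_lit 5) (nat_lit 377) (nat_lit 288) (nat_lit 235)) (XT.lf (nat_lit 0) (nat_lit 60369807) (nat_lit 304) (nat_lit 9791445230) (nat_lit 76) (nat_lit 5908505832) (nat_lit 44) (nat_lit 5) (nat_lit 48) (nat_lit 5) (nat_lit 45) (nat_lit 5) (nat_lit 378) (nat_lit 288) (nat_lit 234))))) (XT.nd (nat_lit 156) (nat_lit 380) (nat_lit 0) (XT.nd (nat_lit 78) (nat_lit 228)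 (nat_lit 0) (XT.lf (nat_lit 0) (nat_lit 3307379752) (nat_lit 152) (nat_lit 2942462527) (nat_lit 228) (nat_lit 9828308526) (nat_lit 42) (nat_lit 5) (nat_lit 44) (nat_lit 5) (nat_lit 45) (nat_lit 5) (nat_lit 379) (nat_lit 288) (nat_lit 233)) (XT.lf (nat_lit 0) (nat_lit 393434874) (nat_lit 228) (nat_lit 12262963223) (nat_lit 304) (nat_lit 3748499274) (nat_lit 39) (nat_lit 5) (nat_lit 42) (nat_lit 5) (nat_lit 43) (nat_lit 5) (nat_lit 380) (nat_lit 288) (nat_lit 232))) (XT.nd (nat_lit 78) (nat_lit 304) (nat_lit 0) (XT.lf (nat_lit 0) (nat_lit 2523219157) (nat_lit 304) (nat_lit 2761130881) (nat_lit 76) (nat_lit 11455929476) (nat_lit 38) (nat_lit 5) (nat_lit 42) (nat_lit 5) (nat_lit 39) (nat_lit 5) (nat_lit 381) (nat_lit 288) (nat_lit 231)) (XT.nd (nat_lit 78) (nat_lit 152) (nat_lit 0) (XT.lf (nat_lit 0) (nat_lit 8953451648) (nat_lit 228) (nat_lit 6202167038) (nat_lit 76) (nat_lit 1929192062) (nat_lit 36)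 (nat_lit 5) (nat_lit 39) (nat_lit 5) (nat_lit 37) (nat_lit 5) (nat_lit 382) (nat_lit 288) (nat_lit 230)) (XT.lf (nat_lit 0) (nat_lit 7488857300) (nat_lit 152) (nat_lit 8128920329) (nat_lit 228) (nat_lit 1821085275) (nat_lit 34) (nat_lit 5) (nat_lit 36) (nat_lit 5) (nat_lit 37) (nat_lit 5) (nat_lit 383) (nat_lit 288) (nat_lit 229)))))) (XT.nd (nat_lit 42120) (nat_lit 0) (nat_lit 27056) (XT.nd (nat_lit 156) (nat_lit 380) (nat_lit 0) (XT.nd (nat_lit 78) (nat_lit 0) (nat_lit 0) (XT.lf (nat_lit 0) (nat_lit 3784610127) (nat_lit 152) (nat_lit 838491367) (nat_lit 228) (nat_lit 13179716628) (nat_lit 31) (nat_lit 5) (nat_lit 33) (nat_lit 5) (nat_lit 34) (nat_lit 5) (nat_lit 384) (nat_lit 288) (nat_lit 228)) (XT.lf (nat_lit 0) (nat_lit 11287073750) (nat_lit 228) (nat_lit 271170579) (nat_lit 76) (nat_lit 6618190947) (nat_lit 31) (nat_lit 5) (nat_lit 34) (nat_lit 5) (nat_lit 32) (nat_lit 5) (nat_lit 385) (nat_lit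 288) (nat_lit 227))) (XT.nd (nat_lit 78) (nat_lit 228) (nat_lit 0) (XT.lf (nat_lit 0) (nat_lit 13962535999) (nat_lit 152) (nat_lit 4226320749) (nat_lit 228) (nat_lit 371654185) (nat_lit 29) (nat_lit 5) (nat_lit 31) (nat_lit 5) (nat_lit 32) (nat_lit 5) (nat_lit 386) (nat_lit 288) (nat_lit 226)) (XT.nd (nat_lit 41808) (nat_lit 0) (nat_lit 34960) (XT.lf (nat_lit 0) (nat_lit 6287228532) (nat_lit 228) (nat_lit 9323192484) (nat_lit 76) (nat_lit 3344295507) (nat_lit 26) (nat_lit 5) (nat_lit 29) (nat_lit 5) (nat_lit 27) (nat_lit 5) (nat_lit 387) (nat_lit 288) (nat_lit 225)) (XT.lf (nat_lit 0) (nat_lit 1174521576) (nat_lit 1444) (nat_lit 1156657609) (nat_lit 1444) (nat_lit 1156657609) (nat_lit 486) (nat_lit 4) (nat_lit 505) (nat_lit 5) (nat_lit 505) (nat_lit 4) (nat_lit 322) (nat_lit 289) (nat_lit 289))))) (XT.nd (nat_lit 156) (nat_lit 4636) (nat_lit 0) (XT.nd (nat_lit 78) (nat_lit 1672) (nat_lit 0) (XT.lf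 (nat_lit 0) (nat_lit 2561383000) (nat_lit 1520) (nat_lit 54299764) (nat_lit 1596) (nat_lit 4410710616) (nat_lit 465) (nat_lit 5) (nat_lit 485) (nat_lit 5) (nat_lit 486) (nat_lit 4) (nat_lit 323) (nat_lit 289) (nat_lit 288)) (XT.lf (nat_lit 0) (nat_lit 489250135) (nat_lit 1672) (nat_lit 4271814911) (nat_lit 76) (nat_lit 2318992155) (nat_lit 443) (nat_lit 5) (nat_lit 465) (nat_lit 5) (nat_lit 444) (nat_lit 4) (nat_lit 324) (nat_lit 289) (nat_lit 287))) (XT.nd (nat_lit 78) (nat_lit 2964) (nat_lit 0) (XT.lf (nat_lit 0) (nat_lit 3091608321) (nat_lit 1672) (nat_lit 2288302338) (nat_lit 1748) (nat_lit 1756848123) (nat_lit 421) (nat_lit 5) (nat_lit 443) (nat_lit 5) (nat_lit 444) (nat_lit 4) (nat_lit 325) (nat_lit 289) (nat_lit 286)) (XT.nd (nat_lit 78) (nat_lit 1140) (nat_lit 0) (XT.lf (nat_lit 0) (nat_lit 3088098889) (nat_lit 1824) (nat_lit 3779931518) (nat_lit 76) (nat_lit 328627463) (nat_lit 397) (nat_lit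 5) (nat_lit 421) (nat_lit 5) (nat_lit 398) (nat_lit 4) (nat_lit 326) (nat_lit 289) (nat_lit 285)) (XT.lf (nat_lit 0) (nat_lit 710980147) (nat_lit 1140) (nat_lit 3487224936) (nat_lit 76) (nat_lit 3061388356) (nat_lit 382) (nat_lit 5) (nat_lit 397) (nat_lit 5) (nat_lit 383) (nat_lit 5) (nat_lit 327) (nat_lit 289) (nat_lit 284))))))))
noncomputable def xc27 : XT := (XT.nd (nat_lit 1560) (nat_lit 7980) (nat_lit 0) (XT.nd (nat_lit 780) (nat_lit 6004) (nat_lit 0) (XT.nd (nat_lit 390) (nat_lit 4560) (nat_lit 0) (XT.nd (nat_lit 156) (nat_lit 2660) (nat_lit 0) (XT.nd (nat_lit 78) (nat_lit 912) (nat_lit 0) (XT.lf (nat_lit 0) (nat_lit 4161238467) (nat_lit 912) (nat_lit 1371416510) (nat_lit 988) (nat_lit 1793024971) (nat_lit 370) (nat_lit 5) (nat_lit 382) (nat_lit 5) (nat_lit 383) (nat_lit 5) (nat_lit 328) (nat_lit 289) (nat_lit 283)) (XT.lf (nat_lit 0) (nat_lit 2990952930) (nat_lit 912) (nat_lit 2816371210)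 (nat_lit 76) (nat_lit 1587562601) (nat_lit 358) (nat_lit 5) (nat_lit 370) (nat_lit 5) (nat_lit 359) (nat_lit 5) (nat_lit 329) (nat_lit 289) (nat_lit 282))) (XT.nd (nat_lit 78) (nat_lit 1748) (nat_lit 0) (XT.lf (nat_lit 0) (nat_lit 351024072) (nat_lit 912) (nat_lit 2438392909) (nat_lit 76) (nat_lit 4677956978) (nat_lit 346) (nat_lit 5) (nat_lit 358) (nat_lit 5) (nat_lit 347) (nat_lit 5) (nat_lit 330) (nat_lit 289) (nat_lit 281)) (XT.nd (nat_lit 78) (nat_lit 912) (nat_lit 0) (XT.lf (nat_lit 0) (nat_lit 5114162939) (nat_lit 912) (nat_lit 2040563356) (nat_lit 76) (nat_lit 388284571) (nat_lit 335) (nat_lit 5) (nat_lit 347) (nat_lit 5) (nat_lit 336) (nat_lit 5) (nat_lit 331) (nat_lit 289) (nat_lit 280)) (XT.lf (nat_lit 0) (nat_lit 2312065107) (nat_lit 912) (nat_lit 1627329774) (nat_lit 76) (nat_lit 3682386840) (nat_lit 323) (nat_lit 5) (nat_lit 335) (nat_lit 5) (nat_lit 324) (nat_lit 5) (nat_lit 332) (nat_lit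 289) (nat_lit 279))))) (XT.nd (nat_lit 156) (nat_lit 2964) (nat_lit 0) (XT.nd (nat_lit 78) (nat_lit 836) (nat_lit 0) (XT.lf (nat_lit 0) (nat_lit 6521193635) (nat_lit 760) (nat_lit 569787773) (nat_lit 836) (nat_lit 613097374) (nat_lit 313) (nat_lit 5) (nat_lit 323) (nat_lit 5) (nat_lit 324) (nat_lit 5) (nat_lit 333) (nat_lit 289) (nat_lit 278)) (XT.lf (nat_lit 0) (nat_lit 4119542555) (nat_lit 836) (nat_lit 739167052) (nat_lit 76) (nat_lit 2930632861) (nat_lit 302) (nat_lit 5) (nat_lit 313) (nat_lit 5) (nat_lit 303) (nat_lit 5) (nat_lit 334) (nat_lit 289) (nat_lit 277))) (XT.nd (nat_lit 78) (nat_lit 2204) (nat_lit 0) (XT.lf (nat_lit 0) (nat_lit 1032007959) (nat_lit 760) (nat_lit 267077462) (nat_lit 76) (nat_lit 6579151665) (nat_lit 292) (nat_lit 5) (nat_lit 302) (nat_lit 5) (nat_lit 293) (nat_lit 5) (nat_lit 335) (nat_lit 289) (nat_lit 276)) (XT.nd (nat_lit 78) (nat_lit 760) (nat_lit 0) (XT.lf (nat_lit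 0) (nat_lit 209009079) (nat_lit 684) (nat_lit 5570354102) (nat_lit 760) (nat_lit 2190915667) (nat_lit 273) (nat_lit 5) (nat_lit 282) (nat_lit 5) (nat_lit 283) (nat_lit 5) (nat_lit 336) (nat_lit 289) (nat_lit 275)) (XT.lf (nat_lit 0) (nat_lit 702345801) (nat_lit 684) (nat_lit 1817621414) (nat_lit 760) (nat_lit 5545825201) (nat_lit 263) (nat_lit 5) (nat_lit 272) (nat_lit 5) (nat_lit 273) (nat_lit 5) (nat_lit 337) (nat_lit 289) (nat_lit 274)))))) (XT.nd (nat_lit 390) (nat_lit 2812) (nat_lit 0) (XT.nd (nat_lit 156) (nat_lit 1900) (nat_lit 0) (XT.nd (nat_lit 78) (nat_lit 684) (nat_lit 0) (XT.lf (nat_lit 0) (nat_lit 1204481279) (nat_lit 608) (nat_lit 6093963653) (nat_lit 684) (nat_lit 866364633) (nat_lit 255) (nat_lit 5) (nat_lit 263) (nat_lit 5) (nat_lit 264) (nat_lit 5) (nat_lit 338) (nat_lit 289) (nat_lit 273)) (XT.lf (nat_lit 0) (nat_lit 1703391644) (nat_lit 608) (nat_lit 2155185321) (nat_lit 684) (nat_lit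 4408614097) (nat_lit 246) (nat_lit 5) (nat_lit 254) (nat_lit 5) (nat_lit 255) (nat_lit 5) (nat_lit 339) (nat_lit 289) (nat_lit 272))) (XT.nd (nat_lit 78) (nat_lit 1216) (nat_lit 0) (XT.lf (nat_lit 0) (nat_lit 296251209) (nat_lit 684) (nat_lit 6159129209) (nat_lit 76) (nat_lit 1917953590) (nat_lit 237) (nat_lit 5) (nat_lit 246) (nat_lit 5) (nat_lit 238) (nat_lit 5) (nat_lit 340) (nat_lit 289) (nat_lit 271)) (XT.nd (nat_lit 78) (nat_lit 608) (nat_lit 0) (XT.lf (nat_lit 0) (nat_lit 2710784354) (nat_lit 608) (nat_lit 2336110190) (nat_lit 684) (nat_lit 3435935982) (nat_lit 229) (nat_lit 5) (nat_lit 237) (nat_lit 5) (nat_lit 238) (nat_lit 5) (nat_lit 341) (nat_lit 289) (nat_lit 270)) (XT.lf (nat_lit 0) (nat_lit 1291404787) (nat_lit 608) (nat_lit 5382829364) (nat_lit 76) (nat_lit 1921951968) (nat_lit 221) (nat_lit 5) (nat_lit 229) (nat_lit 5) (nat_lit 222) (nat_lit 5) (nat_lit 342) (nat_lit 289) (nat_lit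 269))))) (XT.nd (nat_lit 156) (nat_lit 1596) (nat_lit 0) (XT.nd (nat_lit 78) (nat_lit 608) (nat_lit 0) (XT.lf (nat_lit 0) (nat_lit 3701805200) (nat_lit 608) (nat_lit 2382470830) (nat_lit 684) (nat_lit 2628843719) (nat_lit 213) (nat_lit 5) (nat_lit 221) (nat_lit 5) (nat_lit 222) (nat_lit 5) (nat_lit 343) (nat_lit 289) (nat_lit 268)) (XT.lf (nat_lit 0) (nat_lit 2128793251) (nat_lit 608) (nat_lit 4649461465) (nat_lit 76) (nat_lit 2055657976) (nat_lit 205) (nat_lit 5) (nat_lit 213) (nat_lit 5) (nat_lit 206) (nat_lit 5) (nat_lit 344) (nat_lit 289) (nat_lit 267))) (XT.nd (nat_lit 78) (nat_lit 1064) (nat_lit 0) (XT.lf (nat_lit 0) (nat_lit 4652509233) (nat_lit 532) (nat_lit 2316064949) (nat_lit 608) (nat_lit 1989941528) (nat_lit 198) (nat_lit 5) (nat_lit 205) (nat_lit 5) (nat_lit 206) (nat_lit 5) (nat_lit 345) (nat_lit 289) (nat_lit 266)) (XT.nd (nat_lit 78) (nat_lit 532) (nat_lit 0) (XT.lf (nat_lit 0) (nat_lit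 2805207051) (nat_lit 532) (nat_lit 3984076465) (nat_lit 76) (nat_lit 2297713477) (nat_lit 191) (nat_lit 5) (nat_lit 198) (nat_lit 5) (nat_lit 192) (nat_lit 5) (nat_lit 346) (nat_lit 289) (nat_lit 265)) (XT.lf (nat_lit 0) (nat_lit 5537475920) (nat_lit 532) (nat_lit 2158604392) (nat_lit 608) (nat_lit 1523444885) (nat_lit 184) (nat_lit 5) (nat_lit 191) (nat_lit 5) (nat_lit 192) (nat_lit 5) (nat_lit 347) (nat_lit 289) (nat_lit 264))))))) (XT.nd (nat_lit 780) (nat_lit 3420) (nat_lit 0) (XT.nd (nat_lit 390) (nat_lit 2128) (nat_lit 0) (XT.nd (nat_lit 156) (nat_lit 1444) (nat_lit 0) (XT.nd (nat_lit 78) (nat_lit 456) (nat_lit 0) (XT.lf (nat_lit 0) (nat_lit 3315826328) (nat_lit 532) (nat_lit 3413377604) (nat_lit 76) (nat_lit 2626769274) (nat_lit 177) (nat_lit 5) (nat_lit 184) (nat_lit 5) (nat_lit 178) (nat_lit 5) (nat_lit 348) (nat_lit 289) (nat_lit 263)) (XT.lf (nat_lit 0) (nat_lit 6329541944) (nat_lit 456)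 (nat_lit 1931910300) (nat_lit 532) (nat_lit 1235254638) (nat_lit 171) (nat_lit 5) (nat_lit 177) (nat_lit 5) (nat_lit 178) (nat_lit 5) (nat_lit 349) (nat_lit 289) (nat_lit 262))) (XT.nd (nat_lit 78) (nat_lit 912) (nat_lit 0) (XT.lf (nat_lit 0) (nat_lit 3654140372) (nat_lit 532) (nat_lit 2965998777) (nat_lit 76) (nat_lit 3021289526) (nat_lit 164) (nat_lit 5) (nat_lit 171) (nat_lit 5) (nat_lit 165) (nat_lit 5) (nat_lit 350) (nat_lit 289) (nat_lit 261)) (XT.nd (nat_lit 78) (nat_lit 456) (nat_lit 0) (XT.lf (nat_lit 0) (nat_lit 6999513665) (nat_lit 456) (nat_lit 1658113833) (nat_lit 532) (nat_lit 1133046221) (nat_lit 158) (nat_lit 5) (nat_lit 164) (nat_lit 5) (nat_lit 165) (nat_lit 5) (nat_lit 351) (nat_lit 289) (nat_lit 260)) (XT.lf (nat_lit 0) (nat_lit 3811851746) (nat_lit 456) (nat_lit 2672804843) (nat_lit 76) (nat_lit 3459349917) (nat_lit 152) (nat_lit 5) (nat_lit 158) (nat_lit 5) (nat_lit 153) (nat_lit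 5) (nat_lit 352) (nat_lit 289) (nat_lit 259))))) (XT.nd (nat_lit 156) (nat_lit 1216) (nat_lit 0) (XT.nd (nat_lit 78) (nat_lit 456) (nat_lit 0) (XT.lf (nat_lit 0) (nat_lit 7515856522) (nat_lit 456) (nat_lit 1359864189) (nat_lit 532) (nat_lit 1226374992) (nat_lit 146) (nat_lit 5) (nat_lit 152) (nat_lit 5) (nat_lit 153) (nat_lit 5) (nat_lit 353) (nat_lit 289) (nat_lit 258)) (XT.lf (nat_lit 0) (nat_lit 3778763986) (nat_lit 456) (nat_lit 2567216736) (nat_lit 76) (nat_lit 3918427806) (nat_lit 140) (nat_lit 5) (nat_lit 146) (nat_lit 5) (nat_lit 141) (nat_lit 5) (nat_lit 354) (nat_lit 289) (nat_lit 257))) (XT.nd (nat_lit 78) (nat_lit 836) (nat_lit 0) (XT.lf (nat_lit 0) (nat_lit 7844358401) (nat_lit 380) (nat_lit 1060545740) (nat_lit 456) (nat_lit 1526798849) (nat_lit 135) (nat_lit 5) (nat_lit 140) (nat_lit 5) (nat_lit 141) (nat_lit 5) (nat_lit 355) (nat_lit 289) (nat_lit 256)) (XT.nd (nat_lit 78) (nat_lit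 380) (nat_lit 0) (XT.lf (nat_lit 0) (nat_lit 3542651656) (nat_lit 456) (nat_lit 2685564460) (nat_lit 76) (nat_lit 4375182511) (nat_lit 129) (nat_lit 5) (nat_lit 135) (nat_lit 5) (nat_lit 130) (nat_lit 5) (nat_lit 356) (nat_lit 289) (nat_lit 255)) (XT.lf (nat_lit 0) (nat_lit 7947763759) (nat_lit 380) (nat_lit 784506213) (nat_lit 456) (nat_lit 2048019457) (nat_lit 124) (nat_lit 5) (nat_lit 129) (nat_lit 5) (nat_lit 130) (nat_lit 5) (nat_lit 357) (nat_lit 289) (nat_lit 254)))))) (XT.nd (nat_lit 390) (nat_lit 1596) (nat_lit 0) (XT.nd (nat_lit 156) (nat_lit 1064) (nat_lit 0) (XT.nd (nat_lit 78) (nat_lit 380) (nat_lit 0) (XT.lf (nat_lit 0) (nat_lit 3089111361) (nat_lit 380) (nat_lit 3067471400) (nat_lit 76) (nat_lit 4805223757) (nat_lit 119) (nat_lit 5) (nat_lit 124) (nat_lit 5) (nat_lit 120) (nat_lit 5) (nat_lit 358) (nat_lit 289) (nat_lit 253)) (XT.lf (nat_lit 0) (nat_lit 7785374951) (nat_lit 380) (nat_lit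 557297976) (nat_lit 456) (nat_lit 2806043584) (nat_lit 114) (nat_lit 5) (nat_lit 119) (nat_lit 5) (nat_lit 120) (nat_lit 5) (nat_lit 359) (nat_lit 289) (nat_lit 252))) (XT.nd (nat_lit 78) (nat_lit 684) (nat_lit 0) (XT.lf (nat_lit 0) (nat_lit 2401392150) (nat_lit 380) (nat_lit 3756273610) (nat_lit 76) (nat_lit 5182866188) (nat_lit 109) (nat_lit 5) (nat_lit 114) (nat_lit 5) (nat_lit 110) (nat_lit 5) (nat_lit 360) (nat_lit 289) (nat_lit 251)) (XT.nd (nat_lit 78) (nat_lit 380) (nat_lit 0) (XT.lf (nat_lit 0) (nat_lit 7312616928) (nat_lit 304) (nat_lit 405934633) (nat_lit 380) (nat_lit 3819366229) (nat_lit 105) (nat_lit 5) (nat_lit 109) (nat_lit 5) (nat_lit 110) (nat_lit 5) (nat_lit 361) (nat_lit 289) (nat_lit 250)) (XT.lf (nat_lit 0) (nat_lit 1460203537) (nat_lit 380) (nat_lit 4799478178) (nat_lit 76) (nat_lit 5480867679) (nat_lit 100) (nat_lit 5) (nat_lit 105) (nat_lit 5) (nat_lit 101) (nat_lit 5) (nat_lit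 362) (nat_lit 289) (nat_lit 249))))) (XT.nd (nat_lit 156) (nat_lit 912) (nat_lit 0) (XT.nd (nat_lit 78) (nat_lit 380) (nat_lit 0) (XT.lf (nat_lit 0) (nat_lit 6480561066) (nat_lit 304) (nat_lit 359165301) (nat_lit 380) (nat_lit 5109177440) (nat_lit 96) (nat_lit 5) (nat_lit 100) (nat_lit 5) (nat_lit 101) (nat_lit 5) (nat_lit 363) (nat_lit 289) (nat_lit 248)) (XT.lf (nat_lit 0) (nat_lit 243499169) (nat_lit 380) (nat_lit 6249265097) (nat_lit 76) (nat_lit 5670149020) (nat_lit 91) (nat_lit 5) (nat_lit 96) (nat_lit 5) (nat_lit 92) (nat_lit 5) (nat_lit 364) (nat_lit 289) (nat_lit 247))) (XT.nd (nat_lit 78) (nat_lit 608) (nat_lit 0) (XT.lf (nat_lit 0) (nat_lit 5235403492) (nat_lit 304) (nat_lit 447769120) (nat_lit 380) (nat_lit 6699594947) (nat_lit 87) (nat_lit 5) (nat_lit 91) (nat_lit 5) (nat_lit 92) (nat_lit 5) (nat_lit 365) (nat_lit 289) (nat_lit 246)) (XT.nd (nat_lit 78) (nat_lit 380) (nat_lit 0) (XT.lf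 (nat_lit 0) (nat_lit 4437178638) (nat_lit 228) (nat_lit 6880723807) (nat_lit 304) (nat_lit 1290693756) (nat_lit 84) (nat_lit 5) (nat_lit 87) (nat_lit 5) (nat_lit 88) (nat_lit 5) (nat_lit 366) (nat_lit 289) (nat_lit 245)) (XT.lf (nat_lit 0) (nat_lit 3517892828) (nat_lit 304) (nat_lit 704872767) (nat_lit 380) (nat_lit 8617924958) (nat_lit 79) (nat_lit 5) (nat_lit 83) (nat_lit 5) (nat_lit 84) (nat_lit 5) (nat_lit 367) (nat_lit 289) (nat_lit 244))))))))
noncomputable def xc28 : XT := (XT.nd (nat_lit 43134) (nat_lit 0) (nat_lit 17328) (XT.nd (nat_lit 780) (nat_lit 1672) (nat_lit 0) (XT.nd (nat_lit 390) (nat_lit 1216) (nat_lit 0) (XT.nd (nat_lit 156) (nat_lit 532) (nat_lit 0) (XT.nd (nat_lit 78) (nat_lit 380) (nat_lit 0) (XT.lf (nat_lit 0) (nat_lit 2454371241) (nat_lit 228) (nat_lit 7463181557) (nat_lit 304) (nat_lit 3161369962) (nat_lit 76) (nat_lit 5) (nat_lit 79) (nat_lit 5) (nat_lit 80) (nat_lit 5)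 (nat_lit 368) (nat_lit 289) (nat_lit 243)) (XT.lf (nat_lit 0) (nat_lit 1262701751) (nat_lit 304) (nat_lit 1166293995) (nat_lit 380) (nat_lit 10894953771) (nat_lit 71) (nat_lit 5) (nat_lit 75) (nat_lit 5) (nat_lit 76) (nat_lit 5) (nat_lit 369) (nat_lit 289) (nat_lit 242))) (XT.nd (nat_lit 78) (nat_lit 532) (nat_lit 0) (XT.lf (nat_lit 0) (nat_lit 8178305468) (nat_lit 380) (nat_lit 100409243) (nat_lit 76) (nat_lit 5296524477) (nat_lit 71) (nat_lit 5) (nat_lit 76) (nat_lit 5) (nat_lit 72) (nat_lit 5) (nat_lit 370) (nat_lit 289) (nat_lit 241)) (XT.nd (nat_lit 78) (nat_lit 228) (nat_lit 0) (XT.lf (nat_lit 0) (nat_lit 279053643) (nat_lit 304) (nat_lit 1581249793) (nat_lit 76) (nat_lit 11973412314) (nat_lit 67) (nat_lit 5) (nat_lit 71) (nat_lit 5) (nat_lit 68) (nat_lit 5) (nat_lit 371) (nat_lit 289) (nat_lit 240)) (XT.lf (nat_lit 0) (nat_lit 6084804308) (nat_lit 304) (nat_lit 3263538783) (nat_lit 76) (nat_lit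 4750246584) (nat_lit 64) (nat_lit 5) (nat_lit 68) (nat_lit 5) (nat_lit 65) (nat_lit 5) (nat_lit 372) (nat_lit 289) (nat_lit 239))))) (XT.nd (nat_lit 156) (nat_lit 684) (nat_lit 0) (XT.nd (nat_lit 78) (nat_lit 304) (nat_lit 0) (XT.lf (nat_lit 0) (nat_lit 9267260116) (nat_lit 228) (nat_lit 2811755956) (nat_lit 304) (nat_lit 2292120284) (nat_lit 61) (nat_lit 5) (nat_lit 64) (nat_lit 5) (nat_lit 65) (nat_lit 5) (nat_lit 373) (nat_lit 289) (nat_lit 238)) (XT.lf (nat_lit 0) (nat_lit 3582580651) (nat_lit 304) (nat_lit 7149789821) (nat_lit 76) (nat_lit 3918460729) (nat_lit 57) (nat_lit 5) (nat_lit 61) (nat_lit 5) (nat_lit 58) (nat_lit 5) (nat_lit 374) (nat_lit 289) (nat_lit 237))) (XT.nd (nat_lit 78) (nat_lit 456) (nat_lit 0) (XT.lf (nat_lit 0) (nat_lit 5539757001) (nat_lit 228) (nat_lit 4085045339) (nat_lit 304) (nat_lit 5313374494) (nat_lit 54) (nat_lit 5) (nat_lit 57) (nat_lit 5) (nat_lit 58) (nat_lit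 5) (nat_lit 375) (nat_lit 289) (nat_lit 236)) (XT.nd (nat_lit 78) (nat_lit 152) (nat_lit 0) (XT.lf (nat_lit 0) (nat_lit 628512125) (nat_lit 304) (nat_lit 11850444125) (nat_lit 76) (nat_lit 2754669286) (nat_lit 50) (nat_lit 5) (nat_lit 54) (nat_lit 5) (nat_lit 51) (nat_lit 5) (nat_lit 376) (nat_lit 289) (nat_lit 235)) (XT.lf (nat_lit 0) (nat_lit 977255882) (nat_lit 152) (nat_lit 5731750350) (nat_lit 228) (nat_lit 8827588773) (nat_lit 48) (nat_lit 5) (nat_lit 50) (nat_lit 5) (nat_lit 51) (nat_lit 5) (nat_lit 377) (nat_lit 289) (nat_lit 234)))))) (XT.nd (nat_lit 390) (nat_lit 760) (nat_lit 0) (XT.nd (nat_lit 156) (nat_lit 608) (nat_lit 0) (XT.nd (nat_lit 78) (nat_lit 304) (nat_lit 0) (XT.lf (nat_lit 0) (nat_lit 12995905219) (nat_lit 228) (nat_lit 1615164430) (nat_lit 76) (nat_lit 1237114316) (nat_lit 48) (nat_lit 5) (nat_lit 51) (nat_lit 5) (nat_lit 49) (nat_lit 5) (nat_lit 378) (nat_lit 289) (nat_lit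 233)) (XT.lf (nat_lit 0) (nat_lit 3310899941) (nat_lit 304) (nat_lit 4465532127) (nat_lit 76) (nat_lit 8391231034) (nat_lit 44) (nat_lit 5) (nat_lit 48) (nat_lit 5) (nat_lit 45) (nat_lit 5) (nat_lit 379) (nat_lit 289) (nat_lit 232))) (XT.nd (nat_lit 78) (nat_lit 456) (nat_lit 0) (XT.lf (nat_lit 0) (nat_lit 8935085354) (nat_lit 152) (nat_lit 692242935) (nat_lit 228) (nat_lit 6868888573) (nat_lit 42) (nat_lit 5) (nat_lit 44) (nat_lit 5) (nat_lit 45) (nat_lit 5) (nat_lit 380) (nat_lit 289) (nat_lit 231)) (XT.nd (nat_lit 78) (nat_lit 228) (nat_lit 0) (XT.lf (nat_lit 0) (nat_lit 5892327944) (nat_lit 228) (nat_lit 10291207139) (nat_lit 304) (nat_lit 650095596) (nat_lit 39) (nat_lit 5) (nat_lit 42) (nat_lit 5) (nat_lit 43) (nat_lit 5) (nat_lit 381) (nat_lit 289) (nat_lit 230)) (XT.lf (nat_lit 0) (nat_lit 2558184900) (nat_lit 152) (nat_lit 3133794311) (nat_lit 228) (nat_lit 11488205089) (nat_lit 36) (nat_lit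 5) (nat_lit 38) (nat_lit 5) (nat_lit 39) (nat_lit 5) (nat_lit 382) (nat_lit 289) (nat_lit 229))))) (XT.nd (nat_lit 156) (nat_lit 532) (nat_lit 0) (XT.nd (nat_lit 78) (nat_lit 228) (nat_lit 0) (XT.lf (nat_lit 0) (nat_lit 12257870539) (nat_lit 228) (nat_lit 1060556049) (nat_lit 76) (nat_lit 4217782729) (nat_lit 36) (nat_lit 5) (nat_lit 39) (nat_lit 5) (nat_lit 37) (nat_lit 5) (nat_lit 383) (nat_lit 289) (nat_lit 228)) (XT.lf (nat_lit 0) (nat_lit 1150461684) (nat_lit 228) (nat_lit 4954788412) (nat_lit 76) (nat_lit 11796581918) (nat_lit 33) (nat_lit 5) (nat_lit 36) (nat_lit 5) (nat_lit 34) (nat_lit 5) (nat_lit 384) (nat_lit 289) (nat_lit 227))) (XT.nd (nat_lit 78) (nat_lit 380) (nat_lit 0) (XT.lf (nat_lit 0) (nat_lit 7718671868) (nat_lit 228) (nat_lit 9192535230) (nat_lit 76) (nat_lit 1366161164) (nat_lit 31) (nat_lit 5) (nat_lit 34) (nat_lit 5) (nat_lit 32) (nat_lit 5) (nat_lit 385) (nat_lit 289) (nat_lit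 226)) (XT.nd (nat_lit 78) (nat_lit 228) (nat_lit 0) (XT.lf (nat_lit 0) (nat_lit 4872571421) (nat_lit 152) (nat_lit 9660949237) (nat_lit 228) (nat_lit 4129665684) (nat_lit 29) (nat_lit 5) (nat_lit 31) (nat_lit 5) (nat_lit 32) (nat_lit 5) (nat_lit 386) (nat_lit 289) (nat_lit 225)) (XT.lf (nat_lit 0) (nat_lit 314281276) (nat_lit 152) (nat_lit 2153977753) (nat_lit 228) (nat_lit 16591829353) (nat_lit 26) (nat_lit 5) (nat_lit 28) (nat_lit 5) (nat_lit 29) (nat_lit 5) (nat_lit 387) (nat_lit 289) (nat_lit 224))))))) (XT.nd (nat_lit 780) (nat_lit 7904) (nat_lit 0) (XT.nd (nat_lit 390) (nat_lit 6460) (nat_lit 0) (XT.nd (nat_lit 156) (nat_lit 4712) (nat_lit 0) (XT.nd (nat_lit 78) (nat_lit 1444) (nat_lit 0) (XT.lf (nat_lit 0) (nat_lit 1068777583) (nat_lit 1292) (nat_lit 1186139552) (nat_lit 1292) (nat_lit 1186139552) (nat_lit 524) (nat_lit 4) (nat_lit 541) (nat_lit 5) (nat_lit 541) (nat_lit 4) (nat_lit 320) (nat_lit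 290) (nat_lit 290)) (XT.lf (nat_lit 0) (nat_lit 2187420361) (nat_lit 1368) (nat_lit 311324555) (nat_lit 1444) (nat_lit 4429417805) (nat_lit 505) (nat_lit 5) (nat_lit 523) (nat_lit 5) (nat_lit 524) (nat_lit 4) (nat_lit 321) (nat_lit 290) (nat_lit 289))) (XT.nd (nat_lit 78) (nat_lit 3192) (nat_lit 0) (XT.lf (nat_lit 0) (nat_lit 408551084) (nat_lit 1520) (nat_lit 4700988062) (nat_lit 76) (nat_lit 1867628490) (nat_lit 485) (nat_lit 5) (nat_lit 505) (nat_lit 5) (nat_lit 486) (nat_lit 4) (nat_lit 322) (nat_lit 290) (nat_lit 288)) (XT.nd (nat_lit 78) (nat_lit 1672) (nat_lit 0) (XT.lf (nat_lit 0) (nat_lit 2400800705) (nat_lit 1520) (nat_lit 2831906207) (nat_lit 1596) (nat_lit 1796413361) (nat_lit 465) (nat_lit 5) (nat_lit 485) (nat_lit 5) (nat_lit 486) (nat_lit 4) (nat_lit 323) (nat_lit 290) (nat_lit 287)) (XT.lf (nat_lit 0) (nat_lit 2571228812) (nat_lit 1596) (nat_lit 408856813) (nat_lit 1672) (nat_lit 4104183595)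 (nat_lit 443) (nat_lit 5) (nat_lit 464) (nat_lit 5) (nat_lit 465) (nat_lit 5) (nat_lit 324) (nat_lit 290) (nat_lit 286))))) (XT.nd (nat_lit 156) (nat_lit 2964) (nat_lit 0) (XT.nd (nat_lit 78) (nat_lit 1748) (nat_lit 0) (XT.lf (nat_lit 0) (nat_lit 644390175) (nat_lit 1748) (nat_lit 4367140674) (nat_lit 76) (nat_lit 2130900596) (nat_lit 420) (nat_lit 5) (nat_lit 443) (nat_lit 5) (nat_lit 421) (nat_lit 5) (nat_lit 325) (nat_lit 290) (nat_lit 285)) (XT.lf (nat_lit 0) (nat_lit 3011017840) (nat_lit 1748) (nat_lit 2380989878) (nat_lit 1824) (nat_lit 1811618431) (nat_lit 397) (nat_lit 5) (nat_lit 420) (nat_lit 5) (nat_lit 421) (nat_lit 5) (nat_lit 326) (nat_lit 290) (nat_lit 284))) (XT.nd (nat_lit 78) (nat_lit 1824) (nat_lit 0) (XT.lf (nat_lit 0) (nat_lit 2890761321) (nat_lit 1140) (nat_lit 3983157477) (nat_lit 76) (nat_lit 394121505) (nat_lit 382) (nat_lit 5) (nat_lit 397) (nat_lit 5) (nat_lit 383) (nat_lit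 5) (nat_lit 327) (nat_lit 290) (nat_lit 283)) (XT.nd (nat_lit 78) (nat_lit 836) (nat_lit 0) (XT.lf (nat_lit 0) (nat_lit 302290093) (nat_lit 988) (nat_lit 3749002173) (nat_lit 76) (nat_lit 3284240990) (nat_lit 369) (nat_lit 5) (nat_lit 382) (nat_lit 5) (nat_lit 370) (nat_lit 5) (nat_lit 328) (nat_lit 290) (nat_lit 282)) (XT.lf (nat_lit 0) (nat_lit 3915106141) (nat_lit 836) (nat_lit 1067025708) (nat_lit 912) (nat_lit 2424021189) (nat_lit 358) (nat_lit 5) (nat_lit 369) (nat_lit 5) (nat_lit 370) (nat_lit 5) (nat_lit 329) (nat_lit 290) (nat_lit 281)))))) (XT.nd (nat_lit 390) (nat_lit 3648) (nat_lit 0) (XT.nd (nat_lit 156) (nat_lit 2508) (nat_lit 0) (XT.nd (nat_lit 78) (nat_lit 836) (nat_lit 0) (XT.lf (nat_lit 0) (nat_lit 2228310551) (nat_lit 912) (nat_lit 3210302164) (nat_lit 76) (nat_lit 2041335431) (nat_lit 346) (nat_lit 5) (nat_lit 358) (nat_lit 5) (nat_lit 347) (nat_lit 5) (nat_lit 330) (nat_lit 290)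 (nat_lit 280)) (XT.lf (nat_lit 0) (nat_lit 4653022971) (nat_lit 836) (nat_lit 2266977530) (nat_lit 912) (nat_lit 637044410) (nat_lit 335) (nat_lit 5) (nat_lit 346) (nat_lit 5) (nat_lit 347) (nat_lit 5) (nat_lit 331) (nat_lit 290) (nat_lit 279))) (XT.nd (nat_lit 78) (nat_lit 1596) (nat_lit 0) (XT.lf (nat_lit 0) (nat_lit 3997038856) (nat_lit 912) (nat_lit 2584129909) (nat_lit 76) (nat_lit 1056110318) (nat_lit 323) (nat_lit 5) (nat_lit 335) (nat_lit 5) (nat_lit 324) (nat_lit 5) (nat_lit 332) (nat_lit 290) (nat_lit 278)) (XT.nd (nat_lit 78) (nat_lit 760) (nat_lit 0) (XT.lf (nat_lit 0) (nat_lit 974238842) (nat_lit 836) (nat_lit 2245384607) (nat_lit 76) (nat_lit 4501209207) (nat_lit 312) (nat_lit 5) (nat_lit 323) (nat_lit 5) (nat_lit 313) (nat_lit 5) (nat_lit 333) (nat_lit 290) (nat_lit 277)) (XT.lf (nat_lit 0) (nat_lit 5613944434) (nat_lit 836) (nat_lit 1889991191) (nat_lit 76) (nat_lit 303806133) (nat_lit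 302) (nat_lit 5) (nat_lit 313) (nat_lit 5) (nat_lit 303) (nat_lit 5) (nat_lit 334) (nat_lit 290) (nat_lit 276))))) (XT.nd (nat_lit 156) (nat_lit 2128) (nat_lit 0) (XT.nd (nat_lit 78) (nat_lit 760) (nat_lit 0) (XT.lf (nat_lit 0) (nat_lit 2421275382) (nat_lit 760) (nat_lit 1531535185) (nat_lit 76) (nat_lit 3945007541) (nat_lit 292) (nat_lit 5) (nat_lit 302) (nat_lit 5) (nat_lit 293) (nat_lit 5) (nat_lit 335) (nat_lit 290) (nat_lit 275)) (XT.lf (nat_lit 0) (nat_lit 6842291676) (nat_lit 760) (nat_lit 242418989) (nat_lit 836) (nat_lit 906852704) (nat_lit 282) (nat_lit 5) (nat_lit 292) (nat_lit 5) (nat_lit 293) (nat_lit 5) (nat_lit 336) (nat_lit 290) (nat_lit 274))) (XT.nd (nat_lit 78) (nat_lit 1368) (nat_lit 0) (XT.lf (nat_lit 0) (nat_lit 3715763961) (nat_lit 760) (nat_lit 778460513) (nat_lit 76) (nat_lit 3594138125) (nat_lit 272) (nat_lit 5) (nat_lit 282) (nat_lit 5) (nat_lit 273) (nat_lit 5) (nat_lit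 337) (nat_lit 290) (nat_lit 273)) (XT.nd (nat_lit 78) (nat_lit 608) (nat_lit 0) (XT.lf (nat_lit 0) (nat_lit 219303993) (nat_lit 760) (nat_lit 382920652) (nat_lit 76) (nat_lit 7586808662) (nat_lit 262) (nat_lit 5) (nat_lit 272) (nat_lit 5) (nat_lit 263) (nat_lit 5) (nat_lit 338) (nat_lit 290) (nat_lit 272)) (XT.lf (nat_lit 0) (nat_lit 4859662592) (nat_lit 684) (nat_lit 6871888) (nat_lit 76) (nat_lit 3426254310) (nat_lit 254) (nat_lit 5) (nat_lit 263) (nat_lit 5) (nat_lit 255) (nat_lit 5) (nat_lit 339) (nat_lit 290) (nat_lit 271))))))))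
noncomputable def xc29 : XT := (XT.nd (nat_lit 1560) (nat_lit 5320) (nat_lit 0) (XT.nd (nat_lit 780) (nat_lit 4332) (nat_lit 0) (XT.nd (nat_lit 390) (nat_lit 2584) (nat_lit 0) (XT.nd (nat_lit 156) (nat_lit 1824) (nat_lit 0) (XT.nd (nat_lit 78) (nat_lit 608) (nat_lit 0) (XT.lf (nat_lit 0) (nat_lit 391632385) (nat_lit 608) (nat_lit 787814286) (nat_lit 684) (nat_lit 7220969384) (nat_lit 237) (nat_lit 5) (nat_lit 245) (nat_lit 5) (nat_lit 246) (nat_lit 5) (nat_lit 340) (nat_lit 290) (nat_lit 270)) (XT.lf (nat_lit 0) (nat_lit 771848815) (nat_lit 608) (nat_lit 5086685203) (nat_lit 684) (nat_lit 2652830077) (nat_lit 229) (nat_lit 5) (nat_lit 237) (nat_lit 5) (nat_lit 238) (nat_lit 5) (nat_lit 341) (nat_lit 290) (nat_lit 269))) (XT.nd (nat_lit 78) (nat_lit 1216) (nat_lit 0) (XT.lf (nat_lit 0) (nat_lit 1158002325) (nat_lit 532) (nat_lit 827072071) (nat_lit 608) (nat_lit 6641146338) (nat_lit 221) (nat_lit 5)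 (nat_lit 228) (nat_lit 5) (nat_lit 229) (nat_lit 5) (nat_lit 342) (nat_lit 290) (nat_lit 268)) (XT.nd (nat_lit 78) (nat_lit 608) (nat_lit 0) (XT.lf (nat_lit 0) (nat_lit 1524816204) (nat_lit 608) (nat_lit 5181540158) (nat_lit 684) (nat_lit 2038248640) (nat_lit 213) (nat_lit 5) (nat_lit 221) (nat_lit 5) (nat_lit 222) (nat_lit 5) (nat_lit 343) (nat_lit 290) (nat_lit 267)) (XT.lf (nat_lit 0) (nat_lit 1887624023) (nat_lit 532) (nat_lit 744131652) (nat_lit 608) (nat_lit 6235181262) (nat_lit 205) (nat_lit 5) (nat_lit 212) (nat_lit 5) (nat_lit 213) (nat_lit 5) (nat_lit 344) (nat_lit 290) (nat_lit 266))))) (XT.nd (nat_lit 156) (nat_lit 1520) (nat_lit 0) (XT.nd (nat_lit 78) (nat_lit 532) (nat_lit 0) (XT.lf (nat_lit 0) (nat_lit 2227868606) (nat_lit 532) (nat_lit 5172687221) (nat_lit 608) (nat_lit 1592421167) (nat_lit 198) (nat_lit 5) (nat_lit 205) (nat_lit 5) (nat_lit 206) (nat_lit 5) (nat_lit 345) (nat_lit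 290) (nat_lit 265)) (XT.lf (nat_lit 0) (nat_lit 2555648426) (nat_lit 456) (nat_lit 560394511) (nat_lit 532) (nat_lit 6007009725) (nat_lit 191) (nat_lit 5) (nat_lit 197) (nat_lit 5) (nat_lit 198) (nat_lit 5) (nat_lit 346) (nat_lit 290) (nat_lit 264))) (XT.nd (nat_lit 78) (nat_lit 988) (nat_lit 0) (XT.lf (nat_lit 0) (nat_lit 2855430858) (nat_lit 532) (nat_lit 5081620799) (nat_lit 608) (nat_lit 1319942600) (nat_lit 184) (nat_lit 5) (nat_lit 191) (nat_lit 5) (nat_lit 192) (nat_lit 5) (nat_lit 347) (nat_lit 290) (nat_lit 263)) (XT.nd (nat_lit 78) (nat_lit 456) (nat_lit 0) (XT.lf (nat_lit 0) (nat_lit 3135596169) (nat_lit 456) (nat_lit 297290782) (nat_lit 532) (nat_lit 5962219668) (nat_lit 177) (nat_lit 5) (nat_lit 183) (nat_lit 5) (nat_lit 184) (nat_lit 5) (nat_lit 348) (nat_lit 290) (nat_lit 262)) (XT.lf (nat_lit 0) (nat_lit 3380156527) (nat_lit 456) (nat_lit 4929980928) (nat_lit 532) (nat_lit 1227085227)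 (nat_lit 171) (nat_lit 5) (nat_lit 177) (nat_lit 5) (nat_lit 178) (nat_lit 5) (nat_lit 349) (nat_lit 290) (nat_lit 261)))))) (XT.nd (nat_lit 390) (nat_lit 1976) (nat_lit 0) (XT.nd (nat_lit 156) (nat_lit 1368) (nat_lit 0) (XT.nd (nat_lit 78) (nat_lit 456) (nat_lit 0) (XT.lf (nat_lit 0) (nat_lit 3575708921) (nat_lit 532) (nat_lit 6084762400) (nat_lit 76) (nat_lit 23216129) (nat_lit 164) (nat_lit 5) (nat_lit 171) (nat_lit 5) (nat_lit 165) (nat_lit 5) (nat_lit 350) (nat_lit 290) (nat_lit 260)) (XT.lf (nat_lit 0) (nat_lit 3772640995) (nat_lit 456) (nat_lit 4739752032) (nat_lit 532) (nat_lit 1321889280) (nat_lit 158) (nat_lit 5) (nat_lit 164) (nat_lit 5) (nat_lit 165) (nat_lit 5) (nat_lit 351) (nat_lit 290) (nat_lit 259))) (XT.nd (nat_lit 78) (nat_lit 912) (nat_lit 0) (XT.lf (nat_lit 0) (nat_lit 3538007932) (nat_lit 456) (nat_lit 6076408101) (nat_lit 76) (nat_lit 374986220) (nat_lit 152) (nat_lit 5) (nat_lit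 158) (nat_lit 5) (nat_lit 153) (nat_lit 5) (nat_lit 352) (nat_lit 290) (nat_lit 258)) (XT.nd (nat_lit 78) (nat_lit 456) (nat_lit 0) (XT.lf (nat_lit 0) (nat_lit 4001111373) (nat_lit 456) (nat_lit 4533469145) (nat_lit 532) (nat_lit 1614269564) (nat_lit 146) (nat_lit 5) (nat_lit 152) (nat_lit 5) (nat_lit 153) (nat_lit 5) (nat_lit 353) (nat_lit 290) (nat_lit 257)) (XT.lf (nat_lit 0) (nat_lit 3307306189) (nat_lit 456) (nat_lit 6266196196) (nat_lit 76) (nat_lit 739495998) (nat_lit 140) (nat_lit 5) (nat_lit 146) (nat_lit 5) (nat_lit 141) (nat_lit 5) (nat_lit 354) (nat_lit 290) (nat_lit 256))))) (XT.nd (nat_lit 156) (nat_lit 1140) (nat_lit 0) (XT.nd (nat_lit 78) (nat_lit 456) (nat_lit 0) (XT.lf (nat_lit 0) (nat_lit 4031090285) (nat_lit 380) (nat_lit 4334433431) (nat_lit 456) (nat_lit 2116139324) (nat_lit 135) (nat_lit 5) (nat_lit 140) (nat_lit 5) (nat_lit 141) (nat_lit 5) (nat_lit 355) (nat_lit 290) (nat_lit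 255)) (XT.lf (nat_lit 0) (nat_lit 2871030484) (nat_lit 456) (nat_lit 6690741219) (nat_lit 76) (nat_lit 1093474879) (nat_lit 129) (nat_lit 5) (nat_lit 135) (nat_lit 5) (nat_lit 130) (nat_lit 5) (nat_lit 356) (nat_lit 290) (nat_lit 254))) (XT.nd (nat_lit 78) (nat_lit 760) (nat_lit 0) (XT.lf (nat_lit 0) (nat_lit 3825030288) (nat_lit 380) (nat_lit 4166938895) (nat_lit 456) (nat_lit 2841552645) (nat_lit 124) (nat_lit 5) (nat_lit 129) (nat_lit 5) (nat_lit 130) (nat_lit 5) (nat_lit 357) (nat_lit 290) (nat_lit 253)) (XT.nd (nat_lit 78) (nat_lit 380) (nat_lit 0) (XT.lf (nat_lit 0) (nat_lit 2214431868) (nat_lit 380) (nat_lit 7389977449) (nat_lit 76) (nat_lit 1412574043) (nat_lit 119) (nat_lit 5) (nat_lit 124) (nat_lit 5) (nat_lit 120) (nat_lit 5) (nat_lit 358) (nat_lit 290) (nat_lit 252)) (XT.lf (nat_lit 0) (nat_lit 3341915423) (nat_lit 380) (nat_lit 4056512360) (nat_lit 456) (nat_lit 3806866911) (nat_lit 114)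 (nat_lit 5) (nat_lit 119) (nat_lit 5) (nat_lit 120) (nat_lit 5) (nat_lit 359) (nat_lit 290) (nat_lit 251))))))) (XT.nd (nat_lit 780) (nat_lit 2356) (nat_lit 0) (XT.nd (nat_lit 390) (nat_lit 1292) (nat_lit 0) (XT.nd (nat_lit 156) (nat_lit 988) (nat_lit 0) (XT.nd (nat_lit 78) (nat_lit 304) (nat_lit 0) (XT.lf (nat_lit 0) (nat_lit 1320414975) (nat_lit 380) (nat_lit 8407578067) (nat_lit 76) (nat_lit 1671122190) (nat_lit 109) (nat_lit 5) (nat_lit 114) (nat_lit 5) (nat_lit 110) (nat_lit 5) (nat_lit 360) (nat_lit 290) (nat_lit 250)) (XT.lf (nat_lit 0) (nat_lit 2536826032) (nat_lit 304) (nat_lit 4030168877) (nat_lit 380) (nat_lit 5030927021) (nat_lit 105) (nat_lit 5) (nat_lit 109) (nat_lit 5) (nat_lit 110) (nat_lit 5) (nat_lit 361) (nat_lit 290) (nat_lit 249))) (XT.nd (nat_lit 78) (nat_lit 608) (nat_lit 0) (XT.lf (nat_lit 0) (nat_lit 169345011) (nat_lit 380) (nat_lit 9791413455) (nat_lit 76) (nat_lit 1841864965)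 (nat_lit 100) (nat_lit 5) (nat_lit 105) (nat_lit 5) (nat_lit 101) (nat_lit 5) (nat_lit 362) (nat_lit 290) (nat_lit 248)) (XT.nd (nat_lit 78) (nat_lit 304) (nat_lit 0) (XT.lf (nat_lit 0) (nat_lit 1360462621) (nat_lit 304) (nat_lit 4116684955) (nat_lit 380) (nat_lit 6535273237) (nat_lit 96) (nat_lit 5) (nat_lit 100) (nat_lit 5) (nat_lit 101) (nat_lit 5) (nat_lit 363) (nat_lit 290) (nat_lit 247)) (XT.lf (nat_lit 0) (nat_lit 626052950) (nat_lit 304) (nat_lit 10324420405) (nat_lit 380) (nat_lit 1277929858) (nat_lit 92) (nat_lit 5) (nat_lit 96) (nat_lit 5) (nat_lit 97) (nat_lit 5) (nat_lit 364) (nat_lit 290) (nat_lit 246))))) (XT.nd (nat_lit 156) (nat_lit 912) (nat_lit 0) (XT.nd (nat_lit 78) (nat_lit 304) (nat_lit 0) (XT.lf (nat_lit 0) (nat_lit 4107083449) (nat_lit 380) (nat_lit 238210171) (nat_lit 76) (nat_lit 8104566130) (nat_lit 91) (nat_lit 5) (nat_lit 96) (nat_lit 5) (nat_lit 92) (nat_lit 5) (nat_lit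 365) (nat_lit 290) (nat_lit 245)) (XT.lf (nat_lit 0) (nat_lit 9649252638) (nat_lit 380) (nat_lit 1199385588) (nat_lit 76) (nat_lit 1828909063) (nat_lit 87) (nat_lit 5) (nat_lit 92) (nat_lit 5) (nat_lit 88) (nat_lit 5) (nat_lit 366) (nat_lit 290) (nat_lit 244))) (XT.nd (nat_lit 78) (nat_lit 608) (nat_lit 0) (XT.lf (nat_lit 0) (nat_lit 2440746583) (nat_lit 304) (nat_lit 2297827483) (nat_lit 76) (nat_lit 8172644662) (nat_lit 83) (nat_lit 5) (nat_lit 87) (nat_lit 5) (nat_lit 84) (nat_lit 5) (nat_lit 367) (nat_lit 290) (nat_lit 243)) (XT.nd (nat_lit 78) (nat_lit 304) (nat_lit 0) (XT.lf (nat_lit 0) (nat_lit 8042303246) (nat_lit 380) (nat_lit 3527533604) (nat_lit 76) (nat_lit 1581485798) (nat_lit 79) (nat_lit 5) (nat_lit 84) (nat_lit 5) (nat_lit 80) (nat_lit 5) (nat_lit 368) (nat_lit 290) (nat_lit 242)) (XT.lf (nat_lit 0) (nat_lit 439871284) (nat_lit 304) (nat_lit 4901146918) (nat_lit 76) (nat_lit 8056931244)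 (nat_lit 75) (nat_lit 5) (nat_lit 79) (nat_lit 5) (nat_lit 76) (nat_lit 5) (nat_lit 369) (nat_lit 290) (nat_lit 241)))))) (XT.nd (nat_lit 390) (nat_lit 988) (nat_lit 0) (XT.nd (nat_lit 156) (nat_lit 836) (nat_lit 0) (XT.nd (nat_lit 78) (nat_lit 228) (nat_lit 0) (XT.lf (nat_lit 0) (nat_lit 6094670852) (nat_lit 380) (nat_lit 6434764184) (nat_lit 76) (nat_lit 1121700846) (nat_lit 71) (nat_lit 5) (nat_lit 76) (nat_lit 5) (nat_lit 72) (nat_lit 5) (nat_lit 370) (nat_lit 290) (nat_lit 240)) (XT.lf (nat_lit 0) (nat_lit 5778698696) (nat_lit 228) (nat_lit 6178207857) (nat_lit 304) (nat_lit 1954268448) (nat_lit 68) (nat_lit 5) (nat_lit 71) (nat_lit 5) (nat_lit 72) (nat_lit 5) (nat_lit 371) (nat_lit 290) (nat_lit 239))) (XT.nd (nat_lit 78) (nat_lit 532) (nat_lit 0) (XT.lf (nat_lit 0) (nat_lit 3771649486) (nat_lit 304) (nat_lit 9996312536) (nat_lit 76) (nat_lit 410456001) (nat_lit 64) (nat_lit 5) (nat_lit 68)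 (nat_lit 5) (nat_lit 65) (nat_lit 5) (nat_lit 372) (nat_lit 290) (nat_lit 238)) (XT.nd (nat_lit 78) (nat_lit 304) (nat_lit 0) (XT.lf (nat_lit 0) (nat_lit 2388766720) (nat_lit 228) (nat_lit 7299383326) (nat_lit 304) (nat_lit 4764374769) (nat_lit 61) (nat_lit 5) (nat_lit 64) (nat_lit 5) (nat_lit 65) (nat_lit 5) (nat_lit 373) (nat_lit 290) (nat_lit 237)) (XT.lf (nat_lit 0) (nat_lit 435448472) (nat_lit 228) (nat_lit 602813333) (nat_lit 304) (nat_lit 13696374256) (nat_lit 57) (nat_lit 5) (nat_lit 60) (nat_lit 5) (nat_lit 61) (nat_lit 5) (nat_lit 374) (nat_lit 290) (nat_lit 236))))) (XT.nd (nat_lit 156) (nat_lit 760) (nat_lit 0) (XT.nd (nat_lit 78) (nat_lit 228) (nat_lit 0) (XT.lf (nat_lit 0) (nat_lit 7008394378) (nat_lit 304) (nat_lit 1733038178) (nat_lit 76) (nat_lit 6281996362) (nat_lit 57) (nat_lit 5) (nat_lit 61) (nat_lit 5) (nat_lit 58) (nat_lit 5) (nat_lit 375) (nat_lit 290) (nat_lit 235)) (XT.lf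 (nat_lit 0) (nat_lit 11245834783) (nat_lit 228) (nat_lit 1925365971) (nat_lit 304) (nat_lit 2149424131) (nat_lit 54) (nat_lit 5) (nat_lit 57) (nat_lit 5) (nat_lit 58) (nat_lit 5) (nat_lit 376) (nat_lit 290) (nat_lit 234))) (XT.nd (nat_lit 78) (nat_lit 456) (nat_lit 0) (XT.lf (nat_lit 0) (nat_lit 3882033569) (nat_lit 304) (nat_lit 6662391421) (nat_lit 76) (nat_lit 5080998032) (nat_lit 50) (nat_lit 5) (nat_lit 54) (nat_lit 5) (nat_lit 51) (nat_lit 5) (nat_lit 377) (nat_lit 290) (nat_lit 233)) (XT.nd (nat_lit 78) (nat_lit 304) (nat_lit 0) (XT.lf (nat_lit 0) (nat_lit 6460201813) (nat_lit 152) (nat_lit 3625935683) (nat_lit 228) (nat_lit 5852535265) (nat_lit 48) (nat_lit 5) (nat_lit 50) (nat_lit 5) (nat_lit 51) (nat_lit 5) (nat_lit 378) (nat_lit 290) (nat_lit 232)) (XT.lf (nat_lit 0) (nat_lit 243762092) (nat_lit 304) (nat_lit 12534452290) (nat_lit 76) (nat_lit 3482456361) (nat_lit 44) (nat_lit 5) (nat_lit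 48) (nat_lit 5) (nat_lit 45) (nat_lit 5) (nat_lit 379) (nat_lit 290) (nat_lit 231))))))))
noncomputable def xc30 : XT := (XT.nd (nat_lit 42978) (nat_lit 0) (nat_lit 10792) (XT.nd (nat_lit 42198) (nat_lit 0) (nat_lit 25004) (XT.nd (nat_lit 390) (nat_lit 380) (nat_lit 0) (XT.nd (nat_lit 156) (nat_lit 608) (nat_lit 0) (XT.nd (nat_lit 78) (nat_lit 0) (nat_lit 0) (XT.lf (nat_lit 0) (nat_lit 706837397) (nat_lit 152) (nat_lit 5770208075) (nat_lit 228) (nat_lit 10113846441) (nat_lit 42) (nat_lit 5) (nat_lit 44) (nat_lit 5) (nat_lit 45) (nat_lit 5) (nat_lit 380) (nat_lit 290) (nat_lit 230)) (XT.lf (nat_lit 0) (nat_lit 12932702507) (nat_lit 228) (nat_lit 2525932378) (nat_lit 76) (nat_lit 1471686218) (nat_lit 42) (nat_lit 5) (nat_lit 45) (nat_lit 5) (nat_lit 43) (nat_lit 5) (nat_lit 381) (nat_lit 290) (nat_lit 229))) (XT.nd (nat_lit 78) (nat_lit 304) (nat_lit 0) (XT.lf (nat_lit 0) (nat_lit 2326032027) (nat_lit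 304) (nat_lit 6052962638) (nat_lit 76) (nat_lit 8899565465) (nat_lit 38) (nat_lit 5) (nat_lit 42) (nat_lit 5) (nat_lit 39) (nat_lit 5) (nat_lit 382) (nat_lit 290) (nat_lit 228)) (XT.nd (nat_lit 78) (nat_lit 152) (nat_lit 0) (XT.lf (nat_lit 0) (nat_lit 7762599882) (nat_lit 152) (nat_lit 1033283934) (nat_lit 228) (nat_lit 8840626170) (nat_lit 36) (nat_lit 5) (nat_lit 38) (nat_lit 5) (nat_lit 39) (nat_lit 5) (nat_lit 383) (nat_lit 290) (nat_lit 227)) (XT.lf (nat_lit 0) (nat_lit 3981693498) (nat_lit 152) (nat_lit 11531312075) (nat_lit 228) (nat_lit 2491137251) (nat_lit 34) (nat_lit 5) (nat_lit 36) (nat_lit 5) (nat_lit 37) (nat_lit 5) (nat_lit 384) (nat_lit 290) (nat_lit 226))))) (XT.nd (nat_lit 156) (nat_lit 152) (nat_lit 0) (XT.nd (nat_lit 78) (nat_lit 152) (nat_lit 0) (XT.lf (nat_lit 0) (nat_lit 4014251755) (nat_lit 228) (nat_lit 125075050) (nat_lit 76) (nat_lit 14242589347) (nat_lit 33) (nat_lit 5)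 (nat_lit 36) (nat_lit 5) (nat_lit 34) (nat_lit 5) (nat_lit 385) (nat_lit 290) (nat_lit 225)) (XT.lf (nat_lit 0) (nat_lit 10742657975) (nat_lit 228) (nat_lit 4528532192) (nat_lit 76) (nat_lit 3498276547) (nat_lit 31) (nat_lit 5) (nat_lit 34) (nat_lit 5) (nat_lit 32) (nat_lit 5) (nat_lit 386) (nat_lit 290) (nat_lit 224))) (XT.nd (nat_lit 41496) (nat_lit 0) (nat_lit 38912) (XT.lf (nat_lit 0) (nat_lit 9878385611) (nat_lit 152) (nat_lit 7833785810) (nat_lit 228) (nat_lit 1455694428) (nat_lit 29) (nat_lit 5) (nat_lit 31) (nat_lit 5) (nat_lit 32) (nat_lit 5) (nat_lit 387) (nat_lit 290) (nat_lit 223)) (XT.nd (nat_lit 78) (nat_lit 1292) (nat_lit 0) (XT.lf (nat_lit 0) (nat_lit 1127615295) (nat_lit 1140) (nat_lit 1135641048) (nat_lit 1140) (nat_lit 1135641048) (nat_lit 558) (nat_lit 4) (nat_lit 573) (nat_lit 5) (nat_lit 573) (nat_lit 4) (nat_lit 318) (nat_lit 291) (nat_lit 291)) (XT.lf (nat_lit 0) (nat_lit 2139799370)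 (nat_lit 1216) (nat_lit 407013494) (nat_lit 1292) (nat_lit 4292416156) (nat_lit 541) (nat_lit 5) (nat_lit 557) (nat_lit 5) (nat_lit 558) (nat_lit 4) (nat_lit 319) (nat_lit 291) (nat_lit 290)))))) (XT.nd (nat_lit 390) (nat_lit 6460) (nat_lit 0) (XT.nd (nat_lit 156) (nat_lit 4712) (nat_lit 0) (XT.nd (nat_lit 78) (nat_lit 1368) (nat_lit 0) (XT.lf (nat_lit 0) (nat_lit 489542655) (nat_lit 1368) (nat_lit 4817013909) (nat_lit 76) (nat_lit 1577059094) (nat_lit 523) (nat_lit 5) (nat_lit 541) (nat_lit 5) (nat_lit 524) (nat_lit 4) (nat_lit 320) (nat_lit 291) (nat_lit 289)) (XT.lf (nat_lit 0) (nat_lit 2030778028) (nat_lit 1368) (nat_lit 3223385441) (nat_lit 1444) (nat_lit 1676744666) (nat_lit 505) (nat_lit 5) (nat_lit 523) (nat_lit 5) (nat_lit 524) (nat_lit 4) (nat_lit 321) (nat_lit 291) (nat_lit 288))) (XT.nd (nat_lit 78) (nat_lit 3192) (nat_lit 0) (XT.lf (nat_lit 0) (nat_lit 2041549497) (nat_lit 1444) (nat_lit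 996621064) (nat_lit 1520) (nat_lit 3943167269) (nat_lit 485) (nat_lit 5) (nat_lit 504) (nat_lit 5) (nat_lit 505) (nat_lit 5) (nat_lit 322) (nat_lit 291) (nat_lit 287)) (XT.nd (nat_lit 78) (nat_lit 1596) (nat_lit 0) (XT.lf (nat_lit 0) (nat_lit 737832410) (nat_lit 1596) (nat_lit 4942376133) (nat_lit 76) (nat_lit 1354621988) (nat_lit 464) (nat_lit 5) (nat_lit 485) (nat_lit 5) (nat_lit 465) (nat_lit 5) (nat_lit 323) (nat_lit 291) (nat_lit 286)) (XT.lf (nat_lit 0) (nat_lit 2173319577) (nat_lit 1596) (nat_lit 3244694867) (nat_lit 1672) (nat_lit 1673226806) (nat_lit 443) (nat_lit 5) (nat_lit 464) (nat_lit 5) (nat_lit 465) (nat_lit 5) (nat_lit 324) (nat_lit 291) (nat_lit 285))))) (XT.nd (nat_lit 156) (nat_lit 2888) (nat_lit 0) (XT.nd (nat_lit 78) (nat_lit 1824) (nat_lit 0) (XT.lf (nat_lit 0) (nat_lit 2295607301) (nat_lit 1672) (nat_lit 661581559) (nat_lit 1748) (nat_lit 4193662448) (nat_lit 420) (nat_lit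 5) (nat_lit 442) (nat_lit 5) (nat_lit 443) (nat_lit 5) (nat_lit 325) (nat_lit 291) (nat_lit 284)) (XT.lf (nat_lit 0) (nat_lit 410388020) (nat_lit 1824) (nat_lit 4763554842) (nat_lit 76) (nat_lit 2039593516) (nat_lit 396) (nat_lit 5) (nat_lit 420) (nat_lit 5) (nat_lit 397) (nat_lit 5) (nat_lit 326) (nat_lit 291) (nat_lit 283))) (XT.nd (nat_lit 78) (nat_lit 1824) (nat_lit 0) (XT.lf (nat_lit 0) (nat_lit 2629204375) (nat_lit 1064) (nat_lit 2386546394) (nat_lit 1140) (nat_lit 2263464768) (nat_lit 382) (nat_lit 5) (nat_lit 396) (nat_lit 5) (nat_lit 397) (nat_lit 5) (nat_lit 327) (nat_lit 291) (nat_lit 282)) (XT.nd (nat_lit 78) (nat_lit 836) (nat_lit 0) (XT.lf (nat_lit 0) (nat_lit 2302670615) (nat_lit 988) (nat_lit 4503201277) (nat_lit 76) (nat_lit 542309739) (nat_lit 369) (nat_lit 5) (nat_lit 382) (nat_lit 5) (nat_lit 370) (nat_lit 5) (nat_lit 328) (nat_lit 291) (nat_lit 281)) (XT.lf (nat_lit 0) (nat_lit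 3082983778) (nat_lit 836) (nat_lit 3830243040) (nat_lit 912) (nat_lit 506992746) (nat_lit 358) (nat_lit 5) (nat_lit 369) (nat_lit 5) (nat_lit 370) (nat_lit 5) (nat_lit 329) (nat_lit 291) (nat_lit 280))))))) (XT.nd (nat_lit 780) (nat_lit 6308) (nat_lit 0) (XT.nd (nat_lit 390) (nat_lit 3648) (nat_lit 0) (XT.nd (nat_lit 156) (nat_lit 2432) (nat_lit 0) (XT.nd (nat_lit 78) (nat_lit 912) (nat_lit 0) (XT.lf (nat_lit 0) (nat_lit 3345621112) (nat_lit 836) (nat_lit 692162679) (nat_lit 912) (nat_lit 3457661088) (nat_lit 346) (nat_lit 5) (nat_lit 357) (nat_lit 5) (nat_lit 358) (nat_lit 5) (nat_lit 330) (nat_lit 291) (nat_lit 279)) (XT.lf (nat_lit 0) (nat_lit 1068645506) (nat_lit 912) (nat_lit 3943312697) (nat_lit 76) (nat_lit 2561924865) (nat_lit 334) (nat_lit 5) (nat_lit 346) (nat_lit 5) (nat_lit 335) (nat_lit 5) (nat_lit 331) (nat_lit 291) (nat_lit 278))) (XT.nd (nat_lit 78) (nat_lit 1596) (nat_lit 0) (XT.lf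 (nat_lit 0) (nat_lit 3935370726) (nat_lit 836) (nat_lit 1684171780) (nat_lit 912) (nat_lit 2036017172) (nat_lit 323) (nat_lit 5) (nat_lit 334) (nat_lit 5) (nat_lit 335) (nat_lit 5) (nat_lit 332) (nat_lit 291) (nat_lit 277)) (XT.nd (nat_lit 78) (nat_lit 760) (nat_lit 0) (XT.lf (nat_lit 0) (nat_lit 2478819095) (nat_lit 836) (nat_lit 3482891778) (nat_lit 76) (nat_lit 1778793289) (nat_lit 312) (nat_lit 5) (nat_lit 323) (nat_lit 5) (nat_lit 313) (nat_lit 5) (nat_lit 333) (nat_lit 291) (nat_lit 276)) (XT.lf (nat_lit 0) (nat_lit 4598458429) (nat_lit 760) (nat_lit 2451095567) (nat_lit 836) (nat_lit 779265050) (nat_lit 302) (nat_lit 5) (nat_lit 312) (nat_lit 5) (nat_lit 313) (nat_lit 5) (nat_lit 334) (nat_lit 291) (nat_lit 275))))) (XT.nd (nat_lit 156) (nat_lit 2052) (nat_lit 0) (XT.nd (nat_lit 78) (nat_lit 836) (nat_lit 0) (XT.lf (nat_lit 0) (nat_lit 3734449741) (nat_lit 760) (nat_lit 2972392294) (nat_lit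 76) (nat_lit 1213550899) (nat_lit 292) (nat_lit 5) (nat_lit 302) (nat_lit 5) (nat_lit 293) (nat_lit 5) (nat_lit 335) (nat_lit 291) (nat_lit 274)) (XT.lf (nat_lit 0) (nat_lit 312010644) (nat_lit 836) (nat_lit 2702356804) (nat_lit 76) (nat_lit 5001078873) (nat_lit 281) (nat_lit 5) (nat_lit 292) (nat_lit 5) (nat_lit 282) (nat_lit 5) (nat_lit 336) (nat_lit 291) (nat_lit 273))) (XT.nd (nat_lit 78) (nat_lit 1368) (nat_lit 0) (XT.lf (nat_lit 0) (nat_lit 4838450732) (nat_lit 760) (nat_lit 2431952034) (nat_lit 76) (nat_lit 843433882) (nat_lit 272) (nat_lit 5) (nat_lit 282) (nat_lit 5) (nat_lit 273) (nat_lit 5) (nat_lit 337) (nat_lit 291) (nat_lit 272)) (XT.nd (nat_lit 78) (nat_lit 608) (nat_lit 0) (XT.lf (nat_lit 0) (nat_lit 1235988418) (nat_lit 760) (nat_lit 2158640742) (nat_lit 76) (nat_lit 4821080561) (nat_lit 262) (nat_lit 5) (nat_lit 272) (nat_lit 5) (nat_lit 263) (nat_lit 5) (nat_lit 338) (nat_lit 291)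 (nat_lit 271)) (XT.lf (nat_lit 0) (nat_lit 5792364923) (nat_lit 684) (nat_lit 1882329890) (nat_lit 76) (nat_lit 646471468) (nat_lit 254) (nat_lit 5) (nat_lit 263) (nat_lit 5) (nat_lit 255) (nat_lit 5) (nat_lit 339) (nat_lit 291) (nat_lit 270)))))) (XT.nd (nat_lit 390) (nat_lit 3116) (nat_lit 0) (XT.nd (nat_lit 156) (nat_lit 1900) (nat_lit 0) (XT.nd (nat_lit 78) (nat_lit 608) (nat_lit 0) (XT.lf (nat_lit 0) (nat_lit 2003629500) (nat_lit 684) (nat_lit 1615371688) (nat_lit 76) (nat_lit 4811060962) (nat_lit 245) (nat_lit 5) (nat_lit 254) (nat_lit 5) (nat_lit 246) (nat_lit 5) (nat_lit 340) (nat_lit 291) (nat_lit 269)) (XT.lf (nat_lit 0) (nat_lit 6596342112) (nat_lit 684) (nat_lit 1345109819) (nat_lit 76) (nat_lit 601305561) (nat_lit 237) (nat_lit 5) (nat_lit 246) (nat_lit 5) (nat_lit 238) (nat_lit 5) (nat_lit 341) (nat_lit 291) (nat_lit 268))) (XT.nd (nat_lit 78) (nat_lit 1216) (nat_lit 0) (XT.lf (nat_lit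 0) (nat_lit 2614251361) (nat_lit 684) (nat_lit 1094693245) (nat_lit 76) (nat_lit 4949956108) (nat_lit 228) (nat_lit 5) (nat_lit 237) (nat_lit 5) (nat_lit 229) (nat_lit 5) (nat_lit 342) (nat_lit 291) (nat_lit 267)) (XT.nd (nat_lit 78) (nat_lit 684) (nat_lit 0) (XT.lf (nat_lit 0) (nat_lit 7249104673) (nat_lit 608) (nat_lit 842916283) (nat_lit 76) (nat_lit 687010904) (nat_lit 221) (nat_lit 5) (nat_lit 229) (nat_lit 5) (nat_lit 222) (nat_lit 5) (nat_lit 343) (nat_lit 291) (nat_lit 266)) (XT.lf (nat_lit 0) (nat_lit 3065707672) (nat_lit 684) (nat_lit 619896219) (nat_lit 76) (nat_lit 5217065376) (nat_lit 212) (nat_lit 5) (nat_lit 221) (nat_lit 5) (nat_lit 213) (nat_lit 5) (nat_lit 344) (nat_lit 291) (nat_lit 265))))) (XT.nd (nat_lit 156) (nat_lit 1976) (nat_lit 0) (XT.nd (nat_lit 78) (nat_lit 608) (nat_lit 0) (XT.lf (nat_lit 0) (nat_lit 7747900919) (nat_lit 608) (nat_lit 399643132) (nat_lit 76) (nat_lit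 882914326) (nat_lit 205) (nat_lit 5) (nat_lit 213) (nat_lit 5) (nat_lit 206) (nat_lit 5) (nat_lit 345) (nat_lit 291) (nat_lit 264)) (XT.lf (nat_lit 0) (nat_lit 3354335452) (nat_lit 608) (nat_lit 215655435) (nat_lit 76) (nat_lit 5591869166) (nat_lit 197) (nat_lit 5) (nat_lit 205) (nat_lit 5) (nat_lit 198) (nat_lit 5) (nat_lit 346) (nat_lit 291) (nat_lit 263))) (XT.nd (nat_lit 78) (nat_lit 1520) (nat_lit 0) (XT.lf (nat_lit 0) (nat_lit 8088445593) (nat_lit 532) (nat_lit 40698049) (nat_lit 76) (nat_lit 1168411609) (nat_lit 191) (nat_lit 5) (nat_lit 198) (nat_lit 5) (nat_lit 192) (nat_lit 5) (nat_lit 347) (nat_lit 291) (nat_lit 262)) (XT.nd (nat_lit 78) (nat_lit 456) (nat_lit 0) (XT.lf (nat_lit 0) (nat_lit 92935672) (nat_lit 456) (nat_lit 3382556650) (nat_lit 532) (nat_lit 5961511260) (nat_lit 177) (nat_lit 5) (nat_lit 183) (nat_lit 5) (nat_lit 184) (nat_lit 5) (nat_lit 348) (nat_lit 291) (nat_lit 261))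 (XT.lf (nat_lit 0) (nat_lit 209482566) (nat_lit 456) (nat_lit 8056724260) (nat_lit 532) (nat_lit 1314657985) (nat_lit 171) (nat_lit 5) (nat_lit 177) (nat_lit 5) (nat_lit 178) (nat_lit 5) (nat_lit 349) (nat_lit 291) (nat_lit 260))))))))
noncomputable def xc31 : XT := (XT.nd (nat_lit 1560) (nat_lit 3420) (nat_lit 0) (XT.nd (nat_lit 780) (nat_lit 3268) (nat_lit 0) (XT.nd (nat_lit 390) (nat_lit 1596) (nat_lit 0) (XT.nd (nat_lit 156) (nat_lit 1368) (nat_lit 0) (XT.nd (nat_lit 78) (nat_lit 456) (nat_lit 0) (XT.lf (nat_lit 0) (nat_lit 277639546) (nat_lit 456) (nat_lit 3144622347) (nat_lit 532) (nat_lit 6306433263) (nat_lit 164) (nat_lit 5) (nat_lit 170) (nat_lit 5) (nat_lit 171) (nat_lit 5) (nat_lit 350) (nat_lit 291) (nat_lit 259)) (XT.lf (nat_lit 0) (nat_lit 317579126) (nat_lit 456) (nat_lit 7954000819) (nat_lit 532) (nat_lit 1609470737) (nat_lit 158) (nat_lit 5) (nat_lit 164) (nat_lit 5) (nat_lit 165)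 (nat_lit 5) (nat_lit 351) (nat_lit 291) (nat_lit 258))) (XT.nd (nat_lit 78) (nat_lit 912) (nat_lit 0) (XT.lf (nat_lit 0) (nat_lit 304759646) (nat_lit 380) (nat_lit 2879598488) (nat_lit 456) (nat_lit 6853259345) (nat_lit 152) (nat_lit 5) (nat_lit 157) (nat_lit 5) (nat_lit 158) (nat_lit 5) (nat_lit 352) (nat_lit 291) (nat_lit 257)) (XT.nd (nat_lit 78) (nat_lit 456) (nat_lit 0) (XT.lf (nat_lit 0) (nat_lit 251023984) (nat_lit 456) (nat_lit 7843681525) (nat_lit 532) (nat_lit 2104096640) (nat_lit 146) (nat_lit 5) (nat_lit 152) (nat_lit 5) (nat_lit 153) (nat_lit 5) (nat_lit 353) (nat_lit 291) (nat_lit 256)) (XT.lf (nat_lit 0) (nat_lit 140909427) (nat_lit 380) (nat_lit 2610118193) (nat_lit 456) (nat_lit 7613455691) (nat_lit 140) (nat_lit 5) (nat_lit 145) (nat_lit 5) (nat_lit 146) (nat_lit 5) (nat_lit 354) (nat_lit 291) (nat_lit 255))))) (XT.nd (nat_lit 156) (nat_lit 1140) (nat_lit 0) (XT.nd (nat_lit 78) (nat_lit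 456) (nat_lit 0) (XT.lf (nat_lit 0) (nat_lit 7724218869) (nat_lit 456) (nat_lit 24614073) (nat_lit 76) (nat_lit 2786026953) (nat_lit 140) (nat_lit 5) (nat_lit 146) (nat_lit 5) (nat_lit 141) (nat_lit 5) (nat_lit 355) (nat_lit 291) (nat_lit 254)) (XT.lf (nat_lit 0) (nat_lit 2111124374) (nat_lit 456) (nat_lit 246922585) (nat_lit 76) (nat_lit 8351987771) (nat_lit 134) (nat_lit 5) (nat_lit 140) (nat_lit 5) (nat_lit 135) (nat_lit 5) (nat_lit 356) (nat_lit 291) (nat_lit 253))) (XT.nd (nat_lit 78) (nat_lit 760) (nat_lit 0) (XT.lf (nat_lit 0) (nat_lit 7149591830) (nat_lit 456) (nat_lit 540982171) (nat_lit 76) (nat_lit 3199395934) (nat_lit 129) (nat_lit 5) (nat_lit 135) (nat_lit 5) (nat_lit 130) (nat_lit 5) (nat_lit 357) (nat_lit 291) (nat_lit 252)) (XT.nd (nat_lit 78) (nat_lit 304) (nat_lit 0) (XT.lf (nat_lit 0) (nat_lit 1250734078) (nat_lit 456) (nat_lit 896251040) (nat_lit 76) (nat_lit 8928106304) (nat_lit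 123) (nat_lit 5) (nat_lit 129) (nat_lit 5) (nat_lit 124) (nat_lit 5) (nat_lit 358) (nat_lit 291) (nat_lit 251)) (XT.lf (nat_lit 0) (nat_lit 6353627105) (nat_lit 380) (nat_lit 1342180516) (nat_lit 76) (nat_lit 3569226928) (nat_lit 119) (nat_lit 5) (nat_lit 124) (nat_lit 5) (nat_lit 120) (nat_lit 5) (nat_lit 359) (nat_lit 291) (nat_lit 250)))))) (XT.nd (nat_lit 390) (nat_lit 1520) (nat_lit 0) (XT.nd (nat_lit 156) (nat_lit 988) (nat_lit 0) (XT.nd (nat_lit 78) (nat_lit 304) (nat_lit 0) (XT.lf (nat_lit 0) (nat_lit 151948745) (nat_lit 456) (nat_lit 1851641664) (nat_lit 76) (nat_lit 9456985612) (nat_lit 113) (nat_lit 5) (nat_lit 119) (nat_lit 5) (nat_lit 114) (nat_lit 5) (nat_lit 360) (nat_lit 291) (nat_lit 249)) (XT.lf (nat_lit 0) (nat_lit 5318367462) (nat_lit 380) (nat_lit 2472895777) (nat_lit 76) (nat_lit 3869731702) (nat_lit 109) (nat_lit 5) (nat_lit 114) (nat_lit 5) (nat_lit 110) (nat_lit 5) (nat_lit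 361) (nat_lit 291) (nat_lit 248))) (XT.nd (nat_lit 78) (nat_lit 684) (nat_lit 0) (XT.lf (nat_lit 0) (nat_lit 8699465188) (nat_lit 304) (nat_lit 1947105968) (nat_lit 380) (nat_lit 1220737156) (nat_lit 105) (nat_lit 5) (nat_lit 109) (nat_lit 5) (nat_lit 110) (nat_lit 5) (nat_lit 362) (nat_lit 291) (nat_lit 247)) (XT.nd (nat_lit 78) (nat_lit 304) (nat_lit 0) (XT.lf (nat_lit 0) (nat_lit 4023265078) (nat_lit 380) (nat_lit 3982163205) (nat_lit 76) (nat_lit 4073440452) (nat_lit 100) (nat_lit 5) (nat_lit 105) (nat_lit 5) (nat_lit 101) (nat_lit 5) (nat_lit 363) (nat_lit 291) (nat_lit 246)) (XT.lf (nat_lit 0) (nat_lit 7405255349) (nat_lit 304) (nat_lit 2011926057) (nat_lit 380) (nat_lit 2879265989) (nat_lit 96) (nat_lit 5) (nat_lit 100) (nat_lit 5) (nat_lit 101) (nat_lit 5) (nat_lit 364) (nat_lit 291) (nat_lit 245))))) (XT.nd (nat_lit 156) (nat_lit 836) (nat_lit 0) (XT.nd (nat_lit 78) (nat_lit 304) (nat_lit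 0) (XT.lf (nat_lit 0) (nat_lit 2444955824) (nat_lit 380) (nat_lit 5923881602) (nat_lit 76) (nat_lit 4150917995) (nat_lit 91) (nat_lit 5) (nat_lit 96) (nat_lit 5) (nat_lit 92) (nat_lit 5) (nat_lit 365) (nat_lit 291) (nat_lit 244)) (XT.lf (nat_lit 0) (nat_lit 5671741162) (nat_lit 304) (nat_lit 2230292593) (nat_lit 380) (nat_lit 4847118489) (nat_lit 87) (nat_lit 5) (nat_lit 91) (nat_lit 5) (nat_lit 92) (nat_lit 5) (nat_lit 366) (nat_lit 291) (nat_lit 243))) (XT.nd (nat_lit 78) (nat_lit 532) (nat_lit 0) (XT.lf (nat_lit 0) (nat_lit 557006349) (nat_lit 304) (nat_lit 8357378365) (nat_lit 76) (nat_lit 4070457661) (nat_lit 83) (nat_lit 5) (nat_lit 87) (nat_lit 5) (nat_lit 84) (nat_lit 5) (nat_lit 367) (nat_lit 291) (nat_lit 242)) (XT.nd (nat_lit 78) (nat_lit 228) (nat_lit 0) (XT.lf (nat_lit 0) (nat_lit 3437679844) (nat_lit 304) (nat_lit 2635912672) (nat_lit 380) (nat_lit 7153060082) (nat_lit 79) (nat_lit 5)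 (nat_lit 83) (nat_lit 5) (nat_lit 84) (nat_lit 5) (nat_lit 368) (nat_lit 291) (nat_lit 241)) (XT.lf (nat_lit 0) (nat_lit 2116172346) (nat_lit 228) (nat_lit 9666452513) (nat_lit 304) (nat_lit 1692566882) (nat_lit 76) (nat_lit 5) (nat_lit 79) (nat_lit 5) (nat_lit 80) (nat_lit 5) (nat_lit 369) (nat_lit 291) (nat_lit 240))))))) (XT.nd (nat_lit 780) (nat_lit 1292) (nat_lit 0) (XT.nd (nat_lit 390) (nat_lit 988) (nat_lit 0) (XT.nd (nat_lit 156) (nat_lit 760) (nat_lit 0) (XT.nd (nat_lit 78) (nat_lit 0) (nat_lit 0) (XT.lf (nat_lit 0) (nat_lit 635523329) (nat_lit 304) (nat_lit 3265328124) (nat_lit 380) (nat_lit 9829424470) (nat_lit 71) (nat_lit 5) (nat_lit 75) (nat_lit 5) (nat_lit 76) (nat_lit 5) (nat_lit 370) (nat_lit 291) (nat_lit 239)) (XT.lf (nat_lit 0) (nat_lit 9671426293) (nat_lit 380) (nat_lit 990592018) (nat_lit 76) (nat_lit 3330136132) (nat_lit 71) (nat_lit 5) (nat_lit 76) (nat_lit 5) (nat_lit 72)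 (nat_lit 5) (nat_lit 371) (nat_lit 291) (nat_lit 238))) (XT.nd (nat_lit 78) (nat_lit 456) (nat_lit 0) (XT.lf (nat_lit 0) (nat_lit 1367243753) (nat_lit 304) (nat_lit 2772447592) (nat_lit 76) (nat_lit 10121398952) (nat_lit 67) (nat_lit 5) (nat_lit 71) (nat_lit 5) (nat_lit 68) (nat_lit 5) (nat_lit 372) (nat_lit 291) (nat_lit 237)) (XT.nd (nat_lit 78) (nat_lit 228) (nat_lit 0) (XT.lf (nat_lit 0) (nat_lit 7190907855) (nat_lit 304) (nat_lit 4743888746) (nat_lit 76) (nat_lit 2602262932) (nat_lit 64) (nat_lit 5) (nat_lit 68) (nat_lit 5) (nat_lit 65) (nat_lit 5) (nat_lit 373) (nat_lit 291) (nat_lit 236)) (XT.lf (nat_lit 0) (nat_lit 7922663203) (nat_lit 228) (nat_lit 5301410237) (nat_lit 304) (nat_lit 1596549837) (nat_lit 61) (nat_lit 5) (nat_lit 64) (nat_lit 5) (nat_lit 65) (nat_lit 5) (nat_lit 374) (nat_lit 291) (nat_lit 235))))) (XT.nd (nat_lit 156) (nat_lit 456) (nat_lit 0) (XT.nd (nat_lit 78) (nat_lit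 228) (nat_lit 0) (XT.lf (nat_lit 0) (nat_lit 4287064115) (nat_lit 304) (nat_lit 9256903454) (nat_lit 76) (nat_lit 1567810317) (nat_lit 57) (nat_lit 5) (nat_lit 61) (nat_lit 5) (nat_lit 58) (nat_lit 5) (nat_lit 375) (nat_lit 291) (nat_lit 234)) (XT.lf (nat_lit 0) (nat_lit 3569777772) (nat_lit 228) (nat_lit 6799896030) (nat_lit 304) (nat_lit 5040909113) (nat_lit 54) (nat_lit 5) (nat_lit 57) (nat_lit 5) (nat_lit 58) (nat_lit 5) (nat_lit 376) (nat_lit 291) (nat_lit 233))) (XT.nd (nat_lit 78) (nat_lit 152) (nat_lit 0) (XT.lf (nat_lit 0) (nat_lit 914910734) (nat_lit 304) (nat_lit 14624070321) (nat_lit 76) (nat_lit 179051550) (nat_lit 50) (nat_lit 5) (nat_lit 54) (nat_lit 5) (nat_lit 51) (nat_lit 5) (nat_lit 377) (nat_lit 291) (nat_lit 232)) (XT.nd (nat_lit 78) (nat_lit 152) (nat_lit 0) (XT.lf (nat_lit 0) (nat_lit 7047477589) (nat_lit 304) (nat_lit 1636920505) (nat_lit 76) (nat_lit 7348319731) (nat_lit 50)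 (nat_lit 5) (nat_lit 54) (nat_lit 5) (nat_lit 51) (nat_lit 5) (nat_lit 378) (nat_lit 291) (nat_lit 231)) (XT.lf (nat_lit 0) (nat_lit 11794575550) (nat_lit 152) (nat_lit 1587699730) (nat_lit 228) (nat_lit 2974212586) (nat_lit 48) (nat_lit 5) (nat_lit 50) (nat_lit 5) (nat_lit 51) (nat_lit 5) (nat_lit 379) (nat_lit 291) (nat_lit 230)))))) (XT.nd (nat_lit 390) (nat_lit 380) (nat_lit 0) (XT.nd (nat_lit 156) (nat_lit 456) (nat_lit 0) (XT.nd (nat_lit 78) (nat_lit 152) (nat_lit 0) (XT.lf (nat_lit 0) (nat_lit 3224113087) (nat_lit 304) (nat_lit 7767704121) (nat_lit 76) (nat_lit 5696761718) (nat_lit 44) (nat_lit 5) (nat_lit 48) (nat_lit 5) (nat_lit 45) (nat_lit 5) (nat_lit 380) (nat_lit 291) (nat_lit 229)) (XT.lf (nat_lit 0) (nat_lit 5787388733) (nat_lit 152) (nat_lit 3803261524) (nat_lit 228) (nat_lit 7439144510) (nat_lit 42) (nat_lit 5) (nat_lit 44) (nat_lit 5) (nat_lit 45) (nat_lit 5) (nat_lit 381) (nat_lit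 291) (nat_lit 228))) (XT.nd (nat_lit 78) (nat_lit 228) (nat_lit 0) (XT.lf (nat_lit 0) (nat_lit 2385178958) (nat_lit 228) (nat_lit 13798746188) (nat_lit 304) (nat_lit 1196615483) (nat_lit 39) (nat_lit 5) (nat_lit 42) (nat_lit 5) (nat_lit 43) (nat_lit 5) (nat_lit 382) (nat_lit 291) (nat_lit 227)) (XT.nd (nat_lit 78) (nat_lit 152) (nat_lit 0) (XT.lf (nat_lit 0) (nat_lit 5211204249) (nat_lit 304) (nat_lit 1321523238) (nat_lit 76) (nat_lit 11207476829) (nat_lit 38) (nat_lit 5) (nat_lit 42) (nat_lit 5) (nat_lit 39) (nat_lit 5) (nat_lit 383) (nat_lit 291) (nat_lit 226)) (XT.lf (nat_lit 0) (nat_lit 11831051393) (nat_lit 228) (nat_lit 5287639125) (nat_lit 76) (nat_lit 991095942) (nat_lit 36) (nat_lit 5) (nat_lit 39) (nat_lit 5) (nat_lit 37) (nat_lit 5) (nat_lit 384) (nat_lit 291) (nat_lit 225))))) (XT.nd (nat_lit 156) (nat_lit 0) (nat_lit 0) (XT.nd (nat_lit 78) (nat_lit 152) (nat_lit 0) (XT.lf (nat_lit 0)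 (nat_lit 214650611) (nat_lit 228) (nat_lit 9593107143) (nat_lit 76) (nat_lit 8681531063) (nat_lit 33) (nat_lit 5) (nat_lit 36) (nat_lit 5) (nat_lit 34) (nat_lit 5) (nat_lit 385) (nat_lit 291) (nat_lit 224)) (XT.lf (nat_lit 0) (nat_lit 4624401511) (nat_lit 152) (nat_lit 2207166668) (nat_lit 228) (nat_lit 12047504498) (nat_lit 31) (nat_lit 5) (nat_lit 33) (nat_lit 5) (nat_lit 34) (nat_lit 5) (nat_lit 386) (nat_lit 291) (nat_lit 223))) (XT.nd (nat_lit 41340) (nat_lit 0) (nat_lit 41192) (XT.lf (nat_lit 0) (nat_lit 13697066993) (nat_lit 228) (nat_lit 8172590) (nat_lit 76) (nat_lit 5574315944) (nat_lit 31) (nat_lit 5) (nat_lit 34) (nat_lit 5) (nat_lit 32) (nat_lit 5) (nat_lit 387) (nat_lit 291) (nat_lit 222)) (XT.nd (nat_lit 78) (nat_lit 1140) (nat_lit 0) (XT.lf (nat_lit 0) (nat_lit 1353913315) (nat_lit 988) (nat_lit 1003699549) (nat_lit 988) (nat_lit 1003699549) (nat_lit 588) (nat_lit 4) (nat_lit 601)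 (nat_lit 5) (nat_lit 601) (nat_lit 4) (nat_lit 316) (nat_lit 292) (nat_lit 292)) (XT.lf (nat_lit 0) (nat_lit 2424216055) (nat_lit 1064) (nat_lit 338664964) (nat_lit 1140) (nat_lit 3996606951) (nat_lit 573) (nat_lit 5) (nat_lit 587) (nat_lit 5) (nat_lit 588) (nat_lit 4) (nat_lit 317) (nat_lit 292) (nat_lit 291))))))))
noncomputable def xc32 : XT := (XT.nd (nat_lit 1560) (nat_lit 10868) (nat_lit 0) (XT.nd (nat_lit 780) (nat_lit 8360) (nat_lit 0) (XT.nd (nat_lit 390) (nat_lit 7828) (nat_lit 0) (XT.nd (nat_lit 156) (nat_lit 4256) (nat_lit 0) (XT.nd (nat_lit 78) (nat_lit 1216) (nat_lit 0) (XT.lf (nat_lit 0) (nat_lit 735409921) (nat_lit 1216) (nat_lit 4614140069) (nat_lit 76) (nat_lit 1449735171) (nat_lit 557) (nat_lit 5) (nat_lit 573) (nat_lit 5) (nat_lit 558) (nat_lit 4) (nat_lit 318) (nat_lit 292) (nat_lit 290)) (XT.lf (nat_lit 0) (nat_lit 1987175753) (nat_lit 1216) (nat_lit 3460393119) (nat_lit 1292)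 (nat_lit 1394426214) (nat_lit 541) (nat_lit 5) (nat_lit 557) (nat_lit 5) (nat_lit 558) (nat_lit 4) (nat_lit 319) (nat_lit 292) (nat_lit 289))) (XT.nd (nat_lit 78) (nat_lit 2888) (nat_lit 0) (XT.lf (nat_lit 0) (nat_lit 1835526093) (nat_lit 1292) (nat_lit 1428144354) (nat_lit 1368) (nat_lit 3624097424) (nat_lit 523) (nat_lit 5) (nat_lit 540) (nat_lit 5) (nat_lit 541) (nat_lit 5) (nat_lit 320) (nat_lit 292) (nat_lit 288)) (XT.nd (nat_lit 78) (nat_lit 1444) (nat_lit 0) (XT.lf (nat_lit 0) (nat_lit 995002647) (nat_lit 1444) (nat_lit 5207143804) (nat_lit 76) (nat_lit 734492931) (nat_lit 504) (nat_lit 5) (nat_lit 523) (nat_lit 5) (nat_lit 505) (nat_lit 5) (nat_lit 321) (nat_lit 292) (nat_lit 287)) (XT.lf (nat_lit 0) (nat_lit 1653844701) (nat_lit 1444) (nat_lit 3960633009) (nat_lit 1520) (nat_lit 1373884552) (nat_lit 485) (nat_lit 5) (nat_lit 504) (nat_lit 5) (nat_lit 505) (nat_lit 5) (nat_lit 322) (nat_lit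 292) (nat_lit 286))))) (XT.nd (nat_lit 156) (nat_lit 4560) (nat_lit 0) (XT.nd (nat_lit 78) (nat_lit 1672) (nat_lit 0) (XT.lf (nat_lit 0) (nat_lit 1619170514) (nat_lit 1520) (nat_lit 1572425627) (nat_lit 1596) (nat_lit 3851601549) (nat_lit 464) (nat_lit 5) (nat_lit 484) (nat_lit 5) (nat_lit 485) (nat_lit 5) (nat_lit 323) (nat_lit 292) (nat_lit 285)) (XT.lf (nat_lit 0) (nat_lit 679594328) (nat_lit 1672) (nat_lit 5476026975) (nat_lit 76) (nat_lit 945573792) (nat_lit 442) (nat_lit 5) (nat_lit 464) (nat_lit 5) (nat_lit 443) (nat_lit 5) (nat_lit 324) (nat_lit 292) (nat_lit 284))) (XT.nd (nat_lit 78) (nat_lit 2888) (nat_lit 0) (XT.lf (nat_lit 0) (nat_lit 1653321785) (nat_lit 1672) (nat_lit 3563535221) (nat_lit 1748) (nat_lit 1945191919) (nat_lit 420) (nat_lit 5) (nat_lit 442) (nat_lit 5) (nat_lit 443) (nat_lit 5) (nat_lit 325) (nat_lit 292) (nat_lit 283)) (XT.nd (nat_lit 78) (nat_lit 1064) (nat_lit 0) (XT.lf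 (nat_lit 0) (nat_lit 1721095800) (nat_lit 1748) (nat_lit 824064792) (nat_lit 1824) (nat_lit 4681000714) (nat_lit 396) (nat_lit 5) (nat_lit 419) (nat_lit 5) (nat_lit 420) (nat_lit 5) (nat_lit 326) (nat_lit 292) (nat_lit 282)) (XT.lf (nat_lit 0) (nat_lit 1817367154) (nat_lit 1064) (nat_lit 5258078393) (nat_lit 1140) (nat_lit 217930555) (nat_lit 382) (nat_lit 5) (nat_lit 396) (nat_lit 5) (nat_lit 397) (nat_lit 5) (nat_lit 327) (nat_lit 292) (nat_lit 281)))))) (XT.nd (nat_lit 390) (nat_lit 3876) (nat_lit 0) (XT.nd (nat_lit 156) (nat_lit 2584) (nat_lit 0) (XT.nd (nat_lit 78) (nat_lit 912) (nat_lit 0) (XT.lf (nat_lit 0) (nat_lit 1932475297) (nat_lit 912) (nat_lit 2315941675) (nat_lit 988) (nat_lit 3115151251) (nat_lit 369) (nat_lit 5) (nat_lit 381) (nat_lit 5) (nat_lit 382) (nat_lit 5) (nat_lit 328) (nat_lit 292) (nat_lit 280)) (XT.lf (nat_lit 0) (nat_lit 1320622827) (nat_lit 912) (nat_lit 5353921083) (nat_lit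 76) (nat_lit 762589825) (nat_lit 357) (nat_lit 5) (nat_lit 369) (nat_lit 5) (nat_lit 358) (nat_lit 5) (nat_lit 329) (nat_lit 292) (nat_lit 279))) (XT.nd (nat_lit 78) (nat_lit 1748) (nat_lit 0) (XT.lf (nat_lit 0) (nat_lit 2246383317) (nat_lit 836) (nat_lit 3544166786) (nat_lit 912) (nat_lit 1723137089) (nat_lit 346) (nat_lit 5) (nat_lit 357) (nat_lit 5) (nat_lit 358) (nat_lit 5) (nat_lit 330) (nat_lit 292) (nat_lit 278)) (XT.nd (nat_lit 78) (nat_lit 836) (nat_lit 0) (XT.lf (nat_lit 0) (nat_lit 2438541721) (nat_lit 836) (nat_lit 257050652) (nat_lit 912) (nat_lit 4898032879) (nat_lit 334) (nat_lit 5) (nat_lit 345) (nat_lit 5) (nat_lit 346) (nat_lit 5) (nat_lit 331) (nat_lit 292) (nat_lit 277)) (XT.lf (nat_lit 0) (nat_lit 2643583296) (nat_lit 836) (nat_lit 4534034609) (nat_lit 912) (nat_lit 499089091) (nat_lit 323) (nat_lit 5) (nat_lit 334) (nat_lit 5) (nat_lit 335) (nat_lit 5) (nat_lit 332) (nat_lit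 292) (nat_lit 276))))) (XT.nd (nat_lit 156) (nat_lit 2204) (nat_lit 0) (XT.nd (nat_lit 78) (nat_lit 836) (nat_lit 0) (XT.lf (nat_lit 0) (nat_lit 2863708398) (nat_lit 760) (nat_lit 1053128154) (nat_lit 836) (nat_lit 3846216793) (nat_lit 312) (nat_lit 5) (nat_lit 322) (nat_lit 5) (nat_lit 323) (nat_lit 5) (nat_lit 333) (nat_lit 292) (nat_lit 275)) (XT.lf (nat_lit 0) (nat_lit 554120727) (nat_lit 836) (nat_lit 4751809499) (nat_lit 76) (nat_lit 2546855261) (nat_lit 301) (nat_lit 5) (nat_lit 312) (nat_lit 5) (nat_lit 302) (nat_lit 5) (nat_lit 334) (nat_lit 292) (nat_lit 274))) (XT.nd (nat_lit 78) (nat_lit 1520) (nat_lit 0) (XT.lf (nat_lit 0) (nat_lit 3344218518) (nat_lit 684) (nat_lit 1639102089) (nat_lit 760) (nat_lit 2962447840) (nat_lit 292) (nat_lit 5) (nat_lit 301) (nat_lit 5) (nat_lit 302) (nat_lit 5) (nat_lit 335) (nat_lit 292) (nat_lit 273)) (XT.nd (nat_lit 78) (nat_lit 684) (nat_lit 0) (XT.lf (nat_lit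 0) (nat_lit 1442532087) (nat_lit 836) (nat_lit 4441894902) (nat_lit 76) (nat_lit 2157797715) (nat_lit 281) (nat_lit 5) (nat_lit 292) (nat_lit 5) (nat_lit 282) (nat_lit 5) (nat_lit 336) (nat_lit 292) (nat_lit 272)) (XT.lf (nat_lit 0) (nat_lit 3860048842) (nat_lit 684) (nat_lit 2037629221) (nat_lit 760) (nat_lit 2244385370) (nat_lit 272) (nat_lit 5) (nat_lit 281) (nat_lit 5) (nat_lit 282) (nat_lit 5) (nat_lit 337) (nat_lit 292) (nat_lit 271))))))) (XT.nd (nat_lit 780) (nat_lit 4712) (nat_lit 0) (XT.nd (nat_lit 390) (nat_lit 2812) (nat_lit 0) (XT.nd (nat_lit 156) (nat_lit 1976) (nat_lit 0) (XT.nd (nat_lit 78) (nat_lit 608) (nat_lit 0) (XT.lf (nat_lit 0) (nat_lit 2174405032) (nat_lit 760) (nat_lit 4120688352) (nat_lit 76) (nat_lit 1950311921) (nat_lit 262) (nat_lit 5) (nat_lit 272) (nat_lit 5) (nat_lit 263) (nat_lit 5) (nat_lit 338) (nat_lit 292) (nat_lit 270)) (XT.lf (nat_lit 0) (nat_lit 4390570963)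 (nat_lit 608) (nat_lit 2270610738) (nat_lit 684) (nat_lit 1691092971) (nat_lit 254) (nat_lit 5) (nat_lit 262) (nat_lit 5) (nat_lit 263) (nat_lit 5) (nat_lit 339) (nat_lit 292) (nat_lit 269))) (XT.nd (nat_lit 78) (nat_lit 1292) (nat_lit 0) (XT.lf (nat_lit 0) (nat_lit 2750072523) (nat_lit 684) (nat_lit 3809485654) (nat_lit 76) (nat_lit 1903128967) (nat_lit 245) (nat_lit 5) (nat_lit 254) (nat_lit 5) (nat_lit 246) (nat_lit 5) (nat_lit 340) (nat_lit 292) (nat_lit 268)) (XT.nd (nat_lit 78) (nat_lit 684) (nat_lit 0) (XT.lf (nat_lit 0) (nat_lit 4914348313) (nat_lit 608) (nat_lit 2359372039) (nat_lit 684) (nat_lit 1303062661) (nat_lit 237) (nat_lit 5) (nat_lit 245) (nat_lit 5) (nat_lit 246) (nat_lit 5) (nat_lit 341) (nat_lit 292) (nat_lit 267)) (XT.lf (nat_lit 0) (nat_lit 3168456171) (nat_lit 684) (nat_lit 3530538428) (nat_lit 76) (nat_lit 1995480602) (nat_lit 228) (nat_lit 5) (nat_lit 237) (nat_lit 5) (nat_lit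 229) (nat_lit 5) (nat_lit 342) (nat_lit 292) (nat_lit 266))))) (XT.nd (nat_lit 156) (nat_lit 1596) (nat_lit 0) (XT.nd (nat_lit 78) (nat_lit 684) (nat_lit 0) (XT.lf (nat_lit 0) (nat_lit 5408921804) (nat_lit 532) (nat_lit 2324842251) (nat_lit 608) (nat_lit 1082250972) (nat_lit 221) (nat_lit 5) (nat_lit 228) (nat_lit 5) (nat_lit 229) (nat_lit 5) (nat_lit 343) (nat_lit 292) (nat_lit 265)) (XT.lf (nat_lit 0) (nat_lit 3427024389) (nat_lit 684) (nat_lit 3307275523) (nat_lit 76) (nat_lit 2206921069) (nat_lit 212) (nat_lit 5) (nat_lit 221) (nat_lit 5) (nat_lit 213) (nat_lit 5) (nat_lit 344) (nat_lit 292) (nat_lit 264))) (XT.nd (nat_lit 78) (nat_lit 1064) (nat_lit 0) (XT.lf (nat_lit 0) (nat_lit 5850582162) (nat_lit 532) (nat_lit 2187734890) (nat_lit 608) (nat_lit 1032127474) (nat_lit 205) (nat_lit 5) (nat_lit 212) (nat_lit 5) (nat_lit 213) (nat_lit 5) (nat_lit 345) (nat_lit 292) (nat_lit 263)) (XT.nd (nat_lit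 78) (nat_lit 456) (nat_lit 0) (XT.lf (nat_lit 0) (nat_lit 3521738014) (nat_lit 608) (nat_lit 3164539006) (nat_lit 76) (nat_lit 2517147155) (nat_lit 197) (nat_lit 5) (nat_lit 205) (nat_lit 5) (nat_lit 198) (nat_lit 5) (nat_lit 346) (nat_lit 292) (nat_lit 262)) (XT.lf (nat_lit 0) (nat_lit 6214126840) (nat_lit 456) (nat_lit 1968731160) (nat_lit 532) (nat_lit 1157736353) (nat_lit 191) (nat_lit 5) (nat_lit 197) (nat_lit 5) (nat_lit 198) (nat_lit 5) (nat_lit 347) (nat_lit 292) (nat_lit 261)))))) (XT.nd (nat_lit 390) (nat_lit 2128) (nat_lit 0) (XT.nd (nat_lit 156) (nat_lit 1520) (nat_lit 0) (XT.nd (nat_lit 78) (nat_lit 456) (nat_lit 0) (XT.lf (nat_lit 0) (nat_lit 3446982743) (nat_lit 608) (nat_lit 3128836923) (nat_lit 76) (nat_lit 2905814973) (nat_lit 183) (nat_lit 5) (nat_lit 191) (nat_lit 5) (nat_lit 184) (nat_lit 5) (nat_lit 348) (nat_lit 292) (nat_lit 260)) (XT.lf (nat_lit 0) (nat_lit 6472599259) (nat_lit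 456) (nat_lit 1688667418) (nat_lit 532) (nat_lit 1465771827) (nat_lit 177) (nat_lit 5) (nat_lit 183) (nat_lit 5) (nat_lit 184) (nat_lit 5) (nat_lit 349) (nat_lit 292) (nat_lit 259))) (XT.nd (nat_lit 78) (nat_lit 988) (nat_lit 0) (XT.lf (nat_lit 0) (nat_lit 3195487542) (nat_lit 532) (nat_lit 3228615184) (nat_lit 76) (nat_lit 3352351945) (nat_lit 170) (nat_lit 5) (nat_lit 177) (nat_lit 5) (nat_lit 171) (nat_lit 5) (nat_lit 350) (nat_lit 292) (nat_lit 258)) (XT.nd (nat_lit 78) (nat_lit 532) (nat_lit 0) (XT.lf (nat_lit 0) (nat_lit 6597007912) (nat_lit 456) (nat_lit 1368728390) (nat_lit 532) (nat_lit 1964668241) (nat_lit 164) (nat_lit 5) (nat_lit 170) (nat_lit 5) (nat_lit 171) (nat_lit 5) (nat_lit 351) (nat_lit 292) (nat_lit 257)) (XT.lf (nat_lit 0) (nat_lit 2758228127) (nat_lit 532) (nat_lit 3494551138) (nat_lit 76) (nat_lit 3835762355) (nat_lit 157) (nat_lit 5) (nat_lit 164) (nat_lit 5) (nat_lit 158)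 (nat_lit 5) (nat_lit 352) (nat_lit 292) (nat_lit 256))))) (XT.nd (nat_lit 156) (nat_lit 1216) (nat_lit 0) (XT.nd (nat_lit 78) (nat_lit 532) (nat_lit 0) (XT.lf (nat_lit 0) (nat_lit 6556022676) (nat_lit 380) (nat_lit 1030647813) (nat_lit 456) (nat_lit 2664705879) (nat_lit 152) (nat_lit 5) (nat_lit 157) (nat_lit 5) (nat_lit 158) (nat_lit 5) (nat_lit 353) (nat_lit 292) (nat_lit 255)) (XT.lf (nat_lit 0) (nat_lit 2124314434) (nat_lit 532) (nat_lit 3959871639) (nat_lit 76) (nat_lit 4334424781) (nat_lit 145) (nat_lit 5) (nat_lit 152) (nat_lit 5) (nat_lit 146) (nat_lit 5) (nat_lit 354) (nat_lit 292) (nat_lit 254))) (XT.nd (nat_lit 78) (nat_lit 836) (nat_lit 0) (XT.lf (nat_lit 0) (nat_lit 6315645445) (nat_lit 380) (nat_lit 696918273) (nat_lit 456) (nat_lit 3578133628) (nat_lit 140) (nat_lit 5) (nat_lit 145) (nat_lit 5) (nat_lit 146) (nat_lit 5) (nat_lit 355) (nat_lit 292) (nat_lit 253)) (XT.nd (nat_lit 78)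 (nat_lit 380) (nat_lit 0) (XT.lf (nat_lit 0) (nat_lit 1280860861) (nat_lit 456) (nat_lit 4660698627) (nat_lit 76) (nat_lit 4825879623) (nat_lit 134) (nat_lit 5) (nat_lit 140) (nat_lit 5) (nat_lit 135) (nat_lit 5) (nat_lit 356) (nat_lit 292) (nat_lit 252)) (XT.lf (nat_lit 0) (nat_lit 5838851903) (nat_lit 380) (nat_lit 391012106) (nat_lit 456) (nat_lit 4719309821) (nat_lit 129) (nat_lit 5) (nat_lit 134) (nat_lit 5) (nat_lit 135) (nat_lit 5) (nat_lit 357) (nat_lit 292) (nat_lit 251))))))))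
noncomputable def xc33 : XT := (XT.nd (nat_lit 1560) (nat_lit 1596) (nat_lit 0) (XT.nd (nat_lit 780) (nat_lit 2508) (nat_lit 0) (XT.nd (nat_lit 390) (nat_lit 1368) (nat_lit 0) (XT.nd (nat_lit 156) (nat_lit 1064) (nat_lit 0) (XT.nd (nat_lit 78) (nat_lit 304) (nat_lit 0) (XT.lf (nat_lit 0) (nat_lit 212837912) (nat_lit 456) (nat_lit 5636425539) (nat_lit 76) (nat_lit 5286604787) (nat_lit 123) (nat_lit 5) (nat_lit 129) (nat_lit 5) (nat_lit 124) (nat_lit 5) (nat_lit 358) (nat_lit 292) (nat_lit 250)) (XT.lf (nat_lit 0) (nat_lit 5085201020) (nat_lit 304) (nat_lit 137615366) (nat_lit 380) (nat_lit 6104862723) (nat_lit 119) (nat_lit 5) (nat_lit 123) (nat_lit 5) (nat_lit 124) (nat_lit 5) (nat_lit 359) (nat_lit 292) (nat_lit 249))) (XT.nd (nat_lit 78) (nat_lit 684) (nat_lit 0) (XT.lf (nat_lit 0) (nat_lit 4587319106) (nat_lit 380) (nat_lit 5825669796) (nat_lit 456) (nat_lit 1111676138) (nat_lit 114) (nat_lit 5)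 (nat_lit 119) (nat_lit 5) (nat_lit 120) (nat_lit 5) (nat_lit 360) (nat_lit 292) (nat_lit 248)) (XT.nd (nat_lit 78) (nat_lit 304) (nat_lit 0) (XT.lf (nat_lit 0) (nat_lit 3973526488) (nat_lit 380) (nat_lit 7716990353) (nat_lit 76) (nat_lit 36636126) (nat_lit 109) (nat_lit 5) (nat_lit 114) (nat_lit 5) (nat_lit 110) (nat_lit 5) (nat_lit 361) (nat_lit 292) (nat_lit 247)) (XT.lf (nat_lit 0) (nat_lit 3328324635) (nat_lit 304) (nat_lit 5902318668) (nat_lit 380) (nat_lit 2704253253) (nat_lit 105) (nat_lit 5) (nat_lit 109) (nat_lit 5) (nat_lit 110) (nat_lit 5) (nat_lit 362) (nat_lit 292) (nat_lit 246))))) (XT.nd (nat_lit 156) (nat_lit 684) (nat_lit 0) (XT.nd (nat_lit 78) (nat_lit 304) (nat_lit 0) (XT.lf (nat_lit 0) (nat_lit 2461239184) (nat_lit 380) (nat_lit 9583434725) (nat_lit 76) (nat_lit 103943110) (nat_lit 100) (nat_lit 5) (nat_lit 105) (nat_lit 5) (nat_lit 101) (nat_lit 5) (nat_lit 363) (nat_lit 292)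 (nat_lit 245)) (XT.lf (nat_lit 0) (nat_lit 1672969098) (nat_lit 304) (nat_lit 6109756529) (nat_lit 380) (nat_lit 4584926486) (nat_lit 96) (nat_lit 5) (nat_lit 100) (nat_lit 5) (nat_lit 101) (nat_lit 5) (nat_lit 364) (nat_lit 292) (nat_lit 244))) (XT.nd (nat_lit 78) (nat_lit 304) (nat_lit 0) (XT.lf (nat_lit 0) (nat_lit 661345680) (nat_lit 380) (nat_lit 11895242120) (nat_lit 76) (nat_lit 36607678) (nat_lit 91) (nat_lit 5) (nat_lit 96) (nat_lit 5) (nat_lit 92) (nat_lit 5) (nat_lit 365) (nat_lit 292) (nat_lit 243)) (XT.nd (nat_lit 78) (nat_lit 304) (nat_lit 0) (XT.lf (nat_lit 0) (nat_lit 6047346340) (nat_lit 380) (nat_lit 429062386) (nat_lit 76) (nat_lit 6347612362) (nat_lit 91) (nat_lit 5) (nat_lit 96) (nat_lit 5) (nat_lit 92) (nat_lit 5) (nat_lit 366) (nat_lit 292) (nat_lit 242)) (XT.lf (nat_lit 0) (nat_lit 11422398909) (nat_lit 304) (nat_lit 179182418) (nat_lit 380) (nat_lit 1460071327) (nat_lit 87)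 (nat_lit 5) (nat_lit 91) (nat_lit 5) (nat_lit 92) (nat_lit 5) (nat_lit 367) (nat_lit 292) (nat_lit 241)))))) (XT.nd (nat_lit 390) (nat_lit 1064) (nat_lit 0) (XT.nd (nat_lit 156) (nat_lit 836) (nat_lit 0) (XT.nd (nat_lit 78) (nat_lit 304) (nat_lit 0) (XT.lf (nat_lit 0) (nat_lit 4007992110) (nat_lit 304) (nat_lit 3016491597) (nat_lit 76) (nat_lit 6280528893) (nat_lit 83) (nat_lit 5) (nat_lit 87) (nat_lit 5) (nat_lit 84) (nat_lit 5) (nat_lit 368) (nat_lit 292) (nat_lit 240)) (XT.lf (nat_lit 0) (nat_lit 9041701160) (nat_lit 304) (nat_lit 584062690) (nat_lit 380) (nat_lit 3929619602) (nat_lit 79) (nat_lit 5) (nat_lit 83) (nat_lit 5) (nat_lit 84) (nat_lit 5) (nat_lit 369) (nat_lit 292) (nat_lit 239))) (XT.nd (nat_lit 78) (nat_lit 532) (nat_lit 0) (XT.lf (nat_lit 0) (nat_lit 1622877459) (nat_lit 304) (nat_lit 6178403408) (nat_lit 76) (nat_lit 6010888654) (nat_lit 75) (nat_lit 5) (nat_lit 79) (nat_lit 5)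 (nat_lit 76) (nat_lit 5) (nat_lit 370) (nat_lit 292) (nat_lit 238)) (XT.nd (nat_lit 78) (nat_lit 228) (nat_lit 0) (XT.lf (nat_lit 0) (nat_lit 6075262352) (nat_lit 304) (nat_lit 1223786999) (nat_lit 380) (nat_lit 6776892754) (nat_lit 71) (nat_lit 5) (nat_lit 75) (nat_lit 5) (nat_lit 76) (nat_lit 5) (nat_lit 371) (nat_lit 292) (nat_lit 237)) (XT.lf (nat_lit 0) (nat_lit 4350361883) (nat_lit 228) (nat_lit 8838543326) (nat_lit 304) (nat_lit 1157866514) (nat_lit 68) (nat_lit 5) (nat_lit 71) (nat_lit 5) (nat_lit 72) (nat_lit 5) (nat_lit 372) (nat_lit 292) (nat_lit 236))))) (XT.nd (nat_lit 156) (nat_lit 532) (nat_lit 0) (XT.nd (nat_lit 78) (nat_lit 228) (nat_lit 0) (XT.lf (nat_lit 0) (nat_lit 2446456154) (nat_lit 228) (nat_lit 2138911244) (nat_lit 304) (nat_lit 10039441778) (nat_lit 64) (nat_lit 5) (nat_lit 67) (nat_lit 5) (nat_lit 68) (nat_lit 5) (nat_lit 373) (nat_lit 292) (nat_lit 235)) (XT.lf (nat_lit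 0) (nat_lit 351998796) (nat_lit 228) (nat_lit 10173246413) (nat_lit 304) (nat_lit 4384998856) (nat_lit 61) (nat_lit 5) (nat_lit 64) (nat_lit 5) (nat_lit 65) (nat_lit 5) (nat_lit 374) (nat_lit 292) (nat_lit 234))) (XT.nd (nat_lit 78) (nat_lit 456) (nat_lit 0) (XT.lf (nat_lit 0) (nat_lit 1456897491) (nat_lit 304) (nat_lit 1904086178) (nat_lit 76) (nat_lit 11842347993) (nat_lit 60) (nat_lit 5) (nat_lit 64) (nat_lit 5) (nat_lit 61) (nat_lit 5) (nat_lit 375) (nat_lit 292) (nat_lit 233)) (XT.nd (nat_lit 78) (nat_lit 228) (nat_lit 0) (XT.lf (nat_lit 0) (nat_lit 7452423833) (nat_lit 304) (nat_lit 4381223355) (nat_lit 76) (nat_lit 3670236149) (nat_lit 57) (nat_lit 5) (nat_lit 61) (nat_lit 5) (nat_lit 58) (nat_lit 5) (nat_lit 376) (nat_lit 292) (nat_lit 232)) (XT.lf (nat_lit 0) (nat_lit 8746650723) (nat_lit 228) (nat_lit 4915328495) (nat_lit 304) (nat_lit 2150798890) (nat_lit 54) (nat_lit 5) (nat_lit 57) (nat_lit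 5) (nat_lit 58) (nat_lit 5) (nat_lit 377) (nat_lit 292) (nat_lit 231))))))) (XT.nd (nat_lit 41964) (nat_lit 0) (nat_lit 31084) (XT.nd (nat_lit 390) (nat_lit 684) (nat_lit 0) (XT.nd (nat_lit 156) (nat_lit 456) (nat_lit 0) (XT.nd (nat_lit 78) (nat_lit 152) (nat_lit 0) (XT.lf (nat_lit 0) (nat_lit 3902535739) (nat_lit 304) (nat_lit 9989644218) (nat_lit 76) (nat_lit 2237716066) (nat_lit 50) (nat_lit 5) (nat_lit 54) (nat_lit 5) (nat_lit 51) (nat_lit 5) (nat_lit 378) (nat_lit 292) (nat_lit 230)) (XT.lf (nat_lit 0) (nat_lit 3282407863) (nat_lit 152) (nat_lit 6871764539) (nat_lit 228) (nat_lit 6301161349) (nat_lit 48) (nat_lit 5) (nat_lit 50) (nat_lit 5) (nat_lit 51) (nat_lit 5) (nat_lit 379) (nat_lit 292) (nat_lit 229))) (XT.nd (nat_lit 78) (nat_lit 228) (nat_lit 0) (XT.lf (nat_lit 0) (nat_lit 203739503) (nat_lit 228) (nat_lit 16405560263) (nat_lit 304) (nat_lit 180924815) (nat_lit 45) (nat_lit 5) (nat_lit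 48) (nat_lit 5) (nat_lit 49) (nat_lit 5) (nat_lit 380) (nat_lit 292) (nat_lit 228)) (XT.nd (nat_lit 78) (nat_lit 152) (nat_lit 0) (XT.lf (nat_lit 0) (nat_lit 6123210061) (nat_lit 304) (nat_lit 3153170218) (nat_lit 76) (nat_lit 7856383267) (nat_lit 44) (nat_lit 5) (nat_lit 48) (nat_lit 5) (nat_lit 45) (nat_lit 5) (nat_lit 381) (nat_lit 292) (nat_lit 227)) (XT.lf (nat_lit 0) (nat_lit 10729929438) (nat_lit 152) (nat_lit 1900154361) (nat_lit 228) (nat_lit 4855157639) (nat_lit 42) (nat_lit 5) (nat_lit 44) (nat_lit 5) (nat_lit 45) (nat_lit 5) (nat_lit 382) (nat_lit 292) (nat_lit 226))))) (XT.nd (nat_lit 156) (nat_lit 228) (nat_lit 0) (XT.nd (nat_lit 78) (nat_lit 152) (nat_lit 0) (XT.lf (nat_lit 0) (nat_lit 1517040267) (nat_lit 304) (nat_lit 10667289855) (nat_lit 76) (nat_lit 5662725976) (nat_lit 38) (nat_lit 5) (nat_lit 42) (nat_lit 5) (nat_lit 39) (nat_lit 5) (nat_lit 383) (nat_lit 292) (nat_lit 225))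 (XT.lf (nat_lit 0) (nat_lit 3313285761) (nat_lit 152) (nat_lit 4729542948) (nat_lit 228) (nat_lit 10175694411) (nat_lit 36) (nat_lit 5) (nat_lit 38) (nat_lit 5) (nat_lit 39) (nat_lit 5) (nat_lit 384) (nat_lit 292) (nat_lit 224))) (XT.nd (nat_lit 78) (nat_lit 228) (nat_lit 0) (XT.lf (nat_lit 0) (nat_lit 14804703917) (nat_lit 228) (nat_lit 850568180) (nat_lit 76) (nat_lit 2945063092) (nat_lit 36) (nat_lit 5) (nat_lit 39) (nat_lit 5) (nat_lit 37) (nat_lit 5) (nat_lit 385) (nat_lit 292) (nat_lit 223)) (XT.nd (nat_lit 41262) (nat_lit 0) (nat_lit 44156) (XT.lf (nat_lit 0) (nat_lit 2810278665) (nat_lit 228) (nat_lit 5324998458) (nat_lit 76) (nat_lit 10856553986) (nat_lit 33) (nat_lit 5) (nat_lit 36) (nat_lit 5) (nat_lit 34) (nat_lit 5) (nat_lit 386) (nat_lit 292) (nat_lit 222)) (XT.lf (nat_lit 0) (nat_lit 1750637664) (nat_lit 836) (nat_lit 788814351) (nat_lit 836) (nat_lit 788814351) (nat_lit 614) (nat_lit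 4) (nat_lit 625) (nat_lit 5) (nat_lit 625) (nat_lit 4) (nat_lit 314) (nat_lit 293) (nat_lit 293)))))) (XT.nd (nat_lit 390) (nat_lit 7448) (nat_lit 0) (XT.nd (nat_lit 156) (nat_lit 3572) (nat_lit 0) (XT.nd (nat_lit 78) (nat_lit 1064) (nat_lit 0) (XT.lf (nat_lit 0) (nat_lit 3046506114) (nat_lit 912) (nat_lit 103515658) (nat_lit 988) (nat_lit 3538835974) (nat_lit 601) (nat_lit 5) (nat_lit 613) (nat_lit 5) (nat_lit 614) (nat_lit 4) (nat_lit 315) (nat_lit 293) (nat_lit 292)) (XT.lf (nat_lit 0) (nat_lit 1149394759) (nat_lit 1064) (nat_lit 4086533903) (nat_lit 76) (nat_lit 1488154139) (nat_lit 587) (nat_lit 5) (nat_lit 601) (nat_lit 5) (nat_lit 588) (nat_lit 4) (nat_lit 316) (nat_lit 293) (nat_lit 291))) (XT.nd (nat_lit 78) (nat_lit 2508) (nat_lit 0) (XT.lf (nat_lit 0) (nat_lit 2275695099) (nat_lit 1064) (nat_lit 3540574348) (nat_lit 1140) (nat_lit 946007468) (nat_lit 573) (nat_lit 5) (nat_lit 587) (nat_lit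 5) (nat_lit 588) (nat_lit 4) (nat_lit 317) (nat_lit 293) (nat_lit 290)) (XT.nd (nat_lit 78) (nat_lit 1292) (nat_lit 0) (XT.lf (nat_lit 0) (nat_lit 1958817799) (nat_lit 1140) (nat_lit 1701280510) (nat_lit 1216) (nat_lit 3143345374) (nat_lit 557) (nat_lit 5) (nat_lit 572) (nat_lit 5) (nat_lit 573) (nat_lit 5) (nat_lit 318) (nat_lit 293) (nat_lit 289)) (XT.lf (nat_lit 0) (nat_lit 1419606196) (nat_lit 1292) (nat_lit 5155693428) (nat_lit 76) (nat_lit 272430831) (nat_lit 540) (nat_lit 5) (nat_lit 557) (nat_lit 5) (nat_lit 541) (nat_lit 5) (nat_lit 319) (nat_lit 293) (nat_lit 288))))) (XT.nd (nat_lit 156) (nat_lit 4712) (nat_lit 0) (XT.nd (nat_lit 78) (nat_lit 1444) (nat_lit 0) (XT.lf (nat_lit 0) (nat_lit 1458238810) (nat_lit 1292) (nat_lit 4526968926) (nat_lit 1368) (nat_lit 909642624) (nat_lit 523) (nat_lit 5) (nat_lit 540) (nat_lit 5) (nat_lit 541) (nat_lit 5) (nat_lit 320) (nat_lit 293) (nat_lit 287))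 (XT.lf (nat_lit 0) (nat_lit 1263880632) (nat_lit 1368) (nat_lit 2331516766) (nat_lit 1444) (nat_lit 3349583111) (nat_lit 504) (nat_lit 5) (nat_lit 522) (nat_lit 5) (nat_lit 523) (nat_lit 5) (nat_lit 321) (nat_lit 293) (nat_lit 286))) (XT.nd (nat_lit 78) (nat_lit 3192) (nat_lit 0) (XT.lf (nat_lit 0) (nat_lit 1114137529) (nat_lit 1520) (nat_lit 5880563481) (nat_lit 76) (nat_lit 3645206) (nat_lit 484) (nat_lit 5) (nat_lit 504) (nat_lit 5) (nat_lit 485) (nat_lit 5) (nat_lit 322) (nat_lit 293) (nat_lit 285)) (XT.nd (nat_lit 78) (nat_lit 1672) (nat_lit 0) (XT.lf (nat_lit 0) (nat_lit 993240907) (nat_lit 1520) (nat_lit 4596548507) (nat_lit 1596) (nat_lit 1464688775) (nat_lit 464) (nat_lit 5) (nat_lit 484) (nat_lit 5) (nat_lit 485) (nat_lit 5) (nat_lit 323) (nat_lit 293) (nat_lit 284)) (XT.lf (nat_lit 0) (nat_lit 906640211) (nat_lit 1596) (nat_lit 2050985740) (nat_lit 1672) (nat_lit 4156128101) (nat_lit 442)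 (nat_lit 5) (nat_lit 463) (nat_lit 5) (nat_lit 464) (nat_lit 5) (nat_lit 324) (nat_lit 293) (nat_lit 283))))))))
noncomputable def xc34 : XT := (XT.nd (nat_lit 1560) (nat_lit 8512) (nat_lit 0) (XT.nd (nat_lit 780) (nat_lit 6764) (nat_lit 0) (XT.nd (nat_lit 390) (nat_lit 4256) (nat_lit 0) (XT.nd (nat_lit 156) (nat_lit 2964) (nat_lit 0) (XT.nd (nat_lit 78) (nat_lit 1748) (nat_lit 0) (XT.lf (nat_lit 0) (nat_lit 231953002) (nat_lit 1748) (nat_lit 6315667998) (nat_lit 76) (nat_lit 628662940) (nat_lit 419) (nat_lit 5) (nat_lit 442) (nat_lit 5) (nat_lit 420) (nat_lit 5) (nat_lit 325) (nat_lit 293) (nat_lit 282)) (XT.lf (nat_lit 0) (nat_lit 826932510) (nat_lit 1748) (nat_lit 3800008183) (nat_lit 1824) (nat_lit 2614634186) (nat_lit 396) (nat_lit 5) (nat_lit 419) (nat_lit 5) (nat_lit 420) (nat_lit 5) (nat_lit 326) (nat_lit 293) (nat_lit 281))) (XT.nd (nat_lit 78) (nat_lit 1824) (nat_lit 0) (XT.lf (nat_lit 0)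 (nat_lit 833650179) (nat_lit 1064) (nat_lit 907646516) (nat_lit 1140) (nat_lit 5568943329) (nat_lit 381) (nat_lit 5) (nat_lit 395) (nat_lit 5) (nat_lit 396) (nat_lit 5) (nat_lit 327) (nat_lit 293) (nat_lit 280)) (XT.nd (nat_lit 78) (nat_lit 912) (nat_lit 0) (XT.lf (nat_lit 0) (nat_lit 859336831) (nat_lit 912) (nat_lit 5270992251) (nat_lit 988) (nat_lit 1251595399) (nat_lit 369) (nat_lit 5) (nat_lit 381) (nat_lit 5) (nat_lit 382) (nat_lit 5) (nat_lit 328) (nat_lit 293) (nat_lit 279)) (XT.lf (nat_lit 0) (nat_lit 906459879) (nat_lit 836) (nat_lit 2179954067) (nat_lit 912) (nat_lit 4370330514) (nat_lit 357) (nat_lit 5) (nat_lit 368) (nat_lit 5) (nat_lit 369) (nat_lit 5) (nat_lit 329) (nat_lit 293) (nat_lit 278))))) (XT.nd (nat_lit 156) (nat_lit 2508) (nat_lit 0) (XT.nd (nat_lit 78) (nat_lit 912) (nat_lit 0) (XT.lf (nat_lit 0) (nat_lit 984670534) (nat_lit 836) (nat_lit 6490040659) (nat_lit 912) (nat_lit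 60248431) (nat_lit 346) (nat_lit 5) (nat_lit 357) (nat_lit 5) (nat_lit 358) (nat_lit 5) (nat_lit 330) (nat_lit 293) (nat_lit 277)) (XT.lf (nat_lit 0) (nat_lit 1063995047) (nat_lit 836) (nat_lit 3205380872) (nat_lit 912) (nat_lit 3346679457) (nat_lit 334) (nat_lit 5) (nat_lit 345) (nat_lit 5) (nat_lit 346) (nat_lit 5) (nat_lit 331) (nat_lit 293) (nat_lit 276))) (XT.nd (nat_lit 78) (nat_lit 1596) (nat_lit 0) (XT.lf (nat_lit 0) (nat_lit 952146379) (nat_lit 912) (nat_lit 6523397407) (nat_lit 76) (nat_lit 225209410) (nat_lit 322) (nat_lit 5) (nat_lit 334) (nat_lit 5) (nat_lit 323) (nat_lit 5) (nat_lit 332) (nat_lit 293) (nat_lit 275)) (XT.nd (nat_lit 78) (nat_lit 836) (nat_lit 0) (XT.lf (nat_lit 0) (nat_lit 1286903252) (nat_lit 760) (nat_lit 4008149252) (nat_lit 836) (nat_lit 2493337310) (nat_lit 312) (nat_lit 5) (nat_lit 322) (nat_lit 5) (nat_lit 323) (nat_lit 5) (nat_lit 333) (nat_lit 293) (nat_lit 274))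 (XT.lf (nat_lit 0) (nat_lit 1422548715) (nat_lit 760) (nat_lit 383557246) (nat_lit 836) (nat_lit 6073527709) (nat_lit 301) (nat_lit 5) (nat_lit 311) (nat_lit 5) (nat_lit 312) (nat_lit 5) (nat_lit 334) (nat_lit 293) (nat_lit 273)))))) (XT.nd (nat_lit 390) (nat_lit 3192) (nat_lit 0) (XT.nd (nat_lit 156) (nat_lit 2052) (nat_lit 0) (XT.nd (nat_lit 78) (nat_lit 836) (nat_lit 0) (XT.lf (nat_lit 0) (nat_lit 1555570458) (nat_lit 684) (nat_lit 4611413411) (nat_lit 760) (nat_lit 1807022858) (nat_lit 292) (nat_lit 5) (nat_lit 301) (nat_lit 5) (nat_lit 302) (nat_lit 5) (nat_lit 335) (nat_lit 293) (nat_lit 272)) (XT.lf (nat_lit 0) (nat_lit 1703226510) (nat_lit 760) (nat_lit 799557745) (nat_lit 836) (nat_lit 5569151597) (nat_lit 281) (nat_lit 5) (nat_lit 291) (nat_lit 5) (nat_lit 292) (nat_lit 5) (nat_lit 336) (nat_lit 293) (nat_lit 271))) (XT.nd (nat_lit 78) (nat_lit 1368) (nat_lit 0) (XT.lf (nat_lit 0) (nat_lit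 1849936830) (nat_lit 684) (nat_lit 5037440589) (nat_lit 760) (nat_lit 1285830081) (nat_lit 272) (nat_lit 5) (nat_lit 281) (nat_lit 5) (nat_lit 282) (nat_lit 5) (nat_lit 337) (nat_lit 293) (nat_lit 270)) (XT.nd (nat_lit 78) (nat_lit 608) (nat_lit 0) (XT.lf (nat_lit 0) (nat_lit 2000469655) (nat_lit 684) (nat_lit 1041667349) (nat_lit 760) (nat_lit 5235873740) (nat_lit 262) (nat_lit 5) (nat_lit 271) (nat_lit 5) (nat_lit 272) (nat_lit 5) (nat_lit 338) (nat_lit 293) (nat_lit 269)) (XT.lf (nat_lit 0) (nat_lit 2149304561) (nat_lit 608) (nat_lit 5307789401) (nat_lit 684) (nat_lit 929242747) (nat_lit 254) (nat_lit 5) (nat_lit 262) (nat_lit 5) (nat_lit 263) (nat_lit 5) (nat_lit 339) (nat_lit 293) (nat_lit 268))))) (XT.nd (nat_lit 156) (nat_lit 1900) (nat_lit 0) (XT.nd (nat_lit 78) (nat_lit 608) (nat_lit 0) (XT.lf (nat_lit 0) (nat_lit 2293116558) (nat_lit 608) (nat_lit 1131112608) (nat_lit 684) (nat_lit 5073994353)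 (nat_lit 245) (nat_lit 5) (nat_lit 253) (nat_lit 5) (nat_lit 254) (nat_lit 5) (nat_lit 340) (nat_lit 293) (nat_lit 267)) (XT.lf (nat_lit 0) (nat_lit 2432136017) (nat_lit 608) (nat_lit 5443486768) (nat_lit 684) (nat_lit 738160358) (nat_lit 237) (nat_lit 5) (nat_lit 245) (nat_lit 5) (nat_lit 246) (nat_lit 5) (nat_lit 341) (nat_lit 293) (nat_lit 266))) (XT.nd (nat_lit 78) (nat_lit 1216) (nat_lit 0) (XT.lf (nat_lit 0) (nat_lit 2559066970) (nat_lit 608) (nat_lit 1088655871) (nat_lit 684) (nat_lit 5085261444) (nat_lit 228) (nat_lit 5) (nat_lit 236) (nat_lit 5) (nat_lit 237) (nat_lit 5) (nat_lit 342) (nat_lit 293) (nat_lit 265)) (XT.nd (nat_lit 78) (nat_lit 684) (nat_lit 0) (XT.lf (nat_lit 0) (nat_lit 2675840386) (nat_lit 532) (nat_lit 5465204787) (nat_lit 608) (nat_lit 714935904) (nat_lit 221) (nat_lit 5) (nat_lit 228) (nat_lit 5) (nat_lit 229) (nat_lit 5) (nat_lit 343) (nat_lit 293) (nat_lit 264)) (XT.lf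 (nat_lit 0) (nat_lit 2775061719) (nat_lit 608) (nat_lit 934773282) (nat_lit 684) (nat_lit 5272914496) (nat_lit 212) (nat_lit 5) (nat_lit 220) (nat_lit 5) (nat_lit 221) (nat_lit 5) (nat_lit 344) (nat_lit 293) (nat_lit 263))))))) (XT.nd (nat_lit 780) (nat_lit 3420) (nat_lit 0) (XT.nd (nat_lit 390) (nat_lit 2432) (nat_lit 0) (XT.nd (nat_lit 156) (nat_lit 1520) (nat_lit 0) (XT.nd (nat_lit 78) (nat_lit 608) (nat_lit 0) (XT.lf (nat_lit 0) (nat_lit 2856546872) (nat_lit 532) (nat_lit 5393439010) (nat_lit 608) (nat_lit 863425940) (nat_lit 205) (nat_lit 5) (nat_lit 212) (nat_lit 5) (nat_lit 213) (nat_lit 5) (nat_lit 345) (nat_lit 293) (nat_lit 262)) (XT.lf (nat_lit 0) (nat_lit 2916447994) (nat_lit 532) (nat_lit 689834805) (nat_lit 608) (nat_lit 5641740827) (nat_lit 197) (nat_lit 5) (nat_lit 204) (nat_lit 5) (nat_lit 205) (nat_lit 5) (nat_lit 346) (nat_lit 293) (nat_lit 261))) (XT.nd (nat_lit 78) (nat_lit 1064)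 (nat_lit 0) (XT.lf (nat_lit 0) (nat_lit 2948862352) (nat_lit 456) (nat_lit 5248689551) (nat_lit 532) (nat_lit 1189053653) (nat_lit 191) (nat_lit 5) (nat_lit 197) (nat_lit 5) (nat_lit 198) (nat_lit 5) (nat_lit 347) (nat_lit 293) (nat_lit 260)) (XT.nd (nat_lit 78) (nat_lit 456) (nat_lit 0) (XT.lf (nat_lit 0) (nat_lit 2956928020) (nat_lit 532) (nat_lit 374287765) (nat_lit 608) (nat_lit 6198145357) (nat_lit 183) (nat_lit 5) (nat_lit 190) (nat_lit 5) (nat_lit 191) (nat_lit 5) (nat_lit 348) (nat_lit 293) (nat_lit 259)) (XT.lf (nat_lit 0) (nat_lit 2925611233) (nat_lit 456) (nat_lit 5051646564) (nat_lit 532) (nat_lit 1698885665) (nat_lit 177) (nat_lit 5) (nat_lit 183) (nat_lit 5) (nat_lit 184) (nat_lit 5) (nat_lit 349) (nat_lit 293) (nat_lit 258))))) (XT.nd (nat_lit 156) (nat_lit 1444) (nat_lit 0) (XT.nd (nat_lit 78) (nat_lit 456) (nat_lit 0) (XT.lf (nat_lit 0) (nat_lit 2868288766) (nat_lit 456) (nat_lit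 8845453) (nat_lit 532) (nat_lit 6950234576) (nat_lit 170) (nat_lit 5) (nat_lit 176) (nat_lit 5) (nat_lit 177) (nat_lit 5) (nat_lit 350) (nat_lit 293) (nat_lit 257)) (XT.lf (nat_lit 0) (nat_lit 2757555069) (nat_lit 456) (nat_lit 4823381653) (nat_lit 532) (nat_lit 2401723454) (nat_lit 164) (nat_lit 5) (nat_lit 170) (nat_lit 5) (nat_lit 171) (nat_lit 5) (nat_lit 351) (nat_lit 293) (nat_lit 256))) (XT.nd (nat_lit 78) (nat_lit 912) (nat_lit 0) (XT.lf (nat_lit 0) (nat_lit 2237294291) (nat_lit 532) (nat_lit 7525099833) (nat_lit 76) (nat_lit 380264073) (nat_lit 157) (nat_lit 5) (nat_lit 164) (nat_lit 5) (nat_lit 158) (nat_lit 5) (nat_lit 352) (nat_lit 293) (nat_lit 255)) (XT.nd (nat_lit 78) (nat_lit 532) (nat_lit 0) (XT.lf (nat_lit 0) (nat_lit 2413089272) (nat_lit 380) (nat_lit 4585546886) (nat_lit 456) (nat_lit 3308210425) (nat_lit 152) (nat_lit 5) (nat_lit 157) (nat_lit 5) (nat_lit 158) (nat_lit 5) (nat_lit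 353) (nat_lit 293) (nat_lit 254)) (XT.lf (nat_lit 0) (nat_lit 1398192602) (nat_lit 532) (nat_lit 8301755661) (nat_lit 76) (nat_lit 776048576) (nat_lit 145) (nat_lit 5) (nat_lit 152) (nat_lit 5) (nat_lit 146) (nat_lit 5) (nat_lit 354) (nat_lit 293) (nat_lit 253)))))) (XT.nd (nat_lit 390) (nat_lit 1748) (nat_lit 0) (XT.nd (nat_lit 156) (nat_lit 836) (nat_lit 0) (XT.nd (nat_lit 78) (nat_lit 456) (nat_lit 0) (XT.lf (nat_lit 0) (nat_lit 1857914042) (nat_lit 380) (nat_lit 4360583154) (nat_lit 456) (nat_lit 4430955774) (nat_lit 140) (nat_lit 5) (nat_lit 145) (nat_lit 5) (nat_lit 146) (nat_lit 5) (nat_lit 355) (nat_lit 293) (nat_lit 252)) (XT.lf (nat_lit 0) (nat_lit 346532719) (nat_lit 456) (nat_lit 9325433105) (nat_lit 76) (nat_lit 1156203699) (nat_lit 134) (nat_lit 5) (nat_lit 140) (nat_lit 5) (nat_lit 135) (nat_lit 5) (nat_lit 356) (nat_lit 293) (nat_lit 251))) (XT.nd (nat_lit 78) (nat_lit 456) (nat_lit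 0) (XT.lf (nat_lit 0) (nat_lit 1054676347) (nat_lit 380) (nat_lit 4171939751) (nat_lit 456) (nat_lit 5784676471) (nat_lit 129) (nat_lit 5) (nat_lit 134) (nat_lit 5) (nat_lit 135) (nat_lit 5) (nat_lit 357) (nat_lit 293) (nat_lit 250)) (XT.nd (nat_lit 78) (nat_lit 76) (nat_lit 0) (XT.lf (nat_lit 0) (nat_lit 557890093) (nat_lit 380) (nat_lit 9696544900) (nat_lit 456) (nat_lit 945467224) (nat_lit 124) (nat_lit 5) (nat_lit 129) (nat_lit 5) (nat_lit 130) (nat_lit 5) (nat_lit 358) (nat_lit 293) (nat_lit 249)) (XT.lf (nat_lit 0) (nat_lit 4007129640) (nat_lit 456) (nat_lit 36929697) (nat_lit 76) (nat_lit 7349181331) (nat_lit 123) (nat_lit 5) (nat_lit 129) (nat_lit 5) (nat_lit 124) (nat_lit 5) (nat_lit 359) (nat_lit 293) (nat_lit 248))))) (XT.nd (nat_lit 156) (nat_lit 988) (nat_lit 0) (XT.nd (nat_lit 78) (nat_lit 456) (nat_lit 0) (XT.lf (nat_lit 0) (nat_lit 9105735015) (nat_lit 380) (nat_lit 691354929) (nat_lit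 76) (nat_lit 1794976907) (nat_lit 119) (nat_lit 5) (nat_lit 124) (nat_lit 5) (nat_lit 120) (nat_lit 5) (nat_lit 360) (nat_lit 293) (nat_lit 247)) (XT.lf (nat_lit 0) (nat_lit 2550320921) (nat_lit 456) (nat_lit 1443855198) (nat_lit 76) (nat_lit 7801897218) (nat_lit 113) (nat_lit 5) (nat_lit 119) (nat_lit 5) (nat_lit 114) (nat_lit 5) (nat_lit 361) (nat_lit 293) (nat_lit 246))) (XT.nd (nat_lit 78) (nat_lit 684) (nat_lit 0) (XT.lf (nat_lit 0) (nat_lit 7715174153) (nat_lit 380) (nat_lit 2286601317) (nat_lit 76) (nat_lit 2003894962) (nat_lit 109) (nat_lit 5) (nat_lit 114) (nat_lit 5) (nat_lit 110) (nat_lit 5) (nat_lit 362) (nat_lit 293) (nat_lit 245)) (XT.nd (nat_lit 78) (nat_lit 304) (nat_lit 0) (XT.lf (nat_lit 0) (nat_lit 828591407) (nat_lit 380) (nat_lit 3228293625) (nat_lit 76) (nat_lit 8164063849) (nat_lit 104) (nat_lit 5) (nat_lit 109) (nat_lit 5) (nat_lit 105) (nat_lit 5) (nat_lit 363) (nat_lit 293)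 (nat_lit 244)) (XT.lf (nat_lit 0) (nat_lit 6057309924) (nat_lit 380) (nat_lit 4285834942) (nat_lit 76) (nat_lit 2098702077) (nat_lit 100) (nat_lit 5) (nat_lit 105) (nat_lit 5) (nat_lit 101) (nat_lit 5) (nat_lit 364) (nat_lit 293) (nat_lit 243))))))))
noncomputable def xc35 : XT := (XT.nd (nat_lit 1560) (nat_lit 304) (nat_lit 0) (XT.nd (nat_lit 780) (nat_lit 1976) (nat_lit 0) (XT.nd (nat_lit 390) (nat_lit 1140) (nat_lit 0) (XT.nd (nat_lit 156) (nat_lit 912) (nat_lit 0) (XT.nd (nat_lit 78) (nat_lit 380) (nat_lit 0) (XT.lf (nat_lit 0) (nat_lit 7217649338) (nat_lit 304) (nat_lit 4253876178) (nat_lit 380) (nat_lit 1197288717) (nat_lit 96) (nat_lit 5) (nat_lit 100) (nat_lit 5) (nat_lit 101) (nat_lit 5) (nat_lit 365) (nat_lit 293) (nat_lit 242)) (XT.lf (nat_lit 0) (nat_lit 4107440266) (nat_lit 380) (nat_lit 6744783205) (nat_lit 76) (nat_lit 2049518361) (nat_lit 91) (nat_lit 5) (nat_lit 96) (nat_lit 5) (nat_lit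 92) (nat_lit 5) (nat_lit 366) (nat_lit 293) (nat_lit 241))) (XT.nd (nat_lit 78) (nat_lit 608) (nat_lit 0) (XT.lf (nat_lit 0) (nat_lit 4970159184) (nat_lit 304) (nat_lit 4617337519) (nat_lit 380) (nat_lit 3553367091) (nat_lit 87) (nat_lit 5) (nat_lit 91) (nat_lit 5) (nat_lit 92) (nat_lit 5) (nat_lit 367) (nat_lit 293) (nat_lit 240)) (XT.nd (nat_lit 78) (nat_lit 304) (nat_lit 0) (XT.lf (nat_lit 0) (nat_lit 1837718293) (nat_lit 304) (nat_lit 9724812391) (nat_lit 76) (nat_lit 1824060016) (nat_lit 83) (nat_lit 5) (nat_lit 87) (nat_lit 5) (nat_lit 84) (nat_lit 5) (nat_lit 368) (nat_lit 293) (nat_lit 239)) (XT.lf (nat_lit 0) (nat_lit 2192394238) (nat_lit 304) (nat_lit 5187206216) (nat_lit 380) (nat_lit 6258885199) (nat_lit 79) (nat_lit 5) (nat_lit 83) (nat_lit 5) (nat_lit 84) (nat_lit 5) (nat_lit 369) (nat_lit 293) (nat_lit 238))))) (XT.nd (nat_lit 156) (nat_lit 836) (nat_lit 0) (XT.nd (nat_lit 78) (nat_lit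 76) (nat_lit 0) (XT.lf (nat_lit 0) (nat_lit 598905266) (nat_lit 228) (nat_lit 12505169154) (nat_lit 304) (nat_lit 793548760) (nat_lit 76) (nat_lit 5) (nat_lit 79) (nat_lit 5) (nat_lit 80) (nat_lit 5) (nat_lit 370) (nat_lit 293) (nat_lit 237)) (XT.lf (nat_lit 0) (nat_lit 4822998489) (nat_lit 304) (nat_lit 1169988309) (nat_lit 76) (nat_lit 8169918484) (nat_lit 75) (nat_lit 5) (nat_lit 79) (nat_lit 5) (nat_lit 76) (nat_lit 5) (nat_lit 371) (nat_lit 293) (nat_lit 236))) (XT.nd (nat_lit 78) (nat_lit 532) (nat_lit 0) (XT.lf (nat_lit 0) (nat_lit 10615750119) (nat_lit 380) (nat_lit 3073665766) (nat_lit 76) (nat_lit 746266759) (nat_lit 71) (nat_lit 5) (nat_lit 76) (nat_lit 5) (nat_lit 72) (nat_lit 5) (nat_lit 372) (nat_lit 293) (nat_lit 235)) (XT.nd (nat_lit 78) (nat_lit 228) (nat_lit 0) (XT.lf (nat_lit 0) (nat_lit 1892186567) (nat_lit 304) (nat_lit 5172062404) (nat_lit 76) (nat_lit 7651142759) (nat_lit 67)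 (nat_lit 5) (nat_lit 71) (nat_lit 5) (nat_lit 68) (nat_lit 5) (nat_lit 373) (nat_lit 293) (nat_lit 234)) (XT.lf (nat_lit 0) (nat_lit 7553337327) (nat_lit 228) (nat_lit 182027057) (nat_lit 304) (nat_lit 7267401465) (nat_lit 64) (nat_lit 5) (nat_lit 67) (nat_lit 5) (nat_lit 68) (nat_lit 5) (nat_lit 374) (nat_lit 293) (nat_lit 233)))))) (XT.nd (nat_lit 390) (nat_lit 912) (nat_lit 0) (XT.nd (nat_lit 156) (nat_lit 532) (nat_lit 0) (XT.nd (nat_lit 78) (nat_lit 304) (nat_lit 0) (XT.lf (nat_lit 0) (nat_lit 5361276172) (nat_lit 228) (nat_lit 8449616305) (nat_lit 304) (nat_lit 1486737923) (nat_lit 61) (nat_lit 5) (nat_lit 64) (nat_lit 5) (nat_lit 65) (nat_lit 5) (nat_lit 375) (nat_lit 293) (nat_lit 232)) (XT.lf (nat_lit 0) (nat_lit 2969943411) (nat_lit 228) (nat_lit 1452928686) (nat_lit 304) (nat_lit 11177616171) (nat_lit 57) (nat_lit 5) (nat_lit 60) (nat_lit 5) (nat_lit 61) (nat_lit 5) (nat_lit 376) (nat_lit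 293) (nat_lit 231))) (XT.nd (nat_lit 78) (nat_lit 304) (nat_lit 0) (XT.lf (nat_lit 0) (nat_lit 349485200) (nat_lit 228) (nat_lit 10191206485) (nat_lit 304) (nat_lit 5370530763) (nat_lit 54) (nat_lit 5) (nat_lit 57) (nat_lit 5) (nat_lit 58) (nat_lit 5) (nat_lit 377) (nat_lit 293) (nat_lit 230)) (XT.nd (nat_lit 78) (nat_lit 228) (nat_lit 0) (XT.lf (nat_lit 0) (nat_lit 642885810) (nat_lit 304) (nat_lit 2446916162) (nat_lit 76) (nat_lit 13140603859) (nat_lit 53) (nat_lit 5) (nat_lit 57) (nat_lit 5) (nat_lit 54) (nat_lit 5) (nat_lit 378) (nat_lit 293) (nat_lit 229)) (XT.lf (nat_lit 0) (nat_lit 6809863186) (nat_lit 304) (nat_lit 5507404793) (nat_lit 76) (nat_lit 4240273101) (nat_lit 50) (nat_lit 5) (nat_lit 54) (nat_lit 5) (nat_lit 51) (nat_lit 5) (nat_lit 379) (nat_lit 293) (nat_lit 228))))) (XT.nd (nat_lit 156) (nat_lit 456) (nat_lit 0) (XT.nd (nat_lit 78) (nat_lit 304) (nat_lit 0) (XT.lf (nat_lit 0)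 (nat_lit 8085227737) (nat_lit 152) (nat_lit 5113095499) (nat_lit 228) (nat_lit 3695446231) (nat_lit 48) (nat_lit 5) (nat_lit 50) (nat_lit 5) (nat_lit 51) (nat_lit 5) (nat_lit 380) (nat_lit 293) (nat_lit 227)) (XT.lf (nat_lit 0) (nat_lit 2536842537) (nat_lit 304) (nat_lit 12376495893) (nat_lit 76) (nat_lit 2325789175) (nat_lit 44) (nat_lit 5) (nat_lit 48) (nat_lit 5) (nat_lit 45) (nat_lit 5) (nat_lit 381) (nat_lit 293) (nat_lit 226))) (XT.nd (nat_lit 78) (nat_lit 304) (nat_lit 0) (XT.lf (nat_lit 0) (nat_lit 1339092072) (nat_lit 152) (nat_lit 7618014438) (nat_lit 228) (nat_lit 8636235075) (nat_lit 42) (nat_lit 5) (nat_lit 44) (nat_lit 5) (nat_lit 45) (nat_lit 5) (nat_lit 382) (nat_lit 293) (nat_lit 225)) (XT.nd (nat_lit 78) (nat_lit 304) (nat_lit 0) (XT.lf (nat_lit 0) (nat_lit 15546990903) (nat_lit 152) (nat_lit 55749803) (nat_lit 228) (nat_lit 2354793698) (nat_lit 42) (nat_lit 5) (nat_lit 44) (nat_lit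 5) (nat_lit 45) (nat_lit 5) (nat_lit 383) (nat_lit 293) (nat_lit 224)) (XT.lf (nat_lit 0) (nat_lit 4139033305) (nat_lit 304) (nat_lit 6491191698) (nat_lit 76) (nat_lit 7700342697) (nat_lit 38) (nat_lit 5) (nat_lit 42) (nat_lit 5) (nat_lit 39) (nat_lit 5) (nat_lit 384) (nat_lit 293) (nat_lit 223))))))) (XT.nd (nat_lit 41808) (nat_lit 0) (nat_lit 25384) (XT.nd (nat_lit 41418) (nat_lit 0) (nat_lit 38456) (XT.nd (nat_lit 41184) (nat_lit 0) (nat_lit 44004) (XT.nd (nat_lit 78) (nat_lit 152) (nat_lit 0) (XT.lf (nat_lit 0) (nat_lit 7835857032) (nat_lit 152) (nat_lit 2978413380) (nat_lit 228) (nat_lit 7899845611) (nat_lit 36) (nat_lit 5) (nat_lit 38) (nat_lit 5) (nat_lit 39) (nat_lit 5) (nat_lit 385) (nat_lit 293) (nat_lit 222)) (XT.lf (nat_lit 0) (nat_lit 3501728706) (nat_lit 152) (nat_lit 14238247558) (nat_lit 228) (nat_lit 1368197178) (nat_lit 34) (nat_lit 5) (nat_lit 36) (nat_lit 5) (nat_lit 37) (nat_lit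 5) (nat_lit 386) (nat_lit 293) (nat_lit 221))) (XT.nd (nat_lit 78) (nat_lit 1748) (nat_lit 0) (XT.lf (nat_lit 0) (nat_lit 2320875327) (nat_lit 684) (nat_lit 489429713) (nat_lit 684) (nat_lit 489429713) (nat_lit 636) (nat_lit 4) (nat_lit 645) (nat_lit 5) (nat_lit 645) (nat_lit 4) (nat_lit 312) (nat_lit 294) (nat_lit 294)) (XT.nd (nat_lit 78) (nat_lit 912) (nat_lit 0) (XT.lf (nat_lit 0) (nat_lit 3713376430) (nat_lit 836) (nat_lit 2616520526) (nat_lit 0) (nat_lit 297342427) (nat_lit 625) (nat_lit 5) (nat_lit 636) (nat_lit 4) (nat_lit 625) (nat_lit 4) (nat_lit 313) (nat_lit 294) (nat_lit 293)) (XT.lf (nat_lit 0) (nat_lit 1734832323) (nat_lit 912) (nat_lit 3228210575) (nat_lit 76) (nat_lit 1694894544) (nat_lit 613) (nat_lit 5) (nat_lit 625) (nat_lit 5) (nat_lit 614) (nat_lit 4) (nat_lit 314) (nat_lit 294) (nat_lit 292))))) (XT.nd (nat_lit 156) (nat_lit 3572) (nat_lit 0) (XT.nd (nat_lit 78) (nat_lit 1064)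 (nat_lit 0) (XT.lf (nat_lit 0) (nat_lit 2902177206) (nat_lit 912) (nat_lit 3461530097) (nat_lit 988) (nat_lit 327964597) (nat_lit 601) (nat_lit 5) (nat_lit 613) (nat_lit 5) (nat_lit 614) (nat_lit 4) (nat_lit 315) (nat_lit 294) (nat_lit 291)) (XT.lf (nat_lit 0) (nat_lit 2417187452) (nat_lit 988) (nat_lit 1813853621) (nat_lit 1064) (nat_lit 2497231297) (nat_lit 587) (nat_lit 5) (nat_lit 600) (nat_lit 5) (nat_lit 601) (nat_lit 5) (nat_lit 316) (nat_lit 294) (nat_lit 290))) (XT.nd (nat_lit 78) (nat_lit 2432) (nat_lit 0) (XT.lf (nat_lit 0) (nat_lit 1985568619) (nat_lit 1064) (nat_lit 30025859) (nat_lit 1140) (nat_lit 4752400908) (nat_lit 572) (nat_lit 5) (nat_lit 586) (nat_lit 5) (nat_lit 587) (nat_lit 5) (nat_lit 317) (nat_lit 294) (nat_lit 289)) (XT.nd (nat_lit 78) (nat_lit 1292) (nat_lit 0) (XT.lf (nat_lit 0) (nat_lit 1592174917) (nat_lit 1140) (nat_lit 4941890833) (nat_lit 1216) (nat_lit 276524388)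 (nat_lit 557) (nat_lit 5) (nat_lit 572) (nat_lit 5) (nat_lit 573) (nat_lit 5) (nat_lit 318) (nat_lit 294) (nat_lit 288)) (XT.lf (nat_lit 0) (nat_lit 1235388100) (nat_lit 1216) (nat_lit 2937237714) (nat_lit 1292) (nat_lit 2683446931) (nat_lit 540) (nat_lit 5) (nat_lit 556) (nat_lit 5) (nat_lit 557) (nat_lit 5) (nat_lit 319) (nat_lit 294) (nat_lit 287)))))) (XT.nd (nat_lit 390) (nat_lit 5624) (nat_lit 0) (XT.nd (nat_lit 156) (nat_lit 4712) (nat_lit 0) (XT.nd (nat_lit 78) (nat_lit 1368) (nat_lit 0) (XT.lf (nat_lit 0) (nat_lit 928196489) (nat_lit 1292) (nat_lit 795212328) (nat_lit 1368) (nat_lit 5181338658) (nat_lit 522) (nat_lit 5) (nat_lit 539) (nat_lit 5) (nat_lit 540) (nat_lit 5) (nat_lit 320) (nat_lit 294) (nat_lit 286)) (XT.lf (nat_lit 0) (nat_lit 654646173) (nat_lit 1368) (nat_lit 5484237229) (nat_lit 1444) (nat_lit 817469515) (nat_lit 504) (nat_lit 5) (nat_lit 522) (nat_lit 5) (nat_lit 523) (nat_lit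 5) (nat_lit 321) (nat_lit 294) (nat_lit 285))) (XT.nd (nat_lit 78) (nat_lit 3192) (nat_lit 0) (XT.lf (nat_lit 0) (nat_lit 410976328) (nat_lit 1444) (nat_lit 3130062465) (nat_lit 1520) (nat_lit 3469829838) (nat_lit 484) (nat_lit 5) (nat_lit 503) (nat_lit 5) (nat_lit 504) (nat_lit 5) (nat_lit 322) (nat_lit 294) (nat_lit 284)) (XT.nd (nat_lit 78) (nat_lit 1596) (nat_lit 0) (XT.lf (nat_lit 0) (nat_lit 213321156) (nat_lit 1520) (nat_lit 636309573) (nat_lit 1596) (nat_lit 6219035515) (nat_lit 463) (nat_lit 5) (nat_lit 483) (nat_lit 5) (nat_lit 484) (nat_lit 5) (nat_lit 323) (nat_lit 294) (nat_lit 283)) (XT.lf (nat_lit 0) (nat_lit 34886994) (nat_lit 1596) (nat_lit 5143349574) (nat_lit 1672) (nat_lit 1951041135) (nat_lit 442) (nat_lit 5) (nat_lit 463) (nat_lit 5) (nat_lit 464) (nat_lit 5) (nat_lit 324) (nat_lit 294) (nat_lit 282))))) (XT.nd (nat_lit 156) (nat_lit 3876) (nat_lit 0) (XT.nd (nat_lit 78) (nat_lit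 1672) (nat_lit 0) (XT.lf (nat_lit 0) (nat_lit 2334704150) (nat_lit 1672) (nat_lit 108828634) (nat_lit 76) (nat_lit 4749490866) (nat_lit 441) (nat_lit 5) (nat_lit 463) (nat_lit 5) (nat_lit 442) (nat_lit 5) (nat_lit 325) (nat_lit 294) (nat_lit 281)) (XT.lf (nat_lit 0) (nat_lit 6645554784) (nat_lit 1748) (nat_lit 216722760) (nat_lit 76) (nat_lit 397752875) (nat_lit 419) (nat_lit 5) (nat_lit 442) (nat_lit 5) (nat_lit 420) (nat_lit 5) (nat_lit 326) (nat_lit 294) (nat_lit 280))) (XT.nd (nat_lit 78) (nat_lit 2052) (nat_lit 0) (XT.lf (nat_lit 0) (nat_lit 3647179830) (nat_lit 1824) (nat_lit 316168993) (nat_lit 76) (nat_lit 3366479370) (nat_lit 395) (nat_lit 5) (nat_lit 419) (nat_lit 5) (nat_lit 396) (nat_lit 5) (nat_lit 327) (nat_lit 294) (nat_lit 279)) (XT.nd (nat_lit 78) (nat_lit 912) (nat_lit 0) (XT.lf (nat_lit 0) (nat_lit 544494595) (nat_lit 1140) (nat_lit 376443464) (nat_lit 76) (nat_lit 6482159766) (nat_lit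 380) (nat_lit 5) (nat_lit 395) (nat_lit 5) (nat_lit 381) (nat_lit 5) (nat_lit 328) (nat_lit 294) (nat_lit 278)) (XT.lf (nat_lit 0) (nat_lit 4792864041) (nat_lit 988) (nat_lit 430511993) (nat_lit 76) (nat_lit 2255872852) (nat_lit 368) (nat_lit 5) (nat_lit 381) (nat_lit 5) (nat_lit 369) (nat_lit 5) (nat_lit 329) (nat_lit 294) (nat_lit 277))))))))
noncomputable def xc36 : XT := (XT.nd (nat_lit 1560) (nat_lit 7600) (nat_lit 0) (XT.nd (nat_lit 780) (nat_lit 6004) (nat_lit 0) (XT.nd (nat_lit 390) (nat_lit 3724) (nat_lit 0) (XT.nd (nat_lit 156) (nat_lit 2584) (nat_lit 0) (XT.nd (nat_lit 78) (nat_lit 836) (nat_lit 0) (XT.lf (nat_lit 0) (nat_lit 1528286967) (nat_lit 912) (nat_lit 457857370) (nat_lit 76) (nat_lit 5572618877) (nat_lit 356) (nat_lit 5) (nat_lit 368) (nat_lit 5) (nat_lit 357) (nat_lit 5) (nat_lit 330) (nat_lit 294) (nat_lit 276)) (XT.lf (nat_lit 0) (nat_lit 5777614038) (nat_lit 912) (nat_lit 470821873)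 (nat_lit 76) (nat_lit 1393032272) (nat_lit 345) (nat_lit 5) (nat_lit 357) (nat_lit 5) (nat_lit 346) (nat_lit 5) (nat_lit 331) (nat_lit 294) (nat_lit 275))) (XT.nd (nat_lit 78) (nat_lit 1672) (nat_lit 0) (XT.lf (nat_lit 0) (nat_lit 2347467947) (nat_lit 912) (nat_lit 473438759) (nat_lit 76) (nat_lit 4906453472) (nat_lit 333) (nat_lit 5) (nat_lit 345) (nat_lit 5) (nat_lit 334) (nat_lit 5) (nat_lit 332) (nat_lit 294) (nat_lit 274)) (XT.nd (nat_lit 78) (nat_lit 836) (nat_lit 0) (XT.lf (nat_lit 0) (nat_lit 6605969827) (nat_lit 912) (nat_lit 456181788) (nat_lit 76) (nat_lit 754558123) (nat_lit 322) (nat_lit 5) (nat_lit 334) (nat_lit 5) (nat_lit 323) (nat_lit 5) (nat_lit 333) (nat_lit 294) (nat_lit 273)) (XT.lf (nat_lit 0) (nat_lit 3005850939) (nat_lit 836) (nat_lit 442482668) (nat_lit 76) (nat_lit 4460797713) (nat_lit 311) (nat_lit 5) (nat_lit 322) (nat_lit 5) (nat_lit 312) (nat_lit 5) (nat_lit 334) (nat_lit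 294) (nat_lit 272))))) (XT.nd (nat_lit 156) (nat_lit 2204) (nat_lit 0) (XT.nd (nat_lit 78) (nat_lit 760) (nat_lit 0) (XT.lf (nat_lit 0) (nat_lit 7281160751) (nat_lit 836) (nat_lit 405967770) (nat_lit 76) (nat_lit 318110188) (nat_lit 301) (nat_lit 5) (nat_lit 312) (nat_lit 5) (nat_lit 302) (nat_lit 5) (nat_lit 335) (nat_lit 294) (nat_lit 271)) (XT.lf (nat_lit 0) (nat_lit 3505922915) (nat_lit 760) (nat_lit 384658767) (nat_lit 76) (nat_lit 4213779456) (nat_lit 291) (nat_lit 5) (nat_lit 301) (nat_lit 5) (nat_lit 292) (nat_lit 5) (nat_lit 336) (nat_lit 294) (nat_lit 270))) (XT.nd (nat_lit 78) (nat_lit 1444) (nat_lit 0) (XT.lf (nat_lit 0) (nat_lit 7805101711) (nat_lit 836) (nat_lit 340029134) (nat_lit 76) (nat_lit 62231454) (nat_lit 281) (nat_lit 5) (nat_lit 292) (nat_lit 5) (nat_lit 282) (nat_lit 5) (nat_lit 337) (nat_lit 294) (nat_lit 269)) (XT.nd (nat_lit 78) (nat_lit 684) (nat_lit 0) (XT.lf (nat_lit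 0) (nat_lit 3848835677) (nat_lit 760) (nat_lit 320196120) (nat_lit 76) (nat_lit 4144344869) (nat_lit 271) (nat_lit 5) (nat_lit 281) (nat_lit 5) (nat_lit 272) (nat_lit 5) (nat_lit 338) (nat_lit 294) (nat_lit 268)) (XT.lf (nat_lit 0) (nat_lit 8144326627) (nat_lit 684) (nat_lit 34274686) (nat_lit 760) (nat_lit 244824759) (nat_lit 262) (nat_lit 5) (nat_lit 271) (nat_lit 5) (nat_lit 272) (nat_lit 5) (nat_lit 339) (nat_lit 294) (nat_lit 267)))))) (XT.nd (nat_lit 390) (nat_lit 2812) (nat_lit 0) (XT.nd (nat_lit 156) (nat_lit 1900) (nat_lit 0) (XT.nd (nat_lit 78) (nat_lit 608) (nat_lit 0) (XT.lf (nat_lit 0) (nat_lit 4034386301) (nat_lit 684) (nat_lit 270076763) (nat_lit 76) (nat_lit 4232085307) (nat_lit 253) (nat_lit 5) (nat_lit 262) (nat_lit 5) (nat_lit 254) (nat_lit 5) (nat_lit 340) (nat_lit 294) (nat_lit 266)) (XT.lf (nat_lit 0) (nat_lit 8400223874) (nat_lit 684) (nat_lit 243881996) (nat_lit 76) (nat_lit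 9731373) (nat_lit 245) (nat_lit 5) (nat_lit 254) (nat_lit 5) (nat_lit 246) (nat_lit 5) (nat_lit 341) (nat_lit 294) (nat_lit 265))) (XT.nd (nat_lit 78) (nat_lit 1216) (nat_lit 0) (XT.lf (nat_lit 0) (nat_lit 4060986394) (nat_lit 684) (nat_lit 256239813) (nat_lit 76) (nat_lit 4457065084) (nat_lit 236) (nat_lit 5) (nat_lit 245) (nat_lit 5) (nat_lit 237) (nat_lit 5) (nat_lit 342) (nat_lit 294) (nat_lit 264)) (XT.nd (nat_lit 78) (nat_lit 608) (nat_lit 0) (XT.lf (nat_lit 0) (nat_lit 8468478074) (nat_lit 684) (nat_lit 257484763) (nat_lit 76) (nat_lit 173058609) (nat_lit 228) (nat_lit 5) (nat_lit 237) (nat_lit 5) (nat_lit 229) (nat_lit 5) (nat_lit 343) (nat_lit 294) (nat_lit 263)) (XT.lf (nat_lit 0) (nat_lit 3925619680) (nat_lit 608) (nat_lit 301797979) (nat_lit 76) (nat_lit 4799648782) (nat_lit 220) (nat_lit 5) (nat_lit 228) (nat_lit 5) (nat_lit 221) (nat_lit 5) (nat_lit 344) (nat_lit 294) (nat_lit 262)))))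 (XT.nd (nat_lit 156) (nat_lit 1596) (nat_lit 0) (XT.nd (nat_lit 78) (nat_lit 608) (nat_lit 0) (XT.lf (nat_lit 0) (nat_lit 8379543047) (nat_lit 684) (nat_lit 343418105) (nat_lit 76) (nat_lit 436507645) (nat_lit 212) (nat_lit 5) (nat_lit 221) (nat_lit 5) (nat_lit 213) (nat_lit 5) (nat_lit 345) (nat_lit 294) (nat_lit 261)) (XT.lf (nat_lit 0) (nat_lit 3623787366) (nat_lit 608) (nat_lit 431268441) (nat_lit 76) (nat_lit 5240326695) (nat_lit 204) (nat_lit 5) (nat_lit 212) (nat_lit 5) (nat_lit 205) (nat_lit 5) (nat_lit 346) (nat_lit 294) (nat_lit 260))) (XT.nd (nat_lit 78) (nat_lit 1064) (nat_lit 0) (XT.lf (nat_lit 0) (nat_lit 8128319973) (nat_lit 608) (nat_lit 526945914) (nat_lit 76) (nat_lit 780447582) (nat_lit 197) (nat_lit 5) (nat_lit 205) (nat_lit 5) (nat_lit 198) (nat_lit 5) (nat_lit 347) (nat_lit 294) (nat_lit 259)) (XT.nd (nat_lit 78) (nat_lit 532) (nat_lit 0) (XT.lf (nat_lit 0) (nat_lit 3149440582)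 (nat_lit 532) (nat_lit 670820257) (nat_lit 76) (nat_lit 5759536947) (nat_lit 190) (nat_lit 5) (nat_lit 197) (nat_lit 5) (nat_lit 191) (nat_lit 5) (nat_lit 348) (nat_lit 294) (nat_lit 258)) (XT.lf (nat_lit 0) (nat_lit 7708135215) (nat_lit 608) (nat_lit 835119255) (nat_lit 76) (nat_lit 1185085803) (nat_lit 183) (nat_lit 5) (nat_lit 191) (nat_lit 5) (nat_lit 184) (nat_lit 5) (nat_lit 349) (nat_lit 294) (nat_lit 257))))))) (XT.nd (nat_lit 780) (nat_lit 3040) (nat_lit 0) (XT.nd (nat_lit 390) (nat_lit 2128) (nat_lit 0) (XT.nd (nat_lit 156) (nat_lit 1444) (nat_lit 0) (XT.nd (nat_lit 78) (nat_lit 456) (nat_lit 0) (XT.lf (nat_lit 0) (nat_lit 2494899132) (nat_lit 532) (nat_lit 1048540585) (nat_lit 76) (nat_lit 6337482794) (nat_lit 176) (nat_lit 5) (nat_lit 183) (nat_lit 5) (nat_lit 177) (nat_lit 5) (nat_lit 350) (nat_lit 294) (nat_lit 256)) (XT.lf (nat_lit 0) (nat_lit 7110651887) (nat_lit 532) (nat_lit 1297052618)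 (nat_lit 76) (nat_lit 1630282598) (nat_lit 170) (nat_lit 5) (nat_lit 177) (nat_lit 5) (nat_lit 171) (nat_lit 5) (nat_lit 351) (nat_lit 294) (nat_lit 255))) (XT.nd (nat_lit 78) (nat_lit 912) (nat_lit 0) (XT.lf (nat_lit 0) (nat_lit 1650755609) (nat_lit 532) (nat_lit 1594722265) (nat_lit 76) (nat_lit 6953943539) (nat_lit 163) (nat_lit 5) (nat_lit 170) (nat_lit 5) (nat_lit 164) (nat_lit 5) (nat_lit 352) (nat_lit 294) (nat_lit 254)) (XT.nd (nat_lit 78) (nat_lit 456) (nat_lit 0) (XT.lf (nat_lit 0) (nat_lit 6325766335) (nat_lit 532) (nat_lit 1944222881) (nat_lit 76) (nat_lit 2095358496) (nat_lit 157) (nat_lit 5) (nat_lit 164) (nat_lit 5) (nat_lit 158) (nat_lit 5) (nat_lit 353) (nat_lit 294) (nat_lit 253)) (XT.lf (nat_lit 0) (nat_lit 605763842) (nat_lit 456) (nat_lit 2342175451) (nat_lit 76) (nat_lit 7588077388) (nat_lit 151) (nat_lit 5) (nat_lit 157) (nat_lit 5) (nat_lit 152) (nat_lit 5) (nat_lit 354) (nat_lit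 294) (nat_lit 252))))) (XT.nd (nat_lit 156) (nat_lit 1292) (nat_lit 0) (XT.nd (nat_lit 78) (nat_lit 380) (nat_lit 0) (XT.lf (nat_lit 0) (nat_lit 5341488398) (nat_lit 532) (nat_lit 2810793812) (nat_lit 76) (nat_lit 2558892636) (nat_lit 145) (nat_lit 5) (nat_lit 152) (nat_lit 5) (nat_lit 146) (nat_lit 5) (nat_lit 355) (nat_lit 294) (nat_lit 251)) (XT.lf (nat_lit 0) (nat_lit 7560541066) (nat_lit 380) (nat_lit 2668892863) (nat_lit 456) (nat_lit 661971403) (nat_lit 140) (nat_lit 5) (nat_lit 145) (nat_lit 5) (nat_lit 146) (nat_lit 5) (nat_lit 356) (nat_lit 294) (nat_lit 250))) (XT.nd (nat_lit 78) (nat_lit 836) (nat_lit 0) (XT.lf (nat_lit 0) (nat_lit 4143804189) (nat_lit 456) (nat_lit 3933969240) (nat_lit 76) (nat_lit 2998510342) (nat_lit 134) (nat_lit 5) (nat_lit 140) (nat_lit 5) (nat_lit 135) (nat_lit 5) (nat_lit 357) (nat_lit 294) (nat_lit 249)) (XT.nd (nat_lit 78) (nat_lit 456) (nat_lit 0) (XT.lf (nat_lit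 0) (nat_lit 6665534577) (nat_lit 380) (nat_lit 2430682131) (nat_lit 456) (nat_lit 2170194199) (nat_lit 129) (nat_lit 5) (nat_lit 134) (nat_lit 5) (nat_lit 135) (nat_lit 5) (nat_lit 358) (nat_lit 294) (nat_lit 248)) (XT.lf (nat_lit 0) (nat_lit 2716519944) (nat_lit 456) (nat_lit 5354378265) (nat_lit 76) (nat_lit 3390657998) (nat_lit 123) (nat_lit 5) (nat_lit 129) (nat_lit 5) (nat_lit 124) (nat_lit 5) (nat_lit 359) (nat_lit 294) (nat_lit 247)))))) (XT.nd (nat_lit 390) (nat_lit 1292) (nat_lit 0) (XT.nd (nat_lit 156) (nat_lit 988) (nat_lit 0) (XT.nd (nat_lit 78) (nat_lit 456) (nat_lit 0) (XT.lf (nat_lit 0) (nat_lit 5471165758) (nat_lit 304) (nat_lit 2262165464) (nat_lit 380) (nat_lit 3928695701) (nat_lit 119) (nat_lit 5) (nat_lit 123) (nat_lit 5) (nat_lit 124) (nat_lit 5) (nat_lit 360) (nat_lit 294) (nat_lit 246)) (XT.lf (nat_lit 0) (nat_lit 1041085329) (nat_lit 456) (nat_lit 7116496247) (nat_lit 76) (nat_lit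 3710363133) (nat_lit 113) (nat_lit 5) (nat_lit 119) (nat_lit 5) (nat_lit 114) (nat_lit 5) (nat_lit 361) (nat_lit 294) (nat_lit 245))) (XT.nd (nat_lit 78) (nat_lit 684) (nat_lit 0) (XT.lf (nat_lit 0) (nat_lit 3931701921) (nat_lit 304) (nat_lit 2189719957) (nat_lit 380) (nat_lit 5957818252) (nat_lit 109) (nat_lit 5) (nat_lit 113) (nat_lit 5) (nat_lit 114) (nat_lit 5) (nat_lit 362) (nat_lit 294) (nat_lit 244)) (XT.nd (nat_lit 78) (nat_lit 380) (nat_lit 0) (XT.lf (nat_lit 0) (nat_lit 3021308241) (nat_lit 304) (nat_lit 8359436361) (nat_lit 380) (nat_lit 915614045) (nat_lit 105) (nat_lit 5) (nat_lit 109) (nat_lit 5) (nat_lit 110) (nat_lit 5) (nat_lit 363) (nat_lit 294) (nat_lit 243)) (XT.lf (nat_lit 0) (nat_lit 1996919818) (nat_lit 304) (nat_lit 2241576370) (nat_lit 380) (nat_lit 8280619137) (nat_lit 100) (nat_lit 5) (nat_lit 104) (nat_lit 5) (nat_lit 105) (nat_lit 5) (nat_lit 364) (nat_lit 294) (nat_lit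 242))))) (XT.nd (nat_lit 156) (nat_lit 912) (nat_lit 0) (XT.nd (nat_lit 78) (nat_lit 76) (nat_lit 0) (XT.lf (nat_lit 0) (nat_lit 861382267) (nat_lit 304) (nat_lit 8703282569) (nat_lit 380) (nat_lit 3183185889) (nat_lit 96) (nat_lit 5) (nat_lit 100) (nat_lit 5) (nat_lit 101) (nat_lit 5) (nat_lit 365) (nat_lit 294) (nat_lit 241)) (XT.lf (nat_lit 0) (nat_lit 2062212394) (nat_lit 380) (nat_lit 383325365) (nat_lit 76) (nat_lit 10537212789) (nat_lit 95) (nat_lit 5) (nat_lit 100) (nat_lit 5) (nat_lit 96) (nat_lit 5) (nat_lit 366) (nat_lit 294) (nat_lit 240))) (XT.nd (nat_lit 78) (nat_lit 608) (nat_lit 0) (XT.lf (nat_lit 0) (nat_lit 7460236681) (nat_lit 380) (nat_lit 1755953001) (nat_lit 76) (nat_lit 4007330100) (nat_lit 91) (nat_lit 5) (nat_lit 96) (nat_lit 5) (nat_lit 92) (nat_lit 5) (nat_lit 367) (nat_lit 294) (nat_lit 239)) (XT.nd (nat_lit 78) (nat_lit 304) (nat_lit 0) (XT.lf (nat_lit 0) (nat_lit 10226217034)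 (nat_lit 304) (nat_lit 2817570266) (nat_lit 380) (nat_lit 427266143) (nat_lit 87) (nat_lit 5) (nat_lit 91) (nat_lit 5) (nat_lit 92) (nat_lit 5) (nat_lit 368) (nat_lit 294) (nat_lit 238)) (XT.lf (nat_lit 0) (nat_lit 5035698486) (nat_lit 304) (nat_lit 4899443230) (nat_lit 76) (nat_lit 3789558709) (nat_lit 83) (nat_lit 5) (nat_lit 87) (nat_lit 5) (nat_lit 84) (nat_lit 5) (nat_lit 369) (nat_lit 294) (nat_lit 237))))))))
noncomputable def xc37 : XT := (XT.nd (nat_lit 42432) (nat_lit 0) (nat_lit 22572) (XT.nd (nat_lit 780) (nat_lit 1064) (nat_lit 0) (XT.nd (nat_lit 390) (nat_lit 1292) (nat_lit 0) (XT.nd (nat_lit 156) (nat_lit 608) (nat_lit 0) (XT.nd (nat_lit 78) (nat_lit 304) (nat_lit 0) (XT.lf (nat_lit 0) (nat_lit 7292260510) (nat_lit 304) (nat_lit 3392722001) (nat_lit 380) (nat_lit 3300365187) (nat_lit 79) (nat_lit 5) (nat_lit 83) (nat_lit 5) (nat_lit 84) (nat_lit 5) (nat_lit 370) (nat_lit 294) (nat_lit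 236)) (XT.lf (nat_lit 0) (nat_lit 2253009883) (nat_lit 304) (nat_lit 8649880211) (nat_lit 76) (nat_lit 3349991875) (nat_lit 75) (nat_lit 5) (nat_lit 79) (nat_lit 5) (nat_lit 76) (nat_lit 5) (nat_lit 371) (nat_lit 294) (nat_lit 235))) (XT.nd (nat_lit 78) (nat_lit 304) (nat_lit 0) (XT.lf (nat_lit 0) (nat_lit 3739581036) (nat_lit 304) (nat_lit 4222916709) (nat_lit 380) (nat_lit 6564832356) (nat_lit 71) (nat_lit 5) (nat_lit 75) (nat_lit 5) (nat_lit 76) (nat_lit 5) (nat_lit 372) (nat_lit 294) (nat_lit 234)) (XT.nd (nat_lit 78) (nat_lit 76) (nat_lit 0) (XT.lf (nat_lit 0) (nat_lit 1719385568) (nat_lit 228) (nat_lit 12153621611) (nat_lit 304) (nat_lit 936420592) (nat_lit 68) (nat_lit 5) (nat_lit 71) (nat_lit 5) (nat_lit 72) (nat_lit 5) (nat_lit 373) (nat_lit 294) (nat_lit 233)) (XT.lf (nat_lit 0) (nat_lit 4841918400) (nat_lit 304) (nat_lit 504435544) (nat_lit 76) (nat_lit 9752117024) (nat_lit 67) (nat_lit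 5) (nat_lit 71) (nat_lit 5) (nat_lit 68) (nat_lit 5) (nat_lit 374) (nat_lit 294) (nat_lit 232))))) (XT.nd (nat_lit 156) (nat_lit 760) (nat_lit 0) (XT.nd (nat_lit 78) (nat_lit 304) (nat_lit 0) (XT.lf (nat_lit 0) (nat_lit 10818086585) (nat_lit 304) (nat_lit 2882219971) (nat_lit 76) (nat_lit 1695021092) (nat_lit 64) (nat_lit 5) (nat_lit 68) (nat_lit 5) (nat_lit 65) (nat_lit 5) (nat_lit 375) (nat_lit 294) (nat_lit 231)) (XT.lf (nat_lit 0) (nat_lit 1307175621) (nat_lit 304) (nat_lit 5474792833) (nat_lit 76) (nat_lit 8917937583) (nat_lit 60) (nat_lit 5) (nat_lit 64) (nat_lit 5) (nat_lit 61) (nat_lit 5) (nat_lit 376) (nat_lit 294) (nat_lit 230))) (XT.nd (nat_lit 78) (nat_lit 532) (nat_lit 0) (XT.lf (nat_lit 0) (nat_lit 7324896298) (nat_lit 304) (nat_lit 8283665510) (nat_lit 76) (nat_lit 404084943) (nat_lit 57) (nat_lit 5) (nat_lit 61) (nat_lit 5) (nat_lit 58) (nat_lit 5) (nat_lit 377) (nat_lit 294) (nat_lit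 229)) (XT.nd (nat_lit 78) (nat_lit 304) (nat_lit 0) (XT.lf (nat_lit 0) (nat_lit 4999536288) (nat_lit 228) (nat_lit 8585610374) (nat_lit 304) (nat_lit 2748392043) (nat_lit 54) (nat_lit 5) (nat_lit 57) (nat_lit 5) (nat_lit 58) (nat_lit 5) (nat_lit 378) (nat_lit 294) (nat_lit 228)) (XT.lf (nat_lit 0) (nat_lit 2046827871) (nat_lit 228) (nat_lit 1295383157) (nat_lit 304) (nat_lit 13321072423) (nat_lit 50) (nat_lit 5) (nat_lit 53) (nat_lit 5) (nat_lit 54) (nat_lit 5) (nat_lit 379) (nat_lit 294) (nat_lit 227)))))) (XT.nd (nat_lit 390) (nat_lit 152) (nat_lit 0) (XT.nd (nat_lit 156) (nat_lit 760) (nat_lit 0) (XT.nd (nat_lit 78) (nat_lit 152) (nat_lit 0) (XT.lf (nat_lit 0) (nat_lit 9644238613) (nat_lit 304) (nat_lit 1165200458) (nat_lit 76) (nat_lit 6191805504) (nat_lit 50) (nat_lit 5) (nat_lit 54) (nat_lit 5) (nat_lit 51) (nat_lit 5) (nat_lit 380) (nat_lit 294) (nat_lit 226)) (XT.lf (nat_lit 0) (nat_lit 12762083409)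 (nat_lit 152) (nat_lit 3414455206) (nat_lit 228) (nat_lit 1171989741) (nat_lit 48) (nat_lit 5) (nat_lit 50) (nat_lit 5) (nat_lit 51) (nat_lit 5) (nat_lit 381) (nat_lit 294) (nat_lit 225))) (XT.nd (nat_lit 78) (nat_lit 456) (nat_lit 0) (XT.lf (nat_lit 0) (nat_lit 5177516622) (nat_lit 304) (nat_lit 8311582067) (nat_lit 76) (nat_lit 4215522179) (nat_lit 44) (nat_lit 5) (nat_lit 48) (nat_lit 5) (nat_lit 45) (nat_lit 5) (nat_lit 382) (nat_lit 294) (nat_lit 224)) (XT.nd (nat_lit 78) (nat_lit 304) (nat_lit 0) (XT.lf (nat_lit 0) (nat_lit 5743501321) (nat_lit 152) (nat_lit 6000526532) (nat_lit 228) (nat_lit 6326371962) (nat_lit 42) (nat_lit 5) (nat_lit 44) (nat_lit 5) (nat_lit 45) (nat_lit 5) (nat_lit 383) (nat_lit 294) (nat_lit 223)) (XT.lf (nat_lit 0) (nat_lit 90995605) (nat_lit 304) (nat_lit 16631052296) (nat_lit 76) (nat_lit 1724475371) (nat_lit 38) (nat_lit 5) (nat_lit 42) (nat_lit 5) (nat_lit 39) (nat_lit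 5) (nat_lit 384) (nat_lit 294) (nat_lit 222))))) (XT.nd (nat_lit 41028) (nat_lit 0) (nat_lit 45524) (XT.nd (nat_lit 78) (nat_lit 152) (nat_lit 0) (XT.lf (nat_lit 0) (nat_lit 6691785537) (nat_lit 304) (nat_lit 2447906097) (nat_lit 76) (nat_lit 9691872293) (nat_lit 38) (nat_lit 5) (nat_lit 42) (nat_lit 5) (nat_lit 39) (nat_lit 5) (nat_lit 385) (nat_lit 294) (nat_lit 221)) (XT.lf (nat_lit 0) (nat_lit 12240197233) (nat_lit 152) (nat_lit 1283416778) (nat_lit 228) (nat_lit 5703888173) (nat_lit 36) (nat_lit 5) (nat_lit 38) (nat_lit 5) (nat_lit 39) (nat_lit 5) (nat_lit 386) (nat_lit 294) (nat_lit 220))) (XT.nd (nat_lit 78) (nat_lit 1444) (nat_lit 0) (XT.lf (nat_lit 0) (nat_lit 3067865817) (nat_lit 532) (nat_lit 103918983) (nat_lit 532) (nat_lit 103918983) (nat_lit 654) (nat_lit 4) (nat_lit 661) (nat_lit 5) (nat_lit 661) (nat_lit 4) (nat_lit 310) (nat_lit 295) (nat_lit 295)) (XT.nd (nat_lit 78) (nat_lit 760)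 (nat_lit 0) (XT.lf (nat_lit 0) (nat_lit 4456112319) (nat_lit 684) (nat_lit 1251258579) (nat_lit 0) (nat_lit 867226995) (nat_lit 645) (nat_lit 5) (nat_lit 654) (nat_lit 4) (nat_lit 645) (nat_lit 4) (nat_lit 311) (nat_lit 295) (nat_lit 294)) (XT.lf (nat_lit 0) (nat_lit 2495185274) (nat_lit 760) (nat_lit 2032965752) (nat_lit 76) (nat_lit 2072648688) (nat_lit 635) (nat_lit 5) (nat_lit 645) (nat_lit 5) (nat_lit 636) (nat_lit 4) (nat_lit 312) (nat_lit 295) (nat_lit 293))))))) (XT.nd (nat_lit 780) (nat_lit 12920) (nat_lit 0) (XT.nd (nat_lit 390) (nat_lit 5244) (nat_lit 0) (XT.nd (nat_lit 156) (nat_lit 3116) (nat_lit 0) (XT.nd (nat_lit 78) (nat_lit 836) (nat_lit 0) (XT.lf (nat_lit 0) (nat_lit 457258926) (nat_lit 836) (nat_lit 2760456175) (nat_lit 76) (nat_lit 3412345036) (nat_lit 624) (nat_lit 5) (nat_lit 635) (nat_lit 5) (nat_lit 625) (nat_lit 5) (nat_lit 313) (nat_lit 295) (nat_lit 292)) (XT.lf (nat_lit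 0) (nat_lit 3216573163) (nat_lit 836) (nat_lit 1763623528) (nat_lit 912) (nat_lit 1681986578) (nat_lit 613) (nat_lit 5) (nat_lit 624) (nat_lit 5) (nat_lit 625) (nat_lit 5) (nat_lit 314) (nat_lit 295) (nat_lit 291))) (XT.nd (nat_lit 78) (nat_lit 2128) (nat_lit 0) (XT.lf (nat_lit 0) (nat_lit 2615376672) (nat_lit 912) (nat_lit 171969076) (nat_lit 988) (nat_lit 3909995807) (nat_lit 600) (nat_lit 5) (nat_lit 612) (nat_lit 5) (nat_lit 613) (nat_lit 5) (nat_lit 315) (nat_lit 295) (nat_lit 290)) (XT.nd (nat_lit 78) (nat_lit 1064) (nat_lit 0) (XT.lf (nat_lit 0) (nat_lit 522570821) (nat_lit 1064) (nat_lit 4677496597) (nat_lit 76) (nat_lit 1535352795) (nat_lit 586) (nat_lit 5) (nat_lit 600) (nat_lit 5) (nat_lit 587) (nat_lit 5) (nat_lit 316) (nat_lit 295) (nat_lit 289)) (XT.lf (nat_lit 0) (nat_lit 1539410184) (nat_lit 1064) (nat_lit 3387972667) (nat_lit 1140) (nat_lit 1848987624) (nat_lit 572) (nat_lit 5) (nat_lit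 586) (nat_lit 5) (nat_lit 587) (nat_lit 5) (nat_lit 317) (nat_lit 295) (nat_lit 288))))) (XT.nd (nat_lit 156) (nat_lit 2736) (nat_lit 0) (XT.nd (nat_lit 78) (nat_lit 1292) (nat_lit 0) (XT.lf (nat_lit 0) (nat_lit 1068356155) (nat_lit 1140) (nat_lit 1437166032) (nat_lit 1216) (nat_lit 4314884274) (nat_lit 556) (nat_lit 5) (nat_lit 571) (nat_lit 5) (nat_lit 572) (nat_lit 5) (nat_lit 318) (nat_lit 295) (nat_lit 287)) (XT.lf (nat_lit 0) (nat_lit 957782) (nat_lit 1292) (nat_lit 6224342725) (nat_lit 76) (nat_lit 642245868) (nat_lit 539) (nat_lit 5) (nat_lit 556) (nat_lit 5) (nat_lit 540) (nat_lit 5) (nat_lit 319) (nat_lit 295) (nat_lit 286))) (XT.nd (nat_lit 78) (nat_lit 1444) (nat_lit 0) (XT.lf (nat_lit 0) (nat_lit 239773901) (nat_lit 1292) (nat_lit 4060181353) (nat_lit 1368) (nat_lit 2617411391) (nat_lit 522) (nat_lit 5) (nat_lit 539) (nat_lit 5) (nat_lit 540) (nat_lit 5) (nat_lit 320) (nat_lit 295) (nat_lit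 285)) (XT.nd (nat_lit 78) (nat_lit 1368) (nat_lit 0) (XT.lf (nat_lit 0) (nat_lit 1642492296) (nat_lit 1368) (nat_lit 114868335) (nat_lit 76) (nat_lit 5213044626) (nat_lit 521) (nat_lit 5) (nat_lit 539) (nat_lit 5) (nat_lit 522) (nat_lit 5) (nat_lit 321) (nat_lit 295) (nat_lit 284)) (XT.lf (nat_lit 0) (nat_lit 5910013151) (nat_lit 1444) (nat_lit 432165897) (nat_lit 76) (nat_lit 684278714) (nat_lit 503) (nat_lit 5) (nat_lit 522) (nat_lit 5) (nat_lit 504) (nat_lit 5) (nat_lit 322) (nat_lit 295) (nat_lit 283)))))) (XT.nd (nat_lit 390) (nat_lit 4712) (nat_lit 0) (XT.nd (nat_lit 156) (nat_lit 5092) (nat_lit 0) (XT.nd (nat_lit 78) (nat_lit 1596) (nat_lit 0) (XT.lf (nat_lit 0) (nat_lit 3103547825) (nat_lit 1520) (nat_lit 727957967) (nat_lit 76) (nat_lit 3253851855) (nat_lit 483) (nat_lit 5) (nat_lit 503) (nat_lit 5) (nat_lit 484) (nat_lit 5) (nat_lit 323) (nat_lit 295) (nat_lit 282)) (XT.lf (nat_lit 0) (nat_lit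 200924922) (nat_lit 1596) (nat_lit 980597818) (nat_lit 76) (nat_lit 5966073412) (nat_lit 462) (nat_lit 5) (nat_lit 483) (nat_lit 5) (nat_lit 463) (nat_lit 5) (nat_lit 324) (nat_lit 295) (nat_lit 281))) (XT.nd (nat_lit 78) (nat_lit 3496) (nat_lit 0) (XT.lf (nat_lit 0) (nat_lit 4385106325) (nat_lit 1672) (nat_lit 1219704321) (nat_lit 76) (nat_lit 1607830706) (nat_lit 441) (nat_lit 5) (nat_lit 463) (nat_lit 5) (nat_lit 442) (nat_lit 5) (nat_lit 325) (nat_lit 295) (nat_lit 280)) (XT.nd (nat_lit 78) (nat_lit 1748) (nat_lit 0) (XT.lf (nat_lit 0) (nat_lit 1326924501) (nat_lit 1748) (nat_lit 1427479844) (nat_lit 76) (nat_lit 4526507544) (nat_lit 418) (nat_lit 5) (nat_lit 441) (nat_lit 5) (nat_lit 419) (nat_lit 5) (nat_lit 326) (nat_lit 295) (nat_lit 279)) (XT.lf (nat_lit 0) (nat_lit 5495206595) (nat_lit 1824) (nat_lit 1609226444) (nat_lit 76) (nat_lit 247933697) (nat_lit 395) (nat_lit 5) (nat_lit 419) (nat_lit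 5) (nat_lit 396) (nat_lit 5) (nat_lit 327) (nat_lit 295) (nat_lit 278))))) (XT.nd (nat_lit 156) (nat_lit 2660) (nat_lit 0) (XT.nd (nat_lit 78) (nat_lit 912) (nat_lit 0) (XT.lf (nat_lit 0) (nat_lit 2279004256) (nat_lit 1140) (nat_lit 1780152551) (nat_lit 76) (nat_lit 3367612361) (nat_lit 380) (nat_lit 5) (nat_lit 395) (nat_lit 5) (nat_lit 381) (nat_lit 5) (nat_lit 328) (nat_lit 295) (nat_lit 277)) (XT.lf (nat_lit 0) (nat_lit 5583504992) (nat_lit 912) (nat_lit 862645353) (nat_lit 988) (nat_lit 1058422609) (nat_lit 368) (nat_lit 5) (nat_lit 380) (nat_lit 5) (nat_lit 381) (nat_lit 5) (nat_lit 329) (nat_lit 295) (nat_lit 276))) (XT.nd (nat_lit 78) (nat_lit 1748) (nat_lit 0) (XT.lf (nat_lit 0) (nat_lit 3063162995) (nat_lit 912) (nat_lit 2057632825) (nat_lit 76) (nat_lit 2464541667) (nat_lit 356) (nat_lit 5) (nat_lit 368) (nat_lit 5) (nat_lit 357) (nat_lit 5) (nat_lit 330) (nat_lit 295) (nat_lit 275)) (XT.nd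 (nat_lit 78) (nat_lit 912) (nat_lit 0) (XT.lf (nat_lit 0) (nat_lit 5500929065) (nat_lit 836) (nat_lit 1736870345) (nat_lit 912) (nat_lit 431762971) (nat_lit 345) (nat_lit 5) (nat_lit 356) (nat_lit 5) (nat_lit 357) (nat_lit 5) (nat_lit 331) (nat_lit 295) (nat_lit 274)) (XT.lf (nat_lit 0) (nat_lit 3684079038) (nat_lit 912) (nat_lit 2278999518) (nat_lit 76) (nat_lit 1793748674) (nat_lit 333) (nat_lit 5) (nat_lit 345) (nat_lit 5) (nat_lit 334) (nat_lit 5) (nat_lit 332) (nat_lit 295) (nat_lit 273))))))))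
noncomputable def xc38 : XT := (XT.nd (nat_lit 1560) (nat_lit 6688) (nat_lit 0) (XT.nd (nat_lit 780) (nat_lit 5548) (nat_lit 0) (XT.nd (nat_lit 390) (nat_lit 3344) (nat_lit 0) (XT.nd (nat_lit 156) (nat_lit 2356) (nat_lit 0) (XT.nd (nat_lit 78) (nat_lit 760) (nat_lit 0) (XT.lf (nat_lit 0) (nat_lit 24835068) (nat_lit 912) (nat_lit 2369690527) (nat_lit 76) (nat_lit 5453068427) (nat_lit 321) (nat_lit 5) (nat_lit 333) (nat_lit 5) (nat_lit 322) (nat_lit 5) (nat_lit 333) (nat_lit 295) (nat_lit 272)) (XT.lf (nat_lit 0) (nat_lit 4145120258) (nat_lit 836) (nat_lit 2463563820) (nat_lit 76) (nat_lit 1332805811) (nat_lit 311) (nat_lit 5) (nat_lit 322) (nat_lit 5) (nat_lit 312) (nat_lit 5) (nat_lit 334) (nat_lit 295) (nat_lit 271))) (XT.nd (nat_lit 78) (nat_lit 1520) (nat_lit 0) (XT.lf (nat_lit 0) (nat_lit 310898052) (nat_lit 836) (nat_lit 2545351169) (nat_lit 76) (nat_lit 5182658484) (nat_lit 300) (nat_lit 5)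 (nat_lit 311) (nat_lit 5) (nat_lit 301) (nat_lit 5) (nat_lit 335) (nat_lit 295) (nat_lit 270)) (XT.nd (nat_lit 78) (nat_lit 836) (nat_lit 0) (XT.lf (nat_lit 0) (nat_lit 4448343906) (nat_lit 760) (nat_lit 2631045432) (nat_lit 76) (nat_lit 1060229169) (nat_lit 291) (nat_lit 5) (nat_lit 301) (nat_lit 5) (nat_lit 292) (nat_lit 5) (nat_lit 336) (nat_lit 295) (nat_lit 269)) (XT.lf (nat_lit 0) (nat_lit 433392268) (nat_lit 836) (nat_lit 2712877707) (nat_lit 76) (nat_lit 5097602113) (nat_lit 280) (nat_lit 5) (nat_lit 291) (nat_lit 5) (nat_lit 281) (nat_lit 5) (nat_lit 337) (nat_lit 295) (nat_lit 268))))) (XT.nd (nat_lit 156) (nat_lit 1900) (nat_lit 0) (XT.nd (nat_lit 78) (nat_lit 760) (nat_lit 0) (XT.lf (nat_lit 0) (nat_lit 4594486036) (nat_lit 760) (nat_lit 2801756090) (nat_lit 76) (nat_lit 955306244) (nat_lit 271) (nat_lit 5) (nat_lit 281) (nat_lit 5) (nat_lit 272) (nat_lit 5) (nat_lit 338) (nat_lit 295)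 (nat_lit 267)) (XT.lf (nat_lit 0) (nat_lit 392276288) (nat_lit 760) (nat_lit 2893016273) (nat_lit 76) (nat_lit 5177550006) (nat_lit 261) (nat_lit 5) (nat_lit 271) (nat_lit 5) (nat_lit 262) (nat_lit 5) (nat_lit 339) (nat_lit 295) (nat_lit 266))) (XT.nd (nat_lit 78) (nat_lit 1292) (nat_lit 0) (XT.lf (nat_lit 0) (nat_lit 4582940210) (nat_lit 684) (nat_lit 2996792043) (nat_lit 76) (nat_lit 997925673) (nat_lit 253) (nat_lit 5) (nat_lit 262) (nat_lit 5) (nat_lit 254) (nat_lit 5) (nat_lit 340) (nat_lit 295) (nat_lit 265)) (XT.nd (nat_lit 78) (nat_lit 608) (nat_lit 0) (XT.lf (nat_lit 0) (nat_lit 186137055) (nat_lit 684) (nat_lit 3107391450) (nat_lit 76) (nat_lit 5402689884) (nat_lit 244) (nat_lit 5) (nat_lit 253) (nat_lit 5) (nat_lit 245) (nat_lit 5) (nat_lit 341) (nat_lit 295) (nat_lit 264)) (XT.lf (nat_lit 0) (nat_lit 4411725123) (nat_lit 684) (nat_lit 3238237214) (nat_lit 76) (nat_lit 1168407628) (nat_lit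 236) (nat_lit 5) (nat_lit 245) (nat_lit 5) (nat_lit 237) (nat_lit 5) (nat_lit 342) (nat_lit 295) (nat_lit 263)))))) (XT.nd (nat_lit 390) (nat_lit 2584) (nat_lit 0) (XT.nd (nat_lit 156) (nat_lit 1748) (nat_lit 0) (XT.nd (nat_lit 78) (nat_lit 608) (nat_lit 0) (XT.lf (nat_lit 0) (nat_lit 5564467500) (nat_lit 608) (nat_lit 3189607271) (nat_lit 684) (nat_lit 190344453) (nat_lit 228) (nat_lit 5) (nat_lit 236) (nat_lit 5) (nat_lit 237) (nat_lit 5) (nat_lit 343) (nat_lit 295) (nat_lit 262)) (XT.lf (nat_lit 0) (nat_lit 4077440660) (nat_lit 608) (nat_lit 3549378889) (nat_lit 76) (nat_lit 1447333515) (nat_lit 220) (nat_lit 5) (nat_lit 228) (nat_lit 5) (nat_lit 221) (nat_lit 5) (nat_lit 344) (nat_lit 295) (nat_lit 261))) (XT.nd (nat_lit 78) (nat_lit 1140) (nat_lit 0) (XT.lf (nat_lit 0) (nat_lit 5472071700) (nat_lit 608) (nat_lit 2992127059) (nat_lit 684) (nat_lit 743714994) (nat_lit 212) (nat_lit 5) (nat_lit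 220) (nat_lit 5) (nat_lit 221) (nat_lit 5) (nat_lit 345) (nat_lit 295) (nat_lit 260)) (XT.nd (nat_lit 78) (nat_lit 532) (nat_lit 0) (XT.lf (nat_lit 0) (nat_lit 3575211803) (nat_lit 608) (nat_lit 3954937901) (nat_lit 76) (nat_lit 1815373587) (nat_lit 204) (nat_lit 5) (nat_lit 212) (nat_lit 5) (nat_lit 205) (nat_lit 5) (nat_lit 346) (nat_lit 295) (nat_lit 259)) (XT.lf (nat_lit 0) (nat_lit 5287815802) (nat_lit 532) (nat_lit 2722067788) (nat_lit 608) (nat_lit 1477381771) (nat_lit 197) (nat_lit 5) (nat_lit 204) (nat_lit 5) (nat_lit 205) (nat_lit 5) (nat_lit 347) (nat_lit 295) (nat_lit 258))))) (XT.nd (nat_lit 156) (nat_lit 1520) (nat_lit 0) (XT.nd (nat_lit 78) (nat_lit 532) (nat_lit 0) (XT.lf (nat_lit 0) (nat_lit 2898619705) (nat_lit 532) (nat_lit 4481315455) (nat_lit 76) (nat_lit 2253111053) (nat_lit 190) (nat_lit 5) (nat_lit 197) (nat_lit 5) (nat_lit 191) (nat_lit 5) (nat_lit 348) (nat_lit 295) (nat_lit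 257)) (XT.lf (nat_lit 0) (nat_lit 4984860907) (nat_lit 532) (nat_lit 2399358308) (nat_lit 608) (nat_lit 2398844223) (nat_lit 183) (nat_lit 5) (nat_lit 190) (nat_lit 5) (nat_lit 191) (nat_lit 5) (nat_lit 349) (nat_lit 295) (nat_lit 256))) (XT.nd (nat_lit 78) (nat_lit 988) (nat_lit 0) (XT.lf (nat_lit 0) (nat_lit 2039619134) (nat_lit 532) (nat_lit 5156858888) (nat_lit 76) (nat_lit 2740861173) (nat_lit 176) (nat_lit 5) (nat_lit 183) (nat_lit 5) (nat_lit 177) (nat_lit 5) (nat_lit 350) (nat_lit 295) (nat_lit 255)) (XT.nd (nat_lit 78) (nat_lit 532) (nat_lit 0) (XT.lf (nat_lit 0) (nat_lit 4534327413) (nat_lit 456) (nat_lit 2044311603) (nat_lit 532) (nat_lit 3517311290) (nat_lit 170) (nat_lit 5) (nat_lit 176) (nat_lit 5) (nat_lit 177) (nat_lit 5) (nat_lit 351) (nat_lit 295) (nat_lit 254)) (XT.lf (nat_lit 0) (nat_lit 988441352) (nat_lit 532) (nat_lit 6012148883) (nat_lit 76) (nat_lit 3258483796) (nat_lit 163)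 (nat_lit 5) (nat_lit 170) (nat_lit 5) (nat_lit 164) (nat_lit 5) (nat_lit 352) (nat_lit 295) (nat_lit 253))))))) (XT.nd (nat_lit 780) (nat_lit 2888) (nat_lit 0) (XT.nd (nat_lit 390) (nat_lit 1596) (nat_lit 0) (XT.nd (nat_lit 156) (nat_lit 1368) (nat_lit 0) (XT.nd (nat_lit 78) (nat_lit 380) (nat_lit 0) (XT.lf (nat_lit 0) (nat_lit 3904997887) (nat_lit 456) (nat_lit 1677818467) (nat_lit 532) (nat_lit 4843807652) (nat_lit 157) (nat_lit 5) (nat_lit 163) (nat_lit 5) (nat_lit 164) (nat_lit 5) (nat_lit 353) (nat_lit 295) (nat_lit 252)) (XT.lf (nat_lit 0) (nat_lit 3516880587) (nat_lit 380) (nat_lit 6812003749) (nat_lit 456) (nat_lit 270060511) (nat_lit 152) (nat_lit 5) (nat_lit 157) (nat_lit 5) (nat_lit 158) (nat_lit 5) (nat_lit 354) (nat_lit 295) (nat_lit 251))) (XT.nd (nat_lit 78) (nat_lit 836) (nat_lit 0) (XT.lf (nat_lit 0) (nat_lit 3062994568) (nat_lit 456) (nat_lit 1321550430) (nat_lit 532) (nat_lit 6391296429)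 (nat_lit 145) (nat_lit 5) (nat_lit 151) (nat_lit 5) (nat_lit 152) (nat_lit 5) (nat_lit 355) (nat_lit 295) (nat_lit 250)) (XT.nd (nat_lit 78) (nat_lit 456) (nat_lit 0) (XT.lf (nat_lit 0) (nat_lit 2548824873) (nat_lit 380) (nat_lit 6646853405) (nat_lit 456) (nat_lit 1761939714) (nat_lit 140) (nat_lit 5) (nat_lit 145) (nat_lit 5) (nat_lit 146) (nat_lit 5) (nat_lit 356) (nat_lit 295) (nat_lit 249)) (XT.lf (nat_lit 0) (nat_lit 1971428452) (nat_lit 380) (nat_lit 998173747) (nat_lit 456) (nat_lit 8174819626) (nat_lit 134) (nat_lit 5) (nat_lit 139) (nat_lit 5) (nat_lit 140) (nat_lit 5) (nat_lit 357) (nat_lit 295) (nat_lit 248))))) (XT.nd (nat_lit 156) (nat_lit 760) (nat_lit 0) (XT.nd (nat_lit 78) (nat_lit 456) (nat_lit 0) (XT.lf (nat_lit 0) (nat_lit 1310879336) (nat_lit 380) (nat_lit 6535243420) (nat_lit 456) (nat_lit 3489953133) (nat_lit 129) (nat_lit 5) (nat_lit 134) (nat_lit 5) (nat_lit 135) (nat_lit 5)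 (nat_lit 358) (nat_lit 295) (nat_lit 247)) (XT.lf (nat_lit 0) (nat_lit 590016548) (nat_lit 380) (nat_lit 731576414) (nat_lit 456) (nat_lit 10211657790) (nat_lit 123) (nat_lit 5) (nat_lit 128) (nat_lit 5) (nat_lit 129) (nat_lit 5) (nat_lit 359) (nat_lit 295) (nat_lit 246))) (XT.nd (nat_lit 78) (nat_lit 760) (nat_lit 0) (XT.lf (nat_lit 0) (nat_lit 6264486664) (nat_lit 456) (nat_lit 235933862) (nat_lit 76) (nat_lit 5234787690) (nat_lit 123) (nat_lit 5) (nat_lit 129) (nat_lit 5) (nat_lit 124) (nat_lit 5) (nat_lit 360) (nat_lit 295) (nat_lit 245)) (XT.nd (nat_lit 78) (nat_lit 456) (nat_lit 0) (XT.lf (nat_lit 0) (nat_lit 10828729750) (nat_lit 304) (nat_lit 535826539) (nat_lit 380) (nat_lit 578506887) (nat_lit 119) (nat_lit 5) (nat_lit 123) (nat_lit 5) (nat_lit 124) (nat_lit 5) (nat_lit 361) (nat_lit 295) (nat_lit 244)) (XT.lf (nat_lit 0) (nat_lit 4440341299) (nat_lit 456) (nat_lit 2119012689) (nat_lit 76)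 (nat_lit 5596469001) (nat_lit 113) (nat_lit 5) (nat_lit 119) (nat_lit 5) (nat_lit 114) (nat_lit 5) (nat_lit 362) (nat_lit 295) (nat_lit 243)))))) (XT.nd (nat_lit 390) (nat_lit 1216) (nat_lit 0) (XT.nd (nat_lit 156) (nat_lit 988) (nat_lit 0) (XT.nd (nat_lit 78) (nat_lit 380) (nat_lit 0) (XT.lf (nat_lit 0) (nat_lit 9176089489) (nat_lit 304) (nat_lit 432184913) (nat_lit 380) (nat_lit 2766502431) (nat_lit 109) (nat_lit 5) (nat_lit 113) (nat_lit 5) (nat_lit 114) (nat_lit 5) (nat_lit 363) (nat_lit 295) (nat_lit 242)) (XT.lf (nat_lit 0) (nat_lit 2343151969) (nat_lit 380) (nat_lit 4405555218) (nat_lit 76) (nat_lit 5850448453) (nat_lit 104) (nat_lit 5) (nat_lit 109) (nat_lit 5) (nat_lit 105) (nat_lit 5) (nat_lit 364) (nat_lit 295) (nat_lit 241))) (XT.nd (nat_lit 78) (nat_lit 684) (nat_lit 0) (XT.lf (nat_lit 0) (nat_lit 7115034262) (nat_lit 304) (nat_lit 461968472) (nat_lit 380) (nat_lit 5252741624) (nat_lit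 100) (nat_lit 5) (nat_lit 104) (nat_lit 5) (nat_lit 105) (nat_lit 5) (nat_lit 365) (nat_lit 295) (nat_lit 240)) (XT.nd (nat_lit 78) (nat_lit 380) (nat_lit 0) (XT.lf (nat_lit 0) (nat_lit 5915461498) (nat_lit 304) (nat_lit 7098248840) (nat_lit 380) (nat_lit 52637299) (nat_lit 96) (nat_lit 5) (nat_lit 100) (nat_lit 5) (nat_lit 101) (nat_lit 5) (nat_lit 366) (nat_lit 295) (nat_lit 239)) (XT.lf (nat_lit 0) (nat_lit 4588883915) (nat_lit 304) (nat_lit 655992829) (nat_lit 380) (nat_lit 8064277409) (nat_lit 91) (nat_lit 5) (nat_lit 95) (nat_lit 5) (nat_lit 96) (nat_lit 5) (nat_lit 367) (nat_lit 295) (nat_lit 238))))) (XT.nd (nat_lit 156) (nat_lit 608) (nat_lit 0) (XT.nd (nat_lit 78) (nat_lit 304) (nat_lit 0) (XT.lf (nat_lit 0) (nat_lit 3125539514) (nat_lit 304) (nat_lit 7622979835) (nat_lit 380) (nat_lit 2809772871) (nat_lit 87) (nat_lit 5) (nat_lit 91) (nat_lit 5) (nat_lit 92) (nat_lit 5) (nat_lit 368) (nat_lit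 295) (nat_lit 237)) (XT.lf (nat_lit 0) (nat_lit 1535179369) (nat_lit 228) (nat_lit 1047643653) (nat_lit 304) (nat_lit 11231463820) (nat_lit 83) (nat_lit 5) (nat_lit 86) (nat_lit 5) (nat_lit 87) (nat_lit 5) (nat_lit 369) (nat_lit 295) (nat_lit 236))) (XT.nd (nat_lit 78) (nat_lit 608) (nat_lit 0) (XT.lf (nat_lit 0) (nat_lit 8149205716) (nat_lit 304) (nat_lit 223056244) (nat_lit 76) (nat_lit 5704335953) (nat_lit 83) (nat_lit 5) (nat_lit 87) (nat_lit 5) (nat_lit 84) (nat_lit 5) (nat_lit 370) (nat_lit 295) (nat_lit 235)) (XT.nd (nat_lit 78) (nat_lit 304) (nat_lit 0) (XT.lf (nat_lit 0) (nat_lit 12256145156) (nat_lit 304) (nat_lit 1656347000) (nat_lit 380) (nat_lit 433699294) (nat_lit 79) (nat_lit 5) (nat_lit 83) (nat_lit 5) (nat_lit 84) (nat_lit 5) (nat_lit 371) (nat_lit 295) (nat_lit 234)) (XT.lf (nat_lit 0) (nat_lit 5204609366) (nat_lit 304) (nat_lit 4156343882) (nat_lit 76) (nat_lit 5261285334) (nat_lit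 75) (nat_lit 5) (nat_lit 79) (nat_lit 5) (nat_lit 76) (nat_lit 5) (nat_lit 372) (nat_lit 295) (nat_lit 233))))))))
noncomputable def xc39 : XT := (XT.nd (nat_lit 42354) (nat_lit 0) (nat_lit 20748) (XT.nd (nat_lit 780) (nat_lit 684) (nat_lit 0) (XT.nd (nat_lit 390) (nat_lit 988) (nat_lit 0) (XT.nd (nat_lit 156) (nat_lit 532) (nat_lit 0) (XT.nd (nat_lit 78) (nat_lit 304) (nat_lit 0) (XT.lf (nat_lit 0) (nat_lit 8527688893) (nat_lit 304) (nat_lit 2504051880) (nat_lit 380) (nat_lit 3874268217) (nat_lit 71) (nat_lit 5) (nat_lit 75) (nat_lit 5) (nat_lit 76) (nat_lit 5) (nat_lit 373) (nat_lit 295) (nat_lit 232)) (XT.lf (nat_lit 0) (nat_lit 1856841638) (nat_lit 304) (nat_lit 8794162052) (nat_lit 76) (nat_lit 4546150107) (nat_lit 67) (nat_lit 5) (nat_lit 71) (nat_lit 5) (nat_lit 68) (nat_lit 5) (nat_lit 374) (nat_lit 295) (nat_lit 231))) (XT.nd (nat_lit 78) (nat_lit 304) (nat_lit 0) (XT.lf (nat_lit 0) (nat_lit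 4079880688) (nat_lit 228) (nat_lit 3660682696) (nat_lit 304) (nat_lit 7755300809) (nat_lit 64) (nat_lit 5) (nat_lit 67) (nat_lit 5) (nat_lit 68) (nat_lit 5) (nat_lit 375) (nat_lit 295) (nat_lit 230)) (XT.nd (nat_lit 78) (nat_lit 76) (nat_lit 0) (XT.lf (nat_lit 0) (nat_lit 1566395695) (nat_lit 228) (nat_lit 12274572637) (nat_lit 304) (nat_lit 1961773570) (nat_lit 61) (nat_lit 5) (nat_lit 64) (nat_lit 5) (nat_lit 65) (nat_lit 5) (nat_lit 376) (nat_lit 295) (nat_lit 229)) (XT.lf (nat_lit 0) (nat_lit 4003033252) (nat_lit 304) (nat_lit 1161979830) (nat_lit 76) (nat_lit 10952301556) (nat_lit 60) (nat_lit 5) (nat_lit 64) (nat_lit 5) (nat_lit 61) (nat_lit 5) (nat_lit 377) (nat_lit 295) (nat_lit 228))))) (XT.nd (nat_lit 156) (nat_lit 532) (nat_lit 0) (XT.nd (nat_lit 78) (nat_lit 228) (nat_lit 0) (XT.lf (nat_lit 0) (nat_lit 10164168510) (nat_lit 304) (nat_lit 4086818405) (nat_lit 76) (nat_lit 2189206274) (nat_lit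 57) (nat_lit 5) (nat_lit 61) (nat_lit 5) (nat_lit 58) (nat_lit 5) (nat_lit 378) (nat_lit 295) (nat_lit 227)) (XT.lf (nat_lit 0) (nat_lit 9522758809) (nat_lit 228) (nat_lit 7041564674) (nat_lit 304) (nat_lit 207359363) (nat_lit 54) (nat_lit 5) (nat_lit 57) (nat_lit 5) (nat_lit 58) (nat_lit 5) (nat_lit 379) (nat_lit 295) (nat_lit 226))) (XT.nd (nat_lit 78) (nat_lit 228) (nat_lit 0) (XT.lf (nat_lit 0) (nat_lit 5987289831) (nat_lit 304) (nat_lit 10670144234) (nat_lit 76) (nat_lit 454442759) (nat_lit 50) (nat_lit 5) (nat_lit 54) (nat_lit 5) (nat_lit 51) (nat_lit 5) (nat_lit 380) (nat_lit 295) (nat_lit 225)) (XT.nd (nat_lit 78) (nat_lit 76) (nat_lit 0) (XT.lf (nat_lit 0) (nat_lit 3089038584) (nat_lit 152) (nat_lit 9343685481) (nat_lit 228) (nat_lit 5028177708) (nat_lit 48) (nat_lit 5) (nat_lit 50) (nat_lit 5) (nat_lit 51) (nat_lit 5) (nat_lit 381) (nat_lit 295) (nat_lit 224)) (XT.lf (nat_lit 0) (nat_lit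 1259215396) (nat_lit 228) (nat_lit 503504590) (nat_lit 76) (nat_lit 16057032463) (nat_lit 47) (nat_lit 5) (nat_lit 50) (nat_lit 5) (nat_lit 48) (nat_lit 5) (nat_lit 382) (nat_lit 295) (nat_lit 223)))))) (XT.nd (nat_lit 41184) (nat_lit 0) (nat_lit 43624) (XT.nd (nat_lit 156) (nat_lit 304) (nat_lit 0) (XT.nd (nat_lit 78) (nat_lit 152) (nat_lit 0) (XT.lf (nat_lit 0) (nat_lit 7750194189) (nat_lit 304) (nat_lit 4379377354) (nat_lit 76) (nat_lit 6057474063) (nat_lit 44) (nat_lit 5) (nat_lit 48) (nat_lit 5) (nat_lit 45) (nat_lit 5) (nat_lit 383) (nat_lit 295) (nat_lit 222)) (XT.lf (nat_lit 0) (nat_lit 10029517820) (nat_lit 152) (nat_lit 4440483568) (nat_lit 228) (nat_lit 4094681205) (nat_lit 42) (nat_lit 5) (nat_lit 44) (nat_lit 5) (nat_lit 45) (nat_lit 5) (nat_lit 384) (nat_lit 295) (nat_lit 221))) (XT.nd (nat_lit 40872) (nat_lit 0) (nat_lit 46816) (XT.lf (nat_lit 0) (nat_lit 2451571330) (nat_lit 304) (nat_lit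 13015400028) (nat_lit 76) (nat_lit 3485451686) (nat_lit 38) (nat_lit 5) (nat_lit 42) (nat_lit 5) (nat_lit 39) (nat_lit 5) (nat_lit 385) (nat_lit 295) (nat_lit 220)) (XT.nd (nat_lit 78) (nat_lit 532) (nat_lit 0) (XT.lf (nat_lit 0) (nat_lit 371876970) (nat_lit 532) (nat_lit 2512222491) (nat_lit 0) (nat_lit 371876970) (nat_lit 661) (nat_lit 5) (nat_lit 668) (nat_lit 4) (nat_lit 661) (nat_lit 4) (nat_lit 308) (nat_lit 296) (nat_lit 296)) (XT.lf (nat_lit 0) (nat_lit 466880034) (nat_lit 532) (nat_lit 4917235792) (nat_lit 532) (nat_lit 1146752871) (nat_lit 654) (nat_lit 4) (nat_lit 661) (nat_lit 5) (nat_lit 661) (nat_lit 4) (nat_lit 309) (nat_lit 296) (nat_lit 295))))) (XT.nd (nat_lit 156) (nat_lit 2432) (nat_lit 0) (XT.nd (nat_lit 78) (nat_lit 684) (nat_lit 0) (XT.lf (nat_lit 0) (nat_lit 3434076065) (nat_lit 608) (nat_lit 494312299) (nat_lit 76) (nat_lit 2624253279) (nat_lit 653) (nat_lit 5) (nat_lit 661)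 (nat_lit 5) (nat_lit 654) (nat_lit 4) (nat_lit 310) (nat_lit 296) (nat_lit 294)) (XT.lf (nat_lit 0) (nat_lit 1412893380) (nat_lit 684) (nat_lit 1393374033) (nat_lit 76) (nat_lit 3771130664) (nat_lit 644) (nat_lit 5) (nat_lit 653) (nat_lit 5) (nat_lit 645) (nat_lit 5) (nat_lit 311) (nat_lit 296) (nat_lit 293))) (XT.nd (nat_lit 78) (nat_lit 1748) (nat_lit 0) (XT.lf (nat_lit 0) (nat_lit 4363155412) (nat_lit 684) (nat_lit 1548253667) (nat_lit 760) (nat_lit 693718419) (nat_lit 635) (nat_lit 5) (nat_lit 644) (nat_lit 5) (nat_lit 645) (nat_lit 5) (nat_lit 312) (nat_lit 296) (nat_lit 292)) (XT.nd (nat_lit 78) (nat_lit 912) (nat_lit 0) (XT.lf (nat_lit 0) (nat_lit 3589340847) (nat_lit 760) (nat_lit 147686481) (nat_lit 836) (nat_lit 2898717761) (nat_lit 624) (nat_lit 5) (nat_lit 634) (nat_lit 5) (nat_lit 635) (nat_lit 5) (nat_lit 313) (nat_lit 296) (nat_lit 291)) (XT.lf (nat_lit 0) (nat_lit 1492791302) (nat_lit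 912) (nat_lit 3807339098) (nat_lit 76) (nat_lit 1369149660) (nat_lit 612) (nat_lit 5) (nat_lit 624) (nat_lit 5) (nat_lit 613) (nat_lit 5) (nat_lit 314) (nat_lit 296) (nat_lit 290))))))) (XT.nd (nat_lit 780) (nat_lit 11476) (nat_lit 0) (XT.nd (nat_lit 390) (nat_lit 7068) (nat_lit 0) (XT.nd (nat_lit 156) (nat_lit 2356) (nat_lit 0) (XT.nd (nat_lit 78) (nat_lit 1064) (nat_lit 0) (XT.lf (nat_lit 0) (nat_lit 2181805171) (nat_lit 912) (nat_lit 3682072647) (nat_lit 988) (nat_lit 841914464) (nat_lit 600) (nat_lit 5) (nat_lit 612) (nat_lit 5) (nat_lit 613) (nat_lit 5) (nat_lit 315) (nat_lit 296) (nat_lit 289)) (XT.lf (nat_lit 0) (nat_lit 1544065945) (nat_lit 988) (nat_lit 1920735902) (nat_lit 1064) (nat_lit 3280429207) (nat_lit 586) (nat_lit 5) (nat_lit 599) (nat_lit 5) (nat_lit 600) (nat_lit 5) (nat_lit 316) (nat_lit 296) (nat_lit 288))) (XT.nd (nat_lit 78) (nat_lit 1216) (nat_lit 0) (XT.lf (nat_lit 0) (nat_lit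 957920802) (nat_lit 1064) (nat_lit 24383849) (nat_lit 1140) (nat_lit 5805518399) (nat_lit 571) (nat_lit 5) (nat_lit 585) (nat_lit 5) (nat_lit 586) (nat_lit 5) (nat_lit 317) (nat_lit 296) (nat_lit 287)) (XT.nd (nat_lit 78) (nat_lit 76) (nat_lit 0) (XT.lf (nat_lit 0) (nat_lit 398731776) (nat_lit 1140) (nat_lit 4840260787) (nat_lit 1216) (nat_lit 1594140584) (nat_lit 556) (nat_lit 5) (nat_lit 571) (nat_lit 5) (nat_lit 572) (nat_lit 5) (nat_lit 318) (nat_lit 296) (nat_lit 286)) (XT.lf (nat_lit 0) (nat_lit 2609689091) (nat_lit 1216) (nat_lit 117082031) (nat_lit 76) (nat_lit 4154715935) (nat_lit 555) (nat_lit 5) (nat_lit 571) (nat_lit 5) (nat_lit 556) (nat_lit 5) (nat_lit 319) (nat_lit 296) (nat_lit 285))))) (XT.nd (nat_lit 156) (nat_lit 4484) (nat_lit 0) (XT.nd (nat_lit 78) (nat_lit 1368) (nat_lit 0) (XT.lf (nat_lit 0) (nat_lit 6351860978) (nat_lit 1216) (nat_lit 473656281) (nat_lit 1292) (nat_lit 107492976)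 (nat_lit 539) (nat_lit 5) (nat_lit 555) (nat_lit 5) (nat_lit 556) (nat_lit 5) (nat_lit 320) (nat_lit 296) (nat_lit 284)) (XT.lf (nat_lit 0) (nat_lit 4047461107) (nat_lit 1368) (nat_lit 1029029094) (nat_lit 76) (nat_lit 1910710976) (nat_lit 521) (nat_lit 5) (nat_lit 539) (nat_lit 5) (nat_lit 522) (nat_lit 5) (nat_lit 321) (nat_lit 296) (nat_lit 283))) (XT.nd (nat_lit 78) (nat_lit 3040) (nat_lit 0) (XT.lf (nat_lit 0) (nat_lit 1180433798) (nat_lit 1444) (nat_lit 1435644409) (nat_lit 76) (nat_lit 4428538454) (nat_lit 502) (nat_lit 5) (nat_lit 521) (nat_lit 5) (nat_lit 503) (nat_lit 5) (nat_lit 322) (nat_lit 296) (nat_lit 282)) (XT.nd (nat_lit 78) (nat_lit 1596) (nat_lit 0) (XT.lf (nat_lit 0) (nat_lit 5294833957) (nat_lit 1444) (nat_lit 4869087) (nat_lit 1520) (nat_lit 1805424909) (nat_lit 483) (nat_lit 5) (nat_lit 502) (nat_lit 5) (nat_lit 503) (nat_lit 5) (nat_lit 323) (nat_lit 296) (nat_lit 281)) (XT.lf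 (nat_lit 0) (nat_lit 2280103643) (nat_lit 1596) (nat_lit 2168187083) (nat_lit 76) (nat_lit 2720199459) (nat_lit 462) (nat_lit 5) (nat_lit 483) (nat_lit 5) (nat_lit 463) (nat_lit 5) (nat_lit 324) (nat_lit 296) (nat_lit 280)))))) (XT.nd (nat_lit 390) (nat_lit 4256) (nat_lit 0) (XT.nd (nat_lit 156) (nat_lit 3876) (nat_lit 0) (XT.nd (nat_lit 78) (nat_lit 1748) (nat_lit 0) (XT.lf (nat_lit 0) (nat_lit 4744372859) (nat_lit 1596) (nat_lit 1641484870) (nat_lit 1672) (nat_lit 849278328) (nat_lit 441) (nat_lit 5) (nat_lit 462) (nat_lit 5) (nat_lit 463) (nat_lit 5) (nat_lit 325) (nat_lit 296) (nat_lit 279)) (XT.lf (nat_lit 0) (nat_lit 3201113923) (nat_lit 1748) (nat_lit 2797351193) (nat_lit 76) (nat_lit 1306277613) (nat_lit 418) (nat_lit 5) (nat_lit 441) (nat_lit 5) (nat_lit 419) (nat_lit 5) (nat_lit 326) (nat_lit 296) (nat_lit 278))) (XT.nd (nat_lit 78) (nat_lit 2128) (nat_lit 0) (XT.lf (nat_lit 0) (nat_lit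 4300527017) (nat_lit 1748) (nat_lit 3000533598) (nat_lit 1824) (nat_lit 76533359) (nat_lit 395) (nat_lit 5) (nat_lit 418) (nat_lit 5) (nat_lit 419) (nat_lit 5) (nat_lit 327) (nat_lit 296) (nat_lit 277)) (XT.nd (nat_lit 78) (nat_lit 988) (nat_lit 0) (XT.lf (nat_lit 0) (nat_lit 3950305003) (nat_lit 1140) (nat_lit 3342181459) (nat_lit 76) (nat_lit 161026437) (nat_lit 380) (nat_lit 5) (nat_lit 395) (nat_lit 5) (nat_lit 381) (nat_lit 5) (nat_lit 328) (nat_lit 296) (nat_lit 276)) (XT.lf (nat_lit 0) (nat_lit 512225397) (nat_lit 988) (nat_lit 3591628512) (nat_lit 76) (nat_lit 3428737995) (nat_lit 367) (nat_lit 5) (nat_lit 380) (nat_lit 5) (nat_lit 368) (nat_lit 5) (nat_lit 329) (nat_lit 296) (nat_lit 275))))) (XT.nd (nat_lit 156) (nat_lit 2508) (nat_lit 0) (XT.nd (nat_lit 78) (nat_lit 912) (nat_lit 0) (XT.lf (nat_lit 0) (nat_lit 3788358142) (nat_lit 836) (nat_lit 749707299) (nat_lit 912) (nat_lit 3076816952)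 (nat_lit 356) (nat_lit 5) (nat_lit 367) (nat_lit 5) (nat_lit 368) (nat_lit 5) (nat_lit 330) (nat_lit 296) (nat_lit 274)) (XT.lf (nat_lit 0) (nat_lit 929941171) (nat_lit 912) (nat_lit 4049525247) (nat_lit 76) (nat_lit 2720941305) (nat_lit 344) (nat_lit 5) (nat_lit 356) (nat_lit 5) (nat_lit 345) (nat_lit 5) (nat_lit 331) (nat_lit 296) (nat_lit 273))) (XT.nd (nat_lit 78) (nat_lit 1672) (nat_lit 0) (XT.lf (nat_lit 0) (nat_lit 3524983258) (nat_lit 836) (nat_lit 1438367513) (nat_lit 912) (nat_lit 2825825262) (nat_lit 333) (nat_lit 5) (nat_lit 344) (nat_lit 5) (nat_lit 345) (nat_lit 5) (nat_lit 332) (nat_lit 296) (nat_lit 272)) (XT.nd (nat_lit 78) (nat_lit 760) (nat_lit 0) (XT.lf (nat_lit 0) (nat_lit 1181122189) (nat_lit 912) (nat_lit 4469535061) (nat_lit 76) (nat_lit 2230632273) (nat_lit 321) (nat_lit 5) (nat_lit 333) (nat_lit 5) (nat_lit 322) (nat_lit 5) (nat_lit 333) (nat_lit 296) (nat_lit 271)) (XT.lf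 (nat_lit 0) (nat_lit 3303055539) (nat_lit 760) (nat_lit 1925116860) (nat_lit 836) (nat_lit 2748499989) (nat_lit 311) (nat_lit 5) (nat_lit 321) (nat_lit 5) (nat_lit 322) (nat_lit 5) (nat_lit 334) (nat_lit 296) (nat_lit 270))))))))
noncomputable def xc40 : XT := (XT.nd (nat_lit 1560) (nat_lit 6536) (nat_lit 0) (XT.nd (nat_lit 780) (nat_lit 4788) (nat_lit 0) (XT.nd (nat_lit 390) (nat_lit 3116) (nat_lit 0) (XT.nd (nat_lit 156) (nat_lit 2280) (nat_lit 0) (XT.nd (nat_lit 78) (nat_lit 684) (nat_lit 0) (XT.lf (nat_lit 0) (nat_lit 1267964705) (nat_lit 836) (nat_lit 4871279069) (nat_lit 76) (nat_lit 1936272788) (nat_lit 300) (nat_lit 5) (nat_lit 311) (nat_lit 5) (nat_lit 301) (nat_lit 5) (nat_lit 335) (nat_lit 296) (nat_lit 269)) (XT.lf (nat_lit 0) (nat_lit 3102948309) (nat_lit 684) (nat_lit 2231351331) (nat_lit 760) (nat_lit 2843370551) (nat_lit 291) (nat_lit 5) (nat_lit 300) (nat_lit 5) (nat_lit 301) (nat_lit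 5) (nat_lit 336) (nat_lit 296) (nat_lit 268))) (XT.nd (nat_lit 78) (nat_lit 1444) (nat_lit 0) (XT.lf (nat_lit 0) (nat_lit 1191349856) (nat_lit 836) (nat_lit 5274903630) (nat_lit 76) (nat_lit 1817156318) (nat_lit 280) (nat_lit 5) (nat_lit 291) (nat_lit 5) (nat_lit 281) (nat_lit 5) (nat_lit 337) (nat_lit 296) (nat_lit 267)) (XT.nd (nat_lit 78) (nat_lit 760) (nat_lit 0) (XT.lf (nat_lit 0) (nat_lit 2904457285) (nat_lit 684) (nat_lit 2377731773) (nat_lit 760) (nat_lit 3110321165) (nat_lit 271) (nat_lit 5) (nat_lit 280) (nat_lit 5) (nat_lit 281) (nat_lit 5) (nat_lit 338) (nat_lit 296) (nat_lit 266)) (XT.lf (nat_lit 0) (nat_lit 950826265) (nat_lit 760) (nat_lit 5701267533) (nat_lit 76) (nat_lit 1853238949) (nat_lit 261) (nat_lit 5) (nat_lit 271) (nat_lit 5) (nat_lit 262) (nat_lit 5) (nat_lit 339) (nat_lit 296) (nat_lit 265))))) (XT.nd (nat_lit 156) (nat_lit 1824) (nat_lit 0) (XT.nd (nat_lit 78) (nat_lit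 684) (nat_lit 0) (XT.lf (nat_lit 0) (nat_lit 2686608968) (nat_lit 608) (nat_lit 2384353615) (nat_lit 684) (nat_lit 3550613673) (nat_lit 253) (nat_lit 5) (nat_lit 261) (nat_lit 5) (nat_lit 262) (nat_lit 5) (nat_lit 340) (nat_lit 296) (nat_lit 264)) (XT.lf (nat_lit 0) (nat_lit 544581823) (nat_lit 684) (nat_lit 6172139085) (nat_lit 76) (nat_lit 2024971589) (nat_lit 244) (nat_lit 5) (nat_lit 253) (nat_lit 5) (nat_lit 245) (nat_lit 5) (nat_lit 341) (nat_lit 296) (nat_lit 263))) (XT.nd (nat_lit 78) (nat_lit 1216) (nat_lit 0) (XT.lf (nat_lit 0) (nat_lit 2427458465) (nat_lit 608) (nat_lit 2270916169) (nat_lit 684) (nat_lit 4166921609) (nat_lit 236) (nat_lit 5) (nat_lit 244) (nat_lit 5) (nat_lit 245) (nat_lit 5) (nat_lit 342) (nat_lit 296) (nat_lit 262)) (XT.nd (nat_lit 78) (nat_lit 608) (nat_lit 0) (XT.lf (nat_lit 0) (nat_lit 2282330904) (nat_lit 608) (nat_lit 6679603769) (nat_lit 684) (nat_lit 31002411)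 (nat_lit 228) (nat_lit 5) (nat_lit 236) (nat_lit 5) (nat_lit 237) (nat_lit 5) (nat_lit 343) (nat_lit 296) (nat_lit 261)) (XT.lf (nat_lit 0) (nat_lit 2103874915) (nat_lit 532) (nat_lit 2056892855) (nat_lit 608) (nat_lit 4963375993) (nat_lit 220) (nat_lit 5) (nat_lit 227) (nat_lit 5) (nat_lit 228) (nat_lit 5) (nat_lit 344) (nat_lit 296) (nat_lit 260)))))) (XT.nd (nat_lit 390) (nat_lit 1976) (nat_lit 0) (XT.nd (nat_lit 156) (nat_lit 1596) (nat_lit 0) (XT.nd (nat_lit 78) (nat_lit 608) (nat_lit 0) (XT.lf (nat_lit 0) (nat_lit 1914054972) (nat_lit 608) (nat_lit 6555691726) (nat_lit 684) (nat_lit 789727931) (nat_lit 212) (nat_lit 5) (nat_lit 220) (nat_lit 5) (nat_lit 221) (nat_lit 5) (nat_lit 345) (nat_lit 296) (nat_lit 259)) (XT.lf (nat_lit 0) (nat_lit 1691312542) (nat_lit 532) (nat_lit 1761703757) (nat_lit 608) (nat_lit 5945623451) (nat_lit 204) (nat_lit 5) (nat_lit 211) (nat_lit 5) (nat_lit 212) (nat_lit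 5) (nat_lit 346) (nat_lit 296) (nat_lit 258))) (XT.nd (nat_lit 78) (nat_lit 1064) (nat_lit 0) (XT.lf (nat_lit 0) (nat_lit 1443079669) (nat_lit 532) (nat_lit 6368224517) (nat_lit 608) (nat_lit 1730618798) (nat_lit 197) (nat_lit 5) (nat_lit 204) (nat_lit 5) (nat_lit 205) (nat_lit 5) (nat_lit 347) (nat_lit 296) (nat_lit 257)) (XT.nd (nat_lit 78) (nat_lit 532) (nat_lit 0) (XT.lf (nat_lit 0) (nat_lit 1163565224) (nat_lit 456) (nat_lit 1404891919) (nat_lit 532) (nat_lit 7120897346) (nat_lit 190) (nat_lit 5) (nat_lit 196) (nat_lit 5) (nat_lit 197) (nat_lit 5) (nat_lit 348) (nat_lit 296) (nat_lit 256)) (XT.lf (nat_lit 0) (nat_lit 842310016) (nat_lit 532) (nat_lit 6137019050) (nat_lit 608) (nat_lit 2861549661) (nat_lit 183) (nat_lit 5) (nat_lit 190) (nat_lit 5) (nat_lit 191) (nat_lit 5) (nat_lit 349) (nat_lit 296) (nat_lit 255))))) (XT.nd (nat_lit 156) (nat_lit 988) (nat_lit 0) (XT.nd (nat_lit 78) (nat_lit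 456) (nat_lit 0) (XT.lf (nat_lit 0) (nat_lit 492502273) (nat_lit 456) (nat_lit 1006304902) (nat_lit 532) (nat_lit 8498102753) (nat_lit 176) (nat_lit 5) (nat_lit 182) (nat_lit 5) (nat_lit 183) (nat_lit 5) (nat_lit 350) (nat_lit 296) (nat_lit 254)) (XT.lf (nat_lit 0) (nat_lit 82582209) (nat_lit 456) (nat_lit 5882308328) (nat_lit 532) (nat_lit 4192100748) (nat_lit 170) (nat_lit 5) (nat_lit 176) (nat_lit 5) (nat_lit 177) (nat_lit 5) (nat_lit 351) (nat_lit 296) (nat_lit 253))) (XT.nd (nat_lit 78) (nat_lit 912) (nat_lit 0) (XT.lf (nat_lit 0) (nat_lit 236352937) (nat_lit 532) (nat_lit 347597660) (nat_lit 76) (nat_lit 9737985977) (nat_lit 169) (nat_lit 5) (nat_lit 176) (nat_lit 5) (nat_lit 170) (nat_lit 5) (nat_lit 352) (nat_lit 296) (nat_lit 252)) (XT.nd (nat_lit 78) (nat_lit 456) (nat_lit 0) (XT.lf (nat_lit 0) (nat_lit 4762933662) (nat_lit 532) (nat_lit 856254058) (nat_lit 76) (nat_lit 4871665355) (nat_lit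 163) (nat_lit 5) (nat_lit 170) (nat_lit 5) (nat_lit 164) (nat_lit 5) (nat_lit 353) (nat_lit 296) (nat_lit 251)) (XT.lf (nat_lit 0) (nat_lit 9271832648) (nat_lit 456) (nat_lit 148318718) (nat_lit 532) (nat_lit 1244809887) (nat_lit 157) (nat_lit 5) (nat_lit 163) (nat_lit 5) (nat_lit 164) (nat_lit 5) (nat_lit 354) (nat_lit 296) (nat_lit 250))))))) (XT.nd (nat_lit 780) (nat_lit 2508) (nat_lit 0) (XT.nd (nat_lit 390) (nat_lit 1900) (nat_lit 0) (XT.nd (nat_lit 156) (nat_lit 1216) (nat_lit 0) (XT.nd (nat_lit 78) (nat_lit 456) (nat_lit 0) (XT.lf (nat_lit 0) (nat_lit 3357254024) (nat_lit 456) (nat_lit 2015765262) (nat_lit 76) (nat_lit 5470281468) (nat_lit 151) (nat_lit 5) (nat_lit 157) (nat_lit 5) (nat_lit 152) (nat_lit 5) (nat_lit 355) (nat_lit 296) (nat_lit 249)) (XT.lf (nat_lit 0) (nat_lit 8077531484) (nat_lit 532) (nat_lit 2682468060) (nat_lit 76) (nat_lit 266904439) (nat_lit 145) (nat_lit 5) (nat_lit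 152) (nat_lit 5) (nat_lit 146) (nat_lit 5) (nat_lit 356) (nat_lit 296) (nat_lit 248))) (XT.nd (nat_lit 78) (nat_lit 760) (nat_lit 0) (XT.lf (nat_lit 0) (nat_lit 1732974946) (nat_lit 456) (nat_lit 3433802088) (nat_lit 76) (nat_lit 6048389420) (nat_lit 139) (nat_lit 5) (nat_lit 145) (nat_lit 5) (nat_lit 140) (nat_lit 5) (nat_lit 357) (nat_lit 296) (nat_lit 247)) (XT.nd (nat_lit 78) (nat_lit 380) (nat_lit 0) (XT.lf (nat_lit 0) (nat_lit 6517542554) (nat_lit 456) (nat_lit 4251531987) (nat_lit 76) (nat_lit 639593857) (nat_lit 134) (nat_lit 5) (nat_lit 140) (nat_lit 5) (nat_lit 135) (nat_lit 5) (nat_lit 358) (nat_lit 296) (nat_lit 246)) (XT.lf (nat_lit 0) (nat_lit 6455980479) (nat_lit 380) (nat_lit 5023265859) (nat_lit 456) (nat_lit 128074470) (nat_lit 129) (nat_lit 5) (nat_lit 134) (nat_lit 5) (nat_lit 135) (nat_lit 5) (nat_lit 359) (nat_lit 296) (nat_lit 245))))) (XT.nd (nat_lit 156) (nat_lit 1140) (nat_lit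 0) (XT.nd (nat_lit 78) (nat_lit 304) (nat_lit 0) (XT.lf (nat_lit 0) (nat_lit 4721854319) (nat_lit 456) (nat_lit 6141322591) (nat_lit 76) (nat_lit 948019040) (nat_lit 123) (nat_lit 5) (nat_lit 129) (nat_lit 5) (nat_lit 124) (nat_lit 5) (nat_lit 360) (nat_lit 296) (nat_lit 244)) (XT.lf (nat_lit 0) (nat_lit 4795922717) (nat_lit 304) (nat_lit 4955118358) (nat_lit 380) (nat_lit 2269435408) (nat_lit 119) (nat_lit 5) (nat_lit 123) (nat_lit 5) (nat_lit 124) (nat_lit 5) (nat_lit 361) (nat_lit 296) (nat_lit 243))) (XT.nd (nat_lit 78) (nat_lit 684) (nat_lit 0) (XT.lf (nat_lit 0) (nat_lit 2670693994) (nat_lit 456) (nat_lit 8397818272) (nat_lit 76) (nat_lit 1166969051) (nat_lit 113) (nat_lit 5) (nat_lit 119) (nat_lit 5) (nat_lit 114) (nat_lit 5) (nat_lit 362) (nat_lit 296) (nat_lit 242)) (XT.nd (nat_lit 78) (nat_lit 380) (nat_lit 0) (XT.lf (nat_lit 0) (nat_lit 2765534374) (nat_lit 304) (nat_lit 5000657936) (nat_lit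 380) (nat_lit 4689698861) (nat_lit 109) (nat_lit 5) (nat_lit 113) (nat_lit 5) (nat_lit 114) (nat_lit 5) (nat_lit 363) (nat_lit 296) (nat_lit 241)) (XT.lf (nat_lit 0) (nat_lit 341675521) (nat_lit 380) (nat_lit 11071483606) (nat_lit 76) (nat_lit 1269437607) (nat_lit 104) (nat_lit 5) (nat_lit 109) (nat_lit 5) (nat_lit 105) (nat_lit 5) (nat_lit 364) (nat_lit 296) (nat_lit 240)))))) (XT.nd (nat_lit 390) (nat_lit 1140) (nat_lit 0) (XT.nd (nat_lit 156) (nat_lit 1064) (nat_lit 0) (XT.nd (nat_lit 78) (nat_lit 0) (nat_lit 0) (XT.lf (nat_lit 0) (nat_lit 312854626) (nat_lit 304) (nat_lit 5188555614) (nat_lit 380) (nat_lit 7413264296) (nat_lit 100) (nat_lit 5) (nat_lit 104) (nat_lit 5) (nat_lit 105) (nat_lit 5) (nat_lit 365) (nat_lit 296) (nat_lit 239)) (XT.lf (nat_lit 0) (nat_lit 10839533043) (nat_lit 380) (nat_lit 1065303254) (nat_lit 76) (nat_lit 1248419776) (nat_lit 100) (nat_lit 5) (nat_lit 105) (nat_lit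 5) (nat_lit 101) (nat_lit 5) (nat_lit 366) (nat_lit 296) (nat_lit 238))) (XT.nd (nat_lit 78) (nat_lit 684) (nat_lit 0) (XT.lf (nat_lit 0) (nat_lit 2947469299) (nat_lit 380) (nat_lit 2584939352) (nat_lit 76) (nat_lit 7865273319) (nat_lit 95) (nat_lit 5) (nat_lit 100) (nat_lit 5) (nat_lit 96) (nat_lit 5) (nat_lit 367) (nat_lit 296) (nat_lit 237)) (XT.nd (nat_lit 78) (nat_lit 380) (nat_lit 0) (XT.lf (nat_lit 0) (nat_lit 8353353115) (nat_lit 380) (nat_lit 4226832116) (nat_lit 76) (nat_lit 1068596047) (nat_lit 91) (nat_lit 5) (nat_lit 96) (nat_lit 5) (nat_lit 92) (nat_lit 5) (nat_lit 368) (nat_lit 296) (nat_lit 236)) (XT.lf (nat_lit 0) (nat_lit 63470687) (nat_lit 380) (nat_lit 6013965092) (nat_lit 76) (nat_lit 7828994601) (nat_lit 86) (nat_lit 5) (nat_lit 91) (nat_lit 5) (nat_lit 87) (nat_lit 5) (nat_lit 369) (nat_lit 296) (nat_lit 235))))) (XT.nd (nat_lit 156) (nat_lit 608) (nat_lit 0) (XT.nd (nat_lit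 78) (nat_lit 304) (nat_lit 0) (XT.lf (nat_lit 0) (nat_lit 5529453379) (nat_lit 304) (nat_lit 7957590870) (nat_lit 76) (nat_lit 683710809) (nat_lit 83) (nat_lit 5) (nat_lit 87) (nat_lit 5) (nat_lit 84) (nat_lit 5) (nat_lit 370) (nat_lit 296) (nat_lit 234)) (XT.lf (nat_lit 0) (nat_lit 4374108382) (nat_lit 304) (nat_lit 6840353432) (nat_lit 380) (nat_lit 3227457783) (nat_lit 79) (nat_lit 5) (nat_lit 83) (nat_lit 5) (nat_lit 84) (nat_lit 5) (nat_lit 371) (nat_lit 296) (nat_lit 233))) (XT.nd (nat_lit 78) (nat_lit 304) (nat_lit 0) (XT.lf (nat_lit 0) (nat_lit 2333823996) (nat_lit 304) (nat_lit 12329551271) (nat_lit 76) (nat_lit 57232768) (nat_lit 75) (nat_lit 5) (nat_lit 79) (nat_lit 5) (nat_lit 76) (nat_lit 5) (nat_lit 372) (nat_lit 296) (nat_lit 232)) (XT.nd (nat_lit 78) (nat_lit 0) (nat_lit 0) (XT.lf (nat_lit 0) (nat_lit 201801678) (nat_lit 304) (nat_lit 7878711459) (nat_lit 380) (nat_lit 6925479182)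 (nat_lit 71) (nat_lit 5) (nat_lit 75) (nat_lit 5) (nat_lit 76) (nat_lit 5) (nat_lit 373) (nat_lit 296) (nat_lit 231)) (XT.lf (nat_lit 0) (nat_lit 13191023025) (nat_lit 304) (nat_lit 839563360) (nat_lit 380) (nat_lit 1268741988) (nat_lit 71) (nat_lit 5) (nat_lit 75) (nat_lit 5) (nat_lit 76) (nat_lit 5) (nat_lit 374) (nat_lit 296) (nat_lit 230))))))))
noncomputable def xc41 : XT := (XT.nd (nat_lit 42198) (nat_lit 0) (nat_lit 20444) (XT.nd (nat_lit 780) (nat_lit 152) (nat_lit 0) (XT.nd (nat_lit 390) (nat_lit 988) (nat_lit 0) (XT.nd (nat_lit 156) (nat_lit 532) (nat_lit 0) (XT.nd (nat_lit 78) (nat_lit 228) (nat_lit 0) (XT.lf (nat_lit 0) (nat_lit 4560020809) (nat_lit 304) (nat_lit 4644452031) (nat_lit 76) (nat_lit 6395167300) (nat_lit 67) (nat_lit 5) (nat_lit 71) (nat_lit 5) (nat_lit 68) (nat_lit 5) (nat_lit 375) (nat_lit 296) (nat_lit 229)) (XT.lf (nat_lit 0) (nat_lit 8544207631) (nat_lit 228) (nat_lit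 2027126378) (nat_lit 304) (nat_lit 5336970188) (nat_lit 64) (nat_lit 5) (nat_lit 67) (nat_lit 5) (nat_lit 68) (nat_lit 5) (nat_lit 376) (nat_lit 296) (nat_lit 228))) (XT.nd (nat_lit 78) (nat_lit 228) (nat_lit 0) (XT.lf (nat_lit 0) (nat_lit 585138535) (nat_lit 304) (nat_lit 10303660269) (nat_lit 76) (nat_lit 5336259993) (nat_lit 60) (nat_lit 5) (nat_lit 64) (nat_lit 5) (nat_lit 61) (nat_lit 5) (nat_lit 377) (nat_lit 296) (nat_lit 227)) (XT.nd (nat_lit 78) (nat_lit 0) (nat_lit 0) (XT.lf (nat_lit 0) (nat_lit 3063393139) (nat_lit 228) (nat_lit 3583760914) (nat_lit 304) (nat_lit 9902769859) (nat_lit 57) (nat_lit 5) (nat_lit 60) (nat_lit 5) (nat_lit 61) (nat_lit 5) (nat_lit 378) (nat_lit 296) (nat_lit 226)) (XT.lf (nat_lit 0) (nat_lit 12938247419) (nat_lit 304) (nat_lit 19247568) (nat_lit 76) (nat_lit 3926103861) (nat_lit 57) (nat_lit 5) (nat_lit 61) (nat_lit 5) (nat_lit 58) (nat_lit 5) (nat_lit 379) (nat_lit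 296) (nat_lit 225))))) (XT.nd (nat_lit 156) (nat_lit 456) (nat_lit 0) (XT.nd (nat_lit 78) (nat_lit 228) (nat_lit 0) (XT.lf (nat_lit 0) (nat_lit 2229674357) (nat_lit 304) (nat_lit 3309980970) (nat_lit 76) (nat_lit 11685999699) (nat_lit 53) (nat_lit 5) (nat_lit 57) (nat_lit 5) (nat_lit 54) (nat_lit 5) (nat_lit 380) (nat_lit 296) (nat_lit 224)) (XT.lf (nat_lit 0) (nat_lit 8573803872) (nat_lit 304) (nat_lit 6865314814) (nat_lit 76) (nat_lit 2137591125) (nat_lit 50) (nat_lit 5) (nat_lit 54) (nat_lit 5) (nat_lit 51) (nat_lit 5) (nat_lit 381) (nat_lit 296) (nat_lit 223))) (XT.nd (nat_lit 78) (nat_lit 304) (nat_lit 0) (XT.lf (nat_lit 0) (nat_lit 7239721339) (nat_lit 152) (nat_lit 7929123349) (nat_lit 228) (nat_lit 2768247176) (nat_lit 48) (nat_lit 5) (nat_lit 50) (nat_lit 5) (nat_lit 51) (nat_lit 5) (nat_lit 382) (nat_lit 296) (nat_lit 222)) (XT.nd (nat_lit 78) (nat_lit 0) (nat_lit 0) (XT.lf (nat_lit 0) (nat_lit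 3498139096) (nat_lit 228) (nat_lit 131427239) (nat_lit 304) (nat_lit 14677771035) (nat_lit 44) (nat_lit 5) (nat_lit 47) (nat_lit 5) (nat_lit 48) (nat_lit 5) (nat_lit 383) (nat_lit 296) (nat_lit 221)) (XT.lf (nat_lit 0) (nat_lit 10261286186) (nat_lit 304) (nat_lit 569244700) (nat_lit 76) (nat_lit 7856208576) (nat_lit 44) (nat_lit 5) (nat_lit 48) (nat_lit 5) (nat_lit 45) (nat_lit 5) (nat_lit 384) (nat_lit 296) (nat_lit 220)))))) (XT.nd (nat_lit 41028) (nat_lit 0) (nat_lit 43320) (XT.nd (nat_lit 40794) (nat_lit 0) (nat_lit 46436) (XT.nd (nat_lit 40716) (nat_lit 0) (nat_lit 47956) (XT.lf (nat_lit 0) (nat_lit 14207970948) (nat_lit 152) (nat_lit 2933525806) (nat_lit 228) (nat_lit 1935042693) (nat_lit 42) (nat_lit 5) (nat_lit 44) (nat_lit 5) (nat_lit 45) (nat_lit 5) (nat_lit 385) (nat_lit 296) (nat_lit 219)) (XT.lf (nat_lit 0) (nat_lit 938606283) (nat_lit 380) (nat_lit 1363439650) (nat_lit 0) (nat_lit 938606283)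 (nat_lit 673) (nat_lit 5) (nat_lit 678) (nat_lit 4) (nat_lit 673) (nat_lit 4) (nat_lit 306) (nat_lit 297) (nat_lit 297))) (XT.nd (nat_lit 78) (nat_lit 1064) (nat_lit 0) (XT.lf (nat_lit 0) (nat_lit 12577130) (nat_lit 456) (nat_lit 3935863554) (nat_lit 76) (nat_lit 2547462520) (nat_lit 667) (nat_lit 5) (nat_lit 673) (nat_lit 5) (nat_lit 668) (nat_lit 4) (nat_lit 307) (nat_lit 297) (nat_lit 296)) (XT.nd (nat_lit 78) (nat_lit 608) (nat_lit 0) (XT.lf (nat_lit 0) (nat_lit 1413112789) (nat_lit 456) (nat_lit 3151379648) (nat_lit 532) (nat_lit 1948780448) (nat_lit 661) (nat_lit 5) (nat_lit 667) (nat_lit 5) (nat_lit 668) (nat_lit 4) (nat_lit 308) (nat_lit 297) (nat_lit 295)) (XT.lf (nat_lit 0) (nat_lit 324792246) (nat_lit 532) (nat_lit 2224457088) (nat_lit 608) (nat_lit 3984419419) (nat_lit 653) (nat_lit 5) (nat_lit 660) (nat_lit 5) (nat_lit 661) (nat_lit 5) (nat_lit 309) (nat_lit 297) (nat_lit 294))))) (XT.nd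 (nat_lit 156) (nat_lit 2432) (nat_lit 0) (XT.nd (nat_lit 78) (nat_lit 608) (nat_lit 0) (XT.lf (nat_lit 0) (nat_lit 465438142) (nat_lit 608) (nat_lit 696719495) (nat_lit 76) (nat_lit 5394858727) (nat_lit 652) (nat_lit 5) (nat_lit 660) (nat_lit 5) (nat_lit 653) (nat_lit 5) (nat_lit 310) (nat_lit 297) (nat_lit 293)) (XT.lf (nat_lit 0) (nat_lit 4869051614) (nat_lit 684) (nat_lit 1669672959) (nat_lit 76) (nat_lit 44437443) (nat_lit 644) (nat_lit 5) (nat_lit 653) (nat_lit 5) (nat_lit 645) (nat_lit 5) (nat_lit 311) (nat_lit 297) (nat_lit 292))) (XT.nd (nat_lit 78) (nat_lit 1672) (nat_lit 0) (XT.lf (nat_lit 0) (nat_lit 2642003607) (nat_lit 760) (nat_lit 2599930254) (nat_lit 76) (nat_lit 1370222587) (nat_lit 634) (nat_lit 5) (nat_lit 644) (nat_lit 5) (nat_lit 635) (nat_lit 5) (nat_lit 312) (nat_lit 297) (nat_lit 291)) (XT.nd (nat_lit 78) (nat_lit 836) (nat_lit 0) (XT.lf (nat_lit 0) (nat_lit 337698524) (nat_lit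 836) (nat_lit 3477858771) (nat_lit 76) (nat_lit 2828677028) (nat_lit 623) (nat_lit 5) (nat_lit 634) (nat_lit 5) (nat_lit 624) (nat_lit 5) (nat_lit 313) (nat_lit 297) (nat_lit 290)) (XT.lf (nat_lit 0) (nat_lit 2361282183) (nat_lit 836) (nat_lit 2244437792) (nat_lit 912) (nat_lit 2073430939) (nat_lit 612) (nat_lit 5) (nat_lit 623) (nat_lit 5) (nat_lit 624) (nat_lit 5) (nat_lit 314) (nat_lit 297) (nat_lit 289))))))) (XT.nd (nat_lit 780) (nat_lit 11476) (nat_lit 0) (XT.nd (nat_lit 390) (nat_lit 7068) (nat_lit 0) (XT.nd (nat_lit 156) (nat_lit 2356) (nat_lit 0) (XT.nd (nat_lit 78) (nat_lit 988) (nat_lit 0) (XT.lf (nat_lit 0) (nat_lit 1606984883) (nat_lit 912) (nat_lit 537934753) (nat_lit 988) (nat_lit 4572227530) (nat_lit 599) (nat_lit 5) (nat_lit 611) (nat_lit 5) (nat_lit 612) (nat_lit 5) (nat_lit 315) (nat_lit 297) (nat_lit 288)) (XT.lf (nat_lit 0) (nat_lit 893654847) (nat_lit 988) (nat_lit 5469216261)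 (nat_lit 1064) (nat_lit 395204897) (nat_lit 586) (nat_lit 5) (nat_lit 599) (nat_lit 5) (nat_lit 600) (nat_lit 5) (nat_lit 316) (nat_lit 297) (nat_lit 287))) (XT.nd (nat_lit 78) (nat_lit 1216) (nat_lit 0) (XT.lf (nat_lit 0) (nat_lit 212336018) (nat_lit 1064) (nat_lit 3543704828) (nat_lit 1140) (nat_lit 3045768224) (nat_lit 571) (nat_lit 5) (nat_lit 585) (nat_lit 5) (nat_lit 586) (nat_lit 5) (nat_lit 317) (nat_lit 297) (nat_lit 286)) (XT.nd (nat_lit 78) (nat_lit 1140) (nat_lit 0) (XT.lf (nat_lit 0) (nat_lit 1066903383) (nat_lit 1140) (nat_lit 414322394) (nat_lit 76) (nat_lit 5367451119) (nat_lit 570) (nat_lit 5) (nat_lit 585) (nat_lit 5) (nat_lit 571) (nat_lit 5) (nat_lit 318) (nat_lit 297) (nat_lit 285)) (XT.lf (nat_lit 0) (nat_lit 5171542382) (nat_lit 1216) (nat_lit 1006409347) (nat_lit 76) (nat_lit 720477260) (nat_lit 555) (nat_lit 5) (nat_lit 571) (nat_lit 5) (nat_lit 556) (nat_lit 5) (nat_lit 319)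 (nat_lit 297) (nat_lit 284))))) (XT.nd (nat_lit 156) (nat_lit 4484) (nat_lit 0) (XT.nd (nat_lit 78) (nat_lit 1292) (nat_lit 0) (XT.lf (nat_lit 0) (nat_lit 2334747563) (nat_lit 1292) (nat_lit 1569610007) (nat_lit 76) (nat_lit 3046729782) (nat_lit 538) (nat_lit 5) (nat_lit 555) (nat_lit 5) (nat_lit 539) (nat_lit 5) (nat_lit 320) (nat_lit 297) (nat_lit 283)) (XT.lf (nat_lit 0) (nat_lit 4915104391) (nat_lit 1292) (nat_lit 1490835197) (nat_lit 1368) (nat_lit 601008314) (nat_lit 521) (nat_lit 5) (nat_lit 538) (nat_lit 5) (nat_lit 539) (nat_lit 5) (nat_lit 321) (nat_lit 297) (nat_lit 282))) (XT.nd (nat_lit 78) (nat_lit 3040) (nat_lit 0) (XT.lf (nat_lit 0) (nat_lit 3409609772) (nat_lit 1444) (nat_lit 2592848254) (nat_lit 76) (nat_lit 1063214089) (nat_lit 502) (nat_lit 5) (nat_lit 521) (nat_lit 5) (nat_lit 503) (nat_lit 5) (nat_lit 322) (nat_lit 297) (nat_lit 281)) (XT.nd (nat_lit 78) (nat_lit 1520) (nat_lit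 0) (XT.lf (nat_lit 0) (nat_lit 328610195) (nat_lit 1520) (nat_lit 3061522756) (nat_lit 76) (nat_lit 3737407334) (nat_lit 482) (nat_lit 5) (nat_lit 502) (nat_lit 5) (nat_lit 483) (nat_lit 5) (nat_lit 323) (nat_lit 297) (nat_lit 280)) (XT.lf (nat_lit 0) (nat_lit 3684838201) (nat_lit 1520) (nat_lit 619707036) (nat_lit 1596) (nat_lit 2887873266) (nat_lit 462) (nat_lit 5) (nat_lit 482) (nat_lit 5) (nat_lit 483) (nat_lit 5) (nat_lit 324) (nat_lit 297) (nat_lit 279)))))) (XT.nd (nat_lit 390) (nat_lit 4256) (nat_lit 0) (XT.nd (nat_lit 156) (nat_lit 3876) (nat_lit 0) (XT.nd (nat_lit 78) (nat_lit 1672) (nat_lit 0) (XT.lf (nat_lit 0) (nat_lit 1064538035) (nat_lit 1672) (nat_lit 3930615532) (nat_lit 76) (nat_lit 2265223860) (nat_lit 440) (nat_lit 5) (nat_lit 462) (nat_lit 5) (nat_lit 441) (nat_lit 5) (nat_lit 325) (nat_lit 297) (nat_lit 278)) (XT.lf (nat_lit 0) (nat_lit 2997315663) (nat_lit 1672) (nat_lit 2031026212)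 (nat_lit 1748) (nat_lit 2303070630) (nat_lit 418) (nat_lit 5) (nat_lit 440) (nat_lit 5) (nat_lit 441) (nat_lit 5) (nat_lit 326) (nat_lit 297) (nat_lit 277))) (XT.nd (nat_lit 78) (nat_lit 2052) (nat_lit 0) (XT.lf (nat_lit 0) (nat_lit 1621639046) (nat_lit 1824) (nat_lit 4714388751) (nat_lit 76) (nat_lit 1069635836) (nat_lit 394) (nat_lit 5) (nat_lit 418) (nat_lit 5) (nat_lit 395) (nat_lit 5) (nat_lit 327) (nat_lit 297) (nat_lit 276)) (XT.nd (nat_lit 78) (nat_lit 988) (nat_lit 0) (XT.lf (nat_lit 0) (nat_lit 2398383584) (nat_lit 1064) (nat_lit 3182134137) (nat_lit 1140) (nat_lit 1902421453) (nat_lit 380) (nat_lit 5) (nat_lit 394) (nat_lit 5) (nat_lit 395) (nat_lit 5) (nat_lit 328) (nat_lit 297) (nat_lit 275)) (XT.lf (nat_lit 0) (nat_lit 2005568114) (nat_lit 988) (nat_lit 5431893957) (nat_lit 76) (nat_lit 126103338) (nat_lit 367) (nat_lit 5) (nat_lit 380) (nat_lit 5) (nat_lit 368) (nat_lit 5) (nat_lit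 329) (nat_lit 297) (nat_lit 274))))) (XT.nd (nat_lit 156) (nat_lit 2508) (nat_lit 0) (XT.nd (nat_lit 78) (nat_lit 912) (nat_lit 0) (XT.lf (nat_lit 0) (nat_lit 1869112106) (nat_lit 836) (nat_lit 4097165424) (nat_lit 912) (nat_lit 1680906333) (nat_lit 356) (nat_lit 5) (nat_lit 367) (nat_lit 5) (nat_lit 368) (nat_lit 5) (nat_lit 330) (nat_lit 297) (nat_lit 273)) (XT.lf (nat_lit 0) (nat_lit 1628112826) (nat_lit 836) (nat_lit 596434250) (nat_lit 912) (nat_lit 5509664928) (nat_lit 344) (nat_lit 5) (nat_lit 355) (nat_lit 5) (nat_lit 356) (nat_lit 5) (nat_lit 331) (nat_lit 297) (nat_lit 272))) (XT.nd (nat_lit 78) (nat_lit 1672) (nat_lit 0) (XT.lf (nat_lit 0) (nat_lit 1390485063) (nat_lit 836) (nat_lit 4799049843) (nat_lit 912) (nat_lit 1634837271) (nat_lit 333) (nat_lit 5) (nat_lit 344) (nat_lit 5) (nat_lit 345) (nat_lit 5) (nat_lit 332) (nat_lit 297) (nat_lit 271)) (XT.nd (nat_lit 78) (nat_lit 760) (nat_lit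 0) (XT.lf (nat_lit 0) (nat_lit 1166031717) (nat_lit 836) (nat_lit 1111196703) (nat_lit 912) (nat_lit 5640710128) (nat_lit 321) (nat_lit 5) (nat_lit 332) (nat_lit 5) (nat_lit 333) (nat_lit 5) (nat_lit 333) (nat_lit 297) (nat_lit 270)) (XT.lf (nat_lit 0) (nat_lit 943231690) (nat_lit 760) (nat_lit 5309687717) (nat_lit 836) (nat_lit 1761850842) (nat_lit 311) (nat_lit 5) (nat_lit 321) (nat_lit 5) (nat_lit 322) (nat_lit 5) (nat_lit 334) (nat_lit 297) (nat_lit 269))))))))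
noncomputable def xc42 : XT := (XT.nd (nat_lit 1560) (nat_lit 6536) (nat_lit 0) (XT.nd (nat_lit 780) (nat_lit 5320) (nat_lit 0) (XT.nd (nat_lit 390) (nat_lit 3268) (nat_lit 0) (XT.nd (nat_lit 156) (nat_lit 1596) (nat_lit 0) (XT.nd (nat_lit 78) (nat_lit 684) (nat_lit 0) (XT.lf (nat_lit 0) (nat_lit 726734634) (nat_lit 760) (nat_lit 1437949482) (nat_lit 836) (nat_lit 5950362588) (nat_lit 300) (nat_lit 5) (nat_lit 310) (nat_lit 5) (nat_lit 311) (nat_lit 5) (nat_lit 335) (nat_lit 297) (nat_lit 268)) (XT.lf (nat_lit 0) (nat_lit 507652443) (nat_lit 684) (nat_lit 5650121247) (nat_lit 760) (nat_lit 2060911558) (nat_lit 291) (nat_lit 5) (nat_lit 300) (nat_lit 5) (nat_lit 301) (nat_lit 5) (nat_lit 336) (nat_lit 297) (nat_lit 267))) (XT.nd (nat_lit 78) (nat_lit 760) (nat_lit 0) (XT.lf (nat_lit 0) (nat_lit 290170377) (nat_lit 760) (nat_lit 1597338664) (nat_lit 836) (nat_lit 6438354015) (nat_lit 280) (nat_lit 5)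 (nat_lit 290) (nat_lit 5) (nat_lit 291) (nat_lit 5) (nat_lit 337) (nat_lit 297) (nat_lit 266)) (XT.nd (nat_lit 78) (nat_lit 76) (nat_lit 0) (XT.lf (nat_lit 0) (nat_lit 63437413) (nat_lit 684) (nat_lit 5840703029) (nat_lit 760) (nat_lit 2532325677) (nat_lit 271) (nat_lit 5) (nat_lit 280) (nat_lit 5) (nat_lit 281) (nat_lit 5) (nat_lit 338) (nat_lit 297) (nat_lit 265)) (XT.lf (nat_lit 0) (nat_lit 1446040788) (nat_lit 760) (nat_lit 162253842) (nat_lit 76) (nat_lit 6942440566) (nat_lit 270) (nat_lit 5) (nat_lit 280) (nat_lit 5) (nat_lit 271) (nat_lit 5) (nat_lit 339) (nat_lit 297) (nat_lit 264))))) (XT.nd (nat_lit 156) (nat_lit 1900) (nat_lit 0) (XT.nd (nat_lit 78) (nat_lit 684) (nat_lit 0) (XT.lf (nat_lit 0) (nat_lit 5493404217) (nat_lit 760) (nat_lit 405140150) (nat_lit 76) (nat_lit 2769906882) (nat_lit 261) (nat_lit 5) (nat_lit 271) (nat_lit 5) (nat_lit 262) (nat_lit 5) (nat_lit 340) (nat_lit 297) (nat_lit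 263)) (XT.lf (nat_lit 0) (nat_lit 839269994) (nat_lit 684) (nat_lit 650011605) (nat_lit 76) (nat_lit 7300772444) (nat_lit 252) (nat_lit 5) (nat_lit 261) (nat_lit 5) (nat_lit 253) (nat_lit 5) (nat_lit 341) (nat_lit 297) (nat_lit 262))) (XT.nd (nat_lit 78) (nat_lit 1292) (nat_lit 0) (XT.lf (nat_lit 0) (nat_lit 4921009372) (nat_lit 684) (nat_lit 924065292) (nat_lit 76) (nat_lit 3070039983) (nat_lit 244) (nat_lit 5) (nat_lit 253) (nat_lit 5) (nat_lit 245) (nat_lit 5) (nat_lit 342) (nat_lit 297) (nat_lit 261)) (XT.nd (nat_lit 78) (nat_lit 608) (nat_lit 0) (XT.lf (nat_lit 0) (nat_lit 61983525) (nat_lit 684) (nat_lit 1199355101) (nat_lit 76) (nat_lit 7782972887) (nat_lit 235) (nat_lit 5) (nat_lit 244) (nat_lit 5) (nat_lit 236) (nat_lit 5) (nat_lit 343) (nat_lit 297) (nat_lit 260)) (XT.lf (nat_lit 0) (nat_lit 4182652834) (nat_lit 684) (nat_lit 1517193178) (nat_lit 76) (nat_lit 3477096632) (nat_lit 227) (nat_lit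 5) (nat_lit 236) (nat_lit 5) (nat_lit 228) (nat_lit 5) (nat_lit 344) (nat_lit 297) (nat_lit 259)))))) (XT.nd (nat_lit 390) (nat_lit 2508) (nat_lit 0) (XT.nd (nat_lit 156) (nat_lit 1596) (nat_lit 0) (XT.nd (nat_lit 78) (nat_lit 684) (nat_lit 0) (XT.lf (nat_lit 0) (nat_lit 7473995284) (nat_lit 532) (nat_lit 937475915) (nat_lit 608) (nat_lit 902419688) (nat_lit 220) (nat_lit 5) (nat_lit 227) (nat_lit 5) (nat_lit 228) (nat_lit 5) (nat_lit 345) (nat_lit 297) (nat_lit 258)) (XT.lf (nat_lit 0) (nat_lit 3272991142) (nat_lit 684) (nat_lit 2208972405) (nat_lit 76) (nat_lit 3972496806) (nat_lit 211) (nat_lit 5) (nat_lit 220) (nat_lit 5) (nat_lit 212) (nat_lit 5) (nat_lit 346) (nat_lit 297) (nat_lit 257))) (XT.nd (nat_lit 78) (nat_lit 1064) (nat_lit 0) (XT.lf (nat_lit 0) (nat_lit 7006758307) (nat_lit 532) (nat_lit 541062258) (nat_lit 608) (nat_lit 2051605283) (nat_lit 204) (nat_lit 5) (nat_lit 211) (nat_lit 5)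 (nat_lit 212) (nat_lit 5) (nat_lit 347) (nat_lit 297) (nat_lit 256)) (XT.nd (nat_lit 78) (nat_lit 456) (nat_lit 0) (XT.lf (nat_lit 0) (nat_lit 2185159692) (nat_lit 608) (nat_lit 3025518697) (nat_lit 76) (nat_lit 4537563521) (nat_lit 196) (nat_lit 5) (nat_lit 204) (nat_lit 5) (nat_lit 197) (nat_lit 5) (nat_lit 348) (nat_lit 297) (nat_lit 255)) (XT.lf (nat_lit 0) (nat_lit 6417125961) (nat_lit 456) (nat_lit 91703545) (nat_lit 532) (nat_lit 3392692782) (nat_lit 190) (nat_lit 5) (nat_lit 196) (nat_lit 5) (nat_lit 197) (nat_lit 5) (nat_lit 349) (nat_lit 297) (nat_lit 254))))) (XT.nd (nat_lit 156) (nat_lit 1444) (nat_lit 0) (XT.nd (nat_lit 78) (nat_lit 456) (nat_lit 0) (XT.lf (nat_lit 0) (nat_lit 910690511) (nat_lit 608) (nat_lit 3994875252) (nat_lit 76) (nat_lit 5153347003) (nat_lit 182) (nat_lit 5) (nat_lit 190) (nat_lit 5) (nat_lit 183) (nat_lit 5) (nat_lit 350) (nat_lit 297) (nat_lit 253)) (XT.lf (nat_lit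 0) (nat_lit 5288057950) (nat_lit 532) (nat_lit 4546826022) (nat_lit 76) (nat_lit 385895650) (nat_lit 176) (nat_lit 5) (nat_lit 183) (nat_lit 5) (nat_lit 177) (nat_lit 5) (nat_lit 351) (nat_lit 297) (nat_lit 252))) (XT.nd (nat_lit 78) (nat_lit 988) (nat_lit 0) (XT.lf (nat_lit 0) (nat_lit 5236096308) (nat_lit 456) (nat_lit 4582948159) (nat_lit 532) (nat_lit 568034089) (nat_lit 170) (nat_lit 5) (nat_lit 176) (nat_lit 5) (nat_lit 177) (nat_lit 5) (nat_lit 352) (nat_lit 297) (nat_lit 251)) (XT.nd (nat_lit 78) (nat_lit 456) (nat_lit 0) (XT.lf (nat_lit 0) (nat_lit 3872933444) (nat_lit 532) (nat_lit 5809670343) (nat_lit 76) (nat_lit 875336623) (nat_lit 163) (nat_lit 5) (nat_lit 170) (nat_lit 5) (nat_lit 164) (nat_lit 5) (nat_lit 353) (nat_lit 297) (nat_lit 250)) (XT.lf (nat_lit 0) (nat_lit 4203119161) (nat_lit 456) (nat_lit 4259861934) (nat_lit 532) (nat_lit 2270420926) (nat_lit 157) (nat_lit 5) (nat_lit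 163) (nat_lit 5) (nat_lit 164) (nat_lit 5) (nat_lit 354) (nat_lit 297) (nat_lit 249))))))) (XT.nd (nat_lit 780) (nat_lit 2888) (nat_lit 0) (XT.nd (nat_lit 390) (nat_lit 1520) (nat_lit 0) (XT.nd (nat_lit 156) (nat_lit 1216) (nat_lit 0) (XT.nd (nat_lit 78) (nat_lit 456) (nat_lit 0) (XT.lf (nat_lit 0) (nat_lit 2250155373) (nat_lit 456) (nat_lit 7306454544) (nat_lit 76) (nat_lit 1357173104) (nat_lit 151) (nat_lit 5) (nat_lit 157) (nat_lit 5) (nat_lit 152) (nat_lit 5) (nat_lit 355) (nat_lit 297) (nat_lit 248)) (XT.lf (nat_lit 0) (nat_lit 2936308100) (nat_lit 456) (nat_lit 3964017854) (nat_lit 532) (nat_lit 4198471703) (nat_lit 145) (nat_lit 5) (nat_lit 151) (nat_lit 5) (nat_lit 152) (nat_lit 5) (nat_lit 356) (nat_lit 297) (nat_lit 247))) (XT.nd (nat_lit 78) (nat_lit 760) (nat_lit 0) (XT.lf (nat_lit 0) (nat_lit 405022198) (nat_lit 456) (nat_lit 9074325654) (nat_lit 76) (nat_lit 1809788013) (nat_lit 139)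 (nat_lit 5) (nat_lit 145) (nat_lit 5) (nat_lit 140) (nat_lit 5) (nat_lit 357) (nat_lit 297) (nat_lit 246)) (XT.nd (nat_lit 78) (nat_lit 380) (nat_lit 0) (XT.lf (nat_lit 0) (nat_lit 1397596101) (nat_lit 380) (nat_lit 3718123287) (nat_lit 456) (nat_lit 6368404396) (nat_lit 134) (nat_lit 5) (nat_lit 139) (nat_lit 5) (nat_lit 140) (nat_lit 5) (nat_lit 358) (nat_lit 297) (nat_lit 245)) (XT.lf (nat_lit 0) (nat_lit 519789288) (nat_lit 380) (nat_lit 9463246421) (nat_lit 456) (nat_lit 1701636551) (nat_lit 129) (nat_lit 5) (nat_lit 134) (nat_lit 5) (nat_lit 135) (nat_lit 5) (nat_lit 359) (nat_lit 297) (nat_lit 244))))) (XT.nd (nat_lit 156) (nat_lit 1064) (nat_lit 0) (XT.nd (nat_lit 78) (nat_lit 380) (nat_lit 0) (XT.lf (nat_lit 0) (nat_lit 3094540028) (nat_lit 456) (nat_lit 448671139) (nat_lit 76) (nat_lit 8347036278) (nat_lit 128) (nat_lit 5) (nat_lit 134) (nat_lit 5) (nat_lit 129) (nat_lit 5) (nat_lit 360)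 (nat_lit 297) (nat_lit 243)) (XT.lf (nat_lit 0) (nat_lit 8035822084) (nat_lit 456) (nat_lit 1494460126) (nat_lit 76) (nat_lit 2571011546) (nat_lit 123) (nat_lit 5) (nat_lit 129) (nat_lit 5) (nat_lit 124) (nat_lit 5) (nat_lit 361) (nat_lit 297) (nat_lit 242))) (XT.nd (nat_lit 78) (nat_lit 684) (nat_lit 0) (XT.lf (nat_lit 0) (nat_lit 825270857) (nat_lit 380) (nat_lit 2631012325) (nat_lit 76) (nat_lit 8861714789) (nat_lit 118) (nat_lit 5) (nat_lit 123) (nat_lit 5) (nat_lit 119) (nat_lit 5) (nat_lit 362) (nat_lit 297) (nat_lit 241)) (XT.nd (nat_lit 78) (nat_lit 304) (nat_lit 0) (XT.lf (nat_lit 0) (nat_lit 5833033346) (nat_lit 456) (nat_lit 3880969359) (nat_lit 76) (nat_lit 2826166939) (nat_lit 113) (nat_lit 5) (nat_lit 119) (nat_lit 5) (nat_lit 114) (nat_lit 5) (nat_lit 363) (nat_lit 297) (nat_lit 240)) (XT.lf (nat_lit 0) (nat_lit 7539916020) (nat_lit 304) (nat_lit 3482167018) (nat_lit 380) (nat_lit 1746316340)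 (nat_lit 109) (nat_lit 5) (nat_lit 113) (nat_lit 5) (nat_lit 114) (nat_lit 5) (nat_lit 364) (nat_lit 297) (nat_lit 239)))))) (XT.nd (nat_lit 390) (nat_lit 1216) (nat_lit 0) (XT.nd (nat_lit 156) (nat_lit 988) (nat_lit 0) (XT.nd (nat_lit 78) (nat_lit 304) (nat_lit 0) (XT.lf (nat_lit 0) (nat_lit 3347976712) (nat_lit 380) (nat_lit 6698314177) (nat_lit 76) (nat_lit 2956186518) (nat_lit 104) (nat_lit 5) (nat_lit 109) (nat_lit 5) (nat_lit 105) (nat_lit 5) (nat_lit 365) (nat_lit 297) (nat_lit 238)) (XT.lf (nat_lit 0) (nat_lit 4951216074) (nat_lit 304) (nat_lit 3654078161) (nat_lit 380) (nat_lit 4637387187) (nat_lit 100) (nat_lit 5) (nat_lit 104) (nat_lit 5) (nat_lit 105) (nat_lit 5) (nat_lit 366) (nat_lit 297) (nat_lit 237))) (XT.nd (nat_lit 78) (nat_lit 608) (nat_lit 0) (XT.lf (nat_lit 0) (nat_lit 554421511) (nat_lit 380) (nat_lit 10003427299) (nat_lit 76) (nat_lit 2931563487) (nat_lit 95) (nat_lit 5) (nat_lit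 100) (nat_lit 5) (nat_lit 96) (nat_lit 5) (nat_lit 367) (nat_lit 297) (nat_lit 236)) (XT.nd (nat_lit 78) (nat_lit 304) (nat_lit 0) (XT.lf (nat_lit 0) (nat_lit 1867730936) (nat_lit 304) (nat_lit 4008995428) (nat_lit 380) (nat_lit 7865462711) (nat_lit 91) (nat_lit 5) (nat_lit 95) (nat_lit 5) (nat_lit 96) (nat_lit 5) (nat_lit 368) (nat_lit 297) (nat_lit 235)) (XT.lf (nat_lit 0) (nat_lit 125967035) (nat_lit 304) (nat_lit 11264662754) (nat_lit 380) (nat_lit 2611292383) (nat_lit 87) (nat_lit 5) (nat_lit 91) (nat_lit 5) (nat_lit 92) (nat_lit 5) (nat_lit 369) (nat_lit 297) (nat_lit 234))))) (XT.nd (nat_lit 156) (nat_lit 912) (nat_lit 0) (XT.nd (nat_lit 78) (nat_lit 228) (nat_lit 0) (XT.lf (nat_lit 0) (nat_lit 2817359489) (nat_lit 380) (nat_lit 1751948378) (nat_lit 76) (nat_lit 9698715075) (nat_lit 86) (nat_lit 5) (nat_lit 91) (nat_lit 5) (nat_lit 87) (nat_lit 5) (nat_lit 370) (nat_lit 297) (nat_lit 233))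 (XT.lf (nat_lit 0) (nat_lit 8406385829) (nat_lit 304) (nat_lit 3782251512) (nat_lit 76) (nat_lit 2352475066) (nat_lit 83) (nat_lit 5) (nat_lit 87) (nat_lit 5) (nat_lit 84) (nat_lit 5) (nat_lit 371) (nat_lit 297) (nat_lit 232))) (XT.nd (nat_lit 78) (nat_lit 608) (nat_lit 0) (XT.lf (nat_lit 0) (nat_lit 8847785723) (nat_lit 304) (nat_lit 5363390298) (nat_lit 380) (nat_lit 610267085) (nat_lit 79) (nat_lit 5) (nat_lit 83) (nat_lit 5) (nat_lit 84) (nat_lit 5) (nat_lit 372) (nat_lit 297) (nat_lit 231)) (XT.nd (nat_lit 78) (nat_lit 304) (nat_lit 0) (XT.lf (nat_lit 0) (nat_lit 5043115669) (nat_lit 304) (nat_lit 8349739545) (nat_lit 76) (nat_lit 1716082505) (nat_lit 75) (nat_lit 5) (nat_lit 79) (nat_lit 5) (nat_lit 76) (nat_lit 5) (nat_lit 373) (nat_lit 297) (nat_lit 230)) (XT.lf (nat_lit 0) (nat_lit 4486985306) (nat_lit 304) (nat_lit 6426130981) (nat_lit 380) (nat_lit 4490763679) (nat_lit 71) (nat_lit 5) (nat_lit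 75) (nat_lit 5) (nat_lit 76) (nat_lit 5) (nat_lit 374) (nat_lit 297) (nat_lit 229))))))))
noncomputable def xc43 : XT := (XT.nd (nat_lit 42042) (nat_lit 0) (nat_lit 22952) (XT.nd (nat_lit 780) (nat_lit 152) (nat_lit 0) (XT.nd (nat_lit 390) (nat_lit 988) (nat_lit 0) (XT.nd (nat_lit 156) (nat_lit 760) (nat_lit 0) (XT.nd (nat_lit 78) (nat_lit 0) (nat_lit 0) (XT.lf (nat_lit 0) (nat_lit 1260702067) (nat_lit 304) (nat_lit 13659828174) (nat_lit 76) (nat_lit 786475482) (nat_lit 67) (nat_lit 5) (nat_lit 71) (nat_lit 5) (nat_lit 68) (nat_lit 5) (nat_lit 375) (nat_lit 297) (nat_lit 228)) (XT.lf (nat_lit 0) (nat_lit 7192319522) (nat_lit 304) (nat_lit 623605666) (nat_lit 76) (nat_lit 8201342887) (nat_lit 67) (nat_lit 5) (nat_lit 71) (nat_lit 5) (nat_lit 68) (nat_lit 5) (nat_lit 376) (nat_lit 297) (nat_lit 227))) (XT.nd (nat_lit 78) (nat_lit 532) (nat_lit 0) (XT.lf (nat_lit 0) (nat_lit 12893219809) (nat_lit 228)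 (nat_lit 444640331) (nat_lit 304) (nat_lit 2998267298) (nat_lit 64) (nat_lit 5) (nat_lit 67) (nat_lit 5) (nat_lit 68) (nat_lit 5) (nat_lit 377) (nat_lit 297) (nat_lit 226)) (XT.nd (nat_lit 78) (nat_lit 228) (nat_lit 0) (XT.lf (nat_lit 0) (nat_lit 3033896791) (nat_lit 304) (nat_lit 6515628899) (nat_lit 76) (nat_lit 7113243730) (nat_lit 60) (nat_lit 5) (nat_lit 64) (nat_lit 5) (nat_lit 61) (nat_lit 5) (nat_lit 378) (nat_lit 297) (nat_lit 225)) (XT.lf (nat_lit 0) (nat_lit 7185964863) (nat_lit 228) (nat_lit 2047165924) (nat_lit 304) (nat_lit 7765154688) (nat_lit 57) (nat_lit 5) (nat_lit 60) (nat_lit 5) (nat_lit 61) (nat_lit 5) (nat_lit 379) (nat_lit 297) (nat_lit 224))))) (XT.nd (nat_lit 156) (nat_lit 456) (nat_lit 0) (XT.nd (nat_lit 78) (nat_lit 304) (nat_lit 0) (XT.lf (nat_lit 0) (nat_lit 3982042386) (nat_lit 228) (nat_lit 11697620837) (nat_lit 304) (nat_lit 1662985104) (nat_lit 54) (nat_lit 5) (nat_lit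 57) (nat_lit 5) (nat_lit 58) (nat_lit 5) (nat_lit 380) (nat_lit 297) (nat_lit 223)) (XT.lf (nat_lit 0) (nat_lit 513969102) (nat_lit 228) (nat_lit 4086293868) (nat_lit 304) (nat_lit 13095713555) (nat_lit 50) (nat_lit 5) (nat_lit 53) (nat_lit 5) (nat_lit 54) (nat_lit 5) (nat_lit 381) (nat_lit 297) (nat_lit 222))) (XT.nd (nat_lit 78) (nat_lit 456) (nat_lit 0) (XT.lf (nat_lit 0) (nat_lit 11099747696) (nat_lit 304) (nat_lit 3183128582) (nat_lit 76) (nat_lit 3775396947) (nat_lit 50) (nat_lit 5) (nat_lit 54) (nat_lit 5) (nat_lit 51) (nat_lit 5) (nat_lit 382) (nat_lit 297) (nat_lit 221)) (XT.nd (nat_lit 78) (nat_lit 304) (nat_lit 0) (XT.lf (nat_lit 0) (nat_lit 11281978111) (nat_lit 152) (nat_lit 6569416979) (nat_lit 228) (nat_lit 578907123) (nat_lit 48) (nat_lit 5) (nat_lit 50) (nat_lit 5) (nat_lit 51) (nat_lit 5) (nat_lit 383) (nat_lit 297) (nat_lit 220)) (XT.lf (nat_lit 0) (nat_lit 5949793996) (nat_lit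 304) (nat_lit 11425882714) (nat_lit 76) (nat_lit 1436318250) (nat_lit 44) (nat_lit 5) (nat_lit 48) (nat_lit 5) (nat_lit 45) (nat_lit 5) (nat_lit 384) (nat_lit 297) (nat_lit 219)))))) (XT.nd (nat_lit 40872) (nat_lit 0) (nat_lit 44992) (XT.nd (nat_lit 40638) (nat_lit 0) (nat_lit 47500) (XT.nd (nat_lit 40560) (nat_lit 0) (nat_lit 48564) (XT.lf (nat_lit 0) (nat_lit 3170514777) (nat_lit 152) (nat_lit 9566981081) (nat_lit 228) (nat_lit 6466152425) (nat_lit 42) (nat_lit 5) (nat_lit 44) (nat_lit 5) (nat_lit 45) (nat_lit 5) (nat_lit 385) (nat_lit 297) (nat_lit 218)) (XT.lf (nat_lit 0) (nat_lit 1597520138) (nat_lit 228) (nat_lit 34762041) (nat_lit 0) (nat_lit 1597520138) (nat_lit 681) (nat_lit 5) (nat_lit 684) (nat_lit 4) (nat_lit 681) (nat_lit 4) (nat_lit 304) (nat_lit 298) (nat_lit 298))) (XT.nd (nat_lit 78) (nat_lit 760) (nat_lit 0) (XT.lf (nat_lit 0) (nat_lit 1337824947) (nat_lit 304) (nat_lit 1459303191)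 (nat_lit 76) (nat_lit 3672590343) (nat_lit 677) (nat_lit 5) (nat_lit 681) (nat_lit 5) (nat_lit 678) (nat_lit 4) (nat_lit 305) (nat_lit 298) (nat_lit 297)) (XT.nd (nat_lit 78) (nat_lit 456) (nat_lit 0) (XT.lf (nat_lit 0) (nat_lit 3689325345) (nat_lit 304) (nat_lit 2197570533) (nat_lit 380) (nat_lit 595883061) (nat_lit 673) (nat_lit 5) (nat_lit 677) (nat_lit 5) (nat_lit 678) (nat_lit 4) (nat_lit 306) (nat_lit 298) (nat_lit 296)) (XT.lf (nat_lit 0) (nat_lit 2420025613) (nat_lit 380) (nat_lit 1459791349) (nat_lit 456) (nat_lit 2618871120) (nat_lit 667) (nat_lit 5) (nat_lit 672) (nat_lit 5) (nat_lit 673) (nat_lit 5) (nat_lit 307) (nat_lit 298) (nat_lit 295))))) (XT.nd (nat_lit 156) (nat_lit 1444) (nat_lit 0) (XT.nd (nat_lit 78) (nat_lit 532) (nat_lit 0) (XT.lf (nat_lit 0) (nat_lit 1210258854) (nat_lit 456) (nat_lit 592031007) (nat_lit 532) (nat_lit 4715344165) (nat_lit 660) (nat_lit 5) (nat_lit 666) (nat_lit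 5) (nat_lit 667) (nat_lit 5) (nat_lit 308) (nat_lit 298) (nat_lit 294)) (XT.lf (nat_lit 0) (nat_lit 53838688) (nat_lit 532) (nat_lit 6136017860) (nat_lit 608) (nat_lit 349676452) (nat_lit 653) (nat_lit 5) (nat_lit 660) (nat_lit 5) (nat_lit 661) (nat_lit 5) (nat_lit 309) (nat_lit 298) (nat_lit 293))) (XT.nd (nat_lit 78) (nat_lit 1368) (nat_lit 0) (XT.lf (nat_lit 0) (nat_lit 3974623281) (nat_lit 608) (nat_lit 1048769268) (nat_lit 76) (nat_lit 1540629106) (nat_lit 652) (nat_lit 5) (nat_lit 660) (nat_lit 5) (nat_lit 653) (nat_lit 5) (nat_lit 310) (nat_lit 298) (nat_lit 292)) (XT.nd (nat_lit 78) (nat_lit 684) (nat_lit 0) (XT.lf (nat_lit 0) (nat_lit 1685488168) (nat_lit 684) (nat_lit 2096617052) (nat_lit 76) (nat_lit 2809465122) (nat_lit 643) (nat_lit 5) (nat_lit 652) (nat_lit 5) (nat_lit 644) (nat_lit 5) (nat_lit 311) (nat_lit 298) (nat_lit 291)) (XT.lf (nat_lit 0) (nat_lit 3526204907) (nat_lit 684) (nat_lit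 2406704409) (nat_lit 760) (nat_lit 689208195) (nat_lit 634) (nat_lit 5) (nat_lit 643) (nat_lit 5) (nat_lit 644) (nat_lit 5) (nat_lit 312) (nat_lit 298) (nat_lit 290))))))) (XT.nd (nat_lit 780) (nat_lit 12008) (nat_lit 0) (XT.nd (nat_lit 390) (nat_lit 6308) (nat_lit 0) (XT.nd (nat_lit 156) (nat_lit 1976) (nat_lit 0) (XT.nd (nat_lit 78) (nat_lit 912) (nat_lit 0) (XT.lf (nat_lit 0) (nat_lit 2600776677) (nat_lit 760) (nat_lit 888542163) (nat_lit 836) (nat_lit 3166225009) (nat_lit 623) (nat_lit 5) (nat_lit 633) (nat_lit 5) (nat_lit 634) (nat_lit 5) (nat_lit 313) (nat_lit 298) (nat_lit 289)) (XT.lf (nat_lit 0) (nat_lit 971419055) (nat_lit 912) (nat_lit 4967990485) (nat_lit 76) (nat_lit 752588011) (nat_lit 611) (nat_lit 5) (nat_lit 623) (nat_lit 5) (nat_lit 612) (nat_lit 5) (nat_lit 314) (nat_lit 298) (nat_lit 288))) (XT.nd (nat_lit 78) (nat_lit 1064) (nat_lit 0) (XT.lf (nat_lit 0) (nat_lit 882414327) (nat_lit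 912) (nat_lit 4205672169) (nat_lit 988) (nat_lit 1643172791) (nat_lit 599) (nat_lit 5) (nat_lit 611) (nat_lit 5) (nat_lit 612) (nat_lit 5) (nat_lit 315) (nat_lit 298) (nat_lit 287)) (XT.nd (nat_lit 78) (nat_lit 0) (nat_lit 0) (XT.lf (nat_lit 0) (nat_lit 84845880) (nat_lit 988) (nat_lit 2333409737) (nat_lit 1064) (nat_lit 4355293493) (nat_lit 585) (nat_lit 5) (nat_lit 598) (nat_lit 5) (nat_lit 599) (nat_lit 5) (nat_lit 316) (nat_lit 298) (nat_lit 286)) (XT.lf (nat_lit 0) (nat_lit 6162418769) (nat_lit 988) (nat_lit 320649650) (nat_lit 1064) (nat_lit 335828954) (nat_lit 585) (nat_lit 5) (nat_lit 598) (nat_lit 5) (nat_lit 599) (nat_lit 5) (nat_lit 317) (nat_lit 298) (nat_lit 285))))) (XT.nd (nat_lit 156) (nat_lit 3952) (nat_lit 0) (XT.nd (nat_lit 78) (nat_lit 1216) (nat_lit 0) (XT.lf (nat_lit 0) (nat_lit 3669209410) (nat_lit 1140) (nat_lit 1376834621) (nat_lit 76) (nat_lit 1820850634) (nat_lit 570) (nat_lit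 5) (nat_lit 585) (nat_lit 5) (nat_lit 571) (nat_lit 5) (nat_lit 318) (nat_lit 298) (nat_lit 284)) (XT.lf (nat_lit 0) (nat_lit 770267262) (nat_lit 1216) (nat_lit 2053170566) (nat_lit 76) (nat_lit 4094649078) (nat_lit 554) (nat_lit 5) (nat_lit 570) (nat_lit 5) (nat_lit 555) (nat_lit 5) (nat_lit 319) (nat_lit 298) (nat_lit 283))) (XT.nd (nat_lit 78) (nat_lit 2736) (nat_lit 0) (XT.lf (nat_lit 0) (nat_lit 4273542918) (nat_lit 1216) (nat_lit 450444582) (nat_lit 1292) (nat_lit 2248275359) (nat_lit 538) (nat_lit 5) (nat_lit 554) (nat_lit 5) (nat_lit 555) (nat_lit 5) (nat_lit 320) (nat_lit 298) (nat_lit 282)) (XT.nd (nat_lit 78) (nat_lit 1368) (nat_lit 0) (XT.lf (nat_lit 0) (nat_lit 1671605659) (nat_lit 1368) (nat_lit 3318663704) (nat_lit 76) (nat_lit 2039104856) (nat_lit 520) (nat_lit 5) (nat_lit 538) (nat_lit 5) (nat_lit 521) (nat_lit 5) (nat_lit 321) (nat_lit 298) (nat_lit 281)) (XT.lf (nat_lit 0) (nat_lit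 3180856756) (nat_lit 1368) (nat_lit 2417984260) (nat_lit 1444) (nat_lit 1490723132) (nat_lit 502) (nat_lit 5) (nat_lit 520) (nat_lit 5) (nat_lit 521) (nat_lit 5) (nat_lit 322) (nat_lit 298) (nat_lit 280)))))) (XT.nd (nat_lit 390) (nat_lit 3800) (nat_lit 0) (XT.nd (nat_lit 156) (nat_lit 5168) (nat_lit 0) (XT.nd (nat_lit 78) (nat_lit 1520) (nat_lit 0) (XT.lf (nat_lit 0) (nat_lit 2381777536) (nat_lit 1520) (nat_lit 4470512606) (nat_lit 76) (nat_lit 300568586) (nat_lit 482) (nat_lit 5) (nat_lit 502) (nat_lit 5) (nat_lit 483) (nat_lit 5) (nat_lit 323) (nat_lit 298) (nat_lit 279)) (XT.lf (nat_lit 0) (nat_lit 2204711826) (nat_lit 1520) (nat_lit 4085760110) (nat_lit 1596) (nat_lit 928641013) (nat_lit 462) (nat_lit 5) (nat_lit 482) (nat_lit 5) (nat_lit 483) (nat_lit 5) (nat_lit 324) (nat_lit 298) (nat_lit 278))) (XT.nd (nat_lit 78) (nat_lit 3496) (nat_lit 0) (XT.lf (nat_lit 0) (nat_lit 1752872497) (nat_lit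 1596) (nat_lit 1163277300) (nat_lit 1672) (nat_lit 4372335847) (nat_lit 440) (nat_lit 5) (nat_lit 461) (nat_lit 5) (nat_lit 462) (nat_lit 5) (nat_lit 325) (nat_lit 298) (nat_lit 277)) (XT.nd (nat_lit 78) (nat_lit 1824) (nat_lit 0) (XT.lf (nat_lit 0) (nat_lit 1325955096) (nat_lit 1672) (nat_lit 5480259518) (nat_lit 1748) (nat_lit 554809711) (nat_lit 418) (nat_lit 5) (nat_lit 440) (nat_lit 5) (nat_lit 441) (nat_lit 5) (nat_lit 326) (nat_lit 298) (nat_lit 276)) (XT.lf (nat_lit 0) (nat_lit 910780927) (nat_lit 1748) (nat_lit 2363105759) (nat_lit 1824) (nat_lit 4162650876) (nat_lit 394) (nat_lit 5) (nat_lit 417) (nat_lit 5) (nat_lit 418) (nat_lit 5) (nat_lit 327) (nat_lit 298) (nat_lit 275))))) (XT.nd (nat_lit 156) (nat_lit 1748) (nat_lit 0) (XT.nd (nat_lit 78) (nat_lit 988) (nat_lit 0) (XT.lf (nat_lit 0) (nat_lit 525632089) (nat_lit 1064) (nat_lit 6626458515) (nat_lit 1140) (nat_lit 363362628) (nat_lit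 380) (nat_lit 5) (nat_lit 394) (nat_lit 5) (nat_lit 395) (nat_lit 5) (nat_lit 328) (nat_lit 298) (nat_lit 274)) (XT.lf (nat_lit 0) (nat_lit 139075756) (nat_lit 912) (nat_lit 3319266931) (nat_lit 988) (nat_lit 4138884265) (nat_lit 367) (nat_lit 5) (nat_lit 379) (nat_lit 5) (nat_lit 380) (nat_lit 5) (nat_lit 329) (nat_lit 298) (nat_lit 273))) (XT.nd (nat_lit 78) (nat_lit 1748) (nat_lit 0) (XT.lf (nat_lit 0) (nat_lit 7334230163) (nat_lit 988) (nat_lit 212350064) (nat_lit 76) (nat_lit 135986233) (nat_lit 367) (nat_lit 5) (nat_lit 380) (nat_lit 5) (nat_lit 368) (nat_lit 5) (nat_lit 330) (nat_lit 298) (nat_lit 272)) (XT.nd (nat_lit 78) (nat_lit 836) (nat_lit 0) (XT.lf (nat_lit 0) (nat_lit 3477328714) (nat_lit 912) (nat_lit 573664425) (nat_lit 76) (nat_lit 3719698082) (nat_lit 355) (nat_lit 5) (nat_lit 367) (nat_lit 5) (nat_lit 356) (nat_lit 5) (nat_lit 331) (nat_lit 298) (nat_lit 271)) (XT.lf (nat_lit 0)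 (nat_lit 6956399506) (nat_lit 836) (nat_lit 404069870) (nat_lit 912) (nat_lit 502041708) (nat_lit 344) (nat_lit 5) (nat_lit 355) (nat_lit 5) (nat_lit 356) (nat_lit 5) (nat_lit 332) (nat_lit 298) (nat_lit 270))))))))
noncomputable def xc44 : XT := (XT.nd (nat_lit 1560) (nat_lit 6916) (nat_lit 0) (XT.nd (nat_lit 780) (nat_lit 5624) (nat_lit 0) (XT.nd (nat_lit 390) (nat_lit 3496) (nat_lit 0) (XT.nd (nat_lit 156) (nat_lit 2356) (nat_lit 0) (XT.nd (nat_lit 78) (nat_lit 836) (nat_lit 0) (XT.lf (nat_lit 0) (nat_lit 3330517319) (nat_lit 912) (nat_lit 1252902870) (nat_lit 76) (nat_lit 3373824816) (nat_lit 332) (nat_lit 5) (nat_lit 344) (nat_lit 5) (nat_lit 333) (nat_lit 5) (nat_lit 333) (nat_lit 298) (nat_lit 269)) (XT.lf (nat_lit 0) (nat_lit 6477071238) (nat_lit 836) (nat_lit 749637753) (nat_lit 912) (nat_lit 828978721) (nat_lit 321) (nat_lit 5) (nat_lit 332) (nat_lit 5) (nat_lit 333) (nat_lit 5) (nat_lit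 334) (nat_lit 298) (nat_lit 268))) (XT.nd (nat_lit 78) (nat_lit 1520) (nat_lit 0) (XT.lf (nat_lit 0) (nat_lit 3018600802) (nat_lit 836) (nat_lit 1919816713) (nat_lit 76) (nat_lit 3218779937) (nat_lit 310) (nat_lit 5) (nat_lit 321) (nat_lit 5) (nat_lit 311) (nat_lit 5) (nat_lit 335) (nat_lit 298) (nat_lit 267)) (XT.nd (nat_lit 78) (nat_lit 760) (nat_lit 0) (XT.lf (nat_lit 0) (nat_lit 6013791165) (nat_lit 760) (nat_lit 919443241) (nat_lit 836) (nat_lit 1329190135) (nat_lit 300) (nat_lit 5) (nat_lit 310) (nat_lit 5) (nat_lit 311) (nat_lit 5) (nat_lit 336) (nat_lit 298) (nat_lit 266)) (XT.lf (nat_lit 0) (nat_lit 2541884376) (nat_lit 760) (nat_lit 2594296706) (nat_lit 76) (nat_lit 3234699727) (nat_lit 290) (nat_lit 5) (nat_lit 300) (nat_lit 5) (nat_lit 291) (nat_lit 5) (nat_lit 337) (nat_lit 298) (nat_lit 265))))) (XT.nd (nat_lit 156) (nat_lit 1976) (nat_lit 0) (XT.nd (nat_lit 78) (nat_lit 760) (nat_lit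 0) (XT.lf (nat_lit 0) (nat_lit 5546617909) (nat_lit 760) (nat_lit 933319470) (nat_lit 836) (nat_lit 2003136014) (nat_lit 280) (nat_lit 5) (nat_lit 290) (nat_lit 5) (nat_lit 291) (nat_lit 5) (nat_lit 338) (nat_lit 298) (nat_lit 264)) (XT.lf (nat_lit 0) (nat_lit 1899364654) (nat_lit 760) (nat_lit 3296954116) (nat_lit 76) (nat_lit 3402350576) (nat_lit 270) (nat_lit 5) (nat_lit 280) (nat_lit 5) (nat_lit 271) (nat_lit 5) (nat_lit 339) (nat_lit 298) (nat_lit 263))) (XT.nd (nat_lit 78) (nat_lit 1292) (nat_lit 0) (XT.lf (nat_lit 0) (nat_lit 5054834447) (nat_lit 684) (nat_lit 810564027) (nat_lit 760) (nat_lit 2852630107) (nat_lit 261) (nat_lit 5) (nat_lit 270) (nat_lit 5) (nat_lit 271) (nat_lit 5) (nat_lit 340) (nat_lit 298) (nat_lit 262)) (XT.nd (nat_lit 78) (nat_lit 608) (nat_lit 0) (XT.lf (nat_lit 0) (nat_lit 1088700542) (nat_lit 684) (nat_lit 4049313425) (nat_lit 76) (nat_lit 3702966487) (nat_lit 252)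 (nat_lit 5) (nat_lit 261) (nat_lit 5) (nat_lit 253) (nat_lit 5) (nat_lit 341) (nat_lit 298) (nat_lit 261)) (XT.lf (nat_lit 0) (nat_lit 4516750429) (nat_lit 608) (nat_lit 570102990) (nat_lit 684) (nat_lit 3880874698) (nat_lit 244) (nat_lit 5) (nat_lit 252) (nat_lit 5) (nat_lit 253) (nat_lit 5) (nat_lit 342) (nat_lit 298) (nat_lit 260)))))) (XT.nd (nat_lit 390) (nat_lit 2584) (nat_lit 0) (XT.nd (nat_lit 156) (nat_lit 1748) (nat_lit 0) (XT.nd (nat_lit 78) (nat_lit 608) (nat_lit 0) (XT.lf (nat_lit 0) (nat_lit 106173113) (nat_lit 684) (nat_lit 4874016573) (nat_lit 76) (nat_lit 4118086304) (nat_lit 235) (nat_lit 5) (nat_lit 244) (nat_lit 5) (nat_lit 236) (nat_lit 5) (nat_lit 343) (nat_lit 298) (nat_lit 259)) (XT.lf (nat_lit 0) (nat_lit 3909492241) (nat_lit 608) (nat_lit 230656003) (nat_lit 684) (nat_lit 5092506927) (nat_lit 227) (nat_lit 5) (nat_lit 235) (nat_lit 5) (nat_lit 236) (nat_lit 5) (nat_lit 344)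 (nat_lit 298) (nat_lit 258))) (XT.nd (nat_lit 78) (nat_lit 1216) (nat_lit 0) (XT.lf (nat_lit 0) (nat_lit 3568954632) (nat_lit 532) (nat_lit 4734605928) (nat_lit 608) (nat_lit 1067364730) (nat_lit 220) (nat_lit 5) (nat_lit 227) (nat_lit 5) (nat_lit 228) (nat_lit 5) (nat_lit 345) (nat_lit 298) (nat_lit 257)) (XT.nd (nat_lit 78) (nat_lit 532) (nat_lit 0) (XT.lf (nat_lit 0) (nat_lit 3020910391) (nat_lit 684) (nat_lit 6305788639) (nat_lit 76) (nat_lit 186616216) (nat_lit 211) (nat_lit 5) (nat_lit 220) (nat_lit 5) (nat_lit 212) (nat_lit 5) (nat_lit 346) (nat_lit 298) (nat_lit 256)) (XT.lf (nat_lit 0) (nat_lit 2805887084) (nat_lit 532) (nat_lit 4425289928) (nat_lit 608) (nat_lit 2428407694) (nat_lit 204) (nat_lit 5) (nat_lit 211) (nat_lit 5) (nat_lit 212) (nat_lit 5) (nat_lit 347) (nat_lit 298) (nat_lit 255))))) (XT.nd (nat_lit 156) (nat_lit 1520) (nat_lit 0) (XT.nd (nat_lit 78) (nat_lit 456) (nat_lit 0)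 (XT.lf (nat_lit 0) (nat_lit 1722693225) (nat_lit 608) (nat_lit 7426031545) (nat_lit 76) (nat_lit 661549143) (nat_lit 196) (nat_lit 5) (nat_lit 204) (nat_lit 5) (nat_lit 197) (nat_lit 5) (nat_lit 348) (nat_lit 298) (nat_lit 254)) (XT.lf (nat_lit 0) (nat_lit 1908956119) (nat_lit 456) (nat_lit 4072051297) (nat_lit 532) (nat_lit 3983865734) (nat_lit 190) (nat_lit 5) (nat_lit 196) (nat_lit 5) (nat_lit 197) (nat_lit 5) (nat_lit 349) (nat_lit 298) (nat_lit 253))) (XT.nd (nat_lit 78) (nat_lit 912) (nat_lit 0) (XT.lf (nat_lit 0) (nat_lit 235161553) (nat_lit 608) (nat_lit 8710735330) (nat_lit 76) (nat_lit 1178296880) (nat_lit 182) (nat_lit 5) (nat_lit 190) (nat_lit 5) (nat_lit 183) (nat_lit 5) (nat_lit 350) (nat_lit 298) (nat_lit 252)) (XT.nd (nat_lit 78) (nat_lit 456) (nat_lit 0) (XT.lf (nat_lit 0) (nat_lit 849300687) (nat_lit 456) (nat_lit 3694404830) (nat_lit 532) (nat_lit 5743742424) (nat_lit 176) (nat_lit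 5) (nat_lit 182) (nat_lit 5) (nat_lit 183) (nat_lit 5) (nat_lit 351) (nat_lit 298) (nat_lit 251)) (XT.lf (nat_lit 0) (nat_lit 255537963) (nat_lit 456) (nat_lit 8728513340) (nat_lit 532) (nat_lit 1471518925) (nat_lit 170) (nat_lit 5) (nat_lit 176) (nat_lit 5) (nat_lit 177) (nat_lit 5) (nat_lit 352) (nat_lit 298) (nat_lit 250))))))) (XT.nd (nat_lit 780) (nat_lit 3040) (nat_lit 0) (XT.nd (nat_lit 390) (nat_lit 1976) (nat_lit 0) (XT.nd (nat_lit 156) (nat_lit 1368) (nat_lit 0) (XT.nd (nat_lit 78) (nat_lit 456) (nat_lit 0) (XT.lf (nat_lit 0) (nat_lit 2910815796) (nat_lit 532) (nat_lit 398976929) (nat_lit 76) (nat_lit 7318176352) (nat_lit 169) (nat_lit 5) (nat_lit 176) (nat_lit 5) (nat_lit 170) (nat_lit 5) (nat_lit 353) (nat_lit 298) (nat_lit 249)) (XT.lf (nat_lit 0) (nat_lit 7416179687) (nat_lit 532) (nat_lit 1100527271) (nat_lit 76) (nat_lit 2288427143) (nat_lit 163) (nat_lit 5) (nat_lit 170) (nat_lit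 5) (nat_lit 164) (nat_lit 5) (nat_lit 354) (nat_lit 298) (nat_lit 248))) (XT.nd (nat_lit 78) (nat_lit 836) (nat_lit 0) (XT.lf (nat_lit 0) (nat_lit 1073772466) (nat_lit 532) (nat_lit 1860907561) (nat_lit 76) (nat_lit 8052439972) (nat_lit 156) (nat_lit 5) (nat_lit 163) (nat_lit 5) (nat_lit 157) (nat_lit 5) (nat_lit 355) (nat_lit 298) (nat_lit 247)) (XT.nd (nat_lit 78) (nat_lit 456) (nat_lit 0) (XT.lf (nat_lit 0) (nat_lit 5641242413) (nat_lit 456) (nat_lit 2696486906) (nat_lit 76) (nat_lit 2836068329) (nat_lit 151) (nat_lit 5) (nat_lit 157) (nat_lit 5) (nat_lit 152) (nat_lit 5) (nat_lit 356) (nat_lit 298) (nat_lit 246)) (XT.lf (nat_lit 0) (nat_lit 7775211213) (nat_lit 456) (nat_lit 2589748963) (nat_lit 532) (nat_lit 1000748712) (nat_lit 145) (nat_lit 5) (nat_lit 151) (nat_lit 5) (nat_lit 152) (nat_lit 5) (nat_lit 357) (nat_lit 298) (nat_lit 245))))) (XT.nd (nat_lit 156) (nat_lit 1140) (nat_lit 0) (XT.nd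 (nat_lit 78) (nat_lit 380) (nat_lit 0) (XT.lf (nat_lit 0) (nat_lit 3642105945) (nat_lit 456) (nat_lit 4573659765) (nat_lit 76) (nat_lit 3346688715) (nat_lit 139) (nat_lit 5) (nat_lit 145) (nat_lit 5) (nat_lit 140) (nat_lit 5) (nat_lit 358) (nat_lit 298) (nat_lit 244)) (XT.lf (nat_lit 0) (nat_lit 6134985080) (nat_lit 380) (nat_lit 2295694929) (nat_lit 456) (nat_lit 3333905811) (nat_lit 134) (nat_lit 5) (nat_lit 139) (nat_lit 5) (nat_lit 140) (nat_lit 5) (nat_lit 359) (nat_lit 298) (nat_lit 243))) (XT.nd (nat_lit 78) (nat_lit 684) (nat_lit 0) (XT.lf (nat_lit 0) (nat_lit 1401103684) (nat_lit 456) (nat_lit 6773544126) (nat_lit 76) (nat_lit 3797384328) (nat_lit 128) (nat_lit 5) (nat_lit 134) (nat_lit 5) (nat_lit 129) (nat_lit 5) (nat_lit 360) (nat_lit 298) (nat_lit 242)) (XT.nd (nat_lit 78) (nat_lit 304) (nat_lit 0) (XT.lf (nat_lit 0) (nat_lit 4170139238) (nat_lit 380) (nat_lit 2083926423) (nat_lit 456)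 (nat_lit 5930786653) (nat_lit 123) (nat_lit 5) (nat_lit 128) (nat_lit 5) (nat_lit 129) (nat_lit 5) (nat_lit 361) (nat_lit 298) (nat_lit 241)) (XT.lf (nat_lit 0) (nat_lit 3054544080) (nat_lit 304) (nat_lit 8232393233) (nat_lit 380) (nat_lit 1116448069) (nat_lit 119) (nat_lit 5) (nat_lit 123) (nat_lit 5) (nat_lit 124) (nat_lit 5) (nat_lit 362) (nat_lit 298) (nat_lit 240)))))) (XT.nd (nat_lit 390) (nat_lit 1596) (nat_lit 0) (XT.nd (nat_lit 156) (nat_lit 684) (nat_lit 0) (XT.nd (nat_lit 78) (nat_lit 304) (nat_lit 0) (XT.lf (nat_lit 0) (nat_lit 1833952827) (nat_lit 380) (nat_lit 1980318537) (nat_lit 456) (nat_lit 8813271271) (nat_lit 113) (nat_lit 5) (nat_lit 118) (nat_lit 5) (nat_lit 119) (nat_lit 5) (nat_lit 363) (nat_lit 298) (nat_lit 239)) (XT.lf (nat_lit 0) (nat_lit 504250679) (nat_lit 304) (nat_lit 8412334177) (nat_lit 380) (nat_lit 3940928932) (nat_lit 109) (nat_lit 5) (nat_lit 113) (nat_lit 5)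 (nat_lit 114) (nat_lit 5) (nat_lit 364) (nat_lit 298) (nat_lit 238))) (XT.nd (nat_lit 78) (nat_lit 608) (nat_lit 0) (XT.lf (nat_lit 0) (nat_lit 1093793283) (nat_lit 380) (nat_lit 912767498) (nat_lit 76) (nat_lit 11087089455) (nat_lit 108) (nat_lit 5) (nat_lit 113) (nat_lit 5) (nat_lit 109) (nat_lit 5) (nat_lit 365) (nat_lit 298) (nat_lit 237)) (XT.nd (nat_lit 78) (nat_lit 304) (nat_lit 0) (XT.lf (nat_lit 0) (nat_lit 6272481359) (nat_lit 380) (nat_lit 2464053933) (nat_lit 76) (nat_lit 4598897736) (nat_lit 104) (nat_lit 5) (nat_lit 109) (nat_lit 5) (nat_lit 105) (nat_lit 5) (nat_lit 366) (nat_lit 298) (nat_lit 236)) (XT.lf (nat_lit 0) (nat_lit 9463006218) (nat_lit 304) (nat_lit 2170586996) (nat_lit 380) (nat_lit 1950347019) (nat_lit 100) (nat_lit 5) (nat_lit 104) (nat_lit 5) (nat_lit 105) (nat_lit 5) (nat_lit 367) (nat_lit 298) (nat_lit 235))))) (XT.nd (nat_lit 156) (nat_lit 912) (nat_lit 0) (XT.nd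 (nat_lit 78) (nat_lit 304) (nat_lit 0) (XT.lf (nat_lit 0) (nat_lit 3317371086) (nat_lit 380) (nat_lit 5929041922) (nat_lit 76) (nat_lit 4592166295) (nat_lit 95) (nat_lit 5) (nat_lit 100) (nat_lit 5) (nat_lit 96) (nat_lit 5) (nat_lit 368) (nat_lit 298) (nat_lit 234)) (XT.lf (nat_lit 0) (nat_lit 6227280186) (nat_lit 304) (nat_lit 2520016374) (nat_lit 380) (nat_lit 5352700950) (nat_lit 91) (nat_lit 5) (nat_lit 95) (nat_lit 5) (nat_lit 96) (nat_lit 5) (nat_lit 369) (nat_lit 298) (nat_lit 233))) (XT.nd (nat_lit 78) (nat_lit 532) (nat_lit 0) (XT.lf (nat_lit 0) (nat_lit 17473628) (nat_lit 380) (nat_lit 9961726585) (nat_lit 76) (nat_lit 4389147959) (nat_lit 86) (nat_lit 5) (nat_lit 91) (nat_lit 5) (nat_lit 87) (nat_lit 5) (nat_lit 370) (nat_lit 298) (nat_lit 232)) (XT.nd (nat_lit 78) (nat_lit 304) (nat_lit 0) (XT.lf (nat_lit 0) (nat_lit 2414582540) (nat_lit 228) (nat_lit 3096984307) (nat_lit 304) (nat_lit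 9131774581) (nat_lit 83) (nat_lit 5) (nat_lit 86) (nat_lit 5) (nat_lit 87) (nat_lit 5) (nat_lit 371) (nat_lit 298) (nat_lit 231)) (XT.lf (nat_lit 0) (nat_lit 268483730) (nat_lit 304) (nat_lit 10947260401) (nat_lit 380) (nat_lit 3709945234) (nat_lit 79) (nat_lit 5) (nat_lit 83) (nat_lit 5) (nat_lit 84) (nat_lit 5) (nat_lit 372) (nat_lit 298) (nat_lit 230))))))))
noncomputable def xc45 : XT := (XT.nd (nat_lit 41886) (nat_lit 0) (nat_lit 26524) (XT.nd (nat_lit 780) (nat_lit 456) (nat_lit 0) (XT.nd (nat_lit 390) (nat_lit 1064) (nat_lit 0) (XT.nd (nat_lit 156) (nat_lit 836) (nat_lit 0) (XT.nd (nat_lit 78) (nat_lit 228) (nat_lit 0) (XT.lf (nat_lit 0) (nat_lit 1904336177) (nat_lit 380) (nat_lit 2021566648) (nat_lit 76) (nat_lit 11289283480) (nat_lit 78) (nat_lit 5) (nat_lit 83) (nat_lit 5) (nat_lit 79) (nat_lit 5) (nat_lit 373) (nat_lit 298) (nat_lit 229)) (XT.lf (nat_lit 0) (nat_lit 7682180797) (nat_lit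 304) (nat_lit 4500223942) (nat_lit 76) (nat_lit 3329571535) (nat_lit 75) (nat_lit 5) (nat_lit 79) (nat_lit 5) (nat_lit 76) (nat_lit 5) (nat_lit 374) (nat_lit 298) (nat_lit 228))) (XT.nd (nat_lit 78) (nat_lit 532) (nat_lit 0) (XT.lf (nat_lit 0) (nat_lit 8655084900) (nat_lit 304) (nat_lit 5026925258) (nat_lit 380) (nat_lit 2134695865) (nat_lit 71) (nat_lit 5) (nat_lit 75) (nat_lit 5) (nat_lit 76) (nat_lit 5) (nat_lit 375) (nat_lit 298) (nat_lit 227)) (XT.nd (nat_lit 78) (nat_lit 228) (nat_lit 0) (XT.lf (nat_lit 0) (nat_lit 3721336808) (nat_lit 304) (nat_lit 10030613383) (nat_lit 76) (nat_lit 2377371269) (nat_lit 67) (nat_lit 5) (nat_lit 71) (nat_lit 5) (nat_lit 68) (nat_lit 5) (nat_lit 376) (nat_lit 298) (nat_lit 226)) (XT.lf (nat_lit 0) (nat_lit 3322631653) (nat_lit 228) (nat_lit 6459276472) (nat_lit 304) (nat_lit 6667976211) (nat_lit 64) (nat_lit 5) (nat_lit 67) (nat_lit 5) (nat_lit 68) (nat_lit 5)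 (nat_lit 377) (nat_lit 298) (nat_lit 225))))) (XT.nd (nat_lit 156) (nat_lit 760) (nat_lit 0) (XT.nd (nat_lit 78) (nat_lit 76) (nat_lit 0) (XT.lf (nat_lit 0) (nat_lit 355724786) (nat_lit 228) (nat_lit 15700445506) (nat_lit 304) (nat_lit 723264473) (nat_lit 61) (nat_lit 5) (nat_lit 64) (nat_lit 5) (nat_lit 65) (nat_lit 5) (nat_lit 378) (nat_lit 298) (nat_lit 224)) (XT.lf (nat_lit 0) (nat_lit 5416556733) (nat_lit 304) (nat_lit 2849149253) (nat_lit 76) (nat_lit 8850720537) (nat_lit 60) (nat_lit 5) (nat_lit 64) (nat_lit 5) (nat_lit 61) (nat_lit 5) (nat_lit 379) (nat_lit 298) (nat_lit 223))) (XT.nd (nat_lit 78) (nat_lit 532) (nat_lit 0) (XT.lf (nat_lit 0) (nat_lit 11200836796) (nat_lit 228) (nat_lit 558851599) (nat_lit 304) (nat_lit 5703172702) (nat_lit 57) (nat_lit 5) (nat_lit 60) (nat_lit 5) (nat_lit 61) (nat_lit 5) (nat_lit 380) (nat_lit 298) (nat_lit 222)) (XT.nd (nat_lit 78) (nat_lit 228) (nat_lit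 0) (XT.lf (nat_lit 0) (nat_lit 542950539) (nat_lit 304) (nat_lit 9947867367) (nat_lit 76) (nat_lit 7327301798) (nat_lit 53) (nat_lit 5) (nat_lit 57) (nat_lit 5) (nat_lit 54) (nat_lit 5) (nat_lit 381) (nat_lit 298) (nat_lit 221)) (XT.lf (nat_lit 0) (nat_lit 4270133809) (nat_lit 228) (nat_lit 2660735653) (nat_lit 304) (nat_lit 11251781680) (nat_lit 50) (nat_lit 5) (nat_lit 53) (nat_lit 5) (nat_lit 54) (nat_lit 5) (nat_lit 382) (nat_lit 298) (nat_lit 220)))))) (XT.nd (nat_lit 40716) (nat_lit 0) (nat_lit 46816) (XT.nd (nat_lit 156) (nat_lit 228) (nat_lit 0) (XT.nd (nat_lit 78) (nat_lit 76) (nat_lit 0) (XT.lf (nat_lit 0) (nat_lit 391461860) (nat_lit 152) (nat_lit 13182315237) (nat_lit 228) (nat_lit 4983081154) (nat_lit 48) (nat_lit 5) (nat_lit 50) (nat_lit 5) (nat_lit 51) (nat_lit 5) (nat_lit 383) (nat_lit 298) (nat_lit 219)) (XT.lf (nat_lit 0) (nat_lit 1525397068) (nat_lit 228) (nat_lit 3724993764) (nat_lit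 76) (nat_lit 13690294914) (nat_lit 47) (nat_lit 5) (nat_lit 50) (nat_lit 5) (nat_lit 48) (nat_lit 5) (nat_lit 384) (nat_lit 298) (nat_lit 218))) (XT.nd (nat_lit 40404) (nat_lit 0) (nat_lit 48412) (XT.lf (nat_lit 0) (nat_lit 8213516945) (nat_lit 304) (nat_lit 8161615557) (nat_lit 76) (nat_lit 2959201278) (nat_lit 44) (nat_lit 5) (nat_lit 48) (nat_lit 5) (nat_lit 45) (nat_lit 5) (nat_lit 385) (nat_lit 298) (nat_lit 217)) (XT.nd (nat_lit 78) (nat_lit 228) (nat_lit 0) (XT.lf (nat_lit 0) (nat_lit 1497558582) (nat_lit 76) (nat_lit 862850339) (nat_lit 76) (nat_lit 862850339) (nat_lit 684) (nat_lit 4) (nat_lit 685) (nat_lit 5) (nat_lit 685) (nat_lit 4) (nat_lit 302) (nat_lit 299) (nat_lit 299)) (XT.lf (nat_lit 0) (nat_lit 1399454990) (nat_lit 152) (nat_lit 1457845545) (nat_lit 228) (nat_lit 3595024836) (nat_lit 681) (nat_lit 5) (nat_lit 683) (nat_lit 5) (nat_lit 684) (nat_lit 4) (nat_lit 303) (nat_lit 299)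 (nat_lit 298))))) (XT.nd (nat_lit 156) (nat_lit 1292) (nat_lit 0) (XT.nd (nat_lit 78) (nat_lit 228) (nat_lit 0) (XT.lf (nat_lit 0) (nat_lit 928763641) (nat_lit 228) (nat_lit 131827291) (nat_lit 76) (nat_lit 5400545579) (nat_lit 680) (nat_lit 5) (nat_lit 683) (nat_lit 5) (nat_lit 681) (nat_lit 5) (nat_lit 304) (nat_lit 299) (nat_lit 297)) (XT.lf (nat_lit 0) (nat_lit 4881358072) (nat_lit 228) (nat_lit 518456867) (nat_lit 304) (nat_lit 1072847979) (nat_lit 677) (nat_lit 5) (nat_lit 680) (nat_lit 5) (nat_lit 681) (nat_lit 5) (nat_lit 305) (nat_lit 299) (nat_lit 296))) (XT.nd (nat_lit 78) (nat_lit 912) (nat_lit 0) (XT.lf (nat_lit 0) (nat_lit 3330449355) (nat_lit 380) (nat_lit 2999302744) (nat_lit 76) (nat_lit 157330278) (nat_lit 672) (nat_lit 5) (nat_lit 677) (nat_lit 5) (nat_lit 673) (nat_lit 5) (nat_lit 306) (nat_lit 299) (nat_lit 295)) (XT.nd (nat_lit 78) (nat_lit 456) (nat_lit 0) (XT.lf (nat_lit 0)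 (nat_lit 1195492008) (nat_lit 456) (nat_lit 4354173077) (nat_lit 76) (nat_lit 954799425) (nat_lit 666) (nat_lit 5) (nat_lit 672) (nat_lit 5) (nat_lit 667) (nat_lit 5) (nat_lit 307) (nat_lit 299) (nat_lit 294)) (XT.lf (nat_lit 0) (nat_lit 864324008) (nat_lit 456) (nat_lit 4636561623) (nat_lit 532) (nat_lit 1023871235) (nat_lit 660) (nat_lit 5) (nat_lit 666) (nat_lit 5) (nat_lit 667) (nat_lit 5) (nat_lit 308) (nat_lit 299) (nat_lit 293))))))) (XT.nd (nat_lit 780) (nat_lit 13452) (nat_lit 0) (XT.nd (nat_lit 390) (nat_lit 4028) (nat_lit 0) (XT.nd (nat_lit 156) (nat_lit 2128) (nat_lit 0) (XT.nd (nat_lit 78) (nat_lit 608) (nat_lit 0) (XT.lf (nat_lit 0) (nat_lit 3217199060) (nat_lit 532) (nat_lit 368129182) (nat_lit 76) (nat_lit 2962564316) (nat_lit 659) (nat_lit 5) (nat_lit 666) (nat_lit 5) (nat_lit 660) (nat_lit 5) (nat_lit 309) (nat_lit 299) (nat_lit 292)) (XT.lf (nat_lit 0) (nat_lit 865590905) (nat_lit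 608) (nat_lit 1534457372) (nat_lit 76) (nat_lit 4173941595) (nat_lit 651) (nat_lit 5) (nat_lit 659) (nat_lit 5) (nat_lit 652) (nat_lit 5) (nat_lit 310) (nat_lit 299) (nat_lit 291))) (XT.nd (nat_lit 78) (nat_lit 1520) (nat_lit 0) (XT.lf (nat_lit 0) (nat_lit 3945643312) (nat_lit 608) (nat_lit 1074776299) (nat_lit 684) (nat_lit 1582555737) (nat_lit 643) (nat_lit 5) (nat_lit 651) (nat_lit 5) (nat_lit 652) (nat_lit 5) (nat_lit 311) (nat_lit 299) (nat_lit 290)) (XT.nd (nat_lit 78) (nat_lit 760) (nat_lit 0) (XT.lf (nat_lit 0) (nat_lit 2516113911) (nat_lit 760) (nat_lit 3736214294) (nat_lit 76) (nat_lit 382573953) (nat_lit 633) (nat_lit 5) (nat_lit 643) (nat_lit 5) (nat_lit 634) (nat_lit 5) (nat_lit 312) (nat_lit 299) (nat_lit 289)) (XT.lf (nat_lit 0) (nat_lit 1897696486) (nat_lit 760) (nat_lit 4712502385) (nat_lit 836) (nat_lit 59595394) (nat_lit 623) (nat_lit 5) (nat_lit 633) (nat_lit 5) (nat_lit 634) (nat_lit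 5) (nat_lit 313) (nat_lit 299) (nat_lit 288))))) (XT.nd (nat_lit 156) (nat_lit 2128) (nat_lit 0) (XT.nd (nat_lit 78) (nat_lit 988) (nat_lit 0) (XT.lf (nat_lit 0) (nat_lit 931844700) (nat_lit 836) (nat_lit 3025741542) (nat_lit 912) (nat_lit 2749897619) (nat_lit 611) (nat_lit 5) (nat_lit 622) (nat_lit 5) (nat_lit 623) (nat_lit 5) (nat_lit 314) (nat_lit 299) (nat_lit 287)) (XT.lf (nat_lit 0) (nat_lit 17131565) (nat_lit 912) (nat_lit 1207234888) (nat_lit 988) (nat_lit 5523964151) (nat_lit 598) (nat_lit 5) (nat_lit 610) (nat_lit 5) (nat_lit 611) (nat_lit 5) (nat_lit 315) (nat_lit 299) (nat_lit 286))) (XT.nd (nat_lit 78) (nat_lit 2128) (nat_lit 0) (XT.lf (nat_lit 0) (nat_lit 5189277148) (nat_lit 988) (nat_lit 851551051) (nat_lit 76) (nat_lit 751119723) (nat_lit 598) (nat_lit 5) (nat_lit 611) (nat_lit 5) (nat_lit 599) (nat_lit 5) (nat_lit 316) (nat_lit 299) (nat_lit 285)) (XT.nd (nat_lit 78) (nat_lit 1064)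 (nat_lit 0) (XT.lf (nat_lit 0) (nat_lit 2314028697) (nat_lit 1064) (nat_lit 1688553303) (nat_lit 76) (nat_lit 2835861246) (nat_lit 584) (nat_lit 5) (nat_lit 598) (nat_lit 5) (nat_lit 585) (nat_lit 5) (nat_lit 317) (nat_lit 299) (nat_lit 284)) (XT.lf (nat_lit 0) (nat_lit 4404897534) (nat_lit 1064) (nat_lit 1827137588) (nat_lit 1140) (nat_lit 656052726) (nat_lit 570) (nat_lit 5) (nat_lit 584) (nat_lit 5) (nat_lit 585) (nat_lit 5) (nat_lit 318) (nat_lit 299) (nat_lit 283)))))) (XT.nd (nat_lit 390) (nat_lit 6764) (nat_lit 0) (XT.nd (nat_lit 156) (nat_lit 4180) (nat_lit 0) (XT.nd (nat_lit 78) (nat_lit 1292) (nat_lit 0) (XT.lf (nat_lit 0) (nat_lit 3196709562) (nat_lit 1216) (nat_lit 3250994674) (nat_lit 76) (nat_lit 492919462) (nat_lit 554) (nat_lit 5) (nat_lit 570) (nat_lit 5) (nat_lit 555) (nat_lit 5) (nat_lit 319) (nat_lit 299) (nat_lit 282)) (XT.lf (nat_lit 0) (nat_lit 84050469) (nat_lit 1292) (nat_lit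 3986979892) (nat_lit 76) (nat_lit 2925174616) (nat_lit 537) (nat_lit 5) (nat_lit 554) (nat_lit 5) (nat_lit 538) (nat_lit 5) (nat_lit 320) (nat_lit 299) (nat_lit 281))) (XT.nd (nat_lit 78) (nat_lit 2888) (nat_lit 0) (XT.lf (nat_lit 0) (nat_lit 2354182948) (nat_lit 1292) (nat_lit 1538138919) (nat_lit 1368) (nat_lit 3162378737) (nat_lit 520) (nat_lit 5) (nat_lit 537) (nat_lit 5) (nat_lit 538) (nat_lit 5) (nat_lit 321) (nat_lit 299) (nat_lit 280)) (XT.nd (nat_lit 78) (nat_lit 1444) (nat_lit 0) (XT.lf (nat_lit 0) (nat_lit 617216915) (nat_lit 1444) (nat_lit 5380287722) (nat_lit 76) (nat_lit 1118890677) (nat_lit 501) (nat_lit 5) (nat_lit 520) (nat_lit 5) (nat_lit 502) (nat_lit 5) (nat_lit 322) (nat_lit 299) (nat_lit 279)) (XT.lf (nat_lit 0) (nat_lit 1132925830) (nat_lit 1444) (nat_lit 3267840776) (nat_lit 1520) (nat_lit 2780148899) (nat_lit 482) (nat_lit 5) (nat_lit 501) (nat_lit 5) (nat_lit 502) (nat_lit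 5) (nat_lit 323) (nat_lit 299) (nat_lit 278))))) (XT.nd (nat_lit 156) (nat_lit 3572) (nat_lit 0) (XT.nd (nat_lit 78) (nat_lit 1596) (nat_lit 0) (XT.lf (nat_lit 0) (nat_lit 567828257) (nat_lit 1520) (nat_lit 394744855) (nat_lit 1596) (nat_lit 6286204082) (nat_lit 461) (nat_lit 5) (nat_lit 481) (nat_lit 5) (nat_lit 482) (nat_lit 5) (nat_lit 324) (nat_lit 299) (nat_lit 277)) (XT.lf (nat_lit 0) (nat_lit 9834684) (nat_lit 1596) (nat_lit 4716435951) (nat_lit 1672) (nat_lit 2593165768) (nat_lit 440) (nat_lit 5) (nat_lit 461) (nat_lit 5) (nat_lit 462) (nat_lit 5) (nat_lit 325) (nat_lit 299) (nat_lit 276))) (XT.nd (nat_lit 78) (nat_lit 3496) (nat_lit 0) (XT.lf (nat_lit 0) (nat_lit 1133103133) (nat_lit 1672) (nat_lit 511013937) (nat_lit 76) (nat_lit 5749230453) (nat_lit 439) (nat_lit 5) (nat_lit 461) (nat_lit 5) (nat_lit 440) (nat_lit 5) (nat_lit 326) (nat_lit 299) (nat_lit 275)) (XT.nd (nat_lit 78) (nat_lit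 1824) (nat_lit 0) (XT.lf (nat_lit 0) (nat_lit 4881695768) (nat_lit 1748) (nat_lit 1020611081) (nat_lit 76) (nat_lit 1567965048) (nat_lit 417) (nat_lit 5) (nat_lit 440) (nat_lit 5) (nat_lit 418) (nat_lit 5) (nat_lit 327) (nat_lit 299) (nat_lit 274)) (XT.lf (nat_lit 0) (nat_lit 1126769331) (nat_lit 1824) (nat_lit 1512304668) (nat_lit 76) (nat_lit 4911342988) (nat_lit 393) (nat_lit 5) (nat_lit 417) (nat_lit 5) (nat_lit 394) (nat_lit 5) (nat_lit 328) (nat_lit 299) (nat_lit 273))))))))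
noncomputable def xc46 : XT := (XT.nd (nat_lit 1560) (nat_lit 7904) (nat_lit 0) (XT.nd (nat_lit 780) (nat_lit 5852) (nat_lit 0) (XT.nd (nat_lit 390) (nat_lit 3952) (nat_lit 0) (XT.nd (nat_lit 156) (nat_lit 2584) (nat_lit 0) (XT.nd (nat_lit 78) (nat_lit 988) (nat_lit 0) (XT.lf (nat_lit 0) (nat_lit 4864853467) (nat_lit 1140) (nat_lit 1991627873) (nat_lit 76) (nat_lit 777263909) (nat_lit 379) (nat_lit 5) (nat_lit 394) (nat_lit 5) (nat_lit 380) (nat_lit 5) (nat_lit 329) (nat_lit 299) (nat_lit 272)) (XT.lf (nat_lit 0) (nat_lit 944168676) (nat_lit 988) (nat_lit 2462339560) (nat_lit 76) (nat_lit 4313749051) (nat_lit 366) (nat_lit 5) (nat_lit 379) (nat_lit 5) (nat_lit 367) (nat_lit 5) (nat_lit 330) (nat_lit 299) (nat_lit 271))) (XT.nd (nat_lit 78) (nat_lit 1748) (nat_lit 0) (XT.lf (nat_lit 0) (nat_lit 4679378920) (nat_lit 912) (nat_lit 2922158026) (nat_lit 76) (nat_lit 208540341) (nat_lit 355) (nat_lit 5)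 (nat_lit 367) (nat_lit 5) (nat_lit 356) (nat_lit 5) (nat_lit 331) (nat_lit 299) (nat_lit 270)) (XT.nd (nat_lit 78) (nat_lit 836) (nat_lit 0) (XT.lf (nat_lit 0) (nat_lit 588299146) (nat_lit 912) (nat_lit 3380107662) (nat_lit 76) (nat_lit 3934699391) (nat_lit 343) (nat_lit 5) (nat_lit 355) (nat_lit 5) (nat_lit 344) (nat_lit 5) (nat_lit 332) (nat_lit 299) (nat_lit 269)) (XT.lf (nat_lit 0) (nat_lit 4167212744) (nat_lit 836) (nat_lit 161540110) (nat_lit 912) (nat_lit 3670753513) (nat_lit 332) (nat_lit 5) (nat_lit 343) (nat_lit 5) (nat_lit 344) (nat_lit 5) (nat_lit 333) (nat_lit 299) (nat_lit 268))))) (XT.nd (nat_lit 156) (nat_lit 2280) (nat_lit 0) (XT.nd (nat_lit 78) (nat_lit 760) (nat_lit 0) (XT.lf (nat_lit 0) (nat_lit 60877996) (nat_lit 912) (nat_lit 4284903083) (nat_lit 76) (nat_lit 3753460551) (nat_lit 320) (nat_lit 5) (nat_lit 332) (nat_lit 5) (nat_lit 321) (nat_lit 5) (nat_lit 334) (nat_lit 299)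 (nat_lit 267)) (XT.lf (nat_lit 0) (nat_lit 3461738804) (nat_lit 760) (nat_lit 351536931) (nat_lit 836) (nat_lit 4389073606) (nat_lit 310) (nat_lit 5) (nat_lit 320) (nat_lit 5) (nat_lit 321) (nat_lit 5) (nat_lit 335) (nat_lit 299) (nat_lit 266))) (XT.nd (nat_lit 78) (nat_lit 1520) (nat_lit 0) (XT.lf (nat_lit 0) (nat_lit 3108207596) (nat_lit 760) (nat_lit 4554553370) (nat_lit 836) (nat_lit 646137290) (nat_lit 300) (nat_lit 5) (nat_lit 310) (nat_lit 5) (nat_lit 311) (nat_lit 5) (nat_lit 336) (nat_lit 299) (nat_lit 265)) (XT.nd (nat_lit 78) (nat_lit 760) (nat_lit 0) (XT.lf (nat_lit 0) (nat_lit 2753095887) (nat_lit 684) (nat_lit 378495419) (nat_lit 760) (nat_lit 5287380224) (nat_lit 290) (nat_lit 5) (nat_lit 299) (nat_lit 5) (nat_lit 300) (nat_lit 5) (nat_lit 337) (nat_lit 299) (nat_lit 264)) (XT.lf (nat_lit 0) (nat_lit 2387258803) (nat_lit 760) (nat_lit 4616994629) (nat_lit 836) (nat_lit 1528235928) (nat_lit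 280) (nat_lit 5) (nat_lit 290) (nat_lit 5) (nat_lit 291) (nat_lit 5) (nat_lit 338) (nat_lit 299) (nat_lit 263)))))) (XT.nd (nat_lit 390) (nat_lit 2432) (nat_lit 0) (XT.nd (nat_lit 156) (nat_lit 1976) (nat_lit 0) (XT.nd (nat_lit 78) (nat_lit 684) (nat_lit 0) (XT.lf (nat_lit 0) (nat_lit 2020776586) (nat_lit 684) (nat_lit 261637152) (nat_lit 760) (nat_lit 6367338949) (nat_lit 270) (nat_lit 5) (nat_lit 279) (nat_lit 5) (nat_lit 280) (nat_lit 5) (nat_lit 339) (nat_lit 299) (nat_lit 262)) (XT.lf (nat_lit 0) (nat_lit 1631024402) (nat_lit 684) (nat_lit 4552568288) (nat_lit 760) (nat_lit 2586832435) (nat_lit 261) (nat_lit 5) (nat_lit 270) (nat_lit 5) (nat_lit 271) (nat_lit 5) (nat_lit 340) (nat_lit 299) (nat_lit 261))) (XT.nd (nat_lit 78) (nat_lit 1292) (nat_lit 0) (XT.lf (nat_lit 0) (nat_lit 1243375247) (nat_lit 608) (nat_lit 19750751) (nat_lit 684) (nat_lit 7631989540) (nat_lit 252) (nat_lit 5) (nat_lit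 260) (nat_lit 5) (nat_lit 261) (nat_lit 5) (nat_lit 341) (nat_lit 299) (nat_lit 260)) (XT.nd (nat_lit 78) (nat_lit 684) (nat_lit 0) (XT.lf (nat_lit 0) (nat_lit 817624040) (nat_lit 608) (nat_lit 4379997130) (nat_lit 684) (nat_lit 3825530068) (nat_lit 244) (nat_lit 5) (nat_lit 252) (nat_lit 5) (nat_lit 253) (nat_lit 5) (nat_lit 342) (nat_lit 299) (nat_lit 259)) (XT.lf (nat_lit 0) (nat_lit 71873073) (nat_lit 684) (nat_lit 8759276186) (nat_lit 76) (nat_lit 324335208) (nat_lit 235) (nat_lit 5) (nat_lit 244) (nat_lit 5) (nat_lit 236) (nat_lit 5) (nat_lit 343) (nat_lit 299) (nat_lit 258))))) (XT.nd (nat_lit 156) (nat_lit 1824) (nat_lit 0) (XT.nd (nat_lit 78) (nat_lit 608) (nat_lit 0) (XT.lf (nat_lit 0) (nat_lit 4042292479) (nat_lit 684) (nat_lit 75038719) (nat_lit 76) (nat_lit 5173817318) (nat_lit 235) (nat_lit 5) (nat_lit 244) (nat_lit 5) (nat_lit 236) (nat_lit 5) (nat_lit 344) (nat_lit 299) (nat_lit 257))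 (XT.lf (nat_lit 0) (nat_lit 8119369533) (nat_lit 684) (nat_lit 544561801) (nat_lit 76) (nat_lit 767227358) (nat_lit 227) (nat_lit 5) (nat_lit 236) (nat_lit 5) (nat_lit 228) (nat_lit 5) (nat_lit 345) (nat_lit 299) (nat_lit 256))) (XT.nd (nat_lit 78) (nat_lit 1216) (nat_lit 0) (XT.lf (nat_lit 0) (nat_lit 2717121272) (nat_lit 608) (nat_lit 1060393993) (nat_lit 76) (nat_lit 5797329242) (nat_lit 219) (nat_lit 5) (nat_lit 227) (nat_lit 5) (nat_lit 220) (nat_lit 5) (nat_lit 346) (nat_lit 299) (nat_lit 255)) (XT.nd (nat_lit 78) (nat_lit 608) (nat_lit 0) (XT.lf (nat_lit 0) (nat_lit 6841419700) (nat_lit 684) (nat_lit 1597555552) (nat_lit 76) (nat_lit 1283870419) (nat_lit 211) (nat_lit 5) (nat_lit 220) (nat_lit 5) (nat_lit 212) (nat_lit 5) (nat_lit 347) (nat_lit 299) (nat_lit 254)) (XT.lf (nat_lit 0) (nat_lit 1209477632) (nat_lit 608) (nat_lit 2175028620) (nat_lit 76) (nat_lit 6490421972) (nat_lit 203) (nat_lit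 5) (nat_lit 211) (nat_lit 5) (nat_lit 204) (nat_lit 5) (nat_lit 348) (nat_lit 299) (nat_lit 253))))))) (XT.nd (nat_lit 780) (nat_lit 3040) (nat_lit 0) (XT.nd (nat_lit 390) (nat_lit 2280) (nat_lit 0) (XT.nd (nat_lit 156) (nat_lit 1596) (nat_lit 0) (XT.nd (nat_lit 78) (nat_lit 456) (nat_lit 0) (XT.lf (nat_lit 0) (nat_lit 5383984435) (nat_lit 608) (nat_lit 2794245429) (nat_lit 76) (nat_lit 1852985148) (nat_lit 196) (nat_lit 5) (nat_lit 204) (nat_lit 5) (nat_lit 197) (nat_lit 5) (nat_lit 349) (nat_lit 299) (nat_lit 252)) (XT.lf (nat_lit 0) (nat_lit 6742032282) (nat_lit 456) (nat_lit 2953889195) (nat_lit 532) (nat_lit 496047500) (nat_lit 190) (nat_lit 5) (nat_lit 196) (nat_lit 5) (nat_lit 197) (nat_lit 5) (nat_lit 350) (nat_lit 299) (nat_lit 251))) (XT.nd (nat_lit 78) (nat_lit 988) (nat_lit 0) (XT.lf (nat_lit 0) (nat_lit 3737536852) (nat_lit 608) (nat_lit 4163432665) (nat_lit 76) (nat_lit 2455957897) (nat_lit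 182) (nat_lit 5) (nat_lit 190) (nat_lit 5) (nat_lit 183) (nat_lit 5) (nat_lit 351) (nat_lit 299) (nat_lit 250)) (XT.nd (nat_lit 78) (nat_lit 532) (nat_lit 0) (XT.lf (nat_lit 0) (nat_lit 5605390209) (nat_lit 456) (nat_lit 2498855737) (nat_lit 532) (nat_lit 2422286720) (nat_lit 176) (nat_lit 5) (nat_lit 182) (nat_lit 5) (nat_lit 183) (nat_lit 5) (nat_lit 352) (nat_lit 299) (nat_lit 249)) (XT.lf (nat_lit 0) (nat_lit 1890832693) (nat_lit 532) (nat_lit 5736254581) (nat_lit 76) (nat_lit 3073611137) (nat_lit 169) (nat_lit 5) (nat_lit 176) (nat_lit 5) (nat_lit 170) (nat_lit 5) (nat_lit 353) (nat_lit 299) (nat_lit 248))))) (XT.nd (nat_lit 156) (nat_lit 1368) (nat_lit 0) (XT.nd (nat_lit 78) (nat_lit 456) (nat_lit 0) (XT.lf (nat_lit 0) (nat_lit 4266306117) (nat_lit 456) (nat_lit 2047513427) (nat_lit 532) (nat_lit 4565700886) (nat_lit 163) (nat_lit 5) (nat_lit 169) (nat_lit 5) (nat_lit 170) (nat_lit 5) (nat_lit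 354) (nat_lit 299) (nat_lit 247)) (XT.lf (nat_lit 0) (nat_lit 3515669691) (nat_lit 456) (nat_lit 7376152521) (nat_lit 532) (nat_lit 171457007) (nat_lit 157) (nat_lit 5) (nat_lit 163) (nat_lit 5) (nat_lit 164) (nat_lit 5) (nat_lit 355) (nat_lit 299) (nat_lit 246))) (XT.nd (nat_lit 78) (nat_lit 912) (nat_lit 0) (XT.lf (nat_lit 0) (nat_lit 2690232965) (nat_lit 380) (nat_lit 1620735459) (nat_lit 456) (nat_lit 6940765310) (nat_lit 151) (nat_lit 5) (nat_lit 156) (nat_lit 5) (nat_lit 157) (nat_lit 5) (nat_lit 356) (nat_lit 299) (nat_lit 245)) (XT.nd (nat_lit 78) (nat_lit 456) (nat_lit 0) (XT.lf (nat_lit 0) (nat_lit 1798149198) (nat_lit 456) (nat_lit 7156800419) (nat_lit 532) (nat_lit 2490298572) (nat_lit 145) (nat_lit 5) (nat_lit 151) (nat_lit 5) (nat_lit 152) (nat_lit 5) (nat_lit 357) (nat_lit 299) (nat_lit 244)) (XT.lf (nat_lit 0) (nat_lit 839508102) (nat_lit 380) (nat_lit 1240486251) (nat_lit 456) (nat_lit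 9564042819) (nat_lit 139) (nat_lit 5) (nat_lit 144) (nat_lit 5) (nat_lit 145) (nat_lit 5) (nat_lit 358) (nat_lit 299) (nat_lit 243)))))) (XT.nd (nat_lit 390) (nat_lit 1444) (nat_lit 0) (XT.nd (nat_lit 156) (nat_lit 1216) (nat_lit 0) (XT.nd (nat_lit 78) (nat_lit 380) (nat_lit 0) (XT.lf (nat_lit 0) (nat_lit 6791177853) (nat_lit 456) (nat_lit 211957636) (nat_lit 76) (nat_lit 4844588728) (nat_lit 139) (nat_lit 5) (nat_lit 145) (nat_lit 5) (nat_lit 140) (nat_lit 5) (nat_lit 359) (nat_lit 299) (nat_lit 242)) (XT.lf (nat_lit 0) (nat_lit 10744957054) (nat_lit 380) (nat_lit 918649992) (nat_lit 456) (nat_lit 393532075) (nat_lit 134) (nat_lit 5) (nat_lit 139) (nat_lit 5) (nat_lit 140) (nat_lit 5) (nat_lit 360) (nat_lit 299) (nat_lit 241))) (XT.nd (nat_lit 78) (nat_lit 760) (nat_lit 0) (XT.lf (nat_lit 0) (nat_lit 4394218466) (nat_lit 456) (nat_lit 2532499590) (nat_lit 76) (nat_lit 5344707037) (nat_lit 128) (nat_lit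 5) (nat_lit 134) (nat_lit 5) (nat_lit 129) (nat_lit 5) (nat_lit 361) (nat_lit 299) (nat_lit 240)) (XT.nd (nat_lit 78) (nat_lit 380) (nat_lit 0) (XT.lf (nat_lit 0) (nat_lit 8667391584) (nat_lit 380) (nat_lit 667810768) (nat_lit 456) (nat_lit 3156600599) (nat_lit 123) (nat_lit 5) (nat_lit 128) (nat_lit 5) (nat_lit 129) (nat_lit 5) (nat_lit 362) (nat_lit 299) (nat_lit 239)) (XT.lf (nat_lit 0) (nat_lit 1731484977) (nat_lit 380) (nat_lit 5233643367) (nat_lit 76) (nat_lit 5752491292) (nat_lit 118) (nat_lit 5) (nat_lit 123) (nat_lit 5) (nat_lit 119) (nat_lit 5) (nat_lit 363) (nat_lit 299) (nat_lit 238))))) (XT.nd (nat_lit 156) (nat_lit 760) (nat_lit 0) (XT.nd (nat_lit 78) (nat_lit 304) (nat_lit 0) (XT.lf (nat_lit 0) (nat_lit 6205975120) (nat_lit 380) (nat_lit 533612264) (nat_lit 456) (nat_lit 6209894126) (nat_lit 113) (nat_lit 5) (nat_lit 118) (nat_lit 5) (nat_lit 119) (nat_lit 5) (nat_lit 364) (nat_lit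 299) (nat_lit 237)) (XT.lf (nat_lit 0) (nat_lit 4812688070) (nat_lit 304) (nat_lit 7137780592) (nat_lit 380) (nat_lit 1236792672) (nat_lit 109) (nat_lit 5) (nat_lit 113) (nat_lit 5) (nat_lit 114) (nat_lit 5) (nat_lit 365) (nat_lit 299) (nat_lit 236))) (XT.nd (nat_lit 78) (nat_lit 380) (nat_lit 0) (XT.lf (nat_lit 0) (nat_lit 3308053717) (nat_lit 304) (nat_lit 544253108) (nat_lit 380) (nat_lit 9579020094) (nat_lit 104) (nat_lit 5) (nat_lit 108) (nat_lit 5) (nat_lit 109) (nat_lit 5) (nat_lit 366) (nat_lit 299) (nat_lit 235)) (XT.nd (nat_lit 78) (nat_lit 76) (nat_lit 0) (XT.lf (nat_lit 0) (nat_lit 1664464692) (nat_lit 304) (nat_lit 7468950358) (nat_lit 380) (nat_lit 4548024978) (nat_lit 100) (nat_lit 5) (nat_lit 104) (nat_lit 5) (nat_lit 105) (nat_lit 5) (nat_lit 367) (nat_lit 299) (nat_lit 234)) (XT.lf (nat_lit 0) (nat_lit 646479731) (nat_lit 380) (nat_lit 83224378) (nat_lit 76) (nat_lit 13208863505)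 (nat_lit 99) (nat_lit 5) (nat_lit 104) (nat_lit 5) (nat_lit 100) (nat_lit 5) (nat_lit 368) (nat_lit 299) (nat_lit 233))))))))
noncomputable def xc47 : XT := (XT.nd (nat_lit 41730) (nat_lit 0) (nat_lit 34504) (XT.nd (nat_lit 780) (nat_lit 1292) (nat_lit 0) (XT.nd (nat_lit 390) (nat_lit 1140) (nat_lit 0) (XT.nd (nat_lit 156) (nat_lit 912) (nat_lit 0) (XT.nd (nat_lit 78) (nat_lit 304) (nat_lit 0) (XT.lf (nat_lit 0) (nat_lit 6005559322) (nat_lit 380) (nat_lit 1983538502) (nat_lit 76) (nat_lit 6212310304) (nat_lit 95) (nat_lit 5) (nat_lit 100) (nat_lit 5) (nat_lit 96) (nat_lit 5) (nat_lit 369) (nat_lit 299) (nat_lit 232)) (XT.lf (nat_lit 0) (nat_lit 10470576415) (nat_lit 304) (nat_lit 1078745419) (nat_lit 380) (nat_lit 2922344432) (nat_lit 91) (nat_lit 5) (nat_lit 95) (nat_lit 5) (nat_lit 96) (nat_lit 5) (nat_lit 370) (nat_lit 299) (nat_lit 231))) (XT.nd (nat_lit 78) (nat_lit 532) (nat_lit 0) (XT.lf (nat_lit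 0) (nat_lit 2536453665) (nat_lit 380) (nat_lit 6195120435) (nat_lit 76) (nat_lit 6016942322) (nat_lit 86) (nat_lit 5) (nat_lit 91) (nat_lit 5) (nat_lit 87) (nat_lit 5) (nat_lit 371) (nat_lit 299) (nat_lit 230)) (XT.nd (nat_lit 78) (nat_lit 304) (nat_lit 0) (XT.lf (nat_lit 0) (nat_lit 6486520739) (nat_lit 228) (nat_lit 1661463271) (nat_lit 304) (nat_lit 6884738123) (nat_lit 83) (nat_lit 5) (nat_lit 86) (nat_lit 5) (nat_lit 87) (nat_lit 5) (nat_lit 372) (nat_lit 299) (nat_lit 229)) (XT.lf (nat_lit 0) (nat_lit 4250498884) (nat_lit 304) (nat_lit 9736250948) (nat_lit 380) (nat_lit 1337535920) (nat_lit 79) (nat_lit 5) (nat_lit 83) (nat_lit 5) (nat_lit 84) (nat_lit 5) (nat_lit 373) (nat_lit 299) (nat_lit 228))))) (XT.nd (nat_lit 156) (nat_lit 836) (nat_lit 0) (XT.nd (nat_lit 78) (nat_lit 0) (nat_lit 0) (XT.lf (nat_lit 0) (nat_lit 1832114924) (nat_lit 228) (nat_lit 2520987806) (nat_lit 304) (nat_lit 11270246102)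 (nat_lit 75) (nat_lit 5) (nat_lit 78) (nat_lit 5) (nat_lit 79) (nat_lit 5) (nat_lit 374) (nat_lit 299) (nat_lit 227)) (XT.lf (nat_lit 0) (nat_lit 10257609609) (nat_lit 304) (nat_lit 770580090) (nat_lit 76) (nat_lit 4901799670) (nat_lit 75) (nat_lit 5) (nat_lit 79) (nat_lit 5) (nat_lit 76) (nat_lit 5) (nat_lit 375) (nat_lit 299) (nat_lit 226))) (XT.nd (nat_lit 78) (nat_lit 456) (nat_lit 0) (XT.lf (nat_lit 0) (nat_lit 147117293) (nat_lit 380) (nat_lit 3529025555) (nat_lit 76) (nat_lit 12568584125) (nat_lit 70) (nat_lit 5) (nat_lit 75) (nat_lit 5) (nat_lit 71) (nat_lit 5) (nat_lit 376) (nat_lit 299) (nat_lit 225)) (XT.nd (nat_lit 78) (nat_lit 228) (nat_lit 0) (XT.lf (nat_lit 0) (nat_lit 6116711174) (nat_lit 304) (nat_lit 6524377824) (nat_lit 76) (nat_lit 3926024410) (nat_lit 67) (nat_lit 5) (nat_lit 71) (nat_lit 5) (nat_lit 68) (nat_lit 5) (nat_lit 377) (nat_lit 299) (nat_lit 224)) (XT.lf (nat_lit 0)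 (nat_lit 7167698013) (nat_lit 228) (nat_lit 5149202625) (nat_lit 304) (nat_lit 4581248542) (nat_lit 64) (nat_lit 5) (nat_lit 67) (nat_lit 5) (nat_lit 68) (nat_lit 5) (nat_lit 378) (nat_lit 299) (nat_lit 223)))))) (XT.nd (nat_lit 390) (nat_lit 228) (nat_lit 0) (XT.nd (nat_lit 156) (nat_lit 532) (nat_lit 0) (XT.nd (nat_lit 78) (nat_lit 228) (nat_lit 0) (XT.lf (nat_lit 0) (nat_lit 1489704062) (nat_lit 304) (nat_lit 13162119912) (nat_lit 76) (nat_lit 2586210977) (nat_lit 60) (nat_lit 5) (nat_lit 64) (nat_lit 5) (nat_lit 61) (nat_lit 5) (nat_lit 379) (nat_lit 299) (nat_lit 222)) (XT.lf (nat_lit 0) (nat_lit 715010632) (nat_lit 228) (nat_lit 7028778480) (nat_lit 304) (nat_lit 9842464942) (nat_lit 57) (nat_lit 5) (nat_lit 60) (nat_lit 5) (nat_lit 61) (nat_lit 5) (nat_lit 380) (nat_lit 299) (nat_lit 221))) (XT.nd (nat_lit 78) (nat_lit 532) (nat_lit 0) (XT.lf (nat_lit 0) (nat_lit 14238655563) (nat_lit 304)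 (nat_lit 2831665643) (nat_lit 76) (nat_lit 873542434) (nat_lit 57) (nat_lit 5) (nat_lit 61) (nat_lit 5) (nat_lit 58) (nat_lit 5) (nat_lit 381) (nat_lit 299) (nat_lit 220)) (XT.nd (nat_lit 78) (nat_lit 228) (nat_lit 0) (XT.lf (nat_lit 0) (nat_lit 2664395561) (nat_lit 304) (nat_lit 6662143113) (nat_lit 76) (nat_lit 8983679058) (nat_lit 53) (nat_lit 5) (nat_lit 57) (nat_lit 5) (nat_lit 54) (nat_lit 5) (nat_lit 382) (nat_lit 299) (nat_lit 219)) (XT.lf (nat_lit 0) (nat_lit 7924249356) (nat_lit 228) (nat_lit 1281280665) (nat_lit 304) (nat_lit 9480933509) (nat_lit 50) (nat_lit 5) (nat_lit 53) (nat_lit 5) (nat_lit 54) (nat_lit 5) (nat_lit 383) (nat_lit 299) (nat_lit 218))))) (XT.nd (nat_lit 40326) (nat_lit 0) (nat_lit 48336) (XT.nd (nat_lit 78) (nat_lit 76) (nat_lit 0) (XT.lf (nat_lit 0) (nat_lit 3903682168) (nat_lit 152) (nat_lit 12115772617) (nat_lit 228) (nat_lit 3053017151) (nat_lit 48) (nat_lit 5) (nat_lit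 50) (nat_lit 5) (nat_lit 51) (nat_lit 5) (nat_lit 384) (nat_lit 299) (nat_lit 217)) (XT.lf (nat_lit 0) (nat_lit 3563666438) (nat_lit 228) (nat_lit 411436145) (nat_lit 76) (nat_lit 15493646357) (nat_lit 47) (nat_lit 5) (nat_lit 50) (nat_lit 5) (nat_lit 48) (nat_lit 5) (nat_lit 385) (nat_lit 299) (nat_lit 216))) (XT.nd (nat_lit 78) (nat_lit 228) (nat_lit 0) (XT.lf (nat_lit 0) (nat_lit 1073741823) (nat_lit 0) (nat_lit 0) (nat_lit 0) (nat_lit 0) (nat_lit 686) (nat_lit 0) (nat_lit 1) (nat_lit 0) (nat_lit 1) (nat_lit 0) (nat_lit 300) (nat_lit 300) (nat_lit 300)) (XT.nd (nat_lit 78) (nat_lit 152) (nat_lit 0) (XT.lf (nat_lit 0) (nat_lit 4578916191) (nat_lit 76) (nat_lit 1789347442) (nat_lit 0) (nat_lit 75455337) (nat_lit 685) (nat_lit 5) (nat_lit 686) (nat_lit 0) (nat_lit 685) (nat_lit 4) (nat_lit 301) (nat_lit 300) (nat_lit 299)) (XT.lf (nat_lit 0) (nat_lit 2652635514) (nat_lit 152) (nat_lit 3517429205)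 (nat_lit 76) (nat_lit 277938418) (nat_lit 683) (nat_lit 5) (nat_lit 685) (nat_lit 5) (nat_lit 684) (nat_lit 4) (nat_lit 302) (nat_lit 300) (nat_lit 298))))))) (XT.nd (nat_lit 780) (nat_lit 10032) (nat_lit 0) (XT.nd (nat_lit 390) (nat_lit 2508) (nat_lit 0) (XT.nd (nat_lit 156) (nat_lit 1064) (nat_lit 0) (XT.nd (nat_lit 78) (nat_lit 0) (nat_lit 0) (XT.lf (nat_lit 0) (nat_lit 661888759) (nat_lit 228) (nat_lit 5185766088) (nat_lit 76) (nat_lit 607651829) (nat_lit 680) (nat_lit 5) (nat_lit 683) (nat_lit 5) (nat_lit 681) (nat_lit 5) (nat_lit 303) (nat_lit 300) (nat_lit 297)) (XT.lf (nat_lit 0) (nat_lit 5054005687) (nat_lit 228) (nat_lit 335092551) (nat_lit 76) (nat_lit 1076309216) (nat_lit 680) (nat_lit 5) (nat_lit 683) (nat_lit 5) (nat_lit 681) (nat_lit 5) (nat_lit 304) (nat_lit 300) (nat_lit 296))) (XT.nd (nat_lit 78) (nat_lit 760) (nat_lit 0) (XT.lf (nat_lit 0) (nat_lit 2923830892) (nat_lit 304) (nat_lit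 1868781415) (nat_lit 76) (nat_lit 1685674897) (nat_lit 676) (nat_lit 5) (nat_lit 680) (nat_lit 5) (nat_lit 677) (nat_lit 5) (nat_lit 305) (nat_lit 300) (nat_lit 295)) (XT.nd (nat_lit 78) (nat_lit 380) (nat_lit 0) (XT.lf (nat_lit 0) (nat_lit 725352286) (nat_lit 380) (nat_lit 3345123799) (nat_lit 76) (nat_lit 2423732079) (nat_lit 671) (nat_lit 5) (nat_lit 676) (nat_lit 5) (nat_lit 672) (nat_lit 5) (nat_lit 306) (nat_lit 300) (nat_lit 294)) (XT.lf (nat_lit 0) (nat_lit 1737430763) (nat_lit 380) (nat_lit 3211605829) (nat_lit 456) (nat_lit 1563942698) (nat_lit 666) (nat_lit 5) (nat_lit 671) (nat_lit 5) (nat_lit 672) (nat_lit 5) (nat_lit 307) (nat_lit 300) (nat_lit 293))))) (XT.nd (nat_lit 156) (nat_lit 1900) (nat_lit 0) (XT.nd (nat_lit 78) (nat_lit 76) (nat_lit 0) (XT.lf (nat_lit 0) (nat_lit 378343446) (nat_lit 456) (nat_lit 2220151580) (nat_lit 532) (nat_lit 3936218046) (nat_lit 659) (nat_lit 5) (nat_lit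 665) (nat_lit 5) (nat_lit 666) (nat_lit 5) (nat_lit 308) (nat_lit 300) (nat_lit 292)) (XT.lf (nat_lit 0) (nat_lit 181512100) (nat_lit 532) (nat_lit 912349850) (nat_lit 76) (nat_lit 5465539392) (nat_lit 658) (nat_lit 5) (nat_lit 665) (nat_lit 5) (nat_lit 659) (nat_lit 5) (nat_lit 309) (nat_lit 300) (nat_lit 291))) (XT.nd (nat_lit 78) (nat_lit 1368) (nat_lit 0) (XT.lf (nat_lit 0) (nat_lit 4249279633) (nat_lit 608) (nat_lit 2159998495) (nat_lit 76) (nat_lit 177535795) (nat_lit 651) (nat_lit 5) (nat_lit 659) (nat_lit 5) (nat_lit 652) (nat_lit 5) (nat_lit 310) (nat_lit 300) (nat_lit 290)) (XT.nd (nat_lit 78) (nat_lit 684) (nat_lit 0) (XT.lf (nat_lit 0) (nat_lit 1687909086) (nat_lit 684) (nat_lit 3363921891) (nat_lit 76) (nat_lit 1565323740) (nat_lit 642) (nat_lit 5) (nat_lit 651) (nat_lit 5) (nat_lit 643) (nat_lit 5) (nat_lit 311) (nat_lit 300) (nat_lit 289)) (XT.lf (nat_lit 0) (nat_lit 2127400623) (nat_lit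 684) (nat_lit 3560198575) (nat_lit 760) (nat_lit 962888515) (nat_lit 633) (nat_lit 5) (nat_lit 642) (nat_lit 5) (nat_lit 643) (nat_lit 5) (nat_lit 312) (nat_lit 300) (nat_lit 288)))))) (XT.nd (nat_lit 390) (nat_lit 6308) (nat_lit 0) (XT.nd (nat_lit 156) (nat_lit 1976) (nat_lit 0) (XT.nd (nat_lit 78) (nat_lit 912) (nat_lit 0) (XT.lf (nat_lit 0) (nat_lit 1042890045) (nat_lit 760) (nat_lit 1927402275) (nat_lit 836) (nat_lit 3716438433) (nat_lit 622) (nat_lit 5) (nat_lit 632) (nat_lit 5) (nat_lit 633) (nat_lit 5) (nat_lit 313) (nat_lit 300) (nat_lit 287)) (XT.lf (nat_lit 0) (nat_lit 10112242) (nat_lit 836) (nat_lit 163125684) (nat_lit 912) (nat_lit 6552895433) (nat_lit 610) (nat_lit 5) (nat_lit 621) (nat_lit 5) (nat_lit 622) (nat_lit 5) (nat_lit 314) (nat_lit 300) (nat_lit 286))) (XT.nd (nat_lit 78) (nat_lit 1976) (nat_lit 0) (XT.lf (nat_lit 0) (nat_lit 4043886228) (nat_lit 912) (nat_lit 988239434) (nat_lit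 76) (nat_lit 1735889886) (nat_lit 610) (nat_lit 5) (nat_lit 622) (nat_lit 5) (nat_lit 611) (nat_lit 5) (nat_lit 315) (nat_lit 300) (nat_lit 285)) (XT.nd (nat_lit 78) (nat_lit 988) (nat_lit 0) (XT.lf (nat_lit 0) (nat_lit 1104722470) (nat_lit 988) (nat_lit 1940722992) (nat_lit 76) (nat_lit 3767606282) (nat_lit 597) (nat_lit 5) (nat_lit 610) (nat_lit 5) (nat_lit 598) (nat_lit 5) (nat_lit 316) (nat_lit 300) (nat_lit 284)) (XT.lf (nat_lit 0) (nat_lit 4002372271) (nat_lit 988) (nat_lit 913451705) (nat_lit 1064) (nat_lit 1945244923) (nat_lit 584) (nat_lit 5) (nat_lit 597) (nat_lit 5) (nat_lit 598) (nat_lit 5) (nat_lit 317) (nat_lit 300) (nat_lit 283))))) (XT.nd (nat_lit 156) (nat_lit 4028) (nat_lit 0) (XT.nd (nat_lit 78) (nat_lit 1140) (nat_lit 0) (XT.lf (nat_lit 0) (nat_lit 1821783231) (nat_lit 1140) (nat_lit 3746977738) (nat_lit 76) (nat_lit 1343261565) (nat_lit 569) (nat_lit 5) (nat_lit 584) (nat_lit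 5) (nat_lit 570) (nat_lit 5) (nat_lit 318) (nat_lit 300) (nat_lit 282)) (XT.lf (nat_lit 0) (nat_lit 2360020564) (nat_lit 1140) (nat_lit 3233410418) (nat_lit 1216) (nat_lit 1372527877) (nat_lit 554) (nat_lit 5) (nat_lit 569) (nat_lit 5) (nat_lit 570) (nat_lit 5) (nat_lit 319) (nat_lit 300) (nat_lit 281))) (XT.nd (nat_lit 78) (nat_lit 2736) (nat_lit 0) (XT.lf (nat_lit 0) (nat_lit 1588920455) (nat_lit 1216) (nat_lit 750509739) (nat_lit 1292) (nat_lit 4683533869) (nat_lit 537) (nat_lit 5) (nat_lit 553) (nat_lit 5) (nat_lit 554) (nat_lit 5) (nat_lit 320) (nat_lit 300) (nat_lit 280)) (XT.nd (nat_lit 78) (nat_lit 1444) (nat_lit 0) (XT.lf (nat_lit 0) (nat_lit 844244038) (nat_lit 1292) (nat_lit 5230711705) (nat_lit 1368) (nat_lit 1007991632) (nat_lit 520) (nat_lit 5) (nat_lit 537) (nat_lit 5) (nat_lit 538) (nat_lit 5) (nat_lit 321) (nat_lit 300) (nat_lit 279)) (XT.lf (nat_lit 0) (nat_lit 122220725) (nat_lit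 1368) (nat_lit 2546148623) (nat_lit 1444) (nat_lit 4477523763) (nat_lit 501) (nat_lit 5) (nat_lit 519) (nat_lit 5) (nat_lit 520) (nat_lit 5) (nat_lit 322) (nat_lit 300) (nat_lit 278))))))))
noncomputable def xc48 : XT := (XT.nd (nat_lit 1560) (nat_lit 9804) (nat_lit 0) (XT.nd (nat_lit 780) (nat_lit 6916) (nat_lit 0) (XT.nd (nat_lit 390) (nat_lit 5624) (nat_lit 0) (XT.nd (nat_lit 156) (nat_lit 4864) (nat_lit 0) (XT.nd (nat_lit 78) (nat_lit 1520) (nat_lit 0) (XT.lf (nat_lit 0) (nat_lit 6372352930) (nat_lit 1444) (nat_lit 557165486) (nat_lit 76) (nat_lit 282516489) (nat_lit 501) (nat_lit 5) (nat_lit 520) (nat_lit 5) (nat_lit 502) (nat_lit 5) (nat_lit 323) (nat_lit 300) (nat_lit 277)) (XT.lf (nat_lit 0) (nat_lit 2815458440) (nat_lit 1520) (nat_lit 1229232908) (nat_lit 76) (nat_lit 3236224732) (nat_lit 481) (nat_lit 5) (nat_lit 501) (nat_lit 5) (nat_lit 482) (nat_lit 5) (nat_lit 324) (nat_lit 300) (nat_lit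 276))) (XT.nd (nat_lit 78) (nat_lit 3344) (nat_lit 0) (XT.lf (nat_lit 0) (nat_lit 5485646862) (nat_lit 1520) (nat_lit 1014764126) (nat_lit 1596) (nat_lit 852767186) (nat_lit 461) (nat_lit 5) (nat_lit 481) (nat_lit 5) (nat_lit 482) (nat_lit 5) (nat_lit 325) (nat_lit 300) (nat_lit 275)) (XT.nd (nat_lit 78) (nat_lit 1672) (nat_lit 0) (XT.lf (nat_lit 0) (nat_lit 2779161395) (nat_lit 1672) (nat_lit 2500453115) (nat_lit 76) (nat_lit 2148705716) (nat_lit 439) (nat_lit 5) (nat_lit 461) (nat_lit 5) (nat_lit 440) (nat_lit 5) (nat_lit 326) (nat_lit 300) (nat_lit 274)) (XT.lf (nat_lit 0) (nat_lit 4396456749) (nat_lit 1672) (nat_lit 2056555070) (nat_lit 1748) (nat_lit 1053753484) (nat_lit 417) (nat_lit 5) (nat_lit 439) (nat_lit 5) (nat_lit 440) (nat_lit 5) (nat_lit 327) (nat_lit 300) (nat_lit 273))))) (XT.nd (nat_lit 156) (nat_lit 2736) (nat_lit 0) (XT.nd (nat_lit 78) (nat_lit 1064) (nat_lit 0) (XT.lf (nat_lit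 0) (nat_lit 2563780701) (nat_lit 1824) (nat_lit 3711888331) (nat_lit 76) (nat_lit 1312620310) (nat_lit 393) (nat_lit 5) (nat_lit 417) (nat_lit 5) (nat_lit 394) (nat_lit 5) (nat_lit 328) (nat_lit 300) (nat_lit 272)) (XT.lf (nat_lit 0) (nat_lit 3370485064) (nat_lit 1064) (nat_lit 2862463751) (nat_lit 1140) (nat_lit 1440071008) (nat_lit 379) (nat_lit 5) (nat_lit 393) (nat_lit 5) (nat_lit 394) (nat_lit 5) (nat_lit 329) (nat_lit 300) (nat_lit 271))) (XT.nd (nat_lit 78) (nat_lit 1748) (nat_lit 0) (XT.lf (nat_lit 0) (nat_lit 2173130807) (nat_lit 988) (nat_lit 4882401887) (nat_lit 76) (nat_lit 705497979) (nat_lit 366) (nat_lit 5) (nat_lit 379) (nat_lit 5) (nat_lit 367) (nat_lit 5) (nat_lit 330) (nat_lit 300) (nat_lit 270)) (XT.nd (nat_lit 78) (nat_lit 912) (nat_lit 0) (XT.lf (nat_lit 0) (nat_lit 2388964556) (nat_lit 836) (nat_lit 3454642516) (nat_lit 912) (nat_lit 2008560365) (nat_lit 355) (nat_lit 5) (nat_lit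 366) (nat_lit 5) (nat_lit 367) (nat_lit 5) (nat_lit 331) (nat_lit 300) (nat_lit 269)) (XT.lf (nat_lit 0) (nat_lit 1609757150) (nat_lit 912) (nat_lit 6031033309) (nat_lit 76) (nat_lit 306000456) (nat_lit 343) (nat_lit 5) (nat_lit 355) (nat_lit 5) (nat_lit 344) (nat_lit 5) (nat_lit 332) (nat_lit 300) (nat_lit 268)))))) (XT.nd (nat_lit 390) (nat_lit 3572) (nat_lit 0) (XT.nd (nat_lit 156) (nat_lit 1596) (nat_lit 0) (XT.nd (nat_lit 78) (nat_lit 912) (nat_lit 0) (XT.lf (nat_lit 0) (nat_lit 1432909695) (nat_lit 836) (nat_lit 3854203581) (nat_lit 912) (nat_lit 2757360168) (nat_lit 332) (nat_lit 5) (nat_lit 343) (nat_lit 5) (nat_lit 344) (nat_lit 5) (nat_lit 333) (nat_lit 300) (nat_lit 267)) (XT.lf (nat_lit 0) (nat_lit 874939192) (nat_lit 912) (nat_lit 7177161487) (nat_lit 76) (nat_lit 93755901) (nat_lit 320) (nat_lit 5) (nat_lit 332) (nat_lit 5) (nat_lit 321) (nat_lit 5) (nat_lit 334) (nat_lit 300) (nat_lit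 266))) (XT.nd (nat_lit 78) (nat_lit 836) (nat_lit 0) (XT.lf (nat_lit 0) (nat_lit 482950504) (nat_lit 760) (nat_lit 4081384169) (nat_lit 836) (nat_lit 3685908523) (nat_lit 310) (nat_lit 5) (nat_lit 320) (nat_lit 5) (nat_lit 321) (nat_lit 5) (nat_lit 335) (nat_lit 300) (nat_lit 265)) (XT.nd (nat_lit 78) (nat_lit 76) (nat_lit 0) (XT.lf (nat_lit 0) (nat_lit 17670390) (nat_lit 760) (nat_lit 8309147650) (nat_lit 836) (nat_lit 31732418) (nat_lit 300) (nat_lit 5) (nat_lit 310) (nat_lit 5) (nat_lit 311) (nat_lit 5) (nat_lit 336) (nat_lit 300) (nat_lit 264)) (XT.lf (nat_lit 0) (nat_lit 3677990204) (nat_lit 836) (nat_lit 474534030) (nat_lit 76) (nat_lit 4317236102) (nat_lit 299) (nat_lit 5) (nat_lit 310) (nat_lit 5) (nat_lit 300) (nat_lit 5) (nat_lit 337) (nat_lit 300) (nat_lit 263))))) (XT.nd (nat_lit 156) (nat_lit 2052) (nat_lit 0) (XT.nd (nat_lit 78) (nat_lit 836) (nat_lit 0) (XT.lf (nat_lit 0) (nat_lit 7466321332)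 (nat_lit 760) (nat_lit 951694452) (nat_lit 76) (nat_lit 166965922) (nat_lit 290) (nat_lit 5) (nat_lit 300) (nat_lit 5) (nat_lit 291) (nat_lit 5) (nat_lit 338) (nat_lit 300) (nat_lit 262)) (XT.lf (nat_lit 0) (nat_lit 2626623489) (nat_lit 836) (nat_lit 1459729590) (nat_lit 76) (nat_lit 4617054758) (nat_lit 279) (nat_lit 5) (nat_lit 290) (nat_lit 5) (nat_lit 280) (nat_lit 5) (nat_lit 339) (nat_lit 300) (nat_lit 261))) (XT.nd (nat_lit 78) (nat_lit 1368) (nat_lit 0) (XT.lf (nat_lit 0) (nat_lit 6442978606) (nat_lit 760) (nat_lit 1966390882) (nat_lit 76) (nat_lit 416422901) (nat_lit 270) (nat_lit 5) (nat_lit 280) (nat_lit 5) (nat_lit 271) (nat_lit 5) (nat_lit 340) (nat_lit 300) (nat_lit 260)) (XT.nd (nat_lit 78) (nat_lit 608) (nat_lit 0) (XT.lf (nat_lit 0) (nat_lit 1404222752) (nat_lit 760) (nat_lit 2500282174) (nat_lit 76) (nat_lit 5047171190) (nat_lit 260) (nat_lit 5) (nat_lit 270) (nat_lit 5) (nat_lit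 261) (nat_lit 5) (nat_lit 341) (nat_lit 300) (nat_lit 259)) (XT.lf (nat_lit 0) (nat_lit 5253267361) (nat_lit 684) (nat_lit 3048448202) (nat_lit 76) (nat_lit 779719715) (nat_lit 252) (nat_lit 5) (nat_lit 261) (nat_lit 5) (nat_lit 253) (nat_lit 5) (nat_lit 342) (nat_lit 300) (nat_lit 258))))))) (XT.nd (nat_lit 780) (nat_lit 4028) (nat_lit 0) (XT.nd (nat_lit 390) (nat_lit 2660) (nat_lit 0) (XT.nd (nat_lit 156) (nat_lit 1824) (nat_lit 0) (XT.nd (nat_lit 78) (nat_lit 608) (nat_lit 0) (XT.lf (nat_lit 0) (nat_lit 6554855) (nat_lit 684) (nat_lit 3618620927) (nat_lit 76) (nat_lit 5589861121) (nat_lit 243) (nat_lit 5) (nat_lit 252) (nat_lit 5) (nat_lit 244) (nat_lit 5) (nat_lit 343) (nat_lit 300) (nat_lit 257)) (XT.lf (nat_lit 0) (nat_lit 3892411956) (nat_lit 684) (nat_lit 4220891024) (nat_lit 76) (nat_lit 1239102571) (nat_lit 235) (nat_lit 5) (nat_lit 244) (nat_lit 5) (nat_lit 236) (nat_lit 5) (nat_lit 344)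 (nat_lit 300) (nat_lit 256))) (XT.nd (nat_lit 78) (nat_lit 1216) (nat_lit 0) (XT.lf (nat_lit 0) (nat_lit 4644953251) (nat_lit 608) (nat_lit 3255933780) (nat_lit 684) (nat_lit 1592913700) (nat_lit 227) (nat_lit 5) (nat_lit 235) (nat_lit 5) (nat_lit 236) (nat_lit 5) (nat_lit 345) (nat_lit 300) (nat_lit 255)) (XT.nd (nat_lit 78) (nat_lit 608) (nat_lit 0) (XT.lf (nat_lit 0) (nat_lit 2354210952) (nat_lit 608) (nat_lit 5508191120) (nat_lit 76) (nat_lit 1776842773) (nat_lit 219) (nat_lit 5) (nat_lit 227) (nat_lit 5) (nat_lit 220) (nat_lit 5) (nat_lit 346) (nat_lit 300) (nat_lit 254)) (XT.lf (nat_lit 0) (nat_lit 3581496140) (nat_lit 608) (nat_lit 2824225099) (nat_lit 684) (nat_lit 3382992514) (nat_lit 211) (nat_lit 5) (nat_lit 219) (nat_lit 5) (nat_lit 220) (nat_lit 5) (nat_lit 347) (nat_lit 300) (nat_lit 253))))) (XT.nd (nat_lit 156) (nat_lit 1520) (nat_lit 0) (XT.nd (nat_lit 78) (nat_lit 532) (nat_lit 0)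 (XT.lf (nat_lit 0) (nat_lit 630966967) (nat_lit 608) (nat_lit 6936503782) (nat_lit 76) (nat_lit 2375072536) (nat_lit 203) (nat_lit 5) (nat_lit 211) (nat_lit 5) (nat_lit 204) (nat_lit 5) (nat_lit 348) (nat_lit 300) (nat_lit 252)) (XT.lf (nat_lit 0) (nat_lit 2379523070) (nat_lit 532) (nat_lit 2348493012) (nat_lit 608) (nat_lit 5372374216) (nat_lit 196) (nat_lit 5) (nat_lit 203) (nat_lit 5) (nat_lit 204) (nat_lit 5) (nat_lit 349) (nat_lit 300) (nat_lit 251))) (XT.nd (nat_lit 78) (nat_lit 1064) (nat_lit 0) (XT.lf (nat_lit 0) (nat_lit 1720385426) (nat_lit 456) (nat_lit 7238692433) (nat_lit 532) (nat_lit 1303694659) (nat_lit 190) (nat_lit 5) (nat_lit 196) (nat_lit 5) (nat_lit 197) (nat_lit 5) (nat_lit 350) (nat_lit 300) (nat_lit 250)) (XT.nd (nat_lit 78) (nat_lit 456) (nat_lit 0) (XT.lf (nat_lit 0) (nat_lit 1010440321) (nat_lit 532) (nat_lit 1847555590) (nat_lit 608) (nat_lit 7571499876) (nat_lit 182) (nat_lit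 5) (nat_lit 189) (nat_lit 5) (nat_lit 190) (nat_lit 5) (nat_lit 351) (nat_lit 300) (nat_lit 249)) (XT.lf (nat_lit 0) (nat_lit 247500360) (nat_lit 456) (nat_lit 6898444294) (nat_lit 532) (nat_lit 3454741524) (nat_lit 176) (nat_lit 5) (nat_lit 182) (nat_lit 5) (nat_lit 183) (nat_lit 5) (nat_lit 352) (nat_lit 300) (nat_lit 248)))))) (XT.nd (nat_lit 390) (nat_lit 2128) (nat_lit 0) (XT.nd (nat_lit 156) (nat_lit 1368) (nat_lit 0) (XT.nd (nat_lit 78) (nat_lit 456) (nat_lit 0) (XT.lf (nat_lit 0) (nat_lit 787786808) (nat_lit 532) (nat_lit 549358527) (nat_lit 76) (nat_lit 9439532749) (nat_lit 175) (nat_lit 5) (nat_lit 182) (nat_lit 5) (nat_lit 176) (nat_lit 5) (nat_lit 353) (nat_lit 300) (nat_lit 247)) (XT.lf (nat_lit 0) (nat_lit 5139770864) (nat_lit 532) (nat_lit 1421644177) (nat_lit 76) (nat_lit 4395514298) (nat_lit 169) (nat_lit 5) (nat_lit 176) (nat_lit 5) (nat_lit 170) (nat_lit 5) (nat_lit 354) (nat_lit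 300) (nat_lit 246))) (XT.nd (nat_lit 78) (nat_lit 912) (nat_lit 0) (XT.lf (nat_lit 0) (nat_lit 8808201997) (nat_lit 456) (nat_lit 822926251) (nat_lit 532) (nat_lit 1511301699) (nat_lit 163) (nat_lit 5) (nat_lit 169) (nat_lit 5) (nat_lit 170) (nat_lit 5) (nat_lit 355) (nat_lit 300) (nat_lit 245)) (XT.nd (nat_lit 78) (nat_lit 380) (nat_lit 0) (XT.lf (nat_lit 0) (nat_lit 2920391167) (nat_lit 532) (nat_lit 3334362211) (nat_lit 76) (nat_lit 5077679645) (nat_lit 156) (nat_lit 5) (nat_lit 163) (nat_lit 5) (nat_lit 157) (nat_lit 5) (nat_lit 356) (nat_lit 300) (nat_lit 244)) (XT.lf (nat_lit 0) (nat_lit 7137459089) (nat_lit 380) (nat_lit 335728276) (nat_lit 456) (nat_lit 4054592049) (nat_lit 151) (nat_lit 5) (nat_lit 156) (nat_lit 5) (nat_lit 157) (nat_lit 5) (nat_lit 357) (nat_lit 300) (nat_lit 243))))) (XT.nd (nat_lit 156) (nat_lit 1216) (nat_lit 0) (XT.nd (nat_lit 78) (nat_lit 380) (nat_lit 0) (XT.lf (nat_lit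 0) (nat_lit 470376825) (nat_lit 532) (nat_lit 5531491281) (nat_lit 76) (nat_lit 5726228060) (nat_lit 144) (nat_lit 5) (nat_lit 151) (nat_lit 5) (nat_lit 145) (nat_lit 5) (nat_lit 358) (nat_lit 300) (nat_lit 242)) (XT.lf (nat_lit 0) (nat_lit 5085369114) (nat_lit 456) (nat_lit 6752493609) (nat_lit 76) (nat_lit 95851923) (nat_lit 139) (nat_lit 5) (nat_lit 145) (nat_lit 5) (nat_lit 140) (nat_lit 5) (nat_lit 359) (nat_lit 300) (nat_lit 241))) (XT.nd (nat_lit 78) (nat_lit 836) (nat_lit 0) (XT.lf (nat_lit 0) (nat_lit 4075794384) (nat_lit 380) (nat_lit 5810892839) (nat_lit 456) (nat_lit 2257871938) (nat_lit 134) (nat_lit 5) (nat_lit 139) (nat_lit 5) (nat_lit 140) (nat_lit 5) (nat_lit 360) (nat_lit 300) (nat_lit 240)) (XT.nd (nat_lit 78) (nat_lit 380) (nat_lit 0) (XT.lf (nat_lit 0) (nat_lit 2450011814) (nat_lit 456) (nat_lit 9464899326) (nat_lit 76) (nat_lit 446269477) (nat_lit 128) (nat_lit 5) (nat_lit 134)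 (nat_lit 5) (nat_lit 129) (nat_lit 5) (nat_lit 361) (nat_lit 300) (nat_lit 239)) (XT.lf (nat_lit 0) (nat_lit 1601664215) (nat_lit 380) (nat_lit 5716457382) (nat_lit 456) (nat_lit 5264901187) (nat_lit 123) (nat_lit 5) (nat_lit 128) (nat_lit 5) (nat_lit 129) (nat_lit 5) (nat_lit 362) (nat_lit 300) (nat_lit 238))))))))
noncomputable def xc49 : XT := (XT.nd (nat_lit 1560) (nat_lit 456) (nat_lit 0) (XT.nd (nat_lit 780) (nat_lit 2432) (nat_lit 0) (XT.nd (nat_lit 390) (nat_lit 1368) (nat_lit 0) (XT.nd (nat_lit 156) (nat_lit 1064) (nat_lit 0) (XT.nd (nat_lit 78) (nat_lit 76) (nat_lit 0) (XT.lf (nat_lit 0) (nat_lit 235765490) (nat_lit 304) (nat_lit 12113022047) (nat_lit 380) (nat_lit 462415882) (nat_lit 119) (nat_lit 5) (nat_lit 123) (nat_lit 5) (nat_lit 124) (nat_lit 5) (nat_lit 363) (nat_lit 300) (nat_lit 237)) (XT.lf (nat_lit 0) (nat_lit 4485234408) (nat_lit 380) (nat_lit 1254356136) (nat_lit 76) (nat_lit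 7304871441) (nat_lit 118) (nat_lit 5) (nat_lit 123) (nat_lit 5) (nat_lit 119) (nat_lit 5) (nat_lit 364) (nat_lit 300) (nat_lit 236))) (XT.nd (nat_lit 78) (nat_lit 684) (nat_lit 0) (XT.lf (nat_lit 0) (nat_lit 9596955286) (nat_lit 456) (nat_lit 2828648576) (nat_lit 76) (nat_lit 858627281) (nat_lit 113) (nat_lit 5) (nat_lit 119) (nat_lit 5) (nat_lit 114) (nat_lit 5) (nat_lit 365) (nat_lit 300) (nat_lit 235)) (XT.nd (nat_lit 78) (nat_lit 304) (nat_lit 0) (XT.lf (nat_lit 0) (nat_lit 1368268855) (nat_lit 380) (nat_lit 4535191402) (nat_lit 76) (nat_lit 7626474373) (nat_lit 108) (nat_lit 5) (nat_lit 113) (nat_lit 5) (nat_lit 109) (nat_lit 5) (nat_lit 366) (nat_lit 300) (nat_lit 234)) (XT.lf (nat_lit 0) (nat_lit 6548656215) (nat_lit 380) (nat_lit 6364486601) (nat_lit 76) (nat_lit 868925001) (nat_lit 104) (nat_lit 5) (nat_lit 109) (nat_lit 5) (nat_lit 105) (nat_lit 5) (nat_lit 367) (nat_lit 300) (nat_lit 233)))))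 (XT.nd (nat_lit 156) (nat_lit 684) (nat_lit 0) (XT.nd (nat_lit 78) (nat_lit 380) (nat_lit 0) (XT.lf (nat_lit 0) (nat_lit 5707393829) (nat_lit 304) (nat_lit 6235094328) (nat_lit 380) (nat_lit 2098127342) (nat_lit 100) (nat_lit 5) (nat_lit 104) (nat_lit 5) (nat_lit 105) (nat_lit 5) (nat_lit 368) (nat_lit 300) (nat_lit 232)) (XT.lf (nat_lit 0) (nat_lit 3173695611) (nat_lit 380) (nat_lit 10435436245) (nat_lit 76) (nat_lit 696897315) (nat_lit 95) (nat_lit 5) (nat_lit 100) (nat_lit 5) (nat_lit 96) (nat_lit 5) (nat_lit 369) (nat_lit 300) (nat_lit 231))) (XT.nd (nat_lit 78) (nat_lit 380) (nat_lit 0) (XT.lf (nat_lit 0) (nat_lit 1868132337) (nat_lit 304) (nat_lit 6769789940) (nat_lit 380) (nat_lit 5939960830) (nat_lit 91) (nat_lit 5) (nat_lit 95) (nat_lit 5) (nat_lit 96) (nat_lit 5) (nat_lit 370) (nat_lit 300) (nat_lit 230)) (XT.nd (nat_lit 78) (nat_lit 380) (nat_lit 0) (XT.lf (nat_lit 0) (nat_lit 14291693212)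 (nat_lit 380) (nat_lit 251187738) (nat_lit 76) (nat_lit 314509372) (nat_lit 91) (nat_lit 5) (nat_lit 96) (nat_lit 5) (nat_lit 92) (nat_lit 5) (nat_lit 371) (nat_lit 300) (nat_lit 229)) (XT.lf (nat_lit 0) (nat_lit 4986433435) (nat_lit 380) (nat_lit 2548890017) (nat_lit 76) (nat_lit 7607687112) (nat_lit 86) (nat_lit 5) (nat_lit 91) (nat_lit 5) (nat_lit 87) (nat_lit 5) (nat_lit 372) (nat_lit 300) (nat_lit 228)))))) (XT.nd (nat_lit 390) (nat_lit 1216) (nat_lit 0) (XT.nd (nat_lit 156) (nat_lit 608) (nat_lit 0) (XT.nd (nat_lit 78) (nat_lit 380) (nat_lit 0) (XT.lf (nat_lit 0) (nat_lit 10451029381) (nat_lit 228) (nat_lit 270614770) (nat_lit 304) (nat_lit 4715005693) (nat_lit 83) (nat_lit 5) (nat_lit 86) (nat_lit 5) (nat_lit 87) (nat_lit 5) (nat_lit 373) (nat_lit 300) (nat_lit 227)) (XT.lf (nat_lit 0) (nat_lit 950834600) (nat_lit 380) (nat_lit 7620065434) (nat_lit 76) (nat_lit 7166637693) (nat_lit 78) (nat_lit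 5) (nat_lit 83) (nat_lit 5) (nat_lit 79) (nat_lit 5) (nat_lit 374) (nat_lit 300) (nat_lit 226))) (XT.nd (nat_lit 78) (nat_lit 380) (nat_lit 0) (XT.lf (nat_lit 0) (nat_lit 5602791536) (nat_lit 228) (nat_lit 1148163435) (nat_lit 304) (nat_lit 9295315234) (nat_lit 75) (nat_lit 5) (nat_lit 78) (nat_lit 5) (nat_lit 79) (nat_lit 5) (nat_lit 375) (nat_lit 300) (nat_lit 225)) (XT.nd (nat_lit 78) (nat_lit 76) (nat_lit 0) (XT.lf (nat_lit 0) (nat_lit 2886969448) (nat_lit 304) (nat_lit 9907465467) (nat_lit 380) (nat_lit 3568450925) (nat_lit 71) (nat_lit 5) (nat_lit 75) (nat_lit 5) (nat_lit 76) (nat_lit 5) (nat_lit 376) (nat_lit 300) (nat_lit 224)) (XT.lf (nat_lit 0) (nat_lit 2335541753) (nat_lit 380) (nat_lit 21767331) (nat_lit 76) (nat_lit 14330678499) (nat_lit 70) (nat_lit 5) (nat_lit 75) (nat_lit 5) (nat_lit 71) (nat_lit 5) (nat_lit 377) (nat_lit 300) (nat_lit 223))))) (XT.nd (nat_lit 156) (nat_lit 760) (nat_lit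 0) (XT.nd (nat_lit 78) (nat_lit 228) (nat_lit 0) (XT.lf (nat_lit 0) (nat_lit 8452851082) (nat_lit 304) (nat_lit 3131501410) (nat_lit 76) (nat_lit 5436332245) (nat_lit 67) (nat_lit 5) (nat_lit 71) (nat_lit 5) (nat_lit 68) (nat_lit 5) (nat_lit 378) (nat_lit 300) (nat_lit 222)) (XT.lf (nat_lit 0) (nat_lit 10913115805) (nat_lit 228) (nat_lit 3886153828) (nat_lit 304) (nat_lit 2563188821) (nat_lit 64) (nat_lit 5) (nat_lit 67) (nat_lit 5) (nat_lit 68) (nat_lit 5) (nat_lit 379) (nat_lit 300) (nat_lit 221))) (XT.nd (nat_lit 78) (nat_lit 456) (nat_lit 0) (XT.lf (nat_lit 0) (nat_lit 3631573197) (nat_lit 304) (nat_lit 10022753539) (nat_lit 76) (nat_lit 4058545945) (nat_lit 60) (nat_lit 5) (nat_lit 64) (nat_lit 5) (nat_lit 61) (nat_lit 5) (nat_lit 380) (nat_lit 300) (nat_lit 220)) (XT.nd (nat_lit 78) (nat_lit 228) (nat_lit 0) (XT.lf (nat_lit 0) (nat_lit 4213352239) (nat_lit 228) (nat_lit 5821419989) (nat_lit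 304) (nat_lit 8037546778) (nat_lit 57) (nat_lit 5) (nat_lit 60) (nat_lit 5) (nat_lit 61) (nat_lit 5) (nat_lit 381) (nat_lit 300) (nat_lit 219)) (XT.lf (nat_lit 0) (nat_lit 496897324) (nat_lit 228) (nat_lit 16179792131) (nat_lit 304) (nat_lit 1764933502) (nat_lit 54) (nat_lit 5) (nat_lit 57) (nat_lit 5) (nat_lit 58) (nat_lit 5) (nat_lit 382) (nat_lit 300) (nat_lit 218))))))) (XT.nd (nat_lit 41028) (nat_lit 0) (nat_lit 40660) (XT.nd (nat_lit 40638) (nat_lit 0) (nat_lit 46816) (XT.nd (nat_lit 156) (nat_lit 152) (nat_lit 0) (XT.nd (nat_lit 78) (nat_lit 228) (nat_lit 0) (XT.lf (nat_lit 0) (nat_lit 4728639340) (nat_lit 304) (nat_lit 3483592594) (nat_lit 76) (nat_lit 10607283318) (nat_lit 53) (nat_lit 5) (nat_lit 57) (nat_lit 5) (nat_lit 54) (nat_lit 5) (nat_lit 383) (nat_lit 300) (nat_lit 217)) (XT.lf (nat_lit 0) (nat_lit 11430153606) (nat_lit 304) (nat_lit 7722563493) (nat_lit 76) (nat_lit 55057810) (nat_lit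 50) (nat_lit 5) (nat_lit 54) (nat_lit 5) (nat_lit 51) (nat_lit 5) (nat_lit 384) (nat_lit 300) (nat_lit 216))) (XT.nd (nat_lit 40326) (nat_lit 0) (nat_lit 47956) (XT.lf (nat_lit 0) (nat_lit 7320327416) (nat_lit 152) (nat_lit 11101159194) (nat_lit 228) (nat_lit 1184426274) (nat_lit 48) (nat_lit 5) (nat_lit 50) (nat_lit 5) (nat_lit 51) (nat_lit 5) (nat_lit 385) (nat_lit 300) (nat_lit 215)) (XT.nd (nat_lit 78) (nat_lit 228) (nat_lit 0) (XT.lf (nat_lit 0) (nat_lit 1293795269) (nat_lit 228) (nat_lit 964727284) (nat_lit 228) (nat_lit 964727284) (nat_lit 682) (nat_lit 3) (nat_lit 685) (nat_lit 3) (nat_lit 685) (nat_lit 5) (nat_lit 301) (nat_lit 301) (nat_lit 298)) (XT.lf (nat_lit 0) (nat_lit 532395170) (nat_lit 228) (nat_lit 3722718960) (nat_lit 304) (nat_lit 2197201189) (nat_lit 679) (nat_lit 5) (nat_lit 682) (nat_lit 3) (nat_lit 683) (nat_lit 5) (nat_lit 302) (nat_lit 301) (nat_lit 297))))) (XT.nd (nat_lit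 156) (nat_lit 836) (nat_lit 0) (XT.nd (nat_lit 78) (nat_lit 304) (nat_lit 0) (XT.lf (nat_lit 76) (nat_lit 993757254) (nat_lit 0) (nat_lit 3857655115) (nat_lit 304) (nat_lit 1609548914) (nat_lit 680) (nat_lit 5) (nat_lit 679) (nat_lit 5) (nat_lit 683) (nat_lit 5) (nat_lit 303) (nat_lit 301) (nat_lit 296)) (XT.lf (nat_lit 0) (nat_lit 2650082726) (nat_lit 304) (nat_lit 676289782) (nat_lit 380) (nat_lit 3146112843) (nat_lit 675) (nat_lit 5) (nat_lit 679) (nat_lit 5) (nat_lit 680) (nat_lit 5) (nat_lit 304) (nat_lit 301) (nat_lit 295))) (XT.nd (nat_lit 78) (nat_lit 456) (nat_lit 0) (XT.lf (nat_lit 0) (nat_lit 387564314) (nat_lit 380) (nat_lit 2275091293) (nat_lit 456) (nat_lit 3824278331) (nat_lit 670) (nat_lit 5) (nat_lit 675) (nat_lit 5) (nat_lit 676) (nat_lit 5) (nat_lit 305) (nat_lit 301) (nat_lit 294)) (XT.nd (nat_lit 78) (nat_lit 456) (nat_lit 0) (XT.lf (nat_lit 76) (nat_lit 2674401721) (nat_lit 0)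 (nat_lit 1859368495) (nat_lit 456) (nat_lit 1970420904) (nat_lit 671) (nat_lit 5) (nat_lit 670) (nat_lit 5) (nat_lit 676) (nat_lit 5) (nat_lit 306) (nat_lit 301) (nat_lit 293)) (XT.lf (nat_lit 76) (nat_lit 1192593929) (nat_lit 0) (nat_lit 925682442) (nat_lit 532) (nat_lit 4406189197) (nat_lit 665) (nat_lit 5) (nat_lit 664) (nat_lit 5) (nat_lit 671) (nat_lit 5) (nat_lit 307) (nat_lit 301) (nat_lit 292)))))) (XT.nd (nat_lit 390) (nat_lit 3724) (nat_lit 0) (XT.nd (nat_lit 156) (nat_lit 1976) (nat_lit 0) (XT.nd (nat_lit 78) (nat_lit 532) (nat_lit 0) (XT.lf (nat_lit 0) (nat_lit 6176359097) (nat_lit 456) (nat_lit 232469456) (nat_lit 76) (nat_lit 138898252) (nat_lit 665) (nat_lit 5) (nat_lit 671) (nat_lit 5) (nat_lit 666) (nat_lit 5) (nat_lit 308) (nat_lit 301) (nat_lit 291)) (XT.lf (nat_lit 0) (nat_lit 3624059823) (nat_lit 532) (nat_lit 1608113785) (nat_lit 76) (nat_lit 1341340620) (nat_lit 658) (nat_lit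 5) (nat_lit 665) (nat_lit 5) (nat_lit 659) (nat_lit 5) (nat_lit 309) (nat_lit 301) (nat_lit 290))) (XT.nd (nat_lit 78) (nat_lit 1368) (nat_lit 0) (XT.lf (nat_lit 0) (nat_lit 998137418) (nat_lit 608) (nat_lit 2931045332) (nat_lit 76) (nat_lit 2673220136) (nat_lit 650) (nat_lit 5) (nat_lit 658) (nat_lit 5) (nat_lit 651) (nat_lit 5) (nat_lit 310) (nat_lit 301) (nat_lit 289)) (XT.nd (nat_lit 78) (nat_lit 760) (nat_lit 0) (XT.lf (nat_lit 0) (nat_lit 2420663695) (nat_lit 608) (nat_lit 2487108018) (nat_lit 684) (nat_lit 1726418675) (nat_lit 642) (nat_lit 5) (nat_lit 650) (nat_lit 5) (nat_lit 651) (nat_lit 5) (nat_lit 311) (nat_lit 301) (nat_lit 288)) (XT.lf (nat_lit 0) (nat_lit 1216547073) (nat_lit 684) (nat_lit 908714813) (nat_lit 760) (nat_lit 4543721553) (nat_lit 632) (nat_lit 5) (nat_lit 641) (nat_lit 5) (nat_lit 642) (nat_lit 5) (nat_lit 312) (nat_lit 301) (nat_lit 287))))) (XT.nd (nat_lit 156) (nat_lit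 2888) (nat_lit 0) (XT.nd (nat_lit 78) (nat_lit 76) (nat_lit 0) (XT.lf (nat_lit 0) (nat_lit 54549062) (nat_lit 760) (nat_lit 5911545482) (nat_lit 836) (nat_lit 740644918) (nat_lit 622) (nat_lit 5) (nat_lit 632) (nat_lit 5) (nat_lit 633) (nat_lit 5) (nat_lit 313) (nat_lit 301) (nat_lit 286)) (XT.lf (nat_lit 0) (nat_lit 3043729267) (nat_lit 836) (nat_lit 1063548934) (nat_lit 76) (nat_lit 2639844454) (nat_lit 621) (nat_lit 5) (nat_lit 632) (nat_lit 5) (nat_lit 622) (nat_lit 5) (nat_lit 314) (nat_lit 301) (nat_lit 285))) (XT.nd (nat_lit 78) (nat_lit 1976) (nat_lit 0) (XT.lf (nat_lit 0) (nat_lit 40148727) (nat_lit 912) (nat_lit 2132453477) (nat_lit 76) (nat_lit 4618097476) (nat_lit 609) (nat_lit 5) (nat_lit 621) (nat_lit 5) (nat_lit 610) (nat_lit 5) (nat_lit 315) (nat_lit 301) (nat_lit 284)) (XT.nd (nat_lit 78) (nat_lit 1064) (nat_lit 0) (XT.lf (nat_lit 0) (nat_lit 3663349358) (nat_lit 912) (nat_lit 85473144)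 (nat_lit 988) (nat_lit 3088287019) (nat_lit 597) (nat_lit 5) (nat_lit 609) (nat_lit 5) (nat_lit 610) (nat_lit 5) (nat_lit 316) (nat_lit 301) (nat_lit 283)) (XT.lf (nat_lit 0) (nat_lit 595004704) (nat_lit 1064) (nat_lit 4182915081) (nat_lit 76) (nat_lit 2108574639) (nat_lit 583) (nat_lit 5) (nat_lit 597) (nat_lit 5) (nat_lit 584) (nat_lit 5) (nat_lit 317) (nat_lit 301) (nat_lit 282))))))))
noncomputable def xc50 : XT := (XT.nd (nat_lit 1560) (nat_lit 11248) (nat_lit 0) (XT.nd (nat_lit 780) (nat_lit 8892) (nat_lit 0) (XT.nd (nat_lit 390) (nat_lit 7828) (nat_lit 0) (XT.nd (nat_lit 156) (nat_lit 2584) (nat_lit 0) (XT.nd (nat_lit 78) (nat_lit 1216) (nat_lit 0) (XT.lf (nat_lit 0) (nat_lit 1773401531) (nat_lit 1064) (nat_lit 2484778350) (nat_lit 1140) (nat_lit 2680617855) (nat_lit 569) (nat_lit 5) (nat_lit 583) (nat_lit 5) (nat_lit 584) (nat_lit 5) (nat_lit 318) (nat_lit 301) (nat_lit 281)) (XT.lf (nat_lit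 0) (nat_lit 885832859) (nat_lit 1140) (nat_lit 52900008) (nat_lit 1216) (nat_lit 6055595454) (nat_lit 553) (nat_lit 5) (nat_lit 568) (nat_lit 5) (nat_lit 569) (nat_lit 5) (nat_lit 319) (nat_lit 301) (nat_lit 280))) (XT.nd (nat_lit 78) (nat_lit 1368) (nat_lit 0) (XT.lf (nat_lit 0) (nat_lit 11038565) (nat_lit 1216) (nat_lit 4553222368) (nat_lit 1292) (nat_lit 2488295716) (nat_lit 537) (nat_lit 5) (nat_lit 553) (nat_lit 5) (nat_lit 554) (nat_lit 5) (nat_lit 320) (nat_lit 301) (nat_lit 279)) (XT.nd (nat_lit 78) (nat_lit 1292) (nat_lit 0) (XT.lf (nat_lit 0) (nat_lit 1097072006) (nat_lit 1292) (nat_lit 815846858) (nat_lit 76) (nat_lit 5200990189) (nat_lit 536) (nat_lit 5) (nat_lit 553) (nat_lit 5) (nat_lit 537) (nat_lit 5) (nat_lit 321) (nat_lit 301) (nat_lit 278)) (XT.lf (nat_lit 0) (nat_lit 4686168209) (nat_lit 1368) (nat_lit 1622033515) (nat_lit 76) (nat_lit 870033351) (nat_lit 519) (nat_lit 5) (nat_lit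 537) (nat_lit 5) (nat_lit 520) (nat_lit 5) (nat_lit 322) (nat_lit 301) (nat_lit 277))))) (XT.nd (nat_lit 156) (nat_lit 4940) (nat_lit 0) (XT.nd (nat_lit 78) (nat_lit 1444) (nat_lit 0) (XT.lf (nat_lit 0) (nat_lit 1063636267) (nat_lit 1444) (nat_lit 2407586406) (nat_lit 76) (nat_lit 3774376469) (nat_lit 500) (nat_lit 5) (nat_lit 519) (nat_lit 5) (nat_lit 501) (nat_lit 5) (nat_lit 323) (nat_lit 301) (nat_lit 276)) (XT.lf (nat_lit 0) (nat_lit 4145165364) (nat_lit 1444) (nat_lit 477748025) (nat_lit 1520) (nat_lit 2693182890) (nat_lit 481) (nat_lit 5) (nat_lit 500) (nat_lit 5) (nat_lit 501) (nat_lit 5) (nat_lit 324) (nat_lit 301) (nat_lit 275))) (XT.nd (nat_lit 78) (nat_lit 3344) (nat_lit 0) (XT.lf (nat_lit 0) (nat_lit 839204554) (nat_lit 1596) (nat_lit 3920155329) (nat_lit 76) (nat_lit 2630270594) (nat_lit 460) (nat_lit 5) (nat_lit 481) (nat_lit 5) (nat_lit 461) (nat_lit 5) (nat_lit 325) (nat_lit 301)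 (nat_lit 274)) (XT.nd (nat_lit 78) (nat_lit 1748) (nat_lit 0) (XT.lf (nat_lit 0) (nat_lit 2810631794) (nat_lit 1596) (nat_lit 1570580889) (nat_lit 1672) (nat_lit 3085049696) (nat_lit 439) (nat_lit 5) (nat_lit 460) (nat_lit 5) (nat_lit 461) (nat_lit 5) (nat_lit 326) (nat_lit 301) (nat_lit 273)) (XT.lf (nat_lit 0) (nat_lit 428994482) (nat_lit 1748) (nat_lit 5372521586) (nat_lit 76) (nat_lit 1744643087) (nat_lit 416) (nat_lit 5) (nat_lit 439) (nat_lit 5) (nat_lit 417) (nat_lit 5) (nat_lit 327) (nat_lit 301) (nat_lit 272)))))) (XT.nd (nat_lit 390) (nat_lit 4180) (nat_lit 0) (XT.nd (nat_lit 156) (nat_lit 1900) (nat_lit 0) (XT.nd (nat_lit 78) (nat_lit 1064) (nat_lit 0) (XT.lf (nat_lit 0) (nat_lit 1539618795) (nat_lit 1748) (nat_lit 2420489180) (nat_lit 1824) (nat_lit 3668914295) (nat_lit 393) (nat_lit 5) (nat_lit 416) (nat_lit 5) (nat_lit 417) (nat_lit 5) (nat_lit 328) (nat_lit 301) (nat_lit 271)) (XT.lf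 (nat_lit 0) (nat_lit 930664102) (nat_lit 1064) (nat_lit 6619463751) (nat_lit 1140) (nat_lit 165231062) (nat_lit 379) (nat_lit 5) (nat_lit 393) (nat_lit 5) (nat_lit 394) (nat_lit 5) (nat_lit 329) (nat_lit 301) (nat_lit 270))) (XT.nd (nat_lit 78) (nat_lit 912) (nat_lit 0) (XT.lf (nat_lit 0) (nat_lit 313298716) (nat_lit 912) (nat_lit 3049794441) (nat_lit 988) (nat_lit 4441496308) (nat_lit 366) (nat_lit 5) (nat_lit 378) (nat_lit 5) (nat_lit 379) (nat_lit 5) (nat_lit 330) (nat_lit 301) (nat_lit 269)) (XT.nd (nat_lit 78) (nat_lit 912) (nat_lit 0) (XT.lf (nat_lit 0) (nat_lit 6952502007) (nat_lit 988) (nat_lit 277570445) (nat_lit 76) (nat_lit 667296564) (nat_lit 366) (nat_lit 5) (nat_lit 379) (nat_lit 5) (nat_lit 367) (nat_lit 5) (nat_lit 331) (nat_lit 301) (nat_lit 268)) (XT.lf (nat_lit 0) (nat_lit 2598162955) (nat_lit 912) (nat_lit 875683824) (nat_lit 76) (nat_lit 4519254741) (nat_lit 354) (nat_lit 5) (nat_lit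 366) (nat_lit 5) (nat_lit 355) (nat_lit 5) (nat_lit 332) (nat_lit 301) (nat_lit 267))))) (XT.nd (nat_lit 156) (nat_lit 2432) (nat_lit 0) (XT.nd (nat_lit 78) (nat_lit 912) (nat_lit 0) (XT.lf (nat_lit 0) (nat_lit 6193837977) (nat_lit 912) (nat_lit 1458927687) (nat_lit 76) (nat_lit 439671819) (nat_lit 343) (nat_lit 5) (nat_lit 355) (nat_lit 5) (nat_lit 344) (nat_lit 5) (nat_lit 333) (nat_lit 301) (nat_lit 266)) (XT.lf (nat_lit 0) (nat_lit 1662524607) (nat_lit 912) (nat_lit 2054261397) (nat_lit 76) (nat_lit 4478140211) (nat_lit 331) (nat_lit 5) (nat_lit 343) (nat_lit 5) (nat_lit 332) (nat_lit 5) (nat_lit 334) (nat_lit 301) (nat_lit 265))) (XT.nd (nat_lit 78) (nat_lit 1596) (nat_lit 0) (XT.lf (nat_lit 0) (nat_lit 5268657953) (nat_lit 912) (nat_lit 2644838761) (nat_lit 76) (nat_lit 387499671) (nat_lit 320) (nat_lit 5) (nat_lit 332) (nat_lit 5) (nat_lit 321) (nat_lit 5) (nat_lit 335) (nat_lit 301) (nat_lit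 264)) (XT.nd (nat_lit 78) (nat_lit 760) (nat_lit 0) (XT.lf (nat_lit 0) (nat_lit 553982785) (nat_lit 836) (nat_lit 3246100021) (nat_lit 76) (nat_lit 4610351510) (nat_lit 309) (nat_lit 5) (nat_lit 320) (nat_lit 5) (nat_lit 310) (nat_lit 5) (nat_lit 336) (nat_lit 301) (nat_lit 263)) (XT.lf (nat_lit 0) (nat_lit 4176271631) (nat_lit 836) (nat_lit 3855111404) (nat_lit 76) (nat_lit 492014311) (nat_lit 299) (nat_lit 5) (nat_lit 310) (nat_lit 5) (nat_lit 300) (nat_lit 5) (nat_lit 337) (nat_lit 301) (nat_lit 262))))))) (XT.nd (nat_lit 780) (nat_lit 5168) (nat_lit 0) (XT.nd (nat_lit 390) (nat_lit 2508) (nat_lit 0) (XT.nd (nat_lit 156) (nat_lit 2052) (nat_lit 0) (XT.nd (nat_lit 78) (nat_lit 836) (nat_lit 0) (XT.lf (nat_lit 0) (nat_lit 4163684859) (nat_lit 684) (nat_lit 3737627349) (nat_lit 760) (nat_lit 738588746) (nat_lit 290) (nat_lit 5) (nat_lit 299) (nat_lit 5) (nat_lit 300) (nat_lit 5) (nat_lit 338) (nat_lit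 301) (nat_lit 261)) (XT.lf (nat_lit 0) (nat_lit 2914712430) (nat_lit 836) (nat_lit 5110313642) (nat_lit 76) (nat_lit 735007256) (nat_lit 279) (nat_lit 5) (nat_lit 290) (nat_lit 5) (nat_lit 280) (nat_lit 5) (nat_lit 339) (nat_lit 301) (nat_lit 260))) (XT.nd (nat_lit 78) (nat_lit 1368) (nat_lit 0) (XT.lf (nat_lit 0) (nat_lit 3118047066) (nat_lit 684) (nat_lit 3547729006) (nat_lit 760) (nat_lit 2217962817) (nat_lit 270) (nat_lit 5) (nat_lit 279) (nat_lit 5) (nat_lit 280) (nat_lit 5) (nat_lit 340) (nat_lit 301) (nat_lit 259)) (XT.nd (nat_lit 78) (nat_lit 608) (nat_lit 0) (XT.lf (nat_lit 0) (nat_lit 1480705958) (nat_lit 760) (nat_lit 6431961490) (nat_lit 76) (nat_lit 1098672325) (nat_lit 260) (nat_lit 5) (nat_lit 270) (nat_lit 5) (nat_lit 261) (nat_lit 5) (nat_lit 341) (nat_lit 301) (nat_lit 258)) (XT.lf (nat_lit 0) (nat_lit 2009458794) (nat_lit 608) (nat_lit 3252101189) (nat_lit 684) (nat_lit 3880916794)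 (nat_lit 252) (nat_lit 5) (nat_lit 260) (nat_lit 5) (nat_lit 261) (nat_lit 5) (nat_lit 342) (nat_lit 301) (nat_lit 257))))) (XT.nd (nat_lit 156) (nat_lit 1216) (nat_lit 0) (XT.nd (nat_lit 78) (nat_lit 684) (nat_lit 0) (XT.lf (nat_lit 0) (nat_lit 1434202945) (nat_lit 608) (nat_lit 7711471136) (nat_lit 684) (nat_lit 132104768) (nat_lit 244) (nat_lit 5) (nat_lit 252) (nat_lit 5) (nat_lit 253) (nat_lit 5) (nat_lit 343) (nat_lit 301) (nat_lit 256)) (XT.lf (nat_lit 0) (nat_lit 815029233) (nat_lit 608) (nat_lit 2868588241) (nat_lit 684) (nat_lit 5732997492) (nat_lit 235) (nat_lit 5) (nat_lit 243) (nat_lit 5) (nat_lit 244) (nat_lit 5) (nat_lit 344) (nat_lit 301) (nat_lit 255))) (XT.nd (nat_lit 78) (nat_lit 608) (nat_lit 0) (XT.lf (nat_lit 0) (nat_lit 180405317) (nat_lit 608) (nat_lit 7429142212) (nat_lit 684) (nat_lit 1950126103) (nat_lit 227) (nat_lit 5) (nat_lit 235) (nat_lit 5) (nat_lit 236) (nat_lit 5)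 (nat_lit 345) (nat_lit 301) (nat_lit 254)) (XT.nd (nat_lit 78) (nat_lit 532) (nat_lit 0) (XT.lf (nat_lit 0) (nat_lit 1928659697) (nat_lit 684) (nat_lit 483141823) (nat_lit 76) (nat_lit 7294835068) (nat_lit 226) (nat_lit 5) (nat_lit 235) (nat_lit 5) (nat_lit 227) (nat_lit 5) (nat_lit 346) (nat_lit 301) (nat_lit 253)) (XT.lf (nat_lit 0) (nat_lit 5904286680) (nat_lit 608) (nat_lit 1181465992) (nat_lit 76) (nat_lit 2771882121) (nat_lit 219) (nat_lit 5) (nat_lit 227) (nat_lit 5) (nat_lit 220) (nat_lit 5) (nat_lit 347) (nat_lit 301) (nat_lit 252)))))) (XT.nd (nat_lit 390) (nat_lit 2356) (nat_lit 0) (XT.nd (nat_lit 156) (nat_lit 1596) (nat_lit 0) (XT.nd (nat_lit 78) (nat_lit 608) (nat_lit 0) (XT.lf (nat_lit 0) (nat_lit 8108034996) (nat_lit 608) (nat_lit 1896655783) (nat_lit 684) (nat_lit 8384925) (nat_lit 211) (nat_lit 5) (nat_lit 219) (nat_lit 5) (nat_lit 220) (nat_lit 5) (nat_lit 348) (nat_lit 301) (nat_lit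 251)) (XT.lf (nat_lit 0) (nat_lit 4015725762) (nat_lit 608) (nat_lit 2689652607) (nat_lit 76) (nat_lit 3467017153) (nat_lit 203) (nat_lit 5) (nat_lit 211) (nat_lit 5) (nat_lit 204) (nat_lit 5) (nat_lit 349) (nat_lit 301) (nat_lit 250))) (XT.nd (nat_lit 78) (nat_lit 1064) (nat_lit 0) (XT.lf (nat_lit 0) (nat_lit 6833578840) (nat_lit 532) (nat_lit 1332528834) (nat_lit 608) (nat_lit 2170294100) (nat_lit 196) (nat_lit 5) (nat_lit 203) (nat_lit 5) (nat_lit 204) (nat_lit 5) (nat_lit 350) (nat_lit 301) (nat_lit 249)) (XT.nd (nat_lit 78) (nat_lit 532) (nat_lit 0) (XT.lf (nat_lit 0) (nat_lit 1932731328) (nat_lit 532) (nat_lit 4375080397) (nat_lit 76) (nat_lit 4196836397) (nat_lit 189) (nat_lit 5) (nat_lit 196) (nat_lit 5) (nat_lit 190) (nat_lit 5) (nat_lit 351) (nat_lit 301) (nat_lit 248)) (XT.lf (nat_lit 0) (nat_lit 5383987597) (nat_lit 532) (nat_lit 750982000) (nat_lit 608) (nat_lit 4542592770) (nat_lit 182)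 (nat_lit 5) (nat_lit 189) (nat_lit 5) (nat_lit 190) (nat_lit 5) (nat_lit 352) (nat_lit 301) (nat_lit 247))))) (XT.nd (nat_lit 156) (nat_lit 1368) (nat_lit 0) (XT.nd (nat_lit 78) (nat_lit 532) (nat_lit 0) (XT.lf (nat_lit 0) (nat_lit 4584104115) (nat_lit 456) (nat_lit 5909873730) (nat_lit 532) (nat_lit 361091146) (nat_lit 176) (nat_lit 5) (nat_lit 182) (nat_lit 5) (nat_lit 183) (nat_lit 5) (nat_lit 353) (nat_lit 301) (nat_lit 246)) (XT.lf (nat_lit 0) (nat_lit 3727767143) (nat_lit 456) (nat_lit 171312286) (nat_lit 532) (nat_lit 7138227603) (nat_lit 169) (nat_lit 5) (nat_lit 175) (nat_lit 5) (nat_lit 176) (nat_lit 5) (nat_lit 354) (nat_lit 301) (nat_lit 245))) (XT.nd (nat_lit 78) (nat_lit 912) (nat_lit 0) (XT.lf (nat_lit 0) (nat_lit 2801593114) (nat_lit 456) (nat_lit 5519527770) (nat_lit 532) (nat_lit 2903081726) (nat_lit 163) (nat_lit 5) (nat_lit 169) (nat_lit 5) (nat_lit 170) (nat_lit 5) (nat_lit 355)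 (nat_lit 301) (nat_lit 244)) (XT.nd (nat_lit 78) (nat_lit 380) (nat_lit 0) (XT.lf (nat_lit 0) (nat_lit 1446888932) (nat_lit 532) (nat_lit 9588259045) (nat_lit 76) (nat_lit 381246187) (nat_lit 156) (nat_lit 5) (nat_lit 163) (nat_lit 5) (nat_lit 157) (nat_lit 5) (nat_lit 356) (nat_lit 301) (nat_lit 243)) (XT.lf (nat_lit 0) (nat_lit 759304612) (nat_lit 380) (nat_lit 5170656888) (nat_lit 456) (nat_lit 5683181523) (nat_lit 151) (nat_lit 5) (nat_lit 156) (nat_lit 5) (nat_lit 157) (nat_lit 5) (nat_lit 357) (nat_lit 301) (nat_lit 242))))))))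
noncomputable def xc51 : XT := (XT.nd (nat_lit 1560) (nat_lit 1596) (nat_lit 0) (XT.nd (nat_lit 780) (nat_lit 2812) (nat_lit 0) (XT.nd (nat_lit 390) (nat_lit 1520) (nat_lit 0) (XT.nd (nat_lit 156) (nat_lit 1216) (nat_lit 0) (XT.nd (nat_lit 78) (nat_lit 532) (nat_lit 0) (XT.lf (nat_lit 0) (nat_lit 10562089178) (nat_lit 456) (nat_lit 354107835) (nat_lit 76) (nat_lit 899321834) (nat_lit 151) (nat_lit 5) (nat_lit 157) (nat_lit 5) (nat_lit 152) (nat_lit 5) (nat_lit 358) (nat_lit 301) (nat_lit 241)) (XT.lf (nat_lit 0) (nat_lit 3313919575) (nat_lit 532) (nat_lit 1560979284) (nat_lit 76) (nat_lit 7147690260) (nat_lit 144) (nat_lit 5) (nat_lit 151) (nat_lit 5) (nat_lit 145) (nat_lit 5) (nat_lit 359) (nat_lit 301) (nat_lit 240))) (XT.nd (nat_lit 78) (nat_lit 836) (nat_lit 0) (XT.lf (nat_lit 0) (nat_lit 8019785793) (nat_lit 456) (nat_lit 2837926696) (nat_lit 76) (nat_lit 1377637356) (nat_lit 139) (nat_lit 5)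 (nat_lit 145) (nat_lit 5) (nat_lit 140) (nat_lit 5) (nat_lit 360) (nat_lit 301) (nat_lit 239)) (XT.nd (nat_lit 78) (nat_lit 380) (nat_lit 0) (XT.lf (nat_lit 0) (nat_lit 450789530) (nat_lit 456) (nat_lit 4208187287) (nat_lit 76) (nat_lit 7794599638) (nat_lit 133) (nat_lit 5) (nat_lit 139) (nat_lit 5) (nat_lit 134) (nat_lit 5) (nat_lit 361) (nat_lit 301) (nat_lit 238)) (XT.lf (nat_lit 0) (nat_lit 5224169946) (nat_lit 456) (nat_lit 5681727199) (nat_lit 76) (nat_lit 1771422695) (nat_lit 128) (nat_lit 5) (nat_lit 134) (nat_lit 5) (nat_lit 129) (nat_lit 5) (nat_lit 362) (nat_lit 301) (nat_lit 237))))) (XT.nd (nat_lit 156) (nat_lit 760) (nat_lit 0) (XT.nd (nat_lit 78) (nat_lit 380) (nat_lit 0) (XT.lf (nat_lit 0) (nat_lit 5650849072) (nat_lit 380) (nat_lit 4534792037) (nat_lit 456) (nat_lit 2721249697) (nat_lit 123) (nat_lit 5) (nat_lit 128) (nat_lit 5) (nat_lit 129) (nat_lit 5) (nat_lit 363) (nat_lit 301)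 (nat_lit 236)) (XT.lf (nat_lit 0) (nat_lit 2153069784) (nat_lit 380) (nat_lit 8933786811) (nat_lit 76) (nat_lit 2055651338) (nat_lit 118) (nat_lit 5) (nat_lit 123) (nat_lit 5) (nat_lit 119) (nat_lit 5) (nat_lit 364) (nat_lit 301) (nat_lit 235))) (XT.nd (nat_lit 78) (nat_lit 380) (nat_lit 0) (XT.lf (nat_lit 0) (nat_lit 2641513291) (nat_lit 380) (nat_lit 4542138833) (nat_lit 456) (nat_lit 6200253685) (nat_lit 113) (nat_lit 5) (nat_lit 118) (nat_lit 5) (nat_lit 119) (nat_lit 5) (nat_lit 365) (nat_lit 301) (nat_lit 234)) (XT.nd (nat_lit 78) (nat_lit 76) (nat_lit 0) (XT.lf (nat_lit 0) (nat_lit 976759696) (nat_lit 304) (nat_lit 11420571745) (nat_lit 380) (nat_lit 1234582315) (nat_lit 109) (nat_lit 5) (nat_lit 113) (nat_lit 5) (nat_lit 114) (nat_lit 5) (nat_lit 366) (nat_lit 301) (nat_lit 233)) (XT.lf (nat_lit 0) (nat_lit 3884062823) (nat_lit 380) (nat_lit 823242544) (nat_lit 76) (nat_lit 9178466067) (nat_lit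 108) (nat_lit 5) (nat_lit 113) (nat_lit 5) (nat_lit 109) (nat_lit 5) (nat_lit 367) (nat_lit 301) (nat_lit 232)))))) (XT.nd (nat_lit 390) (nat_lit 1140) (nat_lit 0) (XT.nd (nat_lit 156) (nat_lit 988) (nat_lit 0) (XT.nd (nat_lit 78) (nat_lit 380) (nat_lit 0) (XT.lf (nat_lit 0) (nat_lit 9181179477) (nat_lit 380) (nat_lit 2729570378) (nat_lit 76) (nat_lit 2235508904) (nat_lit 104) (nat_lit 5) (nat_lit 109) (nat_lit 5) (nat_lit 105) (nat_lit 5) (nat_lit 368) (nat_lit 301) (nat_lit 231)) (XT.lf (nat_lit 0) (nat_lit 273170526) (nat_lit 380) (nat_lit 4772909806) (nat_lit 76) (nat_lit 9367392936) (nat_lit 99) (nat_lit 5) (nat_lit 104) (nat_lit 5) (nat_lit 100) (nat_lit 5) (nat_lit 369) (nat_lit 301) (nat_lit 230))) (XT.nd (nat_lit 78) (nat_lit 684) (nat_lit 0) (XT.lf (nat_lit 0) (nat_lit 5637903588) (nat_lit 380) (nat_lit 6975027388) (nat_lit 76) (nat_lit 2074391031) (nat_lit 95) (nat_lit 5) (nat_lit 100)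 (nat_lit 5) (nat_lit 96) (nat_lit 5) (nat_lit 370) (nat_lit 301) (nat_lit 229)) (XT.nd (nat_lit 78) (nat_lit 380) (nat_lit 0) (XT.lf (nat_lit 0) (nat_lit 5636428154) (nat_lit 304) (nat_lit 5584731386) (nat_lit 380) (nat_lit 3747084770) (nat_lit 91) (nat_lit 5) (nat_lit 95) (nat_lit 5) (nat_lit 96) (nat_lit 5) (nat_lit 371) (nat_lit 301) (nat_lit 228)) (XT.lf (nat_lit 0) (nat_lit 1728004216) (nat_lit 380) (nat_lit 11841043471) (nat_lit 76) (nat_lit 1687609857) (nat_lit 86) (nat_lit 5) (nat_lit 91) (nat_lit 5) (nat_lit 87) (nat_lit 5) (nat_lit 372) (nat_lit 301) (nat_lit 227))))) (XT.nd (nat_lit 156) (nat_lit 912) (nat_lit 0) (XT.nd (nat_lit 78) (nat_lit 0) (nat_lit 0) (XT.lf (nat_lit 0) (nat_lit 999863400) (nat_lit 228) (nat_lit 6380270198) (nat_lit 304) (nat_lit 8171829276) (nat_lit 83) (nat_lit 5) (nat_lit 86) (nat_lit 5) (nat_lit 87) (nat_lit 5) (nat_lit 373) (nat_lit 301) (nat_lit 226)) (XT.lf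 (nat_lit 0) (nat_lit 13245814561) (nat_lit 304) (nat_lit 1544338880) (nat_lit 76) (nat_lit 1065102890) (nat_lit 83) (nat_lit 5) (nat_lit 87) (nat_lit 5) (nat_lit 84) (nat_lit 5) (nat_lit 374) (nat_lit 301) (nat_lit 225))) (XT.nd (nat_lit 78) (nat_lit 532) (nat_lit 0) (XT.lf (nat_lit 0) (nat_lit 3157159914) (nat_lit 380) (nat_lit 4288491748) (nat_lit 76) (nat_lit 8720034920) (nat_lit 78) (nat_lit 5) (nat_lit 83) (nat_lit 5) (nat_lit 79) (nat_lit 5) (nat_lit 375) (nat_lit 301) (nat_lit 224)) (XT.nd (nat_lit 78) (nat_lit 304) (nat_lit 0) (XT.lf (nat_lit 0) (nat_lit 9091779029) (nat_lit 304) (nat_lit 7212402016) (nat_lit 76) (nat_lit 180302358) (nat_lit 75) (nat_lit 5) (nat_lit 79) (nat_lit 5) (nat_lit 76) (nat_lit 5) (nat_lit 376) (nat_lit 301) (nat_lit 223)) (XT.lf (nat_lit 0) (nat_lit 6452902467) (nat_lit 304) (nat_lit 8831425172) (nat_lit 380) (nat_lit 1526926495) (nat_lit 71) (nat_lit 5) (nat_lit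 75) (nat_lit 5) (nat_lit 76) (nat_lit 5) (nat_lit 377) (nat_lit 301) (nat_lit 222))))))) (XT.nd (nat_lit 41106) (nat_lit 0) (nat_lit 44156) (XT.nd (nat_lit 390) (nat_lit 532) (nat_lit 0) (XT.nd (nat_lit 156) (nat_lit 532) (nat_lit 0) (XT.nd (nat_lit 78) (nat_lit 228) (nat_lit 0) (XT.lf (nat_lit 0) (nat_lit 3428262533) (nat_lit 228) (nat_lit 1058243805) (nat_lit 304) (nat_lit 12660124943) (nat_lit 67) (nat_lit 5) (nat_lit 70) (nat_lit 5) (nat_lit 71) (nat_lit 5) (nat_lit 378) (nat_lit 301) (nat_lit 221)) (XT.lf (nat_lit 0) (nat_lit 159249110) (nat_lit 228) (nat_lit 10577289767) (nat_lit 304) (nat_lit 6753797403) (nat_lit 64) (nat_lit 5) (nat_lit 67) (nat_lit 5) (nat_lit 68) (nat_lit 5) (nat_lit 379) (nat_lit 301) (nat_lit 220))) (XT.nd (nat_lit 78) (nat_lit 532) (nat_lit 0) (XT.lf (nat_lit 0) (nat_lit 14568237483) (nat_lit 228) (nat_lit 2666585294) (nat_lit 304) (nat_lit 608321664) (nat_lit 64) (nat_lit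 5) (nat_lit 67) (nat_lit 5) (nat_lit 68) (nat_lit 5) (nat_lit 380) (nat_lit 301) (nat_lit 219)) (XT.nd (nat_lit 78) (nat_lit 228) (nat_lit 0) (XT.lf (nat_lit 0) (nat_lit 5717311809) (nat_lit 304) (nat_lit 6992085432) (nat_lit 76) (nat_lit 5494986684) (nat_lit 60) (nat_lit 5) (nat_lit 64) (nat_lit 5) (nat_lit 61) (nat_lit 5) (nat_lit 381) (nat_lit 301) (nat_lit 218)) (XT.lf (nat_lit 0) (nat_lit 7617056311) (nat_lit 228) (nat_lit 4659252479) (nat_lit 304) (nat_lit 6299040688) (nat_lit 57) (nat_lit 5) (nat_lit 60) (nat_lit 5) (nat_lit 61) (nat_lit 5) (nat_lit 382) (nat_lit 301) (nat_lit 217))))) (XT.nd (nat_lit 156) (nat_lit 228) (nat_lit 0) (XT.nd (nat_lit 78) (nat_lit 0) (nat_lit 0) (XT.lf (nat_lit 0) (nat_lit 132476753) (nat_lit 304) (nat_lit 15191250129) (nat_lit 76) (nat_lit 3632537119) (nat_lit 53) (nat_lit 5) (nat_lit 57) (nat_lit 5) (nat_lit 54) (nat_lit 5) (nat_lit 383) (nat_lit 301) (nat_lit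 216)) (XT.lf (nat_lit 0) (nat_lit 6740902810) (nat_lit 304) (nat_lit 403620390) (nat_lit 76) (nat_lit 12201865177) (nat_lit 53) (nat_lit 5) (nat_lit 57) (nat_lit 5) (nat_lit 54) (nat_lit 5) (nat_lit 384) (nat_lit 301) (nat_lit 215))) (XT.nd (nat_lit 40404) (nat_lit 0) (nat_lit 47424) (XT.lf (nat_lit 0) (nat_lit 13617743080) (nat_lit 304) (nat_lit 4792822154) (nat_lit 76) (nat_lit 1336253840) (nat_lit 50) (nat_lit 5) (nat_lit 54) (nat_lit 5) (nat_lit 51) (nat_lit 5) (nat_lit 385) (nat_lit 301) (nat_lit 214)) (XT.nd (nat_lit 78) (nat_lit 380) (nat_lit 0) (XT.lf (nat_lit 0) (nat_lit 1196159512) (nat_lit 0) (nat_lit 1196159512) (nat_lit 228) (nat_lit 837413431) (nat_lit 679) (nat_lit 5) (nat_lit 679) (nat_lit 3) (nat_lit 682) (nat_lit 3) (nat_lit 302) (nat_lit 302) (nat_lit 296)) (XT.lf (nat_lit 76) (nat_lit 587265021) (nat_lit 0) (nat_lit 1925482314) (nat_lit 380) (nat_lit 3956848777) (nat_lit 675) (nat_lit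 5) (nat_lit 674) (nat_lit 3) (nat_lit 679) (nat_lit 5) (nat_lit 303) (nat_lit 302) (nat_lit 295)))))) (XT.nd (nat_lit 390) (nat_lit 1976) (nat_lit 0) (XT.nd (nat_lit 156) (nat_lit 912) (nat_lit 0) (XT.nd (nat_lit 78) (nat_lit 0) (nat_lit 0) (XT.lf (nat_lit 0) (nat_lit 181795130) (nat_lit 380) (nat_lit 1142724816) (nat_lit 456) (nat_lit 5158116285) (nat_lit 669) (nat_lit 5) (nat_lit 674) (nat_lit 3) (nat_lit 675) (nat_lit 5) (nat_lit 304) (nat_lit 302) (nat_lit 294)) (XT.lf (nat_lit 76) (nat_lit 3676539910) (nat_lit 0) (nat_lit 578140082) (nat_lit 456) (nat_lit 2243705559) (nat_lit 670) (nat_lit 5) (nat_lit 669) (nat_lit 5) (nat_lit 675) (nat_lit 5) (nat_lit 305) (nat_lit 302) (nat_lit 293))) (XT.nd (nat_lit 78) (nat_lit 532) (nat_lit 0) (XT.lf (nat_lit 0) (nat_lit 1775582800) (nat_lit 456) (nat_lit 4448126126) (nat_lit 532) (nat_lit 293442979) (nat_lit 664) (nat_lit 5) (nat_lit 670) (nat_lit 5) (nat_lit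 671) (nat_lit 5) (nat_lit 306) (nat_lit 302) (nat_lit 292)) (XT.nd (nat_lit 78) (nat_lit 532) (nat_lit 0) (XT.lf (nat_lit 76) (nat_lit 509465751) (nat_lit 0) (nat_lit 5249235125) (nat_lit 532) (nat_lit 780118012) (nat_lit 665) (nat_lit 5) (nat_lit 664) (nat_lit 5) (nat_lit 671) (nat_lit 5) (nat_lit 307) (nat_lit 302) (nat_lit 291)) (XT.lf (nat_lit 0) (nat_lit 3137177085) (nat_lit 532) (nat_lit 993536808) (nat_lit 608) (nat_lit 2432491486) (nat_lit 657) (nat_lit 5) (nat_lit 664) (nat_lit 5) (nat_lit 665) (nat_lit 5) (nat_lit 308) (nat_lit 302) (nat_lit 290))))) (XT.nd (nat_lit 156) (nat_lit 1368) (nat_lit 0) (XT.nd (nat_lit 78) (nat_lit 0) (nat_lit 0) (XT.lf (nat_lit 0) (nat_lit 446133228) (nat_lit 608) (nat_lit 2436454429) (nat_lit 684) (nat_lit 3708047378) (nat_lit 649) (nat_lit 5) (nat_lit 657) (nat_lit 5) (nat_lit 658) (nat_lit 5) (nat_lit 309) (nat_lit 302) (nat_lit 289)) (XT.lf (nat_lit 76) (nat_lit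 2778567348) (nat_lit 0) (nat_lit 1491401215) (nat_lit 684) (nat_lit 2350920816) (nat_lit 650) (nat_lit 5) (nat_lit 649) (nat_lit 5) (nat_lit 658) (nat_lit 5) (nat_lit 310) (nat_lit 302) (nat_lit 288))) (XT.nd (nat_lit 78) (nat_lit 760) (nat_lit 0) (XT.lf (nat_lit 0) (nat_lit 1421895572) (nat_lit 684) (nat_lit 5200569806) (nat_lit 76) (nat_lit 31758247) (nat_lit 641) (nat_lit 5) (nat_lit 650) (nat_lit 5) (nat_lit 642) (nat_lit 5) (nat_lit 311) (nat_lit 302) (nat_lit 287)) (XT.nd (nat_lit 78) (nat_lit 76) (nat_lit 0) (XT.lf (nat_lit 0) (nat_lit 160897757) (nat_lit 684) (nat_lit 5015913775) (nat_lit 760) (nat_lit 1513507031) (nat_lit 632) (nat_lit 5) (nat_lit 641) (nat_lit 5) (nat_lit 642) (nat_lit 5) (nat_lit 312) (nat_lit 302) (nat_lit 286)) (XT.lf (nat_lit 0) (nat_lit 2187857737) (nat_lit 760) (nat_lit 1076515024) (nat_lit 76) (nat_lit 3464879714) (nat_lit 631) (nat_lit 5) (nat_lit 641) (nat_lit 5)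 (nat_lit 632) (nat_lit 5) (nat_lit 313) (nat_lit 302) (nat_lit 285))))))))
noncomputable def xc52 : XT := (XT.nd (nat_lit 1560) (nat_lit 12236) (nat_lit 0) (XT.nd (nat_lit 780) (nat_lit 11932) (nat_lit 0) (XT.nd (nat_lit 390) (nat_lit 5244) (nat_lit 0) (XT.nd (nat_lit 156) (nat_lit 3040) (nat_lit 0) (XT.nd (nat_lit 78) (nat_lit 912) (nat_lit 0) (XT.lf (nat_lit 0) (nat_lit 4502654257) (nat_lit 760) (nat_lit 1376195385) (nat_lit 836) (nat_lit 892403534) (nat_lit 621) (nat_lit 5) (nat_lit 631) (nat_lit 5) (nat_lit 632) (nat_lit 5) (nat_lit 314) (nat_lit 302) (nat_lit 284)) (XT.lf (nat_lit 0) (nat_lit 2734210307) (nat_lit 912) (nat_lit 3431747750) (nat_lit 76) (nat_lit 650146733) (nat_lit 609) (nat_lit 5) (nat_lit 621) (nat_lit 5) (nat_lit 610) (nat_lit 5) (nat_lit 315) (nat_lit 302) (nat_lit 283))) (XT.nd (nat_lit 78) (nat_lit 2128) (nat_lit 0) (XT.lf (nat_lit 0) (nat_lit 2302835398) (nat_lit 912) (nat_lit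 4069908528) (nat_lit 988) (nat_lit 491210759) (nat_lit 597) (nat_lit 5) (nat_lit 609) (nat_lit 5) (nat_lit 610) (nat_lit 5) (nat_lit 316) (nat_lit 302) (nat_lit 282)) (XT.nd (nat_lit 78) (nat_lit 1064) (nat_lit 0) (XT.lf (nat_lit 0) (nat_lit 1250759904) (nat_lit 988) (nat_lit 1823633271) (nat_lit 1064) (nat_lit 3840317167) (nat_lit 583) (nat_lit 5) (nat_lit 596) (nat_lit 5) (nat_lit 597) (nat_lit 5) (nat_lit 317) (nat_lit 302) (nat_lit 281)) (XT.lf (nat_lit 0) (nat_lit 239979662) (nat_lit 1064) (nat_lit 6417142465) (nat_lit 1140) (nat_lit 311534878) (nat_lit 569) (nat_lit 5) (nat_lit 583) (nat_lit 5) (nat_lit 584) (nat_lit 5) (nat_lit 318) (nat_lit 302) (nat_lit 280))))) (XT.nd (nat_lit 156) (nat_lit 4028) (nat_lit 0) (XT.nd (nat_lit 78) (nat_lit 1140) (nat_lit 0) (XT.lf (nat_lit 0) (nat_lit 3213358007) (nat_lit 1140) (nat_lit 748646426) (nat_lit 76) (nat_lit 3063176031) (nat_lit 568) (nat_lit 5)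 (nat_lit 583) (nat_lit 5) (nat_lit 569) (nat_lit 5) (nat_lit 319) (nat_lit 302) (nat_lit 279)) (XT.lf (nat_lit 0) (nat_lit 5392313277) (nat_lit 1140) (nat_lit 1368894220) (nat_lit 1216) (nat_lit 323786677) (nat_lit 553) (nat_lit 5) (nat_lit 568) (nat_lit 5) (nat_lit 569) (nat_lit 5) (nat_lit 320) (nat_lit 302) (nat_lit 278))) (XT.nd (nat_lit 78) (nat_lit 2736) (nat_lit 0) (XT.lf (nat_lit 0) (nat_lit 3157895824) (nat_lit 1292) (nat_lit 2624572618) (nat_lit 76) (nat_lit 1365133296) (nat_lit 536) (nat_lit 5) (nat_lit 553) (nat_lit 5) (nat_lit 537) (nat_lit 5) (nat_lit 321) (nat_lit 302) (nat_lit 277)) (XT.nd (nat_lit 78) (nat_lit 1444) (nat_lit 0) (XT.lf (nat_lit 0) (nat_lit 3685244036) (nat_lit 1292) (nat_lit 2990246725) (nat_lit 1368) (nat_lit 537896424) (nat_lit 519) (nat_lit 5) (nat_lit 536) (nat_lit 5) (nat_lit 537) (nat_lit 5) (nat_lit 322) (nat_lit 302) (nat_lit 276)) (XT.lf (nat_lit 0) (nat_lit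 2869148655) (nat_lit 1368) (nat_lit 38328348) (nat_lit 1444) (nat_lit 4374742484) (nat_lit 500) (nat_lit 5) (nat_lit 518) (nat_lit 5) (nat_lit 519) (nat_lit 5) (nat_lit 323) (nat_lit 302) (nat_lit 275)))))) (XT.nd (nat_lit 390) (nat_lit 5548) (nat_lit 0) (XT.nd (nat_lit 156) (nat_lit 3344) (nat_lit 0) (XT.nd (nat_lit 78) (nat_lit 1596) (nat_lit 0) (XT.lf (nat_lit 0) (nat_lit 2068812836) (nat_lit 1444) (nat_lit 4332841133) (nat_lit 1520) (nat_lit 952391827) (nat_lit 481) (nat_lit 5) (nat_lit 500) (nat_lit 5) (nat_lit 501) (nat_lit 5) (nat_lit 324) (nat_lit 302) (nat_lit 274)) (XT.lf (nat_lit 0) (nat_lit 1288819678) (nat_lit 1520) (nat_lit 1186255364) (nat_lit 1596) (nat_lit 4953946560) (nat_lit 460) (nat_lit 5) (nat_lit 480) (nat_lit 5) (nat_lit 481) (nat_lit 5) (nat_lit 325) (nat_lit 302) (nat_lit 273))) (XT.nd (nat_lit 78) (nat_lit 1748) (nat_lit 0) (XT.lf (nat_lit 0) (nat_lit 524088548) (nat_lit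 1596) (nat_lit 5421165435) (nat_lit 1672) (nat_lit 1561861211) (nat_lit 439) (nat_lit 5) (nat_lit 460) (nat_lit 5) (nat_lit 461) (nat_lit 5) (nat_lit 326) (nat_lit 302) (nat_lit 272)) (XT.nd (nat_lit 78) (nat_lit 1672) (nat_lit 0) (XT.lf (nat_lit 0) (nat_lit 1858068185) (nat_lit 1672) (nat_lit 224762740) (nat_lit 76) (nat_lit 5505489911) (nat_lit 438) (nat_lit 5) (nat_lit 460) (nat_lit 5) (nat_lit 439) (nat_lit 5) (nat_lit 327) (nat_lit 302) (nat_lit 271)) (XT.lf (nat_lit 0) (nat_lit 5316857586) (nat_lit 1748) (nat_lit 955059065) (nat_lit 76) (nat_lit 1400736981) (nat_lit 416) (nat_lit 5) (nat_lit 439) (nat_lit 5) (nat_lit 417) (nat_lit 5) (nat_lit 328) (nat_lit 302) (nat_lit 270))))) (XT.nd (nat_lit 156) (nat_lit 2660) (nat_lit 0) (XT.nd (nat_lit 78) (nat_lit 1064) (nat_lit 0) (XT.lf (nat_lit 0) (nat_lit 1066657176) (nat_lit 1824) (nat_lit 1677182079) (nat_lit 76) (nat_lit 5016347555) (nat_lit 392)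 (nat_lit 5) (nat_lit 416) (nat_lit 5) (nat_lit 393) (nat_lit 5) (nat_lit 329) (nat_lit 302) (nat_lit 269)) (XT.lf (nat_lit 0) (nat_lit 4516392361) (nat_lit 1140) (nat_lit 2393761601) (nat_lit 76) (nat_lit 940791823) (nat_lit 378) (nat_lit 5) (nat_lit 393) (nat_lit 5) (nat_lit 379) (nat_lit 5) (nat_lit 330) (nat_lit 302) (nat_lit 268))) (XT.nd (nat_lit 78) (nat_lit 1672) (nat_lit 0) (XT.lf (nat_lit 0) (nat_lit 94937169) (nat_lit 988) (nat_lit 3104117232) (nat_lit 76) (nat_lit 4745970559) (nat_lit 365) (nat_lit 5) (nat_lit 378) (nat_lit 5) (nat_lit 366) (nat_lit 5) (nat_lit 331) (nat_lit 302) (nat_lit 267)) (XT.nd (nat_lit 78) (nat_lit 836) (nat_lit 0) (XT.lf (nat_lit 0) (nat_lit 3542363522) (nat_lit 912) (nat_lit 3817709987) (nat_lit 76) (nat_lit 682245303) (nat_lit 354) (nat_lit 5) (nat_lit 366) (nat_lit 5) (nat_lit 355) (nat_lit 5) (nat_lit 332) (nat_lit 302) (nat_lit 266)) (XT.lf (nat_lit 0) (nat_lit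 3611413399) (nat_lit 836) (nat_lit 3461643145) (nat_lit 912) (nat_lit 1069917108) (nat_lit 343) (nat_lit 5) (nat_lit 354) (nat_lit 5) (nat_lit 355) (nat_lit 5) (nat_lit 333) (nat_lit 302) (nat_lit 265))))))) (XT.nd (nat_lit 780) (nat_lit 5320) (nat_lit 0) (XT.nd (nat_lit 390) (nat_lit 2888) (nat_lit 0) (XT.nd (nat_lit 156) (nat_lit 2280) (nat_lit 0) (XT.nd (nat_lit 78) (nat_lit 836) (nat_lit 0) (XT.lf (nat_lit 0) (nat_lit 2395436824) (nat_lit 912) (nat_lit 5246079039) (nat_lit 76) (nat_lit 605555263) (nat_lit 331) (nat_lit 5) (nat_lit 343) (nat_lit 5) (nat_lit 332) (nat_lit 5) (nat_lit 334) (nat_lit 302) (nat_lit 264)) (XT.lf (nat_lit 0) (nat_lit 2380607218) (nat_lit 836) (nat_lit 3556277235) (nat_lit 912) (nat_lit 2417568332) (nat_lit 320) (nat_lit 5) (nat_lit 331) (nat_lit 5) (nat_lit 332) (nat_lit 5) (nat_lit 335) (nat_lit 302) (nat_lit 263))) (XT.nd (nat_lit 78) (nat_lit 1444) (nat_lit 0) (XT.lf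 (nat_lit 0) (nat_lit 1075027749) (nat_lit 836) (nat_lit 6698566424) (nat_lit 76) (nat_lit 691946879) (nat_lit 309) (nat_lit 5) (nat_lit 320) (nat_lit 5) (nat_lit 310) (nat_lit 5) (nat_lit 336) (nat_lit 302) (nat_lit 262)) (XT.nd (nat_lit 78) (nat_lit 684) (nat_lit 0) (XT.lf (nat_lit 0) (nat_lit 1129395131) (nat_lit 760) (nat_lit 3502340438) (nat_lit 836) (nat_lit 3948096562) (nat_lit 299) (nat_lit 5) (nat_lit 309) (nat_lit 5) (nat_lit 310) (nat_lit 5) (nat_lit 337) (nat_lit 302) (nat_lit 261)) (XT.lf (nat_lit 0) (nat_lit 499718703) (nat_lit 684) (nat_lit 7772026255) (nat_lit 760) (nat_lit 426307354) (nat_lit 290) (nat_lit 5) (nat_lit 299) (nat_lit 5) (nat_lit 300) (nat_lit 5) (nat_lit 338) (nat_lit 302) (nat_lit 260))))) (XT.nd (nat_lit 156) (nat_lit 2052) (nat_lit 0) (XT.nd (nat_lit 78) (nat_lit 760) (nat_lit 0) (XT.lf (nat_lit 0) (nat_lit 3156411450) (nat_lit 760) (nat_lit 160567234) (nat_lit 76)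 (nat_lit 5502510367) (nat_lit 289) (nat_lit 5) (nat_lit 299) (nat_lit 5) (nat_lit 290) (nat_lit 5) (nat_lit 339) (nat_lit 302) (nat_lit 259)) (XT.lf (nat_lit 0) (nat_lit 6827502782) (nat_lit 836) (nat_lit 816365966) (nat_lit 76) (nat_lit 1300940050) (nat_lit 279) (nat_lit 5) (nat_lit 290) (nat_lit 5) (nat_lit 280) (nat_lit 5) (nat_lit 340) (nat_lit 302) (nat_lit 258))) (XT.nd (nat_lit 78) (nat_lit 1292) (nat_lit 0) (XT.lf (nat_lit 0) (nat_lit 1514035758) (nat_lit 760) (nat_lit 1497196654) (nat_lit 76) (nat_lit 6062498365) (nat_lit 269) (nat_lit 5) (nat_lit 279) (nat_lit 5) (nat_lit 270) (nat_lit 5) (nat_lit 341) (nat_lit 302) (nat_lit 257)) (XT.nd (nat_lit 78) (nat_lit 608) (nat_lit 0) (XT.lf (nat_lit 0) (nat_lit 5216548311) (nat_lit 760) (nat_lit 2199294102) (nat_lit 76) (nat_lit 1790605818) (nat_lit 260) (nat_lit 5) (nat_lit 270) (nat_lit 5) (nat_lit 261) (nat_lit 5) (nat_lit 342) (nat_lit 302)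 (nat_lit 256)) (XT.lf (nat_lit 0) (nat_lit 6423568263) (nat_lit 608) (nat_lit 2608010496) (nat_lit 684) (nat_lit 311566442) (nat_lit 252) (nat_lit 5) (nat_lit 260) (nat_lit 5) (nat_lit 261) (nat_lit 5) (nat_lit 343) (nat_lit 302) (nat_lit 255)))))) (XT.nd (nat_lit 390) (nat_lit 2204) (nat_lit 0) (XT.nd (nat_lit 156) (nat_lit 1824) (nat_lit 0) (XT.nd (nat_lit 78) (nat_lit 608) (nat_lit 0) (XT.lf (nat_lit 0) (nat_lit 3430351850) (nat_lit 684) (nat_lit 3678466211) (nat_lit 76) (nat_lit 2374722298) (nat_lit 243) (nat_lit 5) (nat_lit 252) (nat_lit 5) (nat_lit 244) (nat_lit 5) (nat_lit 344) (nat_lit 302) (nat_lit 254)) (XT.lf (nat_lit 0) (nat_lit 5167636432) (nat_lit 608) (nat_lit 2115401708) (nat_lit 684) (nat_lit 2345037982) (nat_lit 235) (nat_lit 5) (nat_lit 243) (nat_lit 5) (nat_lit 244) (nat_lit 5) (nat_lit 345) (nat_lit 302) (nat_lit 253))) (XT.nd (nat_lit 78) (nat_lit 1140) (nat_lit 0) (XT.lf (nat_lit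 0) (nat_lit 1462221149) (nat_lit 684) (nat_lit 5278169510) (nat_lit 76) (nat_lit 3036245451) (nat_lit 226) (nat_lit 5) (nat_lit 235) (nat_lit 5) (nat_lit 227) (nat_lit 5) (nat_lit 346) (nat_lit 302) (nat_lit 252)) (XT.nd (nat_lit 78) (nat_lit 608) (nat_lit 0) (XT.lf (nat_lit 0) (nat_lit 3794297198) (nat_lit 532) (nat_lit 1561039417) (nat_lit 608) (nat_lit 4573959224) (nat_lit 219) (nat_lit 5) (nat_lit 226) (nat_lit 5) (nat_lit 227) (nat_lit 5) (nat_lit 347) (nat_lit 302) (nat_lit 251)) (XT.lf (nat_lit 0) (nat_lit 3057300431) (nat_lit 608) (nat_lit 6323679642) (nat_lit 684) (nat_lit 705262853) (nat_lit 211) (nat_lit 5) (nat_lit 219) (nat_lit 5) (nat_lit 220) (nat_lit 5) (nat_lit 348) (nat_lit 302) (nat_lit 250))))) (XT.nd (nat_lit 156) (nat_lit 1064) (nat_lit 0) (XT.nd (nat_lit 78) (nat_lit 532) (nat_lit 0) (XT.lf (nat_lit 0) (nat_lit 2277197720) (nat_lit 532) (nat_lit 962646697) (nat_lit 608) (nat_lit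 7007582116) (nat_lit 203) (nat_lit 5) (nat_lit 210) (nat_lit 5) (nat_lit 211) (nat_lit 5) (nat_lit 349) (nat_lit 302) (nat_lit 249)) (XT.lf (nat_lit 0) (nat_lit 1447860917) (nat_lit 532) (nat_lit 5870354478) (nat_lit 608) (nat_lit 3094667742) (nat_lit 196) (nat_lit 5) (nat_lit 203) (nat_lit 5) (nat_lit 204) (nat_lit 5) (nat_lit 350) (nat_lit 302) (nat_lit 248))) (XT.nd (nat_lit 78) (nat_lit 532) (nat_lit 0) (XT.lf (nat_lit 0) (nat_lit 587975574) (nat_lit 456) (nat_lit 338366124) (nat_lit 532) (nat_lit 9656800250) (nat_lit 189) (nat_lit 5) (nat_lit 195) (nat_lit 5) (nat_lit 196) (nat_lit 5) (nat_lit 351) (nat_lit 302) (nat_lit 247)) (XT.nd (nat_lit 78) (nat_lit 532) (nat_lit 0) (XT.lf (nat_lit 0) (nat_lit 5061620699) (nat_lit 532) (nat_lit 344903905) (nat_lit 76) (nat_lit 5350880138) (nat_lit 189) (nat_lit 5) (nat_lit 196) (nat_lit 5) (nat_lit 190) (nat_lit 5) (nat_lit 352) (nat_lit 302) (nat_lit 246))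 (XT.lf (nat_lit 0) (nat_lit 9329090664) (nat_lit 608) (nat_lit 1299397936) (nat_lit 76) (nat_lit 308262621) (nat_lit 182) (nat_lit 5) (nat_lit 190) (nat_lit 5) (nat_lit 183) (nat_lit 5) (nat_lit 353) (nat_lit 302) (nat_lit 245))))))))
noncomputable def xc53 : XT := (XT.nd (nat_lit 1560) (nat_lit 2736) (nat_lit 0) (XT.nd (nat_lit 780) (nat_lit 3192) (nat_lit 0) (XT.nd (nat_lit 390) (nat_lit 1748) (nat_lit 0) (XT.nd (nat_lit 156) (nat_lit 1368) (nat_lit 0) (XT.nd (nat_lit 78) (nat_lit 456) (nat_lit 0) (XT.lf (nat_lit 0) (nat_lit 2607182977) (nat_lit 532) (nat_lit 2335595464) (nat_lit 76) (nat_lit 6177614865) (nat_lit 175) (nat_lit 5) (nat_lit 182) (nat_lit 5) (nat_lit 176) (nat_lit 5) (nat_lit 354) (nat_lit 302) (nat_lit 244)) (XT.lf (nat_lit 0) (nat_lit 6936233447) (nat_lit 532) (nat_lit 3421716154) (nat_lit 76) (nat_lit 951207504) (nat_lit 169) (nat_lit 5) (nat_lit 176) (nat_lit 5) (nat_lit 170) (nat_lit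 5) (nat_lit 355) (nat_lit 302) (nat_lit 243))) (XT.nd (nat_lit 78) (nat_lit 912) (nat_lit 0) (XT.lf (nat_lit 0) (nat_lit 6924990806) (nat_lit 456) (nat_lit 4508229917) (nat_lit 532) (nat_lit 69618345) (nat_lit 163) (nat_lit 5) (nat_lit 169) (nat_lit 5) (nat_lit 170) (nat_lit 5) (nat_lit 356) (nat_lit 302) (nat_lit 242)) (XT.nd (nat_lit 78) (nat_lit 380) (nat_lit 0) (XT.lf (nat_lit 0) (nat_lit 4322362288) (nat_lit 532) (nat_lit 5814024026) (nat_lit 76) (nat_lit 1565058516) (nat_lit 156) (nat_lit 5) (nat_lit 163) (nat_lit 5) (nat_lit 157) (nat_lit 5) (nat_lit 357) (nat_lit 302) (nat_lit 241)) (XT.lf (nat_lit 0) (nat_lit 4778067317) (nat_lit 380) (nat_lit 4105316912) (nat_lit 456) (nat_lit 3021866077) (nat_lit 151) (nat_lit 5) (nat_lit 156) (nat_lit 5) (nat_lit 157) (nat_lit 5) (nat_lit 358) (nat_lit 302) (nat_lit 240))))) (XT.nd (nat_lit 156) (nat_lit 836) (nat_lit 0) (XT.nd (nat_lit 78) (nat_lit 380)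 (nat_lit 0) (XT.lf (nat_lit 0) (nat_lit 1470504946) (nat_lit 532) (nat_lit 8515235016) (nat_lit 76) (nat_lit 2128780859) (nat_lit 144) (nat_lit 5) (nat_lit 151) (nat_lit 5) (nat_lit 145) (nat_lit 5) (nat_lit 359) (nat_lit 302) (nat_lit 239)) (XT.lf (nat_lit 0) (nat_lit 2321647356) (nat_lit 380) (nat_lit 3773773986) (nat_lit 456) (nat_lit 6233486166) (nat_lit 139) (nat_lit 5) (nat_lit 144) (nat_lit 5) (nat_lit 145) (nat_lit 5) (nat_lit 360) (nat_lit 302) (nat_lit 238))) (XT.nd (nat_lit 78) (nat_lit 456) (nat_lit 0) (XT.lf (nat_lit 0) (nat_lit 970464260) (nat_lit 380) (nat_lit 9918381717) (nat_lit 456) (nat_lit 1660298331) (nat_lit 134) (nat_lit 5) (nat_lit 139) (nat_lit 5) (nat_lit 140) (nat_lit 5) (nat_lit 361) (nat_lit 302) (nat_lit 237)) (XT.nd (nat_lit 78) (nat_lit 380) (nat_lit 0) (XT.lf (nat_lit 0) (nat_lit 3052584362) (nat_lit 456) (nat_lit 481533439) (nat_lit 76) (nat_lit 9240637379) (nat_lit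 133) (nat_lit 5) (nat_lit 139) (nat_lit 5) (nat_lit 134) (nat_lit 5) (nat_lit 362) (nat_lit 302) (nat_lit 236)) (XT.lf (nat_lit 0) (nat_lit 7926524018) (nat_lit 456) (nat_lit 2018529183) (nat_lit 76) (nat_lit 3061029825) (nat_lit 128) (nat_lit 5) (nat_lit 134) (nat_lit 5) (nat_lit 129) (nat_lit 5) (nat_lit 363) (nat_lit 302) (nat_lit 235)))))) (XT.nd (nat_lit 390) (nat_lit 1368) (nat_lit 0) (XT.nd (nat_lit 156) (nat_lit 1064) (nat_lit 0) (XT.nd (nat_lit 78) (nat_lit 380) (nat_lit 0) (XT.lf (nat_lit 0) (nat_lit 9591827962) (nat_lit 380) (nat_lit 3395353598) (nat_lit 456) (nat_lit 256371468) (nat_lit 123) (nat_lit 5) (nat_lit 128) (nat_lit 5) (nat_lit 129) (nat_lit 5) (nat_lit 364) (nat_lit 302) (nat_lit 234)) (XT.lf (nat_lit 0) (nat_lit 4690196080) (nat_lit 380) (nat_lit 5416503143) (nat_lit 76) (nat_lit 3380038291) (nat_lit 118) (nat_lit 5) (nat_lit 123) (nat_lit 5) (nat_lit 119) (nat_lit 5) (nat_lit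 365) (nat_lit 302) (nat_lit 233))) (XT.nd (nat_lit 78) (nat_lit 684) (nat_lit 0) (XT.lf (nat_lit 0) (nat_lit 6444644011) (nat_lit 380) (nat_lit 3379214254) (nat_lit 456) (nat_lit 3912493144) (nat_lit 113) (nat_lit 5) (nat_lit 118) (nat_lit 5) (nat_lit 119) (nat_lit 5) (nat_lit 366) (nat_lit 302) (nat_lit 232)) (XT.nd (nat_lit 78) (nat_lit 304) (nat_lit 0) (XT.lf (nat_lit 0) (nat_lit 1147723661) (nat_lit 380) (nat_lit 9290625687) (nat_lit 76) (nat_lit 3554083804) (nat_lit 108) (nat_lit 5) (nat_lit 113) (nat_lit 5) (nat_lit 109) (nat_lit 5) (nat_lit 367) (nat_lit 302) (nat_lit 231)) (XT.lf (nat_lit 0) (nat_lit 2816107326) (nat_lit 304) (nat_lit 3535446780) (nat_lit 380) (nat_lit 7903237275) (nat_lit 104) (nat_lit 5) (nat_lit 108) (nat_lit 5) (nat_lit 109) (nat_lit 5) (nat_lit 368) (nat_lit 302) (nat_lit 230))))) (XT.nd (nat_lit 156) (nat_lit 988) (nat_lit 0) (XT.nd (nat_lit 78) (nat_lit 76) (nat_lit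 0) (XT.lf (nat_lit 0) (nat_lit 805335969) (nat_lit 304) (nat_lit 10952731227) (nat_lit 380) (nat_lit 2766032019) (nat_lit 100) (nat_lit 5) (nat_lit 104) (nat_lit 5) (nat_lit 105) (nat_lit 5) (nat_lit 369) (nat_lit 302) (nat_lit 229)) (XT.lf (nat_lit 0) (nat_lit 2549156057) (nat_lit 380) (nat_lit 1337741546) (nat_lit 76) (nat_lit 10913130756) (nat_lit 99) (nat_lit 5) (nat_lit 104) (nat_lit 5) (nat_lit 100) (nat_lit 5) (nat_lit 370) (nat_lit 302) (nat_lit 228))) (XT.nd (nat_lit 78) (nat_lit 684) (nat_lit 0) (XT.lf (nat_lit 0) (nat_lit 8040047679) (nat_lit 380) (nat_lit 3627418991) (nat_lit 76) (nat_lit 3415335927) (nat_lit 95) (nat_lit 5) (nat_lit 100) (nat_lit 5) (nat_lit 96) (nat_lit 5) (nat_lit 371) (nat_lit 302) (nat_lit 227)) (XT.nd (nat_lit 78) (nat_lit 380) (nat_lit 0) (XT.lf (nat_lit 0) (nat_lit 9304674402) (nat_lit 304) (nat_lit 4443806694) (nat_lit 380) (nat_lit 1624531826) (nat_lit 91) (nat_lit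 5) (nat_lit 95) (nat_lit 5) (nat_lit 96) (nat_lit 5) (nat_lit 372) (nat_lit 302) (nat_lit 226)) (XT.lf (nat_lit 0) (nat_lit 3952286463) (nat_lit 380) (nat_lit 8689375036) (nat_lit 76) (nat_lit 3028804342) (nat_lit 86) (nat_lit 5) (nat_lit 91) (nat_lit 5) (nat_lit 87) (nat_lit 5) (nat_lit 373) (nat_lit 302) (nat_lit 225))))))) (XT.nd (nat_lit 780) (nat_lit 532) (nat_lit 0) (XT.nd (nat_lit 390) (nat_lit 988) (nat_lit 0) (XT.nd (nat_lit 156) (nat_lit 684) (nat_lit 0) (XT.nd (nat_lit 78) (nat_lit 304) (nat_lit 0) (XT.lf (nat_lit 0) (nat_lit 4479863758) (nat_lit 228) (nat_lit 5253240672) (nat_lit 304) (nat_lit 6242356298) (nat_lit 83) (nat_lit 5) (nat_lit 86) (nat_lit 5) (nat_lit 87) (nat_lit 5) (nat_lit 374) (nat_lit 302) (nat_lit 224)) (XT.lf (nat_lit 0) (nat_lit 1816165156) (nat_lit 304) (nat_lit 13916608789) (nat_lit 380) (nat_lit 555931196) (nat_lit 79) (nat_lit 5) (nat_lit 83) (nat_lit 5) (nat_lit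 84) (nat_lit 5) (nat_lit 375) (nat_lit 302) (nat_lit 223))) (XT.nd (nat_lit 78) (nat_lit 608) (nat_lit 0) (XT.lf (nat_lit 0) (nat_lit 5304660343) (nat_lit 380) (nat_lit 1061339498) (nat_lit 76) (nat_lit 10243204538) (nat_lit 78) (nat_lit 5) (nat_lit 83) (nat_lit 5) (nat_lit 79) (nat_lit 5) (nat_lit 376) (nat_lit 302) (nat_lit 222)) (XT.nd (nat_lit 78) (nat_lit 380) (nat_lit 0) (XT.lf (nat_lit 0) (nat_lit 11387318418) (nat_lit 304) (nat_lit 4095092546) (nat_lit 76) (nat_lit 1455765699) (nat_lit 75) (nat_lit 5) (nat_lit 79) (nat_lit 5) (nat_lit 76) (nat_lit 5) (nat_lit 377) (nat_lit 302) (nat_lit 221)) (XT.lf (nat_lit 0) (nat_lit 446571799) (nat_lit 380) (nat_lit 7352366123) (nat_lit 76) (nat_lit 9476517517) (nat_lit 70) (nat_lit 5) (nat_lit 75) (nat_lit 5) (nat_lit 71) (nat_lit 5) (nat_lit 378) (nat_lit 302) (nat_lit 220))))) (XT.nd (nat_lit 156) (nat_lit 532) (nat_lit 0) (XT.nd (nat_lit 78) (nat_lit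 228) (nat_lit 0) (XT.lf (nat_lit 0) (nat_lit 6583993818) (nat_lit 304) (nat_lit 10838758416) (nat_lit 76) (nat_lit 198663873) (nat_lit 67) (nat_lit 5) (nat_lit 71) (nat_lit 5) (nat_lit 68) (nat_lit 5) (nat_lit 379) (nat_lit 302) (nat_lit 219)) (XT.lf (nat_lit 0) (nat_lit 3394830664) (nat_lit 228) (nat_lit 9597372393) (nat_lit 304) (nat_lit 4983826061) (nat_lit 64) (nat_lit 5) (nat_lit 67) (nat_lit 5) (nat_lit 68) (nat_lit 5) (nat_lit 380) (nat_lit 302) (nat_lit 218))) (XT.nd (nat_lit 78) (nat_lit 456) (nat_lit 0) (XT.lf (nat_lit 0) (nat_lit 1271660312) (nat_lit 304) (nat_lit 206936537) (nat_lit 76) (nat_lit 16861793775) (nat_lit 63) (nat_lit 5) (nat_lit 67) (nat_lit 5) (nat_lit 64) (nat_lit 5) (nat_lit 381) (nat_lit 302) (nat_lit 217)) (XT.nd (nat_lit 78) (nat_lit 228) (nat_lit 0) (XT.lf (nat_lit 0) (nat_lit 7752146665) (nat_lit 304) (nat_lit 4061730442) (nat_lit 76) (nat_lit 6899052385) (nat_lit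 60) (nat_lit 5) (nat_lit 64) (nat_lit 5) (nat_lit 61) (nat_lit 5) (nat_lit 382) (nat_lit 302) (nat_lit 216)) (XT.lf (nat_lit 0) (nat_lit 10934740877) (nat_lit 228) (nat_lit 3538958312) (nat_lit 304) (nat_lit 4622018418) (nat_lit 57) (nat_lit 5) (nat_lit 60) (nat_lit 5) (nat_lit 61) (nat_lit 5) (nat_lit 383) (nat_lit 302) (nat_lit 215)))))) (XT.nd (nat_lit 40716) (nat_lit 0) (nat_lit 45448) (XT.nd (nat_lit 156) (nat_lit 0) (nat_lit 0) (XT.nd (nat_lit 78) (nat_lit 228) (nat_lit 0) (XT.lf (nat_lit 0) (nat_lit 1952377551) (nat_lit 304) (nat_lit 12555259496) (nat_lit 76) (nat_lit 4980700961) (nat_lit 53) (nat_lit 5) (nat_lit 57) (nat_lit 5) (nat_lit 54) (nat_lit 5) (nat_lit 384) (nat_lit 302) (nat_lit 214)) (XT.lf (nat_lit 0) (nat_lit 2620314700) (nat_lit 228) (nat_lit 6102863447) (nat_lit 304) (nat_lit 11167714134) (nat_lit 50) (nat_lit 5) (nat_lit 53) (nat_lit 5) (nat_lit 54) (nat_lit 5) (nat_lit 385)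 (nat_lit 302) (nat_lit 213))) (XT.nd (nat_lit 40404) (nat_lit 0) (nat_lit 47044) (XT.lf (nat_lit 0) (nat_lit 15765067781) (nat_lit 304) (nat_lit 1956666915) (nat_lit 76) (nat_lit 2582434673) (nat_lit 50) (nat_lit 5) (nat_lit 54) (nat_lit 5) (nat_lit 51) (nat_lit 5) (nat_lit 386) (nat_lit 302) (nat_lit 212)) (XT.nd (nat_lit 78) (nat_lit 0) (nat_lit 0) (XT.lf (nat_lit 0) (nat_lit 27048081) (nat_lit 0) (nat_lit 27048081) (nat_lit 380) (nat_lit 3186556207) (nat_lit 669) (nat_lit 5) (nat_lit 669) (nat_lit 3) (nat_lit 674) (nat_lit 3) (nat_lit 303) (nat_lit 303) (nat_lit 294)) (XT.lf (nat_lit 0) (nat_lit 4115606345) (nat_lit 380) (nat_lit 1754462259) (nat_lit 456) (nat_lit 625407220) (nat_lit 669) (nat_lit 5) (nat_lit 674) (nat_lit 3) (nat_lit 675) (nat_lit 5) (nat_lit 304) (nat_lit 303) (nat_lit 293))))) (XT.nd (nat_lit 156) (nat_lit 1140) (nat_lit 0) (XT.nd (nat_lit 78) (nat_lit 0) (nat_lit 0) (XT.lf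 (nat_lit 0) (nat_lit 1573703357) (nat_lit 456) (nat_lit 3507428575) (nat_lit 532) (nat_lit 1431561989) (nat_lit 663) (nat_lit 5) (nat_lit 669) (nat_lit 5) (nat_lit 670) (nat_lit 5) (nat_lit 305) (nat_lit 303) (nat_lit 292)) (XT.lf (nat_lit 76) (nat_lit 1320287581) (nat_lit 0) (nat_lit 4161216763) (nat_lit 532) (nat_lit 1051359460) (nat_lit 664) (nat_lit 5) (nat_lit 663) (nat_lit 5) (nat_lit 670) (nat_lit 5) (nat_lit 306) (nat_lit 303) (nat_lit 291))) (XT.nd (nat_lit 78) (nat_lit 608) (nat_lit 0) (XT.lf (nat_lit 0) (nat_lit 2788159255) (nat_lit 532) (nat_lit 315046669) (nat_lit 608) (nat_lit 3452673379) (nat_lit 656) (nat_lit 5) (nat_lit 663) (nat_lit 5) (nat_lit 664) (nat_lit 5) (nat_lit 307) (nat_lit 303) (nat_lit 290)) (XT.nd (nat_lit 78) (nat_lit 0) (nat_lit 0) (XT.lf (nat_lit 0) (nat_lit 31362640) (nat_lit 608) (nat_lit 1878962642) (nat_lit 684) (nat_lit 4671516629) (nat_lit 648) (nat_lit 5) (nat_lit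 656) (nat_lit 5) (nat_lit 657) (nat_lit 5) (nat_lit 308) (nat_lit 303) (nat_lit 289)) (XT.lf (nat_lit 76) (nat_lit 3202251200) (nat_lit 0) (nat_lit 571325680) (nat_lit 684) (nat_lit 2836997295) (nat_lit 649) (nat_lit 5) (nat_lit 648) (nat_lit 5) (nat_lit 657) (nat_lit 5) (nat_lit 309) (nat_lit 303) (nat_lit 288))))))))
noncomputable def xc54 : XT := (XT.nd (nat_lit 1560) (nat_lit 13832) (nat_lit 0) (XT.nd (nat_lit 780) (nat_lit 13376) (nat_lit 0) (XT.nd (nat_lit 390) (nat_lit 3952) (nat_lit 0) (XT.nd (nat_lit 156) (nat_lit 1520) (nat_lit 0) (XT.nd (nat_lit 78) (nat_lit 0) (nat_lit 0) (XT.lf (nat_lit 0) (nat_lit 864716619) (nat_lit 684) (nat_lit 4892319434) (nat_lit 760) (nat_lit 885299609) (nat_lit 640) (nat_lit 5) (nat_lit 649) (nat_lit 5) (nat_lit 650) (nat_lit 5) (nat_lit 310) (nat_lit 303) (nat_lit 287)) (XT.lf (nat_lit 76) (nat_lit 332454375) (nat_lit 0) (nat_lit 4199595149) (nat_lit 760) (nat_lit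 2144851746) (nat_lit 641) (nat_lit 5) (nat_lit 640) (nat_lit 5) (nat_lit 650) (nat_lit 5) (nat_lit 311) (nat_lit 303) (nat_lit 286))) (XT.nd (nat_lit 78) (nat_lit 760) (nat_lit 0) (XT.lf (nat_lit 0) (nat_lit 1475458489) (nat_lit 760) (nat_lit 1026119741) (nat_lit 836) (nat_lit 4212812472) (nat_lit 630) (nat_lit 5) (nat_lit 640) (nat_lit 5) (nat_lit 641) (nat_lit 5) (nat_lit 312) (nat_lit 303) (nat_lit 285)) (XT.nd (nat_lit 78) (nat_lit 760) (nat_lit 0) (XT.lf (nat_lit 76) (nat_lit 4413128062) (nat_lit 0) (nat_lit 660960053) (nat_lit 836) (nat_lit 1680737982) (nat_lit 631) (nat_lit 5) (nat_lit 630) (nat_lit 5) (nat_lit 641) (nat_lit 5) (nat_lit 313) (nat_lit 303) (nat_lit 284)) (XT.lf (nat_lit 0) (nat_lit 1866773842) (nat_lit 836) (nat_lit 3627444820) (nat_lit 76) (nat_lit 1303904230) (nat_lit 620) (nat_lit 5) (nat_lit 631) (nat_lit 5) (nat_lit 621) (nat_lit 5) (nat_lit 314) (nat_lit 303) (nat_lit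 283))))) (XT.nd (nat_lit 156) (nat_lit 2128) (nat_lit 0) (XT.nd (nat_lit 78) (nat_lit 988) (nat_lit 0) (XT.lf (nat_lit 0) (nat_lit 1963960432) (nat_lit 836) (nat_lit 3443034972) (nat_lit 912) (nat_lit 1437394238) (nat_lit 609) (nat_lit 5) (nat_lit 620) (nat_lit 5) (nat_lit 621) (nat_lit 5) (nat_lit 315) (nat_lit 303) (nat_lit 282)) (XT.lf (nat_lit 0) (nat_lit 792974172) (nat_lit 912) (nat_lit 1247999060) (nat_lit 988) (nat_lit 4852703662) (nat_lit 596) (nat_lit 5) (nat_lit 608) (nat_lit 5) (nat_lit 609) (nat_lit 5) (nat_lit 316) (nat_lit 303) (nat_lit 281))) (XT.nd (nat_lit 78) (nat_lit 2128) (nat_lit 0) (XT.lf (nat_lit 0) (nat_lit 5525435591) (nat_lit 988) (nat_lit 342555118) (nat_lit 76) (nat_lit 1077906467) (nat_lit 596) (nat_lit 5) (nat_lit 609) (nat_lit 5) (nat_lit 597) (nat_lit 5) (nat_lit 317) (nat_lit 303) (nat_lit 280)) (XT.nd (nat_lit 78) (nat_lit 1064) (nat_lit 0) (XT.lf (nat_lit 0) (nat_lit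 2015737558) (nat_lit 1064) (nat_lit 1444640493) (nat_lit 76) (nat_lit 3540523427) (nat_lit 582) (nat_lit 5) (nat_lit 596) (nat_lit 5) (nat_lit 583) (nat_lit 5) (nat_lit 318) (nat_lit 303) (nat_lit 279)) (XT.lf (nat_lit 0) (nat_lit 4545855289) (nat_lit 1064) (nat_lit 908597540) (nat_lit 1140) (nat_lit 1604605302) (nat_lit 568) (nat_lit 5) (nat_lit 582) (nat_lit 5) (nat_lit 583) (nat_lit 5) (nat_lit 319) (nat_lit 303) (nat_lit 278)))))) (XT.nd (nat_lit 390) (nat_lit 8132) (nat_lit 0) (XT.nd (nat_lit 156) (nat_lit 2812) (nat_lit 0) (XT.nd (nat_lit 78) (nat_lit 1216) (nat_lit 0) (XT.lf (nat_lit 0) (nat_lit 1786150796) (nat_lit 1216) (nat_lit 3564025790) (nat_lit 76) (nat_lit 1769932532) (nat_lit 552) (nat_lit 5) (nat_lit 568) (nat_lit 5) (nat_lit 553) (nat_lit 5) (nat_lit 320) (nat_lit 303) (nat_lit 277)) (XT.lf (nat_lit 0) (nat_lit 2591566644) (nat_lit 1216) (nat_lit 2597047793) (nat_lit 1292) (nat_lit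 1995589045) (nat_lit 536) (nat_lit 5) (nat_lit 552) (nat_lit 5) (nat_lit 553) (nat_lit 5) (nat_lit 321) (nat_lit 303) (nat_lit 276))) (XT.nd (nat_lit 78) (nat_lit 1444) (nat_lit 0) (XT.lf (nat_lit 0) (nat_lit 1354543379) (nat_lit 1368) (nat_lit 5595208583) (nat_lit 76) (nat_lit 301727425) (nat_lit 518) (nat_lit 5) (nat_lit 536) (nat_lit 5) (nat_lit 519) (nat_lit 5) (nat_lit 322) (nat_lit 303) (nat_lit 275)) (XT.nd (nat_lit 78) (nat_lit 76) (nat_lit 0) (XT.lf (nat_lit 0) (nat_lit 728300879) (nat_lit 1368) (nat_lit 3999512802) (nat_lit 1444) (nat_lit 2593756300) (nat_lit 500) (nat_lit 5) (nat_lit 518) (nat_lit 5) (nat_lit 519) (nat_lit 5) (nat_lit 323) (nat_lit 303) (nat_lit 274)) (XT.lf (nat_lit 0) (nat_lit 734001853) (nat_lit 1444) (nat_lit 166111729) (nat_lit 76) (nat_lit 6494875477) (nat_lit 499) (nat_lit 5) (nat_lit 518) (nat_lit 5) (nat_lit 500) (nat_lit 5) (nat_lit 324) (nat_lit 303) (nat_lit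 273))))) (XT.nd (nat_lit 156) (nat_lit 5168) (nat_lit 0) (XT.nd (nat_lit 78) (nat_lit 1520) (nat_lit 0) (XT.lf (nat_lit 0) (nat_lit 4084624574) (nat_lit 1520) (nat_lit 1049105434) (nat_lit 76) (nat_lit 2337423360) (nat_lit 480) (nat_lit 5) (nat_lit 500) (nat_lit 5) (nat_lit 481) (nat_lit 5) (nat_lit 325) (nat_lit 303) (nat_lit 272)) (XT.lf (nat_lit 0) (nat_lit 5644604513) (nat_lit 1520) (nat_lit 1838308352) (nat_lit 1596) (nat_lit 67796284) (nat_lit 460) (nat_lit 5) (nat_lit 480) (nat_lit 5) (nat_lit 481) (nat_lit 5) (nat_lit 326) (nat_lit 303) (nat_lit 271))) (XT.nd (nat_lit 78) (nat_lit 3496) (nat_lit 0) (XT.lf (nat_lit 0) (nat_lit 3260919974) (nat_lit 1672) (nat_lit 2764688444) (nat_lit 76) (nat_lit 1607567929) (nat_lit 438) (nat_lit 5) (nat_lit 460) (nat_lit 5) (nat_lit 439) (nat_lit 5) (nat_lit 327) (nat_lit 303) (nat_lit 270)) (XT.nd (nat_lit 78) (nat_lit 1824) (nat_lit 0) (XT.lf (nat_lit 0)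 (nat_lit 4111135124) (nat_lit 1672) (nat_lit 2536686165) (nat_lit 1748) (nat_lit 1071148141) (nat_lit 416) (nat_lit 5) (nat_lit 438) (nat_lit 5) (nat_lit 439) (nat_lit 5) (nat_lit 328) (nat_lit 303) (nat_lit 269)) (XT.lf (nat_lit 0) (nat_lit 2255224335) (nat_lit 1824) (nat_lit 4446699069) (nat_lit 76) (nat_lit 1106018476) (nat_lit 392) (nat_lit 5) (nat_lit 416) (nat_lit 5) (nat_lit 393) (nat_lit 5) (nat_lit 329) (nat_lit 303) (nat_lit 268))))))) (XT.nd (nat_lit 780) (nat_lit 6004) (nat_lit 0) (XT.nd (nat_lit 390) (nat_lit 4028) (nat_lit 0) (XT.nd (nat_lit 156) (nat_lit 1748) (nat_lit 0) (XT.nd (nat_lit 78) (nat_lit 988) (nat_lit 0) (XT.lf (nat_lit 0) (nat_lit 2614806143) (nat_lit 1064) (nat_lit 3021590246) (nat_lit 1140) (nat_lit 2263696544) (nat_lit 378) (nat_lit 5) (nat_lit 392) (nat_lit 5) (nat_lit 393) (nat_lit 5) (nat_lit 330) (nat_lit 303) (nat_lit 267)) (XT.lf (nat_lit 0) (nat_lit 1069544225)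 (nat_lit 988) (nat_lit 6113984595) (nat_lit 76) (nat_lit 812168155) (nat_lit 365) (nat_lit 5) (nat_lit 378) (nat_lit 5) (nat_lit 366) (nat_lit 5) (nat_lit 331) (nat_lit 303) (nat_lit 266))) (XT.nd (nat_lit 78) (nat_lit 912) (nat_lit 0) (XT.lf (nat_lit 0) (nat_lit 1136841518) (nat_lit 836) (nat_lit 3313390229) (nat_lit 912) (nat_lit 3644113094) (nat_lit 354) (nat_lit 5) (nat_lit 365) (nat_lit 5) (nat_lit 366) (nat_lit 5) (nat_lit 332) (nat_lit 303) (nat_lit 265)) (XT.nd (nat_lit 78) (nat_lit 76) (nat_lit 0) (XT.lf (nat_lit 0) (nat_lit 409049099) (nat_lit 836) (nat_lit 7488358633) (nat_lit 912) (nat_lit 299280967) (nat_lit 343) (nat_lit 5) (nat_lit 354) (nat_lit 5) (nat_lit 355) (nat_lit 5) (nat_lit 333) (nat_lit 303) (nat_lit 264)) (XT.lf (nat_lit 0) (nat_lit 3091905666) (nat_lit 912) (nat_lit 337397205) (nat_lit 76) (nat_lit 4872682212) (nat_lit 342) (nat_lit 5) (nat_lit 354) (nat_lit 5) (nat_lit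 343) (nat_lit 5) (nat_lit 334) (nat_lit 303) (nat_lit 263))))) (XT.nd (nat_lit 156) (nat_lit 2280) (nat_lit 0) (XT.nd (nat_lit 78) (nat_lit 912) (nat_lit 0) (XT.lf (nat_lit 0) (nat_lit 6553734517) (nat_lit 912) (nat_lit 1068243579) (nat_lit 76) (nat_lit 788998281) (nat_lit 331) (nat_lit 5) (nat_lit 343) (nat_lit 5) (nat_lit 332) (nat_lit 5) (nat_lit 335) (nat_lit 303) (nat_lit 262)) (XT.lf (nat_lit 0) (nat_lit 1565826734) (nat_lit 912) (nat_lit 1816849902) (nat_lit 76) (nat_lit 5140575250) (nat_lit 319) (nat_lit 5) (nat_lit 331) (nat_lit 5) (nat_lit 320) (nat_lit 5) (nat_lit 336) (nat_lit 303) (nat_lit 261))) (XT.nd (nat_lit 78) (nat_lit 1520) (nat_lit 0) (XT.lf (nat_lit 0) (nat_lit 5043007241) (nat_lit 836) (nat_lit 2571304064) (nat_lit 76) (nat_lit 1024838155) (nat_lit 309) (nat_lit 5) (nat_lit 320) (nat_lit 5) (nat_lit 310) (nat_lit 5) (nat_lit 337) (nat_lit 303) (nat_lit 260)) (XT.nd (nat_lit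 78) (nat_lit 760) (nat_lit 0) (XT.lf (nat_lit 0) (nat_lit 5421276121) (nat_lit 760) (nat_lit 3198153055) (nat_lit 836) (nat_lit 139227699) (nat_lit 299) (nat_lit 5) (nat_lit 309) (nat_lit 5) (nat_lit 310) (nat_lit 5) (nat_lit 338) (nat_lit 303) (nat_lit 259)) (XT.lf (nat_lit 0) (nat_lit 3360041414) (nat_lit 760) (nat_lit 4125902543) (nat_lit 76) (nat_lit 1395720810) (nat_lit 289) (nat_lit 5) (nat_lit 299) (nat_lit 5) (nat_lit 290) (nat_lit 5) (nat_lit 339) (nat_lit 303) (nat_lit 258)))))) (XT.nd (nat_lit 390) (nat_lit 2508) (nat_lit 0) (XT.nd (nat_lit 156) (nat_lit 1976) (nat_lit 0) (XT.nd (nat_lit 78) (nat_lit 760) (nat_lit 0) (XT.lf (nat_lit 0) (nat_lit 4077933698) (nat_lit 760) (nat_lit 2882539133) (nat_lit 836) (nat_lit 2047939191) (nat_lit 279) (nat_lit 5) (nat_lit 289) (nat_lit 5) (nat_lit 290) (nat_lit 5) (nat_lit 340) (nat_lit 303) (nat_lit 257)) (XT.lf (nat_lit 0) (nat_lit 1501019594) (nat_lit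 760) (nat_lit 5753396842) (nat_lit 76) (nat_lit 1884551643) (nat_lit 269) (nat_lit 5) (nat_lit 279) (nat_lit 5) (nat_lit 270) (nat_lit 5) (nat_lit 341) (nat_lit 303) (nat_lit 256))) (XT.nd (nat_lit 78) (nat_lit 1292) (nat_lit 0) (XT.lf (nat_lit 0) (nat_lit 2665370818) (nat_lit 684) (nat_lit 2463635509) (nat_lit 760) (nat_lit 4144182945) (nat_lit 260) (nat_lit 5) (nat_lit 269) (nat_lit 5) (nat_lit 270) (nat_lit 5) (nat_lit 342) (nat_lit 303) (nat_lit 255)) (XT.nd (nat_lit 78) (nat_lit 684) (nat_lit 0) (XT.lf (nat_lit 0) (nat_lit 1931638037) (nat_lit 608) (nat_lit 6933466695) (nat_lit 684) (nat_lit 546372989) (nat_lit 252) (nat_lit 5) (nat_lit 260) (nat_lit 5) (nat_lit 261) (nat_lit 5) (nat_lit 343) (nat_lit 303) (nat_lit 254)) (XT.lf (nat_lit 0) (nat_lit 1160866401) (nat_lit 608) (nat_lit 1958600497) (nat_lit 684) (nat_lit 6434031852) (nat_lit 243) (nat_lit 5) (nat_lit 251) (nat_lit 5) (nat_lit 252)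 (nat_lit 5) (nat_lit 344) (nat_lit 303) (nat_lit 253))))) (XT.nd (nat_lit 156) (nat_lit 1824) (nat_lit 0) (XT.nd (nat_lit 78) (nat_lit 76) (nat_lit 0) (XT.lf (nat_lit 0) (nat_lit 362921892) (nat_lit 608) (nat_lit 6532707406) (nat_lit 684) (nat_lit 2803947557) (nat_lit 235) (nat_lit 5) (nat_lit 243) (nat_lit 5) (nat_lit 244) (nat_lit 5) (nat_lit 345) (nat_lit 303) (nat_lit 252)) (XT.lf (nat_lit 0) (nat_lit 927873697) (nat_lit 684) (nat_lit 453695409) (nat_lit 76) (nat_lit 8468267751) (nat_lit 234) (nat_lit 5) (nat_lit 243) (nat_lit 5) (nat_lit 235) (nat_lit 5) (nat_lit 346) (nat_lit 303) (nat_lit 251))) (XT.nd (nat_lit 78) (nat_lit 1216) (nat_lit 0) (XT.lf (nat_lit 0) (nat_lit 4752866456) (nat_lit 684) (nat_lit 1317902570) (nat_lit 76) (nat_lit 3933100978) (nat_lit 226) (nat_lit 5) (nat_lit 235) (nat_lit 5) (nat_lit 227) (nat_lit 5) (nat_lit 347) (nat_lit 303) (nat_lit 250)) (XT.nd (nat_lit 78) (nat_lit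 684) (nat_lit 0) (XT.lf (nat_lit 0) (nat_lit 7959918553) (nat_lit 532) (nat_lit 734597389) (nat_lit 608) (nat_lit 1467991674) (nat_lit 219) (nat_lit 5) (nat_lit 226) (nat_lit 5) (nat_lit 227) (nat_lit 5) (nat_lit 348) (nat_lit 303) (nat_lit 249)) (XT.lf (nat_lit 0) (nat_lit 2422506928) (nat_lit 684) (nat_lit 3148232501) (nat_lit 76) (nat_lit 4754353209) (nat_lit 210) (nat_lit 5) (nat_lit 219) (nat_lit 5) (nat_lit 211) (nat_lit 5) (nat_lit 349) (nat_lit 303) (nat_lit 248))))))))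
noncomputable def xc55 : XT := (XT.nd (nat_lit 1560) (nat_lit 3876) (nat_lit 0) (XT.nd (nat_lit 780) (nat_lit 3572) (nat_lit 0) (XT.nd (nat_lit 390) (nat_lit 1824) (nat_lit 0) (XT.nd (nat_lit 156) (nat_lit 1596) (nat_lit 0) (XT.nd (nat_lit 78) (nat_lit 532) (nat_lit 0) (XT.lf (nat_lit 0) (nat_lit 6366071037) (nat_lit 532) (nat_lit 45034517) (nat_lit 608) (nat_lit 4081248971) (nat_lit 203) (nat_lit 5) (nat_lit 210) (nat_lit 5) (nat_lit 211) (nat_lit 5) (nat_lit 350) (nat_lit 303) (nat_lit 247)) (XT.lf (nat_lit 0) (nat_lit 5502060712) (nat_lit 532) (nat_lit 5052237856) (nat_lit 608) (nat_lit 109656361) (nat_lit 196) (nat_lit 5) (nat_lit 203) (nat_lit 5) (nat_lit 204) (nat_lit 5) (nat_lit 351) (nat_lit 303) (nat_lit 246))) (XT.nd (nat_lit 78) (nat_lit 1064) (nat_lit 0) (XT.lf (nat_lit 0) (nat_lit 3933332670) (nat_lit 532) (nat_lit 6252536324) (nat_lit 76) (nat_lit 654246619) (nat_lit 189) (nat_lit 5)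 (nat_lit 196) (nat_lit 5) (nat_lit 190) (nat_lit 5) (nat_lit 352) (nat_lit 303) (nat_lit 245)) (XT.nd (nat_lit 78) (nat_lit 532) (nat_lit 0) (XT.lf (nat_lit 0) (nat_lit 3614702309) (nat_lit 532) (nat_lit 4516860837) (nat_lit 608) (nat_lit 2889292563) (nat_lit 182) (nat_lit 5) (nat_lit 189) (nat_lit 5) (nat_lit 190) (nat_lit 5) (nat_lit 353) (nat_lit 303) (nat_lit 244)) (XT.lf (nat_lit 0) (nat_lit 1244564462) (nat_lit 532) (nat_lit 8609334628) (nat_lit 76) (nat_lit 1352729435) (nat_lit 175) (nat_lit 5) (nat_lit 182) (nat_lit 5) (nat_lit 176) (nat_lit 5) (nat_lit 354) (nat_lit 303) (nat_lit 243))))) (XT.nd (nat_lit 156) (nat_lit 912) (nat_lit 0) (XT.nd (nat_lit 78) (nat_lit 456) (nat_lit 0) (XT.lf (nat_lit 0) (nat_lit 1498506378) (nat_lit 456) (nat_lit 4000117482) (nat_lit 532) (nat_lit 5898276441) (nat_lit 169) (nat_lit 5) (nat_lit 175) (nat_lit 5) (nat_lit 176) (nat_lit 5) (nat_lit 355) (nat_lit 303)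 (nat_lit 242)) (XT.lf (nat_lit 0) (nat_lit 350494300) (nat_lit 456) (nat_lit 9549732931) (nat_lit 532) (nat_lit 1692270630) (nat_lit 163) (nat_lit 5) (nat_lit 169) (nat_lit 5) (nat_lit 170) (nat_lit 5) (nat_lit 356) (nat_lit 303) (nat_lit 241))) (XT.nd (nat_lit 78) (nat_lit 836) (nat_lit 0) (XT.lf (nat_lit 0) (nat_lit 2646032702) (nat_lit 532) (nat_lit 870362093) (nat_lit 76) (nat_lit 8276426245) (nat_lit 162) (nat_lit 5) (nat_lit 169) (nat_lit 5) (nat_lit 163) (nat_lit 5) (nat_lit 357) (nat_lit 303) (nat_lit 240)) (XT.nd (nat_lit 78) (nat_lit 380) (nat_lit 0) (XT.lf (nat_lit 0) (nat_lit 7121527631) (nat_lit 532) (nat_lit 2159730646) (nat_lit 76) (nat_lit 2717086096) (nat_lit 156) (nat_lit 5) (nat_lit 163) (nat_lit 5) (nat_lit 157) (nat_lit 5) (nat_lit 358) (nat_lit 303) (nat_lit 239)) (XT.lf (nat_lit 0) (nat_lit 8688007100) (nat_lit 380) (nat_lit 3078076115) (nat_lit 456) (nat_lit 443268698) (nat_lit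 151) (nat_lit 5) (nat_lit 156) (nat_lit 5) (nat_lit 157) (nat_lit 5) (nat_lit 359) (nat_lit 303) (nat_lit 238)))))) (XT.nd (nat_lit 390) (nat_lit 1444) (nat_lit 0) (XT.nd (nat_lit 156) (nat_lit 1216) (nat_lit 0) (XT.nd (nat_lit 78) (nat_lit 380) (nat_lit 0) (XT.lf (nat_lit 0) (nat_lit 4103950682) (nat_lit 532) (nat_lit 4985248186) (nat_lit 76) (nat_lit 3336274265) (nat_lit 144) (nat_lit 5) (nat_lit 151) (nat_lit 5) (nat_lit 145) (nat_lit 5) (nat_lit 360) (nat_lit 303) (nat_lit 237)) (XT.lf (nat_lit 0) (nat_lit 6115326327) (nat_lit 380) (nat_lit 2701049717) (nat_lit 456) (nat_lit 3830960441) (nat_lit 139) (nat_lit 5) (nat_lit 144) (nat_lit 5) (nat_lit 145) (nat_lit 5) (nat_lit 361) (nat_lit 303) (nat_lit 236))) (XT.nd (nat_lit 78) (nat_lit 760) (nat_lit 0) (XT.lf (nat_lit 0) (nat_lit 825205691) (nat_lit 456) (nat_lit 8174258206) (nat_lit 76) (nat_lit 3875475281) (nat_lit 133) (nat_lit 5) (nat_lit 139)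 (nat_lit 5) (nat_lit 134) (nat_lit 5) (nat_lit 362) (nat_lit 303) (nat_lit 235)) (XT.nd (nat_lit 78) (nat_lit 380) (nat_lit 0) (XT.lf (nat_lit 0) (nat_lit 3177420269) (nat_lit 380) (nat_lit 2427065337) (nat_lit 456) (nat_lit 7503680677) (nat_lit 128) (nat_lit 5) (nat_lit 133) (nat_lit 5) (nat_lit 134) (nat_lit 5) (nat_lit 363) (nat_lit 303) (nat_lit 234)) (XT.lf (nat_lit 0) (nat_lit 1554890254) (nat_lit 380) (nat_lit 9019024319) (nat_lit 456) (nat_lit 2773552175) (nat_lit 123) (nat_lit 5) (nat_lit 128) (nat_lit 5) (nat_lit 129) (nat_lit 5) (nat_lit 364) (nat_lit 303) (nat_lit 233))))) (XT.nd (nat_lit 156) (nat_lit 1064) (nat_lit 0) (XT.nd (nat_lit 78) (nat_lit 304) (nat_lit 0) (XT.lf (nat_lit 0) (nat_lit 2108255086) (nat_lit 456) (nat_lit 172547313) (nat_lit 76) (nat_lit 11312136777) (nat_lit 122) (nat_lit 5) (nat_lit 128) (nat_lit 5) (nat_lit 123) (nat_lit 5) (nat_lit 365) (nat_lit 303) (nat_lit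 232)) (XT.lf (nat_lit 0) (nat_lit 7161502587) (nat_lit 380) (nat_lit 2010992513) (nat_lit 76) (nat_lit 4671671708) (nat_lit 118) (nat_lit 5) (nat_lit 123) (nat_lit 5) (nat_lit 119) (nat_lit 5) (nat_lit 366) (nat_lit 303) (nat_lit 231))) (XT.nd (nat_lit 78) (nat_lit 684) (nat_lit 0) (XT.lf (nat_lit 0) (nat_lit 10148102401) (nat_lit 380) (nat_lit 2255980686) (nat_lit 456) (nat_lit 1698104199) (nat_lit 113) (nat_lit 5) (nat_lit 118) (nat_lit 5) (nat_lit 119) (nat_lit 5) (nat_lit 367) (nat_lit 303) (nat_lit 230)) (XT.nd (nat_lit 78) (nat_lit 304) (nat_lit 0) (XT.lf (nat_lit 0) (nat_lit 3446898441) (nat_lit 380) (nat_lit 6047875143) (nat_lit 76) (nat_lit 4871619440) (nat_lit 108) (nat_lit 5) (nat_lit 113) (nat_lit 5) (nat_lit 109) (nat_lit 5) (nat_lit 368) (nat_lit 303) (nat_lit 229)) (XT.lf (nat_lit 0) (nat_lit 6364928205) (nat_lit 304) (nat_lit 2398444983) (nat_lit 380) (nat_lit 5874133321) (nat_lit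 104) (nat_lit 5) (nat_lit 108) (nat_lit 5) (nat_lit 109) (nat_lit 5) (nat_lit 369) (nat_lit 303) (nat_lit 228))))))) (XT.nd (nat_lit 780) (nat_lit 1292) (nat_lit 0) (XT.nd (nat_lit 390) (nat_lit 1216) (nat_lit 0) (XT.nd (nat_lit 156) (nat_lit 684) (nat_lit 0) (XT.nd (nat_lit 78) (nat_lit 380) (nat_lit 0) (XT.lf (nat_lit 0) (nat_lit 4273888780) (nat_lit 304) (nat_lit 10023694648) (nat_lit 380) (nat_lit 618014769) (nat_lit 100) (nat_lit 5) (nat_lit 104) (nat_lit 5) (nat_lit 105) (nat_lit 5) (nat_lit 370) (nat_lit 303) (nat_lit 227)) (XT.lf (nat_lit 0) (nat_lit 2021582937) (nat_lit 304) (nat_lit 2754783228) (nat_lit 380) (nat_lit 10424183356) (nat_lit 95) (nat_lit 5) (nat_lit 99) (nat_lit 5) (nat_lit 100) (nat_lit 5) (nat_lit 371) (nat_lit 303) (nat_lit 226))) (XT.nd (nat_lit 78) (nat_lit 684) (nat_lit 0) (XT.lf (nat_lit 0) (nat_lit 10386072357) (nat_lit 380) (nat_lit 383560611) (nat_lit 76) (nat_lit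 4723105803) (nat_lit 95) (nat_lit 5) (nat_lit 100) (nat_lit 5) (nat_lit 96) (nat_lit 5) (nat_lit 372) (nat_lit 303) (nat_lit 225)) (XT.nd (nat_lit 78) (nat_lit 304) (nat_lit 0) (XT.lf (nat_lit 0) (nat_lit 427717404) (nat_lit 380) (nat_lit 2913177985) (nat_lit 76) (nat_lit 12451514704) (nat_lit 90) (nat_lit 5) (nat_lit 95) (nat_lit 5) (nat_lit 91) (nat_lit 5) (nat_lit 373) (nat_lit 303) (nat_lit 224)) (XT.lf (nat_lit 0) (nat_lit 6118590112) (nat_lit 380) (nat_lit 5644466940) (nat_lit 76) (nat_lit 4336150882) (nat_lit 86) (nat_lit 5) (nat_lit 91) (nat_lit 5) (nat_lit 87) (nat_lit 5) (nat_lit 374) (nat_lit 303) (nat_lit 223))))) (XT.nd (nat_lit 156) (nat_lit 608) (nat_lit 0) (XT.nd (nat_lit 78) (nat_lit 380) (nat_lit 0) (XT.lf (nat_lit 0) (nat_lit 7866219758) (nat_lit 228) (nat_lit 4168083973) (nat_lit 304) (nat_lit 4379831666) (nat_lit 83) (nat_lit 5) (nat_lit 86) (nat_lit 5) (nat_lit 87) (nat_lit 5)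 (nat_lit 375) (nat_lit 303) (nat_lit 222)) (XT.lf (nat_lit 0) (nat_lit 1427896498) (nat_lit 380) (nat_lit 11644933376) (nat_lit 76) (nat_lit 3664365339) (nat_lit 78) (nat_lit 5) (nat_lit 83) (nat_lit 5) (nat_lit 79) (nat_lit 5) (nat_lit 376) (nat_lit 303) (nat_lit 221))) (XT.nd (nat_lit 78) (nat_lit 380) (nat_lit 0) (XT.lf (nat_lit 0) (nat_lit 2097499349) (nat_lit 228) (nat_lit 5314866500) (nat_lit 304) (nat_lit 9655769055) (nat_lit 75) (nat_lit 5) (nat_lit 78) (nat_lit 5) (nat_lit 79) (nat_lit 5) (nat_lit 377) (nat_lit 303) (nat_lit 220)) (XT.nd (nat_lit 78) (nat_lit 380) (nat_lit 0) (XT.lf (nat_lit 0) (nat_lit 13635607795) (nat_lit 304) (nat_lit 1075630750) (nat_lit 76) (nat_lit 2696586629) (nat_lit 75) (nat_lit 5) (nat_lit 79) (nat_lit 5) (nat_lit 76) (nat_lit 5) (nat_lit 378) (nat_lit 303) (nat_lit 219)) (XT.lf (nat_lit 0) (nat_lit 2343915976) (nat_lit 380) (nat_lit 4456220301) (nat_lit 76) (nat_lit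 10955557996) (nat_lit 70) (nat_lit 5) (nat_lit 75) (nat_lit 5) (nat_lit 71) (nat_lit 5) (nat_lit 379) (nat_lit 303) (nat_lit 218)))))) (XT.nd (nat_lit 390) (nat_lit 304) (nat_lit 0) (XT.nd (nat_lit 156) (nat_lit 532) (nat_lit 0) (XT.nd (nat_lit 78) (nat_lit 228) (nat_lit 0) (XT.lf (nat_lit 0) (nat_lit 8638398575) (nat_lit 304) (nat_lit 8068356601) (nat_lit 76) (nat_lit 1405829900) (nat_lit 67) (nat_lit 5) (nat_lit 71) (nat_lit 5) (nat_lit 68) (nat_lit 5) (nat_lit 380) (nat_lit 303) (nat_lit 217)) (XT.lf (nat_lit 0) (nat_lit 6542018294) (nat_lit 228) (nat_lit 8662524154) (nat_lit 304) (nat_lit 3273990043) (nat_lit 64) (nat_lit 5) (nat_lit 67) (nat_lit 5) (nat_lit 68) (nat_lit 5) (nat_lit 381) (nat_lit 303) (nat_lit 216))) (XT.nd (nat_lit 78) (nat_lit 228) (nat_lit 0) (XT.lf (nat_lit 0) (nat_lit 2804262975) (nat_lit 228) (nat_lit 305273777) (nat_lit 304) (nat_lit 15744760728) (nat_lit 60) (nat_lit 5)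 (nat_lit 63) (nat_lit 5) (nat_lit 64) (nat_lit 5) (nat_lit 382) (nat_lit 303) (nat_lit 215)) (XT.nd (nat_lit 78) (nat_lit 228) (nat_lit 0) (XT.lf (nat_lit 0) (nat_lit 9741064635) (nat_lit 304) (nat_lit 1223720395) (nat_lit 76) (nat_lit 8274103983) (nat_lit 60) (nat_lit 5) (nat_lit 64) (nat_lit 5) (nat_lit 61) (nat_lit 5) (nat_lit 383) (nat_lit 303) (nat_lit 214)) (XT.lf (nat_lit 0) (nat_lit 14174624820) (nat_lit 228) (nat_lit 2457388593) (nat_lit 304) (nat_lit 3001801141) (nat_lit 57) (nat_lit 5) (nat_lit 60) (nat_lit 5) (nat_lit 61) (nat_lit 5) (nat_lit 384) (nat_lit 303) (nat_lit 213))))) (XT.nd (nat_lit 40638) (nat_lit 0) (nat_lit 45752) (XT.nd (nat_lit 40560) (nat_lit 0) (nat_lit 46284) (XT.lf (nat_lit 0) (nat_lit 3722633763) (nat_lit 304) (nat_lit 10017666986) (nat_lit 76) (nat_lit 6298175272) (nat_lit 53) (nat_lit 5) (nat_lit 57) (nat_lit 5) (nat_lit 54) (nat_lit 5) (nat_lit 385) (nat_lit 303)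 (nat_lit 212)) (XT.lf (nat_lit 0) (nat_lit 753215986) (nat_lit 532) (nat_lit 1251194085) (nat_lit 532) (nat_lit 1251194085) (nat_lit 662) (nat_lit 3) (nat_lit 669) (nat_lit 3) (nat_lit 669) (nat_lit 5) (nat_lit 304) (nat_lit 304) (nat_lit 292))) (XT.nd (nat_lit 78) (nat_lit 532) (nat_lit 0) (XT.lf (nat_lit 76) (nat_lit 2198242509) (nat_lit 0) (nat_lit 3144730355) (nat_lit 532) (nat_lit 1186914573) (nat_lit 663) (nat_lit 5) (nat_lit 662) (nat_lit 3) (nat_lit 669) (nat_lit 5) (nat_lit 305) (nat_lit 304) (nat_lit 291)) (XT.nd (nat_lit 78) (nat_lit 0) (nat_lit 0) (XT.lf (nat_lit 76) (nat_lit 434333636) (nat_lit 0) (nat_lit 2145152952) (nat_lit 608) (nat_lit 3971987306) (nat_lit 656) (nat_lit 5) (nat_lit 655) (nat_lit 5) (nat_lit 663) (nat_lit 5) (nat_lit 306) (nat_lit 304) (nat_lit 290)) (XT.lf (nat_lit 76) (nat_lit 5317036706) (nat_lit 0) (nat_lit 1009093825) (nat_lit 608) (nat_lit 249853654) (nat_lit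 656) (nat_lit 5) (nat_lit 655) (nat_lit 5) (nat_lit 663) (nat_lit 5) (nat_lit 307) (nat_lit 304) (nat_lit 289))))))))
noncomputable def xc56 : XT := (XT.nd (nat_lit 1560) (nat_lit 16112) (nat_lit 0) (XT.nd (nat_lit 780) (nat_lit 11932) (nat_lit 0) (XT.nd (nat_lit 390) (nat_lit 2584) (nat_lit 0) (XT.nd (nat_lit 156) (nat_lit 760) (nat_lit 0) (XT.nd (nat_lit 78) (nat_lit 684) (nat_lit 0) (XT.lf (nat_lit 0) (nat_lit 3419902522) (nat_lit 608) (nat_lit 2912106155) (nat_lit 684) (nat_lit 271192294) (nat_lit 648) (nat_lit 5) (nat_lit 656) (nat_lit 5) (nat_lit 657) (nat_lit 5) (nat_lit 308) (nat_lit 304) (nat_lit 288)) (XT.lf (nat_lit 0) (nat_lit 447295393) (nat_lit 684) (nat_lit 4520621482) (nat_lit 760) (nat_lit 1665511139) (nat_lit 639) (nat_lit 5) (nat_lit 648) (nat_lit 5) (nat_lit 649) (nat_lit 5) (nat_lit 309) (nat_lit 304) (nat_lit 287))) (XT.nd (nat_lit 78) (nat_lit 760) (nat_lit 0) (XT.lf (nat_lit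 76) (nat_lit 570337058) (nat_lit 0) (nat_lit 3460862086) (nat_lit 760) (nat_lit 2635277634) (nat_lit 640) (nat_lit 5) (nat_lit 639) (nat_lit 5) (nat_lit 649) (nat_lit 5) (nat_lit 310) (nat_lit 304) (nat_lit 286)) (XT.nd (nat_lit 78) (nat_lit 0) (nat_lit 0) (XT.lf (nat_lit 0) (nat_lit 905853216) (nat_lit 760) (nat_lit 911289813) (nat_lit 836) (nat_lit 4885382437) (nat_lit 629) (nat_lit 5) (nat_lit 639) (nat_lit 5) (nat_lit 640) (nat_lit 5) (nat_lit 311) (nat_lit 304) (nat_lit 285)) (XT.lf (nat_lit 76) (nat_lit 4390964035) (nat_lit 0) (nat_lit 25376869) (nat_lit 836) (nat_lit 2325069638) (nat_lit 630) (nat_lit 5) (nat_lit 629) (nat_lit 5) (nat_lit 640) (nat_lit 5) (nat_lit 312) (nat_lit 304) (nat_lit 284))))) (XT.nd (nat_lit 156) (nat_lit 1824) (nat_lit 0) (XT.nd (nat_lit 78) (nat_lit 0) (nat_lit 0) (XT.lf (nat_lit 0) (nat_lit 1145147000) (nat_lit 836) (nat_lit 3759294669) (nat_lit 912) (nat_lit 1878718611)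 (nat_lit 619) (nat_lit 5) (nat_lit 630) (nat_lit 5) (nat_lit 631) (nat_lit 5) (nat_lit 313) (nat_lit 304) (nat_lit 283)) (XT.lf (nat_lit 76) (nat_lit 1691902540) (nat_lit 0) (nat_lit 2899438143) (nat_lit 912) (nat_lit 2236520897) (nat_lit 620) (nat_lit 5) (nat_lit 619) (nat_lit 5) (nat_lit 631) (nat_lit 5) (nat_lit 314) (nat_lit 304) (nat_lit 282))) (XT.nd (nat_lit 78) (nat_lit 912) (nat_lit 0) (XT.lf (nat_lit 76) (nat_lit 400975420) (nat_lit 0) (nat_lit 755985703) (nat_lit 988) (nat_lit 5718719009) (nat_lit 608) (nat_lit 5) (nat_lit 607) (nat_lit 5) (nat_lit 620) (nat_lit 5) (nat_lit 315) (nat_lit 304) (nat_lit 281)) (XT.nd (nat_lit 78) (nat_lit 988) (nat_lit 0) (XT.lf (nat_lit 0) (nat_lit 4548095332) (nat_lit 912) (nat_lit 856509066) (nat_lit 76) (nat_lit 1521578393) (nat_lit 608) (nat_lit 5) (nat_lit 620) (nat_lit 5) (nat_lit 609) (nat_lit 5) (nat_lit 316) (nat_lit 304) (nat_lit 280)) (XT.lf (nat_lit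 0) (nat_lit 970224922) (nat_lit 988) (nat_lit 2076230585) (nat_lit 76) (nat_lit 3933245536) (nat_lit 595) (nat_lit 5) (nat_lit 608) (nat_lit 5) (nat_lit 596) (nat_lit 5) (nat_lit 317) (nat_lit 304) (nat_lit 279)))))) (XT.nd (nat_lit 390) (nat_lit 7372) (nat_lit 0) (XT.nd (nat_lit 156) (nat_lit 2432) (nat_lit 0) (XT.nd (nat_lit 78) (nat_lit 1140) (nat_lit 0) (XT.lf (nat_lit 0) (nat_lit 3766861053) (nat_lit 988) (nat_lit 537381888) (nat_lit 1064) (nat_lit 2731980794) (nat_lit 582) (nat_lit 5) (nat_lit 595) (nat_lit 5) (nat_lit 596) (nat_lit 5) (nat_lit 318) (nat_lit 304) (nat_lit 278)) (XT.lf (nat_lit 0) (nat_lit 569689812) (nat_lit 1140) (nat_lit 4439589631) (nat_lit 76) (nat_lit 2086454643) (nat_lit 567) (nat_lit 5) (nat_lit 582) (nat_lit 5) (nat_lit 568) (nat_lit 5) (nat_lit 319) (nat_lit 304) (nat_lit 277))) (XT.nd (nat_lit 78) (nat_lit 1292) (nat_lit 0) (XT.lf (nat_lit 0) (nat_lit 1564874834) (nat_lit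 1140) (nat_lit 2296664598) (nat_lit 1216) (nat_lit 3296623913) (nat_lit 552) (nat_lit 5) (nat_lit 567) (nat_lit 5) (nat_lit 568) (nat_lit 5) (nat_lit 320) (nat_lit 304) (nat_lit 276)) (XT.nd (nat_lit 78) (nat_lit 76) (nat_lit 0) (XT.lf (nat_lit 0) (nat_lit 509398169) (nat_lit 1216) (nat_lit 6674338316) (nat_lit 1292) (nat_lit 40155098) (nat_lit 536) (nat_lit 5) (nat_lit 552) (nat_lit 5) (nat_lit 553) (nat_lit 5) (nat_lit 321) (nat_lit 304) (nat_lit 275)) (XT.lf (nat_lit 0) (nat_lit 3220632057) (nat_lit 1292) (nat_lit 538562070) (nat_lit 76) (nat_lit 3533020597) (nat_lit 535) (nat_lit 5) (nat_lit 552) (nat_lit 5) (nat_lit 536) (nat_lit 5) (nat_lit 322) (nat_lit 304) (nat_lit 274))))) (XT.nd (nat_lit 156) (nat_lit 4636) (nat_lit 0) (XT.nd (nat_lit 78) (nat_lit 1444) (nat_lit 0) (XT.lf (nat_lit 0) (nat_lit 5818761570) (nat_lit 1292) (nat_lit 697306789) (nat_lit 1368) (nat_lit 847820017) (nat_lit 518)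 (nat_lit 5) (nat_lit 535) (nat_lit 5) (nat_lit 536) (nat_lit 5) (nat_lit 323) (nat_lit 304) (nat_lit 273)) (XT.lf (nat_lit 0) (nat_lit 2393459227) (nat_lit 1444) (nat_lit 2550327999) (nat_lit 76) (nat_lit 2494590234) (nat_lit 499) (nat_lit 5) (nat_lit 518) (nat_lit 5) (nat_lit 500) (nat_lit 5) (nat_lit 324) (nat_lit 304) (nat_lit 272))) (XT.nd (nat_lit 78) (nat_lit 3192) (nat_lit 0) (XT.lf (nat_lit 0) (nat_lit 3981505190) (nat_lit 1444) (nat_lit 1683852834) (nat_lit 1520) (nat_lit 1850782597) (nat_lit 480) (nat_lit 5) (nat_lit 499) (nat_lit 5) (nat_lit 500) (nat_lit 5) (nat_lit 325) (nat_lit 304) (nat_lit 271)) (XT.nd (nat_lit 78) (nat_lit 1596) (nat_lit 0) (XT.lf (nat_lit 0) (nat_lit 1374482860) (nat_lit 1596) (nat_lit 4509796822) (nat_lit 76) (nat_lit 1712733595) (nat_lit 459) (nat_lit 5) (nat_lit 480) (nat_lit 5) (nat_lit 460) (nat_lit 5) (nat_lit 326) (nat_lit 304) (nat_lit 270)) (XT.lf (nat_lit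 0) (nat_lit 2199879508) (nat_lit 1596) (nat_lit 2429000189) (nat_lit 1672) (nat_lit 3052083105) (nat_lit 438) (nat_lit 5) (nat_lit 459) (nat_lit 5) (nat_lit 460) (nat_lit 5) (nat_lit 327) (nat_lit 304) (nat_lit 269))))))) (XT.nd (nat_lit 780) (nat_lit 6308) (nat_lit 0) (XT.nd (nat_lit 390) (nat_lit 4256) (nat_lit 0) (XT.nd (nat_lit 156) (nat_lit 2052) (nat_lit 0) (XT.nd (nat_lit 78) (nat_lit 1748) (nat_lit 0) (XT.lf (nat_lit 0) (nat_lit 167058008) (nat_lit 1748) (nat_lit 6435769606) (nat_lit 76) (nat_lit 1165491399) (nat_lit 415) (nat_lit 5) (nat_lit 438) (nat_lit 5) (nat_lit 416) (nat_lit 5) (nat_lit 328) (nat_lit 304) (nat_lit 268)) (XT.lf (nat_lit 0) (nat_lit 455205782) (nat_lit 1748) (nat_lit 2954351759) (nat_lit 1824) (nat_lit 4449012138) (nat_lit 392) (nat_lit 5) (nat_lit 415) (nat_lit 5) (nat_lit 416) (nat_lit 5) (nat_lit 329) (nat_lit 304) (nat_lit 267))) (XT.nd (nat_lit 78) (nat_lit 2052)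 (nat_lit 0) (XT.lf (nat_lit 0) (nat_lit 6711970816) (nat_lit 1824) (nat_lit 397566028) (nat_lit 76) (nat_lit 842779274) (nat_lit 392) (nat_lit 5) (nat_lit 416) (nat_lit 5) (nat_lit 393) (nat_lit 5) (nat_lit 330) (nat_lit 304) (nat_lit 266)) (XT.nd (nat_lit 78) (nat_lit 912) (nat_lit 0) (XT.lf (nat_lit 0) (nat_lit 2017331608) (nat_lit 1140) (nat_lit 1254659021) (nat_lit 76) (nat_lit 4777058730) (nat_lit 377) (nat_lit 5) (nat_lit 392) (nat_lit 5) (nat_lit 378) (nat_lit 5) (nat_lit 331) (nat_lit 304) (nat_lit 265)) (XT.lf (nat_lit 0) (nat_lit 5320140584) (nat_lit 988) (nat_lit 2104032883) (nat_lit 76) (nat_lit 725100004) (nat_lit 365) (nat_lit 5) (nat_lit 378) (nat_lit 5) (nat_lit 366) (nat_lit 5) (nat_lit 332) (nat_lit 304) (nat_lit 264))))) (XT.nd (nat_lit 156) (nat_lit 2508) (nat_lit 0) (XT.nd (nat_lit 78) (nat_lit 836) (nat_lit 0) (XT.lf (nat_lit 0) (nat_lit 447360246) (nat_lit 912) (nat_lit 2959516128)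 (nat_lit 76) (nat_lit 4845923277) (nat_lit 353) (nat_lit 5) (nat_lit 365) (nat_lit 5) (nat_lit 354) (nat_lit 5) (nat_lit 333) (nat_lit 304) (nat_lit 263)) (XT.lf (nat_lit 0) (nat_lit 3753518596) (nat_lit 912) (nat_lit 3822223823) (nat_lit 76) (nat_lit 783954076) (nat_lit 342) (nat_lit 5) (nat_lit 354) (nat_lit 5) (nat_lit 343) (nat_lit 5) (nat_lit 334) (nat_lit 304) (nat_lit 262))) (XT.nd (nat_lit 78) (nat_lit 1672) (nat_lit 0) (XT.lf (nat_lit 0) (nat_lit 3776814027) (nat_lit 836) (nat_lit 3371919046) (nat_lit 912) (nat_lit 1321303759) (nat_lit 331) (nat_lit 5) (nat_lit 342) (nat_lit 5) (nat_lit 343) (nat_lit 5) (nat_lit 335) (nat_lit 304) (nat_lit 261)) (XT.nd (nat_lit 78) (nat_lit 760) (nat_lit 0) (XT.lf (nat_lit 0) (nat_lit 2010924611) (nat_lit 912) (nat_lit 5571678313) (nat_lit 76) (nat_lit 1001332000) (nat_lit 319) (nat_lit 5) (nat_lit 331) (nat_lit 5) (nat_lit 320) (nat_lit 5) (nat_lit 336)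 (nat_lit 304) (nat_lit 260)) (XT.lf (nat_lit 0) (nat_lit 2229946248) (nat_lit 760) (nat_lit 3189645830) (nat_lit 836) (nat_lit 3281626166) (nat_lit 309) (nat_lit 5) (nat_lit 319) (nat_lit 5) (nat_lit 320) (nat_lit 5) (nat_lit 337) (nat_lit 304) (nat_lit 259)))))) (XT.nd (nat_lit 390) (nat_lit 3268) (nat_lit 0) (XT.nd (nat_lit 156) (nat_lit 1520) (nat_lit 0) (XT.nd (nat_lit 78) (nat_lit 684) (nat_lit 0) (XT.lf (nat_lit 0) (nat_lit 89929981) (nat_lit 836) (nat_lit 7372642162) (nat_lit 76) (nat_lit 1359806682) (nat_lit 298) (nat_lit 5) (nat_lit 309) (nat_lit 5) (nat_lit 299) (nat_lit 5) (nat_lit 338) (nat_lit 304) (nat_lit 258)) (XT.lf (nat_lit 0) (nat_lit 635359302) (nat_lit 684) (nat_lit 2880559451) (nat_lit 760) (nat_lit 5430893280) (nat_lit 289) (nat_lit 5) (nat_lit 298) (nat_lit 5) (nat_lit 299) (nat_lit 5) (nat_lit 339) (nat_lit 304) (nat_lit 257))) (XT.nd (nat_lit 78) (nat_lit 1520) (nat_lit 0)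 (XT.lf (nat_lit 0) (nat_lit 7036466333) (nat_lit 760) (nat_lit 181878536) (nat_lit 76) (nat_lit 1856825988) (nat_lit 289) (nat_lit 5) (nat_lit 299) (nat_lit 5) (nat_lit 290) (nat_lit 5) (nat_lit 340) (nat_lit 304) (nat_lit 256)) (XT.nd (nat_lit 78) (nat_lit 684) (nat_lit 0) (XT.lf (nat_lit 0) (nat_lit 1440282632) (nat_lit 836) (nat_lit 1014723452) (nat_lit 76) (nat_lit 6752129865) (nat_lit 278) (nat_lit 5) (nat_lit 289) (nat_lit 5) (nat_lit 279) (nat_lit 5) (nat_lit 341) (nat_lit 304) (nat_lit 255)) (XT.lf (nat_lit 0) (nat_lit 4994830901) (nat_lit 760) (nat_lit 1875002091) (nat_lit 76) (nat_lit 2473005758) (nat_lit 269) (nat_lit 5) (nat_lit 279) (nat_lit 5) (nat_lit 270) (nat_lit 5) (nat_lit 342) (nat_lit 304) (nat_lit 254))))) (XT.nd (nat_lit 156) (nat_lit 1900) (nat_lit 0) (XT.nd (nat_lit 78) (nat_lit 684) (nat_lit 0) (XT.lf (nat_lit 0) (nat_lit 6730605991) (nat_lit 684) (nat_lit 1926476364) (nat_lit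 760) (nat_lit 825534248) (nat_lit 260) (nat_lit 5) (nat_lit 269) (nat_lit 5) (nat_lit 270) (nat_lit 5) (nat_lit 343) (nat_lit 304) (nat_lit 253)) (XT.lf (nat_lit 0) (nat_lit 2773387819) (nat_lit 684) (nat_lit 3670753761) (nat_lit 76) (nat_lit 3181955747) (nat_lit 251) (nat_lit 5) (nat_lit 260) (nat_lit 5) (nat_lit 252) (nat_lit 5) (nat_lit 344) (nat_lit 304) (nat_lit 252))) (XT.nd (nat_lit 78) (nat_lit 1292) (nat_lit 0) (XT.lf (nat_lit 0) (nat_lit 5160140509) (nat_lit 608) (nat_lit 1310466965) (nat_lit 684) (nat_lit 3303158332) (nat_lit 243) (nat_lit 5) (nat_lit 251) (nat_lit 5) (nat_lit 252) (nat_lit 5) (nat_lit 345) (nat_lit 304) (nat_lit 251)) (XT.nd (nat_lit 78) (nat_lit 608) (nat_lit 0) (XT.lf (nat_lit 0) (nat_lit 364942158) (nat_lit 684) (nat_lit 5593270203) (nat_lit 76) (nat_lit 3967294595) (nat_lit 234) (nat_lit 5) (nat_lit 243) (nat_lit 5) (nat_lit 235) (nat_lit 5) (nat_lit 346) (nat_lit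 304) (nat_lit 250)) (XT.lf (nat_lit 0) (nat_lit 3466244604) (nat_lit 608) (nat_lit 633456519) (nat_lit 684) (nat_lit 5981654301) (nat_lit 226) (nat_lit 5) (nat_lit 234) (nat_lit 5) (nat_lit 235) (nat_lit 5) (nat_lit 347) (nat_lit 304) (nat_lit 249))))))))
noncomputable def xc57 : XT := (XT.nd (nat_lit 1560) (nat_lit 4256) (nat_lit 0) (XT.nd (nat_lit 780) (nat_lit 3724) (nat_lit 0) (XT.nd (nat_lit 390) (nat_lit 2508) (nat_lit 0) (XT.nd (nat_lit 156) (nat_lit 1140) (nat_lit 0) (XT.nd (nat_lit 78) (nat_lit 684) (nat_lit 0) (XT.lf (nat_lit 0) (nat_lit 2558299760) (nat_lit 532) (nat_lit 5414163164) (nat_lit 608) (nat_lit 2268918200) (nat_lit 219) (nat_lit 5) (nat_lit 226) (nat_lit 5) (nat_lit 227) (nat_lit 5) (nat_lit 348) (nat_lit 304) (nat_lit 248)) (XT.lf (nat_lit 0) (nat_lit 1535823957) (nat_lit 684) (nat_lit 8783841891) (nat_lit 76) (nat_lit 86339354) (nat_lit 210) (nat_lit 5) (nat_lit 219) (nat_lit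 5) (nat_lit 211) (nat_lit 5) (nat_lit 349) (nat_lit 304) (nat_lit 247))) (XT.nd (nat_lit 78) (nat_lit 608) (nat_lit 0) (XT.lf (nat_lit 0) (nat_lit 617680791) (nat_lit 532) (nat_lit 4840697834) (nat_lit 608) (nat_lit 5116218893) (nat_lit 203) (nat_lit 5) (nat_lit 210) (nat_lit 5) (nat_lit 211) (nat_lit 5) (nat_lit 350) (nat_lit 304) (nat_lit 246)) (XT.nd (nat_lit 78) (nat_lit 608) (nat_lit 0) (XT.lf (nat_lit 0) (nat_lit 9506531896) (nat_lit 608) (nat_lit 406895025) (nat_lit 76) (nat_lit 834681066) (nat_lit 203) (nat_lit 5) (nat_lit 211) (nat_lit 5) (nat_lit 204) (nat_lit 5) (nat_lit 351) (nat_lit 304) (nat_lit 245)) (XT.lf (nat_lit 0) (nat_lit 2751656039) (nat_lit 608) (nat_lit 1496529346) (nat_lit 76) (nat_lit 6677531142) (nat_lit 195) (nat_lit 5) (nat_lit 203) (nat_lit 5) (nat_lit 196) (nat_lit 5) (nat_lit 352) (nat_lit 304) (nat_lit 244))))) (XT.nd (nat_lit 156) (nat_lit 1520) (nat_lit 0) (XT.nd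 (nat_lit 78) (nat_lit 532) (nat_lit 0) (XT.lf (nat_lit 0) (nat_lit 6861647972) (nat_lit 532) (nat_lit 2631815462) (nat_lit 76) (nat_lit 1614766527) (nat_lit 189) (nat_lit 5) (nat_lit 196) (nat_lit 5) (nat_lit 190) (nat_lit 5) (nat_lit 353) (nat_lit 304) (nat_lit 243)) (XT.lf (nat_lit 0) (nat_lit 7469655237) (nat_lit 532) (nat_lit 3658641120) (nat_lit 608) (nat_lit 167272194) (nat_lit 182) (nat_lit 5) (nat_lit 189) (nat_lit 5) (nat_lit 190) (nat_lit 5) (nat_lit 354) (nat_lit 304) (nat_lit 242))) (XT.nd (nat_lit 78) (nat_lit 988) (nat_lit 0) (XT.lf (nat_lit 0) (nat_lit 4003742267) (nat_lit 532) (nat_lit 5096239399) (nat_lit 76) (nat_lit 2387593076) (nat_lit 175) (nat_lit 5) (nat_lit 182) (nat_lit 5) (nat_lit 176) (nat_lit 5) (nat_lit 355) (nat_lit 304) (nat_lit 241)) (XT.nd (nat_lit 78) (nat_lit 532) (nat_lit 0) (XT.lf (nat_lit 0) (nat_lit 5253650754) (nat_lit 456) (nat_lit 3076584783) (nat_lit 532)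 (nat_lit 3354446654) (nat_lit 169) (nat_lit 5) (nat_lit 175) (nat_lit 5) (nat_lit 176) (nat_lit 5) (nat_lit 356) (nat_lit 304) (nat_lit 240)) (XT.lf (nat_lit 0) (nat_lit 917490594) (nat_lit 532) (nat_lit 7835562191) (nat_lit 76) (nat_lit 3133939058) (nat_lit 162) (nat_lit 5) (nat_lit 169) (nat_lit 5) (nat_lit 163) (nat_lit 5) (nat_lit 357) (nat_lit 304) (nat_lit 239)))))) (XT.nd (nat_lit 390) (nat_lit 1976) (nat_lit 0) (XT.nd (nat_lit 156) (nat_lit 912) (nat_lit 0) (XT.nd (nat_lit 78) (nat_lit 380) (nat_lit 0) (XT.lf (nat_lit 0) (nat_lit 2763444400) (nat_lit 456) (nat_lit 2540755162) (nat_lit 532) (nat_lit 6790098439) (nat_lit 156) (nat_lit 5) (nat_lit 162) (nat_lit 5) (nat_lit 163) (nat_lit 5) (nat_lit 358) (nat_lit 304) (nat_lit 238)) (XT.lf (nat_lit 0) (nat_lit 1402805732) (nat_lit 380) (nat_lit 8457730244) (nat_lit 456) (nat_lit 2446540845) (nat_lit 151) (nat_lit 5) (nat_lit 156) (nat_lit 5) (nat_lit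 157) (nat_lit 5) (nat_lit 359) (nat_lit 304) (nat_lit 237))) (XT.nd (nat_lit 78) (nat_lit 836) (nat_lit 0) (XT.lf (nat_lit 0) (nat_lit 2032450344) (nat_lit 456) (nat_lit 39966622) (nat_lit 76) (nat_lit 10452937801) (nat_lit 150) (nat_lit 5) (nat_lit 156) (nat_lit 5) (nat_lit 151) (nat_lit 5) (nat_lit 360) (nat_lit 304) (nat_lit 236)) (XT.nd (nat_lit 78) (nat_lit 380) (nat_lit 0) (XT.lf (nat_lit 0) (nat_lit 6667761622) (nat_lit 532) (nat_lit 1566661716) (nat_lit 76) (nat_lit 4514343435) (nat_lit 144) (nat_lit 5) (nat_lit 151) (nat_lit 5) (nat_lit 145) (nat_lit 5) (nat_lit 361) (nat_lit 304) (nat_lit 235)) (XT.lf (nat_lit 0) (nat_lit 9809041137) (nat_lit 380) (nat_lit 1664221383) (nat_lit 456) (nat_lit 1505008576) (nat_lit 139) (nat_lit 5) (nat_lit 144) (nat_lit 5) (nat_lit 145) (nat_lit 5) (nat_lit 362) (nat_lit 304) (nat_lit 234))))) (XT.nd (nat_lit 156) (nat_lit 1140) (nat_lit 0) (XT.nd (nat_lit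 78) (nat_lit 380) (nat_lit 0) (XT.lf (nat_lit 0) (nat_lit 3218596613) (nat_lit 456) (nat_lit 4893537141) (nat_lit 76) (nat_lit 5101074032) (nat_lit 133) (nat_lit 5) (nat_lit 139) (nat_lit 5) (nat_lit 134) (nat_lit 5) (nat_lit 363) (nat_lit 304) (nat_lit 233)) (XT.lf (nat_lit 0) (nat_lit 6741487358) (nat_lit 380) (nat_lit 1353299597) (nat_lit 456) (nat_lit 5359591787) (nat_lit 128) (nat_lit 5) (nat_lit 133) (nat_lit 5) (nat_lit 134) (nat_lit 5) (nat_lit 364) (nat_lit 304) (nat_lit 232))) (XT.nd (nat_lit 78) (nat_lit 760) (nat_lit 0) (XT.lf (nat_lit 0) (nat_lit 5052951100) (nat_lit 380) (nat_lit 8122348151) (nat_lit 456) (nat_lit 526336120) (nat_lit 123) (nat_lit 5) (nat_lit 128) (nat_lit 5) (nat_lit 129) (nat_lit 5) (nat_lit 365) (nat_lit 304) (nat_lit 231)) (XT.nd (nat_lit 78) (nat_lit 380) (nat_lit 0) (XT.lf (nat_lit 0) (nat_lit 3245953225) (nat_lit 304) (nat_lit 1179496928) (nat_lit 380) (nat_lit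 9529653767) (nat_lit 118) (nat_lit 5) (nat_lit 122) (nat_lit 5) (nat_lit 123) (nat_lit 5) (nat_lit 366) (nat_lit 304) (nat_lit 230)) (XT.lf (nat_lit 0) (nat_lit 1309033519) (nat_lit 380) (nat_lit 8272627873) (nat_lit 456) (nat_lit 4633195521) (nat_lit 113) (nat_lit 5) (nat_lit 118) (nat_lit 5) (nat_lit 119) (nat_lit 5) (nat_lit 367) (nat_lit 304) (nat_lit 229))))))) (XT.nd (nat_lit 780) (nat_lit 1596) (nat_lit 0) (XT.nd (nat_lit 390) (nat_lit 1292) (nat_lit 0) (XT.nd (nat_lit 156) (nat_lit 988) (nat_lit 0) (XT.nd (nat_lit 78) (nat_lit 304) (nat_lit 0) (XT.lf (nat_lit 0) (nat_lit 442976709) (nat_lit 456) (nat_lit 723398418) (nat_lit 76) (nat_lit 13315220033) (nat_lit 112) (nat_lit 5) (nat_lit 118) (nat_lit 5) (nat_lit 113) (nat_lit 5) (nat_lit 368) (nat_lit 304) (nat_lit 228)) (XT.lf (nat_lit 0) (nat_lit 5685042949) (nat_lit 380) (nat_lit 2909988828) (nat_lit 76) (nat_lit 6159169779) (nat_lit 108)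 (nat_lit 5) (nat_lit 113) (nat_lit 5) (nat_lit 109) (nat_lit 5) (nat_lit 369) (nat_lit 304) (nat_lit 227))) (XT.nd (nat_lit 78) (nat_lit 684) (nat_lit 0) (XT.lf (nat_lit 0) (nat_lit 9821346556) (nat_lit 304) (nat_lit 1298690160) (nat_lit 380) (nat_lit 3914245460) (nat_lit 104) (nat_lit 5) (nat_lit 108) (nat_lit 5) (nat_lit 109) (nat_lit 5) (nat_lit 370) (nat_lit 304) (nat_lit 226)) (XT.nd (nat_lit 78) (nat_lit 304) (nat_lit 0) (XT.lf (nat_lit 0) (nat_lit 1447142807) (nat_lit 380) (nat_lit 7682125522) (nat_lit 76) (nat_lit 6191922045) (nat_lit 99) (nat_lit 5) (nat_lit 104) (nat_lit 5) (nat_lit 100) (nat_lit 5) (nat_lit 371) (nat_lit 304) (nat_lit 225)) (XT.lf (nat_lit 0) (nat_lit 5303804511) (nat_lit 304) (nat_lit 1651671646) (nat_lit 380) (nat_lit 8659935179) (nat_lit 95) (nat_lit 5) (nat_lit 99) (nat_lit 5) (nat_lit 100) (nat_lit 5) (nat_lit 372) (nat_lit 304) (nat_lit 224))))) (XT.nd (nat_lit 156)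 (nat_lit 608) (nat_lit 0) (XT.nd (nat_lit 78) (nat_lit 380) (nat_lit 0) (XT.lf (nat_lit 0) (nat_lit 2801903383) (nat_lit 304) (nat_lit 9897940742) (nat_lit 380) (nat_lit 3217207493) (nat_lit 91) (nat_lit 5) (nat_lit 95) (nat_lit 5) (nat_lit 96) (nat_lit 5) (nat_lit 373) (nat_lit 304) (nat_lit 223)) (XT.lf (nat_lit 0) (nat_lit 136619277) (nat_lit 304) (nat_lit 2264511249) (nat_lit 380) (nat_lit 13825435208) (nat_lit 86) (nat_lit 5) (nat_lit 90) (nat_lit 5) (nat_lit 91) (nat_lit 5) (nat_lit 374) (nat_lit 304) (nat_lit 222))) (XT.nd (nat_lit 78) (nat_lit 608) (nat_lit 0) (XT.lf (nat_lit 0) (nat_lit 8232334501) (nat_lit 380) (nat_lit 2697965953) (nat_lit 76) (nat_lit 5612886752) (nat_lit 86) (nat_lit 5) (nat_lit 91) (nat_lit 5) (nat_lit 87) (nat_lit 5) (nat_lit 375) (nat_lit 304) (nat_lit 221)) (XT.nd (nat_lit 78) (nat_lit 380) (nat_lit 0) (XT.lf (nat_lit 0) (nat_lit 11167490626) (nat_lit 228) (nat_lit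 3121711733) (nat_lit 304) (nat_lit 2579097931) (nat_lit 83) (nat_lit 5) (nat_lit 86) (nat_lit 5) (nat_lit 87) (nat_lit 5) (nat_lit 376) (nat_lit 304) (nat_lit 220)) (XT.lf (nat_lit 0) (nat_lit 3349323042) (nat_lit 380) (nat_lit 8923242589) (nat_lit 76) (nat_lit 4928810254) (nat_lit 78) (nat_lit 5) (nat_lit 83) (nat_lit 5) (nat_lit 79) (nat_lit 5) (nat_lit 377) (nat_lit 304) (nat_lit 219)))))) (XT.nd (nat_lit 390) (nat_lit 532) (nat_lit 0) (XT.nd (nat_lit 156) (nat_lit 532) (nat_lit 0) (XT.nd (nat_lit 78) (nat_lit 304) (nat_lit 0) (XT.lf (nat_lit 0) (nat_lit 5181639162) (nat_lit 228) (nat_lit 4296586839) (nat_lit 304) (nat_lit 8064730359) (nat_lit 75) (nat_lit 5) (nat_lit 78) (nat_lit 5) (nat_lit 79) (nat_lit 5) (nat_lit 378) (nat_lit 304) (nat_lit 218)) (XT.lf (nat_lit 0) (nat_lit 1878672314) (nat_lit 304) (nat_lit 13975420479) (nat_lit 380) (nat_lit 2039436270) (nat_lit 71) (nat_lit 5) (nat_lit 75)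 (nat_lit 5) (nat_lit 76) (nat_lit 5) (nat_lit 379) (nat_lit 304) (nat_lit 217))) (XT.nd (nat_lit 78) (nat_lit 456) (nat_lit 0) (XT.lf (nat_lit 0) (nat_lit 4190034212) (nat_lit 380) (nat_lit 1652102399) (nat_lit 76) (nat_lit 12410386441) (nat_lit 70) (nat_lit 5) (nat_lit 75) (nat_lit 5) (nat_lit 71) (nat_lit 5) (nat_lit 380) (nat_lit 304) (nat_lit 216)) (XT.nd (nat_lit 78) (nat_lit 228) (nat_lit 0) (XT.lf (nat_lit 0) (nat_lit 10647842683) (nat_lit 304) (nat_lit 5392540801) (nat_lit 76) (nat_lit 2580256764) (nat_lit 67) (nat_lit 5) (nat_lit 71) (nat_lit 5) (nat_lit 68) (nat_lit 5) (nat_lit 381) (nat_lit 304) (nat_lit 215)) (XT.lf (nat_lit 0) (nat_lit 9608806424) (nat_lit 228) (nat_lit 7769822435) (nat_lit 304) (nat_lit 1619593287) (nat_lit 64) (nat_lit 5) (nat_lit 67) (nat_lit 5) (nat_lit 68) (nat_lit 5) (nat_lit 382) (nat_lit 304) (nat_lit 214))))) (XT.nd (nat_lit 156) (nat_lit 0) (nat_lit 0) (XT.nd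 (nat_lit 78) (nat_lit 228) (nat_lit 0) (XT.lf (nat_lit 0) (nat_lit 4905978994) (nat_lit 304) (nat_lit 13655841651) (nat_lit 76) (nat_lit 823750119) (nat_lit 60) (nat_lit 5) (nat_lit 64) (nat_lit 5) (nat_lit 61) (nat_lit 5) (nat_lit 383) (nat_lit 304) (nat_lit 213)) (XT.lf (nat_lit 0) (nat_lit 1549848307) (nat_lit 228) (nat_lit 10149042600) (nat_lit 304) (nat_lit 8083568893) (nat_lit 57) (nat_lit 5) (nat_lit 60) (nat_lit 5) (nat_lit 61) (nat_lit 5) (nat_lit 384) (nat_lit 304) (nat_lit 212))) (XT.nd (nat_lit 40638) (nat_lit 0) (nat_lit 45448) (XT.lf (nat_lit 0) (nat_lit 17344553655) (nat_lit 228) (nat_lit 1411552830) (nat_lit 304) (nat_lit 1433944128) (nat_lit 57) (nat_lit 5) (nat_lit 60) (nat_lit 5) (nat_lit 61) (nat_lit 5) (nat_lit 385) (nat_lit 304) (nat_lit 211)) (XT.nd (nat_lit 78) (nat_lit 0) (nat_lit 0) (XT.lf (nat_lit 0) (nat_lit 627660499) (nat_lit 0) (nat_lit 627660499) (nat_lit 532) (nat_lit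 2019675001) (nat_lit 655) (nat_lit 5) (nat_lit 655) (nat_lit 3) (nat_lit 662) (nat_lit 3) (nat_lit 305) (nat_lit 305) (nat_lit 290)) (XT.lf (nat_lit 0) (nat_lit 6000313706) (nat_lit 0) (nat_lit 179677890) (nat_lit 532) (nat_lit 393112028) (nat_lit 655) (nat_lit 5) (nat_lit 655) (nat_lit 3) (nat_lit 662) (nat_lit 3) (nat_lit 306) (nat_lit 305) (nat_lit 289))))))))
noncomputable def xc58 : XT := (XT.nd (nat_lit 1560) (nat_lit 16416) (nat_lit 0) (XT.nd (nat_lit 780) (nat_lit 10260) (nat_lit 0) (XT.nd (nat_lit 390) (nat_lit 2584) (nat_lit 0) (XT.nd (nat_lit 156) (nat_lit 760) (nat_lit 0) (XT.nd (nat_lit 78) (nat_lit 684) (nat_lit 0) (XT.lf (nat_lit 0) (nat_lit 3210056955) (nat_lit 608) (nat_lit 2353860300) (nat_lit 684) (nat_lit 1034817658) (nat_lit 647) (nat_lit 5) (nat_lit 655) (nat_lit 5) (nat_lit 656) (nat_lit 5) (nat_lit 307) (nat_lit 305) (nat_lit 288)) (XT.lf (nat_lit 0) (nat_lit 169234960) (nat_lit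 684) (nat_lit 4084254066) (nat_lit 760) (nat_lit 2374004519) (nat_lit 638) (nat_lit 5) (nat_lit 647) (nat_lit 5) (nat_lit 648) (nat_lit 5) (nat_lit 308) (nat_lit 305) (nat_lit 287))) (XT.nd (nat_lit 78) (nat_lit 760) (nat_lit 0) (XT.lf (nat_lit 76) (nat_lit 875723645) (nat_lit 0) (nat_lit 2798063207) (nat_lit 760) (nat_lit 2985249848) (nat_lit 639) (nat_lit 5) (nat_lit 638) (nat_lit 5) (nat_lit 648) (nat_lit 5) (nat_lit 309) (nat_lit 305) (nat_lit 286)) (XT.nd (nat_lit 78) (nat_lit 0) (nat_lit 76) (XT.lf (nat_lit 0) (nat_lit 478498005) (nat_lit 760) (nat_lit 730894767) (nat_lit 836) (nat_lit 5484254549) (nat_lit 628) (nat_lit 5) (nat_lit 638) (nat_lit 5) (nat_lit 639) (nat_lit 5) (nat_lit 310) (nat_lit 305) (nat_lit 285)) (XT.lf (nat_lit 0) (nat_lit 3908439624) (nat_lit 760) (nat_lit 2297203647) (nat_lit 836) (nat_lit 525283391) (nat_lit 629) (nat_lit 5) (nat_lit 639) (nat_lit 5) (nat_lit 640) (nat_lit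 5) (nat_lit 311) (nat_lit 305) (nat_lit 284))))) (XT.nd (nat_lit 156) (nat_lit 1824) (nat_lit 0) (XT.nd (nat_lit 78) (nat_lit 0) (nat_lit 0) (XT.lf (nat_lit 0) (nat_lit 568654603) (nat_lit 836) (nat_lit 3826240523) (nat_lit 912) (nat_lit 2376309647) (nat_lit 618) (nat_lit 5) (nat_lit 629) (nat_lit 5) (nat_lit 630) (nat_lit 5) (nat_lit 312) (nat_lit 305) (nat_lit 283)) (XT.lf (nat_lit 76) (nat_lit 1487673552) (nat_lit 0) (nat_lit 2437346932) (nat_lit 912) (nat_lit 2889336505) (nat_lit 619) (nat_lit 5) (nat_lit 618) (nat_lit 5) (nat_lit 630) (nat_lit 5) (nat_lit 313) (nat_lit 305) (nat_lit 282))) (XT.nd (nat_lit 78) (nat_lit 912) (nat_lit 0) (XT.lf (nat_lit 76) (nat_lit 75749339) (nat_lit 0) (nat_lit 345786685) (nat_lit 988) (nat_lit 6439169275) (nat_lit 607) (nat_lit 5) (nat_lit 606) (nat_lit 5) (nat_lit 619) (nat_lit 5) (nat_lit 314) (nat_lit 305) (nat_lit 281)) (XT.nd (nat_lit 78) (nat_lit 988) (nat_lit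 0) (XT.lf (nat_lit 0) (nat_lit 3722640125) (nat_lit 912) (nat_lit 1304098270) (nat_lit 988) (nat_lit 1882790372) (nat_lit 607) (nat_lit 5) (nat_lit 619) (nat_lit 5) (nat_lit 620) (nat_lit 5) (nat_lit 315) (nat_lit 305) (nat_lit 280)) (XT.lf (nat_lit 0) (nat_lit 75856456) (nat_lit 988) (nat_lit 2642507531) (nat_lit 1064) (nat_lit 4243197644) (nat_lit 594) (nat_lit 5) (nat_lit 607) (nat_lit 5) (nat_lit 608) (nat_lit 5) (nat_lit 316) (nat_lit 305) (nat_lit 279)))))) (XT.nd (nat_lit 390) (nat_lit 6992) (nat_lit 0) (XT.nd (nat_lit 156) (nat_lit 2356) (nat_lit 0) (XT.nd (nat_lit 78) (nat_lit 912) (nat_lit 0) (XT.lf (nat_lit 76) (nat_lit 3056194203) (nat_lit 0) (nat_lit 253328317) (nat_lit 1064) (nat_lit 3706949520) (nat_lit 595) (nat_lit 5) (nat_lit 594) (nat_lit 5) (nat_lit 608) (nat_lit 5) (nat_lit 317) (nat_lit 305) (nat_lit 278)) (XT.lf (nat_lit 0) (nat_lit 1820738412) (nat_lit 988) (nat_lit 4754517150)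 (nat_lit 1064) (nat_lit 499135758) (nat_lit 582) (nat_lit 5) (nat_lit 595) (nat_lit 5) (nat_lit 596) (nat_lit 5) (nat_lit 318) (nat_lit 305) (nat_lit 277))) (XT.nd (nat_lit 78) (nat_lit 1216) (nat_lit 0) (XT.lf (nat_lit 0) (nat_lit 605975178) (nat_lit 1064) (nat_lit 2087092724) (nat_lit 1140) (nat_lit 4442176881) (nat_lit 567) (nat_lit 5) (nat_lit 581) (nat_lit 5) (nat_lit 582) (nat_lit 5) (nat_lit 319) (nat_lit 305) (nat_lit 276)) (XT.nd (nat_lit 78) (nat_lit 1216) (nat_lit 0) (XT.lf (nat_lit 0) (nat_lit 5909544255) (nat_lit 1140) (nat_lit 570622522) (nat_lit 76) (nat_lit 719043271) (nat_lit 567) (nat_lit 5) (nat_lit 582) (nat_lit 5) (nat_lit 568) (nat_lit 5) (nat_lit 320) (nat_lit 305) (nat_lit 275)) (XT.lf (nat_lit 0) (nat_lit 1879515493) (nat_lit 1216) (nat_lit 1729506782) (nat_lit 76) (nat_lit 3656917637) (nat_lit 551) (nat_lit 5) (nat_lit 567) (nat_lit 5) (nat_lit 552) (nat_lit 5) (nat_lit 321)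 (nat_lit 305) (nat_lit 274))))) (XT.nd (nat_lit 156) (nat_lit 4408) (nat_lit 0) (XT.nd (nat_lit 78) (nat_lit 1368) (nat_lit 0) (XT.lf (nat_lit 0) (nat_lit 4473235111) (nat_lit 1216) (nat_lit 585996029) (nat_lit 1292) (nat_lit 2276663973) (nat_lit 535) (nat_lit 5) (nat_lit 551) (nat_lit 5) (nat_lit 552) (nat_lit 5) (nat_lit 322) (nat_lit 305) (nat_lit 273)) (XT.lf (nat_lit 0) (nat_lit 866861786) (nat_lit 1368) (nat_lit 3985747630) (nat_lit 76) (nat_lit 2556217782) (nat_lit 517) (nat_lit 5) (nat_lit 535) (nat_lit 5) (nat_lit 518) (nat_lit 5) (nat_lit 323) (nat_lit 305) (nat_lit 272))) (XT.nd (nat_lit 78) (nat_lit 3040) (nat_lit 0) (XT.lf (nat_lit 0) (nat_lit 2387388257) (nat_lit 1368) (nat_lit 1629673675) (nat_lit 1444) (nat_lit 3467767828) (nat_lit 499) (nat_lit 5) (nat_lit 517) (nat_lit 5) (nat_lit 518) (nat_lit 5) (nat_lit 324) (nat_lit 305) (nat_lit 271)) (XT.nd (nat_lit 78) (nat_lit 1596) (nat_lit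 0) (XT.lf (nat_lit 0) (nat_lit 1372111155) (nat_lit 1444) (nat_lit 5843308603) (nat_lit 1520) (nat_lit 348667648) (nat_lit 480) (nat_lit 5) (nat_lit 499) (nat_lit 5) (nat_lit 500) (nat_lit 5) (nat_lit 325) (nat_lit 305) (nat_lit 270)) (XT.lf (nat_lit 0) (nat_lit 357022819) (nat_lit 1520) (nat_lit 2425560863) (nat_lit 1596) (nat_lit 4863690125) (nat_lit 459) (nat_lit 5) (nat_lit 479) (nat_lit 5) (nat_lit 480) (nat_lit 5) (nat_lit 326) (nat_lit 305) (nat_lit 269))))))) (XT.nd (nat_lit 780) (nat_lit 6612) (nat_lit 0) (XT.nd (nat_lit 390) (nat_lit 3572) (nat_lit 0) (XT.nd (nat_lit 156) (nat_lit 4560) (nat_lit 0) (XT.nd (nat_lit 78) (nat_lit 1672) (nat_lit 0) (XT.lf (nat_lit 0) (nat_lit 5962815364) (nat_lit 1596) (nat_lit 631632391) (nat_lit 76) (nat_lit 1137280748) (nat_lit 459) (nat_lit 5) (nat_lit 480) (nat_lit 5) (nat_lit 460) (nat_lit 5) (nat_lit 327) (nat_lit 305) (nat_lit 268)) (XT.lf (nat_lit 0)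 (nat_lit 1369442233) (nat_lit 1672) (nat_lit 1615187083) (nat_lit 76) (nat_lit 4835588725) (nat_lit 437) (nat_lit 5) (nat_lit 459) (nat_lit 5) (nat_lit 438) (nat_lit 5) (nat_lit 328) (nat_lit 305) (nat_lit 267))) (XT.nd (nat_lit 78) (nat_lit 2888) (nat_lit 0) (XT.lf (nat_lit 0) (nat_lit 4536550215) (nat_lit 1748) (nat_lit 2591811849) (nat_lit 76) (nat_lit 783634686) (nat_lit 415) (nat_lit 5) (nat_lit 438) (nat_lit 5) (nat_lit 416) (nat_lit 5) (nat_lit 329) (nat_lit 305) (nat_lit 266)) (XT.nd (nat_lit 78) (nat_lit 1140) (nat_lit 0) (XT.lf (nat_lit 0) (nat_lit 4440396772) (nat_lit 1748) (nat_lit 3334593011) (nat_lit 1824) (nat_lit 232052500) (nat_lit 392) (nat_lit 5) (nat_lit 415) (nat_lit 5) (nat_lit 416) (nat_lit 5) (nat_lit 330) (nat_lit 305) (nat_lit 265)) (XT.lf (nat_lit 0) (nat_lit 2929069969) (nat_lit 1140) (nat_lit 4545088042) (nat_lit 76) (nat_lit 631171868) (nat_lit 377) (nat_lit 5) (nat_lit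 392) (nat_lit 5) (nat_lit 378) (nat_lit 5) (nat_lit 331) (nat_lit 305) (nat_lit 264))))) (XT.nd (nat_lit 156) (nat_lit 1748) (nat_lit 0) (XT.nd (nat_lit 78) (nat_lit 912) (nat_lit 0) (XT.lf (nat_lit 0) (nat_lit 2677254481) (nat_lit 912) (nat_lit 3488447678) (nat_lit 988) (nat_lit 2041193502) (nat_lit 365) (nat_lit 5) (nat_lit 377) (nat_lit 5) (nat_lit 378) (nat_lit 5) (nat_lit 332) (nat_lit 305) (nat_lit 263)) (XT.lf (nat_lit 0) (nat_lit 1140509069) (nat_lit 912) (nat_lit 6510450252) (nat_lit 76) (nat_lit 661066594) (nat_lit 353) (nat_lit 5) (nat_lit 365) (nat_lit 5) (nat_lit 354) (nat_lit 5) (nat_lit 333) (nat_lit 305) (nat_lit 262))) (XT.nd (nat_lit 78) (nat_lit 912) (nat_lit 0) (XT.lf (nat_lit 0) (nat_lit 905837536) (nat_lit 836) (nat_lit 3474077468) (nat_lit 912) (nat_lit 4040359559) (nat_lit 342) (nat_lit 5) (nat_lit 353) (nat_lit 5) (nat_lit 354) (nat_lit 5) (nat_lit 334) (nat_lit 305) (nat_lit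 261)) (XT.nd (nat_lit 78) (nat_lit 76) (nat_lit 0) (XT.lf (nat_lit 0) (nat_lit 19481030) (nat_lit 836) (nat_lit 7671574127) (nat_lit 912) (nat_lit 841257498) (nat_lit 331) (nat_lit 5) (nat_lit 342) (nat_lit 5) (nat_lit 343) (nat_lit 5) (nat_lit 335) (nat_lit 305) (nat_lit 260)) (XT.lf (nat_lit 0) (nat_lit 2421942961) (nat_lit 912) (nat_lit 881619812) (nat_lit 76) (nat_lit 5343855763) (nat_lit 330) (nat_lit 5) (nat_lit 342) (nat_lit 5) (nat_lit 331) (nat_lit 5) (nat_lit 336) (nat_lit 305) (nat_lit 259)))))) (XT.nd (nat_lit 390) (nat_lit 2660) (nat_lit 0) (XT.nd (nat_lit 156) (nat_lit 2280) (nat_lit 0) (XT.nd (nat_lit 78) (nat_lit 836) (nat_lit 0) (XT.lf (nat_lit 0) (nat_lit 5753108904) (nat_lit 912) (nat_lit 1785376719) (nat_lit 76) (nat_lit 1227781296) (nat_lit 319) (nat_lit 5) (nat_lit 331) (nat_lit 5) (nat_lit 320) (nat_lit 5) (nat_lit 337) (nat_lit 305) (nat_lit 258)) (XT.lf (nat_lit 0) (nat_lit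 289449629) (nat_lit 836) (nat_lit 2704501341) (nat_lit 76) (nat_lit 5894764529) (nat_lit 308) (nat_lit 5) (nat_lit 319) (nat_lit 5) (nat_lit 309) (nat_lit 5) (nat_lit 338) (nat_lit 305) (nat_lit 257))) (XT.nd (nat_lit 78) (nat_lit 1520) (nat_lit 0) (XT.lf (nat_lit 0) (nat_lit 3639537914) (nat_lit 836) (nat_lit 3648581085) (nat_lit 76) (nat_lit 1726561611) (nat_lit 298) (nat_lit 5) (nat_lit 309) (nat_lit 5) (nat_lit 299) (nat_lit 5) (nat_lit 339) (nat_lit 305) (nat_lit 256)) (XT.nd (nat_lit 78) (nat_lit 836) (nat_lit 0) (XT.lf (nat_lit 0) (nat_lit 4535653584) (nat_lit 684) (nat_lit 2554544247) (nat_lit 760) (nat_lit 2054252844) (nat_lit 289) (nat_lit 5) (nat_lit 298) (nat_lit 5) (nat_lit 299) (nat_lit 5) (nat_lit 340) (nat_lit 305) (nat_lit 255)) (XT.lf (nat_lit 0) (nat_lit 1345846579) (nat_lit 836) (nat_lit 5591619882) (nat_lit 76) (nat_lit 2340545998) (nat_lit 278) (nat_lit 5) (nat_lit 289) (nat_lit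 5) (nat_lit 279) (nat_lit 5) (nat_lit 341) (nat_lit 305) (nat_lit 254))))) (XT.nd (nat_lit 156) (nat_lit 1292) (nat_lit 0) (XT.nd (nat_lit 78) (nat_lit 684) (nat_lit 0) (XT.lf (nat_lit 0) (nat_lit 2809166247) (nat_lit 684) (nat_lit 2012382041) (nat_lit 760) (nat_lit 4593756367) (nat_lit 269) (nat_lit 5) (nat_lit 278) (nat_lit 5) (nat_lit 279) (nat_lit 5) (nat_lit 342) (nat_lit 305) (nat_lit 253)) (XT.lf (nat_lit 0) (nat_lit 1912280626) (nat_lit 684) (nat_lit 6495617594) (nat_lit 760) (nat_lit 1148714420) (nat_lit 260) (nat_lit 5) (nat_lit 269) (nat_lit 5) (nat_lit 270) (nat_lit 5) (nat_lit 343) (nat_lit 305) (nat_lit 252))) (XT.nd (nat_lit 78) (nat_lit 608) (nat_lit 0) (XT.lf (nat_lit 0) (nat_lit 984109474) (nat_lit 608) (nat_lit 1385901833) (nat_lit 684) (nat_lit 7331824240) (nat_lit 251) (nat_lit 5) (nat_lit 259) (nat_lit 5) (nat_lit 260) (nat_lit 5) (nat_lit 344) (nat_lit 305) (nat_lit 251)) (XT.nd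 (nat_lit 78) (nat_lit 0) (nat_lit 0) (XT.lf (nat_lit 0) (nat_lit 17856521) (nat_lit 608) (nat_lit 5976535026) (nat_lit 684) (nat_lit 3856580450) (nat_lit 243) (nat_lit 5) (nat_lit 251) (nat_lit 5) (nat_lit 252) (nat_lit 5) (nat_lit 345) (nat_lit 305) (nat_lit 250)) (XT.lf (nat_lit 0) (nat_lit 9051817300) (nat_lit 608) (nat_lit 683467894) (nat_lit 684) (nat_lit 269163748) (nat_lit 243) (nat_lit 5) (nat_lit 251) (nat_lit 5) (nat_lit 252) (nat_lit 5) (nat_lit 346) (nat_lit 305) (nat_lit 249))))))))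
noncomputable def xc59 : XT := (XT.nd (nat_lit 1560) (nat_lit 4940) (nat_lit 0) (XT.nd (nat_lit 780) (nat_lit 4028) (nat_lit 0) (XT.nd (nat_lit 390) (nat_lit 2128) (nat_lit 0) (XT.nd (nat_lit 156) (nat_lit 1748) (nat_lit 0) (XT.nd (nat_lit 78) (nat_lit 608) (nat_lit 0) (XT.lf (nat_lit 0) (nat_lit 3406459410) (nat_lit 684) (nat_lit 1986223207) (nat_lit 76) (nat_lit 4768913398) (nat_lit 234) (nat_lit 5) (nat_lit 243) (nat_lit 5) (nat_lit 235) (nat_lit 5) (nat_lit 347) (nat_lit 305) (nat_lit 248)) (XT.lf (nat_lit 0) (nat_lit 7189718375) (nat_lit 684) (nat_lit 3040214498) (nat_lit 76) (nat_lit 93488932) (nat_lit 226) (nat_lit 5) (nat_lit 235) (nat_lit 5) (nat_lit 227) (nat_lit 5) (nat_lit 348) (nat_lit 305) (nat_lit 247))) (XT.nd (nat_lit 78) (nat_lit 1140) (nat_lit 0) (XT.lf (nat_lit 0) (nat_lit 622713633) (nat_lit 608) (nat_lit 4150526994) (nat_lit 76) (nat_lit 5716120438) (nat_lit 218) (nat_lit 5)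 (nat_lit 226) (nat_lit 5) (nat_lit 219) (nat_lit 5) (nat_lit 349) (nat_lit 305) (nat_lit 246)) (XT.nd (nat_lit 78) (nat_lit 532) (nat_lit 0) (XT.lf (nat_lit 0) (nat_lit 4454894885) (nat_lit 684) (nat_lit 5307299600) (nat_lit 76) (nat_lit 897575638) (nat_lit 210) (nat_lit 5) (nat_lit 219) (nat_lit 5) (nat_lit 211) (nat_lit 5) (nat_lit 350) (nat_lit 305) (nat_lit 245)) (XT.lf (nat_lit 0) (nat_lit 4315590772) (nat_lit 532) (nat_lit 4119744893) (nat_lit 608) (nat_lit 2399308180) (nat_lit 203) (nat_lit 5) (nat_lit 210) (nat_lit 5) (nat_lit 211) (nat_lit 5) (nat_lit 351) (nat_lit 305) (nat_lit 244))))) (XT.nd (nat_lit 156) (nat_lit 1064) (nat_lit 0) (XT.nd (nat_lit 78) (nat_lit 456) (nat_lit 0) (XT.lf (nat_lit 0) (nat_lit 1514902030) (nat_lit 608) (nat_lit 7778715521) (nat_lit 76) (nat_lit 1720677852) (nat_lit 195) (nat_lit 5) (nat_lit 203) (nat_lit 5) (nat_lit 196) (nat_lit 5) (nat_lit 352) (nat_lit 305)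 (nat_lit 243)) (XT.lf (nat_lit 0) (nat_lit 2086169377) (nat_lit 456) (nat_lit 3460347076) (nat_lit 532) (nat_lit 5651868253) (nat_lit 189) (nat_lit 5) (nat_lit 195) (nat_lit 5) (nat_lit 196) (nat_lit 5) (nat_lit 353) (nat_lit 305) (nat_lit 242))) (XT.nd (nat_lit 78) (nat_lit 532) (nat_lit 0) (XT.lf (nat_lit 0) (nat_lit 890595522) (nat_lit 532) (nat_lit 8831675951) (nat_lit 608) (nat_lit 1665277767) (nat_lit 182) (nat_lit 5) (nat_lit 189) (nat_lit 5) (nat_lit 190) (nat_lit 5) (nat_lit 354) (nat_lit 305) (nat_lit 241)) (XT.nd (nat_lit 78) (nat_lit 456) (nat_lit 0) (XT.lf (nat_lit 0) (nat_lit 2442715560) (nat_lit 608) (nat_lit 372611256) (nat_lit 76) (nat_lit 8766084178) (nat_lit 181) (nat_lit 5) (nat_lit 189) (nat_lit 5) (nat_lit 182) (nat_lit 5) (nat_lit 355) (nat_lit 305) (nat_lit 240)) (XT.lf (nat_lit 0) (nat_lit 6689450605) (nat_lit 532) (nat_lit 1694243681) (nat_lit 76) (nat_lit 3396426786) (nat_lit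 175) (nat_lit 5) (nat_lit 182) (nat_lit 5) (nat_lit 176) (nat_lit 5) (nat_lit 356) (nat_lit 305) (nat_lit 239)))))) (XT.nd (nat_lit 390) (nat_lit 1672) (nat_lit 0) (XT.nd (nat_lit 156) (nat_lit 1368) (nat_lit 0) (XT.nd (nat_lit 78) (nat_lit 532) (nat_lit 0) (XT.lf (nat_lit 0) (nat_lit 8908469424) (nat_lit 456) (nat_lit 2185249352) (nat_lit 532) (nat_lit 890485765) (nat_lit 169) (nat_lit 5) (nat_lit 175) (nat_lit 5) (nat_lit 176) (nat_lit 5) (nat_lit 357) (nat_lit 305) (nat_lit 238)) (XT.lf (nat_lit 0) (nat_lit 3431271394) (nat_lit 532) (nat_lit 4552498682) (nat_lit 76) (nat_lit 4209395767) (nat_lit 162) (nat_lit 5) (nat_lit 169) (nat_lit 5) (nat_lit 163) (nat_lit 5) (nat_lit 358) (nat_lit 305) (nat_lit 237))) (XT.nd (nat_lit 78) (nat_lit 912) (nat_lit 0) (XT.lf (nat_lit 0) (nat_lit 6307400621) (nat_lit 456) (nat_lit 1592237235) (nat_lit 532) (nat_lit 4508072903) (nat_lit 156) (nat_lit 5) (nat_lit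 162) (nat_lit 5) (nat_lit 163) (nat_lit 5) (nat_lit 359) (nat_lit 305) (nat_lit 236)) (XT.nd (nat_lit 78) (nat_lit 532) (nat_lit 0) (XT.lf (nat_lit 0) (nat_lit 4891860431) (nat_lit 380) (nat_lit 7658682909) (nat_lit 456) (nat_lit 77192119) (nat_lit 151) (nat_lit 5) (nat_lit 156) (nat_lit 5) (nat_lit 157) (nat_lit 5) (nat_lit 360) (nat_lit 305) (nat_lit 235)) (XT.lf (nat_lit 0) (nat_lit 3381498163) (nat_lit 456) (nat_lit 1074373737) (nat_lit 532) (nat_lit 8397356969) (nat_lit 144) (nat_lit 5) (nat_lit 150) (nat_lit 5) (nat_lit 151) (nat_lit 5) (nat_lit 361) (nat_lit 305) (nat_lit 234))))) (XT.nd (nat_lit 156) (nat_lit 836) (nat_lit 0) (XT.nd (nat_lit 78) (nat_lit 456) (nat_lit 0) (XT.lf (nat_lit 0) (nat_lit 1772908301) (nat_lit 380) (nat_lit 7406983755) (nat_lit 456) (nat_lit 3904476758) (nat_lit 139) (nat_lit 5) (nat_lit 144) (nat_lit 5) (nat_lit 145) (nat_lit 5) (nat_lit 362) (nat_lit 305) (nat_lit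 233)) (XT.lf (nat_lit 0) (nat_lit 86407199) (nat_lit 380) (nat_lit 654914796) (nat_lit 456) (nat_lit 12580486325) (nat_lit 133) (nat_lit 5) (nat_lit 138) (nat_lit 5) (nat_lit 139) (nat_lit 5) (nat_lit 363) (nat_lit 305) (nat_lit 232))) (XT.nd (nat_lit 78) (nat_lit 836) (nat_lit 0) (XT.lf (nat_lit 0) (nat_lit 5547819938) (nat_lit 456) (nat_lit 1716798331) (nat_lit 76) (nat_lit 6299760407) (nat_lit 133) (nat_lit 5) (nat_lit 139) (nat_lit 5) (nat_lit 134) (nat_lit 5) (nat_lit 364) (nat_lit 305) (nat_lit 231)) (XT.nd (nat_lit 78) (nat_lit 456) (nat_lit 0) (XT.lf (nat_lit 0) (nat_lit 10213356335) (nat_lit 380) (nat_lit 313139135) (nat_lit 456) (nat_lit 3287181962) (nat_lit 128) (nat_lit 5) (nat_lit 133) (nat_lit 5) (nat_lit 134) (nat_lit 5) (nat_lit 365) (nat_lit 305) (nat_lit 230)) (XT.lf (nat_lit 0) (nat_lit 1632821289) (nat_lit 456) (nat_lit 5621998065) (nat_lit 76) (nat_lit 6814050101) (nat_lit 122)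 (nat_lit 5) (nat_lit 128) (nat_lit 5) (nat_lit 123) (nat_lit 5) (nat_lit 366) (nat_lit 305) (nat_lit 229))))))) (XT.nd (nat_lit 780) (nat_lit 1976) (nat_lit 0) (XT.nd (nat_lit 390) (nat_lit 1596) (nat_lit 0) (XT.nd (nat_lit 156) (nat_lit 684) (nat_lit 0) (XT.nd (nat_lit 78) (nat_lit 380) (nat_lit 0) (XT.lf (nat_lit 0) (nat_lit 6572701991) (nat_lit 304) (nat_lit 111175394) (nat_lit 380) (nat_lit 7646853148) (nat_lit 118) (nat_lit 5) (nat_lit 122) (nat_lit 5) (nat_lit 123) (nat_lit 5) (nat_lit 367) (nat_lit 305) (nat_lit 228)) (XT.lf (nat_lit 0) (nat_lit 4560560715) (nat_lit 380) (nat_lit 7400115086) (nat_lit 456) (nat_lit 2638297249) (nat_lit 113) (nat_lit 5) (nat_lit 118) (nat_lit 5) (nat_lit 119) (nat_lit 5) (nat_lit 368) (nat_lit 305) (nat_lit 227))) (XT.nd (nat_lit 78) (nat_lit 304) (nat_lit 0) (XT.lf (nat_lit 0) (nat_lit 2433151729) (nat_lit 304) (nat_lit 83482529) (nat_lit 380) (nat_lit 12357727110)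 (nat_lit 108) (nat_lit 5) (nat_lit 112) (nat_lit 5) (nat_lit 113) (nat_lit 5) (nat_lit 369) (nat_lit 305) (nat_lit 226)) (XT.nd (nat_lit 78) (nat_lit 0) (nat_lit 0) (XT.lf (nat_lit 0) (nat_lit 133238833) (nat_lit 304) (nat_lit 7735415363) (nat_lit 380) (nat_lit 7287451739) (nat_lit 104) (nat_lit 5) (nat_lit 108) (nat_lit 5) (nat_lit 109) (nat_lit 5) (nat_lit 370) (nat_lit 305) (nat_lit 225)) (XT.lf (nat_lit 0) (nat_lit 13194006092) (nat_lit 304) (nat_lit 233203535) (nat_lit 380) (nat_lit 2018182523) (nat_lit 104) (nat_lit 5) (nat_lit 108) (nat_lit 5) (nat_lit 109) (nat_lit 5) (nat_lit 371) (nat_lit 305) (nat_lit 224))))) (XT.nd (nat_lit 156) (nat_lit 912) (nat_lit 0) (XT.nd (nat_lit 78) (nat_lit 304) (nat_lit 0) (XT.lf (nat_lit 0) (nat_lit 3446773025) (nat_lit 380) (nat_lit 4825868353) (nat_lit 76) (nat_lit 7468634864) (nat_lit 99) (nat_lit 5) (nat_lit 104) (nat_lit 5) (nat_lit 100) (nat_lit 5) (nat_lit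 372) (nat_lit 305) (nat_lit 223)) (XT.lf (nat_lit 0) (nat_lit 8499561201) (nat_lit 304) (nat_lit 583533909) (nat_lit 380) (nat_lit 6961986342) (nat_lit 95) (nat_lit 5) (nat_lit 99) (nat_lit 5) (nat_lit 100) (nat_lit 5) (nat_lit 373) (nat_lit 305) (nat_lit 222))) (XT.nd (nat_lit 78) (nat_lit 608) (nat_lit 0) (XT.lf (nat_lit 0) (nat_lit 5904360949) (nat_lit 304) (nat_lit 9066184152) (nat_lit 380) (nat_lit 1385822856) (nat_lit 91) (nat_lit 5) (nat_lit 95) (nat_lit 5) (nat_lit 96) (nat_lit 5) (nat_lit 374) (nat_lit 305) (nat_lit 221)) (XT.nd (nat_lit 78) (nat_lit 228) (nat_lit 0) (XT.lf (nat_lit 0) (nat_lit 3135409762) (nat_lit 304) (nat_lit 1204398299) (nat_lit 380) (nat_lit 12335839995) (nat_lit 86) (nat_lit 5) (nat_lit 90) (nat_lit 5) (nat_lit 91) (nat_lit 5) (nat_lit 375) (nat_lit 305) (nat_lit 220)) (XT.lf (nat_lit 0) (nat_lit 160169034) (nat_lit 228) (nat_lit 10139561500) (nat_lit 304) (nat_lit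 6702973110) (nat_lit 83) (nat_lit 5) (nat_lit 86) (nat_lit 5) (nat_lit 87) (nat_lit 5) (nat_lit 376) (nat_lit 305) (nat_lit 219)))))) (XT.nd (nat_lit 390) (nat_lit 760) (nat_lit 0) (XT.nd (nat_lit 156) (nat_lit 836) (nat_lit 0) (XT.nd (nat_lit 78) (nat_lit 380) (nat_lit 0) (XT.lf (nat_lit 0) (nat_lit 14391839762) (nat_lit 228) (nat_lit 2111192324) (nat_lit 304) (nat_lit 835254275) (nat_lit 83) (nat_lit 5) (nat_lit 86) (nat_lit 5) (nat_lit 87) (nat_lit 5) (nat_lit 377) (nat_lit 305) (nat_lit 218)) (XT.lf (nat_lit 0) (nat_lit 5220553652) (nat_lit 380) (nat_lit 6296191267) (nat_lit 76) (nat_lit 6164914693) (nat_lit 78) (nat_lit 5) (nat_lit 83) (nat_lit 5) (nat_lit 79) (nat_lit 5) (nat_lit 378) (nat_lit 305) (nat_lit 217))) (XT.nd (nat_lit 78) (nat_lit 608) (nat_lit 0) (XT.lf (nat_lit 0) (nat_lit 8184873079) (nat_lit 228) (nat_lit 3315365058) (nat_lit 304) (nat_lit 6533921051) (nat_lit 75) (nat_lit 5)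 (nat_lit 78) (nat_lit 5) (nat_lit 79) (nat_lit 5) (nat_lit 379) (nat_lit 305) (nat_lit 216)) (XT.nd (nat_lit 78) (nat_lit 304) (nat_lit 0) (XT.lf (nat_lit 0) (nat_lit 4764041240) (nat_lit 304) (nat_lit 13278093582) (nat_lit 380) (nat_lit 353628859) (nat_lit 71) (nat_lit 5) (nat_lit 75) (nat_lit 5) (nat_lit 76) (nat_lit 5) (nat_lit 380) (nat_lit 305) (nat_lit 215)) (XT.lf (nat_lit 0) (nat_lit 1081683517) (nat_lit 228) (nat_lit 4914937257) (nat_lit 304) (nat_lit 12769552940) (nat_lit 67) (nat_lit 5) (nat_lit 70) (nat_lit 5) (nat_lit 71) (nat_lit 5) (nat_lit 381) (nat_lit 305) (nat_lit 214))))) (XT.nd (nat_lit 156) (nat_lit 532) (nat_lit 0) (XT.nd (nat_lit 78) (nat_lit 228) (nat_lit 0) (XT.lf (nat_lit 0) (nat_lit 12617096184) (nat_lit 304) (nat_lit 2803948001) (nat_lit 76) (nat_lit 3724920538) (nat_lit 67) (nat_lit 5) (nat_lit 71) (nat_lit 5) (nat_lit 68) (nat_lit 5) (nat_lit 382) (nat_lit 305) (nat_lit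 213)) (XT.lf (nat_lit 0) (nat_lit 12602818171) (nat_lit 228) (nat_lit 6916502324) (nat_lit 304) (nat_lit 16171982) (nat_lit 64) (nat_lit 5) (nat_lit 67) (nat_lit 5) (nat_lit 68) (nat_lit 5) (nat_lit 383) (nat_lit 305) (nat_lit 212))) (XT.nd (nat_lit 78) (nat_lit 228) (nat_lit 0) (XT.lf (nat_lit 0) (nat_lit 6660470684) (nat_lit 304) (nat_lit 11356823915) (nat_lit 76) (nat_lit 1917421317) (nat_lit 60) (nat_lit 5) (nat_lit 64) (nat_lit 5) (nat_lit 61) (nat_lit 5) (nat_lit 384) (nat_lit 305) (nat_lit 211)) (XT.nd (nat_lit 40716) (nat_lit 0) (nat_lit 44764) (XT.lf (nat_lit 0) (nat_lit 4261091416) (nat_lit 228) (nat_lit 9366564925) (nat_lit 304) (nat_lit 6716453584) (nat_lit 57) (nat_lit 5) (nat_lit 60) (nat_lit 5) (nat_lit 61) (nat_lit 5) (nat_lit 385) (nat_lit 305) (nat_lit 210)) (XT.lf (nat_lit 0) (nat_lit 1570065330) (nat_lit 684) (nat_lit 864278991) (nat_lit 684) (nat_lit 864278991) (nat_lit 646) (nat_lit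 3) (nat_lit 655) (nat_lit 3) (nat_lit 655) (nat_lit 5) (nat_lit 306) (nat_lit 306) (nat_lit 288))))))))
noncomputable def xc60 : XT := (XT.nd (nat_lit 1560) (nat_lit 17936) (nat_lit 0) (XT.nd (nat_lit 780) (nat_lit 8664) (nat_lit 0) (XT.nd (nat_lit 390) (nat_lit 1824) (nat_lit 0) (XT.nd (nat_lit 156) (nat_lit 1520) (nat_lit 0) (XT.nd (nat_lit 78) (nat_lit 0) (nat_lit 0) (XT.lf (nat_lit 0) (nat_lit 30270842) (nat_lit 684) (nat_lit 3581935299) (nat_lit 760) (nat_lit 3012321359) (nat_lit 637) (nat_lit 5) (nat_lit 646) (nat_lit 3) (nat_lit 647) (nat_lit 5) (nat_lit 307) (nat_lit 306) (nat_lit 287)) (XT.lf (nat_lit 76) (nat_lit 1249853580) (nat_lit 0) (nat_lit 2209621042) (nat_lit 760) (nat_lit 3195100422) (nat_lit 638) (nat_lit 5) (nat_lit 637) (nat_lit 5) (nat_lit 647) (nat_lit 5) (nat_lit 308) (nat_lit 306) (nat_lit 286))) (XT.nd (nat_lit 78) (nat_lit 760) (nat_lit 0) (XT.lf (nat_lit 0) (nat_lit 192982979)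 (nat_lit 760) (nat_lit 483745012) (nat_lit 836) (nat_lit 6011021250) (nat_lit 627) (nat_lit 5) (nat_lit 637) (nat_lit 5) (nat_lit 638) (nat_lit 5) (nat_lit 309) (nat_lit 306) (nat_lit 285)) (XT.nd (nat_lit 78) (nat_lit 836) (nat_lit 0) (XT.lf (nat_lit 0) (nat_lit 3546110733) (nat_lit 760) (nat_lit 2177028197) (nat_lit 836) (nat_lit 1000302962) (nat_lit 628) (nat_lit 5) (nat_lit 638) (nat_lit 5) (nat_lit 639) (nat_lit 5) (nat_lit 310) (nat_lit 306) (nat_lit 284)) (XT.lf (nat_lit 0) (nat_lit 136757025) (nat_lit 836) (nat_lit 3827168628) (nat_lit 912) (nat_lit 2798320988) (nat_lit 617) (nat_lit 5) (nat_lit 628) (nat_lit 5) (nat_lit 629) (nat_lit 5) (nat_lit 311) (nat_lit 306) (nat_lit 283))))) (XT.nd (nat_lit 156) (nat_lit 1824) (nat_lit 0) (XT.nd (nat_lit 78) (nat_lit 0) (nat_lit 0) (XT.lf (nat_lit 76) (nat_lit 1352343809) (nat_lit 0) (nat_lit 2055070433) (nat_lit 912) (nat_lit 3396450595) (nat_lit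 618) (nat_lit 5) (nat_lit 617) (nat_lit 5) (nat_lit 629) (nat_lit 5) (nat_lit 312) (nat_lit 306) (nat_lit 282)) (XT.lf (nat_lit 76) (nat_lit 6668331364) (nat_lit 0) (nat_lit 13367465) (nat_lit 912) (nat_lit 166996017) (nat_lit 618) (nat_lit 5) (nat_lit 617) (nat_lit 5) (nat_lit 629) (nat_lit 5) (nat_lit 313) (nat_lit 306) (nat_lit 281))) (XT.nd (nat_lit 78) (nat_lit 988) (nat_lit 0) (XT.lf (nat_lit 0) (nat_lit 3048306746) (nat_lit 912) (nat_lit 1684336047) (nat_lit 988) (nat_lit 2163278598) (nat_lit 606) (nat_lit 5) (nat_lit 618) (nat_lit 5) (nat_lit 619) (nat_lit 5) (nat_lit 314) (nat_lit 306) (nat_lit 280)) (XT.nd (nat_lit 78) (nat_lit 988) (nat_lit 0) (XT.lf (nat_lit 76) (nat_lit 3799475587) (nat_lit 0) (nat_lit 2469832114) (nat_lit 988) (nat_lit 677072646) (nat_lit 607) (nat_lit 5) (nat_lit 606) (nat_lit 5) (nat_lit 619) (nat_lit 5) (nat_lit 315) (nat_lit 306) (nat_lit 279)) (XT.lf (nat_lit 76)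 (nat_lit 2414773205) (nat_lit 0) (nat_lit 54605061) (nat_lit 1064) (nat_lit 4530408401) (nat_lit 594) (nat_lit 5) (nat_lit 593) (nat_lit 5) (nat_lit 607) (nat_lit 5) (nat_lit 316) (nat_lit 306) (nat_lit 278)))))) (XT.nd (nat_lit 390) (nat_lit 5472) (nat_lit 0) (XT.nd (nat_lit 156) (nat_lit 2204) (nat_lit 0) (XT.nd (nat_lit 78) (nat_lit 1064) (nat_lit 0) (XT.lf (nat_lit 76) (nat_lit 1051260737) (nat_lit 0) (nat_lit 4584535755) (nat_lit 1064) (nat_lit 1420276426) (nat_lit 595) (nat_lit 5) (nat_lit 594) (nat_lit 5) (nat_lit 608) (nat_lit 5) (nat_lit 317) (nat_lit 306) (nat_lit 277)) (XT.lf (nat_lit 0) (nat_lit 1683991276) (nat_lit 1064) (nat_lit 280545405) (nat_lit 1140) (nat_lit 5150854843) (nat_lit 580) (nat_lit 5) (nat_lit 594) (nat_lit 5) (nat_lit 595) (nat_lit 5) (nat_lit 318) (nat_lit 306) (nat_lit 276))) (XT.nd (nat_lit 78) (nat_lit 2280) (nat_lit 0) (XT.lf (nat_lit 0) (nat_lit 4799592420) (nat_lit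 1064) (nat_lit 1575690278) (nat_lit 76) (nat_lit 802327143) (nat_lit 581) (nat_lit 5) (nat_lit 595) (nat_lit 5) (nat_lit 582) (nat_lit 5) (nat_lit 319) (nat_lit 306) (nat_lit 275)) (XT.nd (nat_lit 78) (nat_lit 1140) (nat_lit 0) (XT.lf (nat_lit 0) (nat_lit 698532828) (nat_lit 1140) (nat_lit 2853290033) (nat_lit 76) (nat_lit 3690994909) (nat_lit 566) (nat_lit 5) (nat_lit 581) (nat_lit 5) (nat_lit 567) (nat_lit 5) (nat_lit 320) (nat_lit 306) (nat_lit 274)) (XT.lf (nat_lit 0) (nat_lit 3197973648) (nat_lit 1140) (nat_lit 569054986) (nat_lit 1216) (nat_lit 3544053334) (nat_lit 551) (nat_lit 5) (nat_lit 566) (nat_lit 5) (nat_lit 567) (nat_lit 5) (nat_lit 321) (nat_lit 306) (nat_lit 273))))) (XT.nd (nat_lit 156) (nat_lit 2888) (nat_lit 0) (XT.nd (nat_lit 78) (nat_lit 1368) (nat_lit 0) (XT.lf (nat_lit 0) (nat_lit 2024530823) (nat_lit 1216) (nat_lit 4854767569) (nat_lit 1292) (nat_lit 503113304) (nat_lit 535)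 (nat_lit 5) (nat_lit 551) (nat_lit 5) (nat_lit 552) (nat_lit 5) (nat_lit 322) (nat_lit 306) (nat_lit 272)) (XT.lf (nat_lit 0) (nat_lit 862959340) (nat_lit 1292) (nat_lit 1673615191) (nat_lit 1368) (nat_lit 4920174872) (nat_lit 517) (nat_lit 5) (nat_lit 534) (nat_lit 5) (nat_lit 535) (nat_lit 5) (nat_lit 323) (nat_lit 306) (nat_lit 271))) (XT.nd (nat_lit 78) (nat_lit 2888) (nat_lit 0) (XT.lf (nat_lit 0) (nat_lit 5614579436) (nat_lit 1368) (nat_lit 278244240) (nat_lit 76) (nat_lit 1641395860) (nat_lit 517) (nat_lit 5) (nat_lit 535) (nat_lit 5) (nat_lit 518) (nat_lit 5) (nat_lit 324) (nat_lit 306) (nat_lit 270)) (XT.nd (nat_lit 78) (nat_lit 1444) (nat_lit 0) (XT.lf (nat_lit 0) (nat_lit 1116531857) (nat_lit 1444) (nat_lit 1398184448) (nat_lit 76) (nat_lit 5099971591) (nat_lit 498) (nat_lit 5) (nat_lit 517) (nat_lit 5) (nat_lit 499) (nat_lit 5) (nat_lit 325) (nat_lit 306) (nat_lit 269)) (XT.lf (nat_lit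 0) (nat_lit 4171378639) (nat_lit 1520) (nat_lit 2510706861) (nat_lit 76) (nat_lit 1016202023) (nat_lit 479) (nat_lit 5) (nat_lit 499) (nat_lit 5) (nat_lit 480) (nat_lit 5) (nat_lit 326) (nat_lit 306) (nat_lit 268))))))) (XT.nd (nat_lit 780) (nat_lit 6612) (nat_lit 0) (XT.nd (nat_lit 390) (nat_lit 3572) (nat_lit 0) (XT.nd (nat_lit 156) (nat_lit 4560) (nat_lit 0) (XT.nd (nat_lit 78) (nat_lit 1672) (nat_lit 0) (XT.lf (nat_lit 0) (nat_lit 4169730369) (nat_lit 1520) (nat_lit 3114992893) (nat_lit 1596) (nat_lit 500377933) (nat_lit 459) (nat_lit 5) (nat_lit 479) (nat_lit 5) (nat_lit 480) (nat_lit 5) (nat_lit 327) (nat_lit 306) (nat_lit 267)) (XT.lf (nat_lit 0) (nat_lit 2539216635) (nat_lit 1672) (nat_lit 4718011011) (nat_lit 76) (nat_lit 617861047) (nat_lit 437) (nat_lit 5) (nat_lit 459) (nat_lit 5) (nat_lit 438) (nat_lit 5) (nat_lit 328) (nat_lit 306) (nat_lit 266))) (XT.nd (nat_lit 78) (nat_lit 2888) (nat_lit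 0) (XT.lf (nat_lit 0) (nat_lit 2144211397) (nat_lit 1672) (nat_lit 3495391136) (nat_lit 1748) (nat_lit 2328618931) (nat_lit 415) (nat_lit 5) (nat_lit 437) (nat_lit 5) (nat_lit 438) (nat_lit 5) (nat_lit 329) (nat_lit 306) (nat_lit 265)) (XT.nd (nat_lit 78) (nat_lit 1064) (nat_lit 0) (XT.lf (nat_lit 0) (nat_lit 719532119) (nat_lit 1824) (nat_lit 6918883744) (nat_lit 76) (nat_lit 426455151) (nat_lit 391) (nat_lit 5) (nat_lit 415) (nat_lit 5) (nat_lit 392) (nat_lit 5) (nat_lit 330) (nat_lit 306) (nat_lit 264)) (XT.lf (nat_lit 0) (nat_lit 128798195) (nat_lit 1064) (nat_lit 3683074822) (nat_lit 1140) (nat_lit 4352588356) (nat_lit 377) (nat_lit 5) (nat_lit 391) (nat_lit 5) (nat_lit 392) (nat_lit 5) (nat_lit 331) (nat_lit 306) (nat_lit 263))))) (XT.nd (nat_lit 156) (nat_lit 2584) (nat_lit 0) (XT.nd (nat_lit 78) (nat_lit 988) (nat_lit 0) (XT.lf (nat_lit 0) (nat_lit 6968852837) (nat_lit 1140) (nat_lit 861595442)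 (nat_lit 76) (nat_lit 437189528) (nat_lit 377) (nat_lit 5) (nat_lit 392) (nat_lit 5) (nat_lit 378) (nat_lit 5) (nat_lit 332) (nat_lit 306) (nat_lit 262)) (XT.lf (nat_lit 0) (nat_lit 1813658331) (nat_lit 988) (nat_lit 1870604557) (nat_lit 76) (nat_lit 4689615972) (nat_lit 364) (nat_lit 5) (nat_lit 377) (nat_lit 5) (nat_lit 365) (nat_lit 5) (nat_lit 333) (nat_lit 306) (nat_lit 261))) (XT.nd (nat_lit 78) (nat_lit 1748) (nat_lit 0) (XT.lf (nat_lit 0) (nat_lit 4973998761) (nat_lit 912) (nat_lit 2878327908) (nat_lit 76) (nat_lit 631398419) (nat_lit 353) (nat_lit 5) (nat_lit 365) (nat_lit 5) (nat_lit 354) (nat_lit 5) (nat_lit 334) (nat_lit 306) (nat_lit 260)) (XT.nd (nat_lit 78) (nat_lit 912) (nat_lit 0) (XT.lf (nat_lit 0) (nat_lit 4698352914) (nat_lit 836) (nat_lit 3526022568) (nat_lit 912) (nat_lit 372618761) (nat_lit 342) (nat_lit 5) (nat_lit 353) (nat_lit 5) (nat_lit 354) (nat_lit 5) (nat_lit 335) (nat_lit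 306) (nat_lit 259)) (XT.lf (nat_lit 0) (nat_lit 2800244573) (nat_lit 912) (nat_lit 4933888252) (nat_lit 76) (nat_lit 979605295) (nat_lit 330) (nat_lit 5) (nat_lit 342) (nat_lit 5) (nat_lit 331) (nat_lit 5) (nat_lit 336) (nat_lit 306) (nat_lit 258)))))) (XT.nd (nat_lit 390) (nat_lit 3420) (nat_lit 0) (XT.nd (nat_lit 156) (nat_lit 1520) (nat_lit 0) (XT.nd (nat_lit 78) (nat_lit 836) (nat_lit 0) (XT.lf (nat_lit 0) (nat_lit 2846450154) (nat_lit 836) (nat_lit 3215540445) (nat_lit 912) (nat_lit 2771998899) (nat_lit 319) (nat_lit 5) (nat_lit 330) (nat_lit 5) (nat_lit 331) (nat_lit 5) (nat_lit 337) (nat_lit 306) (nat_lit 257)) (XT.lf (nat_lit 0) (nat_lit 444578604) (nat_lit 836) (nat_lit 7048406944) (nat_lit 76) (nat_lit 1465092452) (nat_lit 308) (nat_lit 5) (nat_lit 319) (nat_lit 5) (nat_lit 309) (nat_lit 5) (nat_lit 338) (nat_lit 306) (nat_lit 256))) (XT.nd (nat_lit 78) (nat_lit 760) (nat_lit 0) (XT.lf (nat_lit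 0) (nat_lit 939536336) (nat_lit 760) (nat_lit 2781790182) (nat_lit 836) (nat_lit 5364196889) (nat_lit 298) (nat_lit 5) (nat_lit 308) (nat_lit 5) (nat_lit 309) (nat_lit 5) (nat_lit 339) (nat_lit 306) (nat_lit 255)) (XT.nd (nat_lit 78) (nat_lit 760) (nat_lit 0) (XT.lf (nat_lit 0) (nat_lit 7092026938) (nat_lit 836) (nat_lit 39271112) (nat_lit 76) (nat_lit 2085607708) (nat_lit 298) (nat_lit 5) (nat_lit 309) (nat_lit 5) (nat_lit 299) (nat_lit 5) (nat_lit 340) (nat_lit 306) (nat_lit 254)) (XT.lf (nat_lit 0) (nat_lit 1204494072) (nat_lit 760) (nat_lit 1029847008) (nat_lit 76) (nat_lit 7117581153) (nat_lit 288) (nat_lit 5) (nat_lit 298) (nat_lit 5) (nat_lit 289) (nat_lit 5) (nat_lit 341) (nat_lit 306) (nat_lit 253))))) (XT.nd (nat_lit 156) (nat_lit 1976) (nat_lit 0) (XT.nd (nat_lit 78) (nat_lit 684) (nat_lit 0) (XT.lf (nat_lit 0) (nat_lit 4609346449) (nat_lit 836) (nat_lit 2053068785) (nat_lit 76) (nat_lit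 2828228284) (nat_lit 278) (nat_lit 5) (nat_lit 289) (nat_lit 5) (nat_lit 279) (nat_lit 5) (nat_lit 342) (nat_lit 306) (nat_lit 252)) (XT.lf (nat_lit 0) (nat_lit 6539610618) (nat_lit 684) (nat_lit 1579504530) (nat_lit 760) (nat_lit 1514379729) (nat_lit 269) (nat_lit 5) (nat_lit 278) (nat_lit 5) (nat_lit 279) (nat_lit 5) (nat_lit 343) (nat_lit 306) (nat_lit 251))) (XT.nd (nat_lit 78) (nat_lit 1216) (nat_lit 0) (XT.lf (nat_lit 0) (nat_lit 1941827391) (nat_lit 760) (nat_lit 4176414071) (nat_lit 76) (nat_lit 3661881274) (nat_lit 259) (nat_lit 5) (nat_lit 269) (nat_lit 5) (nat_lit 260) (nat_lit 5) (nat_lit 344) (nat_lit 306) (nat_lit 250)) (XT.nd (nat_lit 78) (nat_lit 608) (nat_lit 0) (XT.lf (nat_lit 0) (nat_lit 4643339875) (nat_lit 608) (nat_lit 840256373) (nat_lit 684) (nat_lit 4447326024) (nat_lit 251) (nat_lit 5) (nat_lit 259) (nat_lit 5) (nat_lit 260) (nat_lit 5) (nat_lit 345) (nat_lit 306) (nat_lit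 249)) (XT.lf (nat_lit 0) (nat_lit 3646423844) (nat_lit 608) (nat_lit 5508925174) (nat_lit 684) (nat_lit 930443558) (nat_lit 243) (nat_lit 5) (nat_lit 251) (nat_lit 5) (nat_lit 252) (nat_lit 5) (nat_lit 346) (nat_lit 306) (nat_lit 248))))))))
noncomputable def xc61 : XT := (XT.nd (nat_lit 1560) (nat_lit 5168) (nat_lit 0) (XT.nd (nat_lit 780) (nat_lit 3572) (nat_lit 0) (XT.nd (nat_lit 390) (nat_lit 2660) (nat_lit 0) (XT.nd (nat_lit 156) (nat_lit 1216) (nat_lit 0) (XT.nd (nat_lit 78) (nat_lit 608) (nat_lit 0) (XT.lf (nat_lit 0) (nat_lit 2617039162) (nat_lit 608) (nat_lit 40854718) (nat_lit 684) (nat_lit 7587060842) (nat_lit 234) (nat_lit 5) (nat_lit 242) (nat_lit 5) (nat_lit 243) (nat_lit 5) (nat_lit 347) (nat_lit 306) (nat_lit 247)) (XT.lf (nat_lit 0) (nat_lit 1532441898) (nat_lit 608) (nat_lit 4842762853) (nat_lit 684) (nat_lit 4032904465) (nat_lit 226) (nat_lit 5) (nat_lit 234) (nat_lit 5) (nat_lit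 235) (nat_lit 5) (nat_lit 348) (nat_lit 306) (nat_lit 246))) (XT.nd (nat_lit 78) (nat_lit 684) (nat_lit 0) (XT.lf (nat_lit 0) (nat_lit 426929233) (nat_lit 532) (nat_lit 9781952405) (nat_lit 608) (nat_lit 367198970) (nat_lit 219) (nat_lit 5) (nat_lit 226) (nat_lit 5) (nat_lit 227) (nat_lit 5) (nat_lit 349) (nat_lit 306) (nat_lit 245)) (XT.nd (nat_lit 78) (nat_lit 608) (nat_lit 0) (XT.lf (nat_lit 0) (nat_lit 3402305017) (nat_lit 608) (nat_lit 742312528) (nat_lit 76) (nat_lit 6603278668) (nat_lit 218) (nat_lit 5) (nat_lit 226) (nat_lit 5) (nat_lit 219) (nat_lit 5) (nat_lit 350) (nat_lit 306) (nat_lit 244)) (XT.lf (nat_lit 0) (nat_lit 7296616206) (nat_lit 684) (nat_lit 1941155644) (nat_lit 76) (nat_lit 1686729416) (nat_lit 210) (nat_lit 5) (nat_lit 219) (nat_lit 5) (nat_lit 211) (nat_lit 5) (nat_lit 351) (nat_lit 306) (nat_lit 243))))) (XT.nd (nat_lit 156) (nat_lit 1520) (nat_lit 0) (XT.nd (nat_lit 78)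 (nat_lit 532) (nat_lit 0) (XT.lf (nat_lit 0) (nat_lit 231263932) (nat_lit 608) (nat_lit 3194069452) (nat_lit 76) (nat_lit 7680410779) (nat_lit 202) (nat_lit 5) (nat_lit 210) (nat_lit 5) (nat_lit 203) (nat_lit 5) (nat_lit 352) (nat_lit 306) (nat_lit 242)) (XT.lf (nat_lit 0) (nat_lit 4180510196) (nat_lit 608) (nat_lit 4516704056) (nat_lit 76) (nat_lit 2594274653) (nat_lit 195) (nat_lit 5) (nat_lit 203) (nat_lit 5) (nat_lit 196) (nat_lit 5) (nat_lit 353) (nat_lit 306) (nat_lit 241))) (XT.nd (nat_lit 78) (nat_lit 1064) (nat_lit 0) (XT.lf (nat_lit 0) (nat_lit 5587419116) (nat_lit 456) (nat_lit 2691664655) (nat_lit 532) (nat_lit 3203121139) (nat_lit 189) (nat_lit 5) (nat_lit 195) (nat_lit 5) (nat_lit 196) (nat_lit 5) (nat_lit 354) (nat_lit 306) (nat_lit 240)) (XT.nd (nat_lit 78) (nat_lit 456) (nat_lit 0) (XT.lf (nat_lit 0) (nat_lit 843906423) (nat_lit 608) (nat_lit 7337657108) (nat_lit 76) (nat_lit 3496332987)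 (nat_lit 181) (nat_lit 5) (nat_lit 189) (nat_lit 5) (nat_lit 182) (nat_lit 5) (nat_lit 355) (nat_lit 306) (nat_lit 239)) (XT.lf (nat_lit 0) (nat_lit 3017994639) (nat_lit 456) (nat_lit 1980361186) (nat_lit 532) (nat_lit 6880103731) (nat_lit 175) (nat_lit 5) (nat_lit 181) (nat_lit 5) (nat_lit 182) (nat_lit 5) (nat_lit 356) (nat_lit 306) (nat_lit 238)))))) (XT.nd (nat_lit 390) (nat_lit 1672) (nat_lit 0) (XT.nd (nat_lit 156) (nat_lit 912) (nat_lit 0) (XT.nd (nat_lit 78) (nat_lit 532) (nat_lit 0) (XT.lf (nat_lit 0) (nat_lit 1627086619) (nat_lit 456) (nat_lit 7691931989) (nat_lit 532) (nat_lit 2765203559) (nat_lit 169) (nat_lit 5) (nat_lit 175) (nat_lit 5) (nat_lit 176) (nat_lit 5) (nat_lit 357) (nat_lit 306) (nat_lit 237)) (XT.lf (nat_lit 0) (nat_lit 169013842) (nat_lit 456) (nat_lit 1312584178) (nat_lit 532) (nat_lit 10813826440) (nat_lit 162) (nat_lit 5) (nat_lit 168) (nat_lit 5) (nat_lit 169) (nat_lit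 5) (nat_lit 358) (nat_lit 306) (nat_lit 236))) (XT.nd (nat_lit 78) (nat_lit 912) (nat_lit 0) (XT.lf (nat_lit 0) (nat_lit 5877744348) (nat_lit 532) (nat_lit 1372898344) (nat_lit 76) (nat_lit 5260777589) (nat_lit 162) (nat_lit 5) (nat_lit 169) (nat_lit 5) (nat_lit 163) (nat_lit 5) (nat_lit 359) (nat_lit 306) (nat_lit 235)) (XT.nd (nat_lit 78) (nat_lit 456) (nat_lit 0) (XT.lf (nat_lit 0) (nat_lit 9758996934) (nat_lit 456) (nat_lit 674088072) (nat_lit 532) (nat_lit 2300277584) (nat_lit 156) (nat_lit 5) (nat_lit 162) (nat_lit 5) (nat_lit 163) (nat_lit 5) (nat_lit 360) (nat_lit 306) (nat_lit 234)) (XT.lf (nat_lit 0) (nat_lit 2193858291) (nat_lit 456) (nat_lit 4687517752) (nat_lit 76) (nat_lit 6079136326) (nat_lit 150) (nat_lit 5) (nat_lit 156) (nat_lit 5) (nat_lit 151) (nat_lit 5) (nat_lit 361) (nat_lit 306) (nat_lit 233))))) (XT.nd (nat_lit 156) (nat_lit 836) (nat_lit 0) (XT.nd (nat_lit 78) (nat_lit 380)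 (nat_lit 0) (XT.lf (nat_lit 0) (nat_lit 6709647655) (nat_lit 456) (nat_lit 106989546) (nat_lit 532) (nat_lit 6377045771) (nat_lit 144) (nat_lit 5) (nat_lit 150) (nat_lit 5) (nat_lit 151) (nat_lit 5) (nat_lit 362) (nat_lit 306) (nat_lit 232)) (XT.lf (nat_lit 0) (nat_lit 5038476154) (nat_lit 380) (nat_lit 6606193173) (nat_lit 456) (nat_lit 1787859467) (nat_lit 139) (nat_lit 5) (nat_lit 144) (nat_lit 5) (nat_lit 145) (nat_lit 5) (nat_lit 363) (nat_lit 306) (nat_lit 231))) (XT.nd (nat_lit 78) (nat_lit 380) (nat_lit 0) (XT.lf (nat_lit 0) (nat_lit 2926818288) (nat_lit 456) (nat_lit 10401340805) (nat_lit 76) (nat_lit 349482972) (nat_lit 133) (nat_lit 5) (nat_lit 139) (nat_lit 5) (nat_lit 134) (nat_lit 5) (nat_lit 364) (nat_lit 306) (nat_lit 230)) (XT.nd (nat_lit 78) (nat_lit 0) (nat_lit 0) (XT.lf (nat_lit 0) (nat_lit 1382590491) (nat_lit 380) (nat_lit 6445142038) (nat_lit 456) (nat_lit 6100768751) (nat_lit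 128) (nat_lit 5) (nat_lit 133) (nat_lit 5) (nat_lit 134) (nat_lit 5) (nat_lit 365) (nat_lit 306) (nat_lit 229)) (XT.lf (nat_lit 0) (nat_lit 12910025544) (nat_lit 456) (nat_lit 589128495) (nat_lit 76) (nat_lit 687055520) (nat_lit 128) (nat_lit 5) (nat_lit 134) (nat_lit 5) (nat_lit 129) (nat_lit 5) (nat_lit 366) (nat_lit 306) (nat_lit 228))))))) (XT.nd (nat_lit 780) (nat_lit 1976) (nat_lit 0) (XT.nd (nat_lit 390) (nat_lit 1368) (nat_lit 0) (XT.nd (nat_lit 156) (nat_lit 1064) (nat_lit 0) (XT.nd (nat_lit 78) (nat_lit 304) (nat_lit 0) (XT.lf (nat_lit 0) (nat_lit 3725200603) (nat_lit 456) (nat_lit 2696467328) (nat_lit 76) (nat_lit 8027901435) (nat_lit 122) (nat_lit 5) (nat_lit 128) (nat_lit 5) (nat_lit 123) (nat_lit 5) (nat_lit 367) (nat_lit 306) (nat_lit 227)) (XT.lf (nat_lit 0) (nat_lit 8894046800) (nat_lit 380) (nat_lit 4912232840) (nat_lit 76) (nat_lit 913695981) (nat_lit 118) (nat_lit 5) (nat_lit 123)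 (nat_lit 5) (nat_lit 119) (nat_lit 5) (nat_lit 368) (nat_lit 306) (nat_lit 226))) (XT.nd (nat_lit 78) (nat_lit 684) (nat_lit 0) (XT.lf (nat_lit 0) (nat_lit 7725237080) (nat_lit 380) (nat_lit 6565759199) (nat_lit 456) (nat_lit 706046281) (nat_lit 113) (nat_lit 5) (nat_lit 118) (nat_lit 5) (nat_lit 119) (nat_lit 5) (nat_lit 369) (nat_lit 306) (nat_lit 225)) (XT.nd (nat_lit 78) (nat_lit 304) (nat_lit 0) (XT.lf (nat_lit 0) (nat_lit 4545162269) (nat_lit 380) (nat_lit 9776237280) (nat_lit 76) (nat_lit 959685025) (nat_lit 108) (nat_lit 5) (nat_lit 113) (nat_lit 5) (nat_lit 109) (nat_lit 5) (nat_lit 370) (nat_lit 306) (nat_lit 224)) (XT.lf (nat_lit 0) (nat_lit 3125604095) (nat_lit 304) (nat_lit 6895198863) (nat_lit 380) (nat_lit 5551230339) (nat_lit 104) (nat_lit 5) (nat_lit 108) (nat_lit 5) (nat_lit 109) (nat_lit 5) (nat_lit 371) (nat_lit 306) (nat_lit 223))))) (XT.nd (nat_lit 156) (nat_lit 988) (nat_lit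 0) (XT.nd (nat_lit 78) (nat_lit 76) (nat_lit 0) (XT.lf (nat_lit 0) (nat_lit 622998719) (nat_lit 304) (nat_lit 15076552467) (nat_lit 380) (nat_lit 171390830) (nat_lit 100) (nat_lit 5) (nat_lit 104) (nat_lit 5) (nat_lit 105) (nat_lit 5) (nat_lit 372) (nat_lit 306) (nat_lit 222)) (XT.lf (nat_lit 0) (nat_lit 5394097352) (nat_lit 380) (nat_lit 2061113878) (nat_lit 76) (nat_lit 8721023779) (nat_lit 99) (nat_lit 5) (nat_lit 104) (nat_lit 5) (nat_lit 100) (nat_lit 5) (nat_lit 373) (nat_lit 306) (nat_lit 221))) (XT.nd (nat_lit 78) (nat_lit 684) (nat_lit 0) (XT.lf (nat_lit 0) (nat_lit 11167324637) (nat_lit 380) (nat_lit 4875931472) (nat_lit 76) (nat_lit 446553639) (nat_lit 95) (nat_lit 5) (nat_lit 100) (nat_lit 5) (nat_lit 96) (nat_lit 5) (nat_lit 374) (nat_lit 306) (nat_lit 220)) (XT.nd (nat_lit 78) (nat_lit 304) (nat_lit 0) (XT.lf (nat_lit 0) (nat_lit 384721180) (nat_lit 380) (nat_lit 7886963701) (nat_lit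 76) (nat_lit 8539320844) (nat_lit 90) (nat_lit 5) (nat_lit 95) (nat_lit 5) (nat_lit 91) (nat_lit 5) (nat_lit 375) (nat_lit 306) (nat_lit 219)) (XT.lf (nat_lit 0) (nat_lit 6052256395) (nat_lit 304) (nat_lit 177236546) (nat_lit 380) (nat_lit 10910874879) (nat_lit 86) (nat_lit 5) (nat_lit 90) (nat_lit 5) (nat_lit 91) (nat_lit 5) (nat_lit 376) (nat_lit 306) (nat_lit 218)))))) (XT.nd (nat_lit 390) (nat_lit 760) (nat_lit 0) (XT.nd (nat_lit 156) (nat_lit 912) (nat_lit 0) (XT.nd (nat_lit 78) (nat_lit 76) (nat_lit 0) (XT.lf (nat_lit 0) (nat_lit 2970143442) (nat_lit 228) (nat_lit 9371737898) (nat_lit 304) (nat_lit 5135890853) (nat_lit 83) (nat_lit 5) (nat_lit 86) (nat_lit 5) (nat_lit 87) (nat_lit 5) (nat_lit 377) (nat_lit 306) (nat_lit 217)) (XT.lf (nat_lit 0) (nat_lit 845128099) (nat_lit 304) (nat_lit 282941898) (nat_lit 76) (nat_lit 16696260978) (nat_lit 82) (nat_lit 5) (nat_lit 86) (nat_lit 5) (nat_lit 83)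 (nat_lit 5) (nat_lit 378) (nat_lit 306) (nat_lit 216))) (XT.nd (nat_lit 78) (nat_lit 608) (nat_lit 0) (XT.lf (nat_lit 0) (nat_lit 7046272833) (nat_lit 380) (nat_lit 3756498818) (nat_lit 76) (nat_lit 7375632829) (nat_lit 78) (nat_lit 5) (nat_lit 83) (nat_lit 5) (nat_lit 79) (nat_lit 5) (nat_lit 379) (nat_lit 306) (nat_lit 215)) (XT.nd (nat_lit 78) (nat_lit 380) (nat_lit 0) (XT.lf (nat_lit 0) (nat_lit 11114729519) (nat_lit 228) (nat_lit 2368432018) (nat_lit 304) (nat_lit 5058950637) (nat_lit 75) (nat_lit 5) (nat_lit 78) (nat_lit 5) (nat_lit 79) (nat_lit 5) (nat_lit 380) (nat_lit 306) (nat_lit 214)) (XT.lf (nat_lit 0) (nat_lit 1265648569) (nat_lit 380) (nat_lit 11349801946) (nat_lit 76) (nat_lit 6299432821) (nat_lit 70) (nat_lit 5) (nat_lit 75) (nat_lit 5) (nat_lit 71) (nat_lit 5) (nat_lit 381) (nat_lit 306) (nat_lit 213))))) (XT.nd (nat_lit 156) (nat_lit 532) (nat_lit 0) (XT.nd (nat_lit 78) (nat_lit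 0) (nat_lit 0) (XT.lf (nat_lit 0) (nat_lit 3759023481) (nat_lit 228) (nat_lit 4012444265) (nat_lit 304) (nat_lit 11525502536) (nat_lit 67) (nat_lit 5) (nat_lit 70) (nat_lit 5) (nat_lit 71) (nat_lit 5) (nat_lit 382) (nat_lit 306) (nat_lit 212)) (XT.lf (nat_lit 0) (nat_lit 14550720976) (nat_lit 304) (nat_lit 295579850) (nat_lit 76) (nat_lit 4842659361) (nat_lit 67) (nat_lit 5) (nat_lit 71) (nat_lit 5) (nat_lit 68) (nat_lit 5) (nat_lit 383) (nat_lit 306) (nat_lit 211))) (XT.nd (nat_lit 78) (nat_lit 228) (nat_lit 0) (XT.lf (nat_lit 0) (nat_lit 1520315685) (nat_lit 304) (nat_lit 4569429460) (nat_lit 76) (nat_lit 14000811488) (nat_lit 63) (nat_lit 5) (nat_lit 67) (nat_lit 5) (nat_lit 64) (nat_lit 5) (nat_lit 384) (nat_lit 306) (nat_lit 210)) (XT.nd (nat_lit 40794) (nat_lit 0) (nat_lit 43852) (XT.lf (nat_lit 0) (nat_lit 8375330822) (nat_lit 304) (nat_lit 9144325705) (nat_lit 76) (nat_lit 2982540048) (nat_lit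 60) (nat_lit 5) (nat_lit 64) (nat_lit 5) (nat_lit 61) (nat_lit 5) (nat_lit 385) (nat_lit 306) (nat_lit 209)) (XT.lf (nat_lit 0) (nat_lit 847014933) (nat_lit 0) (nat_lit 847014933) (nat_lit 684) (nat_lit 1632514246) (nat_lit 637) (nat_lit 5) (nat_lit 637) (nat_lit 3) (nat_lit 646) (nat_lit 3) (nat_lit 307) (nat_lit 307) (nat_lit 286))))))))
noncomputable def xc62 : XT := (XT.nd (nat_lit 1560) (nat_lit 16416) (nat_lit 0) (XT.nd (nat_lit 780) (nat_lit 9196) (nat_lit 0) (XT.nd (nat_lit 390) (nat_lit 2812) (nat_lit 0) (XT.nd (nat_lit 156) (nat_lit 760) (nat_lit 0) (XT.nd (nat_lit 78) (nat_lit 0) (nat_lit 76) (XT.lf (nat_lit 0) (nat_lit 49032020) (nat_lit 836) (nat_lit 168589899) (nat_lit 836) (nat_lit 6467204687) (nat_lit 626) (nat_lit 3) (nat_lit 637) (nat_lit 3) (nat_lit 637) (nat_lit 5) (nat_lit 308) (nat_lit 307) (nat_lit 285)) (XT.lf (nat_lit 0) (nat_lit 3328849374) (nat_lit 760) (nat_lit 1988550524)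 (nat_lit 836) (nat_lit 1401553557) (nat_lit 627) (nat_lit 5) (nat_lit 637) (nat_lit 5) (nat_lit 638) (nat_lit 5) (nat_lit 309) (nat_lit 307) (nat_lit 284))) (XT.nd (nat_lit 78) (nat_lit 836) (nat_lit 0) (XT.lf (nat_lit 76) (nat_lit 2994359375) (nat_lit 0) (nat_lit 3608943163) (nat_lit 836) (nat_lit 152956198) (nat_lit 628) (nat_lit 5) (nat_lit 627) (nat_lit 5) (nat_lit 638) (nat_lit 5) (nat_lit 310) (nat_lit 307) (nat_lit 283)) (XT.nd (nat_lit 78) (nat_lit 0) (nat_lit 76) (XT.lf (nat_lit 76) (nat_lit 1287044159) (nat_lit 0) (nat_lit 1750995541) (nat_lit 912) (nat_lit 3758336854) (nat_lit 617) (nat_lit 5) (nat_lit 616) (nat_lit 5) (nat_lit 628) (nat_lit 5) (nat_lit 311) (nat_lit 307) (nat_lit 282)) (XT.lf (nat_lit 0) (nat_lit 6229452640) (nat_lit 836) (nat_lit 370848683) (nat_lit 912) (nat_lit 239314480) (nat_lit 617) (nat_lit 5) (nat_lit 628) (nat_lit 5) (nat_lit 629) (nat_lit 5) (nat_lit 312) (nat_lit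 307) (nat_lit 281))))) (XT.nd (nat_lit 156) (nat_lit 1976) (nat_lit 0) (XT.nd (nat_lit 78) (nat_lit 0) (nat_lit 0) (XT.lf (nat_lit 0) (nat_lit 2524471394) (nat_lit 912) (nat_lit 1996178294) (nat_lit 988) (nat_lit 2364699777) (nat_lit 605) (nat_lit 5) (nat_lit 617) (nat_lit 5) (nat_lit 618) (nat_lit 5) (nat_lit 313) (nat_lit 307) (nat_lit 280)) (XT.lf (nat_lit 76) (nat_lit 3350719517) (nat_lit 0) (nat_lit 2304134203) (nat_lit 988) (nat_lit 1279388634) (nat_lit 606) (nat_lit 5) (nat_lit 605) (nat_lit 5) (nat_lit 618) (nat_lit 5) (nat_lit 314) (nat_lit 307) (nat_lit 279))) (XT.nd (nat_lit 78) (nat_lit 1064) (nat_lit 0) (XT.lf (nat_lit 0) (nat_lit 1783431377) (nat_lit 988) (nat_lit 5142973373) (nat_lit 1064) (nat_lit 59741184) (nat_lit 593) (nat_lit 5) (nat_lit 606) (nat_lit 5) (nat_lit 607) (nat_lit 5) (nat_lit 315) (nat_lit 307) (nat_lit 278)) (XT.nd (nat_lit 78) (nat_lit 1064) (nat_lit 0) (XT.lf (nat_lit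 76) (nat_lit 352468994) (nat_lit 0) (nat_lit 4501374774) (nat_lit 1064) (nat_lit 2186994625) (nat_lit 594) (nat_lit 5) (nat_lit 593) (nat_lit 5) (nat_lit 607) (nat_lit 5) (nat_lit 316) (nat_lit 307) (nat_lit 277)) (XT.lf (nat_lit 0) (nat_lit 835035286) (nat_lit 1064) (nat_lit 1090467245) (nat_lit 1140) (nat_lit 5173051539) (nat_lit 579) (nat_lit 5) (nat_lit 593) (nat_lit 5) (nat_lit 594) (nat_lit 5) (nat_lit 317) (nat_lit 307) (nat_lit 276)))))) (XT.nd (nat_lit 390) (nat_lit 6992) (nat_lit 0) (XT.nd (nat_lit 156) (nat_lit 2280) (nat_lit 0) (XT.nd (nat_lit 78) (nat_lit 0) (nat_lit 0) (XT.lf (nat_lit 0) (nat_lit 3849576474) (nat_lit 1064) (nat_lit 2511622847) (nat_lit 1140) (nat_lit 797939457) (nat_lit 580) (nat_lit 5) (nat_lit 594) (nat_lit 5) (nat_lit 595) (nat_lit 5) (nat_lit 318) (nat_lit 307) (nat_lit 275)) (XT.lf (nat_lit 76) (nat_lit 3311592384) (nat_lit 0) (nat_lit 3583521818) (nat_lit 1140)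 (nat_lit 327671873) (nat_lit 581) (nat_lit 5) (nat_lit 580) (nat_lit 5) (nat_lit 595) (nat_lit 5) (nat_lit 319) (nat_lit 307) (nat_lit 274))) (XT.nd (nat_lit 78) (nat_lit 1140) (nat_lit 0) (XT.lf (nat_lit 76) (nat_lit 1993779207) (nat_lit 0) (nat_lit 644527375) (nat_lit 1216) (nat_lit 4651121177) (nat_lit 566) (nat_lit 5) (nat_lit 565) (nat_lit 5) (nat_lit 581) (nat_lit 5) (nat_lit 320) (nat_lit 307) (nat_lit 273)) (XT.nd (nat_lit 78) (nat_lit 76) (nat_lit 0) (XT.lf (nat_lit 0) (nat_lit 691779759) (nat_lit 1140) (nat_lit 4946864764) (nat_lit 1216) (nat_lit 1720436200) (nat_lit 551) (nat_lit 5) (nat_lit 566) (nat_lit 5) (nat_lit 567) (nat_lit 5) (nat_lit 321) (nat_lit 307) (nat_lit 272)) (XT.lf (nat_lit 0) (nat_lit 1226432041) (nat_lit 1216) (nat_lit 583275974) (nat_lit 76) (nat_lit 5622090402) (nat_lit 550) (nat_lit 5) (nat_lit 566) (nat_lit 5) (nat_lit 551) (nat_lit 5) (nat_lit 322) (nat_lit 307)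 (nat_lit 271))))) (XT.nd (nat_lit 156) (nat_lit 4484) (nat_lit 0) (XT.nd (nat_lit 78) (nat_lit 1292) (nat_lit 0) (XT.lf (nat_lit 0) (nat_lit 4192648794) (nat_lit 1292) (nat_lit 1840537985) (nat_lit 76) (nat_lit 1474245134) (nat_lit 534) (nat_lit 5) (nat_lit 551) (nat_lit 5) (nat_lit 535) (nat_lit 5) (nat_lit 323) (nat_lit 307) (nat_lit 270)) (XT.lf (nat_lit 0) (nat_lit 4503945011) (nat_lit 1292) (nat_lit 2699246056) (nat_lit 1368) (nat_lit 383083208) (nat_lit 517) (nat_lit 5) (nat_lit 534) (nat_lit 5) (nat_lit 535) (nat_lit 5) (nat_lit 324) (nat_lit 307) (nat_lit 269))) (XT.nd (nat_lit 78) (nat_lit 3040) (nat_lit 0) (XT.lf (nat_lit 0) (nat_lit 2553103399) (nat_lit 1444) (nat_lit 4320368254) (nat_lit 76) (nat_lit 794689987) (nat_lit 498) (nat_lit 5) (nat_lit 517) (nat_lit 5) (nat_lit 499) (nat_lit 5) (nat_lit 325) (nat_lit 307) (nat_lit 268)) (XT.nd (nat_lit 78) (nat_lit 1596) (nat_lit 0) (XT.lf (nat_lit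 0) (nat_lit 2197885808) (nat_lit 1444) (nat_lit 3341459654) (nat_lit 1520) (nat_lit 2213809133) (nat_lit 479) (nat_lit 5) (nat_lit 498) (nat_lit 5) (nat_lit 499) (nat_lit 5) (nat_lit 326) (nat_lit 307) (nat_lit 267)) (XT.lf (nat_lit 0) (nat_lit 718271099) (nat_lit 1596) (nat_lit 6775514680) (nat_lit 76) (nat_lit 347772996) (nat_lit 458) (nat_lit 5) (nat_lit 479) (nat_lit 5) (nat_lit 459) (nat_lit 5) (nat_lit 327) (nat_lit 307) (nat_lit 266))))))) (XT.nd (nat_lit 780) (nat_lit 6688) (nat_lit 0) (XT.nd (nat_lit 390) (nat_lit 3572) (nat_lit 0) (XT.nd (nat_lit 156) (nat_lit 4560) (nat_lit 0) (XT.nd (nat_lit 78) (nat_lit 1596) (nat_lit 0) (XT.lf (nat_lit 0) (nat_lit 3686000773) (nat_lit 1596) (nat_lit 78973000) (nat_lit 76) (nat_lit 4167833193) (nat_lit 458) (nat_lit 5) (nat_lit 479) (nat_lit 5) (nat_lit 459) (nat_lit 5) (nat_lit 328) (nat_lit 307) (nat_lit 265)) (XT.lf (nat_lit 0) (nat_lit 6707777009)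 (nat_lit 1672) (nat_lit 1189908258) (nat_lit 76) (nat_lit 129845713) (nat_lit 437) (nat_lit 5) (nat_lit 459) (nat_lit 5) (nat_lit 438) (nat_lit 5) (nat_lit 329) (nat_lit 307) (nat_lit 264))) (XT.nd (nat_lit 78) (nat_lit 2812) (nat_lit 0) (XT.lf (nat_lit 0) (nat_lit 1657954675) (nat_lit 1748) (nat_lit 2317692403) (nat_lit 76) (nat_lit 4149564800) (nat_lit 414) (nat_lit 5) (nat_lit 437) (nat_lit 5) (nat_lit 415) (nat_lit 5) (nat_lit 330) (nat_lit 307) (nat_lit 263)) (XT.nd (nat_lit 78) (nat_lit 1064) (nat_lit 0) (XT.lf (nat_lit 0) (nat_lit 4670162877) (nat_lit 1824) (nat_lit 3437904603) (nat_lit 76) (nat_lit 118355015) (nat_lit 391) (nat_lit 5) (nat_lit 415) (nat_lit 5) (nat_lit 392) (nat_lit 5) (nat_lit 331) (nat_lit 307) (nat_lit 262)) (XT.lf (nat_lit 0) (nat_lit 3761365524) (nat_lit 1064) (nat_lit 4003030229) (nat_lit 1140) (nat_lit 566475205) (nat_lit 377) (nat_lit 5) (nat_lit 391) (nat_lit 5) (nat_lit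 392) (nat_lit 5) (nat_lit 332) (nat_lit 307) (nat_lit 261))))) (XT.nd (nat_lit 156) (nat_lit 1748) (nat_lit 0) (XT.nd (nat_lit 78) (nat_lit 836) (nat_lit 0) (XT.lf (nat_lit 0) (nat_lit 2449175399) (nat_lit 988) (nat_lit 5706028986) (nat_lit 76) (nat_lit 283572570) (nat_lit 364) (nat_lit 5) (nat_lit 377) (nat_lit 5) (nat_lit 365) (nat_lit 5) (nat_lit 333) (nat_lit 307) (nat_lit 260)) (XT.lf (nat_lit 0) (nat_lit 1687907200) (nat_lit 836) (nat_lit 3856417190) (nat_lit 912) (nat_lit 3005618415) (nat_lit 353) (nat_lit 5) (nat_lit 364) (nat_lit 5) (nat_lit 365) (nat_lit 5) (nat_lit 334) (nat_lit 307) (nat_lit 259))) (XT.nd (nat_lit 78) (nat_lit 836) (nat_lit 0) (XT.lf (nat_lit 0) (nat_lit 43108220) (nat_lit 912) (nat_lit 8013638932) (nat_lit 76) (nat_lit 608195895) (nat_lit 341) (nat_lit 5) (nat_lit 353) (nat_lit 5) (nat_lit 342) (nat_lit 5) (nat_lit 335) (nat_lit 307) (nat_lit 258)) (XT.nd (nat_lit 78)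 (nat_lit 836) (nat_lit 0) (XT.lf (nat_lit 0) (nat_lit 3145846297) (nat_lit 912) (nat_lit 415570366) (nat_lit 76) (nat_lit 5221541237) (nat_lit 341) (nat_lit 5) (nat_lit 353) (nat_lit 5) (nat_lit 342) (nat_lit 5) (nat_lit 336) (nat_lit 307) (nat_lit 257)) (XT.lf (nat_lit 0) (nat_lit 6329793956) (nat_lit 912) (nat_lit 1472985622) (nat_lit 76) (nat_lit 1101999838) (nat_lit 330) (nat_lit 5) (nat_lit 342) (nat_lit 5) (nat_lit 331) (nat_lit 5) (nat_lit 337) (nat_lit 307) (nat_lit 256)))))) (XT.nd (nat_lit 390) (nat_lit 2736) (nat_lit 0) (XT.nd (nat_lit 156) (nat_lit 2280) (nat_lit 0) (XT.nd (nat_lit 78) (nat_lit 760) (nat_lit 0) (XT.lf (nat_lit 0) (nat_lit 574229959) (nat_lit 912) (nat_lit 2551792267) (nat_lit 76) (nat_lit 5904129163) (nat_lit 318) (nat_lit 5) (nat_lit 330) (nat_lit 5) (nat_lit 319) (nat_lit 5) (nat_lit 338) (nat_lit 307) (nat_lit 255)) (XT.lf (nat_lit 0) (nat_lit 3775482281) (nat_lit 836)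 (nat_lit 3655149900) (nat_lit 76) (nat_lit 1728487622) (nat_lit 308) (nat_lit 5) (nat_lit 319) (nat_lit 5) (nat_lit 309) (nat_lit 5) (nat_lit 339) (nat_lit 307) (nat_lit 254))) (XT.nd (nat_lit 78) (nat_lit 1520) (nat_lit 0) (XT.lf (nat_lit 0) (nat_lit 4513949553) (nat_lit 760) (nat_lit 2562979393) (nat_lit 836) (nat_lit 2214970998) (nat_lit 298) (nat_lit 5) (nat_lit 308) (nat_lit 5) (nat_lit 309) (nat_lit 5) (nat_lit 340) (nat_lit 307) (nat_lit 253)) (XT.nd (nat_lit 78) (nat_lit 760) (nat_lit 0) (XT.lf (nat_lit 0) (nat_lit 1036533821) (nat_lit 760) (nat_lit 5924585225) (nat_lit 76) (nat_lit 2467402164) (nat_lit 288) (nat_lit 5) (nat_lit 298) (nat_lit 5) (nat_lit 289) (nat_lit 5) (nat_lit 341) (nat_lit 307) (nat_lit 252)) (XT.lf (nat_lit 0) (nat_lit 2462434459) (nat_lit 760) (nat_lit 1897796436) (nat_lit 836) (nat_lit 5208646456) (nat_lit 278) (nat_lit 5) (nat_lit 288) (nat_lit 5) (nat_lit 289) (nat_lit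 5) (nat_lit 342) (nat_lit 307) (nat_lit 251))))) (XT.nd (nat_lit 156) (nat_lit 1292) (nat_lit 0) (XT.nd (nat_lit 78) (nat_lit 760) (nat_lit 0) (XT.lf (nat_lit 0) (nat_lit 1397206696) (nat_lit 684) (nat_lit 6397595682) (nat_lit 760) (nat_lit 1918441683) (nat_lit 269) (nat_lit 5) (nat_lit 278) (nat_lit 5) (nat_lit 279) (nat_lit 5) (nat_lit 343) (nat_lit 307) (nat_lit 250)) (XT.lf (nat_lit 0) (nat_lit 305183984) (nat_lit 684) (nat_lit 1150181147) (nat_lit 760) (nat_lit 8406324109) (nat_lit 259) (nat_lit 5) (nat_lit 268) (nat_lit 5) (nat_lit 269) (nat_lit 5) (nat_lit 344) (nat_lit 307) (nat_lit 249))) (XT.nd (nat_lit 78) (nat_lit 1292) (nat_lit 0) (XT.lf (nat_lit 0) (nat_lit 4931070695) (nat_lit 760) (nat_lit 823936731) (nat_lit 76) (nat_lit 4258813157) (nat_lit 259) (nat_lit 5) (nat_lit 269) (nat_lit 5) (nat_lit 260) (nat_lit 5) (nat_lit 345) (nat_lit 307) (nat_lit 248)) (XT.nd (nat_lit 78) (nat_lit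 684) (nat_lit 0) (XT.lf (nat_lit 0) (nat_lit 8203987152) (nat_lit 608) (nat_lit 311950524) (nat_lit 684) (nat_lit 1654501161) (nat_lit 251) (nat_lit 5) (nat_lit 259) (nat_lit 5) (nat_lit 260) (nat_lit 5) (nat_lit 346) (nat_lit 307) (nat_lit 247)) (XT.lf (nat_lit 0) (nat_lit 1883828616) (nat_lit 684) (nat_lit 3167951974) (nat_lit 76) (nat_lit 5279114231) (nat_lit 242) (nat_lit 5) (nat_lit 251) (nat_lit 5) (nat_lit 243) (nat_lit 5) (nat_lit 347) (nat_lit 307) (nat_lit 246))))))))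
noncomputable def xc63 : XT := (XT.nd (nat_lit 1560) (nat_lit 4408) (nat_lit 0) (XT.nd (nat_lit 780) (nat_lit 4028) (nat_lit 0) (XT.nd (nat_lit 390) (nat_lit 2128) (nat_lit 0) (XT.nd (nat_lit 156) (nat_lit 1748) (nat_lit 0) (XT.nd (nat_lit 78) (nat_lit 608) (nat_lit 0) (XT.lf (nat_lit 0) (nat_lit 5510757415) (nat_lit 684) (nat_lit 4401961803) (nat_lit 76) (nat_lit 583147195) (nat_lit 234) (nat_lit 5) (nat_lit 243) (nat_lit 5) (nat_lit 235) (nat_lit 5) (nat_lit 348) (nat_lit 307) (nat_lit 245)) (XT.lf (nat_lit 0) (nat_lit 4976887714) (nat_lit 608) (nat_lit 4304259609) (nat_lit 684) (nat_lit 1383965404) (nat_lit 226) (nat_lit 5) (nat_lit 234) (nat_lit 5) (nat_lit 235) (nat_lit 5) (nat_lit 349) (nat_lit 307) (nat_lit 244))) (XT.nd (nat_lit 78) (nat_lit 1140) (nat_lit 0) (XT.lf (nat_lit 0) (nat_lit 2307240538) (nat_lit 608) (nat_lit 7021335075) (nat_lit 76) (nat_lit 1510326152) (nat_lit 218) (nat_lit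 5) (nat_lit 226) (nat_lit 5) (nat_lit 219) (nat_lit 5) (nat_lit 350) (nat_lit 307) (nat_lit 243)) (XT.nd (nat_lit 78) (nat_lit 532) (nat_lit 0) (XT.lf (nat_lit 0) (nat_lit 2599447422) (nat_lit 608) (nat_lit 3524226529) (nat_lit 684) (nat_lit 4893398908) (nat_lit 210) (nat_lit 5) (nat_lit 218) (nat_lit 5) (nat_lit 219) (nat_lit 5) (nat_lit 351) (nat_lit 307) (nat_lit 242)) (XT.lf (nat_lit 0) (nat_lit 1341192355) (nat_lit 532) (nat_lit 8735650169) (nat_lit 608) (nat_lit 1123318443) (nat_lit 203) (nat_lit 5) (nat_lit 210) (nat_lit 5) (nat_lit 211) (nat_lit 5) (nat_lit 352) (nat_lit 307) (nat_lit 241))))) (XT.nd (nat_lit 156) (nat_lit 1520) (nat_lit 0) (XT.nd (nat_lit 78) (nat_lit 0) (nat_lit 0) (XT.lf (nat_lit 0) (nat_lit 13623910) (nat_lit 532) (nat_lit 2741529416) (nat_lit 608) (nat_lit 8632616231) (nat_lit 195) (nat_lit 5) (nat_lit 202) (nat_lit 5) (nat_lit 203) (nat_lit 5) (nat_lit 353) (nat_lit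 307) (nat_lit 240)) (XT.lf (nat_lit 0) (nat_lit 6775678640) (nat_lit 608) (nat_lit 1357480953) (nat_lit 76) (nat_lit 3446894547) (nat_lit 195) (nat_lit 5) (nat_lit 203) (nat_lit 5) (nat_lit 196) (nat_lit 5) (nat_lit 354) (nat_lit 307) (nat_lit 239))) (XT.nd (nat_lit 78) (nat_lit 1064) (nat_lit 0) (XT.lf (nat_lit 0) (nat_lit 8996312928) (nat_lit 456) (nat_lit 1950006420) (nat_lit 532) (nat_lit 831212924) (nat_lit 189) (nat_lit 5) (nat_lit 195) (nat_lit 5) (nat_lit 196) (nat_lit 5) (nat_lit 355) (nat_lit 307) (nat_lit 238)) (XT.nd (nat_lit 78) (nat_lit 456) (nat_lit 0) (XT.lf (nat_lit 0) (nat_lit 3260256602) (nat_lit 608) (nat_lit 4293512364) (nat_lit 76) (nat_lit 4425918941) (nat_lit 181) (nat_lit 5) (nat_lit 189) (nat_lit 5) (nat_lit 182) (nat_lit 5) (nat_lit 356) (nat_lit 307) (nat_lit 237)) (XT.lf (nat_lit 0) (nat_lit 6319849960) (nat_lit 456) (nat_lit 1170697778) (nat_lit 532) (nat_lit 4696717045)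 (nat_lit 175) (nat_lit 5) (nat_lit 181) (nat_lit 5) (nat_lit 182) (nat_lit 5) (nat_lit 357) (nat_lit 307) (nat_lit 236)))))) (XT.nd (nat_lit 390) (nat_lit 2128) (nat_lit 0) (XT.nd (nat_lit 156) (nat_lit 912) (nat_lit 0) (XT.nd (nat_lit 78) (nat_lit 532) (nat_lit 0) (XT.lf (nat_lit 0) (nat_lit 4876341001) (nat_lit 456) (nat_lit 7022526436) (nat_lit 532) (nat_lit 501192593) (nat_lit 169) (nat_lit 5) (nat_lit 175) (nat_lit 5) (nat_lit 176) (nat_lit 5) (nat_lit 358) (nat_lit 307) (nat_lit 235)) (XT.lf (nat_lit 0) (nat_lit 3353543160) (nat_lit 456) (nat_lit 441870402) (nat_lit 532) (nat_lit 8822835950) (nat_lit 162) (nat_lit 5) (nat_lit 168) (nat_lit 5) (nat_lit 169) (nat_lit 5) (nat_lit 359) (nat_lit 307) (nat_lit 234))) (XT.nd (nat_lit 78) (nat_lit 456) (nat_lit 0) (XT.lf (nat_lit 0) (nat_lit 1734475940) (nat_lit 456) (nat_lit 6539868433) (nat_lit 532) (nat_lit 4567381773) (nat_lit 156) (nat_lit 5) (nat_lit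 162) (nat_lit 5) (nat_lit 163) (nat_lit 5) (nat_lit 360) (nat_lit 307) (nat_lit 233)) (XT.nd (nat_lit 78) (nat_lit 76) (nat_lit 0) (XT.lf (nat_lit 0) (nat_lit 54723948) (nat_lit 380) (nat_lit 12857744283) (nat_lit 456) (nat_lit 158954424) (nat_lit 151) (nat_lit 5) (nat_lit 156) (nat_lit 5) (nat_lit 157) (nat_lit 5) (nat_lit 361) (nat_lit 307) (nat_lit 232)) (XT.lf (nat_lit 0) (nat_lit 4401556796) (nat_lit 456) (nat_lit 1736506647) (nat_lit 76) (nat_lit 7167843168) (nat_lit 150) (nat_lit 5) (nat_lit 156) (nat_lit 5) (nat_lit 151) (nat_lit 5) (nat_lit 362) (nat_lit 307) (nat_lit 231))))) (XT.nd (nat_lit 156) (nat_lit 1216) (nat_lit 0) (XT.nd (nat_lit 78) (nat_lit 456) (nat_lit 0) (XT.lf (nat_lit 0) (nat_lit 9125783552) (nat_lit 532) (nat_lit 3599928605) (nat_lit 76) (nat_lit 821121879) (nat_lit 144) (nat_lit 5) (nat_lit 151) (nat_lit 5) (nat_lit 145) (nat_lit 5) (nat_lit 363) (nat_lit 307) (nat_lit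 230)) (XT.lf (nat_lit 0) (nat_lit 260567063) (nat_lit 456) (nat_lit 5577787657) (nat_lit 76) (nat_lit 7955291649) (nat_lit 138) (nat_lit 5) (nat_lit 144) (nat_lit 5) (nat_lit 139) (nat_lit 5) (nat_lit 364) (nat_lit 307) (nat_lit 229))) (XT.nd (nat_lit 78) (nat_lit 836) (nat_lit 0) (XT.lf (nat_lit 0) (nat_lit 5057827980) (nat_lit 456) (nat_lit 7671866612) (nat_lit 76) (nat_lit 1316889139) (nat_lit 133) (nat_lit 5) (nat_lit 139) (nat_lit 5) (nat_lit 134) (nat_lit 5) (nat_lit 365) (nat_lit 307) (nat_lit 228)) (XT.nd (nat_lit 78) (nat_lit 456) (nat_lit 0) (XT.lf (nat_lit 0) (nat_lit 4416237665) (nat_lit 380) (nat_lit 5649448303) (nat_lit 456) (nat_lit 4240099676) (nat_lit 128) (nat_lit 5) (nat_lit 133) (nat_lit 5) (nat_lit 134) (nat_lit 5) (nat_lit 366) (nat_lit 307) (nat_lit 227)) (XT.lf (nat_lit 0) (nat_lit 682629735) (nat_lit 456) (nat_lit 12214112655) (nat_lit 76) (nat_lit 1675143180) (nat_lit 122)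 (nat_lit 5) (nat_lit 128) (nat_lit 5) (nat_lit 123) (nat_lit 5) (nat_lit 367) (nat_lit 307) (nat_lit 226))))))) (XT.nd (nat_lit 780) (nat_lit 1672) (nat_lit 0) (XT.nd (nat_lit 390) (nat_lit 1368) (nat_lit 0) (XT.nd (nat_lit 156) (nat_lit 1064) (nat_lit 0) (XT.nd (nat_lit 78) (nat_lit 0) (nat_lit 0) (XT.lf (nat_lit 0) (nat_lit 141060157) (nat_lit 304) (nat_lit 5622907782) (nat_lit 380) (nat_lit 9080078606) (nat_lit 118) (nat_lit 5) (nat_lit 122) (nat_lit 5) (nat_lit 123) (nat_lit 5) (nat_lit 368) (nat_lit 307) (nat_lit 225)) (XT.lf (nat_lit 0) (nat_lit 11055859788) (nat_lit 380) (nat_lit 2158484659) (nat_lit 76) (nat_lit 1908874614) (nat_lit 118) (nat_lit 5) (nat_lit 123) (nat_lit 5) (nat_lit 119) (nat_lit 5) (nat_lit 369) (nat_lit 307) (nat_lit 224))) (XT.nd (nat_lit 78) (nat_lit 608) (nat_lit 0) (XT.lf (nat_lit 0) (nat_lit 1153381795) (nat_lit 456) (nat_lit 4605890388) (nat_lit 76) (nat_lit 9649920617)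 (nat_lit 112) (nat_lit 5) (nat_lit 118) (nat_lit 5) (nat_lit 113) (nat_lit 5) (nat_lit 370) (nat_lit 307) (nat_lit 223)) (XT.nd (nat_lit 78) (nat_lit 304) (nat_lit 0) (XT.lf (nat_lit 0) (nat_lit 6522960504) (nat_lit 380) (nat_lit 7206247591) (nat_lit 76) (nat_lit 1973058757) (nat_lit 108) (nat_lit 5) (nat_lit 113) (nat_lit 5) (nat_lit 109) (nat_lit 5) (nat_lit 371) (nat_lit 307) (nat_lit 222)) (XT.lf (nat_lit 0) (nat_lit 6036195760) (nat_lit 304) (nat_lit 6091329067) (nat_lit 380) (nat_lit 3875138394) (nat_lit 104) (nat_lit 5) (nat_lit 108) (nat_lit 5) (nat_lit 109) (nat_lit 5) (nat_lit 372) (nat_lit 307) (nat_lit 221))))) (XT.nd (nat_lit 156) (nat_lit 684) (nat_lit 0) (XT.nd (nat_lit 78) (nat_lit 304) (nat_lit 0) (XT.lf (nat_lit 0) (nat_lit 1615997396) (nat_lit 380) (nat_lit 12879448512) (nat_lit 76) (nat_lit 1815453583) (nat_lit 99) (nat_lit 5) (nat_lit 104) (nat_lit 5) (nat_lit 100) (nat_lit 5)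 (nat_lit 373) (nat_lit 307) (nat_lit 220)) (XT.lf (nat_lit 0) (nat_lit 627797959) (nat_lit 304) (nat_lit 6670270915) (nat_lit 380) (nat_lit 9328232142) (nat_lit 95) (nat_lit 5) (nat_lit 99) (nat_lit 5) (nat_lit 100) (nat_lit 5) (nat_lit 374) (nat_lit 307) (nat_lit 219))) (XT.nd (nat_lit 78) (nat_lit 684) (nat_lit 0) (XT.lf (nat_lit 0) (nat_lit 13213758291) (nat_lit 380) (nat_lit 2296172997) (nat_lit 76) (nat_lit 1439977413) (nat_lit 95) (nat_lit 5) (nat_lit 100) (nat_lit 5) (nat_lit 96) (nat_lit 5) (nat_lit 375) (nat_lit 307) (nat_lit 218)) (XT.nd (nat_lit 78) (nat_lit 304) (nat_lit 0) (XT.lf (nat_lit 0) (nat_lit 2086712573) (nat_lit 380) (nat_lit 5418948325) (nat_lit 76) (nat_lit 9775516622) (nat_lit 90) (nat_lit 5) (nat_lit 95) (nat_lit 5) (nat_lit 91) (nat_lit 5) (nat_lit 376) (nat_lit 307) (nat_lit 217)) (XT.lf (nat_lit 0) (nat_lit 8080188461) (nat_lit 380) (nat_lit 8731822871) (nat_lit 76) (nat_lit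 808952102) (nat_lit 86) (nat_lit 5) (nat_lit 91) (nat_lit 5) (nat_lit 87) (nat_lit 5) (nat_lit 377) (nat_lit 307) (nat_lit 216)))))) (XT.nd (nat_lit 390) (nat_lit 456) (nat_lit 0) (XT.nd (nat_lit 156) (nat_lit 608) (nat_lit 0) (XT.nd (nat_lit 78) (nat_lit 380) (nat_lit 0) (XT.lf (nat_lit 0) (nat_lit 5703388888) (nat_lit 228) (nat_lit 8642417373) (nat_lit 304) (nat_lit 3623296403) (nat_lit 83) (nat_lit 5) (nat_lit 86) (nat_lit 5) (nat_lit 87) (nat_lit 5) (nat_lit 378) (nat_lit 307) (nat_lit 215)) (XT.lf (nat_lit 0) (nat_lit 2327761675) (nat_lit 304) (nat_lit 154738963) (nat_lit 380) (nat_lit 15844006427) (nat_lit 78) (nat_lit 5) (nat_lit 82) (nat_lit 5) (nat_lit 83) (nat_lit 5) (nat_lit 379) (nat_lit 307) (nat_lit 214))) (XT.nd (nat_lit 78) (nat_lit 608) (nat_lit 0) (XT.lf (nat_lit 0) (nat_lit 8830950274) (nat_lit 380) (nat_lit 1297247146) (nat_lit 76) (nat_lit 8563789075) (nat_lit 78) (nat_lit 5)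 (nat_lit 83) (nat_lit 5) (nat_lit 79) (nat_lit 5) (nat_lit 380) (nat_lit 307) (nat_lit 213)) (XT.nd (nat_lit 78) (nat_lit 380) (nat_lit 0) (XT.lf (nat_lit 0) (nat_lit 13978391264) (nat_lit 228) (nat_lit 1453158283) (nat_lit 304) (nat_lit 3635652659) (nat_lit 75) (nat_lit 5) (nat_lit 78) (nat_lit 5) (nat_lit 79) (nat_lit 5) (nat_lit 381) (nat_lit 307) (nat_lit 212)) (XT.lf (nat_lit 0) (nat_lit 2835439358) (nat_lit 380) (nat_lit 9156120026) (nat_lit 76) (nat_lit 7459852786) (nat_lit 70) (nat_lit 5) (nat_lit 75) (nat_lit 5) (nat_lit 71) (nat_lit 5) (nat_lit 382) (nat_lit 307) (nat_lit 211))))) (XT.nd (nat_lit 41106) (nat_lit 0) (nat_lit 41876) (XT.nd (nat_lit 78) (nat_lit 228) (nat_lit 0) (XT.lf (nat_lit 0) (nat_lit 6364856169) (nat_lit 228) (nat_lit 3143147398) (nat_lit 304) (nat_lit 10337534939) (nat_lit 67) (nat_lit 5) (nat_lit 70) (nat_lit 5) (nat_lit 71) (nat_lit 5) (nat_lit 383) (nat_lit 307) (nat_lit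 210)) (XT.nd (nat_lit 40950) (nat_lit 0) (nat_lit 42712) (XT.lf (nat_lit 0) (nat_lit 2167649116) (nat_lit 228) (nat_lit 14299509425) (nat_lit 304) (nat_lit 3782607038) (nat_lit 64) (nat_lit 5) (nat_lit 67) (nat_lit 5) (nat_lit 68) (nat_lit 5) (nat_lit 384) (nat_lit 307) (nat_lit 209)) (XT.lf (nat_lit 0) (nat_lit 1628225790) (nat_lit 836) (nat_lit 865251533) (nat_lit 836) (nat_lit 865251533) (nat_lit 626) (nat_lit 3) (nat_lit 637) (nat_lit 3) (nat_lit 637) (nat_lit 5) (nat_lit 308) (nat_lit 308) (nat_lit 284)))) (XT.nd (nat_lit 78) (nat_lit 836) (nat_lit 0) (XT.lf (nat_lit 76) (nat_lit 3125098191) (nat_lit 0) (nat_lit 3329505532) (nat_lit 836) (nat_lit 298653284) (nat_lit 627) (nat_lit 5) (nat_lit 626) (nat_lit 3) (nat_lit 637) (nat_lit 5) (nat_lit 309) (nat_lit 308) (nat_lit 283)) (XT.nd (nat_lit 78) (nat_lit 0) (nat_lit 76) (XT.lf (nat_lit 76) (nat_lit 1292967986) (nat_lit 0) (nat_lit 1523584627)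 (nat_lit 912) (nat_lit 3975333415) (nat_lit 616) (nat_lit 5) (nat_lit 615) (nat_lit 5) (nat_lit 627) (nat_lit 5) (nat_lit 310) (nat_lit 308) (nat_lit 282)) (XT.lf (nat_lit 0) (nat_lit 5928245910) (nat_lit 836) (nat_lit 490789857) (nat_lit 912) (nat_lit 414530318) (nat_lit 616) (nat_lit 5) (nat_lit 627) (nat_lit 5) (nat_lit 628) (nat_lit 5) (nat_lit 311) (nat_lit 308) (nat_lit 281))))))))
noncomputable def xc64 : XT := (XT.nd (nat_lit 1560) (nat_lit 13148) (nat_lit 0) (XT.nd (nat_lit 780) (nat_lit 12008) (nat_lit 0) (XT.nd (nat_lit 390) (nat_lit 2204) (nat_lit 0) (XT.nd (nat_lit 156) (nat_lit 1976) (nat_lit 0) (XT.nd (nat_lit 78) (nat_lit 0) (nat_lit 0) (XT.lf (nat_lit 0) (nat_lit 2150649292) (nat_lit 912) (nat_lit 2238521440) (nat_lit 988) (nat_lit 2488633561) (nat_lit 604) (nat_lit 5) (nat_lit 616) (nat_lit 5) (nat_lit 617) (nat_lit 5) (nat_lit 312) (nat_lit 308) (nat_lit 280)) (XT.lf (nat_lit 76)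 (nat_lit 2974356916) (nat_lit 0) (nat_lit 2220151196) (nat_lit 988) (nat_lit 1730639502) (nat_lit 605) (nat_lit 5) (nat_lit 604) (nat_lit 5) (nat_lit 617) (nat_lit 5) (nat_lit 313) (nat_lit 308) (nat_lit 279))) (XT.nd (nat_lit 78) (nat_lit 1064) (nat_lit 0) (XT.lf (nat_lit 0) (nat_lit 1250480623) (nat_lit 988) (nat_lit 5632541482) (nat_lit 1064) (nat_lit 92527852) (nat_lit 592) (nat_lit 5) (nat_lit 605) (nat_lit 5) (nat_lit 606) (nat_lit 5) (nat_lit 314) (nat_lit 308) (nat_lit 278)) (XT.nd (nat_lit 78) (nat_lit 1064) (nat_lit 0) (XT.lf (nat_lit 0) (nat_lit 4230475454) (nat_lit 988) (nat_lit 271041670) (nat_lit 1064) (nat_lit 2527122083) (nat_lit 592) (nat_lit 5) (nat_lit 605) (nat_lit 5) (nat_lit 606) (nat_lit 5) (nat_lit 315) (nat_lit 308) (nat_lit 277)) (XT.lf (nat_lit 0) (nat_lit 141490349) (nat_lit 1064) (nat_lit 1830781282) (nat_lit 1140) (nat_lit 5112525434) (nat_lit 578) (nat_lit 5) (nat_lit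 592) (nat_lit 5) (nat_lit 593) (nat_lit 5) (nat_lit 316) (nat_lit 308) (nat_lit 276))))) (XT.nd (nat_lit 156) (nat_lit 2280) (nat_lit 0) (XT.nd (nat_lit 78) (nat_lit 0) (nat_lit 0) (XT.lf (nat_lit 0) (nat_lit 3058643999) (nat_lit 1064) (nat_lit 3377502097) (nat_lit 1140) (nat_lit 707635070) (nat_lit 579) (nat_lit 5) (nat_lit 593) (nat_lit 5) (nat_lit 594) (nat_lit 5) (nat_lit 317) (nat_lit 308) (nat_lit 275)) (XT.lf (nat_lit 76) (nat_lit 2302052297) (nat_lit 0) (nat_lit 3700849576) (nat_lit 1140) (nat_lit 1202897378) (nat_lit 580) (nat_lit 5) (nat_lit 579) (nat_lit 5) (nat_lit 594) (nat_lit 5) (nat_lit 318) (nat_lit 308) (nat_lit 274))) (XT.nd (nat_lit 78) (nat_lit 1140) (nat_lit 0) (XT.lf (nat_lit 76) (nat_lit 861507971) (nat_lit 0) (nat_lit 810549536) (nat_lit 1216) (nat_lit 5598856485) (nat_lit 565) (nat_lit 5) (nat_lit 564) (nat_lit 5) (nat_lit 580) (nat_lit 5) (nat_lit 319) (nat_lit 308) (nat_lit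 273)) (XT.nd (nat_lit 78) (nat_lit 1216) (nat_lit 0) (XT.lf (nat_lit 0) (nat_lit 4567961893) (nat_lit 1140) (nat_lit 561080217) (nat_lit 1216) (nat_lit 2209812158) (nat_lit 565) (nat_lit 5) (nat_lit 580) (nat_lit 5) (nat_lit 581) (nat_lit 5) (nat_lit 320) (nat_lit 308) (nat_lit 272)) (XT.lf (nat_lit 0) (nat_lit 86784529) (nat_lit 1216) (nat_lit 1947880587) (nat_lit 1292) (nat_lit 5375263988) (nat_lit 549) (nat_lit 5) (nat_lit 565) (nat_lit 5) (nat_lit 566) (nat_lit 5) (nat_lit 321) (nat_lit 308) (nat_lit 271)))))) (XT.nd (nat_lit 390) (nat_lit 8132) (nat_lit 0) (XT.nd (nat_lit 156) (nat_lit 2736) (nat_lit 0) (XT.nd (nat_lit 78) (nat_lit 1216) (nat_lit 0) (XT.lf (nat_lit 0) (nat_lit 2939474616) (nat_lit 1216) (nat_lit 3332004052) (nat_lit 76) (nat_lit 1212400678) (nat_lit 550) (nat_lit 5) (nat_lit 566) (nat_lit 5) (nat_lit 551) (nat_lit 5) (nat_lit 322) (nat_lit 308) (nat_lit 270)) (XT.lf (nat_lit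 0) (nat_lit 2857882753) (nat_lit 1216) (nat_lit 2975628741) (nat_lit 1292) (nat_lit 1727467922) (nat_lit 534) (nat_lit 5) (nat_lit 550) (nat_lit 5) (nat_lit 551) (nat_lit 5) (nat_lit 323) (nat_lit 308) (nat_lit 269))) (XT.nd (nat_lit 78) (nat_lit 1368) (nat_lit 0) (XT.lf (nat_lit 0) (nat_lit 1106595237) (nat_lit 1368) (nat_lit 6059894864) (nat_lit 76) (nat_lit 474834032) (nat_lit 516) (nat_lit 5) (nat_lit 534) (nat_lit 5) (nat_lit 517) (nat_lit 5) (nat_lit 324) (nat_lit 308) (nat_lit 268)) (XT.nd (nat_lit 78) (nat_lit 0) (nat_lit 0) (XT.lf (nat_lit 0) (nat_lit 299365764) (nat_lit 1368) (nat_lit 3671039588) (nat_lit 1444) (nat_lit 3754124680) (nat_lit 498) (nat_lit 5) (nat_lit 516) (nat_lit 5) (nat_lit 517) (nat_lit 5) (nat_lit 325) (nat_lit 308) (nat_lit 267)) (XT.lf (nat_lit 0) (nat_lit 6865137846) (nat_lit 1368) (nat_lit 12257184) (nat_lit 1444) (nat_lit 933733619) (nat_lit 498) (nat_lit 5) (nat_lit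 516) (nat_lit 5) (nat_lit 517) (nat_lit 5) (nat_lit 326) (nat_lit 308) (nat_lit 266))))) (XT.nd (nat_lit 156) (nat_lit 5092) (nat_lit 0) (XT.nd (nat_lit 78) (nat_lit 1520) (nat_lit 0) (XT.lf (nat_lit 0) (nat_lit 1925459451) (nat_lit 1520) (nat_lit 2202387930) (nat_lit 76) (nat_lit 3772660823) (nat_lit 478) (nat_lit 5) (nat_lit 498) (nat_lit 5) (nat_lit 479) (nat_lit 5) (nat_lit 327) (nat_lit 308) (nat_lit 265)) (XT.lf (nat_lit 0) (nat_lit 4548303220) (nat_lit 1520) (nat_lit 265698014) (nat_lit 1596) (nat_lit 3179357968) (nat_lit 458) (nat_lit 5) (nat_lit 478) (nat_lit 5) (nat_lit 479) (nat_lit 5) (nat_lit 328) (nat_lit 308) (nat_lit 264))) (XT.nd (nat_lit 78) (nat_lit 3496) (nat_lit 0) (XT.lf (nat_lit 0) (nat_lit 3395667576) (nat_lit 1596) (nat_lit 4376801810) (nat_lit 1672) (nat_lit 316898487) (nat_lit 437) (nat_lit 5) (nat_lit 458) (nat_lit 5) (nat_lit 459) (nat_lit 5) (nat_lit 329) (nat_lit 308)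 (nat_lit 263)) (XT.nd (nat_lit 78) (nat_lit 1748) (nat_lit 0) (XT.lf (nat_lit 0) (nat_lit 2243804224) (nat_lit 1672) (nat_lit 316358081) (nat_lit 1748) (nat_lit 5628523750) (nat_lit 414) (nat_lit 5) (nat_lit 436) (nat_lit 5) (nat_lit 437) (nat_lit 5) (nat_lit 330) (nat_lit 308) (nat_lit 262)) (XT.lf (nat_lit 0) (nat_lit 1082020464) (nat_lit 1748) (nat_lit 4426623684) (nat_lit 1824) (nat_lit 2782544142) (nat_lit 391) (nat_lit 5) (nat_lit 414) (nat_lit 5) (nat_lit 415) (nat_lit 5) (nat_lit 331) (nat_lit 308) (nat_lit 261))))))) (XT.nd (nat_lit 780) (nat_lit 6004) (nat_lit 0) (XT.nd (nat_lit 390) (nat_lit 3344) (nat_lit 0) (XT.nd (nat_lit 156) (nat_lit 2660) (nat_lit 0) (XT.nd (nat_lit 78) (nat_lit 1064) (nat_lit 0) (XT.lf (nat_lit 0) (nat_lit 116003882) (nat_lit 1824) (nat_lit 66184825) (nat_lit 76) (nat_lit 8215207772) (nat_lit 390) (nat_lit 5) (nat_lit 414) (nat_lit 5) (nat_lit 391) (nat_lit 5) (nat_lit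 332) (nat_lit 308) (nat_lit 260)) (XT.lf (nat_lit 0) (nat_lit 3067620208) (nat_lit 1140) (nat_lit 1232354702) (nat_lit 76) (nat_lit 4206401899) (nat_lit 376) (nat_lit 5) (nat_lit 391) (nat_lit 5) (nat_lit 377) (nat_lit 5) (nat_lit 333) (nat_lit 308) (nat_lit 259))) (XT.nd (nat_lit 78) (nat_lit 1748) (nat_lit 0) (XT.lf (nat_lit 0) (nat_lit 6081191724) (nat_lit 988) (nat_lit 2389352876) (nat_lit 76) (nat_lit 148644942) (nat_lit 364) (nat_lit 5) (nat_lit 377) (nat_lit 5) (nat_lit 365) (nat_lit 5) (nat_lit 334) (nat_lit 308) (nat_lit 258)) (XT.nd (nat_lit 78) (nat_lit 836) (nat_lit 0) (XT.lf (nat_lit 0) (nat_lit 446528552) (nat_lit 912) (nat_lit 3568486390) (nat_lit 76) (nat_lit 4720290064) (nat_lit 352) (nat_lit 5) (nat_lit 364) (nat_lit 5) (nat_lit 353) (nat_lit 5) (nat_lit 335) (nat_lit 308) (nat_lit 257)) (XT.lf (nat_lit 0) (nat_lit 3466352973) (nat_lit 912) (nat_lit 4761292433) (nat_lit 76) (nat_lit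 627346896) (nat_lit 341) (nat_lit 5) (nat_lit 353) (nat_lit 5) (nat_lit 342) (nat_lit 5) (nat_lit 336) (nat_lit 308) (nat_lit 256))))) (XT.nd (nat_lit 156) (nat_lit 1596) (nat_lit 0) (XT.nd (nat_lit 78) (nat_lit 912) (nat_lit 0) (XT.lf (nat_lit 0) (nat_lit 3002363985) (nat_lit 836) (nat_lit 3579634055) (nat_lit 912) (nat_lit 2396195588) (nat_lit 330) (nat_lit 5) (nat_lit 341) (nat_lit 5) (nat_lit 342) (nat_lit 5) (nat_lit 337) (nat_lit 308) (nat_lit 255)) (XT.lf (nat_lit 0) (nat_lit 665650447) (nat_lit 912) (nat_lit 7200100439) (nat_lit 76) (nat_lit 1239505084) (nat_lit 318) (nat_lit 5) (nat_lit 330) (nat_lit 5) (nat_lit 319) (nat_lit 5) (nat_lit 338) (nat_lit 308) (nat_lit 254))) (XT.nd (nat_lit 78) (nat_lit 836) (nat_lit 0) (XT.lf (nat_lit 0) (nat_lit 772143355) (nat_lit 760) (nat_lit 3021558274) (nat_lit 836) (nat_lit 5441999491) (nat_lit 308) (nat_lit 5) (nat_lit 318) (nat_lit 5) (nat_lit 319)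 (nat_lit 5) (nat_lit 339) (nat_lit 308) (nat_lit 253)) (XT.nd (nat_lit 78) (nat_lit 836) (nat_lit 0) (XT.lf (nat_lit 0) (nat_lit 7015871189) (nat_lit 836) (nat_lit 367020203) (nat_lit 76) (nat_lit 1987187755) (nat_lit 308) (nat_lit 5) (nat_lit 319) (nat_lit 5) (nat_lit 309) (nat_lit 5) (nat_lit 340) (nat_lit 308) (nat_lit 252)) (XT.lf (nat_lit 0) (nat_lit 827715512) (nat_lit 836) (nat_lit 1521685579) (nat_lit 76) (nat_lit 7158757303) (nat_lit 297) (nat_lit 5) (nat_lit 308) (nat_lit 5) (nat_lit 298) (nat_lit 5) (nat_lit 341) (nat_lit 308) (nat_lit 251)))))) (XT.nd (nat_lit 390) (nat_lit 2508) (nat_lit 0) (XT.nd (nat_lit 156) (nat_lit 2052) (nat_lit 0) (XT.nd (nat_lit 78) (nat_lit 760) (nat_lit 0) (XT.lf (nat_lit 0) (nat_lit 4080847548) (nat_lit 760) (nat_lit 2713117338) (nat_lit 76) (nat_lit 2855972355) (nat_lit 288) (nat_lit 5) (nat_lit 298) (nat_lit 5) (nat_lit 289) (nat_lit 5) (nat_lit 342) (nat_lit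 308) (nat_lit 250)) (XT.lf (nat_lit 0) (nat_lit 5870527105) (nat_lit 760) (nat_lit 1567612771) (nat_lit 836) (nat_lit 2357720732) (nat_lit 278) (nat_lit 5) (nat_lit 288) (nat_lit 5) (nat_lit 289) (nat_lit 5) (nat_lit 343) (nat_lit 308) (nat_lit 249))) (XT.nd (nat_lit 78) (nat_lit 1292) (nat_lit 0) (XT.lf (nat_lit 0) (nat_lit 955491073) (nat_lit 760) (nat_lit 5176227948) (nat_lit 76) (nat_lit 3813981475) (nat_lit 268) (nat_lit 5) (nat_lit 278) (nat_lit 5) (nat_lit 269) (nat_lit 5) (nat_lit 344) (nat_lit 308) (nat_lit 248)) (XT.nd (nat_lit 78) (nat_lit 608) (nat_lit 0) (XT.lf (nat_lit 0) (nat_lit 3636021503) (nat_lit 684) (nat_lit 705513357) (nat_lit 760) (nat_lit 5758100448) (nat_lit 259) (nat_lit 5) (nat_lit 268) (nat_lit 5) (nat_lit 269) (nat_lit 5) (nat_lit 345) (nat_lit 308) (nat_lit 247)) (XT.lf (nat_lit 0) (nat_lit 2461763185) (nat_lit 608) (nat_lit 5395960783) (nat_lit 684) (nat_lit 2399913088)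 (nat_lit 251) (nat_lit 5) (nat_lit 259) (nat_lit 5) (nat_lit 260) (nat_lit 5) (nat_lit 346) (nat_lit 308) (nat_lit 246))))) (XT.nd (nat_lit 156) (nat_lit 1824) (nat_lit 0) (XT.nd (nat_lit 78) (nat_lit 0) (nat_lit 0) (XT.lf (nat_lit 0) (nat_lit 1049914606) (nat_lit 684) (nat_lit 9157295917) (nat_lit 76) (nat_lit 212954335) (nat_lit 242) (nat_lit 5) (nat_lit 251) (nat_lit 5) (nat_lit 243) (nat_lit 5) (nat_lit 347) (nat_lit 308) (nat_lit 245)) (XT.lf (nat_lit 0) (nat_lit 4607528373) (nat_lit 684) (nat_lit 3139904) (nat_lit 76) (nat_lit 5975863655) (nat_lit 242) (nat_lit 5) (nat_lit 251) (nat_lit 5) (nat_lit 243) (nat_lit 5) (nat_lit 348) (nat_lit 308) (nat_lit 244))) (XT.nd (nat_lit 78) (nat_lit 1216) (nat_lit 0) (XT.lf (nat_lit 0) (nat_lit 8290275567) (nat_lit 684) (nat_lit 1277806113) (nat_lit 76) (nat_lit 1189458336) (nat_lit 234) (nat_lit 5) (nat_lit 243) (nat_lit 5) (nat_lit 235) (nat_lit 5) (nat_lit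 349) (nat_lit 308) (nat_lit 243)) (XT.nd (nat_lit 78) (nat_lit 532) (nat_lit 0) (XT.lf (nat_lit 0) (nat_lit 1169889516) (nat_lit 684) (nat_lit 2611113298) (nat_lit 76) (nat_lit 7151840587) (nat_lit 225) (nat_lit 5) (nat_lit 234) (nat_lit 5) (nat_lit 226) (nat_lit 5) (nat_lit 350) (nat_lit 308) (nat_lit 242)) (XT.lf (nat_lit 0) (nat_lit 4903081489) (nat_lit 608) (nat_lit 3999026481) (nat_lit 76) (nat_lit 2210579592) (nat_lit 218) (nat_lit 5) (nat_lit 226) (nat_lit 5) (nat_lit 219) (nat_lit 5) (nat_lit 351) (nat_lit 308) (nat_lit 241))))))))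
noncomputable def xc65 : XT := (XT.nd (nat_lit 1560) (nat_lit 3420) (nat_lit 0) (XT.nd (nat_lit 780) (nat_lit 3344) (nat_lit 0) (XT.nd (nat_lit 390) (nat_lit 1900) (nat_lit 0) (XT.nd (nat_lit 156) (nat_lit 1596) (nat_lit 0) (XT.nd (nat_lit 78) (nat_lit 608) (nat_lit 0) (XT.lf (nat_lit 0) (nat_lit 5857928741) (nat_lit 608) (nat_lit 2923138083) (nat_lit 684) (nat_lit 2516220508) (nat_lit 210) (nat_lit 5) (nat_lit 218) (nat_lit 5) (nat_lit 219) (nat_lit 5) (nat_lit 352) (nat_lit 308) (nat_lit 240)) (XT.lf (nat_lit 0) (nat_lit 1301712833) (nat_lit 608) (nat_lit 6940102468) (nat_lit 76) (nat_lit 3244845240) (nat_lit 202) (nat_lit 5) (nat_lit 210) (nat_lit 5) (nat_lit 203) (nat_lit 5) (nat_lit 353) (nat_lit 308) (nat_lit 239))) (XT.nd (nat_lit 78) (nat_lit 1064) (nat_lit 0) (XT.lf (nat_lit 0) (nat_lit 3169123941) (nat_lit 532) (nat_lit 2061553718) (nat_lit 608) (nat_lit 6450106066) (nat_lit 195) (nat_lit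 5) (nat_lit 202) (nat_lit 5) (nat_lit 203) (nat_lit 5) (nat_lit 354) (nat_lit 308) (nat_lit 238)) (XT.nd (nat_lit 78) (nat_lit 608) (nat_lit 0) (XT.lf (nat_lit 0) (nat_lit 1730078484) (nat_lit 456) (nat_lit 7588082537) (nat_lit 532) (nat_lit 2561771159) (nat_lit 189) (nat_lit 5) (nat_lit 195) (nat_lit 5) (nat_lit 196) (nat_lit 5) (nat_lit 355) (nat_lit 308) (nat_lit 237)) (XT.lf (nat_lit 0) (nat_lit 230346764) (nat_lit 532) (nat_lit 1222046271) (nat_lit 608) (nat_lit 10631926369) (nat_lit 181) (nat_lit 5) (nat_lit 188) (nat_lit 5) (nat_lit 189) (nat_lit 5) (nat_lit 356) (nat_lit 308) (nat_lit 236))))) (XT.nd (nat_lit 156) (nat_lit 1444) (nat_lit 0) (XT.nd (nat_lit 78) (nat_lit 456) (nat_lit 0) (XT.lf (nat_lit 0) (nat_lit 5611842211) (nat_lit 608) (nat_lit 1345425986) (nat_lit 76) (nat_lit 5336051552) (nat_lit 181) (nat_lit 5) (nat_lit 189) (nat_lit 5) (nat_lit 182) (nat_lit 5) (nat_lit 357) (nat_lit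 308) (nat_lit 235)) (XT.lf (nat_lit 0) (nat_lit 9536418295) (nat_lit 456) (nat_lit 386632885) (nat_lit 532) (nat_lit 2585012469) (nat_lit 175) (nat_lit 5) (nat_lit 181) (nat_lit 5) (nat_lit 182) (nat_lit 5) (nat_lit 358) (nat_lit 308) (nat_lit 234))) (XT.nd (nat_lit 78) (nat_lit 912) (nat_lit 0) (XT.lf (nat_lit 0) (nat_lit 1673769672) (nat_lit 532) (nat_lit 4699710237) (nat_lit 76) (nat_lit 6354353015) (nat_lit 168) (nat_lit 5) (nat_lit 175) (nat_lit 5) (nat_lit 169) (nat_lit 5) (nat_lit 359) (nat_lit 308) (nat_lit 233)) (XT.nd (nat_lit 78) (nat_lit 456) (nat_lit 0) (XT.lf (nat_lit 0) (nat_lit 6050987322) (nat_lit 532) (nat_lit 6504922394) (nat_lit 76) (nat_lit 397440054) (nat_lit 162) (nat_lit 5) (nat_lit 169) (nat_lit 5) (nat_lit 163) (nat_lit 5) (nat_lit 360) (nat_lit 308) (nat_lit 232)) (XT.lf (nat_lit 0) (nat_lit 4772044843) (nat_lit 456) (nat_lit 5852114259) (nat_lit 532) (nat_lit 2560191995)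 (nat_lit 156) (nat_lit 5) (nat_lit 162) (nat_lit 5) (nat_lit 163) (nat_lit 5) (nat_lit 361) (nat_lit 308) (nat_lit 231)))))) (XT.nd (nat_lit 390) (nat_lit 1596) (nat_lit 0) (XT.nd (nat_lit 156) (nat_lit 836) (nat_lit 0) (XT.nd (nat_lit 78) (nat_lit 456) (nat_lit 0) (XT.lf (nat_lit 0) (nat_lit 1917922021) (nat_lit 456) (nat_lit 10404547701) (nat_lit 76) (nat_lit 1098960435) (nat_lit 150) (nat_lit 5) (nat_lit 156) (nat_lit 5) (nat_lit 151) (nat_lit 5) (nat_lit 362) (nat_lit 308) (nat_lit 230)) (XT.lf (nat_lit 0) (nat_lit 1140520330) (nat_lit 456) (nat_lit 5419418107) (nat_lit 532) (nat_lit 7104068691) (nat_lit 144) (nat_lit 5) (nat_lit 150) (nat_lit 5) (nat_lit 151) (nat_lit 5) (nat_lit 363) (nat_lit 308) (nat_lit 229))) (XT.nd (nat_lit 78) (nat_lit 836) (nat_lit 0) (XT.lf (nat_lit 0) (nat_lit 11384063347) (nat_lit 532) (nat_lit 806698934) (nat_lit 76) (nat_lit 1722252688) (nat_lit 144) (nat_lit 5)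 (nat_lit 151) (nat_lit 5) (nat_lit 145) (nat_lit 5) (nat_lit 364) (nat_lit 308) (nat_lit 228)) (XT.nd (nat_lit 78) (nat_lit 380) (nat_lit 0) (XT.lf (nat_lit 0) (nat_lit 2227014269) (nat_lit 456) (nat_lit 2864425318) (nat_lit 76) (nat_lit 9076335323) (nat_lit 138) (nat_lit 5) (nat_lit 144) (nat_lit 5) (nat_lit 139) (nat_lit 5) (nat_lit 365) (nat_lit 308) (nat_lit 227)) (XT.lf (nat_lit 0) (nat_lit 7135479629) (nat_lit 456) (nat_lit 5035103563) (nat_lit 76) (nat_lit 2258386272) (nat_lit 133) (nat_lit 5) (nat_lit 139) (nat_lit 5) (nat_lit 134) (nat_lit 5) (nat_lit 366) (nat_lit 308) (nat_lit 226))))) (XT.nd (nat_lit 156) (nat_lit 760) (nat_lit 0) (XT.nd (nat_lit 78) (nat_lit 456) (nat_lit 0) (XT.lf (nat_lit 0) (nat_lit 7369131486) (nat_lit 380) (nat_lit 4886659156) (nat_lit 456) (nat_lit 2440926818) (nat_lit 128) (nat_lit 5) (nat_lit 133) (nat_lit 5) (nat_lit 134) (nat_lit 5) (nat_lit 367) (nat_lit 308)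 (nat_lit 225)) (XT.lf (nat_lit 0) (nat_lit 2573104221) (nat_lit 456) (nat_lit 9748913243) (nat_lit 76) (nat_lit 2649168766) (nat_lit 122) (nat_lit 5) (nat_lit 128) (nat_lit 5) (nat_lit 123) (nat_lit 5) (nat_lit 368) (nat_lit 308) (nat_lit 224))) (XT.nd (nat_lit 78) (nat_lit 456) (nat_lit 0) (XT.lf (nat_lit 0) (nat_lit 2930975038) (nat_lit 304) (nat_lit 4839528143) (nat_lit 380) (nat_lit 7481749720) (nat_lit 118) (nat_lit 5) (nat_lit 122) (nat_lit 5) (nat_lit 123) (nat_lit 5) (nat_lit 369) (nat_lit 308) (nat_lit 223)) (XT.nd (nat_lit 78) (nat_lit 76) (nat_lit 0) (XT.lf (nat_lit 0) (nat_lit 518135528) (nat_lit 380) (nat_lit 12658975448) (nat_lit 456) (nat_lit 2363583329) (nat_lit 113) (nat_lit 5) (nat_lit 118) (nat_lit 5) (nat_lit 119) (nat_lit 5) (nat_lit 370) (nat_lit 308) (nat_lit 222)) (XT.lf (nat_lit 0) (nat_lit 2951647821) (nat_lit 456) (nat_lit 2030005819) (nat_lit 76) (nat_lit 10854132534) (nat_lit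 112) (nat_lit 5) (nat_lit 118) (nat_lit 5) (nat_lit 113) (nat_lit 5) (nat_lit 371) (nat_lit 308) (nat_lit 221))))))) (XT.nd (nat_lit 780) (nat_lit 608) (nat_lit 0) (XT.nd (nat_lit 390) (nat_lit 1216) (nat_lit 0) (XT.nd (nat_lit 156) (nat_lit 988) (nat_lit 0) (XT.nd (nat_lit 78) (nat_lit 304) (nat_lit 0) (XT.lf (nat_lit 0) (nat_lit 8454386303) (nat_lit 380) (nat_lit 4723522014) (nat_lit 76) (nat_lit 2960314598) (nat_lit 108) (nat_lit 5) (nat_lit 113) (nat_lit 5) (nat_lit 109) (nat_lit 5) (nat_lit 372) (nat_lit 308) (nat_lit 220)) (XT.lf (nat_lit 0) (nat_lit 8872407981) (nat_lit 304) (nat_lit 5321362970) (nat_lit 380) (nat_lit 2254538125) (nat_lit 104) (nat_lit 5) (nat_lit 108) (nat_lit 5) (nat_lit 109) (nat_lit 5) (nat_lit 373) (nat_lit 308) (nat_lit 219))) (XT.nd (nat_lit 78) (nat_lit 608) (nat_lit 0) (XT.lf (nat_lit 0) (nat_lit 3351926366) (nat_lit 380) (nat_lit 10603199375) (nat_lit 76) (nat_lit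 2810984694) (nat_lit 99) (nat_lit 5) (nat_lit 104) (nat_lit 5) (nat_lit 100) (nat_lit 5) (nat_lit 374) (nat_lit 308) (nat_lit 218)) (XT.nd (nat_lit 78) (nat_lit 304) (nat_lit 0) (XT.lf (nat_lit 0) (nat_lit 3266066440) (nat_lit 304) (nat_lit 5906251653) (nat_lit 380) (nat_lit 7919309440) (nat_lit 95) (nat_lit 5) (nat_lit 99) (nat_lit 5) (nat_lit 100) (nat_lit 5) (nat_lit 375) (nat_lit 308) (nat_lit 217)) (XT.lf (nat_lit 0) (nat_lit 207210189) (nat_lit 304) (nat_lit 15017477952) (nat_lit 380) (nat_lit 2201081489) (nat_lit 91) (nat_lit 5) (nat_lit 95) (nat_lit 5) (nat_lit 96) (nat_lit 5) (nat_lit 376) (nat_lit 308) (nat_lit 216))))) (XT.nd (nat_lit 156) (nat_lit 836) (nat_lit 0) (XT.nd (nat_lit 78) (nat_lit 304) (nat_lit 0) (XT.lf (nat_lit 0) (nat_lit 3742724977) (nat_lit 380) (nat_lit 3032148986) (nat_lit 76) (nat_lit 10992541336) (nat_lit 90) (nat_lit 5) (nat_lit 95) (nat_lit 5) (nat_lit 91) (nat_lit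 5) (nat_lit 377) (nat_lit 308) (nat_lit 215)) (XT.lf (nat_lit 0) (nat_lit 9892012525) (nat_lit 380) (nat_lit 6460318572) (nat_lit 76) (nat_lit 1765553139) (nat_lit 86) (nat_lit 5) (nat_lit 91) (nat_lit 5) (nat_lit 87) (nat_lit 5) (nat_lit 378) (nat_lit 308) (nat_lit 214))) (XT.nd (nat_lit 78) (nat_lit 608) (nat_lit 0) (XT.lf (nat_lit 0) (nat_lit 8366847178) (nat_lit 228) (nat_lit 7949222496) (nat_lit 304) (nat_lit 2160997863) (nat_lit 83) (nat_lit 5) (nat_lit 86) (nat_lit 5) (nat_lit 87) (nat_lit 5) (nat_lit 379) (nat_lit 308) (nat_lit 213)) (XT.nd (nat_lit 78) (nat_lit 228) (nat_lit 0) (XT.lf (nat_lit 0) (nat_lit 4083406147) (nat_lit 380) (nat_lit 13980637375) (nat_lit 76) (nat_lit 781434676) (nat_lit 78) (nat_lit 5) (nat_lit 83) (nat_lit 5) (nat_lit 79) (nat_lit 5) (nat_lit 380) (nat_lit 308) (nat_lit 212)) (XT.lf (nat_lit 0) (nat_lit 1102602650) (nat_lit 228) (nat_lit 9483410977) (nat_lit 304)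 (nat_lit 8636642902) (nat_lit 75) (nat_lit 5) (nat_lit 78) (nat_lit 5) (nat_lit 79) (nat_lit 5) (nat_lit 381) (nat_lit 308) (nat_lit 211)))))) (XT.nd (nat_lit 41340) (nat_lit 0) (nat_lit 39824) (XT.nd (nat_lit 156) (nat_lit 228) (nat_lit 0) (XT.nd (nat_lit 78) (nat_lit 380) (nat_lit 0) (XT.lf (nat_lit 0) (nat_lit 16782717889) (nat_lit 228) (nat_lit 567045523) (nat_lit 304) (nat_lit 2260071003) (nat_lit 75) (nat_lit 5) (nat_lit 78) (nat_lit 5) (nat_lit 79) (nat_lit 5) (nat_lit 382) (nat_lit 308) (nat_lit 210)) (XT.lf (nat_lit 0) (nat_lit 4364391060) (nat_lit 380) (nat_lit 7042099717) (nat_lit 76) (nat_lit 8599320892) (nat_lit 70) (nat_lit 5) (nat_lit 75) (nat_lit 5) (nat_lit 71) (nat_lit 5) (nat_lit 383) (nat_lit 308) (nat_lit 209))) (XT.nd (nat_lit 41028) (nat_lit 0) (nat_lit 41648) (XT.lf (nat_lit 0) (nat_lit 8905751881) (nat_lit 228) (nat_lit 2304582743) (nat_lit 304) (nat_lit 9201970844) (nat_lit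 67) (nat_lit 5) (nat_lit 70) (nat_lit 5) (nat_lit 71) (nat_lit 5) (nat_lit 384) (nat_lit 308) (nat_lit 208)) (XT.nd (nat_lit 78) (nat_lit 0) (nat_lit 0) (XT.lf (nat_lit 0) (nat_lit 685686629) (nat_lit 0) (nat_lit 685686629) (nat_lit 836) (nat_lit 2023821537) (nat_lit 615) (nat_lit 5) (nat_lit 615) (nat_lit 3) (nat_lit 626) (nat_lit 3) (nat_lit 309) (nat_lit 309) (nat_lit 282)) (XT.lf (nat_lit 0) (nat_lit 5777712388) (nat_lit 836) (nat_lit 538903320) (nat_lit 912) (nat_lit 513926756) (nat_lit 615) (nat_lit 5) (nat_lit 626) (nat_lit 3) (nat_lit 627) (nat_lit 5) (nat_lit 310) (nat_lit 309) (nat_lit 281))))) (XT.nd (nat_lit 156) (nat_lit 912) (nat_lit 0) (XT.nd (nat_lit 78) (nat_lit 0) (nat_lit 0) (XT.lf (nat_lit 0) (nat_lit 1926494391) (nat_lit 912) (nat_lit 2410200377) (nat_lit 988) (nat_lit 2536584902) (nat_lit 603) (nat_lit 5) (nat_lit 615) (nat_lit 5) (nat_lit 616) (nat_lit 5) (nat_lit 311) (nat_lit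 309) (nat_lit 280)) (XT.lf (nat_lit 76) (nat_lit 2671512862) (nat_lit 0) (nat_lit 2216333746) (nat_lit 988) (nat_lit 2031242011) (nat_lit 604) (nat_lit 5) (nat_lit 603) (nat_lit 5) (nat_lit 616) (nat_lit 5) (nat_lit 312) (nat_lit 309) (nat_lit 279))) (XT.nd (nat_lit 78) (nat_lit 0) (nat_lit 0) (XT.lf (nat_lit 0) (nat_lit 869691505) (nat_lit 988) (nat_lit 6052269190) (nat_lit 1064) (nat_lit 46036160) (nat_lit 591) (nat_lit 5) (nat_lit 604) (nat_lit 5) (nat_lit 605) (nat_lit 5) (nat_lit 313) (nat_lit 309) (nat_lit 278)) (XT.nd (nat_lit 78) (nat_lit 0) (nat_lit 0) (XT.lf (nat_lit 0) (nat_lit 3765162734) (nat_lit 988) (nat_lit 818150678) (nat_lit 1064) (nat_lit 2436150968) (nat_lit 591) (nat_lit 5) (nat_lit 604) (nat_lit 5) (nat_lit 605) (nat_lit 5) (nat_lit 314) (nat_lit 309) (nat_lit 277)) (XT.lf (nat_lit 76) (nat_lit 4570969953) (nat_lit 0) (nat_lit 2100530068) (nat_lit 1064) (nat_lit 402556747) (nat_lit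 592) (nat_lit 5) (nat_lit 591) (nat_lit 5) (nat_lit 605) (nat_lit 5) (nat_lit 315) (nat_lit 309) (nat_lit 276))))))))
noncomputable def xc66 : XT := (XT.nd (nat_lit 1560) (nat_lit 11932) (nat_lit 0) (XT.nd (nat_lit 780) (nat_lit 12464) (nat_lit 0) (XT.nd (nat_lit 390) (nat_lit 3572) (nat_lit 0) (XT.nd (nat_lit 156) (nat_lit 1140) (nat_lit 0) (XT.nd (nat_lit 78) (nat_lit 0) (nat_lit 0) (XT.lf (nat_lit 0) (nat_lit 2426086809) (nat_lit 1064) (nat_lit 4172352667) (nat_lit 1140) (nat_lit 533084451) (nat_lit 578) (nat_lit 5) (nat_lit 592) (nat_lit 5) (nat_lit 593) (nat_lit 5) (nat_lit 316) (nat_lit 309) (nat_lit 275)) (XT.lf (nat_lit 76) (nat_lit 1366528917) (nat_lit 0) (nat_lit 3906762952) (nat_lit 1140) (nat_lit 1918642842) (nat_lit 579) (nat_lit 5) (nat_lit 578) (nat_lit 5) (nat_lit 593) (nat_lit 5) (nat_lit 317) (nat_lit 309) (nat_lit 274))) (XT.nd (nat_lit 78) (nat_lit 0) (nat_lit 76) (XT.lf (nat_lit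 0) (nat_lit 868705202) (nat_lit 1140) (nat_lit 195331587) (nat_lit 1216) (nat_lit 6191462338) (nat_lit 563) (nat_lit 5) (nat_lit 578) (nat_lit 5) (nat_lit 579) (nat_lit 5) (nat_lit 318) (nat_lit 309) (nat_lit 273)) (XT.nd (nat_lit 78) (nat_lit 0) (nat_lit 0) (XT.lf (nat_lit 0) (nat_lit 3666632608) (nat_lit 1140) (nat_lit 1732518682) (nat_lit 1216) (nat_lit 1922557011) (nat_lit 564) (nat_lit 5) (nat_lit 579) (nat_lit 5) (nat_lit 580) (nat_lit 5) (nat_lit 319) (nat_lit 309) (nat_lit 272)) (XT.lf (nat_lit 76) (nat_lit 4143943958) (nat_lit 0) (nat_lit 2346377869) (nat_lit 1216) (nat_lit 900795917) (nat_lit 565) (nat_lit 5) (nat_lit 564) (nat_lit 5) (nat_lit 580) (nat_lit 5) (nat_lit 320) (nat_lit 309) (nat_lit 271))))) (XT.nd (nat_lit 156) (nat_lit 2508) (nat_lit 0) (XT.nd (nat_lit 78) (nat_lit 0) (nat_lit 0) (XT.lf (nat_lit 0) (nat_lit 1853962303) (nat_lit 1216) (nat_lit 4751829165) (nat_lit 1292) (nat_lit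 857749781) (nat_lit 549) (nat_lit 5) (nat_lit 565) (nat_lit 5) (nat_lit 566) (nat_lit 5) (nat_lit 321) (nat_lit 309) (nat_lit 270)) (XT.lf (nat_lit 76) (nat_lit 1286580208) (nat_lit 0) (nat_lit 3349391977) (nat_lit 1292) (nat_lit 2902955885) (nat_lit 550) (nat_lit 5) (nat_lit 549) (nat_lit 5) (nat_lit 566) (nat_lit 5) (nat_lit 322) (nat_lit 309) (nat_lit 269))) (XT.nd (nat_lit 78) (nat_lit 2584) (nat_lit 0) (XT.lf (nat_lit 0) (nat_lit 7446815379) (nat_lit 1216) (nat_lit 110434698) (nat_lit 76) (nat_lit 60464243) (nat_lit 550) (nat_lit 5) (nat_lit 566) (nat_lit 5) (nat_lit 551) (nat_lit 5) (nat_lit 323) (nat_lit 309) (nat_lit 268)) (XT.nd (nat_lit 78) (nat_lit 1292) (nat_lit 0) (XT.lf (nat_lit 0) (nat_lit 2586458803) (nat_lit 1292) (nat_lit 1505099618) (nat_lit 76) (nat_lit 3607445538) (nat_lit 533) (nat_lit 5) (nat_lit 550) (nat_lit 5) (nat_lit 534) (nat_lit 5) (nat_lit 324) (nat_lit 309) (nat_lit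 267)) (XT.lf (nat_lit 0) (nat_lit 4905706383) (nat_lit 1292) (nat_lit 468060080) (nat_lit 1368) (nat_lit 2409994058) (nat_lit 516) (nat_lit 5) (nat_lit 533) (nat_lit 5) (nat_lit 534) (nat_lit 5) (nat_lit 325) (nat_lit 309) (nat_lit 266)))))) (XT.nd (nat_lit 390) (nat_lit 6384) (nat_lit 0) (XT.nd (nat_lit 156) (nat_lit 3192) (nat_lit 0) (XT.nd (nat_lit 78) (nat_lit 1444) (nat_lit 0) (XT.lf (nat_lit 0) (nat_lit 342552768) (nat_lit 1444) (nat_lit 4253470476) (nat_lit 76) (nat_lit 3275551460) (nat_lit 497) (nat_lit 5) (nat_lit 516) (nat_lit 5) (nat_lit 498) (nat_lit 5) (nat_lit 326) (nat_lit 309) (nat_lit 265)) (XT.lf (nat_lit 0) (nat_lit 2333687508) (nat_lit 1444) (nat_lit 769796341) (nat_lit 1520) (nat_lit 4859088530) (nat_lit 478) (nat_lit 5) (nat_lit 497) (nat_lit 5) (nat_lit 498) (nat_lit 5) (nat_lit 327) (nat_lit 309) (nat_lit 264))) (XT.nd (nat_lit 78) (nat_lit 1672) (nat_lit 0) (XT.lf (nat_lit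 0) (nat_lit 1048844331) (nat_lit 1520) (nat_lit 4877259314) (nat_lit 1596) (nat_lit 2130656667) (nat_lit 458) (nat_lit 5) (nat_lit 478) (nat_lit 5) (nat_lit 479) (nat_lit 5) (nat_lit 328) (nat_lit 309) (nat_lit 263)) (XT.nd (nat_lit 78) (nat_lit 1596) (nat_lit 0) (XT.lf (nat_lit 0) (nat_lit 638011682) (nat_lit 1596) (nat_lit 223952532) (nat_lit 76) (nat_lit 7292411214) (nat_lit 457) (nat_lit 5) (nat_lit 478) (nat_lit 5) (nat_lit 458) (nat_lit 5) (nat_lit 329) (nat_lit 309) (nat_lit 262)) (XT.lf (nat_lit 0) (nat_lit 3452631015) (nat_lit 1672) (nat_lit 1502032501) (nat_lit 76) (nat_lit 3300171740) (nat_lit 436) (nat_lit 5) (nat_lit 458) (nat_lit 5) (nat_lit 437) (nat_lit 5) (nat_lit 330) (nat_lit 309) (nat_lit 261))))) (XT.nd (nat_lit 156) (nat_lit 2888) (nat_lit 0) (XT.nd (nat_lit 78) (nat_lit 1824) (nat_lit 0) (XT.lf (nat_lit 0) (nat_lit 5587446788) (nat_lit 1672) (nat_lit 735603737) (nat_lit 1748)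 (nat_lit 2035864806) (nat_lit 414) (nat_lit 5) (nat_lit 436) (nat_lit 5) (nat_lit 437) (nat_lit 5) (nat_lit 331) (nat_lit 309) (nat_lit 260)) (XT.lf (nat_lit 0) (nat_lit 794595478) (nat_lit 1824) (nat_lit 4057060669) (nat_lit 76) (nat_lit 3614552108) (nat_lit 390) (nat_lit 5) (nat_lit 414) (nat_lit 5) (nat_lit 391) (nat_lit 5) (nat_lit 332) (nat_lit 309) (nat_lit 259))) (XT.nd (nat_lit 78) (nat_lit 1824) (nat_lit 0) (XT.lf (nat_lit 0) (nat_lit 3226351664) (nat_lit 1064) (nat_lit 431582446) (nat_lit 1140) (nat_lit 4919035362) (nat_lit 376) (nat_lit 5) (nat_lit 390) (nat_lit 5) (nat_lit 391) (nat_lit 5) (nat_lit 333) (nat_lit 309) (nat_lit 258)) (XT.nd (nat_lit 78) (nat_lit 912) (nat_lit 0) (XT.lf (nat_lit 0) (nat_lit 2028508646) (nat_lit 912) (nat_lit 4578599744) (nat_lit 988) (nat_lit 2083976648) (nat_lit 364) (nat_lit 5) (nat_lit 376) (nat_lit 5) (nat_lit 377) (nat_lit 5) (nat_lit 334) (nat_lit 309)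 (nat_lit 257)) (XT.lf (nat_lit 0) (nat_lit 803570954) (nat_lit 912) (nat_lit 7976777167) (nat_lit 76) (nat_lit 28628079) (nat_lit 352) (nat_lit 5) (nat_lit 364) (nat_lit 5) (nat_lit 353) (nat_lit 5) (nat_lit 335) (nat_lit 309) (nat_lit 256))))))) (XT.nd (nat_lit 780) (nat_lit 5548) (nat_lit 0) (XT.nd (nat_lit 390) (nat_lit 3040) (nat_lit 0) (XT.nd (nat_lit 156) (nat_lit 2508) (nat_lit 0) (XT.nd (nat_lit 78) (nat_lit 836) (nat_lit 0) (XT.lf (nat_lit 0) (nat_lit 3760625435) (nat_lit 912) (nat_lit 395957249) (nat_lit 76) (nat_lit 4773349970) (nat_lit 352) (nat_lit 5) (nat_lit 364) (nat_lit 5) (nat_lit 353) (nat_lit 5) (nat_lit 336) (nat_lit 309) (nat_lit 255)) (XT.lf (nat_lit 0) (nat_lit 6795861053) (nat_lit 912) (nat_lit 1611874003) (nat_lit 76) (nat_lit 647020470) (nat_lit 341) (nat_lit 5) (nat_lit 353) (nat_lit 5) (nat_lit 342) (nat_lit 5) (nat_lit 337) (nat_lit 309) (nat_lit 254))) (XT.nd (nat_lit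 78) (nat_lit 1596) (nat_lit 0) (XT.lf (nat_lit 0) (nat_lit 739083709) (nat_lit 912) (nat_lit 2856734590) (nat_lit 76) (nat_lit 5587235796) (nat_lit 329) (nat_lit 5) (nat_lit 341) (nat_lit 5) (nat_lit 330) (nat_lit 5) (nat_lit 338) (nat_lit 309) (nat_lit 253)) (XT.nd (nat_lit 78) (nat_lit 760) (nat_lit 0) (XT.lf (nat_lit 0) (nat_lit 3789728218) (nat_lit 912) (nat_lit 4124489286) (nat_lit 76) (nat_lit 1400842219) (nat_lit 318) (nat_lit 5) (nat_lit 330) (nat_lit 5) (nat_lit 319) (nat_lit 5) (nat_lit 339) (nat_lit 309) (nat_lit 252)) (XT.lf (nat_lit 0) (nat_lit 4033519293) (nat_lit 760) (nat_lit 2908715341) (nat_lit 836) (nat_lit 2508608362) (nat_lit 308) (nat_lit 5) (nat_lit 318) (nat_lit 5) (nat_lit 319) (nat_lit 5) (nat_lit 340) (nat_lit 309) (nat_lit 251))))) (XT.nd (nat_lit 156) (nat_lit 1520) (nat_lit 0) (XT.nd (nat_lit 78) (nat_lit 684) (nat_lit 0) (XT.lf (nat_lit 0) (nat_lit 593992972) (nat_lit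 836) (nat_lit 6732321110) (nat_lit 76) (nat_lit 2264266559) (nat_lit 297) (nat_lit 5) (nat_lit 308) (nat_lit 5) (nat_lit 298) (nat_lit 5) (nat_lit 341) (nat_lit 309) (nat_lit 250)) (XT.lf (nat_lit 0) (nat_lit 1644724704) (nat_lit 684) (nat_lit 2120955818) (nat_lit 760) (nat_lit 5968318931) (nat_lit 288) (nat_lit 5) (nat_lit 297) (nat_lit 5) (nat_lit 298) (nat_lit 5) (nat_lit 342) (nat_lit 309) (nat_lit 249))) (XT.nd (nat_lit 78) (nat_lit 760) (nat_lit 0) (XT.lf (nat_lit 0) (nat_lit 405457982) (nat_lit 760) (nat_lit 6640694182) (nat_lit 836) (nat_lit 2835317822) (nat_lit 278) (nat_lit 5) (nat_lit 288) (nat_lit 5) (nat_lit 289) (nat_lit 5) (nat_lit 343) (nat_lit 309) (nat_lit 248)) (XT.nd (nat_lit 78) (nat_lit 684) (nat_lit 0) (XT.lf (nat_lit 0) (nat_lit 400781854) (nat_lit 836) (nat_lit 846274416) (nat_lit 76) (nat_lit 8785993373) (nat_lit 277) (nat_lit 5) (nat_lit 288) (nat_lit 5) (nat_lit 278) (nat_lit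 5) (nat_lit 344) (nat_lit 309) (nat_lit 247)) (XT.lf (nat_lit 0) (nat_lit 3722934652) (nat_lit 760) (nat_lit 2148876395) (nat_lit 76) (nat_lit 4316461165) (nat_lit 268) (nat_lit 5) (nat_lit 278) (nat_lit 5) (nat_lit 269) (nat_lit 5) (nat_lit 345) (nat_lit 309) (nat_lit 246)))))) (XT.nd (nat_lit 390) (nat_lit 2356) (nat_lit 0) (XT.nd (nat_lit 156) (nat_lit 1824) (nat_lit 0) (XT.nd (nat_lit 78) (nat_lit 684) (nat_lit 0) (XT.lf (nat_lit 0) (nat_lit 6876106012) (nat_lit 684) (nat_lit 275012037) (nat_lit 760) (nat_lit 3196925671) (nat_lit 259) (nat_lit 5) (nat_lit 268) (nat_lit 5) (nat_lit 269) (nat_lit 5) (nat_lit 346) (nat_lit 309) (nat_lit 245)) (XT.lf (nat_lit 0) (nat_lit 203315936) (nat_lit 684) (nat_lit 4846616013) (nat_lit 76) (nat_lit 5461953031) (nat_lit 250) (nat_lit 5) (nat_lit 259) (nat_lit 5) (nat_lit 251) (nat_lit 5) (nat_lit 347) (nat_lit 309) (nat_lit 244))) (XT.nd (nat_lit 78) (nat_lit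 1216) (nat_lit 0) (XT.lf (nat_lit 0) (nat_lit 3670911946) (nat_lit 684) (nat_lit 6267111271) (nat_lit 76) (nat_lit 742038108) (nat_lit 242) (nat_lit 5) (nat_lit 251) (nat_lit 5) (nat_lit 243) (nat_lit 5) (nat_lit 348) (nat_lit 309) (nat_lit 243)) (XT.nd (nat_lit 78) (nat_lit 608) (nat_lit 0) (XT.lf (nat_lit 0) (nat_lit 3110279642) (nat_lit 608) (nat_lit 4169746155) (nat_lit 684) (nat_lit 3572524933) (nat_lit 234) (nat_lit 5) (nat_lit 242) (nat_lit 5) (nat_lit 243) (nat_lit 5) (nat_lit 349) (nat_lit 309) (nat_lit 242)) (XT.lf (nat_lit 0) (nat_lit 1776452709) (nat_lit 608) (nat_lit 9238194952) (nat_lit 684) (nat_lit 15239523) (nat_lit 226) (nat_lit 5) (nat_lit 234) (nat_lit 5) (nat_lit 235) (nat_lit 5) (nat_lit 350) (nat_lit 309) (nat_lit 241))))) (XT.nd (nat_lit 156) (nat_lit 1748) (nat_lit 0) (XT.nd (nat_lit 78) (nat_lit 0) (nat_lit 0) (XT.lf (nat_lit 0) (nat_lit 367979358) (nat_lit 532) (nat_lit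 3268162529) (nat_lit 608) (nat_lit 7575239645) (nat_lit 218) (nat_lit 5) (nat_lit 225) (nat_lit 5) (nat_lit 226) (nat_lit 5) (nat_lit 351) (nat_lit 309) (nat_lit 240)) (XT.lf (nat_lit 0) (nat_lit 7431759131) (nat_lit 608) (nat_lit 1071633106) (nat_lit 76) (nat_lit 2894244191) (nat_lit 218) (nat_lit 5) (nat_lit 226) (nat_lit 5) (nat_lit 219) (nat_lit 5) (nat_lit 352) (nat_lit 309) (nat_lit 239))) (XT.nd (nat_lit 78) (nat_lit 1140) (nat_lit 0) (XT.lf (nat_lit 0) (nat_lit 9031590909) (nat_lit 608) (nat_lit 2344591071) (nat_lit 684) (nat_lit 212613555) (nat_lit 210) (nat_lit 5) (nat_lit 218) (nat_lit 5) (nat_lit 219) (nat_lit 5) (nat_lit 353) (nat_lit 309) (nat_lit 238)) (XT.nd (nat_lit 78) (nat_lit 532) (nat_lit 0) (XT.lf (nat_lit 0) (nat_lit 3644050420) (nat_lit 608) (nat_lit 4125284451) (nat_lit 76) (nat_lit 4015120418) (nat_lit 202) (nat_lit 5) (nat_lit 210) (nat_lit 5) (nat_lit 203) (nat_lit 5) (nat_lit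 354) (nat_lit 309) (nat_lit 237)) (XT.lf (nat_lit 0) (nat_lit 6238173823) (nat_lit 532) (nat_lit 1404933387) (nat_lit 608) (nat_lit 4342272032) (nat_lit 195) (nat_lit 5) (nat_lit 202) (nat_lit 5) (nat_lit 203) (nat_lit 5) (nat_lit 355) (nat_lit 309) (nat_lit 236))))))))
noncomputable def xc67 : XT := (XT.nd (nat_lit 1560) (nat_lit 2204) (nat_lit 0) (XT.nd (nat_lit 780) (nat_lit 3040) (nat_lit 0) (XT.nd (nat_lit 390) (nat_lit 2204) (nat_lit 0) (XT.nd (nat_lit 156) (nat_lit 988) (nat_lit 0) (XT.nd (nat_lit 78) (nat_lit 608) (nat_lit 0) (XT.lf (nat_lit 0) (nat_lit 4748203179) (nat_lit 456) (nat_lit 7063105031) (nat_lit 532) (nat_lit 380052986) (nat_lit 189) (nat_lit 5) (nat_lit 195) (nat_lit 5) (nat_lit 196) (nat_lit 5) (nat_lit 356) (nat_lit 309) (nat_lit 235)) (XT.lf (nat_lit 0) (nat_lit 3185169220) (nat_lit 532) (nat_lit 493964278) (nat_lit 608) (nat_lit 8723388776) (nat_lit 181) (nat_lit 5) (nat_lit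 188) (nat_lit 5) (nat_lit 189) (nat_lit 5) (nat_lit 357) (nat_lit 309) (nat_lit 234))) (XT.nd (nat_lit 78) (nat_lit 532) (nat_lit 0) (XT.lf (nat_lit 0) (nat_lit 1534603410) (nat_lit 456) (nat_lit 6379959570) (nat_lit 532) (nat_lit 4704225035) (nat_lit 175) (nat_lit 5) (nat_lit 181) (nat_lit 5) (nat_lit 182) (nat_lit 5) (nat_lit 358) (nat_lit 309) (nat_lit 233)) (XT.nd (nat_lit 78) (nat_lit 532) (nat_lit 0) (XT.lf (nat_lit 0) (nat_lit 12304221517) (nat_lit 532) (nat_lit 167764020) (nat_lit 76) (nat_lit 369025186) (nat_lit 175) (nat_lit 5) (nat_lit 182) (nat_lit 5) (nat_lit 176) (nat_lit 5) (nat_lit 359) (nat_lit 309) (nat_lit 232)) (XT.lf (nat_lit 0) (nat_lit 3781884181) (nat_lit 532) (nat_lit 1969206901) (nat_lit 76) (nat_lit 7316823656) (nat_lit 168) (nat_lit 5) (nat_lit 175) (nat_lit 5) (nat_lit 169) (nat_lit 5) (nat_lit 360) (nat_lit 309) (nat_lit 231))))) (XT.nd (nat_lit 156) (nat_lit 1292) (nat_lit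 0) (XT.nd (nat_lit 78) (nat_lit 456) (nat_lit 0) (XT.lf (nat_lit 0) (nat_lit 8254070657) (nat_lit 532) (nat_lit 3839508122) (nat_lit 76) (nat_lit 1207362599) (nat_lit 162) (nat_lit 5) (nat_lit 169) (nat_lit 5) (nat_lit 163) (nat_lit 5) (nat_lit 361) (nat_lit 309) (nat_lit 230)) (XT.lf (nat_lit 0) (nat_lit 7729358913) (nat_lit 456) (nat_lit 5194469818) (nat_lit 532) (nat_lit 615873021) (nat_lit 156) (nat_lit 5) (nat_lit 162) (nat_lit 5) (nat_lit 163) (nat_lit 5) (nat_lit 362) (nat_lit 309) (nat_lit 229))) (XT.nd (nat_lit 78) (nat_lit 836) (nat_lit 0) (XT.lf (nat_lit 0) (nat_lit 3935585821) (nat_lit 456) (nat_lit 7887398649) (nat_lit 76) (nat_lit 1961352107) (nat_lit 150) (nat_lit 5) (nat_lit 156) (nat_lit 5) (nat_lit 151) (nat_lit 5) (nat_lit 363) (nat_lit 309) (nat_lit 228)) (XT.nd (nat_lit 78) (nat_lit 380) (nat_lit 0) (XT.lf (nat_lit 0) (nat_lit 3958119627) (nat_lit 456) (nat_lit 4719723622) (nat_lit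 532) (nat_lit 5357143549) (nat_lit 144) (nat_lit 5) (nat_lit 150) (nat_lit 5) (nat_lit 151) (nat_lit 5) (nat_lit 364) (nat_lit 309) (nat_lit 227)) (XT.lf (nat_lit 0) (nat_lit 1929085602) (nat_lit 380) (nat_lit 11679612057) (nat_lit 456) (nat_lit 683542200) (nat_lit 139) (nat_lit 5) (nat_lit 144) (nat_lit 5) (nat_lit 145) (nat_lit 5) (nat_lit 365) (nat_lit 309) (nat_lit 226)))))) (XT.nd (nat_lit 390) (nat_lit 1444) (nat_lit 0) (XT.nd (nat_lit 156) (nat_lit 1140) (nat_lit 0) (XT.nd (nat_lit 78) (nat_lit 380) (nat_lit 0) (XT.lf (nat_lit 0) (nat_lit 4140021507) (nat_lit 456) (nat_lit 235025841) (nat_lit 76) (nat_lit 10180357804) (nat_lit 138) (nat_lit 5) (nat_lit 144) (nat_lit 5) (nat_lit 139) (nat_lit 5) (nat_lit 366) (nat_lit 309) (nat_lit 225)) (XT.lf (nat_lit 0) (nat_lit 9164905324) (nat_lit 456) (nat_lit 2483810505) (nat_lit 76) (nat_lit 3176350377) (nat_lit 133) (nat_lit 5) (nat_lit 139) (nat_lit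 5) (nat_lit 134) (nat_lit 5) (nat_lit 367) (nat_lit 309) (nat_lit 224))) (XT.nd (nat_lit 78) (nat_lit 760) (nat_lit 0) (XT.lf (nat_lit 0) (nat_lit 10248709240) (nat_lit 380) (nat_lit 4154502597) (nat_lit 456) (nat_lit 698360628) (nat_lit 128) (nat_lit 5) (nat_lit 133) (nat_lit 5) (nat_lit 134) (nat_lit 5) (nat_lit 368) (nat_lit 309) (nat_lit 223)) (XT.nd (nat_lit 78) (nat_lit 304) (nat_lit 0) (XT.lf (nat_lit 0) (nat_lit 4412947544) (nat_lit 456) (nat_lit 7372304580) (nat_lit 76) (nat_lit 3599386868) (nat_lit 122) (nat_lit 5) (nat_lit 128) (nat_lit 5) (nat_lit 123) (nat_lit 5) (nat_lit 369) (nat_lit 309) (nat_lit 222)) (XT.lf (nat_lit 0) (nat_lit 5644677761) (nat_lit 304) (nat_lit 4087299649) (nat_lit 380) (nat_lit 5942858594) (nat_lit 118) (nat_lit 5) (nat_lit 122) (nat_lit 5) (nat_lit 123) (nat_lit 5) (nat_lit 370) (nat_lit 309) (nat_lit 221))))) (XT.nd (nat_lit 156) (nat_lit 684) (nat_lit 0) (XT.nd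 (nat_lit 78) (nat_lit 380) (nat_lit 0) (XT.lf (nat_lit 0) (nat_lit 3145537835) (nat_lit 380) (nat_lit 12127519865) (nat_lit 456) (nat_lit 699439619) (nat_lit 113) (nat_lit 5) (nat_lit 118) (nat_lit 5) (nat_lit 119) (nat_lit 5) (nat_lit 371) (nat_lit 309) (nat_lit 220)) (XT.lf (nat_lit 0) (nat_lit 473567995) (nat_lit 304) (nat_lit 4232126988) (nat_lit 380) (nat_lit 11571469187) (nat_lit 108) (nat_lit 5) (nat_lit 112) (nat_lit 5) (nat_lit 113) (nat_lit 5) (nat_lit 372) (nat_lit 309) (nat_lit 219))) (XT.nd (nat_lit 78) (nat_lit 684) (nat_lit 0) (XT.lf (nat_lit 0) (nat_lit 10344116472) (nat_lit 380) (nat_lit 2321243316) (nat_lit 76) (nat_lit 3923913440) (nat_lit 108) (nat_lit 5) (nat_lit 113) (nat_lit 5) (nat_lit 109) (nat_lit 5) (nat_lit 373) (nat_lit 309) (nat_lit 218)) (XT.nd (nat_lit 78) (nat_lit 380) (nat_lit 0) (XT.lf (nat_lit 0) (nat_lit 11641291454) (nat_lit 304) (nat_lit 4582987110) (nat_lit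 380) (nat_lit 685022397) (nat_lit 104) (nat_lit 5) (nat_lit 108) (nat_lit 5) (nat_lit 109) (nat_lit 5) (nat_lit 374) (nat_lit 309) (nat_lit 217)) (XT.lf (nat_lit 0) (nat_lit 5043066727) (nat_lit 380) (nat_lit 8411508766) (nat_lit 76) (nat_lit 3782360613) (nat_lit 99) (nat_lit 5) (nat_lit 104) (nat_lit 5) (nat_lit 100) (nat_lit 5) (nat_lit 375) (nat_lit 309) (nat_lit 216))))))) (XT.nd (nat_lit 41808) (nat_lit 0) (nat_lit 36328) (XT.nd (nat_lit 390) (nat_lit 988) (nat_lit 0) (XT.nd (nat_lit 156) (nat_lit 608) (nat_lit 0) (XT.nd (nat_lit 78) (nat_lit 304) (nat_lit 0) (XT.lf (nat_lit 0) (nat_lit 5833116717) (nat_lit 304) (nat_lit 5174656670) (nat_lit 380) (nat_lit 6565061344) (nat_lit 95) (nat_lit 5) (nat_lit 99) (nat_lit 5) (nat_lit 100) (nat_lit 5) (nat_lit 376) (nat_lit 309) (nat_lit 215)) (XT.lf (nat_lit 0) (nat_lit 2667662290) (nat_lit 304) (nat_lit 14550270120) (nat_lit 380) (nat_lit 699554109)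 (nat_lit 91) (nat_lit 5) (nat_lit 95) (nat_lit 5) (nat_lit 96) (nat_lit 5) (nat_lit 377) (nat_lit 309) (nat_lit 214))) (XT.nd (nat_lit 78) (nat_lit 532) (nat_lit 0) (XT.lf (nat_lit 0) (nat_lit 5356949441) (nat_lit 380) (nat_lit 720089807) (nat_lit 76) (nat_lit 12193049234) (nat_lit 90) (nat_lit 5) (nat_lit 95) (nat_lit 5) (nat_lit 91) (nat_lit 5) (nat_lit 378) (nat_lit 309) (nat_lit 213)) (XT.nd (nat_lit 78) (nat_lit 228) (nat_lit 0) (XT.lf (nat_lit 0) (nat_lit 11668100273) (nat_lit 380) (nat_lit 4266100053) (nat_lit 76) (nat_lit 2697332509) (nat_lit 86) (nat_lit 5) (nat_lit 91) (nat_lit 5) (nat_lit 87) (nat_lit 5) (nat_lit 379) (nat_lit 309) (nat_lit 212)) (XT.lf (nat_lit 0) (nat_lit 10967137751) (nat_lit 228) (nat_lit 7289907299) (nat_lit 304) (nat_lit 745012046) (nat_lit 83) (nat_lit 5) (nat_lit 86) (nat_lit 5) (nat_lit 87) (nat_lit 5) (nat_lit 380) (nat_lit 309) (nat_lit 211))))) (XT.nd (nat_lit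 156) (nat_lit 380) (nat_lit 0) (XT.nd (nat_lit 78) (nat_lit 228) (nat_lit 0) (XT.lf (nat_lit 0) (nat_lit 5645690872) (nat_lit 380) (nat_lit 12046360983) (nat_lit 76) (nat_lit 1689716529) (nat_lit 78) (nat_lit 5) (nat_lit 83) (nat_lit 5) (nat_lit 79) (nat_lit 5) (nat_lit 381) (nat_lit 309) (nat_lit 210)) (XT.lf (nat_lit 0) (nat_lit 3451190329) (nat_lit 228) (nat_lit 8865284657) (nat_lit 304) (nat_lit 7454333222) (nat_lit 75) (nat_lit 5) (nat_lit 78) (nat_lit 5) (nat_lit 79) (nat_lit 5) (nat_lit 382) (nat_lit 309) (nat_lit 209))) (XT.nd (nat_lit 78) (nat_lit 380) (nat_lit 0) (XT.lf (nat_lit 0) (nat_lit 19243883080) (nat_lit 304) (nat_lit 638063032) (nat_lit 76) (nat_lit 288448278) (nat_lit 75) (nat_lit 5) (nat_lit 79) (nat_lit 5) (nat_lit 76) (nat_lit 5) (nat_lit 383) (nat_lit 309) (nat_lit 208)) (XT.nd (nat_lit 41106) (nat_lit 0) (nat_lit 40432) (XT.lf (nat_lit 0) (nat_lit 5856326205) (nat_lit 380)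 (nat_lit 5001780175) (nat_lit 76) (nat_lit 9720409693) (nat_lit 70) (nat_lit 5) (nat_lit 75) (nat_lit 5) (nat_lit 71) (nat_lit 5) (nat_lit 384) (nat_lit 309) (nat_lit 207)) (XT.lf (nat_lit 0) (nat_lit 925899573) (nat_lit 988) (nat_lit 1254993182) (nat_lit 988) (nat_lit 1254993182) (nat_lit 602) (nat_lit 3) (nat_lit 615) (nat_lit 3) (nat_lit 615) (nat_lit 5) (nat_lit 310) (nat_lit 310) (nat_lit 280)))))) (XT.nd (nat_lit 390) (nat_lit 2204) (nat_lit 0) (XT.nd (nat_lit 156) (nat_lit 912) (nat_lit 0) (XT.nd (nat_lit 78) (nat_lit 988) (nat_lit 0) (XT.lf (nat_lit 76) (nat_lit 2443377636) (nat_lit 0) (nat_lit 2291208873) (nat_lit 988) (nat_lit 2181473862) (nat_lit 603) (nat_lit 5) (nat_lit 602) (nat_lit 3) (nat_lit 615) (nat_lit 5) (nat_lit 311) (nat_lit 310) (nat_lit 279)) (XT.lf (nat_lit 76) (nat_lit 561953984) (nat_lit 0) (nat_lit 79284629) (nat_lit 1064) (nat_lit 6322231267) (nat_lit 590) (nat_lit 5)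 (nat_lit 589) (nat_lit 5) (nat_lit 603) (nat_lit 5) (nat_lit 312) (nat_lit 310) (nat_lit 278))) (XT.nd (nat_lit 78) (nat_lit 988) (nat_lit 0) (XT.lf (nat_lit 0) (nat_lit 3455190914) (nat_lit 988) (nat_lit 1292378765) (nat_lit 1064) (nat_lit 2265782381) (nat_lit 590) (nat_lit 5) (nat_lit 603) (nat_lit 5) (nat_lit 604) (nat_lit 5) (nat_lit 313) (nat_lit 310) (nat_lit 277)) (XT.nd (nat_lit 78) (nat_lit 988) (nat_lit 0) (XT.lf (nat_lit 76) (nat_lit 3962766605) (nat_lit 0) (nat_lit 2311462849) (nat_lit 1064) (nat_lit 792148774) (nat_lit 591) (nat_lit 5) (nat_lit 590) (nat_lit 5) (nat_lit 604) (nat_lit 5) (nat_lit 314) (nat_lit 310) (nat_lit 276)) (XT.lf (nat_lit 0) (nat_lit 1951340538) (nat_lit 1064) (nat_lit 4895139763) (nat_lit 1140) (nat_lit 275876284) (nat_lit 577) (nat_lit 5) (nat_lit 591) (nat_lit 5) (nat_lit 592) (nat_lit 5) (nat_lit 315) (nat_lit 310) (nat_lit 275))))) (XT.nd (nat_lit 156) (nat_lit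 1064) (nat_lit 0) (XT.nd (nat_lit 78) (nat_lit 1140) (nat_lit 0) (XT.lf (nat_lit 76) (nat_lit 506017055) (nat_lit 0) (nat_lit 4199617374) (nat_lit 1140) (nat_lit 2475546155) (nat_lit 578) (nat_lit 5) (nat_lit 577) (nat_lit 5) (nat_lit 592) (nat_lit 5) (nat_lit 316) (nat_lit 310) (nat_lit 274)) (XT.lf (nat_lit 0) (nat_lit 231363282) (nat_lit 1140) (nat_lit 1168033142) (nat_lit 1216) (nat_lit 5843696959) (nat_lit 562) (nat_lit 5) (nat_lit 577) (nat_lit 5) (nat_lit 578) (nat_lit 5) (nat_lit 317) (nat_lit 310) (nat_lit 273))) (XT.nd (nat_lit 78) (nat_lit 1140) (nat_lit 0) (XT.lf (nat_lit 0) (nat_lit 2929365412) (nat_lit 1140) (nat_lit 2830687119) (nat_lit 1216) (nat_lit 1547665387) (nat_lit 563) (nat_lit 5) (nat_lit 578) (nat_lit 5) (nat_lit 579) (nat_lit 5) (nat_lit 318) (nat_lit 310) (nat_lit 272)) (XT.nd (nat_lit 78) (nat_lit 1140) (nat_lit 0) (XT.lf (nat_lit 76) (nat_lit 2901571873) (nat_lit 0) (nat_lit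 2749557000) (nat_lit 1216) (nat_lit 1724346361) (nat_lit 564) (nat_lit 5) (nat_lit 563) (nat_lit 5) (nat_lit 579) (nat_lit 5) (nat_lit 319) (nat_lit 310) (nat_lit 271)) (XT.lf (nat_lit 0) (nat_lit 935166609) (nat_lit 1216) (nat_lit 6099145885) (nat_lit 1292) (nat_lit 412087287) (nat_lit 548) (nat_lit 5) (nat_lit 564) (nat_lit 5) (nat_lit 565) (nat_lit 5) (nat_lit 320) (nat_lit 310) (nat_lit 270))))))))
noncomputable def xc68 : XT := (XT.nd (nat_lit 1560) (nat_lit 11400) (nat_lit 0) (XT.nd (nat_lit 780) (nat_lit 8968) (nat_lit 0) (XT.nd (nat_lit 390) (nat_lit 6080) (nat_lit 0) (XT.nd (nat_lit 156) (nat_lit 2432) (nat_lit 0) (XT.nd (nat_lit 78) (nat_lit 0) (nat_lit 0) (XT.lf (nat_lit 0) (nat_lit 3610889829) (nat_lit 1216) (nat_lit 206393288) (nat_lit 1292) (nat_lit 3702790592) (nat_lit 548) (nat_lit 5) (nat_lit 564) (nat_lit 5) (nat_lit 565) (nat_lit 5) (nat_lit 321) (nat_lit 310) (nat_lit 269)) (XT.lf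 (nat_lit 76) (nat_lit 5880348003) (nat_lit 0) (nat_lit 438127089) (nat_lit 1292) (nat_lit 1278496239) (nat_lit 549) (nat_lit 5) (nat_lit 548) (nat_lit 5) (nat_lit 565) (nat_lit 5) (nat_lit 322) (nat_lit 310) (nat_lit 268))) (XT.nd (nat_lit 78) (nat_lit 1216) (nat_lit 0) (XT.lf (nat_lit 0) (nat_lit 1377869622) (nat_lit 1292) (nat_lit 3231787446) (nat_lit 1368) (nat_lit 3067065542) (nat_lit 532) (nat_lit 5) (nat_lit 549) (nat_lit 5) (nat_lit 550) (nat_lit 5) (nat_lit 323) (nat_lit 310) (nat_lit 267)) (XT.nd (nat_lit 78) (nat_lit 1216) (nat_lit 0) (XT.lf (nat_lit 76) (nat_lit 3023300944) (nat_lit 0) (nat_lit 1024819189) (nat_lit 1368) (nat_lit 3711587857) (nat_lit 533) (nat_lit 5) (nat_lit 532) (nat_lit 5) (nat_lit 550) (nat_lit 5) (nat_lit 324) (nat_lit 310) (nat_lit 266)) (XT.lf (nat_lit 0) (nat_lit 1607351427) (nat_lit 1292) (nat_lit 5160279775) (nat_lit 1368) (nat_lit 1078209296) (nat_lit 516) (nat_lit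 5) (nat_lit 533) (nat_lit 5) (nat_lit 534) (nat_lit 5) (nat_lit 325) (nat_lit 310) (nat_lit 265))))) (XT.nd (nat_lit 156) (nat_lit 4636) (nat_lit 0) (XT.nd (nat_lit 78) (nat_lit 0) (nat_lit 0) (XT.lf (nat_lit 0) (nat_lit 195337863) (nat_lit 1368) (nat_lit 1378576900) (nat_lit 1444) (nat_lit 6361245154) (nat_lit 497) (nat_lit 5) (nat_lit 515) (nat_lit 5) (nat_lit 516) (nat_lit 5) (nat_lit 326) (nat_lit 310) (nat_lit 264)) (XT.lf (nat_lit 0) (nat_lit 4272697471) (nat_lit 1444) (nat_lit 1205145450) (nat_lit 76) (nat_lit 2549576132) (nat_lit 497) (nat_lit 5) (nat_lit 516) (nat_lit 5) (nat_lit 498) (nat_lit 5) (nat_lit 327) (nat_lit 310) (nat_lit 263))) (XT.nd (nat_lit 78) (nat_lit 3192) (nat_lit 0) (XT.lf (nat_lit 0) (nat_lit 5528101596) (nat_lit 1444) (nat_lit 1494469671) (nat_lit 1520) (nat_lit 1100508595) (nat_lit 478) (nat_lit 5) (nat_lit 497) (nat_lit 5) (nat_lit 498) (nat_lit 5) (nat_lit 328) (nat_lit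 310) (nat_lit 262)) (XT.nd (nat_lit 78) (nat_lit 1596) (nat_lit 0) (XT.lf (nat_lit 0) (nat_lit 1591294831) (nat_lit 1596) (nat_lit 3996920975) (nat_lit 76) (nat_lit 2633629582) (nat_lit 457) (nat_lit 5) (nat_lit 478) (nat_lit 5) (nat_lit 458) (nat_lit 5) (nat_lit 329) (nat_lit 310) (nat_lit 261)) (XT.lf (nat_lit 0) (nat_lit 2921217731) (nat_lit 1596) (nat_lit 1402559945) (nat_lit 1672) (nat_lit 4000186864) (nat_lit 436) (nat_lit 5) (nat_lit 457) (nat_lit 5) (nat_lit 458) (nat_lit 5) (nat_lit 330) (nat_lit 310) (nat_lit 260)))))) (XT.nd (nat_lit 390) (nat_lit 3420) (nat_lit 0) (XT.nd (nat_lit 156) (nat_lit 2052) (nat_lit 0) (XT.nd (nat_lit 78) (nat_lit 1824) (nat_lit 0) (XT.lf (nat_lit 0) (nat_lit 1613247861) (nat_lit 1672) (nat_lit 5511505538) (nat_lit 1748) (nat_lit 1304696203) (nat_lit 414) (nat_lit 5) (nat_lit 436) (nat_lit 5) (nat_lit 437) (nat_lit 5) (nat_lit 331) (nat_lit 310) (nat_lit 259))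 (XT.lf (nat_lit 0) (nat_lit 299261710) (nat_lit 1748) (nat_lit 1132329596) (nat_lit 1824) (nat_lit 7106763275) (nat_lit 390) (nat_lit 5) (nat_lit 413) (nat_lit 5) (nat_lit 414) (nat_lit 5) (nat_lit 332) (nat_lit 310) (nat_lit 258))) (XT.nd (nat_lit 78) (nat_lit 2052) (nat_lit 0) (XT.lf (nat_lit 0) (nat_lit 4233484309) (nat_lit 1824) (nat_lit 1021289138) (nat_lit 76) (nat_lit 3395586152) (nat_lit 390) (nat_lit 5) (nat_lit 414) (nat_lit 5) (nat_lit 391) (nat_lit 5) (nat_lit 333) (nat_lit 310) (nat_lit 257)) (XT.nd (nat_lit 78) (nat_lit 988) (nat_lit 0) (XT.lf (nat_lit 0) (nat_lit 6429399148) (nat_lit 1064) (nat_lit 674024328) (nat_lit 1140) (nat_lit 1662650846) (nat_lit 376) (nat_lit 5) (nat_lit 390) (nat_lit 5) (nat_lit 391) (nat_lit 5) (nat_lit 334) (nat_lit 310) (nat_lit 256)) (XT.lf (nat_lit 0) (nat_lit 1162087751) (nat_lit 988) (nat_lit 3679079349) (nat_lit 76) (nat_lit 4043903097) (nat_lit 363)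 (nat_lit 5) (nat_lit 376) (nat_lit 5) (nat_lit 364) (nat_lit 5) (nat_lit 335) (nat_lit 310) (nat_lit 255))))) (XT.nd (nat_lit 156) (nat_lit 1748) (nat_lit 0) (XT.nd (nat_lit 78) (nat_lit 836) (nat_lit 0) (XT.lf (nat_lit 0) (nat_lit 3975380374) (nat_lit 836) (nat_lit 57233408) (nat_lit 912) (nat_lit 4975156794) (nat_lit 352) (nat_lit 5) (nat_lit 363) (nat_lit 5) (nat_lit 364) (nat_lit 5) (nat_lit 336) (nat_lit 310) (nat_lit 254)) (XT.lf (nat_lit 0) (nat_lit 2719148362) (nat_lit 836) (nat_lit 4283177634) (nat_lit 912) (nat_lit 2131590889) (nat_lit 341) (nat_lit 5) (nat_lit 352) (nat_lit 5) (nat_lit 353) (nat_lit 5) (nat_lit 337) (nat_lit 310) (nat_lit 253))) (XT.nd (nat_lit 78) (nat_lit 836) (nat_lit 0) (XT.lf (nat_lit 0) (nat_lit 775184423) (nat_lit 912) (nat_lit 7806988665) (nat_lit 76) (nat_lit 681828843) (nat_lit 329) (nat_lit 5) (nat_lit 341) (nat_lit 5) (nat_lit 330) (nat_lit 5) (nat_lit 338)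 (nat_lit 310) (nat_lit 252)) (XT.nd (nat_lit 78) (nat_lit 0) (nat_lit 0) (XT.lf (nat_lit 0) (nat_lit 153502039) (nat_lit 836) (nat_lit 3601300383) (nat_lit 912) (nat_lit 5642637652) (nat_lit 318) (nat_lit 5) (nat_lit 329) (nat_lit 5) (nat_lit 330) (nat_lit 5) (nat_lit 339) (nat_lit 310) (nat_lit 251)) (XT.lf (nat_lit 0) (nat_lit 6829339809) (nat_lit 912) (nat_lit 1145561917) (nat_lit 76) (nat_lit 1559892636) (nat_lit 318) (nat_lit 5) (nat_lit 330) (nat_lit 5) (nat_lit 319) (nat_lit 5) (nat_lit 340) (nat_lit 310) (nat_lit 250))))))) (XT.nd (nat_lit 780) (nat_lit 5016) (nat_lit 0) (XT.nd (nat_lit 390) (nat_lit 2584) (nat_lit 0) (XT.nd (nat_lit 156) (nat_lit 2204) (nat_lit 0) (XT.nd (nat_lit 78) (nat_lit 760) (nat_lit 0) (XT.lf (nat_lit 0) (nat_lit 330630158) (nat_lit 836) (nat_lit 2471319398) (nat_lit 76) (nat_lit 6874001053) (nat_lit 307) (nat_lit 5) (nat_lit 318) (nat_lit 5) (nat_lit 308) (nat_lit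 5) (nat_lit 341) (nat_lit 310) (nat_lit 249)) (XT.lf (nat_lit 0) (nat_lit 3429730141) (nat_lit 836) (nat_lit 3836727645) (nat_lit 76) (nat_lit 2554374138) (nat_lit 297) (nat_lit 5) (nat_lit 308) (nat_lit 5) (nat_lit 298) (nat_lit 5) (nat_lit 342) (nat_lit 310) (nat_lit 248))) (XT.nd (nat_lit 78) (nat_lit 1520) (nat_lit 0) (XT.lf (nat_lit 0) (nat_lit 4741375262) (nat_lit 684) (nat_lit 1892902943) (nat_lit 760) (nat_lit 3335553164) (nat_lit 288) (nat_lit 5) (nat_lit 297) (nat_lit 5) (nat_lit 298) (nat_lit 5) (nat_lit 343) (nat_lit 310) (nat_lit 247)) (XT.nd (nat_lit 78) (nat_lit 760) (nat_lit 0) (XT.lf (nat_lit 0) (nat_lit 3468904990) (nat_lit 760) (nat_lit 6485647603) (nat_lit 836) (nat_lit 168376979) (nat_lit 278) (nat_lit 5) (nat_lit 288) (nat_lit 5) (nat_lit 289) (nat_lit 5) (nat_lit 344) (nat_lit 310) (nat_lit 246)) (XT.lf (nat_lit 0) (nat_lit 2155047763) (nat_lit 684) (nat_lit 908552845) (nat_lit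 760) (nat_lit 7216430714) (nat_lit 268) (nat_lit 5) (nat_lit 277) (nat_lit 5) (nat_lit 278) (nat_lit 5) (nat_lit 345) (nat_lit 310) (nat_lit 245))))) (XT.nd (nat_lit 156) (nat_lit 1900) (nat_lit 0) (XT.nd (nat_lit 78) (nat_lit 0) (nat_lit 0) (XT.lf (nat_lit 0) (nat_lit 797052729) (nat_lit 684) (nat_lit 5624306694) (nat_lit 760) (nat_lit 4019861264) (nat_lit 259) (nat_lit 5) (nat_lit 268) (nat_lit 5) (nat_lit 269) (nat_lit 5) (nat_lit 346) (nat_lit 310) (nat_lit 244)) (XT.lf (nat_lit 0) (nat_lit 9892108875) (nat_lit 760) (nat_lit 574301964) (nat_lit 76) (nat_lit 140608196) (nat_lit 259) (nat_lit 5) (nat_lit 269) (nat_lit 5) (nat_lit 260) (nat_lit 5) (nat_lit 347) (nat_lit 310) (nat_lit 243))) (XT.nd (nat_lit 78) (nat_lit 1216) (nat_lit 0) (XT.lf (nat_lit 0) (nat_lit 2700514356) (nat_lit 684) (nat_lit 2006733325) (nat_lit 76) (nat_lit 6069280141) (nat_lit 250) (nat_lit 5) (nat_lit 259) (nat_lit 5) (nat_lit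 251) (nat_lit 5) (nat_lit 348) (nat_lit 310) (nat_lit 242)) (XT.nd (nat_lit 78) (nat_lit 608) (nat_lit 0) (XT.lf (nat_lit 0) (nat_lit 6221891318) (nat_lit 684) (nat_lit 3471899496) (nat_lit 76) (nat_lit 1256989554) (nat_lit 242) (nat_lit 5) (nat_lit 251) (nat_lit 5) (nat_lit 243) (nat_lit 5) (nat_lit 349) (nat_lit 310) (nat_lit 241)) (XT.lf (nat_lit 0) (nat_lit 6138413861) (nat_lit 608) (nat_lit 3748826782) (nat_lit 684) (nat_lit 1242269787) (nat_lit 234) (nat_lit 5) (nat_lit 242) (nat_lit 5) (nat_lit 243) (nat_lit 5) (nat_lit 350) (nat_lit 310) (nat_lit 240)))))) (XT.nd (nat_lit 390) (nat_lit 2584) (nat_lit 0) (XT.nd (nat_lit 156) (nat_lit 1216) (nat_lit 0) (XT.nd (nat_lit 78) (nat_lit 532) (nat_lit 0) (XT.lf (nat_lit 0) (nat_lit 2342534902) (nat_lit 684) (nat_lit 6567246334) (nat_lit 76) (nat_lit 2403044029) (nat_lit 225) (nat_lit 5) (nat_lit 234) (nat_lit 5) (nat_lit 226) (nat_lit 5) (nat_lit 351)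 (nat_lit 310) (nat_lit 239)) (XT.lf (nat_lit 0) (nat_lit 3294625663) (nat_lit 532) (nat_lit 2758875919) (nat_lit 608) (nat_lit 5447279132) (nat_lit 218) (nat_lit 5) (nat_lit 225) (nat_lit 5) (nat_lit 226) (nat_lit 5) (nat_lit 352) (nat_lit 310) (nat_lit 238))) (XT.nd (nat_lit 78) (nat_lit 608) (nat_lit 0) (XT.lf (nat_lit 0) (nat_lit 1792155339) (nat_lit 608) (nat_lit 8119064891) (nat_lit 684) (nat_lit 1782460994) (nat_lit 210) (nat_lit 5) (nat_lit 218) (nat_lit 5) (nat_lit 219) (nat_lit 5) (nat_lit 353) (nat_lit 310) (nat_lit 237)) (XT.nd (nat_lit 78) (nat_lit 0) (nat_lit 0) (XT.lf (nat_lit 0) (nat_lit 226430856) (nat_lit 532) (nat_lit 1772032201) (nat_lit 608) (nat_lit 9893015314) (nat_lit 202) (nat_lit 5) (nat_lit 209) (nat_lit 5) (nat_lit 210) (nat_lit 5) (nat_lit 354) (nat_lit 310) (nat_lit 236)) (XT.lf (nat_lit 0) (nat_lit 5924440083) (nat_lit 608) (nat_lit 1399555672) (nat_lit 76) (nat_lit 4769874927)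 (nat_lit 202) (nat_lit 5) (nat_lit 210) (nat_lit 5) (nat_lit 203) (nat_lit 5) (nat_lit 355) (nat_lit 310) (nat_lit 235))))) (XT.nd (nat_lit 156) (nat_lit 1520) (nat_lit 0) (XT.nd (nat_lit 78) (nat_lit 532) (nat_lit 0) (XT.lf (nat_lit 0) (nat_lit 9228576804) (nat_lit 532) (nat_lit 769857387) (nat_lit 608) (nat_lit 2303309149) (nat_lit 195) (nat_lit 5) (nat_lit 202) (nat_lit 5) (nat_lit 203) (nat_lit 5) (nat_lit 356) (nat_lit 310) (nat_lit 234)) (XT.lf (nat_lit 0) (nat_lit 1714678326) (nat_lit 532) (nat_lit 4839396945) (nat_lit 76) (nat_lit 5960413597) (nat_lit 188) (nat_lit 5) (nat_lit 195) (nat_lit 5) (nat_lit 189) (nat_lit 5) (nat_lit 357) (nat_lit 310) (nat_lit 233))) (XT.nd (nat_lit 78) (nat_lit 988) (nat_lit 0) (XT.lf (nat_lit 0) (nat_lit 5848730203) (nat_lit 608) (nat_lit 6674778467) (nat_lit 76) (nat_lit 209279559) (nat_lit 181) (nat_lit 5) (nat_lit 189) (nat_lit 5) (nat_lit 182) (nat_lit 5)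 (nat_lit 358) (nat_lit 310) (nat_lit 232)) (XT.nd (nat_lit 78) (nat_lit 532) (nat_lit 0) (XT.lf (nat_lit 0) (nat_lit 4350750456) (nat_lit 456) (nat_lit 5821687280) (nat_lit 532) (nat_lit 2783898113) (nat_lit 175) (nat_lit 5) (nat_lit 181) (nat_lit 5) (nat_lit 182) (nat_lit 5) (nat_lit 359) (nat_lit 310) (nat_lit 231)) (XT.lf (nat_lit 0) (nat_lit 1451176598) (nat_lit 532) (nat_lit 10609900950) (nat_lit 76) (nat_lit 1124721116) (nat_lit 168) (nat_lit 5) (nat_lit 175) (nat_lit 5) (nat_lit 169) (nat_lit 5) (nat_lit 360) (nat_lit 310) (nat_lit 230))))))))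
noncomputable def xc69 : XT := (XT.nd (nat_lit 1560) (nat_lit 1216) (nat_lit 0) (XT.nd (nat_lit 780) (nat_lit 2736) (nat_lit 0) (XT.nd (nat_lit 390) (nat_lit 1672) (nat_lit 0) (XT.nd (nat_lit 156) (nat_lit 1368) (nat_lit 0) (XT.nd (nat_lit 78) (nat_lit 0) (nat_lit 0) (XT.lf (nat_lit 0) (nat_lit 687391255) (nat_lit 456) (nat_lit 5152181910) (nat_lit 532) (nat_lit 7580933384) (nat_lit 162) (nat_lit 5) (nat_lit 168) (nat_lit 5) (nat_lit 169) (nat_lit 5) (nat_lit 361) (nat_lit 310) (nat_lit 229)) (XT.lf (nat_lit 0) (nat_lit 10407201039) (nat_lit 532) (nat_lit 1258339380) (nat_lit 76) (nat_lit 1995774393) (nat_lit 162) (nat_lit 5) (nat_lit 169) (nat_lit 5) (nat_lit 163) (nat_lit 5) (nat_lit 362) (nat_lit 310) (nat_lit 228))) (XT.nd (nat_lit 78) (nat_lit 836) (nat_lit 0) (XT.lf (nat_lit 0) (nat_lit 1254088518) (nat_lit 532) (nat_lit 3302421473) (nat_lit 76) (nat_lit 9351344413) (nat_lit 155) (nat_lit 5)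 (nat_lit 162) (nat_lit 5) (nat_lit 156) (nat_lit 5) (nat_lit 363) (nat_lit 310) (nat_lit 227)) (XT.nd (nat_lit 78) (nat_lit 456) (nat_lit 0) (XT.lf (nat_lit 0) (nat_lit 5901260275) (nat_lit 456) (nat_lit 5457147686) (nat_lit 76) (nat_lit 2802003263) (nat_lit 150) (nat_lit 5) (nat_lit 156) (nat_lit 5) (nat_lit 151) (nat_lit 5) (nat_lit 364) (nat_lit 310) (nat_lit 226)) (XT.lf (nat_lit 0) (nat_lit 6700469293) (nat_lit 456) (nat_lit 4048536532) (nat_lit 532) (nat_lit 3670325380) (nat_lit 144) (nat_lit 5) (nat_lit 150) (nat_lit 5) (nat_lit 151) (nat_lit 5) (nat_lit 365) (nat_lit 310) (nat_lit 225))))) (XT.nd (nat_lit 156) (nat_lit 836) (nat_lit 0) (XT.nd (nat_lit 78) (nat_lit 380) (nat_lit 0) (XT.lf (nat_lit 0) (nat_lit 1097609341) (nat_lit 456) (nat_lit 10093232847) (nat_lit 76) (nat_lit 3493942692) (nat_lit 138) (nat_lit 5) (nat_lit 144) (nat_lit 5) (nat_lit 139) (nat_lit 5) (nat_lit 366) (nat_lit 310)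 (nat_lit 224)) (XT.lf (nat_lit 0) (nat_lit 2348181260) (nat_lit 380) (nat_lit 3671504402) (nat_lit 456) (nat_lit 8936820805) (nat_lit 133) (nat_lit 5) (nat_lit 138) (nat_lit 5) (nat_lit 139) (nat_lit 5) (nat_lit 367) (nat_lit 310) (nat_lit 223))) (XT.nd (nat_lit 78) (nat_lit 836) (nat_lit 0) (XT.lf (nat_lit 0) (nat_lit 11151004625) (nat_lit 456) (nat_lit 11104379) (nat_lit 76) (nat_lit 4073047728) (nat_lit 133) (nat_lit 5) (nat_lit 139) (nat_lit 5) (nat_lit 134) (nat_lit 5) (nat_lit 368) (nat_lit 310) (nat_lit 222)) (XT.nd (nat_lit 78) (nat_lit 380) (nat_lit 0) (XT.lf (nat_lit 0) (nat_lit 979235025) (nat_lit 456) (nat_lit 2465019341) (nat_lit 76) (nat_lit 12076259125) (nat_lit 127) (nat_lit 5) (nat_lit 133) (nat_lit 5) (nat_lit 128) (nat_lit 5) (nat_lit 369) (nat_lit 310) (nat_lit 221)) (XT.lf (nat_lit 0) (nat_lit 6206802835) (nat_lit 456) (nat_lit 5077613542) (nat_lit 76) (nat_lit 4528127300) (nat_lit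 122) (nat_lit 5) (nat_lit 128) (nat_lit 5) (nat_lit 123) (nat_lit 5) (nat_lit 370) (nat_lit 310) (nat_lit 220)))))) (XT.nd (nat_lit 390) (nat_lit 1292) (nat_lit 0) (XT.nd (nat_lit 156) (nat_lit 684) (nat_lit 0) (XT.nd (nat_lit 78) (nat_lit 456) (nat_lit 0) (XT.lf (nat_lit 0) (nat_lit 8289061427) (nat_lit 304) (nat_lit 3364019554) (nat_lit 380) (nat_lit 4459023871) (nat_lit 118) (nat_lit 5) (nat_lit 122) (nat_lit 5) (nat_lit 123) (nat_lit 5) (nat_lit 371) (nat_lit 310) (nat_lit 219)) (XT.lf (nat_lit 0) (nat_lit 903028589) (nat_lit 456) (nat_lit 10723340263) (nat_lit 76) (nat_lit 4792742476) (nat_lit 112) (nat_lit 5) (nat_lit 118) (nat_lit 5) (nat_lit 113) (nat_lit 5) (nat_lit 372) (nat_lit 310) (nat_lit 218))) (XT.nd (nat_lit 78) (nat_lit 380) (nat_lit 0) (XT.lf (nat_lit 0) (nat_lit 2931229677) (nat_lit 304) (nat_lit 3498493813) (nat_lit 380) (nat_lit 10303734955) (nat_lit 108) (nat_lit 5) (nat_lit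 112) (nat_lit 5) (nat_lit 113) (nat_lit 5) (nat_lit 373) (nat_lit 310) (nat_lit 217)) (XT.nd (nat_lit 78) (nat_lit 76) (nat_lit 0) (XT.lf (nat_lit 0) (nat_lit 7162570) (nat_lit 304) (nat_lit 12189503729) (nat_lit 380) (nat_lit 4859087690) (nat_lit 104) (nat_lit 5) (nat_lit 108) (nat_lit 5) (nat_lit 109) (nat_lit 5) (nat_lit 374) (nat_lit 310) (nat_lit 216)) (XT.lf (nat_lit 0) (nat_lit 826614318) (nat_lit 380) (nat_lit 3041848474) (nat_lit 76) (nat_lit 13517414233) (nat_lit 103) (nat_lit 5) (nat_lit 108) (nat_lit 5) (nat_lit 104) (nat_lit 5) (nat_lit 375) (nat_lit 310) (nat_lit 215))))) (XT.nd (nat_lit 156) (nat_lit 684) (nat_lit 0) (XT.nd (nat_lit 78) (nat_lit 304) (nat_lit 0) (XT.lf (nat_lit 0) (nat_lit 6693635353) (nat_lit 380) (nat_lit 6298139457) (nat_lit 76) (nat_lit 4731957719) (nat_lit 99) (nat_lit 5) (nat_lit 104) (nat_lit 5) (nat_lit 100) (nat_lit 5) (nat_lit 376) (nat_lit 310) (nat_lit 214))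 (XT.lf (nat_lit 0) (nat_lit 8335443883) (nat_lit 304) (nat_lit 4473281673) (nat_lit 380) (nat_lit 5261563209) (nat_lit 95) (nat_lit 5) (nat_lit 99) (nat_lit 5) (nat_lit 100) (nat_lit 5) (nat_lit 377) (nat_lit 310) (nat_lit 213))) (XT.nd (nat_lit 78) (nat_lit 304) (nat_lit 0) (XT.lf (nat_lit 0) (nat_lit 747106099) (nat_lit 380) (nat_lit 13369608059) (nat_lit 76) (nat_lit 4308925204) (nat_lit 90) (nat_lit 5) (nat_lit 95) (nat_lit 5) (nat_lit 91) (nat_lit 5) (nat_lit 378) (nat_lit 310) (nat_lit 212)) (XT.nd (nat_lit 78) (nat_lit 0) (nat_lit 0) (XT.lf (nat_lit 0) (nat_lit 1543632780) (nat_lit 304) (nat_lit 5399772490) (nat_lit 380) (nat_lit 11845978318) (nat_lit 86) (nat_lit 5) (nat_lit 90) (nat_lit 5) (nat_lit 91) (nat_lit 5) (nat_lit 379) (nat_lit 310) (nat_lit 211)) (XT.lf (nat_lit 0) (nat_lit 13412551211) (nat_lit 380) (nat_lit 2143137559) (nat_lit 76) (nat_lit 3606617812) (nat_lit 86) (nat_lit 5)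 (nat_lit 91) (nat_lit 5) (nat_lit 87) (nat_lit 5) (nat_lit 380) (nat_lit 310) (nat_lit 210))))))) (XT.nd (nat_lit 41886) (nat_lit 0) (nat_lit 33744) (XT.nd (nat_lit 41496) (nat_lit 0) (nat_lit 38380) (XT.nd (nat_lit 156) (nat_lit 608) (nat_lit 0) (XT.nd (nat_lit 78) (nat_lit 304) (nat_lit 0) (XT.lf (nat_lit 0) (nat_lit 620206248) (nat_lit 304) (nat_lit 6037981413) (nat_lit 76) (nat_lit 12886210304) (nat_lit 82) (nat_lit 5) (nat_lit 86) (nat_lit 5) (nat_lit 83) (nat_lit 5) (nat_lit 381) (nat_lit 310) (nat_lit 209)) (XT.lf (nat_lit 0) (nat_lit 7172194730) (nat_lit 380) (nat_lit 10189168050) (nat_lit 76) (nat_lit 2574453470) (nat_lit 78) (nat_lit 5) (nat_lit 83) (nat_lit 5) (nat_lit 79) (nat_lit 5) (nat_lit 382) (nat_lit 310) (nat_lit 208))) (XT.nd (nat_lit 78) (nat_lit 380) (nat_lit 0) (XT.lf (nat_lit 0) (nat_lit 5737315915) (nat_lit 228) (nat_lit 8280429125) (nat_lit 304) (nat_lit 6319297023) (nat_lit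 75) (nat_lit 5) (nat_lit 78) (nat_lit 5) (nat_lit 79) (nat_lit 5) (nat_lit 383) (nat_lit 310) (nat_lit 207)) (XT.nd (nat_lit 41184) (nat_lit 0) (nat_lit 39444) (XT.lf (nat_lit 0) (nat_lit 375219438) (nat_lit 380) (nat_lit 19249304444) (nat_lit 76) (nat_lit 1124523457) (nat_lit 70) (nat_lit 5) (nat_lit 75) (nat_lit 5) (nat_lit 71) (nat_lit 5) (nat_lit 384) (nat_lit 310) (nat_lit 206)) (XT.lf (nat_lit 0) (nat_lit 141302980) (nat_lit 0) (nat_lit 141302980) (nat_lit 988) (nat_lit 3198373681) (nat_lit 589) (nat_lit 5) (nat_lit 589) (nat_lit 3) (nat_lit 602) (nat_lit 3) (nat_lit 311) (nat_lit 311) (nat_lit 278))))) (XT.nd (nat_lit 156) (nat_lit 1064) (nat_lit 0) (XT.nd (nat_lit 78) (nat_lit 0) (nat_lit 0) (XT.lf (nat_lit 0) (nat_lit 3300275984) (nat_lit 988) (nat_lit 1692559816) (nat_lit 1064) (nat_lit 2017461369) (nat_lit 589) (nat_lit 5) (nat_lit 602) (nat_lit 3) (nat_lit 603) (nat_lit 5) (nat_lit 312)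 (nat_lit 311) (nat_lit 277)) (XT.lf (nat_lit 76) (nat_lit 3431483093) (nat_lit 0) (nat_lit 2604528990) (nat_lit 1064) (nat_lit 1025761579) (nat_lit 590) (nat_lit 5) (nat_lit 589) (nat_lit 5) (nat_lit 603) (nat_lit 5) (nat_lit 313) (nat_lit 311) (nat_lit 276))) (XT.nd (nat_lit 78) (nat_lit 0) (nat_lit 76) (XT.lf (nat_lit 76) (nat_lit 1571085044) (nat_lit 0) (nat_lit 63310314) (nat_lit 1140) (nat_lit 5481867672) (nat_lit 576) (nat_lit 5) (nat_lit 575) (nat_lit 5) (nat_lit 590) (nat_lit 5) (nat_lit 314) (nat_lit 311) (nat_lit 275)) (XT.nd (nat_lit 78) (nat_lit 0) (nat_lit 0) (XT.lf (nat_lit 0) (nat_lit 4301234165) (nat_lit 1064) (nat_lit 274773729) (nat_lit 1140) (nat_lit 2597483568) (nat_lit 576) (nat_lit 5) (nat_lit 590) (nat_lit 5) (nat_lit 591) (nat_lit 5) (nat_lit 315) (nat_lit 311) (nat_lit 274)) (XT.lf (nat_lit 76) (nat_lit 5165269773) (nat_lit 0) (nat_lit 1819086248) (nat_lit 1140) (nat_lit 249409785)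 (nat_lit 577) (nat_lit 5) (nat_lit 576) (nat_lit 5) (nat_lit 591) (nat_lit 5) (nat_lit 316) (nat_lit 311) (nat_lit 273)))))) (XT.nd (nat_lit 390) (nat_lit 2432) (nat_lit 0) (XT.nd (nat_lit 156) (nat_lit 1216) (nat_lit 0) (XT.nd (nat_lit 78) (nat_lit 0) (nat_lit 0) (XT.lf (nat_lit 0) (nat_lit 2355508082) (nat_lit 1140) (nat_lit 3854604632) (nat_lit 1216) (nat_lit 1086758336) (nat_lit 562) (nat_lit 5) (nat_lit 577) (nat_lit 5) (nat_lit 578) (nat_lit 5) (nat_lit 317) (nat_lit 311) (nat_lit 272)) (XT.lf (nat_lit 76) (nat_lit 1736455841) (nat_lit 0) (nat_lit 3243102536) (nat_lit 1216) (nat_lit 2383441108) (nat_lit 563) (nat_lit 5) (nat_lit 562) (nat_lit 5) (nat_lit 578) (nat_lit 5) (nat_lit 318) (nat_lit 311) (nat_lit 271))) (XT.nd (nat_lit 78) (nat_lit 0) (nat_lit 76) (XT.lf (nat_lit 76) (nat_lit 58585018) (nat_lit 0) (nat_lit 124514537) (nat_lit 1292) (nat_lit 7249324117) (nat_lit 547) (nat_lit 5) (nat_lit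 546) (nat_lit 5) (nat_lit 563) (nat_lit 5) (nat_lit 319) (nat_lit 311) (nat_lit 270)) (XT.nd (nat_lit 78) (nat_lit 0) (nat_lit 0) (XT.lf (nat_lit 0) (nat_lit 2763874386) (nat_lit 1216) (nat_lit 1607025424) (nat_lit 1292) (nat_lit 3133369933) (nat_lit 547) (nat_lit 5) (nat_lit 563) (nat_lit 5) (nat_lit 564) (nat_lit 5) (nat_lit 320) (nat_lit 311) (nat_lit 269)) (XT.lf (nat_lit 76) (nat_lit 4331581248) (nat_lit 0) (nat_lit 1033047687) (nat_lit 1292) (nat_lit 2214836416) (nat_lit 548) (nat_lit 5) (nat_lit 547) (nat_lit 5) (nat_lit 564) (nat_lit 5) (nat_lit 321) (nat_lit 311) (nat_lit 268))))) (XT.nd (nat_lit 156) (nat_lit 1292) (nat_lit 0) (XT.nd (nat_lit 78) (nat_lit 0) (nat_lit 0) (XT.lf (nat_lit 0) (nat_lit 341650108) (nat_lit 1292) (nat_lit 4883800338) (nat_lit 1368) (nat_lit 2432254703) (nat_lit 531) (nat_lit 5) (nat_lit 548) (nat_lit 5) (nat_lit 549) (nat_lit 5) (nat_lit 322) (nat_lit 311) (nat_lit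 267)) (XT.lf (nat_lit 76) (nat_lit 1218704653) (nat_lit 0) (nat_lit 1680607807) (nat_lit 1368) (nat_lit 4839637282) (nat_lit 532) (nat_lit 5) (nat_lit 531) (nat_lit 5) (nat_lit 549) (nat_lit 5) (nat_lit 323) (nat_lit 311) (nat_lit 266))) (XT.nd (nat_lit 78) (nat_lit 1368) (nat_lit 0) (XT.lf (nat_lit 0) (nat_lit 5499419881) (nat_lit 1292) (nat_lit 323068999) (nat_lit 1368) (nat_lit 2000869117) (nat_lit 532) (nat_lit 5) (nat_lit 549) (nat_lit 5) (nat_lit 550) (nat_lit 5) (nat_lit 324) (nat_lit 311) (nat_lit 265)) (XT.nd (nat_lit 78) (nat_lit 0) (nat_lit 76) (XT.lf (nat_lit 0) (nat_lit 236111278) (nat_lit 1368) (nat_lit 1841530635) (nat_lit 1444) (nat_lit 5833212875) (nat_lit 514) (nat_lit 5) (nat_lit 532) (nat_lit 5) (nat_lit 533) (nat_lit 5) (nat_lit 325) (nat_lit 311) (nat_lit 264)) (XT.lf (nat_lit 0) (nat_lit 2809237377) (nat_lit 1368) (nat_lit 3368865282) (nat_lit 76) (nat_lit 1823247176) (nat_lit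 515) (nat_lit 5) (nat_lit 533) (nat_lit 5) (nat_lit 516) (nat_lit 5) (nat_lit 326) (nat_lit 311) (nat_lit 263))))))))
noncomputable def xc70 : XT := (XT.nd (nat_lit 1560) (nat_lit 9424) (nat_lit 0) (XT.nd (nat_lit 780) (nat_lit 7220) (nat_lit 0) (XT.nd (nat_lit 390) (nat_lit 5548) (nat_lit 0) (XT.nd (nat_lit 156) (nat_lit 3192) (nat_lit 0) (XT.nd (nat_lit 78) (nat_lit 1444) (nat_lit 0) (XT.lf (nat_lit 0) (nat_lit 3201290379) (nat_lit 1368) (nat_lit 2230803734) (nat_lit 1444) (nat_lit 2663051334) (nat_lit 497) (nat_lit 5) (nat_lit 515) (nat_lit 5) (nat_lit 516) (nat_lit 5) (nat_lit 327) (nat_lit 311) (nat_lit 262)) (XT.lf (nat_lit 0) (nat_lit 1775605385) (nat_lit 1444) (nat_lit 6331653072) (nat_lit 1520) (nat_lit 85059422) (nat_lit 478) (nat_lit 5) (nat_lit 497) (nat_lit 5) (nat_lit 498) (nat_lit 5) (nat_lit 328) (nat_lit 311) (nat_lit 261))) (XT.nd (nat_lit 78) (nat_lit 1596) (nat_lit 0) (XT.lf (nat_lit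 0) (nat_lit 333938027) (nat_lit 1520) (nat_lit 2181532579) (nat_lit 1596) (nat_lit 5777056645) (nat_lit 457) (nat_lit 5) (nat_lit 477) (nat_lit 5) (nat_lit 478) (nat_lit 5) (nat_lit 329) (nat_lit 311) (nat_lit 260)) (XT.nd (nat_lit 78) (nat_lit 1596) (nat_lit 0) (XT.lf (nat_lit 0) (nat_lit 5180450337) (nat_lit 1596) (nat_lit 1093938756) (nat_lit 76) (nat_lit 2121623482) (nat_lit 457) (nat_lit 5) (nat_lit 478) (nat_lit 5) (nat_lit 458) (nat_lit 5) (nat_lit 330) (nat_lit 311) (nat_lit 259)) (XT.lf (nat_lit 0) (nat_lit 5982701314) (nat_lit 1596) (nat_lit 1928366482) (nat_lit 1672) (nat_lit 591852647) (nat_lit 436) (nat_lit 5) (nat_lit 457) (nat_lit 5) (nat_lit 458) (nat_lit 5) (nat_lit 331) (nat_lit 311) (nat_lit 258))))) (XT.nd (nat_lit 156) (nat_lit 2052) (nat_lit 0) (XT.nd (nat_lit 78) (nat_lit 1748) (nat_lit 0) (XT.lf (nat_lit 0) (nat_lit 2070959709) (nat_lit 1748) (nat_lit 3966977556) (nat_lit 76)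 (nat_lit 2575093002) (nat_lit 413) (nat_lit 5) (nat_lit 436) (nat_lit 5) (nat_lit 414) (nat_lit 5) (nat_lit 332) (nat_lit 311) (nat_lit 257)) (XT.lf (nat_lit 0) (nat_lit 3303823451) (nat_lit 1748) (nat_lit 1488390286) (nat_lit 1824) (nat_lit 3934448782) (nat_lit 390) (nat_lit 5) (nat_lit 413) (nat_lit 5) (nat_lit 414) (nat_lit 5) (nat_lit 333) (nat_lit 311) (nat_lit 256))) (XT.nd (nat_lit 78) (nat_lit 988) (nat_lit 0) (XT.lf (nat_lit 0) (nat_lit 1949876052) (nat_lit 1064) (nat_lit 5642285746) (nat_lit 1140) (nat_lit 1251629299) (nat_lit 376) (nat_lit 5) (nat_lit 390) (nat_lit 5) (nat_lit 391) (nat_lit 5) (nat_lit 334) (nat_lit 311) (nat_lit 255)) (XT.nd (nat_lit 78) (nat_lit 0) (nat_lit 0) (XT.lf (nat_lit 0) (nat_lit 583396853) (nat_lit 912) (nat_lit 896794548) (nat_lit 988) (nat_lit 7484306100) (nat_lit 363) (nat_lit 5) (nat_lit 375) (nat_lit 5) (nat_lit 376) (nat_lit 5) (nat_lit 335) (nat_lit 311)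 (nat_lit 254)) (XT.lf (nat_lit 0) (nat_lit 4289072184) (nat_lit 988) (nat_lit 801952569) (nat_lit 76) (nat_lit 3997419001) (nat_lit 363) (nat_lit 5) (nat_lit 376) (nat_lit 5) (nat_lit 364) (nat_lit 5) (nat_lit 336) (nat_lit 311) (nat_lit 253)))))) (XT.nd (nat_lit 390) (nat_lit 2964) (nat_lit 0) (XT.nd (nat_lit 156) (nat_lit 2508) (nat_lit 0) (XT.nd (nat_lit 78) (nat_lit 912) (nat_lit 0) (XT.lf (nat_lit 0) (nat_lit 7033672322) (nat_lit 836) (nat_lit 141062011) (nat_lit 912) (nat_lit 2041549322) (nat_lit 352) (nat_lit 5) (nat_lit 363) (nat_lit 5) (nat_lit 364) (nat_lit 5) (nat_lit 337) (nat_lit 311) (nat_lit 252)) (XT.lf (nat_lit 0) (nat_lit 805847803) (nat_lit 912) (nat_lit 3599626352) (nat_lit 76) (nat_lit 4942058783) (nat_lit 340) (nat_lit 5) (nat_lit 352) (nat_lit 5) (nat_lit 341) (nat_lit 5) (nat_lit 338) (nat_lit 311) (nat_lit 251))) (XT.nd (nat_lit 78) (nat_lit 1672) (nat_lit 0) (XT.lf (nat_lit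 0) (nat_lit 3703827883) (nat_lit 912) (nat_lit 5037387198) (nat_lit 76) (nat_lit 741400392) (nat_lit 329) (nat_lit 5) (nat_lit 341) (nat_lit 5) (nat_lit 330) (nat_lit 5) (nat_lit 339) (nat_lit 311) (nat_lit 250)) (XT.nd (nat_lit 78) (nat_lit 836) (nat_lit 0) (XT.lf (nat_lit 0) (nat_lit 3113184961) (nat_lit 836) (nat_lit 3594212838) (nat_lit 912) (nat_lit 2914002610) (nat_lit 318) (nat_lit 5) (nat_lit 329) (nat_lit 5) (nat_lit 330) (nat_lit 5) (nat_lit 340) (nat_lit 311) (nat_lit 249)) (XT.lf (nat_lit 0) (nat_lit 38822376) (nat_lit 836) (nat_lit 7996761941) (nat_lit 76) (nat_lit 1728730068) (nat_lit 307) (nat_lit 5) (nat_lit 318) (nat_lit 5) (nat_lit 308) (nat_lit 5) (nat_lit 341) (nat_lit 311) (nat_lit 248))))) (XT.nd (nat_lit 156) (nat_lit 2204) (nat_lit 0) (XT.nd (nat_lit 78) (nat_lit 0) (nat_lit 0) (XT.lf (nat_lit 0) (nat_lit 373711174) (nat_lit 760) (nat_lit 2684514431) (nat_lit 836) (nat_lit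 6852574470) (nat_lit 297) (nat_lit 5) (nat_lit 307) (nat_lit 5) (nat_lit 308) (nat_lit 5) (nat_lit 342) (nat_lit 311) (nat_lit 247)) (XT.lf (nat_lit 0) (nat_lit 6188779440) (nat_lit 836) (nat_lit 1032079171) (nat_lit 76) (nat_lit 2840430928) (nat_lit 297) (nat_lit 5) (nat_lit 308) (nat_lit 5) (nat_lit 298) (nat_lit 5) (nat_lit 343) (nat_lit 311) (nat_lit 246))) (XT.nd (nat_lit 78) (nat_lit 1520) (nat_lit 0) (XT.lf (nat_lit 0) (nat_lit 7755997344) (nat_lit 684) (nat_lit 1674752195) (nat_lit 760) (nat_lit 785214128) (nat_lit 288) (nat_lit 5) (nat_lit 297) (nat_lit 5) (nat_lit 298) (nat_lit 5) (nat_lit 344) (nat_lit 311) (nat_lit 245)) (XT.nd (nat_lit 78) (nat_lit 684) (nat_lit 0) (XT.lf (nat_lit 0) (nat_lit 2388849457) (nat_lit 836) (nat_lit 3941406131) (nat_lit 76) (nat_lit 4044219372) (nat_lit 277) (nat_lit 5) (nat_lit 288) (nat_lit 5) (nat_lit 278) (nat_lit 5) (nat_lit 345) (nat_lit 311) (nat_lit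 244)) (XT.lf (nat_lit 0) (nat_lit 5083583021) (nat_lit 684) (nat_lit 575959842) (nat_lit 760) (nat_lit 4877871864) (nat_lit 268) (nat_lit 5) (nat_lit 277) (nat_lit 5) (nat_lit 278) (nat_lit 5) (nat_lit 346) (nat_lit 311) (nat_lit 243))))))) (XT.nd (nat_lit 780) (nat_lit 3876) (nat_lit 0) (XT.nd (nat_lit 390) (nat_lit 2888) (nat_lit 0) (XT.nd (nat_lit 156) (nat_lit 1292) (nat_lit 0) (XT.nd (nat_lit 78) (nat_lit 684) (nat_lit 0) (XT.lf (nat_lit 0) (nat_lit 3686276383) (nat_lit 684) (nat_lit 5379696862) (nat_lit 760) (nat_lit 1638535039) (nat_lit 259) (nat_lit 5) (nat_lit 268) (nat_lit 5) (nat_lit 269) (nat_lit 5) (nat_lit 347) (nat_lit 311) (nat_lit 242)) (XT.lf (nat_lit 0) (nat_lit 1687925232) (nat_lit 684) (nat_lit 8621561675) (nat_lit 76) (nat_lit 566680057) (nat_lit 250) (nat_lit 5) (nat_lit 259) (nat_lit 5) (nat_lit 251) (nat_lit 5) (nat_lit 348) (nat_lit 311) (nat_lit 241))) (XT.nd (nat_lit 78)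 (nat_lit 684) (nat_lit 0) (XT.lf (nat_lit 0) (nat_lit 756905443) (nat_lit 608) (nat_lit 4377638347) (nat_lit 684) (nat_lit 5917379046) (nat_lit 242) (nat_lit 5) (nat_lit 250) (nat_lit 5) (nat_lit 251) (nat_lit 5) (nat_lit 349) (nat_lit 311) (nat_lit 240)) (XT.nd (nat_lit 78) (nat_lit 684) (nat_lit 0) (XT.lf (nat_lit 0) (nat_lit 8709285181) (nat_lit 684) (nat_lit 764080692) (nat_lit 76) (nat_lit 1759107105) (nat_lit 242) (nat_lit 5) (nat_lit 251) (nat_lit 5) (nat_lit 243) (nat_lit 5) (nat_lit 350) (nat_lit 311) (nat_lit 239)) (XT.lf (nat_lit 0) (nat_lit 1004623590) (nat_lit 684) (nat_lit 2335257993) (nat_lit 76) (nat_lit 8077555956) (nat_lit 233) (nat_lit 5) (nat_lit 242) (nat_lit 5) (nat_lit 234) (nat_lit 5) (nat_lit 351) (nat_lit 311) (nat_lit 238))))) (XT.nd (nat_lit 156) (nat_lit 1748) (nat_lit 0) (XT.nd (nat_lit 78) (nat_lit 532) (nat_lit 0) (XT.lf (nat_lit 0) (nat_lit 4635476371) (nat_lit 684)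 (nat_lit 3970702350) (nat_lit 76) (nat_lit 3000823863) (nat_lit 225) (nat_lit 5) (nat_lit 234) (nat_lit 5) (nat_lit 226) (nat_lit 5) (nat_lit 352) (nat_lit 311) (nat_lit 237)) (XT.lf (nat_lit 0) (nat_lit 6141703593) (nat_lit 532) (nat_lit 2269174022) (nat_lit 608) (nat_lit 3390678934) (nat_lit 218) (nat_lit 5) (nat_lit 225) (nat_lit 5) (nat_lit 226) (nat_lit 5) (nat_lit 353) (nat_lit 311) (nat_lit 236))) (XT.nd (nat_lit 78) (nat_lit 1064) (nat_lit 0) (XT.lf (nat_lit 0) (nat_lit 336796956) (nat_lit 684) (nat_lit 7413874760) (nat_lit 76) (nat_lit 4250388381) (nat_lit 209) (nat_lit 5) (nat_lit 218) (nat_lit 5) (nat_lit 210) (nat_lit 5) (nat_lit 354) (nat_lit 311) (nat_lit 235)) (XT.nd (nat_lit 78) (nat_lit 532) (nat_lit 0) (XT.lf (nat_lit 0) (nat_lit 2961015568) (nat_lit 532) (nat_lit 1201183049) (nat_lit 608) (nat_lit 8043271867) (nat_lit 202) (nat_lit 5) (nat_lit 209) (nat_lit 5) (nat_lit 210) (nat_lit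 5) (nat_lit 355) (nat_lit 311) (nat_lit 234)) (XT.lf (nat_lit 0) (nat_lit 1260909800) (nat_lit 532) (nat_lit 6895890106) (nat_lit 608) (nat_lit 4258137468) (nat_lit 195) (nat_lit 5) (nat_lit 202) (nat_lit 5) (nat_lit 203) (nat_lit 5) (nat_lit 356) (nat_lit 311) (nat_lit 233)))))) (XT.nd (nat_lit 390) (nat_lit 1824) (nat_lit 0) (XT.nd (nat_lit 156) (nat_lit 1520) (nat_lit 0) (XT.nd (nat_lit 78) (nat_lit 532) (nat_lit 0) (XT.lf (nat_lit 0) (nat_lit 12147773412) (nat_lit 532) (nat_lit 154604536) (nat_lit 608) (nat_lit 327700114) (nat_lit 195) (nat_lit 5) (nat_lit 202) (nat_lit 5) (nat_lit 203) (nat_lit 5) (nat_lit 357) (nat_lit 311) (nat_lit 232)) (XT.lf (nat_lit 0) (nat_lit 3746511649) (nat_lit 532) (nat_lit 2322203295) (nat_lit 76) (nat_lit 6780993682) (nat_lit 188) (nat_lit 5) (nat_lit 195) (nat_lit 5) (nat_lit 189) (nat_lit 5) (nat_lit 358) (nat_lit 311) (nat_lit 231))) (XT.nd (nat_lit 78) (nat_lit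 988) (nat_lit 0) (XT.lf (nat_lit 0) (nat_lit 7968320733) (nat_lit 608) (nat_lit 4220867969) (nat_lit 76) (nat_lit 886111234) (nat_lit 181) (nat_lit 5) (nat_lit 189) (nat_lit 5) (nat_lit 182) (nat_lit 5) (nat_lit 359) (nat_lit 311) (nat_lit 230)) (XT.nd (nat_lit 78) (nat_lit 532) (nat_lit 0) (XT.lf (nat_lit 0) (nat_lit 7092366329) (nat_lit 456) (nat_lit 5289701008) (nat_lit 532) (nat_lit 924297258) (nat_lit 175) (nat_lit 5) (nat_lit 181) (nat_lit 5) (nat_lit 182) (nat_lit 5) (nat_lit 360) (nat_lit 311) (nat_lit 229)) (XT.lf (nat_lit 0) (nat_lit 3377983216) (nat_lit 532) (nat_lit 8300373607) (nat_lit 76) (nat_lit 1864805735) (nat_lit 168) (nat_lit 5) (nat_lit 175) (nat_lit 5) (nat_lit 169) (nat_lit 5) (nat_lit 361) (nat_lit 311) (nat_lit 228))))) (XT.nd (nat_lit 156) (nat_lit 912) (nat_lit 0) (XT.nd (nat_lit 78) (nat_lit 456) (nat_lit 0) (XT.lf (nat_lit 0) (nat_lit 3293204036) (nat_lit 456) (nat_lit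 4566759855) (nat_lit 532) (nat_lit 5925725005) (nat_lit 162) (nat_lit 5) (nat_lit 168) (nat_lit 5) (nat_lit 169) (nat_lit 5) (nat_lit 362) (nat_lit 311) (nat_lit 227)) (XT.lf (nat_lit 0) (nat_lit 1262034483) (nat_lit 456) (nat_lit 11261700845) (nat_lit 532) (nat_lit 1510819187) (nat_lit 156) (nat_lit 5) (nat_lit 162) (nat_lit 5) (nat_lit 163) (nat_lit 5) (nat_lit 363) (nat_lit 311) (nat_lit 226))) (XT.nd (nat_lit 78) (nat_lit 836) (nat_lit 0) (XT.lf (nat_lit 0) (nat_lit 3063902828) (nat_lit 532) (nat_lit 877115725) (nat_lit 76) (nat_lit 10348138999) (nat_lit 155) (nat_lit 5) (nat_lit 162) (nat_lit 5) (nat_lit 156) (nat_lit 5) (nat_lit 364) (nat_lit 311) (nat_lit 225)) (XT.nd (nat_lit 78) (nat_lit 456) (nat_lit 0) (XT.lf (nat_lit 0) (nat_lit 7819844770) (nat_lit 456) (nat_lit 3107078611) (nat_lit 76) (nat_lit 3622994828) (nat_lit 150) (nat_lit 5) (nat_lit 156) (nat_lit 5) (nat_lit 151) (nat_lit 5)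 (nat_lit 365) (nat_lit 311) (nat_lit 224)) (XT.lf (nat_lit 0) (nat_lit 9374483727) (nat_lit 456) (nat_lit 3403870657) (nat_lit 532) (nat_lit 2038958589) (nat_lit 144) (nat_lit 5) (nat_lit 150) (nat_lit 5) (nat_lit 151) (nat_lit 5) (nat_lit 366) (nat_lit 311) (nat_lit 223))))))))
noncomputable def xc71 : XT := (XT.nd (nat_lit 42744) (nat_lit 0) (nat_lit 25688) (XT.nd (nat_lit 780) (nat_lit 2128) (nat_lit 0) (XT.nd (nat_lit 390) (nat_lit 1444) (nat_lit 0) (XT.nd (nat_lit 156) (nat_lit 836) (nat_lit 0) (XT.nd (nat_lit 78) (nat_lit 380) (nat_lit 0) (XT.lf (nat_lit 0) (nat_lit 2820069233) (nat_lit 456) (nat_lit 7911116184) (nat_lit 76) (nat_lit 4359913960) (nat_lit 138) (nat_lit 5) (nat_lit 144) (nat_lit 5) (nat_lit 139) (nat_lit 5) (nat_lit 367) (nat_lit 311) (nat_lit 222)) (XT.lf (nat_lit 0) (nat_lit 4863225574) (nat_lit 380) (nat_lit 2993244567) (nat_lit 456) (nat_lit 7515181993) (nat_lit 133) (nat_lit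 5) (nat_lit 138) (nat_lit 5) (nat_lit 139) (nat_lit 5) (nat_lit 368) (nat_lit 311) (nat_lit 221))) (XT.nd (nat_lit 78) (nat_lit 456) (nat_lit 0) (XT.lf (nat_lit 0) (nat_lit 2421318078) (nat_lit 380) (nat_lit 10692862496) (nat_lit 456) (nat_lit 2545044694) (nat_lit 128) (nat_lit 5) (nat_lit 133) (nat_lit 5) (nat_lit 134) (nat_lit 5) (nat_lit 369) (nat_lit 311) (nat_lit 220)) (XT.nd (nat_lit 78) (nat_lit 380) (nat_lit 0) (XT.lf (nat_lit 0) (nat_lit 2600762678) (nat_lit 456) (nat_lit 155371529) (nat_lit 76) (nat_lit 13197758330) (nat_lit 127) (nat_lit 5) (nat_lit 133) (nat_lit 5) (nat_lit 128) (nat_lit 5) (nat_lit 370) (nat_lit 311) (nat_lit 219)) (XT.lf (nat_lit 0) (nat_lit 7959098790) (nat_lit 456) (nat_lit 2858502438) (nat_lit 76) (nat_lit 5437615032) (nat_lit 122) (nat_lit 5) (nat_lit 128) (nat_lit 5) (nat_lit 123) (nat_lit 5) (nat_lit 371) (nat_lit 311) (nat_lit 218))))) (XT.nd (nat_lit 156) (nat_lit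 684) (nat_lit 0) (XT.nd (nat_lit 78) (nat_lit 456) (nat_lit 0) (XT.lf (nat_lit 0) (nat_lit 10870698991) (nat_lit 304) (nat_lit 2667599125) (nat_lit 380) (nat_lit 3026086622) (nat_lit 118) (nat_lit 5) (nat_lit 122) (nat_lit 5) (nat_lit 123) (nat_lit 5) (nat_lit 372) (nat_lit 311) (nat_lit 217)) (XT.lf (nat_lit 0) (nat_lit 2451471999) (nat_lit 456) (nat_lit 8703867369) (nat_lit 76) (nat_lit 5725565339) (nat_lit 112) (nat_lit 5) (nat_lit 118) (nat_lit 5) (nat_lit 113) (nat_lit 5) (nat_lit 373) (nat_lit 311) (nat_lit 216))) (XT.nd (nat_lit 78) (nat_lit 380) (nat_lit 0) (XT.lf (nat_lit 0) (nat_lit 5322356917) (nat_lit 304) (nat_lit 2792253430) (nat_lit 380) (nat_lit 9090669317) (nat_lit 108) (nat_lit 5) (nat_lit 112) (nat_lit 5) (nat_lit 113) (nat_lit 5) (nat_lit 374) (nat_lit 311) (nat_lit 215)) (XT.nd (nat_lit 78) (nat_lit 76) (nat_lit 0) (XT.lf (nat_lit 0) (nat_lit 2297712758) (nat_lit 304) (nat_lit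 11733376303) (nat_lit 380) (nat_lit 3506634440) (nat_lit 104) (nat_lit 5) (nat_lit 108) (nat_lit 5) (nat_lit 109) (nat_lit 5) (nat_lit 375) (nat_lit 311) (nat_lit 214)) (XT.lf (nat_lit 0) (nat_lit 2286923795) (nat_lit 380) (nat_lit 890083596) (nat_lit 76) (nat_lit 14701419094) (nat_lit 103) (nat_lit 5) (nat_lit 108) (nat_lit 5) (nat_lit 104) (nat_lit 5) (nat_lit 376) (nat_lit 311) (nat_lit 213)))))) (XT.nd (nat_lit 390) (nat_lit 836) (nat_lit 0) (XT.nd (nat_lit 156) (nat_lit 684) (nat_lit 0) (XT.nd (nat_lit 78) (nat_lit 304) (nat_lit 0) (XT.lf (nat_lit 0) (nat_lit 8307656425) (nat_lit 380) (nat_lit 4257170763) (nat_lit 76) (nat_lit 5662045668) (nat_lit 99) (nat_lit 5) (nat_lit 104) (nat_lit 5) (nat_lit 100) (nat_lit 5) (nat_lit 377) (nat_lit 311) (nat_lit 212)) (XT.lf (nat_lit 0) (nat_lit 10779242390) (nat_lit 304) (nat_lit 3800038613) (nat_lit 380) (nat_lit 4005092096) (nat_lit 95) (nat_lit 5) (nat_lit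 99) (nat_lit 5) (nat_lit 100) (nat_lit 5) (nat_lit 378) (nat_lit 311) (nat_lit 211))) (XT.nd (nat_lit 78) (nat_lit 304) (nat_lit 0) (XT.lf (nat_lit 0) (nat_lit 2144009630) (nat_lit 380) (nat_lit 11571589251) (nat_lit 76) (nat_lit 5235035775) (nat_lit 90) (nat_lit 5) (nat_lit 95) (nat_lit 5) (nat_lit 91) (nat_lit 5) (nat_lit 379) (nat_lit 311) (nat_lit 210)) (XT.nd (nat_lit 78) (nat_lit 0) (nat_lit 0) (XT.lf (nat_lit 0) (nat_lit 3753370914) (nat_lit 304) (nat_lit 4746839581) (nat_lit 380) (nat_lit 10825608735) (nat_lit 86) (nat_lit 5) (nat_lit 90) (nat_lit 5) (nat_lit 91) (nat_lit 5) (nat_lit 380) (nat_lit 311) (nat_lit 209)) (XT.lf (nat_lit 0) (nat_lit 15129290958) (nat_lit 380) (nat_lit 85699670) (nat_lit 76) (nat_lit 4495630115) (nat_lit 86) (nat_lit 5) (nat_lit 91) (nat_lit 5) (nat_lit 87) (nat_lit 5) (nat_lit 381) (nat_lit 311) (nat_lit 208))))) (XT.nd (nat_lit 156) (nat_lit 228) (nat_lit 0) (XT.nd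 (nat_lit 78) (nat_lit 304) (nat_lit 0) (XT.lf (nat_lit 0) (nat_lit 1937242599) (nat_lit 304) (nat_lit 4114301092) (nat_lit 76) (nat_lit 14052962734) (nat_lit 82) (nat_lit 5) (nat_lit 86) (nat_lit 5) (nat_lit 83) (nat_lit 5) (nat_lit 382) (nat_lit 311) (nat_lit 207)) (XT.lf (nat_lit 0) (nat_lit 8666588711) (nat_lit 380) (nat_lit 8403615113) (nat_lit 76) (nat_lit 3437854898) (nat_lit 78) (nat_lit 5) (nat_lit 83) (nat_lit 5) (nat_lit 79) (nat_lit 5) (nat_lit 383) (nat_lit 311) (nat_lit 206))) (XT.nd (nat_lit 41262) (nat_lit 0) (nat_lit 37924) (XT.lf (nat_lit 0) (nat_lit 7966735681) (nat_lit 228) (nat_lit 7726868135) (nat_lit 304) (nat_lit 5228202735) (nat_lit 75) (nat_lit 5) (nat_lit 78) (nat_lit 5) (nat_lit 79) (nat_lit 5) (nat_lit 384) (nat_lit 311) (nat_lit 205)) (XT.nd (nat_lit 78) (nat_lit 1140) (nat_lit 0) (XT.lf (nat_lit 0) (nat_lit 1489157612) (nat_lit 0) (nat_lit 1489157612) (nat_lit 988) (nat_lit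 551804391) (nat_lit 589) (nat_lit 5) (nat_lit 589) (nat_lit 3) (nat_lit 602) (nat_lit 3) (nat_lit 312) (nat_lit 312) (nat_lit 276)) (XT.lf (nat_lit 76) (nat_lit 989964033) (nat_lit 0) (nat_lit 486937967) (nat_lit 1140) (nat_lit 5636297382) (nat_lit 575) (nat_lit 5) (nat_lit 574) (nat_lit 3) (nat_lit 589) (nat_lit 5) (nat_lit 313) (nat_lit 312) (nat_lit 275))))))) (XT.nd (nat_lit 780) (nat_lit 8892) (nat_lit 0) (XT.nd (nat_lit 390) (nat_lit 2356) (nat_lit 0) (XT.nd (nat_lit 156) (nat_lit 1064) (nat_lit 0) (XT.nd (nat_lit 78) (nat_lit 0) (nat_lit 0) (XT.lf (nat_lit 0) (nat_lit 4060710804) (nat_lit 1064) (nat_lit 972747552) (nat_lit 1140) (nat_lit 2135382807) (nat_lit 575) (nat_lit 5) (nat_lit 589) (nat_lit 5) (nat_lit 590) (nat_lit 5) (nat_lit 314) (nat_lit 312) (nat_lit 274)) (XT.lf (nat_lit 76) (nat_lit 4333038506) (nat_lit 0) (nat_lit 2322761337) (nat_lit 1140) (nat_lit 571731653) (nat_lit 576) (nat_lit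 5) (nat_lit 575) (nat_lit 5) (nat_lit 590) (nat_lit 5) (nat_lit 315) (nat_lit 312) (nat_lit 273))) (XT.nd (nat_lit 78) (nat_lit 0) (nat_lit 0) (XT.lf (nat_lit 0) (nat_lit 1944555571) (nat_lit 1140) (nat_lit 4803228451) (nat_lit 1216) (nat_lit 541374274) (nat_lit 561) (nat_lit 5) (nat_lit 576) (nat_lit 5) (nat_lit 577) (nat_lit 5) (nat_lit 316) (nat_lit 312) (nat_lit 272)) (XT.nd (nat_lit 78) (nat_lit 0) (nat_lit 0) (XT.lf (nat_lit 76) (nat_lit 649600404) (nat_lit 0) (nat_lit 3825419188) (nat_lit 1216) (nat_lit 2878660079) (nat_lit 562) (nat_lit 5) (nat_lit 561) (nat_lit 5) (nat_lit 577) (nat_lit 5) (nat_lit 317) (nat_lit 312) (nat_lit 271)) (XT.lf (nat_lit 76) (nat_lit 6278070322) (nat_lit 0) (nat_lit 745154606) (nat_lit 1216) (nat_lit 398124215) (nat_lit 562) (nat_lit 5) (nat_lit 561) (nat_lit 5) (nat_lit 577) (nat_lit 5) (nat_lit 318) (nat_lit 312) (nat_lit 270))))) (XT.nd (nat_lit 156) (nat_lit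 1216) (nat_lit 0) (XT.nd (nat_lit 78) (nat_lit 0) (nat_lit 0) (XT.lf (nat_lit 0) (nat_lit 2085829026) (nat_lit 1216) (nat_lit 2931257630) (nat_lit 1292) (nat_lit 2474582844) (nat_lit 546) (nat_lit 5) (nat_lit 562) (nat_lit 5) (nat_lit 563) (nat_lit 5) (nat_lit 319) (nat_lit 312) (nat_lit 269)) (XT.lf (nat_lit 76) (nat_lit 2862278025) (nat_lit 0) (nat_lit 1721765114) (nat_lit 1292) (nat_lit 2981145954) (nat_lit 547) (nat_lit 5) (nat_lit 546) (nat_lit 5) (nat_lit 563) (nat_lit 5) (nat_lit 320) (nat_lit 312) (nat_lit 268))) (XT.nd (nat_lit 78) (nat_lit 1292) (nat_lit 0) (XT.lf (nat_lit 76) (nat_lit 1178166062) (nat_lit 0) (nat_lit 5933656943) (nat_lit 1292) (nat_lit 530042847) (nat_lit 548) (nat_lit 5) (nat_lit 547) (nat_lit 5) (nat_lit 564) (nat_lit 5) (nat_lit 321) (nat_lit 312) (nat_lit 267)) (XT.nd (nat_lit 78) (nat_lit 0) (nat_lit 76) (XT.lf (nat_lit 0) (nat_lit 1929649107) (nat_lit 1292) (nat_lit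 500589234) (nat_lit 1368) (nat_lit 5291163110) (nat_lit 530) (nat_lit 5) (nat_lit 547) (nat_lit 5) (nat_lit 548) (nat_lit 5) (nat_lit 322) (nat_lit 312) (nat_lit 266)) (XT.lf (nat_lit 0) (nat_lit 4420812436) (nat_lit 1292) (nat_lit 2154301455) (nat_lit 1368) (nat_lit 1228882147) (nat_lit 531) (nat_lit 5) (nat_lit 548) (nat_lit 5) (nat_lit 549) (nat_lit 5) (nat_lit 323) (nat_lit 312) (nat_lit 265)))))) (XT.nd (nat_lit 390) (nat_lit 6308) (nat_lit 0) (XT.nd (nat_lit 156) (nat_lit 1368) (nat_lit 0) (XT.nd (nat_lit 78) (nat_lit 1292) (nat_lit 0) (XT.lf (nat_lit 76) (nat_lit 4084618793) (nat_lit 0) (nat_lit 2870443878) (nat_lit 1368) (nat_lit 934678197) (nat_lit 532) (nat_lit 5) (nat_lit 531) (nat_lit 5) (nat_lit 549) (nat_lit 5) (nat_lit 324) (nat_lit 312) (nat_lit 264)) (XT.lf (nat_lit 0) (nat_lit 1527677222) (nat_lit 1368) (nat_lit 5455314974) (nat_lit 1444) (nat_lit 995673030) (nat_lit 514) (nat_lit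 5) (nat_lit 532) (nat_lit 5) (nat_lit 533) (nat_lit 5) (nat_lit 325) (nat_lit 312) (nat_lit 263))) (XT.nd (nat_lit 78) (nat_lit 1368) (nat_lit 0) (XT.lf (nat_lit 76) (nat_lit 954986257) (nat_lit 0) (nat_lit 3073189313) (nat_lit 1444) (nat_lit 4042455214) (nat_lit 515) (nat_lit 5) (nat_lit 514) (nat_lit 5) (nat_lit 533) (nat_lit 5) (nat_lit 326) (nat_lit 312) (nat_lit 262)) (XT.nd (nat_lit 78) (nat_lit 1444) (nat_lit 0) (XT.lf (nat_lit 0) (nat_lit 6574566262) (nat_lit 1368) (nat_lit 595420922) (nat_lit 76) (nat_lit 995985966) (nat_lit 515) (nat_lit 5) (nat_lit 533) (nat_lit 5) (nat_lit 516) (nat_lit 5) (nat_lit 327) (nat_lit 312) (nat_lit 261)) (XT.lf (nat_lit 0) (nat_lit 910738761) (nat_lit 1444) (nat_lit 2145199847) (nat_lit 76) (nat_lit 5208353596) (nat_lit 496) (nat_lit 5) (nat_lit 515) (nat_lit 5) (nat_lit 497) (nat_lit 5) (nat_lit 328) (nat_lit 312) (nat_lit 260))))) (XT.nd (nat_lit 156) (nat_lit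 3344) (nat_lit 0) (XT.nd (nat_lit 78) (nat_lit 1520) (nat_lit 0) (XT.lf (nat_lit 0) (nat_lit 3439712534) (nat_lit 1520) (nat_lit 3700852421) (nat_lit 76) (nat_lit 1225350500) (nat_lit 477) (nat_lit 5) (nat_lit 497) (nat_lit 5) (nat_lit 478) (nat_lit 5) (nat_lit 329) (nat_lit 312) (nat_lit 259)) (XT.lf (nat_lit 0) (nat_lit 3204573305) (nat_lit 1520) (nat_lit 2828405028) (nat_lit 1596) (nat_lit 2437872366) (nat_lit 457) (nat_lit 5) (nat_lit 477) (nat_lit 5) (nat_lit 478) (nat_lit 5) (nat_lit 330) (nat_lit 312) (nat_lit 258))) (XT.nd (nat_lit 78) (nat_lit 1672) (nat_lit 0) (XT.lf (nat_lit 0) (nat_lit 104592427) (nat_lit 1672) (nat_lit 6834528124) (nat_lit 76) (nat_lit 1640204923) (nat_lit 435) (nat_lit 5) (nat_lit 457) (nat_lit 5) (nat_lit 436) (nat_lit 5) (nat_lit 331) (nat_lit 312) (nat_lit 257)) (XT.nd (nat_lit 78) (nat_lit 0) (nat_lit 0) (XT.lf (nat_lit 0) (nat_lit 259783098) (nat_lit 1672) (nat_lit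 2422470715) (nat_lit 1748) (nat_lit 6008666859) (nat_lit 413) (nat_lit 5) (nat_lit 435) (nat_lit 5) (nat_lit 436) (nat_lit 5) (nat_lit 332) (nat_lit 312) (nat_lit 256)) (XT.lf (nat_lit 0) (nat_lit 5335249057) (nat_lit 1748) (nat_lit 1215796332) (nat_lit 76) (nat_lit 2254886744) (nat_lit 413) (nat_lit 5) (nat_lit 436) (nat_lit 5) (nat_lit 414) (nat_lit 5) (nat_lit 333) (nat_lit 312) (nat_lit 255))))))))
noncomputable def xc72 : XT := (XT.nd (nat_lit 1560) (nat_lit 8132) (nat_lit 0) (XT.nd (nat_lit 780) (nat_lit 5472) (nat_lit 0) (XT.nd (nat_lit 390) (nat_lit 3268) (nat_lit 0) (XT.nd (nat_lit 156) (nat_lit 2660) (nat_lit 0) (XT.nd (nat_lit 78) (nat_lit 1140) (nat_lit 0) (XT.lf (nat_lit 0) (nat_lit 6226563274) (nat_lit 1748) (nat_lit 1836643466) (nat_lit 1824) (nat_lit 861307403) (nat_lit 390) (nat_lit 5) (nat_lit 413) (nat_lit 5) (nat_lit 414) (nat_lit 5) (nat_lit 334) (nat_lit 312) (nat_lit 254)) (XT.lf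 (nat_lit 0) (nat_lit 1801976063) (nat_lit 1140) (nat_lit 4207505941) (nat_lit 76) (nat_lit 3036969188) (nat_lit 375) (nat_lit 5) (nat_lit 390) (nat_lit 5) (nat_lit 376) (nat_lit 5) (nat_lit 335) (nat_lit 312) (nat_lit 253))) (XT.nd (nat_lit 78) (nat_lit 1748) (nat_lit 0) (XT.lf (nat_lit 0) (nat_lit 3438951747) (nat_lit 912) (nat_lit 1088777199) (nat_lit 988) (nat_lit 4644343648) (nat_lit 363) (nat_lit 5) (nat_lit 375) (nat_lit 5) (nat_lit 376) (nat_lit 5) (nat_lit 336) (nat_lit 312) (nat_lit 252)) (XT.nd (nat_lit 78) (nat_lit 912) (nat_lit 0) (XT.lf (nat_lit 0) (nat_lit 2016439305) (nat_lit 836) (nat_lit 5329018466) (nat_lit 912) (nat_lit 1955825613) (nat_lit 352) (nat_lit 5) (nat_lit 363) (nat_lit 5) (nat_lit 364) (nat_lit 5) (nat_lit 337) (nat_lit 312) (nat_lit 251)) (XT.lf (nat_lit 0) (nat_lit 582835291) (nat_lit 836) (nat_lit 213513567) (nat_lit 912) (nat_lit 8638066281) (nat_lit 340) (nat_lit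 5) (nat_lit 351) (nat_lit 5) (nat_lit 352) (nat_lit 5) (nat_lit 338) (nat_lit 312) (nat_lit 250))))) (XT.nd (nat_lit 156) (nat_lit 2432) (nat_lit 0) (XT.nd (nat_lit 78) (nat_lit 836) (nat_lit 0) (XT.lf (nat_lit 0) (nat_lit 3631975858) (nat_lit 912) (nat_lit 886114216) (nat_lit 76) (nat_lit 5052665959) (nat_lit 340) (nat_lit 5) (nat_lit 352) (nat_lit 5) (nat_lit 341) (nat_lit 5) (nat_lit 339) (nat_lit 312) (nat_lit 249)) (XT.lf (nat_lit 0) (nat_lit 6553549495) (nat_lit 912) (nat_lit 2357128734) (nat_lit 76) (nat_lit 800513630) (nat_lit 329) (nat_lit 5) (nat_lit 341) (nat_lit 5) (nat_lit 330) (nat_lit 5) (nat_lit 340) (nat_lit 312) (nat_lit 248))) (XT.nd (nat_lit 78) (nat_lit 1596) (nat_lit 0) (XT.lf (nat_lit 0) (nat_lit 5992024812) (nat_lit 836) (nat_lit 3593521401) (nat_lit 912) (nat_lit 269860645) (nat_lit 318) (nat_lit 5) (nat_lit 329) (nat_lit 5) (nat_lit 330) (nat_lit 5) (nat_lit 341) (nat_lit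 312) (nat_lit 247)) (XT.nd (nat_lit 78) (nat_lit 760) (nat_lit 0) (XT.lf (nat_lit 0) (nat_lit 2676152252) (nat_lit 836) (nat_lit 5407277551) (nat_lit 76) (nat_lit 1920046513) (nat_lit 307) (nat_lit 5) (nat_lit 318) (nat_lit 5) (nat_lit 308) (nat_lit 5) (nat_lit 342) (nat_lit 312) (nat_lit 246)) (XT.lf (nat_lit 0) (nat_lit 3168406311) (nat_lit 760) (nat_lit 2559021979) (nat_lit 836) (nat_lit 4428132886) (nat_lit 297) (nat_lit 5) (nat_lit 307) (nat_lit 5) (nat_lit 308) (nat_lit 5) (nat_lit 343) (nat_lit 312) (nat_lit 245)))))) (XT.nd (nat_lit 390) (nat_lit 2508) (nat_lit 0) (XT.nd (nat_lit 156) (nat_lit 1444) (nat_lit 0) (XT.nd (nat_lit 78) (nat_lit 836) (nat_lit 0) (XT.lf (nat_lit 0) (nat_lit 1711550438) (nat_lit 684) (nat_lit 7177688000) (nat_lit 760) (nat_lit 1422609619) (nat_lit 288) (nat_lit 5) (nat_lit 297) (nat_lit 5) (nat_lit 298) (nat_lit 5) (nat_lit 344) (nat_lit 312) (nat_lit 244)) (XT.lf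 (nat_lit 0) (nat_lit 215508609) (nat_lit 760) (nat_lit 1453223591) (nat_lit 836) (nat_lit 8803540637) (nat_lit 277) (nat_lit 5) (nat_lit 287) (nat_lit 5) (nat_lit 288) (nat_lit 5) (nat_lit 345) (nat_lit 312) (nat_lit 243))) (XT.nd (nat_lit 78) (nat_lit 1444) (nat_lit 0) (XT.lf (nat_lit 0) (nat_lit 4873563487) (nat_lit 836) (nat_lit 1315644942) (nat_lit 76) (nat_lit 4447330244) (nat_lit 277) (nat_lit 5) (nat_lit 288) (nat_lit 5) (nat_lit 278) (nat_lit 5) (nat_lit 346) (nat_lit 312) (nat_lit 242)) (XT.nd (nat_lit 78) (nat_lit 760) (nat_lit 0) (XT.lf (nat_lit 0) (nat_lit 7935575689) (nat_lit 684) (nat_lit 254045887) (nat_lit 760) (nat_lit 2615826672) (nat_lit 268) (nat_lit 5) (nat_lit 277) (nat_lit 5) (nat_lit 278) (nat_lit 5) (nat_lit 347) (nat_lit 312) (nat_lit 241)) (XT.lf (nat_lit 0) (nat_lit 661815235) (nat_lit 760) (nat_lit 4485219723) (nat_lit 76) (nat_lit 5831439747) (nat_lit 258) (nat_lit 5)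 (nat_lit 268) (nat_lit 5) (nat_lit 259) (nat_lit 5) (nat_lit 348) (nat_lit 312) (nat_lit 240))))) (XT.nd (nat_lit 156) (nat_lit 1292) (nat_lit 0) (XT.nd (nat_lit 78) (nat_lit 608) (nat_lit 0) (XT.lf (nat_lit 0) (nat_lit 4018271408) (nat_lit 684) (nat_lit 6148253363) (nat_lit 76) (nat_lit 989516975) (nat_lit 250) (nat_lit 5) (nat_lit 259) (nat_lit 5) (nat_lit 251) (nat_lit 5) (nat_lit 349) (nat_lit 312) (nat_lit 239)) (XT.lf (nat_lit 0) (nat_lit 3467245042) (nat_lit 608) (nat_lit 4052094099) (nat_lit 684) (nat_lit 3818733910) (nat_lit 242) (nat_lit 5) (nat_lit 250) (nat_lit 5) (nat_lit 251) (nat_lit 5) (nat_lit 350) (nat_lit 312) (nat_lit 238))) (XT.nd (nat_lit 78) (nat_lit 684) (nat_lit 0) (XT.lf (nat_lit 0) (nat_lit 1888319409) (nat_lit 608) (nat_lit 9263169949) (nat_lit 684) (nat_lit 373570084) (nat_lit 234) (nat_lit 5) (nat_lit 242) (nat_lit 5) (nat_lit 243) (nat_lit 5) (nat_lit 351) (nat_lit 312)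 (nat_lit 237)) (XT.nd (nat_lit 78) (nat_lit 0) (nat_lit 0) (XT.lf (nat_lit 0) (nat_lit 234448577) (nat_lit 608) (nat_lit 2939059124) (nat_lit 684) (nat_lit 8542945891) (nat_lit 225) (nat_lit 5) (nat_lit 233) (nat_lit 5) (nat_lit 234) (nat_lit 5) (nat_lit 352) (nat_lit 312) (nat_lit 236)) (XT.lf (nat_lit 0) (nat_lit 6869615996) (nat_lit 684) (nat_lit 1456623897) (nat_lit 76) (nat_lit 3586360421) (nat_lit 225) (nat_lit 5) (nat_lit 234) (nat_lit 5) (nat_lit 226) (nat_lit 5) (nat_lit 353) (nat_lit 312) (nat_lit 235))))))) (XT.nd (nat_lit 780) (nat_lit 3344) (nat_lit 0) (XT.nd (nat_lit 390) (nat_lit 1976) (nat_lit 0) (XT.nd (nat_lit 156) (nat_lit 1596) (nat_lit 0) (XT.nd (nat_lit 78) (nat_lit 684) (nat_lit 0) (XT.lf (nat_lit 0) (nat_lit 8916433690) (nat_lit 532) (nat_lit 1797643084) (nat_lit 608) (nat_lit 1399818879) (nat_lit 218) (nat_lit 5) (nat_lit 225) (nat_lit 5) (nat_lit 226) (nat_lit 5) (nat_lit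 354) (nat_lit 312) (nat_lit 234)) (XT.lf (nat_lit 0) (nat_lit 2372212550) (nat_lit 684) (nat_lit 5022682938) (nat_lit 76) (nat_lit 4925033281) (nat_lit 209) (nat_lit 5) (nat_lit 218) (nat_lit 5) (nat_lit 210) (nat_lit 5) (nat_lit 355) (nat_lit 312) (nat_lit 233))) (XT.nd (nat_lit 78) (nat_lit 1064) (nat_lit 0) (XT.lf (nat_lit 0) (nat_lit 5621051414) (nat_lit 532) (nat_lit 649029156) (nat_lit 608) (nat_lit 6261255944) (nat_lit 202) (nat_lit 5) (nat_lit 209) (nat_lit 5) (nat_lit 210) (nat_lit 5) (nat_lit 356) (nat_lit 312) (nat_lit 232)) (XT.nd (nat_lit 78) (nat_lit 532) (nat_lit 0) (XT.lf (nat_lit 0) (nat_lit 3864115058) (nat_lit 532) (nat_lit 6483010913) (nat_lit 608) (nat_lit 2400727894) (nat_lit 195) (nat_lit 5) (nat_lit 202) (nat_lit 5) (nat_lit 203) (nat_lit 5) (nat_lit 357) (nat_lit 312) (nat_lit 231)) (XT.lf (nat_lit 0) (nat_lit 1585283486) (nat_lit 532) (nat_lit 10924343754) (nat_lit 76) (nat_lit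 460439870) (nat_lit 188) (nat_lit 5) (nat_lit 195) (nat_lit 5) (nat_lit 189) (nat_lit 5) (nat_lit 358) (nat_lit 312) (nat_lit 230))))) (XT.nd (nat_lit 156) (nat_lit 1444) (nat_lit 0) (XT.nd (nat_lit 78) (nat_lit 0) (nat_lit 0) (XT.lf (nat_lit 0) (nat_lit 119238752) (nat_lit 532) (nat_lit 5607152738) (nat_lit 608) (nat_lit 7470886505) (nat_lit 181) (nat_lit 5) (nat_lit 188) (nat_lit 5) (nat_lit 189) (nat_lit 5) (nat_lit 359) (nat_lit 312) (nat_lit 229)) (XT.lf (nat_lit 0) (nat_lit 10039898043) (nat_lit 608) (nat_lit 1845699445) (nat_lit 76) (nat_lit 1544755358) (nat_lit 181) (nat_lit 5) (nat_lit 189) (nat_lit 5) (nat_lit 182) (nat_lit 5) (nat_lit 360) (nat_lit 312) (nat_lit 228))) (XT.nd (nat_lit 78) (nat_lit 912) (nat_lit 0) (XT.lf (nat_lit 0) (nat_lit 868013272) (nat_lit 532) (nat_lit 3908480898) (nat_lit 76) (nat_lit 8892505139) (nat_lit 174) (nat_lit 5) (nat_lit 181) (nat_lit 5) (nat_lit 175) (nat_lit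 5) (nat_lit 361) (nat_lit 312) (nat_lit 227)) (XT.nd (nat_lit 78) (nat_lit 456) (nat_lit 0) (XT.lf (nat_lit 0) (nat_lit 5254486554) (nat_lit 532) (nat_lit 6072408311) (nat_lit 76) (nat_lit 2586545914) (nat_lit 168) (nat_lit 5) (nat_lit 175) (nat_lit 5) (nat_lit 169) (nat_lit 5) (nat_lit 362) (nat_lit 312) (nat_lit 226)) (XT.lf (nat_lit 0) (nat_lit 5828790660) (nat_lit 456) (nat_lit 4006253449) (nat_lit 532) (nat_lit 4328931404) (nat_lit 162) (nat_lit 5) (nat_lit 168) (nat_lit 5) (nat_lit 169) (nat_lit 5) (nat_lit 363) (nat_lit 312) (nat_lit 225)))))) (XT.nd (nat_lit 390) (nat_lit 1520) (nat_lit 0) (XT.nd (nat_lit 156) (nat_lit 912) (nat_lit 0) (XT.nd (nat_lit 78) (nat_lit 380) (nat_lit 0) (XT.lf (nat_lit 0) (nat_lit 184839763) (nat_lit 532) (nat_lit 10694739308) (nat_lit 76) (nat_lit 3541328242) (nat_lit 155) (nat_lit 5) (nat_lit 162) (nat_lit 5) (nat_lit 156) (nat_lit 5) (nat_lit 364) (nat_lit 312)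 (nat_lit 224)) (XT.lf (nat_lit 0) (nat_lit 1495655337) (nat_lit 380) (nat_lit 3340335965) (nat_lit 456) (nat_lit 9847776947) (nat_lit 150) (nat_lit 5) (nat_lit 155) (nat_lit 5) (nat_lit 156) (nat_lit 5) (nat_lit 365) (nat_lit 312) (nat_lit 223))) (XT.nd (nat_lit 78) (nat_lit 912) (nat_lit 0) (XT.lf (nat_lit 0) (nat_lit 9696014896) (nat_lit 456) (nat_lit 830808919) (nat_lit 76) (nat_lit 4426313259) (nat_lit 150) (nat_lit 5) (nat_lit 156) (nat_lit 5) (nat_lit 151) (nat_lit 5) (nat_lit 366) (nat_lit 312) (nat_lit 222)) (XT.nd (nat_lit 78) (nat_lit 456) (nat_lit 0) (XT.lf (nat_lit 0) (nat_lit 11986758258) (nat_lit 456) (nat_lit 2783843341) (nat_lit 532) (nat_lit 458618671) (nat_lit 144) (nat_lit 5) (nat_lit 150) (nat_lit 5) (nat_lit 151) (nat_lit 5) (nat_lit 367) (nat_lit 312) (nat_lit 221)) (XT.lf (nat_lit 0) (nat_lit 4497216895) (nat_lit 456) (nat_lit 5806180230) (nat_lit 76) (nat_lit 5208171071) (nat_lit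 138) (nat_lit 5) (nat_lit 144) (nat_lit 5) (nat_lit 139) (nat_lit 5) (nat_lit 368) (nat_lit 312) (nat_lit 220))))) (XT.nd (nat_lit 156) (nat_lit 760) (nat_lit 0) (XT.nd (nat_lit 78) (nat_lit 380) (nat_lit 0) (XT.lf (nat_lit 0) (nat_lit 7313391242) (nat_lit 380) (nat_lit 2339894609) (nat_lit 456) (nat_lit 6147892203) (nat_lit 133) (nat_lit 5) (nat_lit 138) (nat_lit 5) (nat_lit 139) (nat_lit 5) (nat_lit 369) (nat_lit 312) (nat_lit 219)) (XT.lf (nat_lit 0) (nat_lit 4787206360) (nat_lit 380) (nat_lit 10255625438) (nat_lit 456) (nat_lit 1055076184) (nat_lit 128) (nat_lit 5) (nat_lit 133) (nat_lit 5) (nat_lit 134) (nat_lit 5) (nat_lit 370) (nat_lit 312) (nat_lit 218))) (XT.nd (nat_lit 78) (nat_lit 304) (nat_lit 0) (XT.lf (nat_lit 0) (nat_lit 2114469059) (nat_lit 380) (nat_lit 2078799678) (nat_lit 456) (nat_lit 12208580145) (nat_lit 122) (nat_lit 5) (nat_lit 127) (nat_lit 5) (nat_lit 128) (nat_lit 5) (nat_lit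 371) (nat_lit 312) (nat_lit 217)) (XT.nd (nat_lit 78) (nat_lit 304) (nat_lit 0) (XT.lf (nat_lit 0) (nat_lit 9674063543) (nat_lit 456) (nat_lit 708948331) (nat_lit 76) (nat_lit 6329977069) (nat_lit 122) (nat_lit 5) (nat_lit 128) (nat_lit 5) (nat_lit 123) (nat_lit 5) (nat_lit 372) (nat_lit 312) (nat_lit 216)) (XT.lf (nat_lit 0) (nat_lit 13395863905) (nat_lit 304) (nat_lit 1996056718) (nat_lit 380) (nat_lit 1640096701) (nat_lit 118) (nat_lit 5) (nat_lit 122) (nat_lit 5) (nat_lit 123) (nat_lit 5) (nat_lit 373) (nat_lit 312) (nat_lit 215))))))))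
noncomputable def xc73 : XT := (XT.nd (nat_lit 42822) (nat_lit 0) (nat_lit 18240) (XT.nd (nat_lit 780) (nat_lit 304) (nat_lit 0) (XT.nd (nat_lit 390) (nat_lit 1292) (nat_lit 0) (XT.nd (nat_lit 156) (nat_lit 684) (nat_lit 0) (XT.nd (nat_lit 78) (nat_lit 304) (nat_lit 0) (XT.lf (nat_lit 0) (nat_lit 3959036851) (nat_lit 456) (nat_lit 6758203201) (nat_lit 76) (nat_lit 6641078730) (nat_lit 112) (nat_lit 5) (nat_lit 118) (nat_lit 5) (nat_lit 113) (nat_lit 5) (nat_lit 374) (nat_lit 312) (nat_lit 214)) (XT.lf (nat_lit 0) (nat_lit 7653005426) (nat_lit 304) (nat_lit 2111391759) (nat_lit 380) (nat_lit 7928590937) (nat_lit 108) (nat_lit 5) (nat_lit 112) (nat_lit 5) (nat_lit 113) (nat_lit 5) (nat_lit 375) (nat_lit 312) (nat_lit 213))) (XT.nd (nat_lit 78) (nat_lit 380) (nat_lit 0) (XT.lf (nat_lit 0) (nat_lit 4525504836) (nat_lit 304) (nat_lit 11310740457) (nat_lit 380) (nat_lit 2199611887) (nat_lit 104) (nat_lit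 5) (nat_lit 108) (nat_lit 5) (nat_lit 109) (nat_lit 5) (nat_lit 376) (nat_lit 312) (nat_lit 212)) (XT.nd (nat_lit 78) (nat_lit 0) (nat_lit 0) (XT.lf (nat_lit 0) (nat_lit 1213389506) (nat_lit 304) (nat_lit 2503126973) (nat_lit 380) (nat_lit 14670744647) (nat_lit 99) (nat_lit 5) (nat_lit 103) (nat_lit 5) (nat_lit 104) (nat_lit 5) (nat_lit 377) (nat_lit 312) (nat_lit 211)) (XT.lf (nat_lit 0) (nat_lit 9888973980) (nat_lit 380) (nat_lit 2282979129) (nat_lit 76) (nat_lit 6574794415) (nat_lit 99) (nat_lit 5) (nat_lit 104) (nat_lit 5) (nat_lit 100) (nat_lit 5) (nat_lit 378) (nat_lit 312) (nat_lit 210))))) (XT.nd (nat_lit 156) (nat_lit 608) (nat_lit 0) (XT.nd (nat_lit 78) (nat_lit 380) (nat_lit 0) (XT.lf (nat_lit 0) (nat_lit 13170425478) (nat_lit 304) (nat_lit 3152948708) (nat_lit 380) (nat_lit 2792114490) (nat_lit 95) (nat_lit 5) (nat_lit 99) (nat_lit 5) (nat_lit 100) (nat_lit 5) (nat_lit 379) (nat_lit 312)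 (nat_lit 209)) (XT.lf (nat_lit 0) (nat_lit 3503918899) (nat_lit 380) (nat_lit 9845867620) (nat_lit 76) (nat_lit 6143187625) (nat_lit 90) (nat_lit 5) (nat_lit 95) (nat_lit 5) (nat_lit 91) (nat_lit 5) (nat_lit 380) (nat_lit 312) (nat_lit 208))) (XT.nd (nat_lit 78) (nat_lit 304) (nat_lit 0) (XT.lf (nat_lit 0) (nat_lit 5905211508) (nat_lit 304) (nat_lit 4121098775) (nat_lit 380) (nat_lit 9853601681) (nat_lit 86) (nat_lit 5) (nat_lit 90) (nat_lit 5) (nat_lit 91) (nat_lit 5) (nat_lit 381) (nat_lit 312) (nat_lit 207)) (XT.nd (nat_lit 78) (nat_lit 76) (nat_lit 0) (XT.lf (nat_lit 0) (nat_lit 1937070282) (nat_lit 228) (nat_lit 14897589535) (nat_lit 304) (nat_lit 3441997346) (nat_lit 83) (nat_lit 5) (nat_lit 86) (nat_lit 5) (nat_lit 87) (nat_lit 5) (nat_lit 382) (nat_lit 312) (nat_lit 206)) (XT.lf (nat_lit 0) (nat_lit 3219254837) (nat_lit 304) (nat_lit 2253735626) (nat_lit 76) (nat_lit 15209933011) (nat_lit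 82) (nat_lit 5) (nat_lit 86) (nat_lit 5) (nat_lit 83) (nat_lit 5) (nat_lit 383) (nat_lit 312) (nat_lit 205)))))) (XT.nd (nat_lit 41652) (nat_lit 0) (nat_lit 34276) (XT.nd (nat_lit 41418) (nat_lit 0) (nat_lit 36556) (XT.nd (nat_lit 41340) (nat_lit 0) (nat_lit 37696) (XT.lf (nat_lit 0) (nat_lit 10132381583) (nat_lit 380) (nat_lit 6684540629) (nat_lit 76) (nat_lit 4282029120) (nat_lit 78) (nat_lit 5) (nat_lit 83) (nat_lit 5) (nat_lit 79) (nat_lit 5) (nat_lit 384) (nat_lit 312) (nat_lit 204)) (XT.lf (nat_lit 0) (nat_lit 1990280303) (nat_lit 1140) (nat_lit 796682722) (nat_lit 1140) (nat_lit 796682722) (nat_lit 574) (nat_lit 3) (nat_lit 589) (nat_lit 3) (nat_lit 589) (nat_lit 5) (nat_lit 313) (nat_lit 313) (nat_lit 274))) (XT.nd (nat_lit 78) (nat_lit 1140) (nat_lit 0) (XT.lf (nat_lit 76) (nat_lit 3581058015) (nat_lit 0) (nat_lit 2910538024) (nat_lit 1140) (nat_lit 732819613) (nat_lit 575) (nat_lit 5) (nat_lit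 574) (nat_lit 3) (nat_lit 589) (nat_lit 5) (nat_lit 314) (nat_lit 313) (nat_lit 273)) (XT.nd (nat_lit 78) (nat_lit 0) (nat_lit 76) (XT.lf (nat_lit 76) (nat_lit 1608537292) (nat_lit 0) (nat_lit 88184974) (nat_lit 1216) (nat_lit 5587839178) (nat_lit 560) (nat_lit 5) (nat_lit 559) (nat_lit 5) (nat_lit 575) (nat_lit 5) (nat_lit 315) (nat_lit 313) (nat_lit 272)) (XT.lf (nat_lit 0) (nat_lit 4139395711) (nat_lit 1140) (nat_lit 353229952) (nat_lit 1216) (nat_lit 2854835510) (nat_lit 560) (nat_lit 5) (nat_lit 575) (nat_lit 5) (nat_lit 576) (nat_lit 5) (nat_lit 316) (nat_lit 313) (nat_lit 271))))) (XT.nd (nat_lit 156) (nat_lit 1216) (nat_lit 0) (XT.nd (nat_lit 78) (nat_lit 1140) (nat_lit 0) (XT.lf (nat_lit 76) (nat_lit 5145948305) (nat_lit 0) (nat_lit 1453101587) (nat_lit 1216) (nat_lit 814372992) (nat_lit 561) (nat_lit 5) (nat_lit 560) (nat_lit 5) (nat_lit 576) (nat_lit 5) (nat_lit 317) (nat_lit 313) (nat_lit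 270)) (XT.lf (nat_lit 0) (nat_lit 1576161091) (nat_lit 1216) (nat_lit 4178095659) (nat_lit 1292) (nat_lit 1728005220) (nat_lit 545) (nat_lit 5) (nat_lit 561) (nat_lit 5) (nat_lit 562) (nat_lit 5) (nat_lit 318) (nat_lit 313) (nat_lit 269))) (XT.nd (nat_lit 78) (nat_lit 1216) (nat_lit 0) (XT.lf (nat_lit 76) (nat_lit 1473394626) (nat_lit 0) (nat_lit 2502641223) (nat_lit 1292) (nat_lit 3578094228) (nat_lit 546) (nat_lit 5) (nat_lit 545) (nat_lit 5) (nat_lit 562) (nat_lit 5) (nat_lit 319) (nat_lit 313) (nat_lit 268)) (XT.nd (nat_lit 78) (nat_lit 1292) (nat_lit 0) (XT.lf (nat_lit 0) (nat_lit 6398169502) (nat_lit 1216) (nat_lit 334547234) (nat_lit 1292) (nat_lit 896476200) (nat_lit 546) (nat_lit 5) (nat_lit 562) (nat_lit 5) (nat_lit 563) (nat_lit 5) (nat_lit 320) (nat_lit 313) (nat_lit 267)) (XT.lf (nat_lit 0) (nat_lit 1142400537) (nat_lit 1292) (nat_lit 2125392274) (nat_lit 1368) (nat_lit 4439172618) (nat_lit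 529) (nat_lit 5) (nat_lit 546) (nat_lit 5) (nat_lit 547) (nat_lit 5) (nat_lit 321) (nat_lit 313) (nat_lit 266))))))) (XT.nd (nat_lit 780) (nat_lit 10488) (nat_lit 0) (XT.nd (nat_lit 390) (nat_lit 4332) (nat_lit 0) (XT.nd (nat_lit 156) (nat_lit 1292) (nat_lit 0) (XT.nd (nat_lit 78) (nat_lit 0) (nat_lit 0) (XT.lf (nat_lit 0) (nat_lit 3520450196) (nat_lit 1292) (nat_lit 3906571201) (nat_lit 1368) (nat_lit 360924631) (nat_lit 530) (nat_lit 5) (nat_lit 547) (nat_lit 5) (nat_lit 548) (nat_lit 5) (nat_lit 322) (nat_lit 313) (nat_lit 265)) (XT.lf (nat_lit 76) (nat_lit 2180461054) (nat_lit 0) (nat_lit 3762238579) (nat_lit 1368) (nat_lit 1929238691) (nat_lit 531) (nat_lit 5) (nat_lit 530) (nat_lit 5) (nat_lit 548) (nat_lit 5) (nat_lit 323) (nat_lit 313) (nat_lit 264))) (XT.nd (nat_lit 78) (nat_lit 0) (nat_lit 0) (XT.lf (nat_lit 0) (nat_lit 426939615) (nat_lit 1368) (nat_lit 7463683804) (nat_lit 1444) (nat_lit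 68721137) (nat_lit 513) (nat_lit 5) (nat_lit 531) (nat_lit 5) (nat_lit 532) (nat_lit 5) (nat_lit 324) (nat_lit 313) (nat_lit 263)) (XT.nd (nat_lit 78) (nat_lit 0) (nat_lit 76) (XT.lf (nat_lit 0) (nat_lit 2817491604) (nat_lit 1368) (nat_lit 1194169329) (nat_lit 1444) (nat_lit 4037695465) (nat_lit 513) (nat_lit 5) (nat_lit 531) (nat_lit 5) (nat_lit 532) (nat_lit 5) (nat_lit 325) (nat_lit 313) (nat_lit 262)) (XT.lf (nat_lit 0) (nat_lit 5242226519) (nat_lit 1368) (nat_lit 2862432680) (nat_lit 1444) (nat_lit 38195460) (nat_lit 514) (nat_lit 5) (nat_lit 532) (nat_lit 5) (nat_lit 533) (nat_lit 5) (nat_lit 326) (nat_lit 313) (nat_lit 261))))) (XT.nd (nat_lit 156) (nat_lit 3040) (nat_lit 0) (XT.nd (nat_lit 78) (nat_lit 1368) (nat_lit 0) (XT.lf (nat_lit 76) (nat_lit 3695455973) (nat_lit 0) (nat_lit 4033034887) (nat_lit 1444) (nat_lit 510925617) (nat_lit 515) (nat_lit 5) (nat_lit 514) (nat_lit 5) (nat_lit 533)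 (nat_lit 5) (nat_lit 327) (nat_lit 313) (nat_lit 260)) (XT.lf (nat_lit 0) (nat_lit 1890624486) (nat_lit 1444) (nat_lit 6227951168) (nat_lit 76) (nat_lit 220764180) (nat_lit 496) (nat_lit 5) (nat_lit 515) (nat_lit 5) (nat_lit 497) (nat_lit 5) (nat_lit 328) (nat_lit 313) (nat_lit 259))) (XT.nd (nat_lit 78) (nat_lit 1596) (nat_lit 0) (XT.lf (nat_lit 0) (nat_lit 509599958) (nat_lit 1444) (nat_lit 3841805867) (nat_lit 1520) (nat_lit 4090936751) (nat_lit 477) (nat_lit 5) (nat_lit 496) (nat_lit 5) (nat_lit 497) (nat_lit 5) (nat_lit 329) (nat_lit 313) (nat_lit 258)) (XT.nd (nat_lit 78) (nat_lit 1596) (nat_lit 0) (XT.lf (nat_lit 0) (nat_lit 6866661759) (nat_lit 1520) (nat_lit 1071004568) (nat_lit 76) (nat_lit 611186874) (nat_lit 477) (nat_lit 5) (nat_lit 497) (nat_lit 5) (nat_lit 478) (nat_lit 5) (nat_lit 330) (nat_lit 313) (nat_lit 257)) (XT.lf (nat_lit 0) (nat_lit 789365549) (nat_lit 1596) (nat_lit 2666644785)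 (nat_lit 76) (nat_lit 5202453907) (nat_lit 456) (nat_lit 5) (nat_lit 477) (nat_lit 5) (nat_lit 457) (nat_lit 5) (nat_lit 331) (nat_lit 313) (nat_lit 256)))))) (XT.nd (nat_lit 390) (nat_lit 4332) (nat_lit 0) (XT.nd (nat_lit 156) (nat_lit 2888) (nat_lit 0) (XT.nd (nat_lit 78) (nat_lit 1672) (nat_lit 0) (XT.lf (nat_lit 0) (nat_lit 3294312953) (nat_lit 1672) (nat_lit 4274278803) (nat_lit 76) (nat_lit 1202935996) (nat_lit 435) (nat_lit 5) (nat_lit 457) (nat_lit 5) (nat_lit 436) (nat_lit 5) (nat_lit 332) (nat_lit 313) (nat_lit 255)) (XT.lf (nat_lit 0) (nat_lit 2987998289) (nat_lit 1672) (nat_lit 2886155583) (nat_lit 1748) (nat_lit 3013862050) (nat_lit 413) (nat_lit 5) (nat_lit 435) (nat_lit 5) (nat_lit 436) (nat_lit 5) (nat_lit 333) (nat_lit 313) (nat_lit 254))) (XT.nd (nat_lit 78) (nat_lit 1140) (nat_lit 0) (XT.lf (nat_lit 0) (nat_lit 1472471376) (nat_lit 1748) (nat_lit 7050738853) (nat_lit 1824) (nat_lit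 484978958) (nat_lit 390) (nat_lit 5) (nat_lit 413) (nat_lit 5) (nat_lit 414) (nat_lit 5) (nat_lit 334) (nat_lit 313) (nat_lit 253)) (XT.nd (nat_lit 78) (nat_lit 1064) (nat_lit 0) (XT.lf (nat_lit 0) (nat_lit 2093026506) (nat_lit 1824) (nat_lit 70844460) (nat_lit 76) (nat_lit 6967825842) (nat_lit 389) (nat_lit 5) (nat_lit 413) (nat_lit 5) (nat_lit 390) (nat_lit 5) (nat_lit 335) (nat_lit 313) (nat_lit 252)) (XT.lf (nat_lit 0) (nat_lit 4753807461) (nat_lit 1140) (nat_lit 1614477321) (nat_lit 76) (nat_lit 2890345090) (nat_lit 375) (nat_lit 5) (nat_lit 390) (nat_lit 5) (nat_lit 376) (nat_lit 5) (nat_lit 336) (nat_lit 313) (nat_lit 251))))) (XT.nd (nat_lit 156) (nat_lit 2508) (nat_lit 0) (XT.nd (nat_lit 78) (nat_lit 912) (nat_lit 0) (XT.lf (nat_lit 0) (nat_lit 6217257436) (nat_lit 912) (nat_lit 1277043129) (nat_lit 988) (nat_lit 1895096679) (nat_lit 363) (nat_lit 5) (nat_lit 375) (nat_lit 5) (nat_lit 376)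 (nat_lit 5) (nat_lit 337) (nat_lit 313) (nat_lit 250)) (XT.lf (nat_lit 0) (nat_lit 796174485) (nat_lit 912) (nat_lit 4762515531) (nat_lit 76) (nat_lit 3965044531) (nat_lit 351) (nat_lit 5) (nat_lit 363) (nat_lit 5) (nat_lit 352) (nat_lit 5) (nat_lit 338) (nat_lit 313) (nat_lit 249))) (XT.nd (nat_lit 78) (nat_lit 1672) (nat_lit 0) (XT.lf (nat_lit 0) (nat_lit 3283859525) (nat_lit 836) (nat_lit 256962661) (nat_lit 912) (nat_lit 6121083806) (nat_lit 340) (nat_lit 5) (nat_lit 351) (nat_lit 5) (nat_lit 352) (nat_lit 5) (nat_lit 339) (nat_lit 313) (nat_lit 248)) (XT.nd (nat_lit 78) (nat_lit 836) (nat_lit 0) (XT.lf (nat_lit 0) (nat_lit 1770052140) (nat_lit 836) (nat_lit 4623484424) (nat_lit 912) (nat_lit 3410193088) (nat_lit 329) (nat_lit 5) (nat_lit 340) (nat_lit 5) (nat_lit 341) (nat_lit 5) (nat_lit 340) (nat_lit 313) (nat_lit 247)) (XT.lf (nat_lit 0) (nat_lit 244207509) (nat_lit 836) (nat_lit 9088933570)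 (nat_lit 912) (nat_lit 616661754) (nat_lit 318) (nat_lit 5) (nat_lit 329) (nat_lit 5) (nat_lit 330) (nat_lit 5) (nat_lit 341) (nat_lit 313) (nat_lit 246))))))))
noncomputable def xc74 : XT := (XT.nd (nat_lit 1560) (nat_lit 6460) (nat_lit 0) (XT.nd (nat_lit 780) (nat_lit 5092) (nat_lit 0) (XT.nd (nat_lit 390) (nat_lit 2660) (nat_lit 0) (XT.nd (nat_lit 156) (nat_lit 2280) (nat_lit 0) (XT.nd (nat_lit 78) (nat_lit 760) (nat_lit 0) (XT.lf (nat_lit 0) (nat_lit 2266679761) (nat_lit 912) (nat_lit 1317148213) (nat_lit 76) (nat_lit 6515443585) (nat_lit 317) (nat_lit 5) (nat_lit 329) (nat_lit 5) (nat_lit 318) (nat_lit 5) (nat_lit 342) (nat_lit 313) (nat_lit 245)) (XT.lf (nat_lit 0) (nat_lit 5241275358) (nat_lit 836) (nat_lit 2902527032) (nat_lit 76) (nat_lit 2109097190) (nat_lit 307) (nat_lit 5) (nat_lit 318) (nat_lit 5) (nat_lit 308) (nat_lit 5) (nat_lit 343) (nat_lit 313) (nat_lit 244))) (XT.nd (nat_lit 78)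 (nat_lit 1520) (nat_lit 0) (XT.lf (nat_lit 0) (nat_lit 5887158945) (nat_lit 760) (nat_lit 2441591598) (nat_lit 836) (nat_lit 2081931893) (nat_lit 297) (nat_lit 5) (nat_lit 307) (nat_lit 5) (nat_lit 308) (nat_lit 5) (nat_lit 344) (nat_lit 313) (nat_lit 243)) (XT.nd (nat_lit 78) (nat_lit 760) (nat_lit 0) (XT.lf (nat_lit 0) (nat_lit 947615389) (nat_lit 760) (nat_lit 6187437186) (nat_lit 76) (nat_lit 3437557917) (nat_lit 287) (nat_lit 5) (nat_lit 297) (nat_lit 5) (nat_lit 288) (nat_lit 5) (nat_lit 345) (nat_lit 313) (nat_lit 242)) (XT.lf (nat_lit 0) (nat_lit 2840152274) (nat_lit 760) (nat_lit 1219607622) (nat_lit 836) (nat_lit 6678978740) (nat_lit 277) (nat_lit 5) (nat_lit 287) (nat_lit 5) (nat_lit 288) (nat_lit 5) (nat_lit 346) (nat_lit 313) (nat_lit 241))))) (XT.nd (nat_lit 156) (nat_lit 1976) (nat_lit 0) (XT.nd (nat_lit 78) (nat_lit 0) (nat_lit 0) (XT.lf (nat_lit 0) (nat_lit 1247736349) (nat_lit 684)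 (nat_lit 6054664863) (nat_lit 760) (nat_lit 3606723655) (nat_lit 268) (nat_lit 5) (nat_lit 277) (nat_lit 5) (nat_lit 278) (nat_lit 5) (nat_lit 347) (nat_lit 313) (nat_lit 240)) (XT.lf (nat_lit 0) (nat_lit 10660489138) (nat_lit 760) (nat_lit 366493560) (nat_lit 76) (nat_lit 57293040) (nat_lit 268) (nat_lit 5) (nat_lit 278) (nat_lit 5) (nat_lit 269) (nat_lit 5) (nat_lit 348) (nat_lit 313) (nat_lit 239))) (XT.nd (nat_lit 78) (nat_lit 1216) (nat_lit 0) (XT.lf (nat_lit 0) (nat_lit 2875440975) (nat_lit 760) (nat_lit 2044037295) (nat_lit 76) (nat_lit 6343682961) (nat_lit 258) (nat_lit 5) (nat_lit 268) (nat_lit 5) (nat_lit 259) (nat_lit 5) (nat_lit 349) (nat_lit 313) (nat_lit 238)) (XT.nd (nat_lit 78) (nat_lit 608) (nat_lit 0) (XT.lf (nat_lit 0) (nat_lit 6287663380) (nat_lit 684) (nat_lit 3757571204) (nat_lit 76) (nat_lit 1401742325) (nat_lit 250) (nat_lit 5) (nat_lit 259) (nat_lit 5) (nat_lit 251) (nat_lit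 5) (nat_lit 350) (nat_lit 313) (nat_lit 237)) (XT.lf (nat_lit 0) (nat_lit 6104613732) (nat_lit 608) (nat_lit 3743009926) (nat_lit 684) (nat_lit 1787790689) (nat_lit 242) (nat_lit 5) (nat_lit 250) (nat_lit 5) (nat_lit 251) (nat_lit 5) (nat_lit 351) (nat_lit 313) (nat_lit 236)))))) (XT.nd (nat_lit 390) (nat_lit 2584) (nat_lit 0) (XT.nd (nat_lit 156) (nat_lit 1216) (nat_lit 0) (XT.nd (nat_lit 78) (nat_lit 608) (nat_lit 0) (XT.lf (nat_lit 0) (nat_lit 1695243224) (nat_lit 684) (nat_lit 7363451310) (nat_lit 76) (nat_lit 2769956335) (nat_lit 233) (nat_lit 5) (nat_lit 242) (nat_lit 5) (nat_lit 234) (nat_lit 5) (nat_lit 352) (nat_lit 313) (nat_lit 235)) (XT.lf (nat_lit 0) (nat_lit 2759843511) (nat_lit 608) (nat_lit 2539758147) (nat_lit 684) (nat_lit 6727037630) (nat_lit 225) (nat_lit 5) (nat_lit 233) (nat_lit 5) (nat_lit 234) (nat_lit 5) (nat_lit 353) (nat_lit 313) (nat_lit 234))) (XT.nd (nat_lit 78) (nat_lit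 684) (nat_lit 0) (XT.lf (nat_lit 0) (nat_lit 994767032) (nat_lit 532) (nat_lit 8062205571) (nat_lit 608) (nat_lit 3172710324) (nat_lit 218) (nat_lit 5) (nat_lit 225) (nat_lit 5) (nat_lit 226) (nat_lit 5) (nat_lit 354) (nat_lit 313) (nat_lit 233)) (XT.nd (nat_lit 78) (nat_lit 608) (nat_lit 0) (XT.lf (nat_lit 0) (nat_lit 523684805) (nat_lit 608) (nat_lit 815742812) (nat_lit 76) (nat_lit 11098502593) (nat_lit 217) (nat_lit 5) (nat_lit 225) (nat_lit 5) (nat_lit 218) (nat_lit 5) (nat_lit 355) (nat_lit 313) (nat_lit 232)) (XT.lf (nat_lit 0) (nat_lit 4352429435) (nat_lit 684) (nat_lit 2709787156) (nat_lit 76) (nat_lit 5588509842) (nat_lit 209) (nat_lit 5) (nat_lit 218) (nat_lit 5) (nat_lit 210) (nat_lit 5) (nat_lit 356) (nat_lit 313) (nat_lit 231))))) (XT.nd (nat_lit 156) (nat_lit 1520) (nat_lit 0) (XT.nd (nat_lit 78) (nat_lit 532) (nat_lit 0) (XT.lf (nat_lit 0) (nat_lit 8213290628) (nat_lit 532) (nat_lit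 114075123) (nat_lit 608) (nat_lit 4541926048) (nat_lit 202) (nat_lit 5) (nat_lit 209) (nat_lit 5) (nat_lit 210) (nat_lit 5) (nat_lit 357) (nat_lit 313) (nat_lit 230)) (XT.lf (nat_lit 0) (nat_lit 6398153283) (nat_lit 532) (nat_lit 6093321868) (nat_lit 608) (nat_lit 601551976) (nat_lit 195) (nat_lit 5) (nat_lit 202) (nat_lit 5) (nat_lit 203) (nat_lit 5) (nat_lit 358) (nat_lit 313) (nat_lit 229))) (XT.nd (nat_lit 78) (nat_lit 988) (nat_lit 0) (XT.lf (nat_lit 0) (nat_lit 3445182102) (nat_lit 532) (nat_lit 8815623281) (nat_lit 76) (nat_lit 1061561403) (nat_lit 188) (nat_lit 5) (nat_lit 195) (nat_lit 5) (nat_lit 189) (nat_lit 5) (nat_lit 359) (nat_lit 313) (nat_lit 228)) (XT.nd (nat_lit 78) (nat_lit 456) (nat_lit 0) (XT.lf (nat_lit 0) (nat_lit 2519738182) (nat_lit 532) (nat_lit 5153560969) (nat_lit 608) (nat_lit 5883855511) (nat_lit 181) (nat_lit 5) (nat_lit 188) (nat_lit 5) (nat_lit 189) (nat_lit 5) (nat_lit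 360) (nat_lit 313) (nat_lit 227)) (XT.lf (nat_lit 0) (nat_lit 463185654) (nat_lit 456) (nat_lit 11608249740) (nat_lit 532) (nat_lit 1726697584) (nat_lit 175) (nat_lit 5) (nat_lit 181) (nat_lit 5) (nat_lit 182) (nat_lit 5) (nat_lit 361) (nat_lit 313) (nat_lit 226))))))) (XT.nd (nat_lit 780) (nat_lit 2812) (nat_lit 0) (XT.nd (nat_lit 390) (nat_lit 1748) (nat_lit 0) (XT.nd (nat_lit 156) (nat_lit 1368) (nat_lit 0) (XT.nd (nat_lit 78) (nat_lit 456) (nat_lit 0) (XT.lf (nat_lit 0) (nat_lit 2597846161) (nat_lit 532) (nat_lit 1682671765) (nat_lit 76) (nat_lit 9763977088) (nat_lit 174) (nat_lit 5) (nat_lit 181) (nat_lit 5) (nat_lit 175) (nat_lit 5) (nat_lit 362) (nat_lit 313) (nat_lit 225)) (XT.lf (nat_lit 0) (nat_lit 7085383325) (nat_lit 532) (nat_lit 3919792642) (nat_lit 76) (nat_lit 3291718885) (nat_lit 168) (nat_lit 5) (nat_lit 175) (nat_lit 5) (nat_lit 169) (nat_lit 5) (nat_lit 363) (nat_lit 313) (nat_lit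 224))) (XT.nd (nat_lit 78) (nat_lit 912) (nat_lit 0) (XT.lf (nat_lit 0) (nat_lit 8300563139) (nat_lit 456) (nat_lit 3468971732) (nat_lit 532) (nat_lit 2786101305) (nat_lit 162) (nat_lit 5) (nat_lit 168) (nat_lit 5) (nat_lit 169) (nat_lit 5) (nat_lit 364) (nat_lit 313) (nat_lit 223)) (XT.nd (nat_lit 78) (nat_lit 380) (nat_lit 0) (XT.lf (nat_lit 0) (nat_lit 1812191368) (nat_lit 532) (nat_lit 8705417657) (nat_lit 76) (nat_lit 4303042195) (nat_lit 155) (nat_lit 5) (nat_lit 162) (nat_lit 5) (nat_lit 156) (nat_lit 5) (nat_lit 365) (nat_lit 313) (nat_lit 222)) (XT.lf (nat_lit 0) (nat_lit 3813209164) (nat_lit 380) (nat_lit 2757186982) (nat_lit 456) (nat_lit 8521664488) (nat_lit 150) (nat_lit 5) (nat_lit 155) (nat_lit 5) (nat_lit 156) (nat_lit 5) (nat_lit 366) (nat_lit 313) (nat_lit 221))))) (XT.nd (nat_lit 156) (nat_lit 1216) (nat_lit 0) (XT.nd (nat_lit 78) (nat_lit 76) (nat_lit 0) (XT.lf (nat_lit 0) (nat_lit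 1396040218) (nat_lit 456) (nat_lit 10147260818) (nat_lit 532) (nat_lit 3826880522) (nat_lit 144) (nat_lit 5) (nat_lit 150) (nat_lit 5) (nat_lit 151) (nat_lit 5) (nat_lit 367) (nat_lit 313) (nat_lit 220)) (XT.lf (nat_lit 0) (nat_lit 1060804595) (nat_lit 532) (nat_lit 1118746041) (nat_lit 76) (nat_lit 13475666639) (nat_lit 143) (nat_lit 5) (nat_lit 150) (nat_lit 5) (nat_lit 144) (nat_lit 5) (nat_lit 368) (nat_lit 313) (nat_lit 219))) (XT.nd (nat_lit 78) (nat_lit 836) (nat_lit 0) (XT.lf (nat_lit 0) (nat_lit 6133260356) (nat_lit 456) (nat_lit 3772552045) (nat_lit 76) (nat_lit 6040690774) (nat_lit 138) (nat_lit 5) (nat_lit 144) (nat_lit 5) (nat_lit 139) (nat_lit 5) (nat_lit 369) (nat_lit 313) (nat_lit 218)) (XT.nd (nat_lit 78) (nat_lit 456) (nat_lit 0) (XT.lf (nat_lit 0) (nat_lit 9704787418) (nat_lit 380) (nat_lit 1709603846) (nat_lit 456) (nat_lit 4831013812) (nat_lit 133) (nat_lit 5) (nat_lit 138) (nat_lit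 5) (nat_lit 139) (nat_lit 5) (nat_lit 370) (nat_lit 313) (nat_lit 217)) (XT.lf (nat_lit 0) (nat_lit 384567512) (nat_lit 456) (nat_lit 9461636722) (nat_lit 76) (nat_lit 6705281268) (nat_lit 127) (nat_lit 5) (nat_lit 133) (nat_lit 5) (nat_lit 128) (nat_lit 5) (nat_lit 371) (nat_lit 313) (nat_lit 216)))))) (XT.nd (nat_lit 390) (nat_lit 1368) (nat_lit 0) (XT.nd (nat_lit 156) (nat_lit 760) (nat_lit 0) (XT.nd (nat_lit 78) (nat_lit 304) (nat_lit 0) (XT.lf (nat_lit 0) (nat_lit 4323843828) (nat_lit 380) (nat_lit 1423761030) (nat_lit 456) (nat_lit 11117379246) (nat_lit 122) (nat_lit 5) (nat_lit 127) (nat_lit 5) (nat_lit 128) (nat_lit 5) (nat_lit 372) (nat_lit 313) (nat_lit 215)) (XT.lf (nat_lit 0) (nat_lit 1395073142) (nat_lit 304) (nat_lit 9969722389) (nat_lit 380) (nat_lit 5821233575) (nat_lit 118) (nat_lit 5) (nat_lit 122) (nat_lit 5) (nat_lit 123) (nat_lit 5) (nat_lit 373) (nat_lit 313) (nat_lit 214)))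 (XT.nd (nat_lit 78) (nat_lit 760) (nat_lit 0) (XT.lf (nat_lit 0) (nat_lit 15870549649) (nat_lit 304) (nat_lit 1347511254) (nat_lit 380) (nat_lit 297299867) (nat_lit 118) (nat_lit 5) (nat_lit 122) (nat_lit 5) (nat_lit 123) (nat_lit 5) (nat_lit 374) (nat_lit 313) (nat_lit 213)) (XT.nd (nat_lit 78) (nat_lit 304) (nat_lit 0) (XT.lf (nat_lit 0) (nat_lit 5429509995) (nat_lit 456) (nat_lit 4880847319) (nat_lit 76) (nat_lit 7541363436) (nat_lit 112) (nat_lit 5) (nat_lit 118) (nat_lit 5) (nat_lit 113) (nat_lit 5) (nat_lit 375) (nat_lit 313) (nat_lit 212)) (XT.lf (nat_lit 0) (nat_lit 9928950384) (nat_lit 304) (nat_lit 1453997085) (nat_lit 380) (nat_lit 6814013506) (nat_lit 108) (nat_lit 5) (nat_lit 112) (nat_lit 5) (nat_lit 113) (nat_lit 5) (nat_lit 376) (nat_lit 313) (nat_lit 211))))) (XT.nd (nat_lit 156) (nat_lit 684) (nat_lit 0) (XT.nd (nat_lit 78) (nat_lit 380) (nat_lit 0) (XT.lf (nat_lit 0) (nat_lit 6696203241)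 (nat_lit 304) (nat_lit 10919892875) (nat_lit 380) (nat_lit 934445954) (nat_lit 104) (nat_lit 5) (nat_lit 108) (nat_lit 5) (nat_lit 109) (nat_lit 5) (nat_lit 377) (nat_lit 313) (nat_lit 210)) (XT.lf (nat_lit 0) (nat_lit 3269170224) (nat_lit 304) (nat_lit 1847385870) (nat_lit 380) (nat_lit 13796270662) (nat_lit 99) (nat_lit 5) (nat_lit 103) (nat_lit 5) (nat_lit 104) (nat_lit 5) (nat_lit 378) (nat_lit 313) (nat_lit 209))) (XT.nd (nat_lit 78) (nat_lit 684) (nat_lit 0) (XT.lf (nat_lit 0) (nat_lit 11441263768) (nat_lit 380) (nat_lit 370219793) (nat_lit 76) (nat_lit 7472280850) (nat_lit 99) (nat_lit 5) (nat_lit 104) (nat_lit 5) (nat_lit 100) (nat_lit 5) (nat_lit 379) (nat_lit 313) (nat_lit 208)) (XT.nd (nat_lit 78) (nat_lit 380) (nat_lit 0) (XT.lf (nat_lit 0) (nat_lit 15514643546) (nat_lit 304) (nat_lit 2530135846) (nat_lit 380) (nat_lit 1619274692) (nat_lit 95) (nat_lit 5) (nat_lit 99) (nat_lit 5) (nat_lit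 100) (nat_lit 5) (nat_lit 380) (nat_lit 313) (nat_lit 207)) (XT.lf (nat_lit 0) (nat_lit 4830253338) (nat_lit 380) (nat_lit 8187365519) (nat_lit 76) (nat_lit 7035467774) (nat_lit 90) (nat_lit 5) (nat_lit 95) (nat_lit 5) (nat_lit 91) (nat_lit 5) (nat_lit 381) (nat_lit 313) (nat_lit 206))))))))
noncomputable def xc75 : XT := (XT.nd (nat_lit 42822) (nat_lit 0) (nat_lit 13680) (XT.nd (nat_lit 42042) (nat_lit 0) (nat_lit 31616) (XT.nd (nat_lit 41652) (nat_lit 0) (nat_lit 35416) (XT.nd (nat_lit 156) (nat_lit 380) (nat_lit 0) (XT.nd (nat_lit 78) (nat_lit 228) (nat_lit 0) (XT.lf (nat_lit 0) (nat_lit 8004546632) (nat_lit 304) (nat_lit 3520680468) (nat_lit 380) (nat_lit 8926874623) (nat_lit 86) (nat_lit 5) (nat_lit 90) (nat_lit 5) (nat_lit 91) (nat_lit 5) (nat_lit 382) (nat_lit 313) (nat_lit 205)) (XT.lf (nat_lit 0) (nat_lit 3905366210) (nat_lit 228) (nat_lit 14614530270) (nat_lit 304) (nat_lit 2341218547) (nat_lit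 83) (nat_lit 5) (nat_lit 86) (nat_lit 5) (nat_lit 87) (nat_lit 5) (nat_lit 383) (nat_lit 313) (nat_lit 204))) (XT.nd (nat_lit 78) (nat_lit 304) (nat_lit 0) (XT.lf (nat_lit 0) (nat_lit 4469470865) (nat_lit 304) (nat_lit 451242597) (nat_lit 76) (nat_lit 16359398495) (nat_lit 82) (nat_lit 5) (nat_lit 86) (nat_lit 5) (nat_lit 83) (nat_lit 5) (nat_lit 384) (nat_lit 313) (nat_lit 203)) (XT.nd (nat_lit 41340) (nat_lit 0) (nat_lit 36556) (XT.lf (nat_lit 0) (nat_lit 11572930664) (nat_lit 380) (nat_lit 5027047875) (nat_lit 76) (nat_lit 5108989924) (nat_lit 78) (nat_lit 5) (nat_lit 83) (nat_lit 5) (nat_lit 79) (nat_lit 5) (nat_lit 385) (nat_lit 313) (nat_lit 202)) (XT.lf (nat_lit 0) (nat_lit 403830723) (nat_lit 0) (nat_lit 403830723) (nat_lit 1140) (nat_lit 2833841480) (nat_lit 559) (nat_lit 5) (nat_lit 559) (nat_lit 3) (nat_lit 574) (nat_lit 3) (nat_lit 314) (nat_lit 314) (nat_lit 272))))) (XT.nd (nat_lit 156)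 (nat_lit 1140) (nat_lit 0) (XT.nd (nat_lit 78) (nat_lit 0) (nat_lit 0) (XT.lf (nat_lit 0) (nat_lit 3973767136) (nat_lit 1140) (nat_lit 1268126886) (nat_lit 1216) (nat_lit 2102417057) (nat_lit 559) (nat_lit 5) (nat_lit 574) (nat_lit 3) (nat_lit 575) (nat_lit 5) (nat_lit 315) (nat_lit 314) (nat_lit 271)) (XT.lf (nat_lit 76) (nat_lit 4096195137) (nat_lit 0) (nat_lit 2248501908) (nat_lit 1216) (nat_lit 1063972773) (nat_lit 560) (nat_lit 5) (nat_lit 559) (nat_lit 5) (nat_lit 575) (nat_lit 5) (nat_lit 316) (nat_lit 314) (nat_lit 270))) (XT.nd (nat_lit 78) (nat_lit 0) (nat_lit 0) (XT.lf (nat_lit 0) (nat_lit 1234428440) (nat_lit 1216) (nat_lit 5346480892) (nat_lit 1292) (nat_lit 895129541) (nat_lit 544) (nat_lit 5) (nat_lit 560) (nat_lit 5) (nat_lit 561) (nat_lit 5) (nat_lit 317) (nat_lit 314) (nat_lit 269)) (XT.nd (nat_lit 78) (nat_lit 0) (nat_lit 76) (XT.lf (nat_lit 76) (nat_lit 165953178) (nat_lit 0) (nat_lit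 3374125777) (nat_lit 1292) (nat_lit 4006199620) (nat_lit 545) (nat_lit 5) (nat_lit 544) (nat_lit 5) (nat_lit 561) (nat_lit 5) (nat_lit 318) (nat_lit 314) (nat_lit 268)) (XT.lf (nat_lit 0) (nat_lit 5867290023) (nat_lit 1216) (nat_lit 1751025378) (nat_lit 1292) (nat_lit 1306210) (nat_lit 545) (nat_lit 5) (nat_lit 561) (nat_lit 5) (nat_lit 562) (nat_lit 5) (nat_lit 319) (nat_lit 314) (nat_lit 267)))))) (XT.nd (nat_lit 390) (nat_lit 1368) (nat_lit 0) (XT.nd (nat_lit 156) (nat_lit 1216) (nat_lit 0) (XT.nd (nat_lit 78) (nat_lit 0) (nat_lit 0) (XT.lf (nat_lit 0) (nat_lit 528970442) (nat_lit 1292) (nat_lit 3670737156) (nat_lit 1368) (nat_lit 3496079632) (nat_lit 528) (nat_lit 5) (nat_lit 545) (nat_lit 5) (nat_lit 546) (nat_lit 5) (nat_lit 320) (nat_lit 314) (nat_lit 266)) (XT.lf (nat_lit 76) (nat_lit 2192196442) (nat_lit 0) (nat_lit 609327437) (nat_lit 1368) (nat_lit 4973590513) (nat_lit 529) (nat_lit 5)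 (nat_lit 528) (nat_lit 5) (nat_lit 546) (nat_lit 5) (nat_lit 321) (nat_lit 314) (nat_lit 265))) (XT.nd (nat_lit 78) (nat_lit 1292) (nat_lit 0) (XT.lf (nat_lit 76) (nat_lit 359313611) (nat_lit 0) (nat_lit 4752870898) (nat_lit 1368) (nat_lit 2745277694) (nat_lit 530) (nat_lit 5) (nat_lit 529) (nat_lit 5) (nat_lit 547) (nat_lit 5) (nat_lit 322) (nat_lit 314) (nat_lit 264)) (XT.nd (nat_lit 78) (nat_lit 1292) (nat_lit 0) (XT.lf (nat_lit 76) (nat_lit 6502796513) (nat_lit 0) (nat_lit 955689688) (nat_lit 1368) (nat_lit 484506118) (nat_lit 530) (nat_lit 5) (nat_lit 529) (nat_lit 5) (nat_lit 547) (nat_lit 5) (nat_lit 323) (nat_lit 314) (nat_lit 263)) (XT.lf (nat_lit 0) (nat_lit 1796834568) (nat_lit 1368) (nat_lit 3249768079) (nat_lit 1444) (nat_lit 2984744050) (nat_lit 512) (nat_lit 5) (nat_lit 530) (nat_lit 5) (nat_lit 531) (nat_lit 5) (nat_lit 324) (nat_lit 314) (nat_lit 262))))) (XT.nd (nat_lit 156) (nat_lit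 1368) (nat_lit 0) (XT.nd (nat_lit 78) (nat_lit 0) (nat_lit 76) (XT.lf (nat_lit 76) (nat_lit 3068382760) (nat_lit 0) (nat_lit 1035939516) (nat_lit 1444) (nat_lit 4018714982) (nat_lit 513) (nat_lit 5) (nat_lit 512) (nat_lit 5) (nat_lit 531) (nat_lit 5) (nat_lit 325) (nat_lit 314) (nat_lit 261)) (XT.lf (nat_lit 76) (nat_lit 1350499995) (nat_lit 0) (nat_lit 5111593888) (nat_lit 1444) (nat_lit 1755797826) (nat_lit 514) (nat_lit 5) (nat_lit 513) (nat_lit 5) (nat_lit 532) (nat_lit 5) (nat_lit 326) (nat_lit 314) (nat_lit 260))) (XT.nd (nat_lit 78) (nat_lit 0) (nat_lit 76) (XT.lf (nat_lit 0) (nat_lit 540131172) (nat_lit 1444) (nat_lit 359418188) (nat_lit 1520) (nat_lit 7416547159) (nat_lit 494) (nat_lit 5) (nat_lit 513) (nat_lit 5) (nat_lit 514) (nat_lit 5) (nat_lit 327) (nat_lit 314) (nat_lit 259)) (XT.nd (nat_lit 78) (nat_lit 0) (nat_lit 0) (XT.lf (nat_lit 0) (nat_lit 2878608821) (nat_lit 1444) (nat_lit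 2073943373) (nat_lit 1520) (nat_lit 3464544410) (nat_lit 495) (nat_lit 5) (nat_lit 514) (nat_lit 5) (nat_lit 515) (nat_lit 5) (nat_lit 328) (nat_lit 314) (nat_lit 258)) (XT.lf (nat_lit 76) (nat_lit 4736946103) (nat_lit 0) (nat_lit 524517428) (nat_lit 1520) (nat_lit 3260209531) (nat_lit 496) (nat_lit 5) (nat_lit 495) (nat_lit 5) (nat_lit 515) (nat_lit 5) (nat_lit 329) (nat_lit 314) (nat_lit 257))))))) (XT.nd (nat_lit 780) (nat_lit 7068) (nat_lit 0) (XT.nd (nat_lit 390) (nat_lit 4712) (nat_lit 0) (XT.nd (nat_lit 156) (nat_lit 3268) (nat_lit 0) (XT.nd (nat_lit 78) (nat_lit 1596) (nat_lit 0) (XT.lf (nat_lit 0) (nat_lit 3115631321) (nat_lit 1444) (nat_lit 4597423713) (nat_lit 1520) (nat_lit 916416688) (nat_lit 477) (nat_lit 5) (nat_lit 496) (nat_lit 5) (nat_lit 497) (nat_lit 5) (nat_lit 330) (nat_lit 314) (nat_lit 256)) (XT.lf (nat_lit 0) (nat_lit 1455034948) (nat_lit 1596) (nat_lit 7250487519) (nat_lit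 76) (nat_lit 35276129) (nat_lit 456) (nat_lit 5) (nat_lit 477) (nat_lit 5) (nat_lit 457) (nat_lit 5) (nat_lit 331) (nat_lit 314) (nat_lit 255))) (XT.nd (nat_lit 78) (nat_lit 3268) (nat_lit 0) (XT.lf (nat_lit 0) (nat_lit 3892923751) (nat_lit 1596) (nat_lit 162689186) (nat_lit 76) (nat_lit 4799603967) (nat_lit 456) (nat_lit 5) (nat_lit 477) (nat_lit 5) (nat_lit 457) (nat_lit 5) (nat_lit 332) (nat_lit 314) (nat_lit 254)) (XT.nd (nat_lit 78) (nat_lit 1672) (nat_lit 0) (XT.lf (nat_lit 0) (nat_lit 6396802208) (nat_lit 1672) (nat_lit 1795960683) (nat_lit 76) (nat_lit 780474660) (nat_lit 435) (nat_lit 5) (nat_lit 457) (nat_lit 5) (nat_lit 436) (nat_lit 5) (nat_lit 333) (nat_lit 314) (nat_lit 253)) (XT.lf (nat_lit 0) (nat_lit 5641896602) (nat_lit 1672) (nat_lit 3341305381) (nat_lit 1748) (nat_lit 111474807) (nat_lit 413) (nat_lit 5) (nat_lit 435) (nat_lit 5) (nat_lit 436) (nat_lit 5) (nat_lit 334) (nat_lit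 314) (nat_lit 252))))) (XT.nd (nat_lit 156) (nat_lit 1824) (nat_lit 0) (XT.nd (nat_lit 78) (nat_lit 1064) (nat_lit 0) (XT.lf (nat_lit 0) (nat_lit 2389098847) (nat_lit 1824) (nat_lit 5134968415) (nat_lit 76) (nat_lit 1695531536) (nat_lit 389) (nat_lit 5) (nat_lit 413) (nat_lit 5) (nat_lit 390) (nat_lit 5) (nat_lit 335) (nat_lit 314) (nat_lit 251)) (XT.lf (nat_lit 0) (nat_lit 2507073706) (nat_lit 1064) (nat_lit 2463152996) (nat_lit 1140) (nat_lit 4377910090) (nat_lit 375) (nat_lit 5) (nat_lit 389) (nat_lit 5) (nat_lit 390) (nat_lit 5) (nat_lit 336) (nat_lit 314) (nat_lit 250))) (XT.nd (nat_lit 78) (nat_lit 912) (nat_lit 0) (XT.lf (nat_lit 0) (nat_lit 912209660) (nat_lit 912) (nat_lit 6721562837) (nat_lit 988) (nat_lit 1846682136) (nat_lit 363) (nat_lit 5) (nat_lit 375) (nat_lit 5) (nat_lit 376) (nat_lit 5) (nat_lit 337) (nat_lit 314) (nat_lit 249)) (XT.nd (nat_lit 78) (nat_lit 836) (nat_lit 0) (XT.lf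 (nat_lit 0) (nat_lit 760702214) (nat_lit 988) (nat_lit 696217884) (nat_lit 76) (nat_lit 8159541554) (nat_lit 362) (nat_lit 5) (nat_lit 375) (nat_lit 5) (nat_lit 363) (nat_lit 5) (nat_lit 338) (nat_lit 314) (nat_lit 248)) (XT.lf (nat_lit 0) (nat_lit 3444486463) (nat_lit 912) (nat_lit 2334183155) (nat_lit 76) (nat_lit 3977191397) (nat_lit 351) (nat_lit 5) (nat_lit 363) (nat_lit 5) (nat_lit 352) (nat_lit 5) (nat_lit 339) (nat_lit 314) (nat_lit 247)))))) (XT.nd (nat_lit 390) (nat_lit 3724) (nat_lit 0) (XT.nd (nat_lit 156) (nat_lit 1672) (nat_lit 0) (XT.nd (nat_lit 78) (nat_lit 836) (nat_lit 0) (XT.lf (nat_lit 0) (nat_lit 5911868360) (nat_lit 836) (nat_lit 299588769) (nat_lit 912) (nat_lit 3687952758) (nat_lit 340) (nat_lit 5) (nat_lit 351) (nat_lit 5) (nat_lit 352) (nat_lit 5) (nat_lit 340) (nat_lit 314) (nat_lit 246)) (XT.lf (nat_lit 0) (nat_lit 4363335677) (nat_lit 836) (nat_lit 4727998143) (nat_lit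 912) (nat_lit 955353840) (nat_lit 329) (nat_lit 5) (nat_lit 340) (nat_lit 5) (nat_lit 341) (nat_lit 5) (nat_lit 341) (nat_lit 314) (nat_lit 245))) (XT.nd (nat_lit 78) (nat_lit 760) (nat_lit 0) (XT.lf (nat_lit 0) (nat_lit 1840149989) (nat_lit 912) (nat_lit 7409794034) (nat_lit 76) (nat_lit 948111491) (nat_lit 317) (nat_lit 5) (nat_lit 329) (nat_lit 5) (nat_lit 318) (nat_lit 5) (nat_lit 342) (nat_lit 314) (nat_lit 244)) (XT.nd (nat_lit 78) (nat_lit 0) (nat_lit 0) (XT.lf (nat_lit 0) (nat_lit 1166249671) (nat_lit 760) (nat_lit 3571130061) (nat_lit 836) (nat_lit 5615860395) (nat_lit 307) (nat_lit 5) (nat_lit 317) (nat_lit 5) (nat_lit 318) (nat_lit 5) (nat_lit 343) (nat_lit 314) (nat_lit 243)) (XT.lf (nat_lit 0) (nat_lit 7740712260) (nat_lit 836) (nat_lit 475728919) (nat_lit 76) (nat_lit 2296273661) (nat_lit 307) (nat_lit 5) (nat_lit 318) (nat_lit 5) (nat_lit 308) (nat_lit 5) (nat_lit 344) (nat_lit 314)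 (nat_lit 242))))) (XT.nd (nat_lit 156) (nat_lit 2204) (nat_lit 0) (XT.nd (nat_lit 78) (nat_lit 684) (nat_lit 0) (XT.lf (nat_lit 0) (nat_lit 189825129) (nat_lit 836) (nat_lit 2140687283) (nat_lit 76) (nat_lit 8345764063) (nat_lit 296) (nat_lit 5) (nat_lit 307) (nat_lit 5) (nat_lit 297) (nat_lit 5) (nat_lit 345) (nat_lit 314) (nat_lit 241)) (XT.lf (nat_lit 0) (nat_lit 3232322278) (nat_lit 760) (nat_lit 3864477266) (nat_lit 76) (nat_lit 3747006343) (nat_lit 287) (nat_lit 5) (nat_lit 297) (nat_lit 5) (nat_lit 288) (nat_lit 5) (nat_lit 346) (nat_lit 314) (nat_lit 240))) (XT.nd (nat_lit 78) (nat_lit 1444) (nat_lit 0) (XT.lf (nat_lit 0) (nat_lit 5393241097) (nat_lit 760) (nat_lit 994896317) (nat_lit 836) (nat_lit 4627799307) (nat_lit 277) (nat_lit 5) (nat_lit 287) (nat_lit 5) (nat_lit 288) (nat_lit 5) (nat_lit 347) (nat_lit 314) (nat_lit 239)) (XT.nd (nat_lit 78) (nat_lit 760) (nat_lit 0) (XT.lf (nat_lit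 0) (nat_lit 3755579784) (nat_lit 684) (nat_lit 5925895393) (nat_lit 760) (nat_lit 1510915262) (nat_lit 268) (nat_lit 5) (nat_lit 277) (nat_lit 5) (nat_lit 278) (nat_lit 5) (nat_lit 348) (nat_lit 314) (nat_lit 238)) (XT.lf (nat_lit 0) (nat_lit 1696599688) (nat_lit 760) (nat_lit 9295790679) (nat_lit 76) (nat_lit 381153608) (nat_lit 258) (nat_lit 5) (nat_lit 268) (nat_lit 5) (nat_lit 259) (nat_lit 5) (nat_lit 349) (nat_lit 314) (nat_lit 237))))))))
noncomputable def xc76 : XT := (XT.nd (nat_lit 1560) (nat_lit 4180) (nat_lit 0) (XT.nd (nat_lit 780) (nat_lit 4256) (nat_lit 0) (XT.nd (nat_lit 390) (nat_lit 2356) (nat_lit 0) (XT.nd (nat_lit 156) (nat_lit 1900) (nat_lit 0) (XT.nd (nat_lit 78) (nat_lit 0) (nat_lit 0) (XT.lf (nat_lit 0) (nat_lit 326808804) (nat_lit 608) (nat_lit 4704857096) (nat_lit 684) (nat_lit 6527244126) (nat_lit 250) (nat_lit 5) (nat_lit 258) (nat_lit 5) (nat_lit 259) (nat_lit 5) (nat_lit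 350) (nat_lit 314) (nat_lit 236)) (XT.lf (nat_lit 0) (nat_lit 8501784685) (nat_lit 684) (nat_lit 1442991563) (nat_lit 76) (nat_lit 1804375083) (nat_lit 250) (nat_lit 5) (nat_lit 259) (nat_lit 5) (nat_lit 251) (nat_lit 5) (nat_lit 351) (nat_lit 314) (nat_lit 235))) (XT.nd (nat_lit 78) (nat_lit 1216) (nat_lit 0) (XT.lf (nat_lit 0) (nat_lit 178547252) (nat_lit 684) (nat_lit 3269628728) (nat_lit 76) (nat_lit 8495933355) (nat_lit 241) (nat_lit 5) (nat_lit 250) (nat_lit 5) (nat_lit 242) (nat_lit 5) (nat_lit 352) (nat_lit 314) (nat_lit 234)) (XT.nd (nat_lit 78) (nat_lit 608) (nat_lit 0) (XT.lf (nat_lit 0) (nat_lit 3701962514) (nat_lit 684) (nat_lit 5171410468) (nat_lit 76) (nat_lit 3270350139) (nat_lit 233) (nat_lit 5) (nat_lit 242) (nat_lit 5) (nat_lit 234) (nat_lit 5) (nat_lit 353) (nat_lit 314) (nat_lit 233)) (XT.lf (nat_lit 0) (nat_lit 5216436043) (nat_lit 608) (nat_lit 2156461070) (nat_lit 684) (nat_lit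 4975604686) (nat_lit 225) (nat_lit 5) (nat_lit 233) (nat_lit 5) (nat_lit 234) (nat_lit 5) (nat_lit 354) (nat_lit 314) (nat_lit 232))))) (XT.nd (nat_lit 156) (nat_lit 1140) (nat_lit 0) (XT.nd (nat_lit 78) (nat_lit 684) (nat_lit 0) (XT.lf (nat_lit 0) (nat_lit 3395265284) (nat_lit 532) (nat_lit 7810255662) (nat_lit 608) (nat_lit 1352884112) (nat_lit 218) (nat_lit 5) (nat_lit 225) (nat_lit 5) (nat_lit 226) (nat_lit 5) (nat_lit 355) (nat_lit 314) (nat_lit 231)) (XT.lf (nat_lit 0) (nat_lit 1506130402) (nat_lit 608) (nat_lit 877890204) (nat_lit 684) (nat_lit 10389553851) (nat_lit 209) (nat_lit 5) (nat_lit 217) (nat_lit 5) (nat_lit 218) (nat_lit 5) (nat_lit 356) (nat_lit 314) (nat_lit 230))) (XT.nd (nat_lit 78) (nat_lit 1140) (nat_lit 0) (XT.lf (nat_lit 0) (nat_lit 6282465518) (nat_lit 684) (nat_lit 468923857) (nat_lit 76) (nat_lit 6242285942) (nat_lit 209) (nat_lit 5) (nat_lit 218) (nat_lit 5) (nat_lit 210)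 (nat_lit 5) (nat_lit 357) (nat_lit 314) (nat_lit 229)) (XT.nd (nat_lit 78) (nat_lit 608) (nat_lit 0) (XT.lf (nat_lit 0) (nat_lit 10341700938) (nat_lit 608) (nat_lit 2478024391) (nat_lit 76) (nat_lit 399788296) (nat_lit 202) (nat_lit 5) (nat_lit 210) (nat_lit 5) (nat_lit 203) (nat_lit 5) (nat_lit 358) (nat_lit 314) (nat_lit 228)) (XT.lf (nat_lit 0) (nat_lit 1129178623) (nat_lit 608) (nat_lit 4588720432) (nat_lit 76) (nat_lit 7732646970) (nat_lit 194) (nat_lit 5) (nat_lit 202) (nat_lit 5) (nat_lit 195) (nat_lit 5) (nat_lit 359) (nat_lit 314) (nat_lit 227)))))) (XT.nd (nat_lit 390) (nat_lit 2280) (nat_lit 0) (XT.nd (nat_lit 156) (nat_lit 988) (nat_lit 0) (XT.nd (nat_lit 78) (nat_lit 532) (nat_lit 0) (XT.lf (nat_lit 0) (nat_lit 5256841940) (nat_lit 532) (nat_lit 6783503435) (nat_lit 76) (nat_lit 1647002682) (nat_lit 188) (nat_lit 5) (nat_lit 195) (nat_lit 5) (nat_lit 189) (nat_lit 5) (nat_lit 360) (nat_lit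 314) (nat_lit 226)) (XT.lf (nat_lit 0) (nat_lit 4854659450) (nat_lit 532) (nat_lit 4722055676) (nat_lit 608) (nat_lit 4353181443) (nat_lit 181) (nat_lit 5) (nat_lit 188) (nat_lit 5) (nat_lit 189) (nat_lit 5) (nat_lit 361) (nat_lit 314) (nat_lit 225))) (XT.nd (nat_lit 78) (nat_lit 532) (nat_lit 0) (XT.lf (nat_lit 0) (nat_lit 2729433292) (nat_lit 456) (nat_lit 11346946044) (nat_lit 532) (nat_lit 102348029) (nat_lit 175) (nat_lit 5) (nat_lit 181) (nat_lit 5) (nat_lit 182) (nat_lit 5) (nat_lit 362) (nat_lit 314) (nat_lit 224)) (XT.nd (nat_lit 78) (nat_lit 0) (nat_lit 0) (XT.lf (nat_lit 0) (nat_lit 481728159) (nat_lit 456) (nat_lit 3803168918) (nat_lit 532) (nat_lit 10148280664) (nat_lit 168) (nat_lit 5) (nat_lit 174) (nat_lit 5) (nat_lit 175) (nat_lit 5) (nat_lit 363) (nat_lit 314) (nat_lit 223)) (XT.lf (nat_lit 0) (nat_lit 8875154906) (nat_lit 532) (nat_lit 1836624879) (nat_lit 76) (nat_lit 3982021581)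 (nat_lit 168) (nat_lit 5) (nat_lit 175) (nat_lit 5) (nat_lit 169) (nat_lit 5) (nat_lit 364) (nat_lit 314) (nat_lit 222))))) (XT.nd (nat_lit 156) (nat_lit 1292) (nat_lit 0) (XT.nd (nat_lit 78) (nat_lit 532) (nat_lit 0) (XT.lf (nat_lit 0) (nat_lit 10714636833) (nat_lit 456) (nat_lit 2953312993) (nat_lit 532) (nat_lit 1293006014) (nat_lit 162) (nat_lit 5) (nat_lit 168) (nat_lit 5) (nat_lit 169) (nat_lit 5) (nat_lit 365) (nat_lit 314) (nat_lit 221)) (XT.lf (nat_lit 0) (nat_lit 3395265197) (nat_lit 532) (nat_lit 6789029210) (nat_lit 76) (nat_lit 5049980671) (nat_lit 155) (nat_lit 5) (nat_lit 162) (nat_lit 5) (nat_lit 156) (nat_lit 5) (nat_lit 366) (nat_lit 314) (nat_lit 220))) (XT.nd (nat_lit 78) (nat_lit 912) (nat_lit 0) (XT.lf (nat_lit 0) (nat_lit 6069828237) (nat_lit 380) (nat_lit 2195771134) (nat_lit 456) (nat_lit 7248852017) (nat_lit 150) (nat_lit 5) (nat_lit 155) (nat_lit 5) (nat_lit 156) (nat_lit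 5) (nat_lit 367) (nat_lit 314) (nat_lit 219)) (XT.nd (nat_lit 78) (nat_lit 456) (nat_lit 0) (XT.lf (nat_lit 0) (nat_lit 3571153255) (nat_lit 456) (nat_lit 9790815101) (nat_lit 532) (nat_lit 2439473965) (nat_lit 144) (nat_lit 5) (nat_lit 150) (nat_lit 5) (nat_lit 151) (nat_lit 5) (nat_lit 368) (nat_lit 314) (nat_lit 218)) (XT.lf (nat_lit 0) (nat_lit 950766046) (nat_lit 380) (nat_lit 1587366931) (nat_lit 456) (nat_lit 13557452547) (nat_lit 138) (nat_lit 5) (nat_lit 143) (nat_lit 5) (nat_lit 144) (nat_lit 5) (nat_lit 369) (nat_lit 314) (nat_lit 217))))))) (XT.nd (nat_lit 780) (nat_lit 1216) (nat_lit 0) (XT.nd (nat_lit 390) (nat_lit 1444) (nat_lit 0) (XT.nd (nat_lit 156) (nat_lit 1140) (nat_lit 0) (XT.nd (nat_lit 78) (nat_lit 380) (nat_lit 0) (XT.lf (nat_lit 0) (nat_lit 7732214292) (nat_lit 456) (nat_lit 1804652547) (nat_lit 76) (nat_lit 6859365141) (nat_lit 138) (nat_lit 5) (nat_lit 144) (nat_lit 5)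 (nat_lit 139) (nat_lit 5) (nat_lit 370) (nat_lit 314) (nat_lit 216)) (XT.lf (nat_lit 0) (nat_lit 12043244113) (nat_lit 380) (nat_lit 1100615214) (nat_lit 456) (nat_lit 3560810701) (nat_lit 133) (nat_lit 5) (nat_lit 138) (nat_lit 5) (nat_lit 139) (nat_lit 5) (nat_lit 371) (nat_lit 314) (nat_lit 215))) (XT.nd (nat_lit 78) (nat_lit 684) (nat_lit 0) (XT.lf (nat_lit 0) (nat_lit 1769507633) (nat_lit 456) (nat_lit 7689372912) (nat_lit 76) (nat_lit 7561342156) (nat_lit 127) (nat_lit 5) (nat_lit 133) (nat_lit 5) (nat_lit 128) (nat_lit 5) (nat_lit 372) (nat_lit 314) (nat_lit 214)) (XT.nd (nat_lit 78) (nat_lit 304) (nat_lit 0) (XT.lf (nat_lit 0) (nat_lit 6476314065) (nat_lit 380) (nat_lit 790253069) (nat_lit 456) (nat_lit 10077106389) (nat_lit 122) (nat_lit 5) (nat_lit 127) (nat_lit 5) (nat_lit 128) (nat_lit 5) (nat_lit 373) (nat_lit 314) (nat_lit 213)) (XT.lf (nat_lit 0) (nat_lit 3449362061) (nat_lit 304) (nat_lit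 9581020696) (nat_lit 380) (nat_lit 4644414529) (nat_lit 118) (nat_lit 5) (nat_lit 122) (nat_lit 5) (nat_lit 123) (nat_lit 5) (nat_lit 374) (nat_lit 314) (nat_lit 212))))) (XT.nd (nat_lit 156) (nat_lit 988) (nat_lit 0) (XT.nd (nat_lit 78) (nat_lit 0) (nat_lit 0) (XT.lf (nat_lit 0) (nat_lit 282877535) (nat_lit 380) (nat_lit 711641262) (nat_lit 456) (nat_lit 17020103706) (nat_lit 112) (nat_lit 5) (nat_lit 117) (nat_lit 5) (nat_lit 118) (nat_lit 5) (nat_lit 375) (nat_lit 314) (nat_lit 211)) (XT.lf (nat_lit 0) (nat_lit 6866504106) (nat_lit 456) (nat_lit 3066577124) (nat_lit 76) (nat_lit 8428413410) (nat_lit 112) (nat_lit 5) (nat_lit 118) (nat_lit 5) (nat_lit 113) (nat_lit 5) (nat_lit 376) (nat_lit 314) (nat_lit 210))) (XT.nd (nat_lit 78) (nat_lit 684) (nat_lit 0) (XT.lf (nat_lit 0) (nat_lit 12155704554) (nat_lit 304) (nat_lit 818253791) (nat_lit 380) (nat_lit 5743634063) (nat_lit 108) (nat_lit 5) (nat_lit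 112) (nat_lit 5) (nat_lit 113) (nat_lit 5) (nat_lit 377) (nat_lit 314) (nat_lit 209)) (XT.nd (nat_lit 78) (nat_lit 304) (nat_lit 0) (XT.lf (nat_lit 0) (nat_lit 288428195) (nat_lit 380) (nat_lit 10268870898) (nat_lit 76) (nat_lit 8524845403) (nat_lit 103) (nat_lit 5) (nat_lit 108) (nat_lit 5) (nat_lit 104) (nat_lit 5) (nat_lit 378) (nat_lit 314) (nat_lit 208)) (XT.lf (nat_lit 0) (nat_lit 5270703745) (nat_lit 304) (nat_lit 1213925449) (nat_lit 380) (nat_lit 12971025664) (nat_lit 99) (nat_lit 5) (nat_lit 103) (nat_lit 5) (nat_lit 104) (nat_lit 5) (nat_lit 379) (nat_lit 314) (nat_lit 207)))))) (XT.nd (nat_lit 41808) (nat_lit 0) (nat_lit 33744) (XT.nd (nat_lit 156) (nat_lit 912) (nat_lit 0) (XT.nd (nat_lit 78) (nat_lit 0) (nat_lit 0) (XT.lf (nat_lit 0) (nat_lit 1505941232) (nat_lit 304) (nat_lit 11471880829) (nat_lit 380) (nat_lit 6860331425) (nat_lit 95) (nat_lit 5) (nat_lit 99) (nat_lit 5) (nat_lit 100)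 (nat_lit 5) (nat_lit 380) (nat_lit 314) (nat_lit 206)) (XT.lf (nat_lit 0) (nat_lit 17817301538) (nat_lit 304) (nat_lit 1929820369) (nat_lit 380) (nat_lit 483383867) (nat_lit 95) (nat_lit 5) (nat_lit 99) (nat_lit 5) (nat_lit 100) (nat_lit 5) (nat_lit 381) (nat_lit 314) (nat_lit 205))) (XT.nd (nat_lit 78) (nat_lit 532) (nat_lit 0) (XT.lf (nat_lit 0) (nat_lit 6126274966) (nat_lit 380) (nat_lit 6591268952) (nat_lit 76) (nat_lit 7913875119) (nat_lit 90) (nat_lit 5) (nat_lit 95) (nat_lit 5) (nat_lit 91) (nat_lit 5) (nat_lit 382) (nat_lit 314) (nat_lit 204)) (XT.nd (nat_lit 78) (nat_lit 228) (nat_lit 0) (XT.lf (nat_lit 0) (nat_lit 10056520884) (nat_lit 304) (nat_lit 2943813116) (nat_lit 380) (nat_lit 8042512790) (nat_lit 86) (nat_lit 5) (nat_lit 90) (nat_lit 5) (nat_lit 91) (nat_lit 5) (nat_lit 383) (nat_lit 314) (nat_lit 203)) (XT.lf (nat_lit 0) (nat_lit 5823058650) (nat_lit 228) (nat_lit 14364883465) (nat_lit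 304) (nat_lit 1276533133) (nat_lit 83) (nat_lit 5) (nat_lit 86) (nat_lit 5) (nat_lit 87) (nat_lit 5) (nat_lit 384) (nat_lit 314) (nat_lit 202))))) (XT.nd (nat_lit 156) (nat_lit 1140) (nat_lit 0) (XT.nd (nat_lit 78) (nat_lit 1292) (nat_lit 0) (XT.lf (nat_lit 0) (nat_lit 1564984530) (nat_lit 0) (nat_lit 1564984530) (nat_lit 1140) (nat_lit 573573894) (nat_lit 559) (nat_lit 5) (nat_lit 559) (nat_lit 3) (nat_lit 574) (nat_lit 3) (nat_lit 315) (nat_lit 315) (nat_lit 270)) (XT.lf (nat_lit 76) (nat_lit 1037554866) (nat_lit 0) (nat_lit 22933229) (nat_lit 1292) (nat_lit 6412503560) (nat_lit 543) (nat_lit 5) (nat_lit 542) (nat_lit 3) (nat_lit 559) (nat_lit 5) (nat_lit 316) (nat_lit 315) (nat_lit 269))) (XT.nd (nat_lit 78) (nat_lit 1216) (nat_lit 0) (XT.lf (nat_lit 0) (nat_lit 3282673241) (nat_lit 1216) (nat_lit 1045067480) (nat_lit 1292) (nat_lit 3213749372) (nat_lit 543) (nat_lit 5) (nat_lit 559) (nat_lit 5)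 (nat_lit 560) (nat_lit 5) (nat_lit 317) (nat_lit 315) (nat_lit 268)) (XT.nd (nat_lit 78) (nat_lit 1216) (nat_lit 0) (XT.lf (nat_lit 76) (nat_lit 4521015119) (nat_lit 0) (nat_lit 996532433) (nat_lit 1292) (nat_lit 2095619426) (nat_lit 544) (nat_lit 5) (nat_lit 543) (nat_lit 5) (nat_lit 560) (nat_lit 5) (nat_lit 318) (nat_lit 315) (nat_lit 267)) (XT.lf (nat_lit 0) (nat_lit 88829286) (nat_lit 1292) (nat_lit 5135608655) (nat_lit 1368) (nat_lit 2463419015) (nat_lit 527) (nat_lit 5) (nat_lit 544) (nat_lit 5) (nat_lit 545) (nat_lit 5) (nat_lit 319) (nat_lit 315) (nat_lit 266))))))))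
noncomputable def xc77 : XT := (XT.nd (nat_lit 1560) (nat_lit 11324) (nat_lit 0) (XT.nd (nat_lit 780) (nat_lit 10868) (nat_lit 0) (XT.nd (nat_lit 390) (nat_lit 1292) (nat_lit 0) (XT.nd (nat_lit 156) (nat_lit 1216) (nat_lit 0) (XT.nd (nat_lit 78) (nat_lit 0) (nat_lit 76) (XT.lf (nat_lit 76) (nat_lit 584118883) (nat_lit 0) (nat_lit 1678334382) (nat_lit 1368) (nat_lit 5503055695) (nat_lit 528) (nat_lit 5) (nat_lit 527) (nat_lit 5) (nat_lit 545) (nat_lit 5) (nat_lit 320) (nat_lit 315) (nat_lit 265)) (XT.lf (nat_lit 0) (nat_lit 4471762288) (nat_lit 1292) (nat_lit 1359809165) (nat_lit 1368) (nat_lit 2014548988) (nat_lit 528) (nat_lit 5) (nat_lit 545) (nat_lit 5) (nat_lit 546) (nat_lit 5) (nat_lit 321) (nat_lit 315) (nat_lit 264))) (XT.nd (nat_lit 78) (nat_lit 1292) (nat_lit 0) (XT.lf (nat_lit 76) (nat_lit 4639733779) (nat_lit 0) (nat_lit 2073846199) (nat_lit 1368) (nat_lit 1216283997) (nat_lit 529) (nat_lit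 5) (nat_lit 528) (nat_lit 5) (nat_lit 546) (nat_lit 5) (nat_lit 322) (nat_lit 315) (nat_lit 263)) (XT.nd (nat_lit 78) (nat_lit 0) (nat_lit 0) (XT.lf (nat_lit 0) (nat_lit 959141032) (nat_lit 1368) (nat_lit 5223454847) (nat_lit 1444) (nat_lit 1834113496) (nat_lit 511) (nat_lit 5) (nat_lit 529) (nat_lit 5) (nat_lit 530) (nat_lit 5) (nat_lit 323) (nat_lit 315) (nat_lit 262)) (XT.lf (nat_lit 76) (nat_lit 941191362) (nat_lit 0) (nat_lit 2212900959) (nat_lit 1444) (nat_lit 4952526651) (nat_lit 512) (nat_lit 5) (nat_lit 511) (nat_lit 5) (nat_lit 530) (nat_lit 5) (nat_lit 324) (nat_lit 315) (nat_lit 261))))) (XT.nd (nat_lit 156) (nat_lit 1368) (nat_lit 0) (XT.nd (nat_lit 78) (nat_lit 0) (nat_lit 0) (XT.lf (nat_lit 0) (nat_lit 5392910440) (nat_lit 1368) (nat_lit 896934196) (nat_lit 1444) (nat_lit 1909855215) (nat_lit 512) (nat_lit 5) (nat_lit 530) (nat_lit 5) (nat_lit 531) (nat_lit 5) (nat_lit 325) (nat_lit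 315) (nat_lit 260)) (XT.lf (nat_lit 76) (nat_lit 5571007526) (nat_lit 0) (nat_lit 2111096270) (nat_lit 1444) (nat_lit 613838504) (nat_lit 513) (nat_lit 5) (nat_lit 512) (nat_lit 5) (nat_lit 531) (nat_lit 5) (nat_lit 326) (nat_lit 315) (nat_lit 259))) (XT.nd (nat_lit 78) (nat_lit 0) (nat_lit 0) (XT.lf (nat_lit 0) (nat_lit 1602484698) (nat_lit 1444) (nat_lit 4567274438) (nat_lit 1520) (nat_lit 2225547904) (nat_lit 494) (nat_lit 5) (nat_lit 513) (nat_lit 5) (nat_lit 514) (nat_lit 5) (nat_lit 327) (nat_lit 315) (nat_lit 258)) (XT.nd (nat_lit 78) (nat_lit 0) (nat_lit 76) (XT.lf (nat_lit 76) (nat_lit 2078808091) (nat_lit 0) (nat_lit 1779604625) (nat_lit 1520) (nat_lit 4639560586) (nat_lit 495) (nat_lit 5) (nat_lit 494) (nat_lit 5) (nat_lit 514) (nat_lit 5) (nat_lit 328) (nat_lit 315) (nat_lit 257)) (XT.lf (nat_lit 76) (nat_lit 321556549) (nat_lit 0) (nat_lit 5848401772) (nat_lit 1520) (nat_lit 2434032366)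 (nat_lit 496) (nat_lit 5) (nat_lit 495) (nat_lit 5) (nat_lit 515) (nat_lit 5) (nat_lit 329) (nat_lit 315) (nat_lit 256)))))) (XT.nd (nat_lit 390) (nat_lit 4636) (nat_lit 0) (XT.nd (nat_lit 156) (nat_lit 4864) (nat_lit 0) (XT.nd (nat_lit 78) (nat_lit 1444) (nat_lit 0) (XT.lf (nat_lit 76) (nat_lit 7292750301) (nat_lit 0) (nat_lit 1251843478) (nat_lit 1520) (nat_lit 168749001) (nat_lit 496) (nat_lit 5) (nat_lit 495) (nat_lit 5) (nat_lit 515) (nat_lit 5) (nat_lit 330) (nat_lit 315) (nat_lit 255)) (XT.lf (nat_lit 0) (nat_lit 2135681362) (nat_lit 1520) (nat_lit 3188937691) (nat_lit 76) (nat_lit 3501111449) (nat_lit 476) (nat_lit 5) (nat_lit 496) (nat_lit 5) (nat_lit 477) (nat_lit 5) (nat_lit 331) (nat_lit 315) (nat_lit 254))) (XT.nd (nat_lit 78) (nat_lit 3344) (nat_lit 0) (XT.lf (nat_lit 0) (nat_lit 3979150648) (nat_lit 1520) (nat_lit 513038407) (nat_lit 1596) (nat_lit 4449600604) (nat_lit 456) (nat_lit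 5) (nat_lit 476) (nat_lit 5) (nat_lit 477) (nat_lit 5) (nat_lit 332) (nat_lit 315) (nat_lit 253)) (XT.nd (nat_lit 78) (nat_lit 1748) (nat_lit 0) (XT.lf (nat_lit 0) (nat_lit 2298196760) (nat_lit 1596) (nat_lit 4629515803) (nat_lit 1672) (nat_lit 2133477685) (nat_lit 435) (nat_lit 5) (nat_lit 456) (nat_lit 5) (nat_lit 457) (nat_lit 5) (nat_lit 333) (nat_lit 315) (nat_lit 252)) (XT.lf (nat_lit 0) (nat_lit 236351296) (nat_lit 1748) (nat_lit 8570852062) (nat_lit 76) (nat_lit 377210991) (nat_lit 412) (nat_lit 5) (nat_lit 435) (nat_lit 5) (nat_lit 413) (nat_lit 5) (nat_lit 334) (nat_lit 315) (nat_lit 251))))) (XT.nd (nat_lit 156) (nat_lit 2888) (nat_lit 0) (XT.nd (nat_lit 78) (nat_lit 1748) (nat_lit 0) (XT.lf (nat_lit 0) (nat_lit 2670692809) (nat_lit 1748) (nat_lit 1100337963) (nat_lit 76) (nat_lit 5539598379) (nat_lit 412) (nat_lit 5) (nat_lit 435) (nat_lit 5) (nat_lit 413) (nat_lit 5) (nat_lit 335) (nat_lit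 315) (nat_lit 250)) (XT.lf (nat_lit 0) (nat_lit 5177404644) (nat_lit 1824) (nat_lit 2816043897) (nat_lit 76) (nat_lit 1447218446) (nat_lit 389) (nat_lit 5) (nat_lit 413) (nat_lit 5) (nat_lit 390) (nat_lit 5) (nat_lit 336) (nat_lit 315) (nat_lit 249))) (XT.nd (nat_lit 78) (nat_lit 1824) (nat_lit 0) (XT.lf (nat_lit 0) (nat_lit 5015138430) (nat_lit 1064) (nat_lit 2757498369) (nat_lit 1140) (nat_lit 1801725488) (nat_lit 375) (nat_lit 5) (nat_lit 389) (nat_lit 5) (nat_lit 390) (nat_lit 5) (nat_lit 337) (nat_lit 315) (nat_lit 248)) (XT.nd (nat_lit 78) (nat_lit 836) (nat_lit 0) (XT.lf (nat_lit 0) (nat_lit 731651539) (nat_lit 988) (nat_lit 6329046851) (nat_lit 76) (nat_lit 2651144081) (nat_lit 362) (nat_lit 5) (nat_lit 375) (nat_lit 5) (nat_lit 363) (nat_lit 5) (nat_lit 338) (nat_lit 315) (nat_lit 247)) (XT.lf (nat_lit 0) (nat_lit 1716963268) (nat_lit 836) (nat_lit 1610511544) (nat_lit 912) (nat_lit 6525536578)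 (nat_lit 351) (nat_lit 5) (nat_lit 362) (nat_lit 5) (nat_lit 363) (nat_lit 5) (nat_lit 339) (nat_lit 315) (nat_lit 246))))))) (XT.nd (nat_lit 780) (nat_lit 4940) (nat_lit 0) (XT.nd (nat_lit 390) (nat_lit 3040) (nat_lit 0) (XT.nd (nat_lit 156) (nat_lit 2508) (nat_lit 0) (XT.nd (nat_lit 78) (nat_lit 0) (nat_lit 0) (XT.lf (nat_lit 0) (nat_lit 19659175) (nat_lit 836) (nat_lit 6002063435) (nat_lit 912) (nat_lit 3976302146) (nat_lit 340) (nat_lit 5) (nat_lit 351) (nat_lit 5) (nat_lit 352) (nat_lit 5) (nat_lit 340) (nat_lit 315) (nat_lit 245)) (XT.lf (nat_lit 0) (nat_lit 8473514210) (nat_lit 836) (nat_lit 341489269) (nat_lit 912) (nat_lit 1332040711) (nat_lit 340) (nat_lit 5) (nat_lit 351) (nat_lit 5) (nat_lit 352) (nat_lit 5) (nat_lit 341) (nat_lit 315) (nat_lit 244))) (XT.nd (nat_lit 78) (nat_lit 1596) (nat_lit 0) (XT.lf (nat_lit 0) (nat_lit 1407633292) (nat_lit 912) (nat_lit 3420530713) (nat_lit 76) (nat_lit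 5471521631) (nat_lit 328) (nat_lit 5) (nat_lit 340) (nat_lit 5) (nat_lit 329) (nat_lit 5) (nat_lit 342) (nat_lit 315) (nat_lit 243)) (XT.nd (nat_lit 78) (nat_lit 760) (nat_lit 0) (XT.lf (nat_lit 0) (nat_lit 4220721005) (nat_lit 912) (nat_lit 5197508479) (nat_lit 76) (nat_lit 1038332610) (nat_lit 317) (nat_lit 5) (nat_lit 329) (nat_lit 5) (nat_lit 318) (nat_lit 5) (nat_lit 343) (nat_lit 315) (nat_lit 242)) (XT.lf (nat_lit 0) (nat_lit 3596318379) (nat_lit 760) (nat_lit 3556370596) (nat_lit 836) (nat_lit 3464783866) (nat_lit 307) (nat_lit 5) (nat_lit 317) (nat_lit 5) (nat_lit 318) (nat_lit 5) (nat_lit 344) (nat_lit 315) (nat_lit 241))))) (XT.nd (nat_lit 156) (nat_lit 1520) (nat_lit 0) (XT.nd (nat_lit 78) (nat_lit 760) (nat_lit 0) (XT.lf (nat_lit 0) (nat_lit 1904544939) (nat_lit 760) (nat_lit 8288501115) (nat_lit 836) (nat_lit 589773485) (nat_lit 297) (nat_lit 5) (nat_lit 307) (nat_lit 5) (nat_lit 308)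 (nat_lit 5) (nat_lit 345) (nat_lit 315) (nat_lit 240)) (XT.lf (nat_lit 0) (nat_lit 158008132) (nat_lit 684) (nat_lit 2212249513) (nat_lit 760) (nat_lit 8581979989) (nat_lit 287) (nat_lit 5) (nat_lit 296) (nat_lit 5) (nat_lit 297) (nat_lit 5) (nat_lit 346) (nat_lit 315) (nat_lit 239))) (XT.nd (nat_lit 78) (nat_lit 1520) (nat_lit 0) (XT.lf (nat_lit 0) (nat_lit 5456050761) (nat_lit 760) (nat_lit 1615831478) (nat_lit 76) (nat_lit 4053894513) (nat_lit 287) (nat_lit 5) (nat_lit 297) (nat_lit 5) (nat_lit 288) (nat_lit 5) (nat_lit 347) (nat_lit 315) (nat_lit 238)) (XT.nd (nat_lit 78) (nat_lit 760) (nat_lit 0) (XT.lf (nat_lit 0) (nat_lit 7881255934) (nat_lit 760) (nat_lit 778443334) (nat_lit 836) (nat_lit 2644332603) (nat_lit 277) (nat_lit 5) (nat_lit 287) (nat_lit 5) (nat_lit 288) (nat_lit 5) (nat_lit 348) (nat_lit 315) (nat_lit 237)) (XT.lf (nat_lit 0) (nat_lit 514411922) (nat_lit 760) (nat_lit 5293217711)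 (nat_lit 76) (nat_lit 5678982908) (nat_lit 267) (nat_lit 5) (nat_lit 277) (nat_lit 5) (nat_lit 268) (nat_lit 5) (nat_lit 349) (nat_lit 315) (nat_lit 236)))))) (XT.nd (nat_lit 390) (nat_lit 2356) (nat_lit 0) (XT.nd (nat_lit 156) (nat_lit 1292) (nat_lit 0) (XT.nd (nat_lit 78) (nat_lit 608) (nat_lit 0) (XT.lf (nat_lit 0) (nat_lit 3755109170) (nat_lit 760) (nat_lit 7217498319) (nat_lit 76) (nat_lit 701265518) (nat_lit 258) (nat_lit 5) (nat_lit 268) (nat_lit 5) (nat_lit 259) (nat_lit 5) (nat_lit 350) (nat_lit 315) (nat_lit 235)) (XT.lf (nat_lit 0) (nat_lit 2655536929) (nat_lit 608) (nat_lit 4491272310) (nat_lit 684) (nat_lit 4718880281) (nat_lit 250) (nat_lit 5) (nat_lit 258) (nat_lit 5) (nat_lit 259) (nat_lit 5) (nat_lit 351) (nat_lit 315) (nat_lit 234))) (XT.nd (nat_lit 78) (nat_lit 684) (nat_lit 0) (XT.lf (nat_lit 0) (nat_lit 812342141) (nat_lit 608) (nat_lit 9858990258) (nat_lit 684) (nat_lit 1391320151)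 (nat_lit 242) (nat_lit 5) (nat_lit 250) (nat_lit 5) (nat_lit 251) (nat_lit 5) (nat_lit 352) (nat_lit 315) (nat_lit 233)) (XT.nd (nat_lit 78) (nat_lit 608) (nat_lit 0) (XT.lf (nat_lit 0) (nat_lit 2065156426) (nat_lit 684) (nat_lit 1091216359) (nat_lit 76) (nat_lit 9107784255) (nat_lit 241) (nat_lit 5) (nat_lit 250) (nat_lit 5) (nat_lit 242) (nat_lit 5) (nat_lit 353) (nat_lit 315) (nat_lit 232)) (XT.lf (nat_lit 0) (nat_lit 5656608903) (nat_lit 684) (nat_lit 3052121278) (nat_lit 76) (nat_lit 3761801310) (nat_lit 233) (nat_lit 5) (nat_lit 242) (nat_lit 5) (nat_lit 234) (nat_lit 5) (nat_lit 354) (nat_lit 315) (nat_lit 231))))) (XT.nd (nat_lit 156) (nat_lit 1140) (nat_lit 0) (XT.nd (nat_lit 78) (nat_lit 608) (nat_lit 0) (XT.lf (nat_lit 0) (nat_lit 7610460678) (nat_lit 608) (nat_lit 1788041677) (nat_lit 684) (nat_lit 3283752954) (nat_lit 225) (nat_lit 5) (nat_lit 233) (nat_lit 5) (nat_lit 234) (nat_lit 5)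 (nat_lit 355) (nat_lit 315) (nat_lit 230)) (XT.lf (nat_lit 0) (nat_lit 406209311) (nat_lit 608) (nat_lit 7170159129) (nat_lit 76) (nat_lit 5322757985) (nat_lit 217) (nat_lit 5) (nat_lit 225) (nat_lit 5) (nat_lit 218) (nat_lit 5) (nat_lit 356) (nat_lit 315) (nat_lit 229))) (XT.nd (nat_lit 78) (nat_lit 532) (nat_lit 0) (XT.lf (nat_lit 0) (nat_lit 3773495024) (nat_lit 608) (nat_lit 425992837) (nat_lit 684) (nat_lit 8921848251) (nat_lit 209) (nat_lit 5) (nat_lit 217) (nat_lit 5) (nat_lit 218) (nat_lit 5) (nat_lit 357) (nat_lit 315) (nat_lit 228)) (XT.nd (nat_lit 78) (nat_lit 0) (nat_lit 0) (XT.lf (nat_lit 0) (nat_lit 1728534069) (nat_lit 532) (nat_lit 6449794854) (nat_lit 608) (nat_lit 5170458723) (nat_lit 202) (nat_lit 5) (nat_lit 209) (nat_lit 5) (nat_lit 210) (nat_lit 5) (nat_lit 358) (nat_lit 315) (nat_lit 227)) (XT.lf (nat_lit 0) (nat_lit 12315894924) (nat_lit 608) (nat_lit 368470367) (nat_lit 76)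 (nat_lit 897920765) (nat_lit 202) (nat_lit 5) (nat_lit 210) (nat_lit 5) (nat_lit 203) (nat_lit 5) (nat_lit 359) (nat_lit 315) (nat_lit 226))))))))
noncomputable def xc78 : XT := (XT.nd (nat_lit 1560) (nat_lit 1292) (nat_lit 0) (XT.nd (nat_lit 780) (nat_lit 3116) (nat_lit 0) (XT.nd (nat_lit 390) (nat_lit 1824) (nat_lit 0) (XT.nd (nat_lit 156) (nat_lit 1520) (nat_lit 0) (XT.nd (nat_lit 78) (nat_lit 456) (nat_lit 0) (XT.lf (nat_lit 0) (nat_lit 2803784505) (nat_lit 608) (nat_lit 2555605549) (nat_lit 76) (nat_lit 8461349347) (nat_lit 194) (nat_lit 5) (nat_lit 202) (nat_lit 5) (nat_lit 195) (nat_lit 5) (nat_lit 360) (nat_lit 315) (nat_lit 225)) (XT.lf (nat_lit 0) (nat_lit 7024787914) (nat_lit 532) (nat_lit 4822253572) (nat_lit 76) (nat_lit 2218228613) (nat_lit 188) (nat_lit 5) (nat_lit 195) (nat_lit 5) (nat_lit 189) (nat_lit 5) (nat_lit 361) (nat_lit 315) (nat_lit 224))) (XT.nd (nat_lit 78) (nat_lit 988)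 (nat_lit 0) (XT.lf (nat_lit 0) (nat_lit 7129933623) (nat_lit 532) (nat_lit 4311250457) (nat_lit 608) (nat_lit 2874586828) (nat_lit 181) (nat_lit 5) (nat_lit 188) (nat_lit 5) (nat_lit 189) (nat_lit 5) (nat_lit 362) (nat_lit 315) (nat_lit 223)) (XT.nd (nat_lit 78) (nat_lit 456) (nat_lit 0) (XT.lf (nat_lit 0) (nat_lit 1455175599) (nat_lit 532) (nat_lit 9647853375) (nat_lit 76) (nat_lit 3469433543) (nat_lit 174) (nat_lit 5) (nat_lit 181) (nat_lit 5) (nat_lit 175) (nat_lit 5) (nat_lit 363) (nat_lit 315) (nat_lit 222)) (XT.lf (nat_lit 0) (nat_lit 2605627412) (nat_lit 456) (nat_lit 3335310070) (nat_lit 532) (nat_lit 8894242878) (nat_lit 168) (nat_lit 5) (nat_lit 174) (nat_lit 5) (nat_lit 175) (nat_lit 5) (nat_lit 364) (nat_lit 315) (nat_lit 221))))) (XT.nd (nat_lit 156) (nat_lit 1292) (nat_lit 0) (XT.nd (nat_lit 78) (nat_lit 76) (nat_lit 0) (XT.lf (nat_lit 0) (nat_lit 185133255) (nat_lit 456) (nat_lit 10444150076)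 (nat_lit 532) (nat_lit 4475144656) (nat_lit 162) (nat_lit 5) (nat_lit 168) (nat_lit 5) (nat_lit 169) (nat_lit 5) (nat_lit 365) (nat_lit 315) (nat_lit 220)) (XT.lf (nat_lit 0) (nat_lit 152349701) (nat_lit 532) (nat_lit 2304387359) (nat_lit 76) (nat_lit 12923477572) (nat_lit 161) (nat_lit 5) (nat_lit 168) (nat_lit 5) (nat_lit 162) (nat_lit 5) (nat_lit 366) (nat_lit 315) (nat_lit 219))) (XT.nd (nat_lit 78) (nat_lit 836) (nat_lit 0) (XT.lf (nat_lit 0) (nat_lit 4938077144) (nat_lit 532) (nat_lit 4940149444) (nat_lit 76) (nat_lit 5783860345) (nat_lit 155) (nat_lit 5) (nat_lit 162) (nat_lit 5) (nat_lit 156) (nat_lit 5) (nat_lit 367) (nat_lit 315) (nat_lit 218)) (XT.nd (nat_lit 78) (nat_lit 456) (nat_lit 0) (XT.lf (nat_lit 0) (nat_lit 8271173531) (nat_lit 380) (nat_lit 1654488592) (nat_lit 456) (nat_lit 6025595165) (nat_lit 150) (nat_lit 5) (nat_lit 155) (nat_lit 5) (nat_lit 156) (nat_lit 5) (nat_lit 368)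 (nat_lit 315) (nat_lit 217)) (XT.lf (nat_lit 0) (nat_lit 5689063449) (nat_lit 456) (nat_lit 9461612282) (nat_lit 532) (nat_lit 1096678381) (nat_lit 144) (nat_lit 5) (nat_lit 150) (nat_lit 5) (nat_lit 151) (nat_lit 5) (nat_lit 369) (nat_lit 315) (nat_lit 216)))))) (XT.nd (nat_lit 390) (nat_lit 1444) (nat_lit 0) (XT.nd (nat_lit 156) (nat_lit 836) (nat_lit 0) (XT.nd (nat_lit 78) (nat_lit 380) (nat_lit 0) (XT.lf (nat_lit 0) (nat_lit 2976072930) (nat_lit 380) (nat_lit 1007876223) (nat_lit 456) (nat_lit 12566754021) (nat_lit 138) (nat_lit 5) (nat_lit 143) (nat_lit 5) (nat_lit 144) (nat_lit 5) (nat_lit 370) (nat_lit 315) (nat_lit 215)) (XT.lf (nat_lit 0) (nat_lit 104188102) (nat_lit 380) (nat_lit 9194400933) (nat_lit 456) (nat_lit 7562495649) (nat_lit 133) (nat_lit 5) (nat_lit 138) (nat_lit 5) (nat_lit 139) (nat_lit 5) (nat_lit 371) (nat_lit 315) (nat_lit 214))) (XT.nd (nat_lit 78) (nat_lit 836) (nat_lit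 0) (XT.lf (nat_lit 0) (nat_lit 14334330364) (nat_lit 380) (nat_lit 511259510) (nat_lit 456) (nat_lit 2333735950) (nat_lit 133) (nat_lit 5) (nat_lit 138) (nat_lit 5) (nat_lit 139) (nat_lit 5) (nat_lit 372) (nat_lit 315) (nat_lit 213)) (XT.nd (nat_lit 78) (nat_lit 380) (nat_lit 0) (XT.lf (nat_lit 0) (nat_lit 3117157001) (nat_lit 456) (nat_lit 5981970480) (nat_lit 76) (nat_lit 8405490791) (nat_lit 127) (nat_lit 5) (nat_lit 133) (nat_lit 5) (nat_lit 128) (nat_lit 5) (nat_lit 373) (nat_lit 315) (nat_lit 212)) (XT.lf (nat_lit 0) (nat_lit 8577244002) (nat_lit 380) (nat_lit 176557709) (nat_lit 456) (nat_lit 9084486756) (nat_lit 122) (nat_lit 5) (nat_lit 127) (nat_lit 5) (nat_lit 128) (nat_lit 5) (nat_lit 374) (nat_lit 315) (nat_lit 211))))) (XT.nd (nat_lit 156) (nat_lit 684) (nat_lit 0) (XT.nd (nat_lit 78) (nat_lit 456) (nat_lit 0) (XT.lf (nat_lit 0) (nat_lit 5449757547) (nat_lit 304) (nat_lit 9220140105)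 (nat_lit 380) (nat_lit 3509870017) (nat_lit 118) (nat_lit 5) (nat_lit 122) (nat_lit 5) (nat_lit 123) (nat_lit 5) (nat_lit 375) (nat_lit 315) (nat_lit 210)) (XT.lf (nat_lit 0) (nat_lit 2174230132) (nat_lit 380) (nat_lit 82902271) (nat_lit 456) (nat_lit 16272986266) (nat_lit 112) (nat_lit 5) (nat_lit 117) (nat_lit 5) (nat_lit 118) (nat_lit 5) (nat_lit 376) (nat_lit 315) (nat_lit 209))) (XT.nd (nat_lit 78) (nat_lit 684) (nat_lit 0) (XT.lf (nat_lit 0) (nat_lit 8273468983) (nat_lit 456) (nat_lit 1310430772) (nat_lit 76) (nat_lit 9304141739) (nat_lit 112) (nat_lit 5) (nat_lit 118) (nat_lit 5) (nat_lit 113) (nat_lit 5) (nat_lit 377) (nat_lit 315) (nat_lit 208)) (XT.nd (nat_lit 78) (nat_lit 380) (nat_lit 0) (XT.lf (nat_lit 0) (nat_lit 14338535421) (nat_lit 304) (nat_lit 202436425) (nat_lit 380) (nat_lit 4714321963) (nat_lit 108) (nat_lit 5) (nat_lit 112) (nat_lit 5) (nat_lit 113) (nat_lit 5) (nat_lit 378)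 (nat_lit 315) (nat_lit 207)) (XT.lf (nat_lit 0) (nat_lit 1464282888) (nat_lit 380) (nat_lit 8753156233) (nat_lit 76) (nat_lit 9413568224) (nat_lit 103) (nat_lit 5) (nat_lit 108) (nat_lit 5) (nat_lit 104) (nat_lit 5) (nat_lit 379) (nat_lit 315) (nat_lit 206))))))) (XT.nd (nat_lit 42276) (nat_lit 0) (nat_lit 29564) (XT.nd (nat_lit 41886) (nat_lit 0) (nat_lit 33440) (XT.nd (nat_lit 156) (nat_lit 684) (nat_lit 0) (XT.nd (nat_lit 78) (nat_lit 304) (nat_lit 0) (XT.lf (nat_lit 0) (nat_lit 7223016973) (nat_lit 304) (nat_lit 601005859) (nat_lit 380) (nat_lit 12192154626) (nat_lit 99) (nat_lit 5) (nat_lit 103) (nat_lit 5) (nat_lit 104) (nat_lit 5) (nat_lit 380) (nat_lit 315) (nat_lit 205)) (XT.lf (nat_lit 0) (nat_lit 3334826930) (nat_lit 304) (nat_lit 11159513417) (nat_lit 380) (nat_lit 5916171400) (nat_lit 95) (nat_lit 5) (nat_lit 99) (nat_lit 5) (nat_lit 100) (nat_lit 5) (nat_lit 381) (nat_lit 315) (nat_lit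 204))) (XT.nd (nat_lit 78) (nat_lit 608) (nat_lit 0) (XT.lf (nat_lit 0) (nat_lit 610477389) (nat_lit 380) (nat_lit 735739181) (nat_lit 76) (nat_lit 19469001387) (nat_lit 94) (nat_lit 5) (nat_lit 99) (nat_lit 5) (nat_lit 95) (nat_lit 5) (nat_lit 382) (nat_lit 315) (nat_lit 203)) (XT.nd (nat_lit 78) (nat_lit 304) (nat_lit 0) (XT.lf (nat_lit 0) (nat_lit 7395098588) (nat_lit 380) (nat_lit 5053011608) (nat_lit 76) (nat_lit 8780326449) (nat_lit 90) (nat_lit 5) (nat_lit 95) (nat_lit 5) (nat_lit 91) (nat_lit 5) (nat_lit 383) (nat_lit 315) (nat_lit 202)) (XT.lf (nat_lit 0) (nat_lit 12066047460) (nat_lit 304) (nat_lit 2388817333) (nat_lit 380) (nat_lit 7197759262) (nat_lit 86) (nat_lit 5) (nat_lit 90) (nat_lit 5) (nat_lit 91) (nat_lit 5) (nat_lit 384) (nat_lit 315) (nat_lit 201))))) (XT.nd (nat_lit 156) (nat_lit 1216) (nat_lit 0) (XT.nd (nat_lit 78) (nat_lit 0) (nat_lit 0) (XT.lf (nat_lit 0) (nat_lit 1598627965)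 (nat_lit 1292) (nat_lit 1085657819) (nat_lit 1292) (nat_lit 1085657819) (nat_lit 542) (nat_lit 3) (nat_lit 559) (nat_lit 3) (nat_lit 559) (nat_lit 5) (nat_lit 316) (nat_lit 316) (nat_lit 268)) (XT.lf (nat_lit 76) (nat_lit 3259003348) (nat_lit 0) (nat_lit 2083755124) (nat_lit 1292) (nat_lit 2267182481) (nat_lit 543) (nat_lit 5) (nat_lit 542) (nat_lit 3) (nat_lit 559) (nat_lit 5) (nat_lit 317) (nat_lit 316) (nat_lit 267))) (XT.nd (nat_lit 78) (nat_lit 1292) (nat_lit 0) (XT.lf (nat_lit 76) (nat_lit 1163045741) (nat_lit 0) (nat_lit 6339328843) (nat_lit 1292) (nat_lit 180769443) (nat_lit 544) (nat_lit 5) (nat_lit 543) (nat_lit 5) (nat_lit 560) (nat_lit 5) (nat_lit 318) (nat_lit 316) (nat_lit 266)) (XT.nd (nat_lit 78) (nat_lit 0) (nat_lit 76) (XT.lf (nat_lit 0) (nat_lit 1906501087) (nat_lit 1292) (nat_lit 927068215) (nat_lit 1368) (nat_lit 4925477360) (nat_lit 526) (nat_lit 5) (nat_lit 543) (nat_lit 5)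 (nat_lit 544) (nat_lit 5) (nat_lit 319) (nat_lit 316) (nat_lit 265)) (XT.lf (nat_lit 0) (nat_lit 4013726803) (nat_lit 1292) (nat_lit 2990369466) (nat_lit 1368) (nat_lit 833949793) (nat_lit 527) (nat_lit 5) (nat_lit 544) (nat_lit 5) (nat_lit 545) (nat_lit 5) (nat_lit 320) (nat_lit 316) (nat_lit 264)))))) (XT.nd (nat_lit 390) (nat_lit 2660) (nat_lit 0) (XT.nd (nat_lit 156) (nat_lit 0) (nat_lit 0) (XT.nd (nat_lit 78) (nat_lit 1292) (nat_lit 0) (XT.lf (nat_lit 76) (nat_lit 2863646366) (nat_lit 0) (nat_lit 3289359779) (nat_lit 1368) (nat_lit 1767070857) (nat_lit 528) (nat_lit 5) (nat_lit 527) (nat_lit 5) (nat_lit 545) (nat_lit 5) (nat_lit 321) (nat_lit 316) (nat_lit 263)) (XT.lf (nat_lit 0) (nat_lit 303708452) (nat_lit 1368) (nat_lit 7114286362) (nat_lit 1444) (nat_lit 587436240) (nat_lit 510) (nat_lit 5) (nat_lit 528) (nat_lit 5) (nat_lit 529) (nat_lit 5) (nat_lit 322) (nat_lit 316) (nat_lit 262))) (XT.nd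 (nat_lit 78) (nat_lit 0) (nat_lit 76) (XT.lf (nat_lit 0) (nat_lit 2397628594) (nat_lit 1368) (nat_lit 1085562549) (nat_lit 1444) (nat_lit 4610255868) (nat_lit 510) (nat_lit 5) (nat_lit 528) (nat_lit 5) (nat_lit 529) (nat_lit 5) (nat_lit 323) (nat_lit 316) (nat_lit 261)) (XT.nd (nat_lit 78) (nat_lit 0) (nat_lit 0) (XT.lf (nat_lit 0) (nat_lit 4522359699) (nat_lit 1368) (nat_lit 3041314762) (nat_lit 1444) (nat_lit 621103477) (nat_lit 511) (nat_lit 5) (nat_lit 529) (nat_lit 5) (nat_lit 530) (nat_lit 5) (nat_lit 324) (nat_lit 316) (nat_lit 260)) (XT.lf (nat_lit 76) (nat_lit 3270325873) (nat_lit 0) (nat_lit 3424827632) (nat_lit 1444) (nat_lit 1584042229) (nat_lit 512) (nat_lit 5) (nat_lit 511) (nat_lit 5) (nat_lit 530) (nat_lit 5) (nat_lit 325) (nat_lit 316) (nat_lit 259))))) (XT.nd (nat_lit 156) (nat_lit 1368) (nat_lit 0) (XT.nd (nat_lit 78) (nat_lit 0) (nat_lit 0) (XT.lf (nat_lit 0) (nat_lit 518669857)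 (nat_lit 1444) (nat_lit 6976257551) (nat_lit 1520) (nat_lit 882092405) (nat_lit 493) (nat_lit 5) (nat_lit 512) (nat_lit 5) (nat_lit 513) (nat_lit 5) (nat_lit 326) (nat_lit 316) (nat_lit 258)) (XT.lf (nat_lit 0) (nat_lit 2655519255) (nat_lit 1444) (nat_lit 485234159) (nat_lit 1520) (nat_lit 5336995079) (nat_lit 493) (nat_lit 5) (nat_lit 512) (nat_lit 5) (nat_lit 513) (nat_lit 5) (nat_lit 327) (nat_lit 316) (nat_lit 257))) (XT.nd (nat_lit 78) (nat_lit 1444) (nat_lit 0) (XT.lf (nat_lit 0) (nat_lit 4843355946) (nat_lit 1444) (nat_lit 2353084046) (nat_lit 1520) (nat_lit 1385351334) (nat_lit 494) (nat_lit 5) (nat_lit 513) (nat_lit 5) (nat_lit 514) (nat_lit 5) (nat_lit 328) (nat_lit 316) (nat_lit 256)) (XT.nd (nat_lit 78) (nat_lit 1444) (nat_lit 0) (XT.lf (nat_lit 76) (nat_lit 4454235392) (nat_lit 0) (nat_lit 2634750274) (nat_lit 1520) (nat_lit 1600155676) (nat_lit 495) (nat_lit 5) (nat_lit 494) (nat_lit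 5) (nat_lit 514) (nat_lit 5) (nat_lit 329) (nat_lit 316) (nat_lit 255)) (XT.lf (nat_lit 0) (nat_lit 581593145) (nat_lit 1520) (nat_lit 6129222472) (nat_lit 1596) (nat_lit 2089101298) (nat_lit 475) (nat_lit 5) (nat_lit 495) (nat_lit 5) (nat_lit 496) (nat_lit 5) (nat_lit 330) (nat_lit 316) (nat_lit 254))))))))
noncomputable def xc79 : XT := (XT.nd (nat_lit 1560) (nat_lit 9424) (nat_lit 0) (XT.nd (nat_lit 780) (nat_lit 6384) (nat_lit 0) (XT.nd (nat_lit 390) (nat_lit 4636) (nat_lit 0) (XT.nd (nat_lit 156) (nat_lit 4788) (nat_lit 0) (XT.nd (nat_lit 78) (nat_lit 0) (nat_lit 76) (XT.lf (nat_lit 76) (nat_lit 865194786) (nat_lit 0) (nat_lit 1935653862) (nat_lit 1596) (nat_lit 6113106539) (nat_lit 476) (nat_lit 5) (nat_lit 475) (nat_lit 5) (nat_lit 496) (nat_lit 5) (nat_lit 331) (nat_lit 316) (nat_lit 253)) (XT.lf (nat_lit 0) (nat_lit 5090892355) (nat_lit 1520) (nat_lit 943019022) (nat_lit 76) (nat_lit 2997445089)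 (nat_lit 476) (nat_lit 5) (nat_lit 496) (nat_lit 5) (nat_lit 477) (nat_lit 5) (nat_lit 332) (nat_lit 316) (nat_lit 252))) (XT.nd (nat_lit 78) (nat_lit 3344) (nat_lit 0) (XT.lf (nat_lit 0) (nat_lit 6402122504) (nat_lit 1520) (nat_lit 1046721279) (nat_lit 1596) (nat_lit 1703477182) (nat_lit 456) (nat_lit 5) (nat_lit 476) (nat_lit 5) (nat_lit 477) (nat_lit 5) (nat_lit 333) (nat_lit 316) (nat_lit 251)) (XT.nd (nat_lit 78) (nat_lit 1672) (nat_lit 0) (XT.lf (nat_lit 0) (nat_lit 602326320) (nat_lit 1672) (nat_lit 4587247467) (nat_lit 76) (nat_lit 4087095027) (nat_lit 434) (nat_lit 5) (nat_lit 456) (nat_lit 5) (nat_lit 435) (nat_lit 5) (nat_lit 334) (nat_lit 316) (nat_lit 250)) (XT.lf (nat_lit 0) (nat_lit 2946360271) (nat_lit 1748) (nat_lit 6444210487) (nat_lit 76) (nat_lit 14130533) (nat_lit 412) (nat_lit 5) (nat_lit 435) (nat_lit 5) (nat_lit 413) (nat_lit 5) (nat_lit 335) (nat_lit 316) (nat_lit 249)))))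 (XT.nd (nat_lit 156) (nat_lit 2888) (nat_lit 0) (XT.nd (nat_lit 78) (nat_lit 0) (nat_lit 0) (XT.lf (nat_lit 0) (nat_lit 1196683644) (nat_lit 1748) (nat_lit 4186092270) (nat_lit 1824) (nat_lit 4153380324) (nat_lit 389) (nat_lit 5) (nat_lit 412) (nat_lit 5) (nat_lit 413) (nat_lit 5) (nat_lit 336) (nat_lit 316) (nat_lit 248)) (XT.lf (nat_lit 0) (nat_lit 7893413777) (nat_lit 1824) (nat_lit 569510442) (nat_lit 76) (nat_lit 1208630065) (nat_lit 389) (nat_lit 5) (nat_lit 413) (nat_lit 5) (nat_lit 390) (nat_lit 5) (nat_lit 337) (nat_lit 316) (nat_lit 247))) (XT.nd (nat_lit 78) (nat_lit 1748) (nat_lit 0) (XT.lf (nat_lit 0) (nat_lit 687189431) (nat_lit 1140) (nat_lit 2356218492) (nat_lit 76) (nat_lit 6766988575) (nat_lit 374) (nat_lit 5) (nat_lit 389) (nat_lit 5) (nat_lit 375) (nat_lit 5) (nat_lit 338) (nat_lit 316) (nat_lit 246)) (XT.nd (nat_lit 78) (nat_lit 836) (nat_lit 0) (XT.lf (nat_lit 0) (nat_lit 3212633967)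 (nat_lit 988) (nat_lit 4177608151) (nat_lit 76) (nat_lit 2562740910) (nat_lit 362) (nat_lit 5) (nat_lit 375) (nat_lit 5) (nat_lit 363) (nat_lit 5) (nat_lit 339) (nat_lit 316) (nat_lit 245)) (XT.lf (nat_lit 0) (nat_lit 4071797296) (nat_lit 836) (nat_lit 1757867040) (nat_lit 912) (nat_lit 4269886150) (nat_lit 351) (nat_lit 5) (nat_lit 362) (nat_lit 5) (nat_lit 363) (nat_lit 5) (nat_lit 340) (nat_lit 316) (nat_lit 244)))))) (XT.nd (nat_lit 390) (nat_lit 3040) (nat_lit 0) (XT.nd (nat_lit 156) (nat_lit 1596) (nat_lit 0) (XT.nd (nat_lit 78) (nat_lit 912) (nat_lit 0) (XT.lf (nat_lit 0) (nat_lit 2335093416) (nat_lit 836) (nat_lit 6214079548) (nat_lit 912) (nat_lit 1700881862) (nat_lit 340) (nat_lit 5) (nat_lit 351) (nat_lit 5) (nat_lit 352) (nat_lit 5) (nat_lit 341) (nat_lit 316) (nat_lit 243)) (XT.lf (nat_lit 0) (nat_lit 571509355) (nat_lit 836) (nat_lit 372661638) (nat_lit 912) (nat_lit 9460571350) (nat_lit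 328) (nat_lit 5) (nat_lit 339) (nat_lit 5) (nat_lit 340) (nat_lit 5) (nat_lit 342) (nat_lit 316) (nat_lit 242))) (XT.nd (nat_lit 78) (nat_lit 1596) (nat_lit 0) (XT.lf (nat_lit 0) (nat_lit 3692054978) (nat_lit 912) (nat_lit 1235529559) (nat_lit 76) (nat_lit 5635347081) (nat_lit 328) (nat_lit 5) (nat_lit 340) (nat_lit 5) (nat_lit 329) (nat_lit 5) (nat_lit 343) (nat_lit 316) (nat_lit 241)) (XT.nd (nat_lit 78) (nat_lit 760) (nat_lit 0) (XT.lf (nat_lit 0) (nat_lit 6539223601) (nat_lit 912) (nat_lit 3058609174) (nat_lit 76) (nat_lit 1127714065) (nat_lit 317) (nat_lit 5) (nat_lit 329) (nat_lit 5) (nat_lit 318) (nat_lit 5) (nat_lit 344) (nat_lit 316) (nat_lit 240)) (XT.lf (nat_lit 0) (nat_lit 5961801688) (nat_lit 760) (nat_lit 3548165525) (nat_lit 836) (nat_lit 1382326835) (nat_lit 307) (nat_lit 5) (nat_lit 317) (nat_lit 5) (nat_lit 318) (nat_lit 5) (nat_lit 345) (nat_lit 316) (nat_lit 239))))) (XT.nd (nat_lit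 156) (nat_lit 1520) (nat_lit 0) (XT.nd (nat_lit 78) (nat_lit 684) (nat_lit 0) (XT.lf (nat_lit 0) (nat_lit 1510900217) (nat_lit 836) (nat_lit 6848597472) (nat_lit 76) (nat_lit 2703869185) (nat_lit 296) (nat_lit 5) (nat_lit 307) (nat_lit 5) (nat_lit 297) (nat_lit 5) (nat_lit 346) (nat_lit 316) (nat_lit 238)) (XT.lf (nat_lit 0) (nat_lit 2417643370) (nat_lit 684) (nat_lit 2087294193) (nat_lit 760) (nat_lit 6733811158) (nat_lit 287) (nat_lit 5) (nat_lit 296) (nat_lit 5) (nat_lit 297) (nat_lit 5) (nat_lit 347) (nat_lit 316) (nat_lit 237))) (XT.nd (nat_lit 78) (nat_lit 760) (nat_lit 0) (XT.lf (nat_lit 0) (nat_lit 572039513) (nat_lit 760) (nat_lit 7056080989) (nat_lit 836) (nat_lit 3790500043) (nat_lit 277) (nat_lit 5) (nat_lit 287) (nat_lit 5) (nat_lit 288) (nat_lit 5) (nat_lit 348) (nat_lit 316) (nat_lit 236)) (XT.nd (nat_lit 78) (nat_lit 760) (nat_lit 0) (XT.lf (nat_lit 0) (nat_lit 10310376808) (nat_lit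 760) (nat_lit 569635382) (nat_lit 836) (nat_lit 723190639) (nat_lit 277) (nat_lit 5) (nat_lit 287) (nat_lit 5) (nat_lit 288) (nat_lit 5) (nat_lit 349) (nat_lit 316) (nat_lit 235)) (XT.lf (nat_lit 0) (nat_lit 2462396113) (nat_lit 760) (nat_lit 3230699224) (nat_lit 76) (nat_lit 6098760605) (nat_lit 267) (nat_lit 5) (nat_lit 277) (nat_lit 5) (nat_lit 268) (nat_lit 5) (nat_lit 350) (nat_lit 316) (nat_lit 234))))))) (XT.nd (nat_lit 780) (nat_lit 3876) (nat_lit 0) (XT.nd (nat_lit 390) (nat_lit 2964) (nat_lit 0) (XT.nd (nat_lit 156) (nat_lit 1292) (nat_lit 0) (XT.nd (nat_lit 78) (nat_lit 608) (nat_lit 0) (XT.lf (nat_lit 0) (nat_lit 5760128825) (nat_lit 760) (nat_lit 5212168165) (nat_lit 76) (nat_lit 1013261445) (nat_lit 258) (nat_lit 5) (nat_lit 268) (nat_lit 5) (nat_lit 259) (nat_lit 5) (nat_lit 351) (nat_lit 316) (nat_lit 233)) (XT.lf (nat_lit 0) (nat_lit 4921011181) (nat_lit 608) (nat_lit 4291642963)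 (nat_lit 684) (nat_lit 2971313718) (nat_lit 250) (nat_lit 5) (nat_lit 258) (nat_lit 5) (nat_lit 259) (nat_lit 5) (nat_lit 352) (nat_lit 316) (nat_lit 232))) (XT.nd (nat_lit 78) (nat_lit 608) (nat_lit 0) (XT.lf (nat_lit 0) (nat_lit 412194067) (nat_lit 684) (nat_lit 9368319978) (nat_lit 76) (nat_lit 2607043418) (nat_lit 241) (nat_lit 5) (nat_lit 250) (nat_lit 5) (nat_lit 242) (nat_lit 5) (nat_lit 353) (nat_lit 316) (nat_lit 231)) (XT.nd (nat_lit 78) (nat_lit 0) (nat_lit 0) (XT.lf (nat_lit 0) (nat_lit 1035447984) (nat_lit 608) (nat_lit 2871647102) (nat_lit 684) (nat_lit 8688773809) (nat_lit 233) (nat_lit 5) (nat_lit 241) (nat_lit 5) (nat_lit 242) (nat_lit 5) (nat_lit 354) (nat_lit 316) (nat_lit 230)) (XT.lf (nat_lit 0) (nat_lit 7564065218) (nat_lit 684) (nat_lit 999815086) (nat_lit 76) (nat_lit 4245416653) (nat_lit 233) (nat_lit 5) (nat_lit 242) (nat_lit 5) (nat_lit 234) (nat_lit 5) (nat_lit 355) (nat_lit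 316) (nat_lit 229))))) (XT.nd (nat_lit 156) (nat_lit 1748) (nat_lit 0) (XT.nd (nat_lit 78) (nat_lit 608) (nat_lit 0) (XT.lf (nat_lit 0) (nat_lit 9947862588) (nat_lit 608) (nat_lit 1433432173) (nat_lit 684) (nat_lit 1646833482) (nat_lit 225) (nat_lit 5) (nat_lit 233) (nat_lit 5) (nat_lit 234) (nat_lit 5) (nat_lit 356) (nat_lit 316) (nat_lit 228)) (XT.lf (nat_lit 0) (nat_lit 2097540024) (nat_lit 608) (nat_lit 5256102340) (nat_lit 76) (nat_lit 5898324825) (nat_lit 217) (nat_lit 5) (nat_lit 225) (nat_lit 5) (nat_lit 218) (nat_lit 5) (nat_lit 357) (nat_lit 316) (nat_lit 227))) (XT.nd (nat_lit 78) (nat_lit 1140) (nat_lit 0) (XT.lf (nat_lit 0) (nat_lit 5969387433) (nat_lit 684) (nat_lit 7500324987) (nat_lit 76) (nat_lit 11851359) (nat_lit 209) (nat_lit 5) (nat_lit 218) (nat_lit 5) (nat_lit 210) (nat_lit 5) (nat_lit 358) (nat_lit 316) (nat_lit 226)) (XT.nd (nat_lit 78) (nat_lit 608) (nat_lit 0) (XT.lf (nat_lit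 0) (nat_lit 3871015359) (nat_lit 532) (nat_lit 6165036905) (nat_lit 608) (nat_lit 3680432982) (nat_lit 202) (nat_lit 5) (nat_lit 209) (nat_lit 5) (nat_lit 210) (nat_lit 5) (nat_lit 359) (nat_lit 316) (nat_lit 225)) (XT.lf (nat_lit 0) (nat_lit 303153198) (nat_lit 608) (nat_lit 12258337286) (nat_lit 76) (nat_lit 1396131370) (nat_lit 194) (nat_lit 5) (nat_lit 202) (nat_lit 5) (nat_lit 195) (nat_lit 5) (nat_lit 360) (nat_lit 316) (nat_lit 224)))))) (XT.nd (nat_lit 390) (nat_lit 1900) (nat_lit 0) (XT.nd (nat_lit 156) (nat_lit 1520) (nat_lit 0) (XT.nd (nat_lit 78) (nat_lit 456) (nat_lit 0) (XT.lf (nat_lit 0) (nat_lit 4434443920) (nat_lit 608) (nat_lit 586108671) (nat_lit 76) (nat_lit 9183398865) (nat_lit 194) (nat_lit 5) (nat_lit 202) (nat_lit 5) (nat_lit 195) (nat_lit 5) (nat_lit 361) (nat_lit 316) (nat_lit 223)) (XT.lf (nat_lit 0) (nat_lit 8753337863) (nat_lit 532) (nat_lit 2926432003) (nat_lit 76) (nat_lit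 2776636958) (nat_lit 188) (nat_lit 5) (nat_lit 195) (nat_lit 5) (nat_lit 189) (nat_lit 5) (nat_lit 362) (nat_lit 316) (nat_lit 222))) (XT.nd (nat_lit 78) (nat_lit 988) (nat_lit 0) (XT.lf (nat_lit 0) (nat_lit 9351216295) (nat_lit 532) (nat_lit 3919834941) (nat_lit 608) (nat_lit 1444008466) (nat_lit 181) (nat_lit 5) (nat_lit 188) (nat_lit 5) (nat_lit 189) (nat_lit 5) (nat_lit 363) (nat_lit 316) (nat_lit 221)) (XT.nd (nat_lit 78) (nat_lit 456) (nat_lit 0) (XT.lf (nat_lit 0) (nat_lit 2968537237) (nat_lit 532) (nat_lit 7916141767) (nat_lit 76) (nat_lit 4095133316) (nat_lit 174) (nat_lit 5) (nat_lit 181) (nat_lit 5) (nat_lit 175) (nat_lit 5) (nat_lit 364) (nat_lit 316) (nat_lit 220)) (XT.lf (nat_lit 0) (nat_lit 4672152731) (nat_lit 456) (nat_lit 2886821992) (nat_lit 532) (nat_lit 7692047442) (nat_lit 168) (nat_lit 5) (nat_lit 174) (nat_lit 5) (nat_lit 175) (nat_lit 5) (nat_lit 365) (nat_lit 316) (nat_lit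 219))))) (XT.nd (nat_lit 156) (nat_lit 1368) (nat_lit 0) (XT.nd (nat_lit 78) (nat_lit 76) (nat_lit 0) (XT.lf (nat_lit 0) (nat_lit 2172020925) (nat_lit 456) (nat_lit 10190335768) (nat_lit 532) (nat_lit 3166514972) (nat_lit 162) (nat_lit 5) (nat_lit 168) (nat_lit 5) (nat_lit 169) (nat_lit 5) (nat_lit 366) (nat_lit 316) (nat_lit 218)) (XT.lf (nat_lit 0) (nat_lit 1539405959) (nat_lit 532) (nat_lit 431135801) (nat_lit 76) (nat_lit 13843043850) (nat_lit 161) (nat_lit 5) (nat_lit 168) (nat_lit 5) (nat_lit 162) (nat_lit 5) (nat_lit 367) (nat_lit 316) (nat_lit 217))) (XT.nd (nat_lit 78) (nat_lit 912) (nat_lit 0) (XT.lf (nat_lit 0) (nat_lit 6444456795) (nat_lit 532) (nat_lit 3153628089) (nat_lit 76) (nat_lit 6506325399) (nat_lit 155) (nat_lit 5) (nat_lit 162) (nat_lit 5) (nat_lit 156) (nat_lit 5) (nat_lit 368) (nat_lit 316) (nat_lit 216)) (XT.nd (nat_lit 78) (nat_lit 532) (nat_lit 0) (XT.lf (nat_lit 0) (nat_lit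 10422645947) (nat_lit 380) (nat_lit 1131820793) (nat_lit 456) (nat_lit 4848343969) (nat_lit 150) (nat_lit 5) (nat_lit 155) (nat_lit 5) (nat_lit 156) (nat_lit 5) (nat_lit 369) (nat_lit 316) (nat_lit 215)) (XT.lf (nat_lit 0) (nat_lit 202427876) (nat_lit 532) (nat_lit 8954505679) (nat_lit 76) (nat_lit 7551297930) (nat_lit 143) (nat_lit 5) (nat_lit 150) (nat_lit 5) (nat_lit 144) (nat_lit 5) (nat_lit 370) (nat_lit 316) (nat_lit 214))))))))
noncomputable def xc80 : XT := (XT.nd (nat_lit 43212) (nat_lit 0) (nat_lit 18088) (XT.nd (nat_lit 780) (nat_lit 988) (nat_lit 0) (XT.nd (nat_lit 390) (nat_lit 1444) (nat_lit 0) (XT.nd (nat_lit 156) (nat_lit 836) (nat_lit 0) (XT.nd (nat_lit 78) (nat_lit 380) (nat_lit 0) (XT.lf (nat_lit 0) (nat_lit 4947515455) (nat_lit 380) (nat_lit 446999572) (nat_lit 456) (nat_lit 11626552284) (nat_lit 138) (nat_lit 5) (nat_lit 143) (nat_lit 5) (nat_lit 144) (nat_lit 5) (nat_lit 371)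 (nat_lit 316) (nat_lit 213)) (XT.lf (nat_lit 0) (nat_lit 1980895227) (nat_lit 380) (nat_lit 8865986203) (nat_lit 456) (nat_lit 6494322876) (nat_lit 133) (nat_lit 5) (nat_lit 138) (nat_lit 5) (nat_lit 139) (nat_lit 5) (nat_lit 372) (nat_lit 316) (nat_lit 212))) (XT.nd (nat_lit 78) (nat_lit 836) (nat_lit 0) (XT.lf (nat_lit 0) (nat_lit 16523711266) (nat_lit 456) (nat_lit 1086760062) (nat_lit 76) (nat_lit 59262475) (nat_lit 133) (nat_lit 5) (nat_lit 139) (nat_lit 5) (nat_lit 134) (nat_lit 5) (nat_lit 373) (nat_lit 316) (nat_lit 211)) (XT.nd (nat_lit 78) (nat_lit 380) (nat_lit 0) (XT.lf (nat_lit 0) (nat_lit 4430922573) (nat_lit 456) (nat_lit 4334599904) (nat_lit 76) (nat_lit 9239527859) (nat_lit 127) (nat_lit 5) (nat_lit 133) (nat_lit 5) (nat_lit 128) (nat_lit 5) (nat_lit 374) (nat_lit 316) (nat_lit 210)) (XT.lf (nat_lit 0) (nat_lit 10215514056) (nat_lit 456) (nat_lit 7720184160) (nat_lit 76) (nat_lit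 413464252) (nat_lit 122) (nat_lit 5) (nat_lit 128) (nat_lit 5) (nat_lit 123) (nat_lit 5) (nat_lit 375) (nat_lit 316) (nat_lit 209))))) (XT.nd (nat_lit 156) (nat_lit 684) (nat_lit 0) (XT.nd (nat_lit 78) (nat_lit 456) (nat_lit 0) (XT.lf (nat_lit 0) (nat_lit 7401274237) (nat_lit 304) (nat_lit 8885648812) (nat_lit 380) (nat_lit 2414414918) (nat_lit 118) (nat_lit 5) (nat_lit 122) (nat_lit 5) (nat_lit 123) (nat_lit 5) (nat_lit 376) (nat_lit 316) (nat_lit 208)) (XT.lf (nat_lit 0) (nat_lit 3490282023) (nat_lit 456) (nat_lit 15051696550) (nat_lit 76) (nat_lit 520464466) (nat_lit 112) (nat_lit 5) (nat_lit 118) (nat_lit 5) (nat_lit 113) (nat_lit 5) (nat_lit 377) (nat_lit 316) (nat_lit 207))) (XT.nd (nat_lit 78) (nat_lit 380) (nat_lit 0) (XT.lf (nat_lit 0) (nat_lit 397522543) (nat_lit 304) (nat_lit 9258760666) (nat_lit 380) (nat_lit 9775444728) (nat_lit 108) (nat_lit 5) (nat_lit 112) (nat_lit 5) (nat_lit 113)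 (nat_lit 5) (nat_lit 378) (nat_lit 316) (nat_lit 206)) (XT.nd (nat_lit 78) (nat_lit 380) (nat_lit 0) (XT.lf (nat_lit 0) (nat_lit 16089950740) (nat_lit 380) (nat_lit 3330577801) (nat_lit 76) (nat_lit 389914138) (nat_lit 108) (nat_lit 5) (nat_lit 113) (nat_lit 5) (nat_lit 109) (nat_lit 5) (nat_lit 379) (nat_lit 316) (nat_lit 205)) (XT.lf (nat_lit 0) (nat_lit 2608411061) (nat_lit 380) (nat_lit 7296662607) (nat_lit 76) (nat_lit 10292617234) (nat_lit 103) (nat_lit 5) (nat_lit 108) (nat_lit 5) (nat_lit 104) (nat_lit 5) (nat_lit 380) (nat_lit 316) (nat_lit 204)))))) (XT.nd (nat_lit 42042) (nat_lit 0) (nat_lit 31844) (XT.nd (nat_lit 156) (nat_lit 380) (nat_lit 0) (XT.nd (nat_lit 78) (nat_lit 304) (nat_lit 0) (XT.lf (nat_lit 0) (nat_lit 9130905630) (nat_lit 304) (nat_lit 6973302) (nat_lit 380) (nat_lit 11456965539) (nat_lit 99) (nat_lit 5) (nat_lit 103) (nat_lit 5) (nat_lit 104) (nat_lit 5) (nat_lit 381) (nat_lit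 316) (nat_lit 203)) (XT.lf (nat_lit 0) (nat_lit 5116187095) (nat_lit 304) (nat_lit 10875462136) (nat_lit 380) (nat_lit 5009699555) (nat_lit 95) (nat_lit 5) (nat_lit 99) (nat_lit 5) (nat_lit 100) (nat_lit 5) (nat_lit 382) (nat_lit 316) (nat_lit 202))) (XT.nd (nat_lit 41730) (nat_lit 0) (nat_lit 33060) (XT.lf (nat_lit 0) (nat_lit 900362006) (nat_lit 304) (nat_lit 772858652) (nat_lit 380) (nat_lit 19745347537) (nat_lit 90) (nat_lit 5) (nat_lit 94) (nat_lit 5) (nat_lit 95) (nat_lit 5) (nat_lit 383) (nat_lit 316) (nat_lit 201)) (XT.nd (nat_lit 78) (nat_lit 1292) (nat_lit 0) (XT.lf (nat_lit 0) (nat_lit 3703011421) (nat_lit 1292) (nat_lit 68909412) (nat_lit 1292) (nat_lit 68909412) (nat_lit 542) (nat_lit 3) (nat_lit 559) (nat_lit 3) (nat_lit 559) (nat_lit 5) (nat_lit 317) (nat_lit 317) (nat_lit 266)) (XT.lf (nat_lit 0) (nat_lit 1730499298) (nat_lit 1292) (nat_lit 2346029703) (nat_lit 1368) (nat_lit 3679249992)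 (nat_lit 525) (nat_lit 5) (nat_lit 542) (nat_lit 3) (nat_lit 543) (nat_lit 5) (nat_lit 318) (nat_lit 317) (nat_lit 265))))) (XT.nd (nat_lit 156) (nat_lit 1216) (nat_lit 0) (XT.nd (nat_lit 78) (nat_lit 0) (nat_lit 76) (XT.lf (nat_lit 76) (nat_lit 3294325747) (nat_lit 0) (nat_lit 443912780) (nat_lit 1368) (nat_lit 4094982267) (nat_lit 526) (nat_lit 5) (nat_lit 525) (nat_lit 5) (nat_lit 543) (nat_lit 5) (nat_lit 319) (nat_lit 317) (nat_lit 264)) (XT.lf (nat_lit 76) (nat_lit 1175566118) (nat_lit 0) (nat_lit 4600720740) (nat_lit 1368) (nat_lit 2137335748) (nat_lit 527) (nat_lit 5) (nat_lit 526) (nat_lit 5) (nat_lit 544) (nat_lit 5) (nat_lit 320) (nat_lit 317) (nat_lit 263))) (XT.nd (nat_lit 78) (nat_lit 1292) (nat_lit 0) (XT.lf (nat_lit 76) (nat_lit 7079585817) (nat_lit 0) (nat_lit 756545222) (nat_lit 1368) (nat_lit 161129526) (nat_lit 527) (nat_lit 5) (nat_lit 526) (nat_lit 5) (nat_lit 544) (nat_lit 5)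 (nat_lit 321) (nat_lit 317) (nat_lit 262)) (XT.nd (nat_lit 78) (nat_lit 0) (nat_lit 0) (XT.lf (nat_lit 0) (nat_lit 1832700154) (nat_lit 1368) (nat_lit 3014128250) (nat_lit 1444) (nat_lit 3236712858) (nat_lit 509) (nat_lit 5) (nat_lit 527) (nat_lit 5) (nat_lit 528) (nat_lit 5) (nat_lit 322) (nat_lit 317) (nat_lit 261)) (XT.lf (nat_lit 76) (nat_lit 3068714172) (nat_lit 0) (nat_lit 777279110) (nat_lit 1444) (nat_lit 4327193403) (nat_lit 510) (nat_lit 5) (nat_lit 509) (nat_lit 5) (nat_lit 528) (nat_lit 5) (nat_lit 323) (nat_lit 317) (nat_lit 260))))))) (XT.nd (nat_lit 780) (nat_lit 9728) (nat_lit 0) (XT.nd (nat_lit 390) (nat_lit 2736) (nat_lit 0) (XT.nd (nat_lit 156) (nat_lit 1368) (nat_lit 0) (XT.nd (nat_lit 78) (nat_lit 0) (nat_lit 0) (XT.lf (nat_lit 76) (nat_lit 1059148931) (nat_lit 0) (nat_lit 4842651203) (nat_lit 1444) (nat_lit 2364112395) (nat_lit 511) (nat_lit 5) (nat_lit 510) (nat_lit 5) (nat_lit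 529) (nat_lit 5) (nat_lit 324) (nat_lit 317) (nat_lit 259)) (XT.lf (nat_lit 76) (nat_lit 7430349079) (nat_lit 0) (nat_lit 562888926) (nat_lit 1444) (nat_lit 368735393) (nat_lit 511) (nat_lit 5) (nat_lit 510) (nat_lit 5) (nat_lit 529) (nat_lit 5) (nat_lit 325) (nat_lit 317) (nat_lit 258))) (XT.nd (nat_lit 78) (nat_lit 0) (nat_lit 0) (XT.lf (nat_lit 0) (nat_lit 1661522322) (nat_lit 1444) (nat_lit 2934681432) (nat_lit 1520) (nat_lit 3864581405) (nat_lit 492) (nat_lit 5) (nat_lit 511) (nat_lit 5) (nat_lit 512) (nat_lit 5) (nat_lit 326) (nat_lit 317) (nat_lit 257)) (XT.nd (nat_lit 78) (nat_lit 0) (nat_lit 76) (XT.lf (nat_lit 76) (nat_lit 3626826078) (nat_lit 0) (nat_lit 91962895) (nat_lit 1520) (nat_lit 4844331264) (nat_lit 493) (nat_lit 5) (nat_lit 492) (nat_lit 5) (nat_lit 512) (nat_lit 5) (nat_lit 327) (nat_lit 317) (nat_lit 256)) (XT.lf (nat_lit 76) (nat_lit 1706913942) (nat_lit 0) (nat_lit 4130578489)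 (nat_lit 1520) (nat_lit 2831067617) (nat_lit 494) (nat_lit 5) (nat_lit 493) (nat_lit 5) (nat_lit 513) (nat_lit 5) (nat_lit 328) (nat_lit 317) (nat_lit 255))))) (XT.nd (nat_lit 156) (nat_lit 1368) (nat_lit 0) (XT.nd (nat_lit 78) (nat_lit 1520) (nat_lit 0) (XT.lf (nat_lit 0) (nat_lit 7998173740) (nat_lit 1444) (nat_lit 207436936) (nat_lit 1520) (nat_lit 572012253) (nat_lit 494) (nat_lit 5) (nat_lit 513) (nat_lit 5) (nat_lit 514) (nat_lit 5) (nat_lit 329) (nat_lit 317) (nat_lit 254)) (XT.lf (nat_lit 0) (nat_lit 1330288380) (nat_lit 1520) (nat_lit 2130310815) (nat_lit 1596) (nat_lit 5428930914) (nat_lit 474) (nat_lit 5) (nat_lit 494) (nat_lit 5) (nat_lit 495) (nat_lit 5) (nat_lit 330) (nat_lit 317) (nat_lit 253))) (XT.nd (nat_lit 78) (nat_lit 1444) (nat_lit 0) (XT.lf (nat_lit 0) (nat_lit 3479393496) (nat_lit 1520) (nat_lit 4064624044) (nat_lit 1596) (nat_lit 1460966692) (nat_lit 475) (nat_lit 5) (nat_lit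 495) (nat_lit 5) (nat_lit 496) (nat_lit 5) (nat_lit 331) (nat_lit 317) (nat_lit 252)) (XT.nd (nat_lit 78) (nat_lit 1444) (nat_lit 0) (XT.lf (nat_lit 76) (nat_lit 3103146895) (nat_lit 0) (nat_lit 2592547752) (nat_lit 1596) (nat_lit 3428178182) (nat_lit 476) (nat_lit 5) (nat_lit 475) (nat_lit 5) (nat_lit 496) (nat_lit 5) (nat_lit 332) (nat_lit 317) (nat_lit 251)) (XT.lf (nat_lit 0) (nat_lit 1252284482) (nat_lit 1520) (nat_lit 6724642562) (nat_lit 1596) (nat_lit 1269456770) (nat_lit 456) (nat_lit 5) (nat_lit 476) (nat_lit 5) (nat_lit 477) (nat_lit 5) (nat_lit 333) (nat_lit 317) (nat_lit 250)))))) (XT.nd (nat_lit 390) (nat_lit 3496) (nat_lit 0) (XT.nd (nat_lit 156) (nat_lit 4560) (nat_lit 0) (XT.nd (nat_lit 78) (nat_lit 1596) (nat_lit 0) (XT.lf (nat_lit 0) (nat_lit 947141455) (nat_lit 1596) (nat_lit 613165301) (nat_lit 76) (nat_lit 7812050332) (nat_lit 455) (nat_lit 5) (nat_lit 476) (nat_lit 5) (nat_lit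 456) (nat_lit 5) (nat_lit 334) (nat_lit 317) (nat_lit 249)) (XT.lf (nat_lit 0) (nat_lit 3232318030) (nat_lit 1672) (nat_lit 2496220988) (nat_lit 76) (nat_lit 3773038879) (nat_lit 434) (nat_lit 5) (nat_lit 456) (nat_lit 5) (nat_lit 435) (nat_lit 5) (nat_lit 335) (nat_lit 317) (nat_lit 248))) (XT.nd (nat_lit 78) (nat_lit 2888) (nat_lit 0) (XT.lf (nat_lit 0) (nat_lit 5241889999) (nat_lit 1672) (nat_lit 342846929) (nat_lit 1748) (nat_lit 4049986711) (nat_lit 412) (nat_lit 5) (nat_lit 434) (nat_lit 5) (nat_lit 435) (nat_lit 5) (nat_lit 336) (nat_lit 317) (nat_lit 247)) (XT.nd (nat_lit 78) (nat_lit 1140) (nat_lit 0) (XT.lf (nat_lit 0) (nat_lit 3443059548) (nat_lit 1748) (nat_lit 4589104778) (nat_lit 1824) (nat_lit 1739232114) (nat_lit 389) (nat_lit 5) (nat_lit 412) (nat_lit 5) (nat_lit 413) (nat_lit 5) (nat_lit 337) (nat_lit 317) (nat_lit 246)) (XT.lf (nat_lit 0) (nat_lit 633920528) (nat_lit 1140) (nat_lit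 8284317539) (nat_lit 76) (nat_lit 993838911) (nat_lit 374) (nat_lit 5) (nat_lit 389) (nat_lit 5) (nat_lit 375) (nat_lit 5) (nat_lit 338) (nat_lit 317) (nat_lit 245))))) (XT.nd (nat_lit 156) (nat_lit 2584) (nat_lit 0) (XT.nd (nat_lit 78) (nat_lit 912) (nat_lit 0) (XT.lf (nat_lit 0) (nat_lit 3081853405) (nat_lit 1140) (nat_lit 232793307) (nat_lit 76) (nat_lit 6741576775) (nat_lit 374) (nat_lit 5) (nat_lit 389) (nat_lit 5) (nat_lit 375) (nat_lit 5) (nat_lit 339) (nat_lit 317) (nat_lit 244)) (XT.lf (nat_lit 0) (nat_lit 5626887322) (nat_lit 988) (nat_lit 2096027069) (nat_lit 76) (nat_lit 2481325943) (nat_lit 362) (nat_lit 5) (nat_lit 375) (nat_lit 5) (nat_lit 363) (nat_lit 5) (nat_lit 340) (nat_lit 317) (nat_lit 243))) (XT.nd (nat_lit 78) (nat_lit 1748) (nat_lit 0) (XT.lf (nat_lit 0) (nat_lit 6365056060) (nat_lit 836) (nat_lit 1903957892) (nat_lit 912) (nat_lit 2087287546) (nat_lit 351) (nat_lit 5) (nat_lit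 362) (nat_lit 5) (nat_lit 363) (nat_lit 5) (nat_lit 341) (nat_lit 317) (nat_lit 242)) (XT.nd (nat_lit 78) (nat_lit 836) (nat_lit 0) (XT.lf (nat_lit 0) (nat_lit 498707359) (nat_lit 912) (nat_lit 5928567894) (nat_lit 76) (nat_lit 4085055195) (nat_lit 339) (nat_lit 5) (nat_lit 351) (nat_lit 5) (nat_lit 340) (nat_lit 5) (nat_lit 342) (nat_lit 317) (nat_lit 241)) (XT.lf (nat_lit 0) (nat_lit 2765227782) (nat_lit 836) (nat_lit 384156490) (nat_lit 912) (nat_lit 7523088080) (nat_lit 328) (nat_lit 5) (nat_lit 339) (nat_lit 5) (nat_lit 340) (nat_lit 5) (nat_lit 343) (nat_lit 317) (nat_lit 240))))))))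
noncomputable def xc81 : XT := (XT.nd (nat_lit 1560) (nat_lit 7068) (nat_lit 0) (XT.nd (nat_lit 780) (nat_lit 4712) (nat_lit 0) (XT.nd (nat_lit 390) (nat_lit 2812) (nat_lit 0) (XT.nd (nat_lit 156) (nat_lit 2280) (nat_lit 0) (XT.nd (nat_lit 78) (nat_lit 0) (nat_lit 0) (XT.lf (nat_lit 0) (nat_lit 895446999) (nat_lit 836) (nat_lit 5026665118) (nat_lit 912) (nat_lit 4914472512) (nat_lit 317) (nat_lit 5) (nat_lit 328) (nat_lit 5) (nat_lit 329) (nat_lit 5) (nat_lit 344) (nat_lit 317) (nat_lit 239)) (XT.lf (nat_lit 0) (nat_lit 8801458340) (nat_lit 912) (nat_lit 987275206) (nat_lit 76) (nat_lit 1216434239) (nat_lit 317) (nat_lit 5) (nat_lit 329) (nat_lit 5) (nat_lit 318) (nat_lit 5) (nat_lit 345) (nat_lit 317) (nat_lit 238))) (XT.nd (nat_lit 78) (nat_lit 1444) (nat_lit 0) (XT.lf (nat_lit 0) (nat_lit 628739948) (nat_lit 836) (nat_lit 2913350689) (nat_lit 76) (nat_lit 7635695255) (nat_lit 306) (nat_lit 5) (nat_lit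 317) (nat_lit 5) (nat_lit 307) (nat_lit 5) (nat_lit 346) (nat_lit 317) (nat_lit 237)) (XT.nd (nat_lit 78) (nat_lit 684) (nat_lit 0) (XT.lf (nat_lit 0) (nat_lit 3545481510) (nat_lit 836) (nat_lit 4893548948) (nat_lit 76) (nat_lit 2915690590) (nat_lit 296) (nat_lit 5) (nat_lit 307) (nat_lit 5) (nat_lit 297) (nat_lit 5) (nat_lit 347) (nat_lit 317) (nat_lit 236)) (XT.lf (nat_lit 0) (nat_lit 4615627469) (nat_lit 684) (nat_lit 1969572925) (nat_lit 760) (nat_lit 4951068937) (nat_lit 287) (nat_lit 5) (nat_lit 296) (nat_lit 5) (nat_lit 297) (nat_lit 5) (nat_lit 348) (nat_lit 317) (nat_lit 235))))) (XT.nd (nat_lit 156) (nat_lit 1292) (nat_lit 0) (XT.nd (nat_lit 78) (nat_lit 760) (nat_lit 0) (XT.lf (nat_lit 0) (nat_lit 2718019336) (nat_lit 760) (nat_lit 7042364145) (nat_lit 836) (nat_lit 1962009275) (nat_lit 277) (nat_lit 5) (nat_lit 287) (nat_lit 5) (nat_lit 288) (nat_lit 5) (nat_lit 349) (nat_lit 317) (nat_lit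 234)) (XT.lf (nat_lit 0) (nat_lit 775626080) (nat_lit 684) (nat_lit 355198963) (nat_lit 760) (nat_lit 10782568319) (nat_lit 267) (nat_lit 5) (nat_lit 276) (nat_lit 5) (nat_lit 277) (nat_lit 5) (nat_lit 350) (nat_lit 317) (nat_lit 233))) (XT.nd (nat_lit 78) (nat_lit 1292) (nat_lit 0) (XT.lf (nat_lit 0) (nat_lit 4357883448) (nat_lit 760) (nat_lit 1233817751) (nat_lit 76) (nat_lit 6516814582) (nat_lit 267) (nat_lit 5) (nat_lit 277) (nat_lit 5) (nat_lit 268) (nat_lit 5) (nat_lit 351) (nat_lit 317) (nat_lit 232)) (XT.nd (nat_lit 78) (nat_lit 608) (nat_lit 0) (XT.lf (nat_lit 0) (nat_lit 7716669497) (nat_lit 760) (nat_lit 3274221678) (nat_lit 76) (nat_lit 1317915072) (nat_lit 258) (nat_lit 5) (nat_lit 268) (nat_lit 5) (nat_lit 259) (nat_lit 5) (nat_lit 352) (nat_lit 317) (nat_lit 231)) (XT.lf (nat_lit 0) (nat_lit 7128975332) (nat_lit 608) (nat_lit 4105218798) (nat_lit 684) (nat_lit 1279764120) (nat_lit 250)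 (nat_lit 5) (nat_lit 258) (nat_lit 5) (nat_lit 259) (nat_lit 5) (nat_lit 353) (nat_lit 317) (nat_lit 230)))))) (XT.nd (nat_lit 390) (nat_lit 2204) (nat_lit 0) (XT.nd (nat_lit 156) (nat_lit 1216) (nat_lit 0) (XT.nd (nat_lit 78) (nat_lit 608) (nat_lit 0) (XT.lf (nat_lit 0) (nat_lit 2146172658) (nat_lit 684) (nat_lit 7566048463) (nat_lit 76) (nat_lit 3011935492) (nat_lit 241) (nat_lit 5) (nat_lit 250) (nat_lit 5) (nat_lit 242) (nat_lit 5) (nat_lit 354) (nat_lit 317) (nat_lit 229)) (XT.lf (nat_lit 0) (nat_lit 3116033127) (nat_lit 608) (nat_lit 2593050374) (nat_lit 684) (nat_lit 7230387971) (nat_lit 233) (nat_lit 5) (nat_lit 241) (nat_lit 5) (nat_lit 242) (nat_lit 5) (nat_lit 355) (nat_lit 317) (nat_lit 228))) (XT.nd (nat_lit 78) (nat_lit 608) (nat_lit 0) (XT.lf (nat_lit 0) (nat_lit 1004163173) (nat_lit 608) (nat_lit 8431347322) (nat_lit 684) (nat_lit 3724613760) (nat_lit 225) (nat_lit 5) (nat_lit 233)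 (nat_lit 5) (nat_lit 234) (nat_lit 5) (nat_lit 356) (nat_lit 317) (nat_lit 227)) (XT.nd (nat_lit 78) (nat_lit 608) (nat_lit 0) (XT.lf (nat_lit 0) (nat_lit 12234316271) (nat_lit 608) (nat_lit 1091619647) (nat_lit 684) (nat_lit 60427326) (nat_lit 225) (nat_lit 5) (nat_lit 233) (nat_lit 5) (nat_lit 234) (nat_lit 5) (nat_lit 357) (nat_lit 317) (nat_lit 226)) (XT.lf (nat_lit 0) (nat_lit 3743220898) (nat_lit 608) (nat_lit 3406846430) (nat_lit 76) (nat_lit 6467285221) (nat_lit 217) (nat_lit 5) (nat_lit 225) (nat_lit 5) (nat_lit 218) (nat_lit 5) (nat_lit 358) (nat_lit 317) (nat_lit 225))))) (XT.nd (nat_lit 156) (nat_lit 1064) (nat_lit 0) (XT.nd (nat_lit 78) (nat_lit 532) (nat_lit 0) (XT.lf (nat_lit 0) (nat_lit 7700701820) (nat_lit 684) (nat_lit 5722221784) (nat_lit 76) (nat_lit 431538976) (nat_lit 209) (nat_lit 5) (nat_lit 218) (nat_lit 5) (nat_lit 210) (nat_lit 5) (nat_lit 359) (nat_lit 317) (nat_lit 224))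 (XT.lf (nat_lit 0) (nat_lit 5957760644) (nat_lit 532) (nat_lit 5899189826) (nat_lit 608) (nat_lit 2240144207) (nat_lit 202) (nat_lit 5) (nat_lit 209) (nat_lit 5) (nat_lit 210) (nat_lit 5) (nat_lit 360) (nat_lit 317) (nat_lit 223))) (XT.nd (nat_lit 78) (nat_lit 456) (nat_lit 0) (XT.lf (nat_lit 0) (nat_lit 1813748648) (nat_lit 608) (nat_lit 10639519400) (nat_lit 76) (nat_lit 1892587193) (nat_lit 194) (nat_lit 5) (nat_lit 202) (nat_lit 5) (nat_lit 195) (nat_lit 5) (nat_lit 361) (nat_lit 317) (nat_lit 222)) (XT.nd (nat_lit 78) (nat_lit 0) (nat_lit 0) (XT.lf (nat_lit 0) (nat_lit 1342623618) (nat_lit 456) (nat_lit 4691338642) (nat_lit 532) (nat_lit 8566326339) (nat_lit 188) (nat_lit 5) (nat_lit 194) (nat_lit 5) (nat_lit 195) (nat_lit 5) (nat_lit 362) (nat_lit 317) (nat_lit 221)) (XT.lf (nat_lit 0) (nat_lit 10446616019) (nat_lit 532) (nat_lit 1090868214) (nat_lit 76) (nat_lit 3323562692) (nat_lit 188) (nat_lit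 5) (nat_lit 195) (nat_lit 5) (nat_lit 189) (nat_lit 5) (nat_lit 363) (nat_lit 317) (nat_lit 220))))))) (XT.nd (nat_lit 780) (nat_lit 2888) (nat_lit 0) (XT.nd (nat_lit 390) (nat_lit 1672) (nat_lit 0) (XT.nd (nat_lit 156) (nat_lit 1444) (nat_lit 0) (XT.nd (nat_lit 78) (nat_lit 532) (nat_lit 0) (XT.lf (nat_lit 0) (nat_lit 11523905355) (nat_lit 532) (nat_lit 3546570313) (nat_lit 608) (nat_lit 57584195) (nat_lit 181) (nat_lit 5) (nat_lit 188) (nat_lit 5) (nat_lit 189) (nat_lit 5) (nat_lit 364) (nat_lit 317) (nat_lit 219)) (XT.lf (nat_lit 0) (nat_lit 4442932565) (nat_lit 532) (nat_lit 6248500928) (nat_lit 76) (nat_lit 4709661146) (nat_lit 174) (nat_lit 5) (nat_lit 181) (nat_lit 5) (nat_lit 175) (nat_lit 5) (nat_lit 365) (nat_lit 317) (nat_lit 218))) (XT.nd (nat_lit 78) (nat_lit 988) (nat_lit 0) (XT.lf (nat_lit 0) (nat_lit 6686534013) (nat_lit 456) (nat_lit 2456368136) (nat_lit 532) (nat_lit 6538114056)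 (nat_lit 168) (nat_lit 5) (nat_lit 174) (nat_lit 5) (nat_lit 175) (nat_lit 5) (nat_lit 366) (nat_lit 317) (nat_lit 217)) (XT.nd (nat_lit 78) (nat_lit 532) (nat_lit 0) (XT.lf (nat_lit 0) (nat_lit 4104778567) (nat_lit 456) (nat_lit 9961463117) (nat_lit 532) (nat_lit 1901453844) (nat_lit 162) (nat_lit 5) (nat_lit 168) (nat_lit 5) (nat_lit 169) (nat_lit 5) (nat_lit 367) (nat_lit 317) (nat_lit 216)) (XT.lf (nat_lit 0) (nat_lit 1405242571) (nat_lit 456) (nat_lit 1492594761) (nat_lit 532) (nat_lit 13363547260) (nat_lit 155) (nat_lit 5) (nat_lit 161) (nat_lit 5) (nat_lit 162) (nat_lit 5) (nat_lit 368) (nat_lit 317) (nat_lit 215))))) (XT.nd (nat_lit 156) (nat_lit 1292) (nat_lit 0) (XT.nd (nat_lit 78) (nat_lit 380) (nat_lit 0) (XT.lf (nat_lit 0) (nat_lit 7918059456) (nat_lit 532) (nat_lit 1424572271) (nat_lit 76) (nat_lit 7218952473) (nat_lit 155) (nat_lit 5) (nat_lit 162) (nat_lit 5) (nat_lit 156) (nat_lit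 5) (nat_lit 369) (nat_lit 317) (nat_lit 214)) (XT.lf (nat_lit 0) (nat_lit 12529403194) (nat_lit 380) (nat_lit 626325463) (nat_lit 456) (nat_lit 3713731086) (nat_lit 150) (nat_lit 5) (nat_lit 155) (nat_lit 5) (nat_lit 156) (nat_lit 5) (nat_lit 370) (nat_lit 317) (nat_lit 213))) (XT.nd (nat_lit 78) (nat_lit 760) (nat_lit 0) (XT.lf (nat_lit 0) (nat_lit 1450080485) (nat_lit 532) (nat_lit 7419766611) (nat_lit 76) (nat_lit 8314473515) (nat_lit 143) (nat_lit 5) (nat_lit 150) (nat_lit 5) (nat_lit 144) (nat_lit 5) (nat_lit 371) (nat_lit 317) (nat_lit 212)) (XT.nd (nat_lit 78) (nat_lit 380) (nat_lit 0) (XT.lf (nat_lit 0) (nat_lit 6773914778) (nat_lit 456) (nat_lit 10637614638) (nat_lit 76) (nat_lit 95501907) (nat_lit 138) (nat_lit 5) (nat_lit 144) (nat_lit 5) (nat_lit 139) (nat_lit 5) (nat_lit 372) (nat_lit 317) (nat_lit 211)) (XT.lf (nat_lit 0) (nat_lit 3806352325) (nat_lit 380) (nat_lit 8562405267) (nat_lit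 456) (nat_lit 5468445952) (nat_lit 133) (nat_lit 5) (nat_lit 138) (nat_lit 5) (nat_lit 139) (nat_lit 5) (nat_lit 373) (nat_lit 317) (nat_lit 210)))))) (XT.nd (nat_lit 390) (nat_lit 1292) (nat_lit 0) (XT.nd (nat_lit 156) (nat_lit 1140) (nat_lit 0) (XT.nd (nat_lit 78) (nat_lit 0) (nat_lit 0) (XT.lf (nat_lit 0) (nat_lit 12374561) (nat_lit 456) (nat_lit 17552877921) (nat_lit 76) (nat_lit 610887995) (nat_lit 127) (nat_lit 5) (nat_lit 133) (nat_lit 5) (nat_lit 128) (nat_lit 5) (nat_lit 374) (nat_lit 317) (nat_lit 209)) (XT.lf (nat_lit 0) (nat_lit 5714053721) (nat_lit 456) (nat_lit 2742675708) (nat_lit 76) (nat_lit 10065184186) (nat_lit 127) (nat_lit 5) (nat_lit 133) (nat_lit 5) (nat_lit 128) (nat_lit 5) (nat_lit 375) (nat_lit 317) (nat_lit 208))) (XT.nd (nat_lit 78) (nat_lit 760) (nat_lit 0) (XT.lf (nat_lit 0) (nat_lit 11653357566) (nat_lit 456) (nat_lit 6238611327) (nat_lit 76) (nat_lit 984765002) (nat_lit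 122) (nat_lit 5) (nat_lit 128) (nat_lit 5) (nat_lit 123) (nat_lit 5) (nat_lit 376) (nat_lit 317) (nat_lit 207)) (XT.nd (nat_lit 78) (nat_lit 456) (nat_lit 0) (XT.lf (nat_lit 0) (nat_lit 9308696539) (nat_lit 304) (nat_lit 8576202161) (nat_lit 380) (nat_lit 1355024197) (nat_lit 118) (nat_lit 5) (nat_lit 122) (nat_lit 5) (nat_lit 123) (nat_lit 5) (nat_lit 377) (nat_lit 317) (nat_lit 206)) (XT.lf (nat_lit 0) (nat_lit 4694047937) (nat_lit 456) (nat_lit 13811934186) (nat_lit 76) (nat_lit 1106098110) (nat_lit 112) (nat_lit 5) (nat_lit 118) (nat_lit 5) (nat_lit 113) (nat_lit 5) (nat_lit 378) (nat_lit 317) (nat_lit 205))))) (XT.nd (nat_lit 156) (nat_lit 988) (nat_lit 0) (XT.nd (nat_lit 78) (nat_lit 0) (nat_lit 0) (XT.lf (nat_lit 0) (nat_lit 2073321932) (nat_lit 304) (nat_lit 8950498816) (nat_lit 380) (nat_lit 8969054523) (nat_lit 108) (nat_lit 5) (nat_lit 112) (nat_lit 5) (nat_lit 113) (nat_lit 5) (nat_lit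 379) (nat_lit 317) (nat_lit 204)) (XT.lf (nat_lit 0) (nat_lit 17622798684) (nat_lit 380) (nat_lit 1797608381) (nat_lit 76) (nat_lit 963105592) (nat_lit 108) (nat_lit 5) (nat_lit 113) (nat_lit 5) (nat_lit 109) (nat_lit 5) (nat_lit 380) (nat_lit 317) (nat_lit 203))) (XT.nd (nat_lit 78) (nat_lit 608) (nat_lit 0) (XT.lf (nat_lit 0) (nat_lit 3723707116) (nat_lit 380) (nat_lit 5895156873) (nat_lit 76) (nat_lit 11163788025) (nat_lit 103) (nat_lit 5) (nat_lit 108) (nat_lit 5) (nat_lit 104) (nat_lit 5) (nat_lit 381) (nat_lit 317) (nat_lit 202)) (XT.nd (nat_lit 78) (nat_lit 304) (nat_lit 0) (XT.lf (nat_lit 0) (nat_lit 10432903093) (nat_lit 380) (nat_lit 10196873865) (nat_lit 76) (nat_lit 562273014) (nat_lit 99) (nat_lit 5) (nat_lit 104) (nat_lit 5) (nat_lit 100) (nat_lit 5) (nat_lit 382) (nat_lit 317) (nat_lit 201)) (XT.lf (nat_lit 0) (nat_lit 6854473685) (nat_lit 304) (nat_lit 10618413074) (nat_lit 380) (nat_lit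 4138257121) (nat_lit 95) (nat_lit 5) (nat_lit 99) (nat_lit 5) (nat_lit 100) (nat_lit 5) (nat_lit 383) (nat_lit 317) (nat_lit 200))))))))
noncomputable def xc82 : XT := (XT.nd (nat_lit 1560) (nat_lit 14212) (nat_lit 0) (XT.nd (nat_lit 780) (nat_lit 6004) (nat_lit 0) (XT.nd (nat_lit 390) (nat_lit 1292) (nat_lit 0) (XT.nd (nat_lit 156) (nat_lit 1292) (nat_lit 0) (XT.nd (nat_lit 78) (nat_lit 0) (nat_lit 0) (XT.lf (nat_lit 0) (nat_lit 912066120) (nat_lit 0) (nat_lit 912066120) (nat_lit 1292) (nat_lit 2091655893) (nat_lit 525) (nat_lit 5) (nat_lit 525) (nat_lit 3) (nat_lit 542) (nat_lit 3) (nat_lit 318) (nat_lit 318) (nat_lit 264)) (XT.lf (nat_lit 0) (nat_lit 5585855424) (nat_lit 1292) (nat_lit 417848640) (nat_lit 1368) (nat_lit 1906735835) (nat_lit 525) (nat_lit 5) (nat_lit 542) (nat_lit 3) (nat_lit 543) (nat_lit 5) (nat_lit 319) (nat_lit 318) (nat_lit 263))) (XT.nd (nat_lit 78) (nat_lit 1292) (nat_lit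 0) (XT.lf (nat_lit 76) (nat_lit 5359293180) (nat_lit 0) (nat_lit 2196519281) (nat_lit 1368) (nat_lit 436409391) (nat_lit 526) (nat_lit 5) (nat_lit 525) (nat_lit 5) (nat_lit 543) (nat_lit 5) (nat_lit 320) (nat_lit 318) (nat_lit 262)) (XT.nd (nat_lit 78) (nat_lit 0) (nat_lit 0) (XT.lf (nat_lit 0) (nat_lit 1452717398) (nat_lit 1368) (nat_lit 4855818938) (nat_lit 1444) (nat_lit 1768478656) (nat_lit 508) (nat_lit 5) (nat_lit 526) (nat_lit 5) (nat_lit 527) (nat_lit 5) (nat_lit 321) (nat_lit 318) (nat_lit 261)) (XT.lf (nat_lit 76) (nat_lit 1079826845) (nat_lit 0) (nat_lit 2283106781) (nat_lit 1444) (nat_lit 4801988070) (nat_lit 509) (nat_lit 5) (nat_lit 508) (nat_lit 5) (nat_lit 527) (nat_lit 5) (nat_lit 322) (nat_lit 318) (nat_lit 260))))) (XT.nd (nat_lit 156) (nat_lit 1368) (nat_lit 0) (XT.nd (nat_lit 78) (nat_lit 0) (nat_lit 0) (XT.lf (nat_lit 0) (nat_lit 5308279163) (nat_lit 1368) (nat_lit 1047639929)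 (nat_lit 1444) (nat_lit 1900023410) (nat_lit 509) (nat_lit 5) (nat_lit 527) (nat_lit 5) (nat_lit 528) (nat_lit 5) (nat_lit 323) (nat_lit 318) (nat_lit 259)) (XT.lf (nat_lit 76) (nat_lit 5184316810) (nat_lit 0) (nat_lit 2111163379) (nat_lit 1444) (nat_lit 1054576228) (nat_lit 510) (nat_lit 5) (nat_lit 509) (nat_lit 5) (nat_lit 528) (nat_lit 5) (nat_lit 324) (nat_lit 318) (nat_lit 258))) (XT.nd (nat_lit 78) (nat_lit 0) (nat_lit 0) (XT.lf (nat_lit 0) (nat_lit 862098045) (nat_lit 1444) (nat_lit 5295899281) (nat_lit 1520) (nat_lit 2289340258) (nat_lit 491) (nat_lit 5) (nat_lit 510) (nat_lit 5) (nat_lit 511) (nat_lit 5) (nat_lit 325) (nat_lit 318) (nat_lit 257)) (XT.nd (nat_lit 78) (nat_lit 0) (nat_lit 76) (XT.lf (nat_lit 76) (nat_lit 1107178112) (nat_lit 0) (nat_lit 1695289108) (nat_lit 1520) (nat_lit 5745350037) (nat_lit 492) (nat_lit 5) (nat_lit 491) (nat_lit 5) (nat_lit 511) (nat_lit 5) (nat_lit 326)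 (nat_lit 318) (nat_lit 256)) (XT.lf (nat_lit 0) (nat_lit 4795247312) (nat_lit 1444) (nat_lit 935945238) (nat_lit 1520) (nat_lit 2920263830) (nat_lit 492) (nat_lit 5) (nat_lit 511) (nat_lit 5) (nat_lit 512) (nat_lit 5) (nat_lit 327) (nat_lit 318) (nat_lit 255)))))) (XT.nd (nat_lit 390) (nat_lit 4636) (nat_lit 0) (XT.nd (nat_lit 156) (nat_lit 0) (nat_lit 0) (XT.nd (nat_lit 78) (nat_lit 1444) (nat_lit 0) (XT.lf (nat_lit 76) (nat_lit 5788552026) (nat_lit 0) (nat_lit 1049187135) (nat_lit 1520) (nat_lit 1920695159) (nat_lit 493) (nat_lit 5) (nat_lit 492) (nat_lit 5) (nat_lit 512) (nat_lit 5) (nat_lit 328) (nat_lit 318) (nat_lit 254)) (XT.lf (nat_lit 0) (nat_lit 70324111) (nat_lit 1520) (nat_lit 5024729710) (nat_lit 1596) (nat_lit 3773617248) (nat_lit 473) (nat_lit 5) (nat_lit 493) (nat_lit 5) (nat_lit 494) (nat_lit 5) (nat_lit 329) (nat_lit 318) (nat_lit 253))) (XT.nd (nat_lit 78) (nat_lit 0) (nat_lit 76)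 (XT.lf (nat_lit 76) (nat_lit 1885063813) (nat_lit 0) (nat_lit 193183588) (nat_lit 1596) (nat_lit 6904074310) (nat_lit 474) (nat_lit 5) (nat_lit 473) (nat_lit 5) (nat_lit 494) (nat_lit 5) (nat_lit 330) (nat_lit 318) (nat_lit 252)) (XT.nd (nat_lit 78) (nat_lit 0) (nat_lit 76) (XT.lf (nat_lit 0) (nat_lit 4157295540) (nat_lit 1520) (nat_lit 100769896) (nat_lit 1596) (nat_lit 4841124004) (nat_lit 474) (nat_lit 5) (nat_lit 494) (nat_lit 5) (nat_lit 495) (nat_lit 5) (nat_lit 331) (nat_lit 318) (nat_lit 251)) (XT.lf (nat_lit 0) (nat_lit 6298783837) (nat_lit 1520) (nat_lit 2067159331) (nat_lit 1596) (nat_lit 853643232) (nat_lit 475) (nat_lit 5) (nat_lit 495) (nat_lit 5) (nat_lit 496) (nat_lit 5) (nat_lit 332) (nat_lit 318) (nat_lit 250))))) (XT.nd (nat_lit 156) (nat_lit 3268) (nat_lit 0) (XT.nd (nat_lit 78) (nat_lit 1520) (nat_lit 0) (XT.lf (nat_lit 76) (nat_lit 5281259933) (nat_lit 0) (nat_lit 3234773496)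 (nat_lit 1596) (nat_lit 827355366) (nat_lit 476) (nat_lit 5) (nat_lit 475) (nat_lit 5) (nat_lit 496) (nat_lit 5) (nat_lit 333) (nat_lit 318) (nat_lit 249)) (XT.lf (nat_lit 0) (nat_lit 1310298738) (nat_lit 1596) (nat_lit 6081600652) (nat_lit 76) (nat_lit 2078879373) (nat_lit 455) (nat_lit 5) (nat_lit 476) (nat_lit 5) (nat_lit 456) (nat_lit 5) (nat_lit 334) (nat_lit 318) (nat_lit 248))) (XT.nd (nat_lit 78) (nat_lit 1672) (nat_lit 0) (XT.lf (nat_lit 0) (nat_lit 1469097746) (nat_lit 1596) (nat_lit 2040938623) (nat_lit 1672) (nat_lit 6091682845) (nat_lit 434) (nat_lit 5) (nat_lit 455) (nat_lit 5) (nat_lit 456) (nat_lit 5) (nat_lit 335) (nat_lit 318) (nat_lit 247)) (XT.nd (nat_lit 78) (nat_lit 1672) (nat_lit 0) (XT.lf (nat_lit 0) (nat_lit 5791274488) (nat_lit 1672) (nat_lit 470396992) (nat_lit 76) (nat_lit 3474627634) (nat_lit 434) (nat_lit 5) (nat_lit 456) (nat_lit 5) (nat_lit 435) (nat_lit 5) (nat_lit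 336) (nat_lit 318) (nat_lit 246)) (XT.lf (nat_lit 0) (nat_lit 7465775791) (nat_lit 1672) (nat_lit 690199733) (nat_lit 1748) (nat_lit 1718661156) (nat_lit 412) (nat_lit 5) (nat_lit 434) (nat_lit 5) (nat_lit 435) (nat_lit 5) (nat_lit 337) (nat_lit 318) (nat_lit 245))))))) (XT.nd (nat_lit 780) (nat_lit 6156) (nat_lit 0) (XT.nd (nat_lit 390) (nat_lit 3344) (nat_lit 0) (XT.nd (nat_lit 156) (nat_lit 1824) (nat_lit 0) (XT.nd (nat_lit 78) (nat_lit 1064) (nat_lit 0) (XT.lf (nat_lit 0) (nat_lit 593715758) (nat_lit 1824) (nat_lit 4390582156) (nat_lit 76) (nat_lit 5032236495) (nat_lit 388) (nat_lit 5) (nat_lit 412) (nat_lit 5) (nat_lit 389) (nat_lit 5) (nat_lit 338) (nat_lit 318) (nat_lit 244)) (XT.lf (nat_lit 0) (nat_lit 2957839397) (nat_lit 1140) (nat_lit 6402641492) (nat_lit 76) (nat_lit 801885673) (nat_lit 374) (nat_lit 5) (nat_lit 389) (nat_lit 5) (nat_lit 375) (nat_lit 5) (nat_lit 339) (nat_lit 318) (nat_lit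 243))) (XT.nd (nat_lit 78) (nat_lit 912) (nat_lit 0) (XT.lf (nat_lit 0) (nat_lit 1852681899) (nat_lit 912) (nat_lit 3571424155) (nat_lit 988) (nat_lit 4887861887) (nat_lit 362) (nat_lit 5) (nat_lit 374) (nat_lit 5) (nat_lit 375) (nat_lit 5) (nat_lit 340) (nat_lit 318) (nat_lit 242)) (XT.nd (nat_lit 78) (nat_lit 912) (nat_lit 0) (XT.lf (nat_lit 0) (nat_lit 7980512808) (nat_lit 988) (nat_lit 78684178) (nat_lit 76) (nat_lit 2406555434) (nat_lit 362) (nat_lit 5) (nat_lit 375) (nat_lit 5) (nat_lit 363) (nat_lit 5) (nat_lit 341) (nat_lit 318) (nat_lit 241)) (XT.lf (nat_lit 0) (nat_lit 27776523) (nat_lit 912) (nat_lit 2021109600) (nat_lit 76) (nat_lit 8574519369) (nat_lit 350) (nat_lit 5) (nat_lit 362) (nat_lit 5) (nat_lit 351) (nat_lit 5) (nat_lit 342) (nat_lit 318) (nat_lit 240))))) (XT.nd (nat_lit 156) (nat_lit 1672) (nat_lit 0) (XT.nd (nat_lit 78) (nat_lit 836) (nat_lit 0) (XT.lf (nat_lit 0) (nat_lit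 2613432068) (nat_lit 912) (nat_lit 4020961827) (nat_lit 76) (nat_lit 4150462170) (nat_lit 339) (nat_lit 5) (nat_lit 351) (nat_lit 5) (nat_lit 340) (nat_lit 5) (nat_lit 343) (nat_lit 318) (nat_lit 239)) (XT.lf (nat_lit 0) (nat_lit 4899813559) (nat_lit 836) (nat_lit 395978106) (nat_lit 912) (nat_lit 5654992042) (nat_lit 328) (nat_lit 5) (nat_lit 339) (nat_lit 5) (nat_lit 340) (nat_lit 5) (nat_lit 344) (nat_lit 318) (nat_lit 238))) (XT.nd (nat_lit 78) (nat_lit 836) (nat_lit 0) (XT.lf (nat_lit 0) (nat_lit 2981839648) (nat_lit 836) (nat_lit 5123466825) (nat_lit 912) (nat_lit 3015464787) (nat_lit 317) (nat_lit 5) (nat_lit 328) (nat_lit 5) (nat_lit 329) (nat_lit 5) (nat_lit 345) (nat_lit 318) (nat_lit 237)) (XT.nd (nat_lit 78) (nat_lit 76) (nat_lit 0) (XT.lf (nat_lit 0) (nat_lit 1035610655) (nat_lit 760) (nat_lit 9984073155) (nat_lit 836) (nat_lit 275778395) (nat_lit 307) (nat_lit 5) (nat_lit 317) (nat_lit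 5) (nat_lit 318) (nat_lit 5) (nat_lit 346) (nat_lit 318) (nat_lit 236)) (XT.lf (nat_lit 0) (nat_lit 2564713315) (nat_lit 836) (nat_lit 968691439) (nat_lit 76) (nat_lit 7940632932) (nat_lit 306) (nat_lit 5) (nat_lit 317) (nat_lit 5) (nat_lit 307) (nat_lit 5) (nat_lit 347) (nat_lit 318) (nat_lit 235)))))) (XT.nd (nat_lit 390) (nat_lit 2508) (nat_lit 0) (XT.nd (nat_lit 156) (nat_lit 2204) (nat_lit 0) (XT.nd (nat_lit 78) (nat_lit 684) (nat_lit 0) (XT.lf (nat_lit 0) (nat_lit 5526908908) (nat_lit 836) (nat_lit 3003870877) (nat_lit 76) (nat_lit 3126363618) (nat_lit 296) (nat_lit 5) (nat_lit 307) (nat_lit 5) (nat_lit 297) (nat_lit 5) (nat_lit 348) (nat_lit 318) (nat_lit 234)) (XT.lf (nat_lit 0) (nat_lit 6757541290) (nat_lit 684) (nat_lit 1858672279) (nat_lit 760) (nat_lit 3228777595) (nat_lit 287) (nat_lit 5) (nat_lit 296) (nat_lit 5) (nat_lit 297) (nat_lit 5) (nat_lit 349) (nat_lit 318) (nat_lit 233))) (XT.nd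 (nat_lit 78) (nat_lit 1444) (nat_lit 0) (XT.lf (nat_lit 0) (nat_lit 4806175655) (nat_lit 760) (nat_lit 7041174636) (nat_lit 836) (nat_lit 190154341) (nat_lit 277) (nat_lit 5) (nat_lit 287) (nat_lit 5) (nat_lit 288) (nat_lit 5) (nat_lit 350) (nat_lit 318) (nat_lit 232)) (XT.nd (nat_lit 78) (nat_lit 684) (nat_lit 0) (XT.lf (nat_lit 0) (nat_lit 2797229034) (nat_lit 684) (nat_lit 134577848) (nat_lit 760) (nat_lit 9303002936) (nat_lit 267) (nat_lit 5) (nat_lit 276) (nat_lit 5) (nat_lit 277) (nat_lit 5) (nat_lit 351) (nat_lit 318) (nat_lit 231)) (XT.lf (nat_lit 0) (nat_lit 712116880) (nat_lit 684) (nat_lit 5498173879) (nat_lit 760) (nat_lit 6226421638) (nat_lit 258) (nat_lit 5) (nat_lit 267) (nat_lit 5) (nat_lit 268) (nat_lit 5) (nat_lit 352) (nat_lit 318) (nat_lit 230))))) (XT.nd (nat_lit 156) (nat_lit 1824) (nat_lit 0) (XT.nd (nat_lit 78) (nat_lit 684) (nat_lit 0) (XT.lf (nat_lit 0) (nat_lit 9629512600)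 (nat_lit 760) (nat_lit 1398358845) (nat_lit 76) (nat_lit 1615964905) (nat_lit 258) (nat_lit 5) (nat_lit 268) (nat_lit 5) (nat_lit 259) (nat_lit 5) (nat_lit 353) (nat_lit 318) (nat_lit 229)) (XT.lf (nat_lit 0) (nat_lit 355587561) (nat_lit 684) (nat_lit 3573320414) (nat_lit 76) (nat_lit 8926933078) (nat_lit 249) (nat_lit 5) (nat_lit 258) (nat_lit 5) (nat_lit 250) (nat_lit 5) (nat_lit 354) (nat_lit 318) (nat_lit 228))) (XT.nd (nat_lit 78) (nat_lit 1216) (nat_lit 0) (XT.lf (nat_lit 0) (nat_lit 3833342992) (nat_lit 684) (nat_lit 5829299957) (nat_lit 76) (nat_lit 3410221516) (nat_lit 241) (nat_lit 5) (nat_lit 250) (nat_lit 5) (nat_lit 242) (nat_lit 5) (nat_lit 355) (nat_lit 318) (nat_lit 227)) (XT.nd (nat_lit 78) (nat_lit 608) (nat_lit 0) (XT.lf (nat_lit 0) (nat_lit 5141384895) (nat_lit 608) (nat_lit 2327033664) (nat_lit 684) (nat_lit 5826931006) (nat_lit 233) (nat_lit 5) (nat_lit 241) (nat_lit 5) (nat_lit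 242) (nat_lit 5) (nat_lit 356) (nat_lit 318) (nat_lit 226)) (XT.lf (nat_lit 0) (nat_lit 2964402442) (nat_lit 608) (nat_lit 8310680469) (nat_lit 684) (nat_lit 2248185997) (nat_lit 225) (nat_lit 5) (nat_lit 233) (nat_lit 5) (nat_lit 234) (nat_lit 5) (nat_lit 357) (nat_lit 318) (nat_lit 225))))))))
noncomputable def xc83 : XT := (XT.nd (nat_lit 1560) (nat_lit 1748) (nat_lit 0) (XT.nd (nat_lit 780) (nat_lit 3496) (nat_lit 0) (XT.nd (nat_lit 390) (nat_lit 1976) (nat_lit 0) (XT.nd (nat_lit 156) (nat_lit 1748) (nat_lit 0) (XT.nd (nat_lit 78) (nat_lit 0) (nat_lit 0) (XT.lf (nat_lit 0) (nat_lit 717833557) (nat_lit 532) (nat_lit 747089734) (nat_lit 608) (nat_lit 12292008533) (nat_lit 217) (nat_lit 5) (nat_lit 224) (nat_lit 5) (nat_lit 225) (nat_lit 5) (nat_lit 358) (nat_lit 318) (nat_lit 224)) (XT.lf (nat_lit 0) (nat_lit 5347415606) (nat_lit 608) (nat_lit 1617319351) (nat_lit 76) (nat_lit 7030811414) (nat_lit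 217) (nat_lit 5) (nat_lit 225) (nat_lit 5) (nat_lit 218) (nat_lit 5) (nat_lit 359) (nat_lit 318) (nat_lit 223))) (XT.nd (nat_lit 78) (nat_lit 1140) (nat_lit 0) (XT.lf (nat_lit 0) (nat_lit 9394851127) (nat_lit 684) (nat_lit 4005762363) (nat_lit 76) (nat_lit 839745846) (nat_lit 209) (nat_lit 5) (nat_lit 218) (nat_lit 5) (nat_lit 210) (nat_lit 5) (nat_lit 360) (nat_lit 318) (nat_lit 222)) (XT.nd (nat_lit 78) (nat_lit 608) (nat_lit 0) (XT.lf (nat_lit 0) (nat_lit 7993986936) (nat_lit 532) (nat_lit 5651244995) (nat_lit 608) (nat_lit 845663393) (nat_lit 202) (nat_lit 5) (nat_lit 209) (nat_lit 5) (nat_lit 210) (nat_lit 5) (nat_lit 361) (nat_lit 318) (nat_lit 221)) (XT.lf (nat_lit 0) (nat_lit 3283469670) (nat_lit 608) (nat_lit 9086174108) (nat_lit 76) (nat_lit 2377842404) (nat_lit 194) (nat_lit 5) (nat_lit 202) (nat_lit 5) (nat_lit 195) (nat_lit 5) (nat_lit 362) (nat_lit 318) (nat_lit 220))))) (XT.nd (nat_lit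 156) (nat_lit 988) (nat_lit 0) (XT.nd (nat_lit 78) (nat_lit 532) (nat_lit 0) (XT.lf (nat_lit 0) (nat_lit 3225053612) (nat_lit 456) (nat_lit 4375973968) (nat_lit 532) (nat_lit 7409122978) (nat_lit 188) (nat_lit 5) (nat_lit 194) (nat_lit 5) (nat_lit 195) (nat_lit 5) (nat_lit 363) (nat_lit 318) (nat_lit 219)) (XT.lf (nat_lit 0) (nat_lit 698515094) (nat_lit 532) (nat_lit 11414585877) (nat_lit 608) (nat_lit 3166302262) (nat_lit 181) (nat_lit 5) (nat_lit 188) (nat_lit 5) (nat_lit 189) (nat_lit 5) (nat_lit 364) (nat_lit 318) (nat_lit 218))) (XT.nd (nat_lit 78) (nat_lit 912) (nat_lit 0) (XT.lf (nat_lit 0) (nat_lit 1271462551) (nat_lit 608) (nat_lit 1910290367) (nat_lit 76) (nat_lit 12373163055) (nat_lit 180) (nat_lit 5) (nat_lit 188) (nat_lit 5) (nat_lit 181) (nat_lit 5) (nat_lit 365) (nat_lit 318) (nat_lit 217)) (XT.nd (nat_lit 78) (nat_lit 456) (nat_lit 0) (XT.lf (nat_lit 0) (nat_lit 5882035616) (nat_lit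 532) (nat_lit 4640192839) (nat_lit 76) (nat_lit 5314400722) (nat_lit 174) (nat_lit 5) (nat_lit 181) (nat_lit 5) (nat_lit 175) (nat_lit 5) (nat_lit 366) (nat_lit 318) (nat_lit 216)) (XT.lf (nat_lit 0) (nat_lit 8653759028) (nat_lit 456) (nat_lit 2042681938) (nat_lit 532) (nat_lit 5429049816) (nat_lit 168) (nat_lit 5) (nat_lit 174) (nat_lit 5) (nat_lit 175) (nat_lit 5) (nat_lit 367) (nat_lit 318) (nat_lit 215)))))) (XT.nd (nat_lit 390) (nat_lit 1596) (nat_lit 0) (XT.nd (nat_lit 156) (nat_lit 912) (nat_lit 0) (XT.nd (nat_lit 78) (nat_lit 532) (nat_lit 0) (XT.lf (nat_lit 0) (nat_lit 5988311230) (nat_lit 456) (nat_lit 9756411523) (nat_lit 532) (nat_lit 676513693) (nat_lit 162) (nat_lit 5) (nat_lit 168) (nat_lit 5) (nat_lit 169) (nat_lit 5) (nat_lit 368) (nat_lit 318) (nat_lit 214)) (XT.lf (nat_lit 0) (nat_lit 3196116884) (nat_lit 456) (nat_lit 1028330097) (nat_lit 532) (nat_lit 12499642928) (nat_lit 155)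 (nat_lit 5) (nat_lit 161) (nat_lit 5) (nat_lit 162) (nat_lit 5) (nat_lit 369) (nat_lit 318) (nat_lit 213))) (XT.nd (nat_lit 78) (nat_lit 532) (nat_lit 0) (XT.lf (nat_lit 0) (nat_lit 255013963) (nat_lit 380) (nat_lit 9109019279) (nat_lit 456) (nat_lit 7669897098) (nat_lit 150) (nat_lit 5) (nat_lit 155) (nat_lit 5) (nat_lit 156) (nat_lit 5) (nat_lit 370) (nat_lit 318) (nat_lit 212)) (XT.nd (nat_lit 78) (nat_lit 532) (nat_lit 0) (XT.lf (nat_lit 0) (nat_lit 14596375749) (nat_lit 380) (nat_lit 136631907) (nat_lit 456) (nat_lit 2618560680) (nat_lit 150) (nat_lit 5) (nat_lit 155) (nat_lit 5) (nat_lit 156) (nat_lit 5) (nat_lit 371) (nat_lit 318) (nat_lit 211)) (XT.lf (nat_lit 0) (nat_lit 2663890915) (nat_lit 532) (nat_lit 5942506429) (nat_lit 76) (nat_lit 9069739229) (nat_lit 143) (nat_lit 5) (nat_lit 150) (nat_lit 5) (nat_lit 144) (nat_lit 5) (nat_lit 372) (nat_lit 318) (nat_lit 210))))) (XT.nd (nat_lit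 156) (nat_lit 836) (nat_lit 0) (XT.nd (nat_lit 78) (nat_lit 380) (nat_lit 0) (XT.lf (nat_lit 0) (nat_lit 8127621036) (nat_lit 456) (nat_lit 9264637798) (nat_lit 76) (nat_lit 616675111) (nat_lit 138) (nat_lit 5) (nat_lit 144) (nat_lit 5) (nat_lit 139) (nat_lit 5) (nat_lit 373) (nat_lit 318) (nat_lit 209)) (XT.lf (nat_lit 0) (nat_lit 5585195776) (nat_lit 380) (nat_lit 8282412007) (nat_lit 456) (nat_lit 4481866273) (nat_lit 133) (nat_lit 5) (nat_lit 138) (nat_lit 5) (nat_lit 139) (nat_lit 5) (nat_lit 374) (nat_lit 318) (nat_lit 208))) (XT.nd (nat_lit 78) (nat_lit 380) (nat_lit 0) (XT.lf (nat_lit 0) (nat_lit 1129448197) (nat_lit 456) (nat_lit 16407656304) (nat_lit 76) (nat_lit 1161710258) (nat_lit 127) (nat_lit 5) (nat_lit 133) (nat_lit 5) (nat_lit 128) (nat_lit 5) (nat_lit 375) (nat_lit 318) (nat_lit 207)) (XT.nd (nat_lit 78) (nat_lit 380) (nat_lit 0) (XT.lf (nat_lit 0) (nat_lit 6969652418) (nat_lit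 456) (nat_lit 1201841460) (nat_lit 76) (nat_lit 10884125753) (nat_lit 127) (nat_lit 5) (nat_lit 133) (nat_lit 5) (nat_lit 128) (nat_lit 5) (nat_lit 376) (nat_lit 318) (nat_lit 206)) (XT.lf (nat_lit 0) (nat_lit 13069390650) (nat_lit 456) (nat_lit 4810934755) (nat_lit 76) (nat_lit 1541121811) (nat_lit 122) (nat_lit 5) (nat_lit 128) (nat_lit 5) (nat_lit 123) (nat_lit 5) (nat_lit 377) (nat_lit 318) (nat_lit 205))))))) (XT.nd (nat_lit 42588) (nat_lit 0) (nat_lit 28348) (XT.nd (nat_lit 390) (nat_lit 304) (nat_lit 0) (XT.nd (nat_lit 156) (nat_lit 684) (nat_lit 0) (XT.nd (nat_lit 78) (nat_lit 456) (nat_lit 0) (XT.lf (nat_lit 0) (nat_lit 11176593569) (nat_lit 304) (nat_lit 8290537793) (nat_lit 380) (nat_lit 328823034) (nat_lit 118) (nat_lit 5) (nat_lit 122) (nat_lit 5) (nat_lit 123) (nat_lit 5) (nat_lit 378) (nat_lit 318) (nat_lit 204)) (XT.lf (nat_lit 0) (nat_lit 5870836434) (nat_lit 456) (nat_lit 12632067250)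 (nat_lit 76) (nat_lit 1676579299) (nat_lit 112) (nat_lit 5) (nat_lit 118) (nat_lit 5) (nat_lit 113) (nat_lit 5) (nat_lit 379) (nat_lit 318) (nat_lit 203))) (XT.nd (nat_lit 78) (nat_lit 380) (nat_lit 0) (XT.lf (nat_lit 0) (nat_lit 3703882145) (nat_lit 304) (nat_lit 8666629324) (nat_lit 380) (nat_lit 8201597223) (nat_lit 108) (nat_lit 5) (nat_lit 112) (nat_lit 5) (nat_lit 113) (nat_lit 5) (nat_lit 380) (nat_lit 318) (nat_lit 202)) (XT.nd (nat_lit 78) (nat_lit 380) (nat_lit 0) (XT.lf (nat_lit 0) (nat_lit 19141349192) (nat_lit 380) (nat_lit 312384258) (nat_lit 76) (nat_lit 1521260736) (nat_lit 108) (nat_lit 5) (nat_lit 113) (nat_lit 5) (nat_lit 109) (nat_lit 5) (nat_lit 381) (nat_lit 318) (nat_lit 201)) (XT.lf (nat_lit 0) (nat_lit 4812931501) (nat_lit 380) (nat_lit 4544623878) (nat_lit 76) (nat_lit 12028810322) (nat_lit 103) (nat_lit 5) (nat_lit 108) (nat_lit 5) (nat_lit 104) (nat_lit 5) (nat_lit 382)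 (nat_lit 318) (nat_lit 200))))) (XT.nd (nat_lit 41964) (nat_lit 0) (nat_lit 31008) (XT.nd (nat_lit 41886) (nat_lit 0) (nat_lit 32376) (XT.lf (nat_lit 0) (nat_lit 11708218799) (nat_lit 380) (nat_lit 8984317919) (nat_lit 76) (nat_lit 1115818851) (nat_lit 99) (nat_lit 5) (nat_lit 104) (nat_lit 5) (nat_lit 100) (nat_lit 5) (nat_lit 383) (nat_lit 318) (nat_lit 199)) (XT.lf (nat_lit 0) (nat_lit 1865600092) (nat_lit 0) (nat_lit 1865600092) (nat_lit 1292) (nat_lit 264071199) (nat_lit 525) (nat_lit 5) (nat_lit 525) (nat_lit 3) (nat_lit 542) (nat_lit 3) (nat_lit 319) (nat_lit 319) (nat_lit 262))) (XT.nd (nat_lit 78) (nat_lit 0) (nat_lit 0) (XT.lf (nat_lit 0) (nat_lit 1257364009) (nat_lit 1368) (nat_lit 6609531917) (nat_lit 1444) (nat_lit 206966254) (nat_lit 507) (nat_lit 5) (nat_lit 525) (nat_lit 5) (nat_lit 526) (nat_lit 5) (nat_lit 320) (nat_lit 319) (nat_lit 261)) (XT.nd (nat_lit 78) (nat_lit 0) (nat_lit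 76) (XT.lf (nat_lit 0) (nat_lit 3073999719) (nat_lit 1368) (nat_lit 807233790) (nat_lit 1444) (nat_lit 4278717415) (nat_lit 507) (nat_lit 5) (nat_lit 525) (nat_lit 5) (nat_lit 526) (nat_lit 5) (nat_lit 321) (nat_lit 319) (nat_lit 260)) (XT.lf (nat_lit 0) (nat_lit 4913492557) (nat_lit 1368) (nat_lit 3050238974) (nat_lit 1444) (nat_lit 285556999) (nat_lit 508) (nat_lit 5) (nat_lit 526) (nat_lit 5) (nat_lit 527) (nat_lit 5) (nat_lit 322) (nat_lit 319) (nat_lit 259)))))) (XT.nd (nat_lit 390) (nat_lit 1368) (nat_lit 0) (XT.nd (nat_lit 156) (nat_lit 0) (nat_lit 0) (XT.nd (nat_lit 78) (nat_lit 1368) (nat_lit 0) (XT.lf (nat_lit 76) (nat_lit 3031819396) (nat_lit 0) (nat_lit 3762129266) (nat_lit 1444) (nat_lit 1547674417) (nat_lit 509) (nat_lit 5) (nat_lit 508) (nat_lit 5) (nat_lit 527) (nat_lit 5) (nat_lit 323) (nat_lit 319) (nat_lit 258)) (XT.lf (nat_lit 0) (nat_lit 256588697) (nat_lit 1444) (nat_lit 7567921318)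 (nat_lit 1520) (nat_lit 612883188) (nat_lit 490) (nat_lit 5) (nat_lit 509) (nat_lit 5) (nat_lit 510) (nat_lit 5) (nat_lit 324) (nat_lit 319) (nat_lit 257))) (XT.nd (nat_lit 78) (nat_lit 0) (nat_lit 76) (XT.lf (nat_lit 0) (nat_lit 2093089827) (nat_lit 1444) (nat_lit 1302696770) (nat_lit 1520) (nat_lit 5140092421) (nat_lit 490) (nat_lit 5) (nat_lit 509) (nat_lit 5) (nat_lit 510) (nat_lit 5) (nat_lit 325) (nat_lit 319) (nat_lit 256)) (XT.nd (nat_lit 78) (nat_lit 0) (nat_lit 0) (XT.lf (nat_lit 0) (nat_lit 3965723152) (nat_lit 1444) (nat_lit 3464713710) (nat_lit 1520) (nat_lit 1207290858) (nat_lit 491) (nat_lit 5) (nat_lit 510) (nat_lit 5) (nat_lit 511) (nat_lit 5) (nat_lit 326) (nat_lit 319) (nat_lit 255)) (XT.lf (nat_lit 76) (nat_lit 3098169604) (nat_lit 0) (nat_lit 2789201421) (nat_lit 1520) (nat_lit 2855432359) (nat_lit 492) (nat_lit 5) (nat_lit 491) (nat_lit 5) (nat_lit 511) (nat_lit 5) (nat_lit 327)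 (nat_lit 319) (nat_lit 254))))) (XT.nd (nat_lit 156) (nat_lit 0) (nat_lit 76) (XT.nd (nat_lit 78) (nat_lit 1520) (nat_lit 0) (XT.lf (nat_lit 76) (nat_lit 1016292383) (nat_lit 0) (nat_lit 6836262824) (nat_lit 1520) (nat_lit 998785763) (nat_lit 493) (nat_lit 5) (nat_lit 492) (nat_lit 5) (nat_lit 512) (nat_lit 5) (nat_lit 328) (nat_lit 319) (nat_lit 253)) (XT.lf (nat_lit 0) (nat_lit 902485268) (nat_lit 1520) (nat_lit 1071796466) (nat_lit 1596) (nat_lit 6988742258) (nat_lit 472) (nat_lit 5) (nat_lit 492) (nat_lit 5) (nat_lit 493) (nat_lit 5) (nat_lit 329) (nat_lit 319) (nat_lit 252))) (XT.nd (nat_lit 78) (nat_lit 0) (nat_lit 0) (XT.lf (nat_lit 0) (nat_lit 2851281886) (nat_lit 1520) (nat_lit 3170727350) (nat_lit 1596) (nat_lit 3055860401) (nat_lit 473) (nat_lit 5) (nat_lit 493) (nat_lit 5) (nat_lit 494) (nat_lit 5) (nat_lit 330) (nat_lit 319) (nat_lit 251)) (XT.nd (nat_lit 78) (nat_lit 0) (nat_lit 76)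 (XT.lf (nat_lit 76) (nat_lit 3913835385) (nat_lit 0) (nat_lit 937475126) (nat_lit 1596) (nat_lit 4345019351) (nat_lit 474) (nat_lit 5) (nat_lit 473) (nat_lit 5) (nat_lit 494) (nat_lit 5) (nat_lit 331) (nat_lit 319) (nat_lit 250)) (XT.lf (nat_lit 76) (nat_lit 1894329108) (nat_lit 0) (nat_lit 5027092191) (nat_lit 1596) (nat_lit 2396744825) (nat_lit 475) (nat_lit 5) (nat_lit 474) (nat_lit 5) (nat_lit 495) (nat_lit 5) (nat_lit 332) (nat_lit 319) (nat_lit 249))))))))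
noncomputable def xc84 : XT := (XT.nd (nat_lit 1560) (nat_lit 8892) (nat_lit 0) (XT.nd (nat_lit 780) (nat_lit 6384) (nat_lit 0) (XT.nd (nat_lit 390) (nat_lit 4636) (nat_lit 0) (XT.nd (nat_lit 156) (nat_lit 3192) (nat_lit 0) (XT.nd (nat_lit 78) (nat_lit 1596) (nat_lit 0) (XT.lf (nat_lit 0) (nat_lit 9046903292) (nat_lit 1520) (nat_lit 131433105) (nat_lit 1596) (nat_lit 265478883) (nat_lit 475) (nat_lit 5) (nat_lit 495) (nat_lit 5) (nat_lit 496) (nat_lit 5) (nat_lit 333) (nat_lit 319) (nat_lit 248)) (XT.lf (nat_lit 0) (nat_lit 1674043366) (nat_lit 1596) (nat_lit 2178587233) (nat_lit 1672) (nat_lit 5719750684) (nat_lit 454) (nat_lit 5) (nat_lit 475) (nat_lit 5) (nat_lit 476) (nat_lit 5) (nat_lit 334) (nat_lit 319) (nat_lit 247))) (XT.nd (nat_lit 78) (nat_lit 3268) (nat_lit 0) (XT.lf (nat_lit 0) (nat_lit 3801008005) (nat_lit 1596) (nat_lit 4243281172) (nat_lit 76) (nat_lit 1660498562) (nat_lit 455) (nat_lit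 5) (nat_lit 476) (nat_lit 5) (nat_lit 456) (nat_lit 5) (nat_lit 335) (nat_lit 319) (nat_lit 246)) (XT.nd (nat_lit 78) (nat_lit 1672) (nat_lit 0) (XT.lf (nat_lit 0) (nat_lit 3501153626) (nat_lit 1596) (nat_lit 2507091433) (nat_lit 1672) (nat_lit 3832612839) (nat_lit 434) (nat_lit 5) (nat_lit 455) (nat_lit 5) (nat_lit 456) (nat_lit 5) (nat_lit 336) (nat_lit 319) (nat_lit 245)) (XT.lf (nat_lit 0) (nat_lit 1515488239) (nat_lit 1672) (nat_lit 6780022834) (nat_lit 1748) (nat_lit 1685243028) (nat_lit 412) (nat_lit 5) (nat_lit 434) (nat_lit 5) (nat_lit 435) (nat_lit 5) (nat_lit 337) (nat_lit 319) (nat_lit 244))))) (XT.nd (nat_lit 156) (nat_lit 2812) (nat_lit 0) (XT.nd (nat_lit 78) (nat_lit 1748) (nat_lit 0) (XT.lf (nat_lit 0) (nat_lit 534696137) (nat_lit 1748) (nat_lit 490339844) (nat_lit 76) (nat_lit 9099460962) (nat_lit 411) (nat_lit 5) (nat_lit 434) (nat_lit 5) (nat_lit 412) (nat_lit 5) (nat_lit 338) (nat_lit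 319) (nat_lit 243)) (XT.lf (nat_lit 0) (nat_lit 2837590180) (nat_lit 1824) (nat_lit 2527791348) (nat_lit 76) (nat_lit 4906181344) (nat_lit 388) (nat_lit 5) (nat_lit 412) (nat_lit 5) (nat_lit 389) (nat_lit 5) (nat_lit 339) (nat_lit 319) (nat_lit 242))) (XT.nd (nat_lit 78) (nat_lit 1748) (nat_lit 0) (XT.lf (nat_lit 0) (nat_lit 5219165072) (nat_lit 1140) (nat_lit 4586797679) (nat_lit 76) (nat_lit 616904252) (nat_lit 374) (nat_lit 5) (nat_lit 389) (nat_lit 5) (nat_lit 375) (nat_lit 5) (nat_lit 340) (nat_lit 319) (nat_lit 241)) (XT.nd (nat_lit 78) (nat_lit 836) (nat_lit 0) (XT.lf (nat_lit 0) (nat_lit 3883609248) (nat_lit 912) (nat_lit 3825356407) (nat_lit 988) (nat_lit 2869026607) (nat_lit 362) (nat_lit 5) (nat_lit 374) (nat_lit 5) (nat_lit 375) (nat_lit 5) (nat_lit 341) (nat_lit 319) (nat_lit 240)) (XT.lf (nat_lit 0) (nat_lit 1904746745) (nat_lit 836) (nat_lit 8386949651) (nat_lit 912) (nat_lit 445727224)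 (nat_lit 351) (nat_lit 5) (nat_lit 362) (nat_lit 5) (nat_lit 363) (nat_lit 5) (nat_lit 342) (nat_lit 319) (nat_lit 239)))))) (XT.nd (nat_lit 390) (nat_lit 2964) (nat_lit 0) (XT.nd (nat_lit 156) (nat_lit 2508) (nat_lit 0) (XT.nd (nat_lit 78) (nat_lit 836) (nat_lit 0) (XT.lf (nat_lit 0) (nat_lit 2054706803) (nat_lit 912) (nat_lit 124994293) (nat_lit 76) (nat_lit 8721060323) (nat_lit 350) (nat_lit 5) (nat_lit 362) (nat_lit 5) (nat_lit 351) (nat_lit 5) (nat_lit 343) (nat_lit 319) (nat_lit 238)) (XT.lf (nat_lit 0) (nat_lit 4671063504) (nat_lit 912) (nat_lit 2175841690) (nat_lit 76) (nat_lit 4221111693) (nat_lit 339) (nat_lit 5) (nat_lit 351) (nat_lit 5) (nat_lit 340) (nat_lit 5) (nat_lit 344) (nat_lit 319) (nat_lit 237))) (XT.nd (nat_lit 78) (nat_lit 1672) (nat_lit 0) (XT.lf (nat_lit 0) (nat_lit 6980665015) (nat_lit 836) (nat_lit 408137326) (nat_lit 912) (nat_lit 3851045159) (nat_lit 328) (nat_lit 5) (nat_lit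 339) (nat_lit 5) (nat_lit 340) (nat_lit 5) (nat_lit 345) (nat_lit 319) (nat_lit 236)) (XT.nd (nat_lit 78) (nat_lit 836) (nat_lit 0) (XT.lf (nat_lit 0) (nat_lit 5012598673) (nat_lit 836) (nat_lit 5226272302) (nat_lit 912) (nat_lit 1176960966) (nat_lit 317) (nat_lit 5) (nat_lit 328) (nat_lit 5) (nat_lit 329) (nat_lit 5) (nat_lit 346) (nat_lit 319) (nat_lit 235)) (XT.lf (nat_lit 0) (nat_lit 1580946621) (nat_lit 836) (nat_lit 8592929282) (nat_lit 76) (nat_lit 1422543576) (nat_lit 306) (nat_lit 5) (nat_lit 317) (nat_lit 5) (nat_lit 307) (nat_lit 5) (nat_lit 347) (nat_lit 319) (nat_lit 234))))) (XT.nd (nat_lit 156) (nat_lit 2204) (nat_lit 0) (XT.nd (nat_lit 78) (nat_lit 0) (nat_lit 0) (XT.lf (nat_lit 0) (nat_lit 929854249) (nat_lit 760) (nat_lit 3524898842) (nat_lit 836) (nat_lit 7326546654) (nat_lit 296) (nat_lit 5) (nat_lit 306) (nat_lit 5) (nat_lit 307) (nat_lit 5) (nat_lit 348) (nat_lit 319) (nat_lit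 233)) (XT.lf (nat_lit 0) (nat_lit 7460142844) (nat_lit 836) (nat_lit 1174405008) (nat_lit 76) (nat_lit 3336284519) (nat_lit 296) (nat_lit 5) (nat_lit 307) (nat_lit 5) (nat_lit 297) (nat_lit 5) (nat_lit 349) (nat_lit 319) (nat_lit 232))) (XT.nd (nat_lit 78) (nat_lit 1520) (nat_lit 0) (XT.lf (nat_lit 0) (nat_lit 8848706587) (nat_lit 684) (nat_lit 1754202610) (nat_lit 760) (nat_lit 1562210429) (nat_lit 287) (nat_lit 5) (nat_lit 296) (nat_lit 5) (nat_lit 297) (nat_lit 5) (nat_lit 350) (nat_lit 319) (nat_lit 231)) (XT.nd (nat_lit 78) (nat_lit 684) (nat_lit 0) (XT.lf (nat_lit 0) (nat_lit 1509702546) (nat_lit 836) (nat_lit 5532312095) (nat_lit 76) (nat_lit 5321955267) (nat_lit 276) (nat_lit 5) (nat_lit 287) (nat_lit 5) (nat_lit 277) (nat_lit 5) (nat_lit 351) (nat_lit 319) (nat_lit 230)) (XT.lf (nat_lit 0) (nat_lit 4685897294) (nat_lit 760) (nat_lit 7803682378) (nat_lit 76) (nat_lit 78344491) (nat_lit 267)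 (nat_lit 5) (nat_lit 277) (nat_lit 5) (nat_lit 268) (nat_lit 5) (nat_lit 352) (nat_lit 319) (nat_lit 229))))))) (XT.nd (nat_lit 780) (nat_lit 3876) (nat_lit 0) (XT.nd (nat_lit 390) (nat_lit 2432) (nat_lit 0) (XT.nd (nat_lit 156) (nat_lit 1292) (nat_lit 0) (XT.nd (nat_lit 78) (nat_lit 608) (nat_lit 0) (XT.lf (nat_lit 0) (nat_lit 2618519369) (nat_lit 684) (nat_lit 5408800772) (nat_lit 760) (nat_lit 4749289677) (nat_lit 258) (nat_lit 5) (nat_lit 267) (nat_lit 5) (nat_lit 268) (nat_lit 5) (nat_lit 353) (nat_lit 319) (nat_lit 228)) (XT.lf (nat_lit 0) (nat_lit 426046738) (nat_lit 608) (nat_lit 11079944468) (nat_lit 684) (nat_lit 1484836003) (nat_lit 250) (nat_lit 5) (nat_lit 258) (nat_lit 5) (nat_lit 259) (nat_lit 5) (nat_lit 354) (nat_lit 319) (nat_lit 227))) (XT.nd (nat_lit 78) (nat_lit 1216) (nat_lit 0) (XT.lf (nat_lit 0) (nat_lit 1927624533) (nat_lit 684) (nat_lit 1828645540) (nat_lit 76) (nat_lit 9453474024)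 (nat_lit 249) (nat_lit 5) (nat_lit 258) (nat_lit 5) (nat_lit 250) (nat_lit 5) (nat_lit 355) (nat_lit 319) (nat_lit 226)) (XT.nd (nat_lit 78) (nat_lit 608) (nat_lit 0) (XT.lf (nat_lit 0) (nat_lit 5477973929) (nat_lit 684) (nat_lit 4153175129) (nat_lit 76) (nat_lit 3802779796) (nat_lit 241) (nat_lit 5) (nat_lit 250) (nat_lit 5) (nat_lit 242) (nat_lit 5) (nat_lit 356) (nat_lit 319) (nat_lit 225)) (XT.lf (nat_lit 0) (nat_lit 7116599931) (nat_lit 608) (nat_lit 2072772451) (nat_lit 684) (nat_lit 4474386118) (nat_lit 233) (nat_lit 5) (nat_lit 241) (nat_lit 5) (nat_lit 242) (nat_lit 5) (nat_lit 357) (nat_lit 319) (nat_lit 224))))) (XT.nd (nat_lit 156) (nat_lit 1216) (nat_lit 0) (XT.nd (nat_lit 78) (nat_lit 608) (nat_lit 0) (XT.lf (nat_lit 0) (nat_lit 4872652429) (nat_lit 608) (nat_lit 8207840196) (nat_lit 684) (nat_lit 818632637) (nat_lit 225) (nat_lit 5) (nat_lit 233) (nat_lit 5) (nat_lit 234) (nat_lit 5)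 (nat_lit 358) (nat_lit 319) (nat_lit 223)) (XT.lf (nat_lit 0) (nat_lit 2548965950) (nat_lit 532) (nat_lit 405989611) (nat_lit 608) (nat_lit 11185287969) (nat_lit 217) (nat_lit 5) (nat_lit 224) (nat_lit 5) (nat_lit 225) (nat_lit 5) (nat_lit 359) (nat_lit 319) (nat_lit 222))) (XT.nd (nat_lit 78) (nat_lit 608) (nat_lit 0) (XT.lf (nat_lit 0) (nat_lit 118859217) (nat_lit 608) (nat_lit 6796007597) (nat_lit 684) (nat_lit 7471944639) (nat_lit 209) (nat_lit 5) (nat_lit 217) (nat_lit 5) (nat_lit 218) (nat_lit 5) (nat_lit 360) (nat_lit 319) (nat_lit 221)) (XT.nd (nat_lit 78) (nat_lit 608) (nat_lit 0) (XT.lf (nat_lit 0) (nat_lit 11055835366) (nat_lit 684) (nat_lit 2346195320) (nat_lit 76) (nat_lit 1237509340) (nat_lit 209) (nat_lit 5) (nat_lit 218) (nat_lit 5) (nat_lit 210) (nat_lit 5) (nat_lit 361) (nat_lit 319) (nat_lit 220)) (XT.lf (nat_lit 0) (nat_lit 500099084) (nat_lit 608) (nat_lit 4916798983) (nat_lit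 76) (nat_lit 9481217280) (nat_lit 201) (nat_lit 5) (nat_lit 209) (nat_lit 5) (nat_lit 202) (nat_lit 5) (nat_lit 362) (nat_lit 319) (nat_lit 219)))))) (XT.nd (nat_lit 390) (nat_lit 1824) (nat_lit 0) (XT.nd (nat_lit 156) (nat_lit 1064) (nat_lit 0) (XT.nd (nat_lit 78) (nat_lit 456) (nat_lit 0) (XT.lf (nat_lit 0) (nat_lit 4716037822) (nat_lit 608) (nat_lit 7593719390) (nat_lit 76) (nat_lit 2853058905) (nat_lit 194) (nat_lit 5) (nat_lit 202) (nat_lit 5) (nat_lit 195) (nat_lit 5) (nat_lit 363) (nat_lit 319) (nat_lit 218)) (XT.lf (nat_lit 0) (nat_lit 5058209485) (nat_lit 456) (nat_lit 4077330636) (nat_lit 532) (nat_lit 6298383988) (nat_lit 188) (nat_lit 5) (nat_lit 194) (nat_lit 5) (nat_lit 195) (nat_lit 5) (nat_lit 364) (nat_lit 319) (nat_lit 217))) (XT.nd (nat_lit 78) (nat_lit 532) (nat_lit 0) (XT.lf (nat_lit 0) (nat_lit 2451058191) (nat_lit 532) (nat_lit 11307817316) (nat_lit 608) (nat_lit 1952872552)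 (nat_lit 181) (nat_lit 5) (nat_lit 188) (nat_lit 5) (nat_lit 189) (nat_lit 5) (nat_lit 365) (nat_lit 319) (nat_lit 216)) (XT.nd (nat_lit 78) (nat_lit 456) (nat_lit 0) (XT.lf (nat_lit 0) (nat_lit 2563255582) (nat_lit 608) (nat_lit 269414813) (nat_lit 76) (nat_lit 13163449199) (nat_lit 180) (nat_lit 5) (nat_lit 188) (nat_lit 5) (nat_lit 181) (nat_lit 5) (nat_lit 366) (nat_lit 319) (nat_lit 215)) (XT.lf (nat_lit 0) (nat_lit 7289352631) (nat_lit 532) (nat_lit 3086719655) (nat_lit 76) (nat_lit 5910678574) (nat_lit 174) (nat_lit 5) (nat_lit 181) (nat_lit 5) (nat_lit 175) (nat_lit 5) (nat_lit 367) (nat_lit 319) (nat_lit 214))))) (XT.nd (nat_lit 156) (nat_lit 836) (nat_lit 0) (XT.nd (nat_lit 78) (nat_lit 532) (nat_lit 0) (XT.lf (nat_lit 0) (nat_lit 10578589062) (nat_lit 456) (nat_lit 1644562602) (nat_lit 532) (nat_lit 4361637908) (nat_lit 168) (nat_lit 5) (nat_lit 174) (nat_lit 5) (nat_lit 175) (nat_lit 5)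 (nat_lit 368) (nat_lit 319) (nat_lit 213)) (XT.lf (nat_lit 0) (nat_lit 504874039) (nat_lit 532) (nat_lit 9065872033) (nat_lit 76) (nat_lit 7319034314) (nat_lit 161) (nat_lit 5) (nat_lit 168) (nat_lit 5) (nat_lit 162) (nat_lit 5) (nat_lit 369) (nat_lit 319) (nat_lit 212))) (XT.nd (nat_lit 78) (nat_lit 380) (nat_lit 0) (XT.lf (nat_lit 0) (nat_lit 4940333913) (nat_lit 456) (nat_lit 579358616) (nat_lit 532) (nat_lit 11682426778) (nat_lit 155) (nat_lit 5) (nat_lit 161) (nat_lit 5) (nat_lit 162) (nat_lit 5) (nat_lit 370) (nat_lit 319) (nat_lit 211)) (XT.nd (nat_lit 78) (nat_lit 0) (nat_lit 0) (XT.lf (nat_lit 0) (nat_lit 1904499779) (nat_lit 380) (nat_lit 8888616731) (nat_lit 456) (nat_lit 6728554848) (nat_lit 150) (nat_lit 5) (nat_lit 155) (nat_lit 5) (nat_lit 156) (nat_lit 5) (nat_lit 371) (nat_lit 319) (nat_lit 210)) (XT.lf (nat_lit 0) (nat_lit 16291916715) (nat_lit 456) (nat_lit 1223432670) (nat_lit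 76) (nat_lit 334123112) (nat_lit 150) (nat_lit 5) (nat_lit 156) (nat_lit 5) (nat_lit 151) (nat_lit 5) (nat_lit 372) (nat_lit 319) (nat_lit 209))))))))
noncomputable def xc85 : XT := (XT.nd (nat_lit 43446) (nat_lit 0) (nat_lit 15428) (XT.nd (nat_lit 780) (nat_lit 76) (nat_lit 0) (XT.nd (nat_lit 390) (nat_lit 1368) (nat_lit 0) (XT.nd (nat_lit 156) (nat_lit 1216) (nat_lit 0) (XT.nd (nat_lit 78) (nat_lit 380) (nat_lit 0) (XT.lf (nat_lit 0) (nat_lit 3846935189) (nat_lit 532) (nat_lit 4518506968) (nat_lit 76) (nat_lit 9818626116) (nat_lit 143) (nat_lit 5) (nat_lit 150) (nat_lit 5) (nat_lit 144) (nat_lit 5) (nat_lit 373) (nat_lit 319) (nat_lit 208)) (XT.lf (nat_lit 0) (nat_lit 9455895718) (nat_lit 456) (nat_lit 7947605419) (nat_lit 76) (nat_lit 1123730503) (nat_lit 138) (nat_lit 5) (nat_lit 144) (nat_lit 5) (nat_lit 139) (nat_lit 5) (nat_lit 374) (nat_lit 319) (nat_lit 207))) (XT.nd (nat_lit 78) (nat_lit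 836) (nat_lit 0) (XT.lf (nat_lit 0) (nat_lit 7321846645) (nat_lit 380) (nat_lit 8024837220) (nat_lit 456) (nat_lit 3531740249) (nat_lit 133) (nat_lit 5) (nat_lit 138) (nat_lit 5) (nat_lit 139) (nat_lit 5) (nat_lit 375) (nat_lit 319) (nat_lit 206)) (XT.nd (nat_lit 78) (nat_lit 380) (nat_lit 0) (XT.lf (nat_lit 0) (nat_lit 2215930755) (nat_lit 456) (nat_lit 15324046655) (nat_lit 76) (nat_lit 1698489761) (nat_lit 127) (nat_lit 5) (nat_lit 133) (nat_lit 5) (nat_lit 128) (nat_lit 5) (nat_lit 376) (nat_lit 319) (nat_lit 205)) (XT.lf (nat_lit 0) (nat_lit 295925517) (nat_lit 380) (nat_lit 7906678704) (nat_lit 456) (nat_lit 11403954280) (nat_lit 122) (nat_lit 5) (nat_lit 127) (nat_lit 5) (nat_lit 128) (nat_lit 5) (nat_lit 377) (nat_lit 319) (nat_lit 204))))) (XT.nd (nat_lit 156) (nat_lit 988) (nat_lit 0) (XT.nd (nat_lit 78) (nat_lit 380) (nat_lit 0) (XT.lf (nat_lit 0) (nat_lit 14466687147) (nat_lit 456) (nat_lit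 3433126016) (nat_lit 76) (nat_lit 2083928053) (nat_lit 122) (nat_lit 5) (nat_lit 128) (nat_lit 5) (nat_lit 123) (nat_lit 5) (nat_lit 378) (nat_lit 319) (nat_lit 203)) (XT.lf (nat_lit 0) (nat_lit 658175691) (nat_lit 380) (nat_lit 7364878672) (nat_lit 76) (nat_lit 12346740900) (nat_lit 117) (nat_lit 5) (nat_lit 122) (nat_lit 5) (nat_lit 118) (nat_lit 5) (nat_lit 379) (nat_lit 319) (nat_lit 202))) (XT.nd (nat_lit 78) (nat_lit 608) (nat_lit 0) (XT.lf (nat_lit 0) (nat_lit 7023459839) (nat_lit 456) (nat_lit 11508319342) (nat_lit 76) (nat_lit 2233331807) (nat_lit 112) (nat_lit 5) (nat_lit 118) (nat_lit 5) (nat_lit 113) (nat_lit 5) (nat_lit 380) (nat_lit 319) (nat_lit 201)) (XT.nd (nat_lit 78) (nat_lit 304) (nat_lit 0) (XT.lf (nat_lit 0) (nat_lit 5293328853) (nat_lit 304) (nat_lit 8405952874) (nat_lit 380) (nat_lit 7470617206) (nat_lit 108) (nat_lit 5) (nat_lit 112) (nat_lit 5) (nat_lit 113) (nat_lit 5) (nat_lit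 381) (nat_lit 319) (nat_lit 200)) (XT.lf (nat_lit 0) (nat_lit 1144047332) (nat_lit 304) (nat_lit 19512014409) (nat_lit 380) (nat_lit 929159313) (nat_lit 104) (nat_lit 5) (nat_lit 108) (nat_lit 5) (nat_lit 109) (nat_lit 5) (nat_lit 382) (nat_lit 319) (nat_lit 199)))))) (XT.nd (nat_lit 42276) (nat_lit 0) (nat_lit 29336) (XT.nd (nat_lit 42042) (nat_lit 0) (nat_lit 30628) (XT.nd (nat_lit 41964) (nat_lit 0) (nat_lit 30628) (XT.lf (nat_lit 0) (nat_lit 5878719362) (nat_lit 380) (nat_lit 3241253196) (nat_lit 76) (nat_lit 12889352883) (nat_lit 103) (nat_lit 5) (nat_lit 108) (nat_lit 5) (nat_lit 104) (nat_lit 5) (nat_lit 383) (nat_lit 319) (nat_lit 198)) (XT.lf (nat_lit 0) (nat_lit 1490026442) (nat_lit 1444) (nat_lit 1294548717) (nat_lit 1444) (nat_lit 1294548717) (nat_lit 506) (nat_lit 3) (nat_lit 525) (nat_lit 3) (nat_lit 525) (nat_lit 5) (nat_lit 320) (nat_lit 320) (nat_lit 260))) (XT.nd (nat_lit 78) (nat_lit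 0) (nat_lit 76) (XT.lf (nat_lit 76) (nat_lit 3275070666) (nat_lit 0) (nat_lit 1444544756) (nat_lit 1444) (nat_lit 3526278974) (nat_lit 507) (nat_lit 5) (nat_lit 506) (nat_lit 3) (nat_lit 525) (nat_lit 5) (nat_lit 321) (nat_lit 320) (nat_lit 259)) (XT.nd (nat_lit 78) (nat_lit 0) (nat_lit 0) (XT.lf (nat_lit 76) (nat_lit 973917528) (nat_lit 0) (nat_lit 5514306618) (nat_lit 1444) (nat_lit 1848441490) (nat_lit 508) (nat_lit 5) (nat_lit 507) (nat_lit 5) (nat_lit 526) (nat_lit 5) (nat_lit 322) (nat_lit 320) (nat_lit 258)) (XT.lf (nat_lit 76) (nat_lit 7120507270) (nat_lit 0) (nat_lit 1169012813) (nat_lit 1444) (nat_lit 141078795) (nat_lit 508) (nat_lit 5) (nat_lit 507) (nat_lit 5) (nat_lit 526) (nat_lit 5) (nat_lit 323) (nat_lit 320) (nat_lit 257))))) (XT.nd (nat_lit 156) (nat_lit 0) (nat_lit 76) (XT.nd (nat_lit 78) (nat_lit 0) (nat_lit 0) (XT.lf (nat_lit 0) (nat_lit 1588083324) (nat_lit 1444) (nat_lit 3605812075)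 (nat_lit 1520) (nat_lit 3333438761) (nat_lit 489) (nat_lit 5) (nat_lit 508) (nat_lit 5) (nat_lit 509) (nat_lit 5) (nat_lit 324) (nat_lit 320) (nat_lit 256)) (XT.lf (nat_lit 76) (nat_lit 2722666246) (nat_lit 0) (nat_lit 618507187) (nat_lit 1520) (nat_lit 5286329075) (nat_lit 490) (nat_lit 5) (nat_lit 489) (nat_lit 5) (nat_lit 509) (nat_lit 5) (nat_lit 325) (nat_lit 320) (nat_lit 255))) (XT.nd (nat_lit 78) (nat_lit 0) (nat_lit 76) (XT.lf (nat_lit 76) (nat_lit 503799114) (nat_lit 0) (nat_lit 4638724616) (nat_lit 1520) (nat_lit 3588267039) (nat_lit 491) (nat_lit 5) (nat_lit 490) (nat_lit 5) (nat_lit 510) (nat_lit 5) (nat_lit 326) (nat_lit 320) (nat_lit 254)) (XT.nd (nat_lit 78) (nat_lit 0) (nat_lit 0) (XT.lf (nat_lit 0) (nat_lit 6985780873) (nat_lit 1444) (nat_lit 1692830303) (nat_lit 1520) (nat_lit 158836563) (nat_lit 491) (nat_lit 5) (nat_lit 510) (nat_lit 5) (nat_lit 511) (nat_lit 5) (nat_lit 327)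 (nat_lit 320) (nat_lit 253)) (XT.lf (nat_lit 76) (nat_lit 5036506481) (nat_lit 0) (nat_lit 3856055558) (nat_lit 1520) (nat_lit 54604446) (nat_lit 492) (nat_lit 5) (nat_lit 491) (nat_lit 5) (nat_lit 511) (nat_lit 5) (nat_lit 328) (nat_lit 320) (nat_lit 252))))))) (XT.nd (nat_lit 780) (nat_lit 7980) (nat_lit 0) (XT.nd (nat_lit 390) (nat_lit 3192) (nat_lit 0) (XT.nd (nat_lit 156) (nat_lit 1444) (nat_lit 0) (XT.nd (nat_lit 78) (nat_lit 0) (nat_lit 0) (XT.lf (nat_lit 0) (nat_lit 1756447083) (nat_lit 1520) (nat_lit 6146587948) (nat_lit 1596) (nat_lit 1157261068) (nat_lit 472) (nat_lit 5) (nat_lit 492) (nat_lit 5) (nat_lit 493) (nat_lit 5) (nat_lit 329) (nat_lit 320) (nat_lit 251)) (XT.lf (nat_lit 76) (nat_lit 767113159) (nat_lit 0) (nat_lit 2858402213) (nat_lit 1596) (nat_lit 5551233042) (nat_lit 473) (nat_lit 5) (nat_lit 472) (nat_lit 5) (nat_lit 493) (nat_lit 5) (nat_lit 330) (nat_lit 320) (nat_lit 250)))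 (XT.nd (nat_lit 78) (nat_lit 1520) (nat_lit 0) (XT.lf (nat_lit 0) (nat_lit 5556151148) (nat_lit 1520) (nat_lit 1376185440) (nat_lit 1596) (nat_lit 2364271660) (nat_lit 473) (nat_lit 5) (nat_lit 493) (nat_lit 5) (nat_lit 494) (nat_lit 5) (nat_lit 331) (nat_lit 320) (nat_lit 249)) (XT.nd (nat_lit 78) (nat_lit 1520) (nat_lit 0) (XT.lf (nat_lit 76) (nat_lit 5890256627) (nat_lit 0) (nat_lit 1661702717) (nat_lit 1596) (nat_lit 1867982629) (nat_lit 474) (nat_lit 5) (nat_lit 473) (nat_lit 5) (nat_lit 494) (nat_lit 5) (nat_lit 332) (nat_lit 320) (nat_lit 248)) (XT.lf (nat_lit 0) (nat_lit 69874138) (nat_lit 1596) (nat_lit 5711377824) (nat_lit 1672) (nat_lit 3765537844) (nat_lit 453) (nat_lit 5) (nat_lit 474) (nat_lit 5) (nat_lit 475) (nat_lit 5) (nat_lit 333) (nat_lit 320) (nat_lit 247))))) (XT.nd (nat_lit 156) (nat_lit 3192) (nat_lit 0) (XT.nd (nat_lit 78) (nat_lit 0) (nat_lit 76) (XT.lf (nat_lit 76) (nat_lit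 1755359714) (nat_lit 0) (nat_lit 283918808) (nat_lit 1672) (nat_lit 7637963199) (nat_lit 454) (nat_lit 5) (nat_lit 453) (nat_lit 5) (nat_lit 475) (nat_lit 5) (nat_lit 334) (nat_lit 320) (nat_lit 246)) (XT.lf (nat_lit 0) (nat_lit 4094933865) (nat_lit 1596) (nat_lit 358873117) (nat_lit 1672) (nat_lit 5357277617) (nat_lit 454) (nat_lit 5) (nat_lit 475) (nat_lit 5) (nat_lit 476) (nat_lit 5) (nat_lit 335) (nat_lit 320) (nat_lit 245))) (XT.nd (nat_lit 78) (nat_lit 3344) (nat_lit 0) (XT.lf (nat_lit 0) (nat_lit 6225718143) (nat_lit 1596) (nat_lit 2465812428) (nat_lit 76) (nat_lit 1257163181) (nat_lit 455) (nat_lit 5) (nat_lit 476) (nat_lit 5) (nat_lit 456) (nat_lit 5) (nat_lit 336) (nat_lit 320) (nat_lit 244)) (XT.nd (nat_lit 78) (nat_lit 1748) (nat_lit 0) (XT.lf (nat_lit 0) (nat_lit 5480052829) (nat_lit 1596) (nat_lit 2963984497) (nat_lit 1672) (nat_lit 1645941218) (nat_lit 434) (nat_lit 5) (nat_lit 455)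 (nat_lit 5) (nat_lit 456) (nat_lit 5) (nat_lit 337) (nat_lit 320) (nat_lit 243)) (XT.lf (nat_lit 0) (nat_lit 502208083) (nat_lit 1748) (nat_lit 6786309772) (nat_lit 76) (nat_lit 2946633099) (nat_lit 411) (nat_lit 5) (nat_lit 434) (nat_lit 5) (nat_lit 412) (nat_lit 5) (nat_lit 338) (nat_lit 320) (nat_lit 242)))))) (XT.nd (nat_lit 390) (nat_lit 3344) (nat_lit 0) (XT.nd (nat_lit 156) (nat_lit 2888) (nat_lit 0) (XT.nd (nat_lit 78) (nat_lit 0) (nat_lit 0) (XT.lf (nat_lit 0) (nat_lit 1378705819) (nat_lit 1748) (nat_lit 1331704101) (nat_lit 1824) (nat_lit 7673709725) (nat_lit 388) (nat_lit 5) (nat_lit 411) (nat_lit 5) (nat_lit 412) (nat_lit 5) (nat_lit 339) (nat_lit 320) (nat_lit 241)) (XT.lf (nat_lit 0) (nat_lit 5020995716) (nat_lit 1824) (nat_lit 723609749) (nat_lit 76) (nat_lit 4792246749) (nat_lit 388) (nat_lit 5) (nat_lit 412) (nat_lit 5) (nat_lit 389) (nat_lit 5) (nat_lit 340) (nat_lit 320) (nat_lit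 240))) (XT.nd (nat_lit 78) (nat_lit 1824) (nat_lit 0) (XT.lf (nat_lit 0) (nat_lit 7423614935) (nat_lit 1140) (nat_lit 2831741549) (nat_lit 76) (nat_lit 438373023) (nat_lit 374) (nat_lit 5) (nat_lit 389) (nat_lit 5) (nat_lit 375) (nat_lit 5) (nat_lit 341) (nat_lit 320) (nat_lit 239)) (XT.nd (nat_lit 78) (nat_lit 912) (nat_lit 0) (XT.lf (nat_lit 0) (nat_lit 5862071426) (nat_lit 912) (nat_lit 4078480308) (nat_lit 988) (nat_lit 913933170) (nat_lit 362) (nat_lit 5) (nat_lit 374) (nat_lit 5) (nat_lit 375) (nat_lit 5) (nat_lit 342) (nat_lit 320) (nat_lit 238)) (XT.lf (nat_lit 0) (nat_lit 1514006575) (nat_lit 912) (nat_lit 7194920489) (nat_lit 76) (nat_lit 2310536902) (nat_lit 350) (nat_lit 5) (nat_lit 362) (nat_lit 5) (nat_lit 351) (nat_lit 5) (nat_lit 343) (nat_lit 320) (nat_lit 237))))) (XT.nd (nat_lit 156) (nat_lit 2508) (nat_lit 0) (XT.nd (nat_lit 78) (nat_lit 0) (nat_lit 0) (XT.lf (nat_lit 0) (nat_lit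 1738479571) (nat_lit 836) (nat_lit 2298946527) (nat_lit 912) (nat_lit 7151159621) (nat_lit 339) (nat_lit 5) (nat_lit 350) (nat_lit 5) (nat_lit 351) (nat_lit 5) (nat_lit 344) (nat_lit 320) (nat_lit 236)) (XT.lf (nat_lit 0) (nat_lit 6676808072) (nat_lit 912) (nat_lit 388209984) (nat_lit 76) (nat_lit 4296972735) (nat_lit 339) (nat_lit 5) (nat_lit 351) (nat_lit 5) (nat_lit 340) (nat_lit 5) (nat_lit 345) (nat_lit 320) (nat_lit 235))) (XT.nd (nat_lit 78) (nat_lit 1672) (nat_lit 0) (XT.lf (nat_lit 0) (nat_lit 9012930708) (nat_lit 836) (nat_lit 420645256) (nat_lit 912) (nat_lit 2106272391) (nat_lit 328) (nat_lit 5) (nat_lit 339) (nat_lit 5) (nat_lit 340) (nat_lit 5) (nat_lit 346) (nat_lit 320) (nat_lit 234)) (XT.nd (nat_lit 78) (nat_lit 760) (nat_lit 0) (XT.lf (nat_lit 0) (nat_lit 598019957) (nat_lit 912) (nat_lit 4733050743) (nat_lit 76) (nat_lit 6390808701) (nat_lit 316) (nat_lit 5) (nat_lit 328) (nat_lit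 5) (nat_lit 317) (nat_lit 5) (nat_lit 347) (nat_lit 320) (nat_lit 233)) (XT.lf (nat_lit 0) (nat_lit 3382803317) (nat_lit 836) (nat_lit 6991094610) (nat_lit 76) (nat_lit 1534648770) (nat_lit 306) (nat_lit 5) (nat_lit 317) (nat_lit 5) (nat_lit 307) (nat_lit 5) (nat_lit 348) (nat_lit 320) (nat_lit 232))))))))
noncomputable def xc86 : XT := (XT.nd (nat_lit 1560) (nat_lit 5396) (nat_lit 0) (XT.nd (nat_lit 780) (nat_lit 4484) (nat_lit 0) (XT.nd (nat_lit 390) (nat_lit 2584) (nat_lit 0) (XT.nd (nat_lit 156) (nat_lit 1520) (nat_lit 0) (XT.nd (nat_lit 78) (nat_lit 684) (nat_lit 0) (XT.lf (nat_lit 0) (nat_lit 2787202259) (nat_lit 760) (nat_lit 3516399885) (nat_lit 836) (nat_lit 5796175375) (nat_lit 296) (nat_lit 5) (nat_lit 306) (nat_lit 5) (nat_lit 307) (nat_lit 5) (nat_lit 349) (nat_lit 320) (nat_lit 231)) (XT.lf (nat_lit 0) (nat_lit 607723378) (nat_lit 684) (nat_lit 8746138641) (nat_lit 760) (nat_lit 2942059075)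 (nat_lit 287) (nat_lit 5) (nat_lit 296) (nat_lit 5) (nat_lit 297) (nat_lit 5) (nat_lit 350) (nat_lit 320) (nat_lit 230))) (XT.nd (nat_lit 78) (nat_lit 1444) (nat_lit 0) (XT.lf (nat_lit 0) (nat_lit 52428874) (nat_lit 760) (nat_lit 1603015999) (nat_lit 76) (nat_lit 10841422015) (nat_lit 286) (nat_lit 5) (nat_lit 296) (nat_lit 5) (nat_lit 287) (nat_lit 5) (nat_lit 351) (nat_lit 320) (nat_lit 229)) (XT.nd (nat_lit 78) (nat_lit 684) (nat_lit 0) (XT.lf (nat_lit 0) (nat_lit 3160227662) (nat_lit 836) (nat_lit 3893507110) (nat_lit 76) (nat_lit 5648460014) (nat_lit 276) (nat_lit 5) (nat_lit 287) (nat_lit 5) (nat_lit 277) (nat_lit 5) (nat_lit 352) (nat_lit 320) (nat_lit 228)) (XT.lf (nat_lit 0) (nat_lit 6397815704) (nat_lit 760) (nat_lit 6231660463) (nat_lit 76) (nat_lit 283486525) (nat_lit 267) (nat_lit 5) (nat_lit 277) (nat_lit 5) (nat_lit 268) (nat_lit 5) (nat_lit 353) (nat_lit 320) (nat_lit 227))))) (XT.nd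 (nat_lit 156) (nat_lit 1216) (nat_lit 0) (XT.nd (nat_lit 78) (nat_lit 684) (nat_lit 0) (XT.lf (nat_lit 0) (nat_lit 4473904984) (nat_lit 684) (nat_lit 5331345383) (nat_lit 760) (nat_lit 3323359837) (nat_lit 258) (nat_lit 5) (nat_lit 267) (nat_lit 5) (nat_lit 268) (nat_lit 5) (nat_lit 354) (nat_lit 320) (nat_lit 226)) (XT.lf (nat_lit 0) (nat_lit 6569592) (nat_lit 684) (nat_lit 11133857735) (nat_lit 76) (nat_lit 2209476511) (nat_lit 249) (nat_lit 5) (nat_lit 258) (nat_lit 5) (nat_lit 250) (nat_lit 5) (nat_lit 355) (nat_lit 320) (nat_lit 225))) (XT.nd (nat_lit 78) (nat_lit 1216) (nat_lit 0) (XT.lf (nat_lit 0) (nat_lit 3457193626) (nat_lit 684) (nat_lit 137935591) (nat_lit 76) (nat_lit 9980958869) (nat_lit 249) (nat_lit 5) (nat_lit 258) (nat_lit 5) (nat_lit 250) (nat_lit 5) (nat_lit 356) (nat_lit 320) (nat_lit 224)) (XT.nd (nat_lit 78) (nat_lit 608) (nat_lit 0) (XT.lf (nat_lit 0) (nat_lit 7084136737) (nat_lit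 684) (nat_lit 2533021748) (nat_lit 76) (nat_lit 4190453194) (nat_lit 241) (nat_lit 5) (nat_lit 250) (nat_lit 5) (nat_lit 242) (nat_lit 5) (nat_lit 357) (nat_lit 320) (nat_lit 223)) (XT.lf (nat_lit 0) (nat_lit 9046540090) (nat_lit 608) (nat_lit 1829486473) (nat_lit 684) (nat_lit 3168941184) (nat_lit 233) (nat_lit 5) (nat_lit 241) (nat_lit 5) (nat_lit 242) (nat_lit 5) (nat_lit 358) (nat_lit 320) (nat_lit 222)))))) (XT.nd (nat_lit 390) (nat_lit 2052) (nat_lit 0) (XT.nd (nat_lit 156) (nat_lit 1216) (nat_lit 0) (XT.nd (nat_lit 78) (nat_lit 532) (nat_lit 0) (XT.lf (nat_lit 0) (nat_lit 560425697) (nat_lit 684) (nat_lit 7557943731) (nat_lit 76) (nat_lit 6169527176) (nat_lit 224) (nat_lit 5) (nat_lit 233) (nat_lit 5) (nat_lit 225) (nat_lit 5) (nat_lit 359) (nat_lit 320) (nat_lit 221)) (XT.lf (nat_lit 0) (nat_lit 4331154022) (nat_lit 532) (nat_lit 75523608) (nat_lit 608) (nat_lit 10130064423) (nat_lit 217)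 (nat_lit 5) (nat_lit 224) (nat_lit 5) (nat_lit 225) (nat_lit 5) (nat_lit 360) (nat_lit 320) (nat_lit 220))) (XT.nd (nat_lit 78) (nat_lit 608) (nat_lit 0) (XT.lf (nat_lit 0) (nat_lit 1825541472) (nat_lit 608) (nat_lit 6633361230) (nat_lit 684) (nat_lit 6332347011) (nat_lit 209) (nat_lit 5) (nat_lit 217) (nat_lit 5) (nat_lit 218) (nat_lit 5) (nat_lit 361) (nat_lit 320) (nat_lit 219)) (XT.nd (nat_lit 78) (nat_lit 608) (nat_lit 0) (XT.lf (nat_lit 0) (nat_lit 12687480929) (nat_lit 684) (nat_lit 739005618) (nat_lit 76) (nat_lit 1625818633) (nat_lit 209) (nat_lit 5) (nat_lit 218) (nat_lit 5) (nat_lit 210) (nat_lit 5) (nat_lit 362) (nat_lit 320) (nat_lit 218)) (XT.lf (nat_lit 0) (nat_lit 1796757841) (nat_lit 608) (nat_lit 3396510199) (nat_lit 76) (nat_lit 10125756321) (nat_lit 201) (nat_lit 5) (nat_lit 209) (nat_lit 5) (nat_lit 202) (nat_lit 5) (nat_lit 363) (nat_lit 320) (nat_lit 217))))) (XT.nd (nat_lit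 156) (nat_lit 1064) (nat_lit 0) (XT.nd (nat_lit 78) (nat_lit 456) (nat_lit 0) (XT.lf (nat_lit 0) (nat_lit 6115002283) (nat_lit 608) (nat_lit 6157811544) (nat_lit 76) (nat_lit 3319347466) (nat_lit 194) (nat_lit 5) (nat_lit 202) (nat_lit 5) (nat_lit 195) (nat_lit 5) (nat_lit 364) (nat_lit 320) (nat_lit 216)) (XT.lf (nat_lit 0) (nat_lit 6846683327) (nat_lit 456) (nat_lit 3794407318) (nat_lit 532) (nat_lit 5230843209) (nat_lit 188) (nat_lit 5) (nat_lit 194) (nat_lit 5) (nat_lit 195) (nat_lit 5) (nat_lit 365) (nat_lit 320) (nat_lit 215))) (XT.nd (nat_lit 78) (nat_lit 532) (nat_lit 0) (XT.lf (nat_lit 0) (nat_lit 4156777366) (nat_lit 532) (nat_lit 11223631967) (nat_lit 608) (nat_lit 778148542) (nat_lit 181) (nat_lit 5) (nat_lit 188) (nat_lit 5) (nat_lit 189) (nat_lit 5) (nat_lit 366) (nat_lit 320) (nat_lit 214)) (XT.nd (nat_lit 78) (nat_lit 0) (nat_lit 0) (XT.lf (nat_lit 0) (nat_lit 1340788970) (nat_lit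 456) (nat_lit 2489754135) (nat_lit 532) (nat_lit 12621302694) (nat_lit 174) (nat_lit 5) (nat_lit 180) (nat_lit 5) (nat_lit 181) (nat_lit 5) (nat_lit 367) (nat_lit 320) (nat_lit 213)) (XT.lf (nat_lit 0) (nat_lit 8668232990) (nat_lit 532) (nat_lit 1583808974) (nat_lit 76) (nat_lit 6499768023) (nat_lit 174) (nat_lit 5) (nat_lit 181) (nat_lit 5) (nat_lit 175) (nat_lit 5) (nat_lit 368) (nat_lit 320) (nat_lit 212))))))) (XT.nd (nat_lit 780) (nat_lit 1444) (nat_lit 0) (XT.nd (nat_lit 390) (nat_lit 1672) (nat_lit 0) (XT.nd (nat_lit 156) (nat_lit 1292) (nat_lit 0) (XT.nd (nat_lit 78) (nat_lit 532) (nat_lit 0) (XT.lf (nat_lit 0) (nat_lit 12465573714) (nat_lit 456) (nat_lit 1260871113) (nat_lit 532) (nat_lit 3332826943) (nat_lit 168) (nat_lit 5) (nat_lit 174) (nat_lit 5) (nat_lit 175) (nat_lit 5) (nat_lit 369) (nat_lit 320) (nat_lit 211)) (XT.lf (nat_lit 0) (nat_lit 1644107702) (nat_lit 532) (nat_lit 7758512919)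 (nat_lit 76) (nat_lit 7971057781) (nat_lit 161) (nat_lit 5) (nat_lit 168) (nat_lit 5) (nat_lit 162) (nat_lit 5) (nat_lit 370) (nat_lit 320) (nat_lit 210))) (XT.nd (nat_lit 78) (nat_lit 836) (nat_lit 0) (XT.lf (nat_lit 0) (nat_lit 6642256367) (nat_lit 456) (nat_lit 144461701) (nat_lit 532) (nat_lit 10909131612) (nat_lit 155) (nat_lit 5) (nat_lit 161) (nat_lit 5) (nat_lit 162) (nat_lit 5) (nat_lit 371) (nat_lit 320) (nat_lit 209)) (XT.nd (nat_lit 78) (nat_lit 456) (nat_lit 0) (XT.lf (nat_lit 0) (nat_lit 3509222101) (nat_lit 380) (nat_lit 8689940963) (nat_lit 456) (nat_lit 5826217730) (nat_lit 150) (nat_lit 5) (nat_lit 155) (nat_lit 5) (nat_lit 156) (nat_lit 5) (nat_lit 372) (nat_lit 320) (nat_lit 208)) (XT.lf (nat_lit 0) (nat_lit 264209872) (nat_lit 456) (nat_lit 17571844157) (nat_lit 532) (nat_lit 527508017) (nat_lit 144) (nat_lit 5) (nat_lit 150) (nat_lit 5) (nat_lit 151) (nat_lit 5) (nat_lit 373)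 (nat_lit 320) (nat_lit 207))))) (XT.nd (nat_lit 156) (nat_lit 1216) (nat_lit 0) (XT.nd (nat_lit 78) (nat_lit 380) (nat_lit 0) (XT.lf (nat_lit 0) (nat_lit 5002146758) (nat_lit 532) (nat_lit 3143764643) (nat_lit 76) (nat_lit 10562609643) (nat_lit 143) (nat_lit 5) (nat_lit 150) (nat_lit 5) (nat_lit 144) (nat_lit 5) (nat_lit 374) (nat_lit 320) (nat_lit 206)) (XT.lf (nat_lit 0) (nat_lit 10761767000) (nat_lit 456) (nat_lit 6682619958) (nat_lit 76) (nat_lit 1617952494) (nat_lit 138) (nat_lit 5) (nat_lit 144) (nat_lit 5) (nat_lit 139) (nat_lit 5) (nat_lit 375) (nat_lit 320) (nat_lit 205))) (XT.nd (nat_lit 78) (nat_lit 836) (nat_lit 0) (XT.lf (nat_lit 0) (nat_lit 9020524568) (nat_lit 380) (nat_lit 7788584366) (nat_lit 456) (nat_lit 2615369889) (nat_lit 133) (nat_lit 5) (nat_lit 138) (nat_lit 5) (nat_lit 139) (nat_lit 5) (nat_lit 376) (nat_lit 320) (nat_lit 204)) (XT.nd (nat_lit 78) (nat_lit 380) (nat_lit 0)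 (XT.lf (nat_lit 0) (nat_lit 3274584295) (nat_lit 456) (nat_lit 14298388340) (nat_lit 76) (nat_lit 2222559918) (nat_lit 127) (nat_lit 5) (nat_lit 133) (nat_lit 5) (nat_lit 128) (nat_lit 5) (nat_lit 377) (nat_lit 320) (nat_lit 203)) (XT.lf (nat_lit 0) (nat_lit 1766084476) (nat_lit 380) (nat_lit 7655362777) (nat_lit 456) (nat_lit 10753614724) (nat_lit 122) (nat_lit 5) (nat_lit 127) (nat_lit 5) (nat_lit 128) (nat_lit 5) (nat_lit 378) (nat_lit 320) (nat_lit 202)))))) (XT.nd (nat_lit 390) (nat_lit 76) (nat_lit 0) (XT.nd (nat_lit 156) (nat_lit 988) (nat_lit 0) (XT.nd (nat_lit 78) (nat_lit 380) (nat_lit 0) (XT.lf (nat_lit 0) (nat_lit 15848199098) (nat_lit 456) (nat_lit 2101359893) (nat_lit 76) (nat_lit 2614513185) (nat_lit 122) (nat_lit 5) (nat_lit 128) (nat_lit 5) (nat_lit 123) (nat_lit 5) (nat_lit 379) (nat_lit 320) (nat_lit 201)) (XT.lf (nat_lit 0) (nat_lit 1613373376) (nat_lit 380) (nat_lit 6161690812)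 (nat_lit 76) (nat_lit 13186895963) (nat_lit 117) (nat_lit 5) (nat_lit 122) (nat_lit 5) (nat_lit 118) (nat_lit 5) (nat_lit 380) (nat_lit 320) (nat_lit 200))) (XT.nd (nat_lit 78) (nat_lit 608) (nat_lit 0) (XT.lf (nat_lit 0) (nat_lit 8154606948) (nat_lit 456) (nat_lit 10437120692) (nat_lit 76) (nat_lit 2777714294) (nat_lit 112) (nat_lit 5) (nat_lit 118) (nat_lit 5) (nat_lit 113) (nat_lit 5) (nat_lit 381) (nat_lit 320) (nat_lit 199)) (XT.nd (nat_lit 78) (nat_lit 304) (nat_lit 0) (XT.lf (nat_lit 0) (nat_lit 6845596758) (nat_lit 304) (nat_lit 8167345025) (nat_lit 380) (nat_lit 6773793188) (nat_lit 108) (nat_lit 5) (nat_lit 112) (nat_lit 5) (nat_lit 113) (nat_lit 5) (nat_lit 382) (nat_lit 320) (nat_lit 198)) (XT.lf (nat_lit 0) (nat_lit 2564059281) (nat_lit 304) (nat_lit 19600164741) (nat_lit 380) (nat_lit 50582795) (nat_lit 104) (nat_lit 5) (nat_lit 108) (nat_lit 5) (nat_lit 109) (nat_lit 5) (nat_lit 383)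 (nat_lit 320) (nat_lit 197))))) (XT.nd (nat_lit 42042) (nat_lit 0) (nat_lit 29260) (XT.nd (nat_lit 41964) (nat_lit 0) (nat_lit 30628) (XT.lf (nat_lit 0) (nat_lit 6923588735) (nat_lit 380) (nat_lit 1981426603) (nat_lit 76) (nat_lit 13747028145) (nat_lit 103) (nat_lit 5) (nat_lit 108) (nat_lit 5) (nat_lit 104) (nat_lit 5) (nat_lit 384) (nat_lit 320) (nat_lit 196)) (XT.lf (nat_lit 0) (nat_lit 3192237403) (nat_lit 1444) (nat_lit 487644062) (nat_lit 1444) (nat_lit 487644062) (nat_lit 506) (nat_lit 3) (nat_lit 525) (nat_lit 3) (nat_lit 525) (nat_lit 5) (nat_lit 321) (nat_lit 321) (nat_lit 258))) (XT.nd (nat_lit 78) (nat_lit 1368) (nat_lit 0) (XT.lf (nat_lit 76) (nat_lit 5037362731) (nat_lit 0) (nat_lit 3053111550) (nat_lit 1444) (nat_lit 336615688) (nat_lit 507) (nat_lit 5) (nat_lit 506) (nat_lit 3) (nat_lit 525) (nat_lit 5) (nat_lit 322) (nat_lit 321) (nat_lit 257)) (XT.nd (nat_lit 78) (nat_lit 0) (nat_lit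 0) (XT.lf (nat_lit 0) (nat_lit 1279839379) (nat_lit 1444) (nat_lit 5815623840) (nat_lit 1520) (nat_lit 1426855340) (nat_lit 488) (nat_lit 5) (nat_lit 507) (nat_lit 5) (nat_lit 508) (nat_lit 5) (nat_lit 323) (nat_lit 321) (nat_lit 256)) (XT.lf (nat_lit 76) (nat_lit 360790999) (nat_lit 0) (nat_lit 2564907468) (nat_lit 1520) (nat_lit 5694980421) (nat_lit 489) (nat_lit 5) (nat_lit 488) (nat_lit 5) (nat_lit 508) (nat_lit 5) (nat_lit 324) (nat_lit 321) (nat_lit 255))))))))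
noncomputable def xc87 : XT := (XT.nd (nat_lit 1560) (nat_lit 11324) (nat_lit 0) (XT.nd (nat_lit 780) (nat_lit 7752) (nat_lit 0) (XT.nd (nat_lit 390) (nat_lit 1368) (nat_lit 0) (XT.nd (nat_lit 156) (nat_lit 1444) (nat_lit 0) (XT.nd (nat_lit 78) (nat_lit 0) (nat_lit 0) (XT.lf (nat_lit 0) (nat_lit 4615536367) (nat_lit 1444) (nat_lit 1967416794) (nat_lit 1520) (nat_lit 2139173018) (nat_lit 489) (nat_lit 5) (nat_lit 508) (nat_lit 5) (nat_lit 509) (nat_lit 5) (nat_lit 325) (nat_lit 321) (nat_lit 254)) (XT.lf (nat_lit 76) (nat_lit 4522579859) (nat_lit 0) (nat_lit 1823004635) (nat_lit 1520) (nat_lit 2481269482) (nat_lit 490) (nat_lit 5) (nat_lit 489) (nat_lit 5) (nat_lit 509) (nat_lit 5) (nat_lit 326) (nat_lit 321) (nat_lit 253))) (XT.nd (nat_lit 78) (nat_lit 1520) (nat_lit 0) (XT.lf (nat_lit 76) (nat_lit 2275354135) (nat_lit 0) (nat_lit 5844961844) (nat_lit 1520) (nat_lit 814578579) (nat_lit 491) (nat_lit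 5) (nat_lit 490) (nat_lit 5) (nat_lit 510) (nat_lit 5) (nat_lit 327) (nat_lit 321) (nat_lit 252)) (XT.nd (nat_lit 78) (nat_lit 0) (nat_lit 76) (XT.lf (nat_lit 76) (nat_lit 13281103) (nat_lit 0) (nat_lit 864243750) (nat_lit 1596) (nat_lit 8168814809) (nat_lit 471) (nat_lit 5) (nat_lit 470) (nat_lit 5) (nat_lit 491) (nat_lit 5) (nat_lit 328) (nat_lit 321) (nat_lit 251)) (XT.lf (nat_lit 0) (nat_lit 2629605841) (nat_lit 1520) (nat_lit 2251224993) (nat_lit 1596) (nat_lit 4279808546) (nat_lit 471) (nat_lit 5) (nat_lit 491) (nat_lit 5) (nat_lit 492) (nat_lit 5) (nat_lit 329) (nat_lit 321) (nat_lit 250))))) (XT.nd (nat_lit 156) (nat_lit 1520) (nat_lit 0) (XT.nd (nat_lit 78) (nat_lit 0) (nat_lit 0) (XT.lf (nat_lit 0) (nat_lit 4421737523) (nat_lit 1520) (nat_lit 4524186855) (nat_lit 1596) (nat_lit 332717802) (nat_lit 472) (nat_lit 5) (nat_lit 492) (nat_lit 5) (nat_lit 493) (nat_lit 5) (nat_lit 330) (nat_lit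 321) (nat_lit 249)) (XT.lf (nat_lit 76) (nat_lit 2567612122) (nat_lit 0) (nat_lit 3714711296) (nat_lit 1596) (nat_lit 3117591004) (nat_lit 473) (nat_lit 5) (nat_lit 472) (nat_lit 5) (nat_lit 493) (nat_lit 5) (nat_lit 331) (nat_lit 321) (nat_lit 248))) (XT.nd (nat_lit 78) (nat_lit 1596) (nat_lit 0) (XT.lf (nat_lit 76) (nat_lit 368551922) (nat_lit 0) (nat_lit 7825647146) (nat_lit 1596) (nat_lit 1330738808) (nat_lit 474) (nat_lit 5) (nat_lit 473) (nat_lit 5) (nat_lit 494) (nat_lit 5) (nat_lit 332) (nat_lit 321) (nat_lit 247)) (XT.nd (nat_lit 78) (nat_lit 0) (nat_lit 76) (XT.lf (nat_lit 0) (nat_lit 526691049) (nat_lit 1596) (nat_lit 1837472533) (nat_lit 1672) (nat_lit 7289030525) (nat_lit 452) (nat_lit 5) (nat_lit 473) (nat_lit 5) (nat_lit 474) (nat_lit 5) (nat_lit 333) (nat_lit 321) (nat_lit 246)) (XT.lf (nat_lit 0) (nat_lit 2434251969) (nat_lit 1596) (nat_lit 4073739793) (nat_lit 1672) (nat_lit 3276901366)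 (nat_lit 453) (nat_lit 5) (nat_lit 474) (nat_lit 5) (nat_lit 475) (nat_lit 5) (nat_lit 334) (nat_lit 321) (nat_lit 245)))))) (XT.nd (nat_lit 390) (nat_lit 4636) (nat_lit 0) (XT.nd (nat_lit 156) (nat_lit 3192) (nat_lit 0) (XT.nd (nat_lit 78) (nat_lit 0) (nat_lit 76) (XT.lf (nat_lit 76) (nat_lit 3587651330) (nat_lit 0) (nat_lit 817837380) (nat_lit 1672) (nat_lit 5514945607) (nat_lit 454) (nat_lit 5) (nat_lit 453) (nat_lit 5) (nat_lit 475) (nat_lit 5) (nat_lit 335) (nat_lit 321) (nat_lit 244)) (XT.lf (nat_lit 76) (nat_lit 1425922828) (nat_lit 0) (nat_lit 5035700177) (nat_lit 1672) (nat_lit 3597923115) (nat_lit 455) (nat_lit 5) (nat_lit 454) (nat_lit 5) (nat_lit 476) (nat_lit 5) (nat_lit 336) (nat_lit 321) (nat_lit 243))) (XT.nd (nat_lit 78) (nat_lit 3344) (nat_lit 0) (XT.lf (nat_lit 0) (nat_lit 8590527108) (nat_lit 1596) (nat_lit 744361050) (nat_lit 76) (nat_lit 867740423) (nat_lit 455) (nat_lit 5) (nat_lit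 476) (nat_lit 5) (nat_lit 456) (nat_lit 5) (nat_lit 337) (nat_lit 321) (nat_lit 242)) (XT.nd (nat_lit 78) (nat_lit 1672) (nat_lit 0) (XT.lf (nat_lit 0) (nat_lit 467987122) (nat_lit 1672) (nat_lit 2941546777) (nat_lit 76) (nat_lit 6939623952) (nat_lit 433) (nat_lit 5) (nat_lit 455) (nat_lit 5) (nat_lit 434) (nat_lit 5) (nat_lit 338) (nat_lit 321) (nat_lit 241)) (XT.lf (nat_lit 0) (nat_lit 2605353380) (nat_lit 1748) (nat_lit 5178565197) (nat_lit 76) (nat_lit 2715633336) (nat_lit 411) (nat_lit 5) (nat_lit 434) (nat_lit 5) (nat_lit 412) (nat_lit 5) (nat_lit 339) (nat_lit 321) (nat_lit 240))))) (XT.nd (nat_lit 156) (nat_lit 1824) (nat_lit 0) (XT.nd (nat_lit 78) (nat_lit 1064) (nat_lit 0) (XT.lf (nat_lit 0) (nat_lit 3202014121) (nat_lit 1748) (nat_lit 1628538897) (nat_lit 1824) (nat_lit 5823447592) (nat_lit 388) (nat_lit 5) (nat_lit 411) (nat_lit 5) (nat_lit 412) (nat_lit 5) (nat_lit 340) (nat_lit 321)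 (nat_lit 239)) (XT.lf (nat_lit 0) (nat_lit 1040422047) (nat_lit 1064) (nat_lit 6115786749) (nat_lit 1140) (nat_lit 3656216537) (nat_lit 374) (nat_lit 5) (nat_lit 388) (nat_lit 5) (nat_lit 389) (nat_lit 5) (nat_lit 341) (nat_lit 321) (nat_lit 238))) (XT.nd (nat_lit 78) (nat_lit 1824) (nat_lit 0) (XT.lf (nat_lit 0) (nat_lit 9576641896) (nat_lit 1140) (nat_lit 1132680165) (nat_lit 76) (nat_lit 265796666) (nat_lit 374) (nat_lit 5) (nat_lit 389) (nat_lit 5) (nat_lit 375) (nat_lit 5) (nat_lit 342) (nat_lit 321) (nat_lit 237)) (XT.nd (nat_lit 78) (nat_lit 836) (nat_lit 0) (XT.lf (nat_lit 0) (nat_lit 969754366) (nat_lit 988) (nat_lit 3354993383) (nat_lit 76) (nat_lit 6816741768) (nat_lit 361) (nat_lit 5) (nat_lit 374) (nat_lit 5) (nat_lit 362) (nat_lit 5) (nat_lit 343) (nat_lit 321) (nat_lit 236)) (XT.lf (nat_lit 0) (nat_lit 3413592529) (nat_lit 912) (nat_lit 5620065947) (nat_lit 76) (nat_lit 2278551744)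 (nat_lit 350) (nat_lit 5) (nat_lit 362) (nat_lit 5) (nat_lit 351) (nat_lit 5) (nat_lit 344) (nat_lit 321) (nat_lit 235))))))) (XT.nd (nat_lit 780) (nat_lit 5016) (nat_lit 0) (XT.nd (nat_lit 390) (nat_lit 2964) (nat_lit 0) (XT.nd (nat_lit 156) (nat_lit 1672) (nat_lit 0) (XT.nd (nat_lit 78) (nat_lit 836) (nat_lit 0) (XT.lf (nat_lit 0) (nat_lit 3552284099) (nat_lit 836) (nat_lit 2417863511) (nat_lit 912) (nat_lit 5517131327) (nat_lit 339) (nat_lit 5) (nat_lit 350) (nat_lit 5) (nat_lit 351) (nat_lit 5) (nat_lit 345) (nat_lit 321) (nat_lit 234)) (XT.lf (nat_lit 0) (nat_lit 1364582985) (nat_lit 836) (nat_lit 7279907971) (nat_lit 912) (nat_lit 3022300939) (nat_lit 328) (nat_lit 5) (nat_lit 339) (nat_lit 5) (nat_lit 340) (nat_lit 5) (nat_lit 346) (nat_lit 321) (nat_lit 233))) (XT.nd (nat_lit 78) (nat_lit 1672) (nat_lit 0) (XT.lf (nat_lit 0) (nat_lit 11001525570) (nat_lit 836) (nat_lit 433513280) (nat_lit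 912) (nat_lit 415945507) (nat_lit 328) (nat_lit 5) (nat_lit 339) (nat_lit 5) (nat_lit 340) (nat_lit 5) (nat_lit 347) (nat_lit 321) (nat_lit 232)) (XT.nd (nat_lit 78) (nat_lit 760) (nat_lit 0) (XT.lf (nat_lit 0) (nat_lit 2307345810) (nat_lit 912) (nat_lit 3127084243) (nat_lit 76) (nat_lit 6604620935) (nat_lit 316) (nat_lit 5) (nat_lit 328) (nat_lit 5) (nat_lit 317) (nat_lit 5) (nat_lit 348) (nat_lit 321) (nat_lit 231)) (XT.lf (nat_lit 0) (nat_lit 5138004351) (nat_lit 836) (nat_lit 5447954840) (nat_lit 76) (nat_lit 1646131617) (nat_lit 306) (nat_lit 5) (nat_lit 317) (nat_lit 5) (nat_lit 307) (nat_lit 5) (nat_lit 349) (nat_lit 321) (nat_lit 230))))) (XT.nd (nat_lit 156) (nat_lit 1520) (nat_lit 0) (XT.nd (nat_lit 78) (nat_lit 684) (nat_lit 0) (XT.lf (nat_lit 0) (nat_lit 4595252660) (nat_lit 760) (nat_lit 3514204143) (nat_lit 836) (nat_lit 4320359742) (nat_lit 296) (nat_lit 5) (nat_lit 306) (nat_lit 5)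 (nat_lit 307) (nat_lit 5) (nat_lit 350) (nat_lit 321) (nat_lit 229)) (XT.lf (nat_lit 0) (nat_lit 2354144333) (nat_lit 684) (nat_lit 8861889801) (nat_lit 760) (nat_lit 1416532140) (nat_lit 287) (nat_lit 5) (nat_lit 296) (nat_lit 5) (nat_lit 297) (nat_lit 5) (nat_lit 351) (nat_lit 321) (nat_lit 228))) (XT.nd (nat_lit 78) (nat_lit 684) (nat_lit 0) (XT.lf (nat_lit 0) (nat_lit 48504343) (nat_lit 760) (nat_lit 1552048803) (nat_lit 836) (nat_lit 11239716354) (nat_lit 276) (nat_lit 5) (nat_lit 286) (nat_lit 5) (nat_lit 287) (nat_lit 5) (nat_lit 352) (nat_lit 321) (nat_lit 227)) (XT.nd (nat_lit 78) (nat_lit 684) (nat_lit 0) (XT.lf (nat_lit 0) (nat_lit 4768121530) (nat_lit 836) (nat_lit 2309139406) (nat_lit 76) (nat_lit 5975182256) (nat_lit 276) (nat_lit 5) (nat_lit 287) (nat_lit 5) (nat_lit 277) (nat_lit 5) (nat_lit 353) (nat_lit 321) (nat_lit 226)) (XT.lf (nat_lit 0) (nat_lit 8070890236) (nat_lit 760) (nat_lit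 4716157279) (nat_lit 76) (nat_lit 483141746) (nat_lit 267) (nat_lit 5) (nat_lit 277) (nat_lit 5) (nat_lit 268) (nat_lit 5) (nat_lit 354) (nat_lit 321) (nat_lit 225)))))) (XT.nd (nat_lit 390) (nat_lit 2432) (nat_lit 0) (XT.nd (nat_lit 156) (nat_lit 1216) (nat_lit 0) (XT.nd (nat_lit 78) (nat_lit 684) (nat_lit 0) (XT.lf (nat_lit 0) (nat_lit 6282954855) (nat_lit 684) (nat_lit 5265327208) (nat_lit 760) (nat_lit 1944685168) (nat_lit 258) (nat_lit 5) (nat_lit 267) (nat_lit 5) (nat_lit 268) (nat_lit 5) (nat_lit 355) (nat_lit 321) (nat_lit 224)) (XT.lf (nat_lit 0) (nat_lit 1435640813) (nat_lit 684) (nat_lit 9773145976) (nat_lit 76) (nat_lit 2512538111) (nat_lit 249) (nat_lit 5) (nat_lit 258) (nat_lit 5) (nat_lit 250) (nat_lit 5) (nat_lit 356) (nat_lit 321) (nat_lit 223))) (XT.nd (nat_lit 78) (nat_lit 608) (nat_lit 0) (XT.lf (nat_lit 0) (nat_lit 1523270807) (nat_lit 608) (nat_lit 3434785152) (nat_lit 684) (nat_lit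 8996887792) (nat_lit 241) (nat_lit 5) (nat_lit 249) (nat_lit 5) (nat_lit 250) (nat_lit 5) (nat_lit 357) (nat_lit 321) (nat_lit 222)) (XT.nd (nat_lit 78) (nat_lit 608) (nat_lit 0) (XT.lf (nat_lit 0) (nat_lit 8655717857) (nat_lit 684) (nat_lit 964419475) (nat_lit 76) (nat_lit 4574051607) (nat_lit 241) (nat_lit 5) (nat_lit 250) (nat_lit 5) (nat_lit 242) (nat_lit 5) (nat_lit 358) (nat_lit 321) (nat_lit 221)) (XT.lf (nat_lit 0) (nat_lit 10935847652) (nat_lit 608) (nat_lit 1596437095) (nat_lit 684) (nat_lit 1906976224) (nat_lit 233) (nat_lit 5) (nat_lit 241) (nat_lit 5) (nat_lit 242) (nat_lit 5) (nat_lit 359) (nat_lit 321) (nat_lit 220))))) (XT.nd (nat_lit 156) (nat_lit 1216) (nat_lit 0) (XT.nd (nat_lit 78) (nat_lit 532) (nat_lit 0) (XT.lf (nat_lit 0) (nat_lit 1889858606) (nat_lit 684) (nat_lit 6150363323) (nat_lit 76) (nat_lit 6649624883) (nat_lit 224) (nat_lit 5) (nat_lit 233) (nat_lit 5) (nat_lit 225)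 (nat_lit 5) (nat_lit 360) (nat_lit 321) (nat_lit 219)) (XT.lf (nat_lit 0) (nat_lit 5825297290) (nat_lit 608) (nat_lit 8879425564) (nat_lit 76) (nat_lit 241971437) (nat_lit 217) (nat_lit 5) (nat_lit 225) (nat_lit 5) (nat_lit 218) (nat_lit 5) (nat_lit 361) (nat_lit 321) (nat_lit 218))) (XT.nd (nat_lit 78) (nat_lit 608) (nat_lit 0) (XT.lf (nat_lit 0) (nat_lit 3485658342) (nat_lit 608) (nat_lit 6486875597) (nat_lit 684) (nat_lit 5236846625) (nat_lit 209) (nat_lit 5) (nat_lit 217) (nat_lit 5) (nat_lit 218) (nat_lit 5) (nat_lit 362) (nat_lit 321) (nat_lit 217)) (XT.nd (nat_lit 78) (nat_lit 76) (nat_lit 0) (XT.lf (nat_lit 0) (nat_lit 830998773) (nat_lit 532) (nat_lit 13467848856) (nat_lit 608) (nat_lit 1180014427) (nat_lit 202) (nat_lit 5) (nat_lit 209) (nat_lit 5) (nat_lit 210) (nat_lit 5) (nat_lit 363) (nat_lit 321) (nat_lit 216)) (XT.lf (nat_lit 0) (nat_lit 3058744075) (nat_lit 608) (nat_lit 1926350880)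 (nat_lit 76) (nat_lit 10768960175) (nat_lit 201) (nat_lit 5) (nat_lit 209) (nat_lit 5) (nat_lit 202) (nat_lit 5) (nat_lit 364) (nat_lit 321) (nat_lit 215))))))))
noncomputable def xc88 : XT := (XT.nd (nat_lit 43524) (nat_lit 0) (nat_lit 21660) (XT.nd (nat_lit 780) (nat_lit 3040) (nat_lit 0) (XT.nd (nat_lit 390) (nat_lit 2356) (nat_lit 0) (XT.nd (nat_lit 156) (nat_lit 1064) (nat_lit 0) (XT.nd (nat_lit 78) (nat_lit 456) (nat_lit 0) (XT.lf (nat_lit 0) (nat_lit 7483750991) (nat_lit 608) (nat_lit 4774330763) (nat_lit 76) (nat_lit 3777771131) (nat_lit 194) (nat_lit 5) (nat_lit 202) (nat_lit 5) (nat_lit 195) (nat_lit 5) (nat_lit 365) (nat_lit 321) (nat_lit 214)) (XT.lf (nat_lit 0) (nat_lit 8594856526) (nat_lit 456) (nat_lit 3526258920) (nat_lit 532) (nat_lit 4203404005) (nat_lit 188) (nat_lit 5) (nat_lit 194) (nat_lit 5) (nat_lit 195) (nat_lit 5) (nat_lit 366) (nat_lit 321) (nat_lit 213))) (XT.nd (nat_lit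 78) (nat_lit 456) (nat_lit 0) (XT.lf (nat_lit 0) (nat_lit 356285293) (nat_lit 608) (nat_lit 10802550936) (nat_lit 76) (nat_lit 5461297726) (nat_lit 180) (nat_lit 5) (nat_lit 188) (nat_lit 5) (nat_lit 181) (nat_lit 5) (nat_lit 367) (nat_lit 321) (nat_lit 212)) (XT.nd (nat_lit 78) (nat_lit 0) (nat_lit 0) (XT.lf (nat_lit 0) (nat_lit 2909878717) (nat_lit 456) (nat_lit 2159358131) (nat_lit 532) (nat_lit 11853359260) (nat_lit 174) (nat_lit 5) (nat_lit 180) (nat_lit 5) (nat_lit 181) (nat_lit 5) (nat_lit 368) (nat_lit 321) (nat_lit 211)) (XT.lf (nat_lit 0) (nat_lit 10021879547) (nat_lit 532) (nat_lit 127399904) (nat_lit 76) (nat_lit 7082892926) (nat_lit 174) (nat_lit 5) (nat_lit 181) (nat_lit 5) (nat_lit 175) (nat_lit 5) (nat_lit 369) (nat_lit 321) (nat_lit 210))))) (XT.nd (nat_lit 156) (nat_lit 1368) (nat_lit 0) (XT.nd (nat_lit 78) (nat_lit 532) (nat_lit 0) (XT.lf (nat_lit 0) (nat_lit 14319064895) (nat_lit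 456) (nat_lit 890526479) (nat_lit 532) (nat_lit 2339720882) (nat_lit 168) (nat_lit 5) (nat_lit 174) (nat_lit 5) (nat_lit 175) (nat_lit 5) (nat_lit 370) (nat_lit 321) (nat_lit 209)) (XT.lf (nat_lit 0) (nat_lit 2752991157) (nat_lit 532) (nat_lit 6502593338) (nat_lit 76) (nat_lit 8617817413) (nat_lit 161) (nat_lit 5) (nat_lit 168) (nat_lit 5) (nat_lit 162) (nat_lit 5) (nat_lit 371) (nat_lit 321) (nat_lit 208))) (XT.nd (nat_lit 78) (nat_lit 912) (nat_lit 0) (XT.lf (nat_lit 0) (nat_lit 8030329353) (nat_lit 532) (nat_lit 9901428778) (nat_lit 76) (nat_lit 273879813) (nat_lit 155) (nat_lit 5) (nat_lit 162) (nat_lit 5) (nat_lit 156) (nat_lit 5) (nat_lit 372) (nat_lit 321) (nat_lit 207)) (XT.nd (nat_lit 78) (nat_lit 532) (nat_lit 0) (XT.lf (nat_lit 0) (nat_lit 5073248249) (nat_lit 380) (nat_lit 8512017013) (nat_lit 456) (nat_lit 4960195738) (nat_lit 150) (nat_lit 5) (nat_lit 155) (nat_lit 5) (nat_lit 156) (nat_lit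 5) (nat_lit 373) (nat_lit 321) (nat_lit 206)) (XT.lf (nat_lit 0) (nat_lit 473310629) (nat_lit 532) (nat_lit 17172496774) (nat_lit 76) (nat_lit 1248276448) (nat_lit 143) (nat_lit 5) (nat_lit 150) (nat_lit 5) (nat_lit 144) (nat_lit 5) (nat_lit 374) (nat_lit 321) (nat_lit 205)))))) (XT.nd (nat_lit 390) (nat_lit 1444) (nat_lit 0) (XT.nd (nat_lit 156) (nat_lit 1216) (nat_lit 0) (XT.nd (nat_lit 78) (nat_lit 380) (nat_lit 0) (XT.lf (nat_lit 0) (nat_lit 6132325699) (nat_lit 532) (nat_lit 1814477305) (nat_lit 76) (nat_lit 11303113858) (nat_lit 143) (nat_lit 5) (nat_lit 150) (nat_lit 5) (nat_lit 144) (nat_lit 5) (nat_lit 375) (nat_lit 321) (nat_lit 204)) (XT.lf (nat_lit 0) (nat_lit 12048136280) (nat_lit 456) (nat_lit 5465987025) (nat_lit 76) (nat_lit 2100565982) (nat_lit 138) (nat_lit 5) (nat_lit 144) (nat_lit 5) (nat_lit 139) (nat_lit 5) (nat_lit 376) (nat_lit 321) (nat_lit 203))) (XT.nd (nat_lit 78) (nat_lit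 836) (nat_lit 0) (XT.lf (nat_lit 0) (nat_lit 10685260885) (nat_lit 380) (nat_lit 7572625561) (nat_lit 456) (nat_lit 1730193915) (nat_lit 133) (nat_lit 5) (nat_lit 138) (nat_lit 5) (nat_lit 139) (nat_lit 5) (nat_lit 377) (nat_lit 321) (nat_lit 202)) (XT.nd (nat_lit 78) (nat_lit 380) (nat_lit 0) (XT.lf (nat_lit 0) (nat_lit 4308042502) (nat_lit 456) (nat_lit 13327227148) (nat_lit 76) (nat_lit 2735193416) (nat_lit 127) (nat_lit 5) (nat_lit 133) (nat_lit 5) (nat_lit 128) (nat_lit 5) (nat_lit 378) (nat_lit 321) (nat_lit 201)) (XT.lf (nat_lit 0) (nat_lit 3196464685) (nat_lit 380) (nat_lit 7424550206) (nat_lit 456) (nat_lit 10140736141) (nat_lit 122) (nat_lit 5) (nat_lit 127) (nat_lit 5) (nat_lit 128) (nat_lit 5) (nat_lit 379) (nat_lit 321) (nat_lit 200))))) (XT.nd (nat_lit 156) (nat_lit 1064) (nat_lit 0) (XT.nd (nat_lit 78) (nat_lit 380) (nat_lit 0) (XT.lf (nat_lit 0) (nat_lit 17216765381) (nat_lit 456)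 (nat_lit 812001874) (nat_lit 76) (nat_lit 3134146893) (nat_lit 122) (nat_lit 5) (nat_lit 128) (nat_lit 5) (nat_lit 123) (nat_lit 5) (nat_lit 380) (nat_lit 321) (nat_lit 199)) (XT.lf (nat_lit 0) (nat_lit 2543528197) (nat_lit 380) (nat_lit 5004158446) (nat_lit 76) (nat_lit 14025289943) (nat_lit 117) (nat_lit 5) (nat_lit 122) (nat_lit 5) (nat_lit 118) (nat_lit 5) (nat_lit 381) (nat_lit 321) (nat_lit 198))) (XT.nd (nat_lit 78) (nat_lit 684) (nat_lit 0) (XT.lf (nat_lit 0) (nat_lit 9266851259) (nat_lit 456) (nat_lit 9415096007) (nat_lit 76) (nat_lit 3311024545) (nat_lit 112) (nat_lit 5) (nat_lit 118) (nat_lit 5) (nat_lit 113) (nat_lit 5) (nat_lit 382) (nat_lit 321) (nat_lit 197)) (XT.nd (nat_lit 78) (nat_lit 380) (nat_lit 0) (XT.lf (nat_lit 0) (nat_lit 8364441934) (nat_lit 304) (nat_lit 7949752090) (nat_lit 380) (nat_lit 6108930319) (nat_lit 108) (nat_lit 5) (nat_lit 112) (nat_lit 5) (nat_lit 113) (nat_lit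 5) (nat_lit 383) (nat_lit 321) (nat_lit 196)) (XT.lf (nat_lit 0) (nat_lit 791794473) (nat_lit 380) (nat_lit 18922393645) (nat_lit 76) (nat_lit 3150019454) (nat_lit 103) (nat_lit 5) (nat_lit 108) (nat_lit 5) (nat_lit 104) (nat_lit 5) (nat_lit 384) (nat_lit 321) (nat_lit 195))))))) (XT.nd (nat_lit 780) (nat_lit 6156) (nat_lit 0) (XT.nd (nat_lit 390) (nat_lit 1368) (nat_lit 0) (XT.nd (nat_lit 156) (nat_lit 0) (nat_lit 76) (XT.nd (nat_lit 78) (nat_lit 0) (nat_lit 0) (XT.lf (nat_lit 0) (nat_lit 292978478) (nat_lit 0) (nat_lit 292978478) (nat_lit 1444) (nat_lit 3674418706) (nat_lit 487) (nat_lit 5) (nat_lit 487) (nat_lit 3) (nat_lit 506) (nat_lit 3) (nat_lit 322) (nat_lit 322) (nat_lit 256)) (XT.lf (nat_lit 0) (nat_lit 2723372897) (nat_lit 1444) (nat_lit 1878436554) (nat_lit 1520) (nat_lit 4015352694) (nat_lit 487) (nat_lit 5) (nat_lit 506) (nat_lit 3) (nat_lit 507) (nat_lit 5) (nat_lit 323) (nat_lit 322)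 (nat_lit 255))) (XT.nd (nat_lit 78) (nat_lit 0) (nat_lit 0) (XT.lf (nat_lit 0) (nat_lit 4295672766) (nat_lit 1444) (nat_lit 4335228417) (nat_lit 1520) (nat_lit 86106374) (nat_lit 488) (nat_lit 5) (nat_lit 507) (nat_lit 5) (nat_lit 508) (nat_lit 5) (nat_lit 324) (nat_lit 322) (nat_lit 254)) (XT.nd (nat_lit 78) (nat_lit 0) (nat_lit 76) (XT.lf (nat_lit 76) (nat_lit 1999630663) (nat_lit 0) (nat_lit 3915125623) (nat_lit 1520) (nat_lit 2905127141) (nat_lit 489) (nat_lit 5) (nat_lit 488) (nat_lit 5) (nat_lit 508) (nat_lit 5) (nat_lit 325) (nat_lit 322) (nat_lit 253)) (XT.lf (nat_lit 0) (nat_lit 7562759686) (nat_lit 1444) (nat_lit 380129898) (nat_lit 1520) (nat_lit 983375633) (nat_lit 489) (nat_lit 5) (nat_lit 508) (nat_lit 5) (nat_lit 509) (nat_lit 5) (nat_lit 326) (nat_lit 322) (nat_lit 252))))) (XT.nd (nat_lit 156) (nat_lit 0) (nat_lit 76) (XT.nd (nat_lit 78) (nat_lit 0) (nat_lit 76) (XT.lf (nat_lit 0)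 (nat_lit 234697292) (nat_lit 1520) (nat_lit 2759286835) (nat_lit 1596) (nat_lit 6041585006) (nat_lit 469) (nat_lit 5) (nat_lit 489) (nat_lit 5) (nat_lit 490) (nat_lit 5) (nat_lit 327) (nat_lit 322) (nat_lit 251)) (XT.lf (nat_lit 0) (nat_lit 1852303890) (nat_lit 1520) (nat_lit 5161397867) (nat_lit 1596) (nat_lit 2134495081) (nat_lit 470) (nat_lit 5) (nat_lit 490) (nat_lit 5) (nat_lit 491) (nat_lit 5) (nat_lit 328) (nat_lit 322) (nat_lit 250))) (XT.nd (nat_lit 78) (nat_lit 0) (nat_lit 76) (XT.lf (nat_lit 76) (nat_lit 1678702360) (nat_lit 0) (nat_lit 1838207199) (nat_lit 1596) (nat_lit 5747348255) (nat_lit 471) (nat_lit 5) (nat_lit 470) (nat_lit 5) (nat_lit 491) (nat_lit 5) (nat_lit 329) (nat_lit 322) (nat_lit 249)) (XT.nd (nat_lit 78) (nat_lit 0) (nat_lit 0) (XT.lf (nat_lit 0) (nat_lit 5239468462) (nat_lit 1520) (nat_lit 644344129) (nat_lit 1596) (nat_lit 3499850888) (nat_lit 471) (nat_lit 5) (nat_lit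 491) (nat_lit 5) (nat_lit 492) (nat_lit 5) (nat_lit 330) (nat_lit 322) (nat_lit 248)) (XT.lf (nat_lit 76) (nat_lit 6546640856) (nat_lit 0) (nat_lit 473445989) (nat_lit 1596) (nat_lit 2486459304) (nat_lit 472) (nat_lit 5) (nat_lit 471) (nat_lit 5) (nat_lit 492) (nat_lit 5) (nat_lit 331) (nat_lit 322) (nat_lit 247)))))) (XT.nd (nat_lit 390) (nat_lit 4864) (nat_lit 0) (XT.nd (nat_lit 156) (nat_lit 0) (nat_lit 0) (XT.nd (nat_lit 78) (nat_lit 1520) (nat_lit 0) (XT.lf (nat_lit 76) (nat_lit 4320091111) (nat_lit 0) (nat_lit 4552476526) (nat_lit 1596) (nat_lit 760200618) (nat_lit 473) (nat_lit 5) (nat_lit 472) (nat_lit 5) (nat_lit 493) (nat_lit 5) (nat_lit 332) (nat_lit 322) (nat_lit 246)) (XT.lf (nat_lit 0) (nat_lit 1002149727) (nat_lit 1596) (nat_lit 7688575044) (nat_lit 1672) (nat_lit 1071987802) (nat_lit 452) (nat_lit 5) (nat_lit 473) (nat_lit 5) (nat_lit 474) (nat_lit 5) (nat_lit 333) (nat_lit 322) (nat_lit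 245))) (XT.nd (nat_lit 78) (nat_lit 0) (nat_lit 76) (XT.lf (nat_lit 0) (nat_lit 2828738610) (nat_lit 1596) (nat_lit 209486759) (nat_lit 1672) (nat_lit 6857815605) (nat_lit 452) (nat_lit 5) (nat_lit 473) (nat_lit 5) (nat_lit 474) (nat_lit 5) (nat_lit 334) (nat_lit 322) (nat_lit 244)) (XT.nd (nat_lit 78) (nat_lit 0) (nat_lit 0) (XT.lf (nat_lit 0) (nat_lit 4733956507) (nat_lit 1596) (nat_lit 2490815438) (nat_lit 1672) (nat_lit 2808140244) (nat_lit 453) (nat_lit 5) (nat_lit 474) (nat_lit 5) (nat_lit 475) (nat_lit 5) (nat_lit 335) (nat_lit 322) (nat_lit 243)) (XT.lf (nat_lit 76) (nat_lit 5372753605) (nat_lit 0) (nat_lit 1337613342) (nat_lit 1672) (nat_lit 3463260892) (nat_lit 454) (nat_lit 5) (nat_lit 453) (nat_lit 5) (nat_lit 475) (nat_lit 5) (nat_lit 336) (nat_lit 322) (nat_lit 242))))) (XT.nd (nat_lit 156) (nat_lit 3420) (nat_lit 0) (XT.nd (nat_lit 78) (nat_lit 1596) (nat_lit 0) (XT.lf (nat_lit 76)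 (nat_lit 3165820365) (nat_lit 0) (nat_lit 5606979036) (nat_lit 1672) (nat_lit 1545249427) (nat_lit 455) (nat_lit 5) (nat_lit 454) (nat_lit 5) (nat_lit 476) (nat_lit 5) (nat_lit 337) (nat_lit 322) (nat_lit 241)) (XT.lf (nat_lit 0) (nat_lit 434946175) (nat_lit 1672) (nat_lit 9531506378) (nat_lit 76) (nat_lit 500105847) (nat_lit 433) (nat_lit 5) (nat_lit 455) (nat_lit 5) (nat_lit 434) (nat_lit 5) (nat_lit 338) (nat_lit 322) (nat_lit 240))) (XT.nd (nat_lit 78) (nat_lit 3420) (nat_lit 0) (XT.lf (nat_lit 0) (nat_lit 2500192593) (nat_lit 1672) (nat_lit 1337202390) (nat_lit 76) (nat_lit 6781008280) (nat_lit 433) (nat_lit 5) (nat_lit 455) (nat_lit 5) (nat_lit 434) (nat_lit 5) (nat_lit 339) (nat_lit 322) (nat_lit 239)) (XT.nd (nat_lit 78) (nat_lit 1748) (nat_lit 0) (XT.lf (nat_lit 0) (nat_lit 4651728756) (nat_lit 1748) (nat_lit 3626566259) (nat_lit 76) (nat_lit 2496038375) (nat_lit 411) (nat_lit 5) (nat_lit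 434) (nat_lit 5) (nat_lit 412) (nat_lit 5) (nat_lit 340) (nat_lit 322) (nat_lit 238)) (XT.lf (nat_lit 0) (nat_lit 4977730617) (nat_lit 1748) (nat_lit 1919532564) (nat_lit 1824) (nat_lit 4037105281) (nat_lit 388) (nat_lit 5) (nat_lit 411) (nat_lit 5) (nat_lit 412) (nat_lit 5) (nat_lit 341) (nat_lit 322) (nat_lit 237))))))))
noncomputable def xc89 : XT := (XT.nd (nat_lit 1560) (nat_lit 8056) (nat_lit 0) (XT.nd (nat_lit 780) (nat_lit 5472) (nat_lit 0) (XT.nd (nat_lit 390) (nat_lit 3268) (nat_lit 0) (XT.nd (nat_lit 156) (nat_lit 1672) (nat_lit 0) (XT.nd (nat_lit 78) (nat_lit 988) (nat_lit 0) (XT.lf (nat_lit 0) (nat_lit 2764202316) (nat_lit 1064) (nat_lit 6481974691) (nat_lit 1140) (nat_lit 1852322927) (nat_lit 374) (nat_lit 5) (nat_lit 388) (nat_lit 5) (nat_lit 389) (nat_lit 5) (nat_lit 342) (nat_lit 322) (nat_lit 236)) (XT.lf (nat_lit 0) (nat_lit 414190014) (nat_lit 988) (nat_lit 10748083118) (nat_lit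 76) (nat_lit 104817258) (nat_lit 361) (nat_lit 5) (nat_lit 374) (nat_lit 5) (nat_lit 362) (nat_lit 5) (nat_lit 343) (nat_lit 322) (nat_lit 235))) (XT.nd (nat_lit 78) (nat_lit 1672) (nat_lit 0) (XT.lf (nat_lit 0) (nat_lit 2788609974) (nat_lit 988) (nat_lit 1776803875) (nat_lit 76) (nat_lit 6873792716) (nat_lit 361) (nat_lit 5) (nat_lit 374) (nat_lit 5) (nat_lit 362) (nat_lit 5) (nat_lit 344) (nat_lit 322) (nat_lit 234)) (XT.nd (nat_lit 78) (nat_lit 836) (nat_lit 0) (XT.lf (nat_lit 0) (nat_lit 5263729361) (nat_lit 912) (nat_lit 4100759398) (nat_lit 76) (nat_lit 2251422139) (nat_lit 350) (nat_lit 5) (nat_lit 362) (nat_lit 5) (nat_lit 351) (nat_lit 5) (nat_lit 345) (nat_lit 322) (nat_lit 233)) (XT.lf (nat_lit 0) (nat_lit 5319376839) (nat_lit 836) (nat_lit 2537480751) (nat_lit 912) (nat_lit 3940197268) (nat_lit 339) (nat_lit 5) (nat_lit 350) (nat_lit 5) (nat_lit 351) (nat_lit 5) (nat_lit 346) (nat_lit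 322) (nat_lit 232))))) (XT.nd (nat_lit 156) (nat_lit 1520) (nat_lit 0) (XT.nd (nat_lit 78) (nat_lit 912) (nat_lit 0) (XT.lf (nat_lit 0) (nat_lit 3073682553) (nat_lit 836) (nat_lit 7498546634) (nat_lit 912) (nat_lit 1410528165) (nat_lit 328) (nat_lit 5) (nat_lit 339) (nat_lit 5) (nat_lit 340) (nat_lit 5) (nat_lit 347) (nat_lit 322) (nat_lit 231)) (XT.lf (nat_lit 0) (nat_lit 779958646) (nat_lit 836) (nat_lit 433478959) (nat_lit 912) (nat_lit 10959769113) (nat_lit 316) (nat_lit 5) (nat_lit 327) (nat_lit 5) (nat_lit 328) (nat_lit 5) (nat_lit 348) (nat_lit 322) (nat_lit 230))) (XT.nd (nat_lit 78) (nat_lit 1520) (nat_lit 0) (XT.lf (nat_lit 0) (nat_lit 3970859006) (nat_lit 912) (nat_lit 1573278690) (nat_lit 76) (nat_lit 6823579597) (nat_lit 316) (nat_lit 5) (nat_lit 328) (nat_lit 5) (nat_lit 317) (nat_lit 5) (nat_lit 349) (nat_lit 322) (nat_lit 229)) (XT.nd (nat_lit 78) (nat_lit 760) (nat_lit 0) (XT.lf (nat_lit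 0) (nat_lit 6850931300) (nat_lit 836) (nat_lit 3959142936) (nat_lit 76) (nat_lit 1757202232) (nat_lit 306) (nat_lit 5) (nat_lit 317) (nat_lit 5) (nat_lit 307) (nat_lit 5) (nat_lit 350) (nat_lit 322) (nat_lit 228)) (XT.lf (nat_lit 0) (nat_lit 6358554987) (nat_lit 760) (nat_lit 3518124246) (nat_lit 836) (nat_lit 2894969219) (nat_lit 296) (nat_lit 5) (nat_lit 306) (nat_lit 5) (nat_lit 307) (nat_lit 5) (nat_lit 351) (nat_lit 322) (nat_lit 227)))))) (XT.nd (nat_lit 390) (nat_lit 2584) (nat_lit 0) (XT.nd (nat_lit 156) (nat_lit 1368) (nat_lit 0) (XT.nd (nat_lit 78) (nat_lit 760) (nat_lit 0) (XT.lf (nat_lit 0) (nat_lit 61307781) (nat_lit 760) (nat_lit 8927811641) (nat_lit 76) (nat_lit 3992033594) (nat_lit 286) (nat_lit 5) (nat_lit 296) (nat_lit 5) (nat_lit 287) (nat_lit 5) (nat_lit 352) (nat_lit 322) (nat_lit 226)) (XT.lf (nat_lit 0) (nat_lit 1672688439) (nat_lit 760) (nat_lit 1443893319) (nat_lit 836) (nat_lit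 10078996076) (nat_lit 276) (nat_lit 5) (nat_lit 286) (nat_lit 5) (nat_lit 287) (nat_lit 5) (nat_lit 353) (nat_lit 322) (nat_lit 225))) (XT.nd (nat_lit 78) (nat_lit 1368) (nat_lit 0) (XT.lf (nat_lit 0) (nat_lit 6337394829) (nat_lit 836) (nat_lit 774894956) (nat_lit 76) (nat_lit 6302678314) (nat_lit 276) (nat_lit 5) (nat_lit 287) (nat_lit 5) (nat_lit 277) (nat_lit 5) (nat_lit 354) (nat_lit 322) (nat_lit 224)) (XT.nd (nat_lit 78) (nat_lit 684) (nat_lit 0) (XT.lf (nat_lit 0) (nat_lit 9709133505) (nat_lit 760) (nat_lit 3252916766) (nat_lit 76) (nat_lit 677813796) (nat_lit 267) (nat_lit 5) (nat_lit 277) (nat_lit 5) (nat_lit 268) (nat_lit 5) (nat_lit 355) (nat_lit 322) (nat_lit 223)) (XT.lf (nat_lit 0) (nat_lit 8050133972) (nat_lit 684) (nat_lit 5210299431) (nat_lit 760) (nat_lit 609515058) (nat_lit 258) (nat_lit 5) (nat_lit 267) (nat_lit 5) (nat_lit 268) (nat_lit 5) (nat_lit 356) (nat_lit 322) (nat_lit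 222))))) (XT.nd (nat_lit 156) (nat_lit 1292) (nat_lit 0) (XT.nd (nat_lit 78) (nat_lit 608) (nat_lit 0) (XT.lf (nat_lit 0) (nat_lit 2825560950) (nat_lit 684) (nat_lit 8468897156) (nat_lit 76) (nat_lit 2811099574) (nat_lit 249) (nat_lit 5) (nat_lit 258) (nat_lit 5) (nat_lit 250) (nat_lit 5) (nat_lit 357) (nat_lit 322) (nat_lit 221)) (XT.lf (nat_lit 0) (nat_lit 3140495512) (nat_lit 608) (nat_lit 3284127764) (nat_lit 684) (nat_lit 7922156013) (nat_lit 241) (nat_lit 5) (nat_lit 249) (nat_lit 5) (nat_lit 250) (nat_lit 5) (nat_lit 358) (nat_lit 322) (nat_lit 220))) (XT.nd (nat_lit 78) (nat_lit 684) (nat_lit 0) (XT.lf (nat_lit 0) (nat_lit 564234542) (nat_lit 608) (nat_lit 9635859821) (nat_lit 684) (nat_lit 4393783173) (nat_lit 233) (nat_lit 5) (nat_lit 241) (nat_lit 5) (nat_lit 242) (nat_lit 5) (nat_lit 359) (nat_lit 322) (nat_lit 219)) (XT.nd (nat_lit 78) (nat_lit 684) (nat_lit 0) (XT.lf (nat_lit 0) (nat_lit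 12788959710) (nat_lit 608) (nat_lit 1372924823) (nat_lit 684) (nat_lit 685051571) (nat_lit 233) (nat_lit 5) (nat_lit 241) (nat_lit 5) (nat_lit 242) (nat_lit 5) (nat_lit 360) (nat_lit 322) (nat_lit 218)) (XT.lf (nat_lit 0) (nat_lit 3183824736) (nat_lit 684) (nat_lit 4794372084) (nat_lit 76) (nat_lit 7127190632) (nat_lit 224) (nat_lit 5) (nat_lit 233) (nat_lit 5) (nat_lit 225) (nat_lit 5) (nat_lit 361) (nat_lit 322) (nat_lit 217))))))) (XT.nd (nat_lit 780) (nat_lit 3800) (nat_lit 0) (XT.nd (nat_lit 390) (nat_lit 1976) (nat_lit 0) (XT.nd (nat_lit 156) (nat_lit 1140) (nat_lit 0) (XT.nd (nat_lit 78) (nat_lit 608) (nat_lit 0) (XT.lf (nat_lit 0) (nat_lit 7213105874) (nat_lit 608) (nat_lit 7607656716) (nat_lit 76) (nat_lit 549674102) (nat_lit 217) (nat_lit 5) (nat_lit 225) (nat_lit 5) (nat_lit 218) (nat_lit 5) (nat_lit 362) (nat_lit 322) (nat_lit 216)) (XT.lf (nat_lit 0) (nat_lit 5103425024) (nat_lit 608)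 (nat_lit 6355827732) (nat_lit 684) (nat_lit 4182272510) (nat_lit 209) (nat_lit 5) (nat_lit 217) (nat_lit 5) (nat_lit 218) (nat_lit 5) (nat_lit 363) (nat_lit 322) (nat_lit 215))) (XT.nd (nat_lit 78) (nat_lit 608) (nat_lit 0) (XT.lf (nat_lit 0) (nat_lit 2366240911) (nat_lit 532) (nat_lit 13526385049) (nat_lit 608) (nat_lit 26931081) (nat_lit 202) (nat_lit 5) (nat_lit 209) (nat_lit 5) (nat_lit 210) (nat_lit 5) (nat_lit 364) (nat_lit 322) (nat_lit 214)) (XT.nd (nat_lit 78) (nat_lit 532) (nat_lit 0) (XT.lf (nat_lit 0) (nat_lit 4289240961) (nat_lit 608) (nat_lit 502329147) (nat_lit 76) (nat_lit 11411975408) (nat_lit 201) (nat_lit 5) (nat_lit 209) (nat_lit 5) (nat_lit 202) (nat_lit 5) (nat_lit 365) (nat_lit 322) (nat_lit 213)) (XT.lf (nat_lit 0) (nat_lit 8825521170) (nat_lit 608) (nat_lit 3439367522) (nat_lit 76) (nat_lit 4229348435) (nat_lit 194) (nat_lit 5) (nat_lit 202) (nat_lit 5) (nat_lit 195) (nat_lit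 5) (nat_lit 366) (nat_lit 322) (nat_lit 212))))) (XT.nd (nat_lit 156) (nat_lit 912) (nat_lit 0) (XT.nd (nat_lit 78) (nat_lit 608) (nat_lit 0) (XT.lf (nat_lit 0) (nat_lit 10306913458) (nat_lit 456) (nat_lit 3271993320) (nat_lit 532) (nat_lit 3213128993) (nat_lit 188) (nat_lit 5) (nat_lit 194) (nat_lit 5) (nat_lit 195) (nat_lit 5) (nat_lit 367) (nat_lit 322) (nat_lit 211)) (XT.lf (nat_lit 0) (nat_lit 1448382625) (nat_lit 608) (nat_lit 9661758800) (nat_lit 76) (nat_lit 5986648453) (nat_lit 180) (nat_lit 5) (nat_lit 188) (nat_lit 5) (nat_lit 181) (nat_lit 5) (nat_lit 368) (nat_lit 322) (nat_lit 210))) (XT.nd (nat_lit 78) (nat_lit 456) (nat_lit 0) (XT.lf (nat_lit 0) (nat_lit 4438277989) (nat_lit 456) (nat_lit 1842303991) (nat_lit 532) (nat_lit 11128196049) (nat_lit 174) (nat_lit 5) (nat_lit 180) (nat_lit 5) (nat_lit 181) (nat_lit 5) (nat_lit 369) (nat_lit 322) (nat_lit 209)) (XT.nd (nat_lit 78) (nat_lit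 0) (nat_lit 0) (XT.lf (nat_lit 0) (nat_lit 1303465267) (nat_lit 456) (nat_lit 10058356104) (nat_lit 532) (nat_lit 6366228913) (nat_lit 168) (nat_lit 5) (nat_lit 174) (nat_lit 5) (nat_lit 175) (nat_lit 5) (nat_lit 370) (nat_lit 322) (nat_lit 208)) (XT.lf (nat_lit 0) (nat_lit 16143230084) (nat_lit 456) (nat_lit 532502178) (nat_lit 532) (nat_lit 1379569528) (nat_lit 168) (nat_lit 5) (nat_lit 174) (nat_lit 5) (nat_lit 175) (nat_lit 5) (nat_lit 371) (nat_lit 322) (nat_lit 207)))))) (XT.nd (nat_lit 390) (nat_lit 1900) (nat_lit 0) (XT.nd (nat_lit 156) (nat_lit 912) (nat_lit 0) (XT.nd (nat_lit 78) (nat_lit 456) (nat_lit 0) (XT.lf (nat_lit 0) (nat_lit 3834318024) (nat_lit 532) (nat_lit 5294452202) (nat_lit 76) (nat_lit 9260580325) (nat_lit 161) (nat_lit 5) (nat_lit 168) (nat_lit 5) (nat_lit 162) (nat_lit 5) (nat_lit 372) (nat_lit 322) (nat_lit 206)) (XT.lf (nat_lit 0) (nat_lit 9252458784) (nat_lit 532) (nat_lit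 8800784531) (nat_lit 76) (nat_lit 678668822) (nat_lit 155) (nat_lit 5) (nat_lit 162) (nat_lit 5) (nat_lit 156) (nat_lit 5) (nat_lit 373) (nat_lit 322) (nat_lit 205))) (XT.nd (nat_lit 78) (nat_lit 532) (nat_lit 0) (XT.lf (nat_lit 0) (nat_lit 6600456994) (nat_lit 380) (nat_lit 8353934052) (nat_lit 456) (nat_lit 4127939754) (nat_lit 150) (nat_lit 5) (nat_lit 155) (nat_lit 5) (nat_lit 156) (nat_lit 5) (nat_lit 374) (nat_lit 322) (nat_lit 204)) (XT.nd (nat_lit 78) (nat_lit 0) (nat_lit 0) (XT.lf (nat_lit 0) (nat_lit 1439077461) (nat_lit 532) (nat_lit 16305535486) (nat_lit 76) (nat_lit 1697012047) (nat_lit 143) (nat_lit 5) (nat_lit 150) (nat_lit 5) (nat_lit 144) (nat_lit 5) (nat_lit 375) (nat_lit 322) (nat_lit 203)) (XT.lf (nat_lit 0) (nat_lit 7240147424) (nat_lit 532) (nat_lit 527031826) (nat_lit 76) (nat_lit 12041515337) (nat_lit 143) (nat_lit 5) (nat_lit 150) (nat_lit 5) (nat_lit 144) (nat_lit 5) (nat_lit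 376) (nat_lit 322) (nat_lit 202))))) (XT.nd (nat_lit 156) (nat_lit 1140) (nat_lit 0) (XT.nd (nat_lit 78) (nat_lit 380) (nat_lit 0) (XT.lf (nat_lit 0) (nat_lit 13317786862) (nat_lit 456) (nat_lit 4294203104) (nat_lit 76) (nat_lit 2572740198) (nat_lit 138) (nat_lit 5) (nat_lit 144) (nat_lit 5) (nat_lit 139) (nat_lit 5) (nat_lit 377) (nat_lit 322) (nat_lit 201)) (XT.lf (nat_lit 0) (nat_lit 12319911068) (nat_lit 380) (nat_lit 7375997810) (nat_lit 456) (nat_lit 873779372) (nat_lit 133) (nat_lit 5) (nat_lit 138) (nat_lit 5) (nat_lit 139) (nat_lit 5) (nat_lit 378) (nat_lit 322) (nat_lit 200))) (XT.nd (nat_lit 78) (nat_lit 684) (nat_lit 0) (XT.lf (nat_lit 0) (nat_lit 5318818963) (nat_lit 456) (nat_lit 12407303325) (nat_lit 76) (nat_lit 3237606180) (nat_lit 127) (nat_lit 5) (nat_lit 133) (nat_lit 5) (nat_lit 128) (nat_lit 5) (nat_lit 379) (nat_lit 322) (nat_lit 199)) (XT.nd (nat_lit 78) (nat_lit 304) (nat_lit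 0) (XT.lf (nat_lit 0) (nat_lit 4590688039) (nat_lit 380) (nat_lit 7213246318) (nat_lit 456) (nat_lit 9563171982) (nat_lit 122) (nat_lit 5) (nat_lit 127) (nat_lit 5) (nat_lit 128) (nat_lit 5) (nat_lit 380) (nat_lit 322) (nat_lit 198)) (XT.lf (nat_lit 0) (nat_lit 444229814) (nat_lit 304) (nat_lit 18133774314) (nat_lit 380) (nat_lit 3202697445) (nat_lit 118) (nat_lit 5) (nat_lit 122) (nat_lit 5) (nat_lit 123) (nat_lit 5) (nat_lit 381) (nat_lit 322) (nat_lit 197))))))))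
noncomputable def xc90 : XT := (XT.nd (nat_lit 43602) (nat_lit 0) (nat_lit 10108) (XT.nd (nat_lit 42822) (nat_lit 0) (nat_lit 24624) (XT.nd (nat_lit 42432) (nat_lit 0) (nat_lit 27360) (XT.nd (nat_lit 156) (nat_lit 304) (nat_lit 0) (XT.nd (nat_lit 78) (nat_lit 380) (nat_lit 0) (XT.lf (nat_lit 0) (nat_lit 3450971397) (nat_lit 380) (nat_lit 3888958390) (nat_lit 76) (nat_lit 14863417952) (nat_lit 117) (nat_lit 5) (nat_lit 122) (nat_lit 5) (nat_lit 118) (nat_lit 5) (nat_lit 382) (nat_lit 322) (nat_lit 196)) (XT.lf (nat_lit 0) (nat_lit 10362658760) (nat_lit 456) (nat_lit 8439052981) (nat_lit 76) (nat_lit 3834503479) (nat_lit 112) (nat_lit 5) (nat_lit 118) (nat_lit 5) (nat_lit 113) (nat_lit 5) (nat_lit 383) (nat_lit 322) (nat_lit 195))) (XT.nd (nat_lit 42120) (nat_lit 0) (nat_lit 28804) (XT.lf (nat_lit 0) (nat_lit 9853453497) (nat_lit 304) (nat_lit 7752187262) (nat_lit 380) (nat_lit 5473952716) (nat_lit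 108) (nat_lit 5) (nat_lit 112) (nat_lit 5) (nat_lit 113) (nat_lit 5) (nat_lit 384) (nat_lit 322) (nat_lit 194)) (XT.nd (nat_lit 78) (nat_lit 0) (nat_lit 0) (XT.lf (nat_lit 0) (nat_lit 1048254242) (nat_lit 0) (nat_lit 1048254242) (nat_lit 1444) (nat_lit 2261103094) (nat_lit 487) (nat_lit 5) (nat_lit 487) (nat_lit 3) (nat_lit 506) (nat_lit 3) (nat_lit 323) (nat_lit 323) (nat_lit 254)) (XT.lf (nat_lit 0) (nat_lit 5694639395) (nat_lit 1444) (nat_lit 416520818) (nat_lit 1520) (nat_lit 2705335399) (nat_lit 487) (nat_lit 5) (nat_lit 506) (nat_lit 3) (nat_lit 507) (nat_lit 5) (nat_lit 324) (nat_lit 323) (nat_lit 253))))) (XT.nd (nat_lit 156) (nat_lit 1444) (nat_lit 0) (XT.nd (nat_lit 78) (nat_lit 0) (nat_lit 76) (XT.lf (nat_lit 76) (nat_lit 6007464392) (nat_lit 0) (nat_lit 1231595967) (nat_lit 1520) (nat_lit 1681817473) (nat_lit 488) (nat_lit 5) (nat_lit 487) (nat_lit 5) (nat_lit 507) (nat_lit 5) (nat_lit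 325) (nat_lit 323) (nat_lit 252)) (XT.lf (nat_lit 76) (nat_lit 3594180742) (nat_lit 0) (nat_lit 5232759361) (nat_lit 1520) (nat_lit 201534709) (nat_lit 489) (nat_lit 5) (nat_lit 488) (nat_lit 5) (nat_lit 508) (nat_lit 5) (nat_lit 326) (nat_lit 323) (nat_lit 251))) (XT.nd (nat_lit 78) (nat_lit 0) (nat_lit 76) (XT.lf (nat_lit 76) (nat_lit 1166235225) (nat_lit 0) (nat_lit 122564642) (nat_lit 1596) (nat_lit 7850692657) (nat_lit 469) (nat_lit 5) (nat_lit 468) (nat_lit 5) (nat_lit 489) (nat_lit 5) (nat_lit 327) (nat_lit 323) (nat_lit 250)) (XT.nd (nat_lit 78) (nat_lit 0) (nat_lit 76) (XT.lf (nat_lit 0) (nat_lit 2840367954) (nat_lit 1520) (nat_lit 1279691836) (nat_lit 1596) (nat_lit 5133392961) (nat_lit 469) (nat_lit 5) (nat_lit 489) (nat_lit 5) (nat_lit 490) (nat_lit 5) (nat_lit 328) (nat_lit 323) (nat_lit 249)) (XT.lf (nat_lit 0) (nat_lit 4434327886) (nat_lit 1520) (nat_lit 3720913832) (nat_lit 1596) (nat_lit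 1215696333) (nat_lit 470) (nat_lit 5) (nat_lit 490) (nat_lit 5) (nat_lit 491) (nat_lit 5) (nat_lit 329) (nat_lit 323) (nat_lit 248)))))) (XT.nd (nat_lit 390) (nat_lit 1444) (nat_lit 0) (XT.nd (nat_lit 156) (nat_lit 1444) (nat_lit 0) (XT.nd (nat_lit 78) (nat_lit 0) (nat_lit 76) (XT.lf (nat_lit 76) (nat_lit 3298507132) (nat_lit 0) (nat_lit 2786968398) (nat_lit 1596) (nat_lit 3406307491) (nat_lit 471) (nat_lit 5) (nat_lit 470) (nat_lit 5) (nat_lit 491) (nat_lit 5) (nat_lit 330) (nat_lit 323) (nat_lit 247)) (XT.lf (nat_lit 76) (nat_lit 926779621) (nat_lit 0) (nat_lit 6861576321) (nat_lit 1596) (nat_lit 1827875264) (nat_lit 472) (nat_lit 5) (nat_lit 471) (nat_lit 5) (nat_lit 492) (nat_lit 5) (nat_lit 331) (nat_lit 323) (nat_lit 246))) (XT.nd (nat_lit 78) (nat_lit 1520) (nat_lit 0) (XT.lf (nat_lit 76) (nat_lit 8295733246) (nat_lit 0) (nat_lit 1261237473) (nat_lit 1596) (nat_lit 187170355) (nat_lit 472)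 (nat_lit 5) (nat_lit 471) (nat_lit 5) (nat_lit 492) (nat_lit 5) (nat_lit 332) (nat_lit 323) (nat_lit 245)) (XT.nd (nat_lit 78) (nat_lit 0) (nat_lit 76) (XT.lf (nat_lit 0) (nat_lit 1507189004) (nat_lit 1596) (nat_lit 3856377714) (nat_lit 1672) (nat_lit 4511663715) (nat_lit 451) (nat_lit 5) (nat_lit 472) (nat_lit 5) (nat_lit 473) (nat_lit 5) (nat_lit 333) (nat_lit 323) (nat_lit 244)) (XT.lf (nat_lit 0) (nat_lit 3251871335) (nat_lit 1596) (nat_lit 6285144965) (nat_lit 1672) (nat_lit 473190314) (nat_lit 452) (nat_lit 5) (nat_lit 473) (nat_lit 5) (nat_lit 474) (nat_lit 5) (nat_lit 334) (nat_lit 323) (nat_lit 243))))) (XT.nd (nat_lit 156) (nat_lit 1520) (nat_lit 0) (XT.nd (nat_lit 78) (nat_lit 0) (nat_lit 76) (XT.lf (nat_lit 76) (nat_lit 1388937354) (nat_lit 0) (nat_lit 3688688226) (nat_lit 1672) (nat_lit 5071050892) (nat_lit 453) (nat_lit 5) (nat_lit 452) (nat_lit 5) (nat_lit 474) (nat_lit 5) (nat_lit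 335) (nat_lit 323) (nat_lit 242)) (XT.lf (nat_lit 0) (nat_lit 6974831814) (nat_lit 1596) (nat_lit 958285165) (nat_lit 1672) (nat_lit 2357868321) (nat_lit 453) (nat_lit 5) (nat_lit 474) (nat_lit 5) (nat_lit 475) (nat_lit 5) (nat_lit 336) (nat_lit 323) (nat_lit 241))) (XT.nd (nat_lit 78) (nat_lit 1596) (nat_lit 0) (XT.lf (nat_lit 76) (nat_lit 7115115150) (nat_lit 0) (nat_lit 1844553733) (nat_lit 1672) (nat_lit 1477298144) (nat_lit 454) (nat_lit 5) (nat_lit 453) (nat_lit 5) (nat_lit 475) (nat_lit 5) (nat_lit 337) (nat_lit 323) (nat_lit 240)) (XT.nd (nat_lit 78) (nat_lit 0) (nat_lit 76) (XT.lf (nat_lit 0) (nat_lit 439140591) (nat_lit 1672) (nat_lit 5729187154) (nat_lit 1748) (nat_lit 4418405749) (nat_lit 432) (nat_lit 5) (nat_lit 454) (nat_lit 5) (nat_lit 455) (nat_lit 5) (nat_lit 338) (nat_lit 323) (nat_lit 239)) (XT.lf (nat_lit 0) (nat_lit 2407378887) (nat_lit 1672) (nat_lit 8174159539) (nat_lit 76)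 (nat_lit 158988254) (nat_lit 433) (nat_lit 5) (nat_lit 455) (nat_lit 5) (nat_lit 434) (nat_lit 5) (nat_lit 339) (nat_lit 323) (nat_lit 238))))))) (XT.nd (nat_lit 780) (nat_lit 5700) (nat_lit 0) (XT.nd (nat_lit 390) (nat_lit 3420) (nat_lit 0) (XT.nd (nat_lit 156) (nat_lit 3800) (nat_lit 0) (XT.nd (nat_lit 78) (nat_lit 0) (nat_lit 0) (XT.lf (nat_lit 0) (nat_lit 221009270) (nat_lit 1672) (nat_lit 4257938920) (nat_lit 1748) (nat_lit 6419115879) (nat_lit 411) (nat_lit 5) (nat_lit 433) (nat_lit 5) (nat_lit 434) (nat_lit 5) (nat_lit 340) (nat_lit 323) (nat_lit 237)) (XT.lf (nat_lit 0) (nat_lit 6646511814) (nat_lit 1748) (nat_lit 2126016566) (nat_lit 76) (nat_lit 2287137868) (nat_lit 411) (nat_lit 5) (nat_lit 434) (nat_lit 5) (nat_lit 412) (nat_lit 5) (nat_lit 341) (nat_lit 323) (nat_lit 236))) (XT.nd (nat_lit 78) (nat_lit 2052) (nat_lit 0) (XT.lf (nat_lit 0) (nat_lit 6710299479) (nat_lit 1748) (nat_lit 2205356357)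 (nat_lit 1824) (nat_lit 2309744748) (nat_lit 388) (nat_lit 5) (nat_lit 411) (nat_lit 5) (nat_lit 412) (nat_lit 5) (nat_lit 342) (nat_lit 323) (nat_lit 235)) (XT.nd (nat_lit 78) (nat_lit 988) (nat_lit 0) (XT.lf (nat_lit 0) (nat_lit 4442535688) (nat_lit 1064) (nat_lit 6848659720) (nat_lit 1140) (nat_lit 104159836) (nat_lit 374) (nat_lit 5) (nat_lit 388) (nat_lit 5) (nat_lit 389) (nat_lit 5) (nat_lit 343) (nat_lit 323) (nat_lit 234)) (XT.lf (nat_lit 0) (nat_lit 2128818667) (nat_lit 912) (nat_lit 35662551) (nat_lit 988) (nat_lit 9405153528) (nat_lit 361) (nat_lit 5) (nat_lit 373) (nat_lit 5) (nat_lit 374) (nat_lit 5) (nat_lit 344) (nat_lit 323) (nat_lit 233))))) (XT.nd (nat_lit 156) (nat_lit 2584) (nat_lit 0) (XT.nd (nat_lit 78) (nat_lit 836) (nat_lit 0) (XT.lf (nat_lit 0) (nat_lit 4559291534) (nat_lit 988) (nat_lit 247640925) (nat_lit 76) (nat_lit 6941019501) (nat_lit 361) (nat_lit 5) (nat_lit 374) (nat_lit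 5) (nat_lit 362) (nat_lit 5) (nat_lit 345) (nat_lit 323) (nat_lit 232)) (XT.lf (nat_lit 0) (nat_lit 7069043501) (nat_lit 912) (nat_lit 2632766508) (nat_lit 76) (nat_lit 2228959942) (nat_lit 350) (nat_lit 5) (nat_lit 362) (nat_lit 5) (nat_lit 351) (nat_lit 5) (nat_lit 346) (nat_lit 323) (nat_lit 231))) (XT.nd (nat_lit 78) (nat_lit 1748) (nat_lit 0) (XT.lf (nat_lit 0) (nat_lit 7044161478) (nat_lit 836) (nat_lit 2657983848) (nat_lit 912) (nat_lit 2415978830) (nat_lit 339) (nat_lit 5) (nat_lit 350) (nat_lit 5) (nat_lit 351) (nat_lit 5) (nat_lit 347) (nat_lit 323) (nat_lit 230)) (XT.nd (nat_lit 78) (nat_lit 836) (nat_lit 0) (XT.lf (nat_lit 0) (nat_lit 149878856) (nat_lit 912) (nat_lit 7572845976) (nat_lit 76) (nat_lit 4587411158) (nat_lit 327) (nat_lit 5) (nat_lit 339) (nat_lit 5) (nat_lit 328) (nat_lit 5) (nat_lit 348) (nat_lit 323) (nat_lit 229)) (XT.lf (nat_lit 0) (nat_lit 2371563783) (nat_lit 836)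 (nat_lit 426001074) (nat_lit 912) (nat_lit 9709282252) (nat_lit 316) (nat_lit 5) (nat_lit 327) (nat_lit 5) (nat_lit 328) (nat_lit 5) (nat_lit 349) (nat_lit 323) (nat_lit 228)))))) (XT.nd (nat_lit 390) (nat_lit 2660) (nat_lit 0) (XT.nd (nat_lit 156) (nat_lit 2280) (nat_lit 0) (XT.nd (nat_lit 78) (nat_lit 760) (nat_lit 0) (XT.lf (nat_lit 0) (nat_lit 5592758667) (nat_lit 912) (nat_lit 67438988) (nat_lit 76) (nat_lit 7047911864) (nat_lit 316) (nat_lit 5) (nat_lit 328) (nat_lit 5) (nat_lit 317) (nat_lit 5) (nat_lit 350) (nat_lit 323) (nat_lit 227)) (XT.lf (nat_lit 0) (nat_lit 8525765317) (nat_lit 836) (nat_lit 2520512615) (nat_lit 76) (nat_lit 1868063899) (nat_lit 306) (nat_lit 5) (nat_lit 317) (nat_lit 5) (nat_lit 307) (nat_lit 5) (nat_lit 351) (nat_lit 323) (nat_lit 226))) (XT.nd (nat_lit 78) (nat_lit 1520) (nat_lit 0) (XT.lf (nat_lit 0) (nat_lit 8081449206) (nat_lit 760) (nat_lit 3527988812) (nat_lit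 836) (nat_lit 1516080418) (nat_lit 296) (nat_lit 5) (nat_lit 306) (nat_lit 5) (nat_lit 307) (nat_lit 5) (nat_lit 352) (nat_lit 323) (nat_lit 225)) (XT.nd (nat_lit 78) (nat_lit 760) (nat_lit 0) (XT.lf (nat_lit 0) (nat_lit 1478172436) (nat_lit 760) (nat_lit 7640843482) (nat_lit 76) (nat_lit 4222747383) (nat_lit 286) (nat_lit 5) (nat_lit 296) (nat_lit 5) (nat_lit 287) (nat_lit 5) (nat_lit 353) (nat_lit 323) (nat_lit 224)) (XT.lf (nat_lit 0) (nat_lit 3252446777) (nat_lit 760) (nat_lit 1341374556) (nat_lit 836) (nat_lit 8969440453) (nat_lit 276) (nat_lit 5) (nat_lit 286) (nat_lit 5) (nat_lit 287) (nat_lit 5) (nat_lit 354) (nat_lit 323) (nat_lit 223))))) (XT.nd (nat_lit 156) (nat_lit 1976) (nat_lit 0) (XT.nd (nat_lit 78) (nat_lit 0) (nat_lit 0) (XT.lf (nat_lit 0) (nat_lit 722808056) (nat_lit 684) (nat_lit 7153759804) (nat_lit 760) (nat_lit 5913374530) (nat_lit 267) (nat_lit 5) (nat_lit 276) (nat_lit 5)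 (nat_lit 277) (nat_lit 5) (nat_lit 355) (nat_lit 323) (nat_lit 222)) (XT.lf (nat_lit 0) (nat_lit 11316381271) (nat_lit 760) (nat_lit 1837896830) (nat_lit 76) (nat_lit 867983065) (nat_lit 267) (nat_lit 5) (nat_lit 277) (nat_lit 5) (nat_lit 268) (nat_lit 5) (nat_lit 356) (nat_lit 323) (nat_lit 221))) (XT.nd (nat_lit 78) (nat_lit 1216) (nat_lit 0) (XT.lf (nat_lit 0) (nat_lit 676723641) (nat_lit 760) (nat_lit 4484582368) (nat_lit 76) (nat_lit 9098440358) (nat_lit 257) (nat_lit 5) (nat_lit 267) (nat_lit 5) (nat_lit 258) (nat_lit 5) (nat_lit 357) (nat_lit 323) (nat_lit 220)) (XT.nd (nat_lit 78) (nat_lit 608) (nat_lit 0) (XT.lf (nat_lit 0) (nat_lit 4179863939) (nat_lit 684) (nat_lit 7217220646) (nat_lit 76) (nat_lit 3105806130) (nat_lit 249) (nat_lit 5) (nat_lit 258) (nat_lit 5) (nat_lit 250) (nat_lit 5) (nat_lit 358) (nat_lit 323) (nat_lit 219)) (XT.lf (nat_lit 0) (nat_lit 4716024904) (nat_lit 608) (nat_lit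 3143514126) (nat_lit 684) (nat_lit 6892370026) (nat_lit 241) (nat_lit 5) (nat_lit 249) (nat_lit 5) (nat_lit 250) (nat_lit 5) (nat_lit 359) (nat_lit 323) (nat_lit 218))))))))
noncomputable def xc91 : XT := (XT.nd (nat_lit 1560) (nat_lit 1216) (nat_lit 0) (XT.nd (nat_lit 780) (nat_lit 3572) (nat_lit 0) (XT.nd (nat_lit 390) (nat_lit 2204) (nat_lit 0) (XT.nd (nat_lit 156) (nat_lit 1748) (nat_lit 0) (XT.nd (nat_lit 78) (nat_lit 76) (nat_lit 0) (XT.lf (nat_lit 0) (nat_lit 2061779664) (nat_lit 608) (nat_lit 9661435243) (nat_lit 684) (nat_lit 3283719057) (nat_lit 233) (nat_lit 5) (nat_lit 241) (nat_lit 5) (nat_lit 242) (nat_lit 5) (nat_lit 360) (nat_lit 323) (nat_lit 217)) (XT.lf (nat_lit 0) (nat_lit 493544354) (nat_lit 684) (nat_lit 661430665) (nat_lit 76) (nat_lit 14113265492) (nat_lit 232) (nat_lit 5) (nat_lit 241) (nat_lit 5) (nat_lit 233) (nat_lit 5) (nat_lit 361) (nat_lit 323) (nat_lit 216))) (XT.nd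 (nat_lit 78) (nat_lit 1140) (nat_lit 0) (XT.lf (nat_lit 0) (nat_lit 4445585470) (nat_lit 684) (nat_lit 3486132232) (nat_lit 76) (nat_lit 7603120595) (nat_lit 224) (nat_lit 5) (nat_lit 233) (nat_lit 5) (nat_lit 225) (nat_lit 5) (nat_lit 362) (nat_lit 323) (nat_lit 215)) (XT.nd (nat_lit 78) (nat_lit 608) (nat_lit 0) (XT.lf (nat_lit 0) (nat_lit 8572914702) (nat_lit 608) (nat_lit 6386030998) (nat_lit 76) (nat_lit 849361161) (nat_lit 217) (nat_lit 5) (nat_lit 225) (nat_lit 5) (nat_lit 218) (nat_lit 5) (nat_lit 363) (nat_lit 323) (nat_lit 214)) (XT.lf (nat_lit 0) (nat_lit 6682861013) (nat_lit 608) (nat_lit 6239542311) (nat_lit 684) (nat_lit 3165616532) (nat_lit 209) (nat_lit 5) (nat_lit 217) (nat_lit 5) (nat_lit 218) (nat_lit 5) (nat_lit 364) (nat_lit 323) (nat_lit 213))))) (XT.nd (nat_lit 156) (nat_lit 1064) (nat_lit 0) (XT.nd (nat_lit 78) (nat_lit 532) (nat_lit 0) (XT.lf (nat_lit 0) (nat_lit 1078192326)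 (nat_lit 608) (nat_lit 12521082835) (nat_lit 76) (nat_lit 2775414651) (nat_lit 201) (nat_lit 5) (nat_lit 209) (nat_lit 5) (nat_lit 202) (nat_lit 5) (nat_lit 365) (nat_lit 323) (nat_lit 212)) (XT.lf (nat_lit 0) (nat_lit 891037266) (nat_lit 532) (nat_lit 4606032671) (nat_lit 608) (nat_lit 11170662802) (nat_lit 194) (nat_lit 5) (nat_lit 201) (nat_lit 5) (nat_lit 202) (nat_lit 5) (nat_lit 366) (nat_lit 323) (nat_lit 211))) (XT.nd (nat_lit 78) (nat_lit 1064) (nat_lit 0) (XT.lf (nat_lit 0) (nat_lit 10143409294) (nat_lit 608) (nat_lit 2149209719) (nat_lit 76) (nat_lit 4675056460) (nat_lit 194) (nat_lit 5) (nat_lit 202) (nat_lit 5) (nat_lit 195) (nat_lit 5) (nat_lit 367) (nat_lit 323) (nat_lit 210)) (XT.nd (nat_lit 78) (nat_lit 608) (nat_lit 0) (XT.lf (nat_lit 0) (nat_lit 11986854423) (nat_lit 456) (nat_lit 3030768288) (nat_lit 532) (nat_lit 2257230344) (nat_lit 188) (nat_lit 5) (nat_lit 194) (nat_lit 5)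 (nat_lit 195) (nat_lit 5) (nat_lit 368) (nat_lit 323) (nat_lit 209)) (XT.lf (nat_lit 0) (nat_lit 2511165590) (nat_lit 608) (nat_lit 8570832353) (nat_lit 76) (nat_lit 6507007446) (nat_lit 180) (nat_lit 5) (nat_lit 188) (nat_lit 5) (nat_lit 181) (nat_lit 5) (nat_lit 369) (nat_lit 323) (nat_lit 208)))))) (XT.nd (nat_lit 390) (nat_lit 1672) (nat_lit 0) (XT.nd (nat_lit 156) (nat_lit 988) (nat_lit 0) (XT.nd (nat_lit 78) (nat_lit 456) (nat_lit 0) (XT.lf (nat_lit 0) (nat_lit 5929804037) (nat_lit 456) (nat_lit 1537657111) (nat_lit 532) (nat_lit 10443318216) (nat_lit 174) (nat_lit 5) (nat_lit 180) (nat_lit 5) (nat_lit 181) (nat_lit 5) (nat_lit 370) (nat_lit 323) (nat_lit 207)) (XT.lf (nat_lit 0) (nat_lit 2696543246) (nat_lit 456) (nat_lit 9986572714) (nat_lit 532) (nat_lit 5556882789) (nat_lit 168) (nat_lit 5) (nat_lit 174) (nat_lit 5) (nat_lit 175) (nat_lit 5) (nat_lit 371) (nat_lit 323) (nat_lit 206))) (XT.nd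 (nat_lit 78) (nat_lit 988) (nat_lit 0) (XT.lf (nat_lit 0) (nat_lit 17942064871) (nat_lit 456) (nat_lit 185822803) (nat_lit 532) (nat_lit 449759535) (nat_lit 168) (nat_lit 5) (nat_lit 174) (nat_lit 5) (nat_lit 175) (nat_lit 5) (nat_lit 372) (nat_lit 323) (nat_lit 205)) (XT.nd (nat_lit 78) (nat_lit 456) (nat_lit 0) (XT.lf (nat_lit 0) (nat_lit 4890753100) (nat_lit 532) (nat_lit 4130617340) (nat_lit 76) (nat_lit 9900569842) (nat_lit 161) (nat_lit 5) (nat_lit 168) (nat_lit 5) (nat_lit 162) (nat_lit 5) (nat_lit 373) (nat_lit 323) (nat_lit 204)) (XT.lf (nat_lit 0) (nat_lit 10454926082) (nat_lit 532) (nat_lit 7747353915) (nat_lit 76) (nat_lit 1072836610) (nat_lit 155) (nat_lit 5) (nat_lit 162) (nat_lit 5) (nat_lit 156) (nat_lit 5) (nat_lit 374) (nat_lit 323) (nat_lit 203))))) (XT.nd (nat_lit 156) (nat_lit 760) (nat_lit 0) (XT.nd (nat_lit 78) (nat_lit 532) (nat_lit 0) (XT.lf (nat_lit 0) (nat_lit 8094550728)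 (nat_lit 380) (nat_lit 8214841949) (nat_lit 456) (nat_lit 3327033053) (nat_lit 150) (nat_lit 5) (nat_lit 155) (nat_lit 5) (nat_lit 156) (nat_lit 5) (nat_lit 375) (nat_lit 323) (nat_lit 202)) (XT.lf (nat_lit 0) (nat_lit 2379193429) (nat_lit 532) (nat_lit 15491905631) (nat_lit 76) (nat_lit 2135600140) (nat_lit 143) (nat_lit 5) (nat_lit 150) (nat_lit 5) (nat_lit 144) (nat_lit 5) (nat_lit 376) (nat_lit 323) (nat_lit 201))) (XT.nd (nat_lit 78) (nat_lit 380) (nat_lit 0) (XT.lf (nat_lit 0) (nat_lit 731602727) (nat_lit 380) (nat_lit 7601318242) (nat_lit 456) (nat_lit 12052294267) (nat_lit 138) (nat_lit 5) (nat_lit 143) (nat_lit 5) (nat_lit 144) (nat_lit 5) (nat_lit 377) (nat_lit 323) (nat_lit 200)) (XT.nd (nat_lit 78) (nat_lit 380) (nat_lit 0) (XT.lf (nat_lit 0) (nat_lit 14573392194) (nat_lit 456) (nat_lit 3163943956) (nat_lit 76) (nat_lit 3035592342) (nat_lit 138) (nat_lit 5) (nat_lit 144) (nat_lit 5) (nat_lit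 139) (nat_lit 5) (nat_lit 378) (nat_lit 323) (nat_lit 199)) (XT.lf (nat_lit 0) (nat_lit 13928166479) (nat_lit 380) (nat_lit 7197799453) (nat_lit 456) (nat_lit 43813697) (nat_lit 133) (nat_lit 5) (nat_lit 138) (nat_lit 5) (nat_lit 139) (nat_lit 5) (nat_lit 379) (nat_lit 323) (nat_lit 198))))))) (XT.nd (nat_lit 42978) (nat_lit 0) (nat_lit 23864) (XT.nd (nat_lit 42588) (nat_lit 0) (nat_lit 26600) (XT.nd (nat_lit 156) (nat_lit 380) (nat_lit 0) (XT.nd (nat_lit 78) (nat_lit 380) (nat_lit 0) (XT.lf (nat_lit 0) (nat_lit 6309314991) (nat_lit 456) (nat_lit 11535540299) (nat_lit 76) (nat_lit 3730961118) (nat_lit 127) (nat_lit 5) (nat_lit 133) (nat_lit 5) (nat_lit 128) (nat_lit 5) (nat_lit 380) (nat_lit 323) (nat_lit 197)) (XT.lf (nat_lit 0) (nat_lit 5952208674) (nat_lit 380) (nat_lit 7020519007) (nat_lit 456) (nat_lit 9018899037) (nat_lit 122) (nat_lit 5) (nat_lit 127) (nat_lit 5) (nat_lit 128) (nat_lit 5) (nat_lit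 381) (nat_lit 323) (nat_lit 196))) (XT.nd (nat_lit 78) (nat_lit 76) (nat_lit 0) (XT.lf (nat_lit 0) (nat_lit 1675114023) (nat_lit 304) (nat_lit 18261661246) (nat_lit 380) (nat_lit 2481125230) (nat_lit 118) (nat_lit 5) (nat_lit 122) (nat_lit 5) (nat_lit 123) (nat_lit 5) (nat_lit 382) (nat_lit 323) (nat_lit 195)) (XT.nd (nat_lit 42276) (nat_lit 0) (nat_lit 28120) (XT.lf (nat_lit 0) (nat_lit 4337927209) (nat_lit 380) (nat_lit 2812937152) (nat_lit 76) (nat_lit 15702731095) (nat_lit 117) (nat_lit 5) (nat_lit 122) (nat_lit 5) (nat_lit 118) (nat_lit 5) (nat_lit 383) (nat_lit 323) (nat_lit 194)) (XT.lf (nat_lit 0) (nat_lit 1783336906) (nat_lit 0) (nat_lit 1783336906) (nat_lit 1444) (nat_lit 892845912) (nat_lit 487) (nat_lit 5) (nat_lit 487) (nat_lit 3) (nat_lit 506) (nat_lit 3) (nat_lit 324) (nat_lit 324) (nat_lit 252))))) (XT.nd (nat_lit 156) (nat_lit 0) (nat_lit 76) (XT.nd (nat_lit 78) (nat_lit 1520) (nat_lit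 0) (XT.lf (nat_lit 76) (nat_lit 1015414895) (nat_lit 0) (nat_lit 7580348869) (nat_lit 1520) (nat_lit 429310718) (nat_lit 488) (nat_lit 5) (nat_lit 487) (nat_lit 5) (nat_lit 507) (nat_lit 5) (nat_lit 325) (nat_lit 324) (nat_lit 251)) (XT.lf (nat_lit 0) (nat_lit 962777959) (nat_lit 1520) (nat_lit 1544911861) (nat_lit 1596) (nat_lit 6626345483) (nat_lit 467) (nat_lit 5) (nat_lit 487) (nat_lit 5) (nat_lit 488) (nat_lit 5) (nat_lit 326) (nat_lit 324) (nat_lit 250))) (XT.nd (nat_lit 78) (nat_lit 0) (nat_lit 0) (XT.lf (nat_lit 0) (nat_lit 2391187619) (nat_lit 1520) (nat_lit 4113793125) (nat_lit 1596) (nat_lit 2741243488) (nat_lit 468) (nat_lit 5) (nat_lit 488) (nat_lit 5) (nat_lit 489) (nat_lit 5) (nat_lit 327) (nat_lit 324) (nat_lit 249)) (XT.nd (nat_lit 78) (nat_lit 0) (nat_lit 76) (XT.lf (nat_lit 76) (nat_lit 2659357655) (nat_lit 0) (nat_lit 1198006314) (nat_lit 1596) (nat_lit 5504539735) (nat_lit 469)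 (nat_lit 5) (nat_lit 468) (nat_lit 5) (nat_lit 489) (nat_lit 5) (nat_lit 328) (nat_lit 324) (nat_lit 248)) (XT.lf (nat_lit 76) (nat_lit 156658986) (nat_lit 0) (nat_lit 5219394905) (nat_lit 1596) (nat_lit 4104851592) (nat_lit 470) (nat_lit 5) (nat_lit 469) (nat_lit 5) (nat_lit 490) (nat_lit 5) (nat_lit 329) (nat_lit 324) (nat_lit 247)))))) (XT.nd (nat_lit 390) (nat_lit 1444) (nat_lit 0) (XT.nd (nat_lit 156) (nat_lit 1520) (nat_lit 0) (XT.nd (nat_lit 78) (nat_lit 0) (nat_lit 0) (XT.lf (nat_lit 0) (nat_lit 6948783757) (nat_lit 1520) (nat_lit 2328793514) (nat_lit 1596) (nat_lit 325752292) (nat_lit 470) (nat_lit 5) (nat_lit 490) (nat_lit 5) (nat_lit 491) (nat_lit 5) (nat_lit 330) (nat_lit 324) (nat_lit 246)) (XT.lf (nat_lit 76) (nat_lit 4876813559) (nat_lit 0) (nat_lit 3712895277) (nat_lit 1596) (nat_lit 1139318461) (nat_lit 471) (nat_lit 5) (nat_lit 470) (nat_lit 5) (nat_lit 491) (nat_lit 5) (nat_lit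 331) (nat_lit 324) (nat_lit 245))) (XT.nd (nat_lit 78) (nat_lit 0) (nat_lit 0) (XT.lf (nat_lit 0) (nat_lit 416494004) (nat_lit 1596) (nat_lit 7399191124) (nat_lit 1672) (nat_lit 2042763203) (nat_lit 450) (nat_lit 5) (nat_lit 471) (nat_lit 5) (nat_lit 472) (nat_lit 5) (nat_lit 332) (nat_lit 324) (nat_lit 244)) (XT.nd (nat_lit 78) (nat_lit 0) (nat_lit 76) (XT.lf (nat_lit 76) (nat_lit 3338516) (nat_lit 0) (nat_lit 2014691571) (nat_lit 1672) (nat_lit 7973300317) (nat_lit 451) (nat_lit 5) (nat_lit 450) (nat_lit 5) (nat_lit 472) (nat_lit 5) (nat_lit 333) (nat_lit 324) (nat_lit 243)) (XT.lf (nat_lit 0) (nat_lit 3701453942) (nat_lit 1596) (nat_lit 2453927896) (nat_lit 1672) (nat_lit 3972159286) (nat_lit 451) (nat_lit 5) (nat_lit 472) (nat_lit 5) (nat_lit 473) (nat_lit 5) (nat_lit 334) (nat_lit 324) (nat_lit 242))))) (XT.nd (nat_lit 156) (nat_lit 1520) (nat_lit 0) (XT.nd (nat_lit 78) (nat_lit 0) (nat_lit 76)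 (XT.lf (nat_lit 76) (nat_lit 5333595229) (nat_lit 0) (nat_lit 108778223) (nat_lit 1672) (nat_lit 4825343319) (nat_lit 452) (nat_lit 5) (nat_lit 451) (nat_lit 5) (nat_lit 473) (nat_lit 5) (nat_lit 335) (nat_lit 324) (nat_lit 241)) (XT.lf (nat_lit 76) (nat_lit 2945900228) (nat_lit 0) (nat_lit 4325193113) (nat_lit 1672) (nat_lit 3140310816) (nat_lit 453) (nat_lit 5) (nat_lit 452) (nat_lit 5) (nat_lit 474) (nat_lit 5) (nat_lit 336) (nat_lit 324) (nat_lit 240))) (XT.nd (nat_lit 78) (nat_lit 1672) (nat_lit 0) (XT.lf (nat_lit 76) (nat_lit 534974302) (nat_lit 0) (nat_lit 8630949529) (nat_lit 1672) (nat_lit 1393270758) (nat_lit 454) (nat_lit 5) (nat_lit 453) (nat_lit 5) (nat_lit 475) (nat_lit 5) (nat_lit 337) (nat_lit 324) (nat_lit 239)) (XT.nd (nat_lit 78) (nat_lit 0) (nat_lit 76) (XT.lf (nat_lit 0) (nat_lit 442397706) (nat_lit 1672) (nat_lit 1894538990) (nat_lit 1748) (nat_lit 8373614975) (nat_lit 431) (nat_lit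 5) (nat_lit 453) (nat_lit 5) (nat_lit 454) (nat_lit 5) (nat_lit 338) (nat_lit 324) (nat_lit 238)) (XT.lf (nat_lit 0) (nat_lit 2346813151) (nat_lit 1672) (nat_lit 4367200580) (nat_lit 1748) (nat_lit 4151615506) (nat_lit 432) (nat_lit 5) (nat_lit 454) (nat_lit 5) (nat_lit 455) (nat_lit 5) (nat_lit 339) (nat_lit 324) (nat_lit 237))))))))
noncomputable def xc92 : XT := (XT.nd (nat_lit 1560) (nat_lit 8436) (nat_lit 0) (XT.nd (nat_lit 780) (nat_lit 5928) (nat_lit 0) (XT.nd (nat_lit 390) (nat_lit 3496) (nat_lit 0) (XT.nd (nat_lit 156) (nat_lit 2888) (nat_lit 0) (XT.nd (nat_lit 78) (nat_lit 1596) (nat_lit 0) (XT.lf (nat_lit 76) (nat_lit 4153434155) (nat_lit 0) (nat_lit 174204803) (nat_lit 1748) (nat_lit 6697350229) (nat_lit 433) (nat_lit 5) (nat_lit 432) (nat_lit 5) (nat_lit 455) (nat_lit 5) (nat_lit 340) (nat_lit 324) (nat_lit 236)) (XT.lf (nat_lit 0) (nat_lit 1751469852) (nat_lit 1672) (nat_lit 4664854725)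 (nat_lit 1748) (nat_lit 4771851818) (nat_lit 411) (nat_lit 5) (nat_lit 433) (nat_lit 5) (nat_lit 434) (nat_lit 5) (nat_lit 341) (nat_lit 324) (nat_lit 235))) (XT.nd (nat_lit 78) (nat_lit 2888) (nat_lit 0) (XT.lf (nat_lit 0) (nat_lit 8594640504) (nat_lit 1748) (nat_lit 672833465) (nat_lit 76) (nat_lit 2088260574) (nat_lit 411) (nat_lit 5) (nat_lit 434) (nat_lit 5) (nat_lit 412) (nat_lit 5) (nat_lit 342) (nat_lit 324) (nat_lit 234)) (XT.nd (nat_lit 78) (nat_lit 1140) (nat_lit 0) (XT.lf (nat_lit 0) (nat_lit 8403961129) (nat_lit 1748) (nat_lit 2486653080) (nat_lit 1824) (nat_lit 636673351) (nat_lit 388) (nat_lit 5) (nat_lit 411) (nat_lit 5) (nat_lit 412) (nat_lit 5) (nat_lit 343) (nat_lit 324) (nat_lit 233)) (XT.lf (nat_lit 0) (nat_lit 1572015251) (nat_lit 1140) (nat_lit 5633894535) (nat_lit 76) (nat_lit 4497071854) (nat_lit 373) (nat_lit 5) (nat_lit 388) (nat_lit 5) (nat_lit 374) (nat_lit 5) (nat_lit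 344) (nat_lit 324) (nat_lit 232))))) (XT.nd (nat_lit 156) (nat_lit 1748) (nat_lit 0) (XT.nd (nat_lit 78) (nat_lit 836) (nat_lit 0) (XT.lf (nat_lit 0) (nat_lit 3694725545) (nat_lit 912) (nat_lit 173464525) (nat_lit 988) (nat_lit 8015087999) (nat_lit 361) (nat_lit 5) (nat_lit 373) (nat_lit 5) (nat_lit 374) (nat_lit 5) (nat_lit 345) (nat_lit 324) (nat_lit 231)) (XT.lf (nat_lit 0) (nat_lit 1252990018) (nat_lit 836) (nat_lit 5041396728) (nat_lit 912) (nat_lit 5773386735) (nat_lit 350) (nat_lit 5) (nat_lit 361) (nat_lit 5) (nat_lit 362) (nat_lit 5) (nat_lit 346) (nat_lit 324) (nat_lit 230))) (XT.nd (nat_lit 78) (nat_lit 1748) (nat_lit 0) (XT.lf (nat_lit 0) (nat_lit 8833949436) (nat_lit 912) (nat_lit 1212064639) (nat_lit 76) (nat_lit 2210990526) (nat_lit 350) (nat_lit 5) (nat_lit 362) (nat_lit 5) (nat_lit 351) (nat_lit 5) (nat_lit 347) (nat_lit 324) (nat_lit 229)) (XT.nd (nat_lit 78) (nat_lit 912) (nat_lit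 0) (XT.lf (nat_lit 0) (nat_lit 8730840581) (nat_lit 836) (nat_lit 2779554519) (nat_lit 912) (nat_lit 940315716) (nat_lit 339) (nat_lit 5) (nat_lit 350) (nat_lit 5) (nat_lit 351) (nat_lit 5) (nat_lit 348) (nat_lit 324) (nat_lit 228)) (XT.lf (nat_lit 0) (nat_lit 1647134725) (nat_lit 912) (nat_lit 6297469152) (nat_lit 76) (nat_lit 4704397188) (nat_lit 327) (nat_lit 5) (nat_lit 339) (nat_lit 5) (nat_lit 328) (nat_lit 5) (nat_lit 349) (nat_lit 324) (nat_lit 227)))))) (XT.nd (nat_lit 390) (nat_lit 2812) (nat_lit 0) (XT.nd (nat_lit 156) (nat_lit 1520) (nat_lit 0) (XT.nd (nat_lit 78) (nat_lit 760) (nat_lit 0) (XT.lf (nat_lit 0) (nat_lit 3920895612) (nat_lit 836) (nat_lit 419474618) (nat_lit 912) (nat_lit 8511937913) (nat_lit 316) (nat_lit 5) (nat_lit 327) (nat_lit 5) (nat_lit 328) (nat_lit 5) (nat_lit 350) (nat_lit 324) (nat_lit 226)) (XT.lf (nat_lit 0) (nat_lit 1412956342) (nat_lit 760) (nat_lit 5773267457)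 (nat_lit 836) (nat_lit 5874065058) (nat_lit 306) (nat_lit 5) (nat_lit 316) (nat_lit 5) (nat_lit 317) (nat_lit 5) (nat_lit 351) (nat_lit 324) (nat_lit 225))) (XT.nd (nat_lit 78) (nat_lit 1520) (nat_lit 0) (XT.lf (nat_lit 0) (nat_lit 10166500175) (nat_lit 836) (nat_lit 1128124780) (nat_lit 76) (nat_lit 1978913620) (nat_lit 306) (nat_lit 5) (nat_lit 317) (nat_lit 5) (nat_lit 307) (nat_lit 5) (nat_lit 352) (nat_lit 324) (nat_lit 224)) (XT.nd (nat_lit 78) (nat_lit 760) (nat_lit 0) (XT.lf (nat_lit 0) (nat_lit 9768079287) (nat_lit 760) (nat_lit 3543641691) (nat_lit 836) (nat_lit 179964304) (nat_lit 296) (nat_lit 5) (nat_lit 306) (nat_lit 5) (nat_lit 307) (nat_lit 5) (nat_lit 353) (nat_lit 324) (nat_lit 223)) (XT.lf (nat_lit 0) (nat_lit 2856314784) (nat_lit 760) (nat_lit 6404518303) (nat_lit 76) (nat_lit 4454013442) (nat_lit 286) (nat_lit 5) (nat_lit 296) (nat_lit 5) (nat_lit 287) (nat_lit 5) (nat_lit 354)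 (nat_lit 324) (nat_lit 222))))) (XT.nd (nat_lit 156) (nat_lit 1368) (nat_lit 0) (XT.nd (nat_lit 78) (nat_lit 684) (nat_lit 0) (XT.lf (nat_lit 0) (nat_lit 4791793848) (nat_lit 760) (nat_lit 1244151788) (nat_lit 836) (nat_lit 7907648461) (nat_lit 276) (nat_lit 5) (nat_lit 286) (nat_lit 5) (nat_lit 287) (nat_lit 5) (nat_lit 355) (nat_lit 324) (nat_lit 221)) (XT.lf (nat_lit 0) (nat_lit 2188131420) (nat_lit 684) (nat_lit 7201293112) (nat_lit 760) (nat_lit 4788219550) (nat_lit 267) (nat_lit 5) (nat_lit 276) (nat_lit 5) (nat_lit 277) (nat_lit 5) (nat_lit 356) (nat_lit 324) (nat_lit 220))) (XT.nd (nat_lit 78) (nat_lit 1368) (nat_lit 0) (XT.lf (nat_lit 0) (nat_lit 12896304192) (nat_lit 760) (nat_lit 467256151) (nat_lit 76) (nat_lit 1054108196) (nat_lit 267) (nat_lit 5) (nat_lit 277) (nat_lit 5) (nat_lit 268) (nat_lit 5) (nat_lit 357) (nat_lit 324) (nat_lit 219)) (XT.nd (nat_lit 78) (nat_lit 608) (nat_lit 0)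 (XT.lf (nat_lit 0) (nat_lit 1918903411) (nat_lit 760) (nat_lit 3199805616) (nat_lit 76) (nat_lit 9543962099) (nat_lit 257) (nat_lit 5) (nat_lit 267) (nat_lit 5) (nat_lit 258) (nat_lit 5) (nat_lit 358) (nat_lit 324) (nat_lit 218)) (XT.lf (nat_lit 0) (nat_lit 5501919449) (nat_lit 684) (nat_lit 6014429673) (nat_lit 76) (nat_lit 3397277579) (nat_lit 249) (nat_lit 5) (nat_lit 258) (nat_lit 5) (nat_lit 250) (nat_lit 5) (nat_lit 359) (nat_lit 324) (nat_lit 217))))))) (XT.nd (nat_lit 780) (nat_lit 3800) (nat_lit 0) (XT.nd (nat_lit 390) (nat_lit 2204) (nat_lit 0) (XT.nd (nat_lit 156) (nat_lit 1216) (nat_lit 0) (XT.nd (nat_lit 78) (nat_lit 608) (nat_lit 0) (XT.lf (nat_lit 0) (nat_lit 6253786665) (nat_lit 608) (nat_lit 3012409547) (nat_lit 684) (nat_lit 5904447313) (nat_lit 241) (nat_lit 5) (nat_lit 249) (nat_lit 5) (nat_lit 250) (nat_lit 5) (nat_lit 360) (nat_lit 324) (nat_lit 216)) (XT.lf (nat_lit 0) (nat_lit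 3519257605) (nat_lit 608) (nat_lit 9702903926) (nat_lit 684) (nat_lit 2211641873) (nat_lit 233) (nat_lit 5) (nat_lit 241) (nat_lit 5) (nat_lit 242) (nat_lit 5) (nat_lit 361) (nat_lit 324) (nat_lit 215))) (XT.nd (nat_lit 78) (nat_lit 532) (nat_lit 0) (XT.lf (nat_lit 0) (nat_lit 698137851) (nat_lit 608) (nat_lit 936334222) (nat_lit 684) (nat_lit 14068918606) (nat_lit 224) (nat_lit 5) (nat_lit 232) (nat_lit 5) (nat_lit 233) (nat_lit 5) (nat_lit 362) (nat_lit 324) (nat_lit 214)) (XT.nd (nat_lit 78) (nat_lit 532) (nat_lit 0) (XT.lf (nat_lit 0) (nat_lit 5678251735) (nat_lit 684) (nat_lit 2222000001) (nat_lit 76) (nat_lit 8078282028) (nat_lit 224) (nat_lit 5) (nat_lit 233) (nat_lit 5) (nat_lit 225) (nat_lit 5) (nat_lit 363) (nat_lit 324) (nat_lit 213)) (XT.lf (nat_lit 0) (nat_lit 9907881059) (nat_lit 608) (nat_lit 5210984141) (nat_lit 76) (nat_lit 1141782174) (nat_lit 217) (nat_lit 5) (nat_lit 225) (nat_lit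 5) (nat_lit 218) (nat_lit 5) (nat_lit 364) (nat_lit 324) (nat_lit 212))))) (XT.nd (nat_lit 156) (nat_lit 988) (nat_lit 0) (XT.nd (nat_lit 78) (nat_lit 608) (nat_lit 0) (XT.lf (nat_lit 0) (nat_lit 8227802719) (nat_lit 608) (nat_lit 6137389102) (nat_lit 684) (nat_lit 2184023474) (nat_lit 209) (nat_lit 5) (nat_lit 217) (nat_lit 5) (nat_lit 218) (nat_lit 5) (nat_lit 365) (nat_lit 324) (nat_lit 211)) (XT.lf (nat_lit 0) (nat_lit 2152641535) (nat_lit 608) (nat_lit 11540647190) (nat_lit 76) (nat_lit 3151473395) (nat_lit 201) (nat_lit 5) (nat_lit 209) (nat_lit 5) (nat_lit 202) (nat_lit 5) (nat_lit 366) (nat_lit 324) (nat_lit 210))) (XT.nd (nat_lit 78) (nat_lit 456) (nat_lit 0) (XT.lf (nat_lit 0) (nat_lit 2251835919) (nat_lit 532) (nat_lit 4430558678) (nat_lit 608) (nat_lit 10464645059) (nat_lit 194) (nat_lit 5) (nat_lit 201) (nat_lit 5) (nat_lit 202) (nat_lit 5) (nat_lit 367) (nat_lit 324) (nat_lit 209)) (XT.nd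 (nat_lit 78) (nat_lit 456) (nat_lit 0) (XT.lf (nat_lit 0) (nat_lit 11440380523) (nat_lit 608) (nat_lit 900330531) (nat_lit 76) (nat_lit 5115833718) (nat_lit 194) (nat_lit 5) (nat_lit 202) (nat_lit 5) (nat_lit 195) (nat_lit 5) (nat_lit 368) (nat_lit 324) (nat_lit 208)) (XT.lf (nat_lit 0) (nat_lit 13638507903) (nat_lit 456) (nat_lit 2801788583) (nat_lit 532) (nat_lit 1333060631) (nat_lit 188) (nat_lit 5) (nat_lit 194) (nat_lit 5) (nat_lit 195) (nat_lit 5) (nat_lit 369) (nat_lit 324) (nat_lit 207)))))) (XT.nd (nat_lit 390) (nat_lit 1748) (nat_lit 0) (XT.nd (nat_lit 156) (nat_lit 988) (nat_lit 0) (XT.nd (nat_lit 78) (nat_lit 456) (nat_lit 0) (XT.lf (nat_lit 0) (nat_lit 3547318247) (nat_lit 608) (nat_lit 7526440489) (nat_lit 76) (nat_lit 7023416217) (nat_lit 180) (nat_lit 5) (nat_lit 188) (nat_lit 5) (nat_lit 181) (nat_lit 5) (nat_lit 370) (nat_lit 324) (nat_lit 206)) (XT.lf (nat_lit 0) (nat_lit 7388099428)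 (nat_lit 456) (nat_lit 1244531476) (nat_lit 532) (nat_lit 9796372956) (nat_lit 174) (nat_lit 5) (nat_lit 180) (nat_lit 5) (nat_lit 181) (nat_lit 5) (nat_lit 371) (nat_lit 324) (nat_lit 205))) (XT.nd (nat_lit 78) (nat_lit 532) (nat_lit 0) (XT.lf (nat_lit 0) (nat_lit 4053689917) (nat_lit 456) (nat_lit 9934078206) (nat_lit 532) (nat_lit 4780679487) (nat_lit 168) (nat_lit 5) (nat_lit 174) (nat_lit 5) (nat_lit 175) (nat_lit 5) (nat_lit 372) (nat_lit 324) (nat_lit 204)) (XT.nd (nat_lit 78) (nat_lit 0) (nat_lit 0) (XT.lf (nat_lit 0) (nat_lit 451231164) (nat_lit 532) (nat_lit 18509989475) (nat_lit 76) (nat_lit 155392960) (nat_lit 161) (nat_lit 5) (nat_lit 168) (nat_lit 5) (nat_lit 162) (nat_lit 5) (nat_lit 373) (nat_lit 324) (nat_lit 203)) (XT.lf (nat_lit 0) (nat_lit 5924840700) (nat_lit 532) (nat_lit 3007794010) (nat_lit 76) (nat_lit 10538968885) (nat_lit 161) (nat_lit 5) (nat_lit 168) (nat_lit 5) (nat_lit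 162) (nat_lit 5) (nat_lit 374) (nat_lit 324) (nat_lit 202))))) (XT.nd (nat_lit 156) (nat_lit 912) (nat_lit 0) (XT.nd (nat_lit 78) (nat_lit 380) (nat_lit 0) (XT.lf (nat_lit 0) (nat_lit 11640374727) (nat_lit 532) (nat_lit 6737947638) (nat_lit 76) (nat_lit 1457371339) (nat_lit 155) (nat_lit 5) (nat_lit 162) (nat_lit 5) (nat_lit 156) (nat_lit 5) (nat_lit 375) (nat_lit 324) (nat_lit 201)) (XT.lf (nat_lit 0) (nat_lit 9559066978) (nat_lit 380) (nat_lit 8093948039) (nat_lit 456) (nat_lit 2555183292) (nat_lit 150) (nat_lit 5) (nat_lit 155) (nat_lit 5) (nat_lit 156) (nat_lit 5) (nat_lit 376) (nat_lit 324) (nat_lit 200))) (XT.nd (nat_lit 78) (nat_lit 380) (nat_lit 0) (XT.lf (nat_lit 0) (nat_lit 3296024642) (nat_lit 532) (nat_lit 14728652695) (nat_lit 76) (nat_lit 2565091588) (nat_lit 143) (nat_lit 5) (nat_lit 150) (nat_lit 5) (nat_lit 144) (nat_lit 5) (nat_lit 377) (nat_lit 324) (nat_lit 199)) (XT.nd (nat_lit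 78) (nat_lit 0) (nat_lit 0) (XT.lf (nat_lit 0) (nat_lit 1961637908) (nat_lit 380) (nat_lit 7449944887) (nat_lit 456) (nat_lit 11568399741) (nat_lit 138) (nat_lit 5) (nat_lit 143) (nat_lit 5) (nat_lit 144) (nat_lit 5) (nat_lit 378) (nat_lit 324) (nat_lit 198)) (XT.lf (nat_lit 0) (nat_lit 15817523667) (nat_lit 456) (nat_lit 2072053677) (nat_lit 76) (nat_lit 3490191019) (nat_lit 138) (nat_lit 5) (nat_lit 144) (nat_lit 5) (nat_lit 139) (nat_lit 5) (nat_lit 379) (nat_lit 324) (nat_lit 197))))))))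
noncomputable def xc93 : XT := (XT.nd (nat_lit 43836) (nat_lit 0) (nat_lit 9956) (XT.nd (nat_lit 43056) (nat_lit 0) (nat_lit 23788) (XT.nd (nat_lit 42666) (nat_lit 0) (nat_lit 26524) (XT.nd (nat_lit 156) (nat_lit 684) (nat_lit 0) (XT.nd (nat_lit 78) (nat_lit 380) (nat_lit 0) (XT.lf (nat_lit 0) (nat_lit 751910275) (nat_lit 456) (nat_lit 6280230845) (nat_lit 76) (nat_lit 14756609522) (nat_lit 132) (nat_lit 5) (nat_lit 138) (nat_lit 5) (nat_lit 133) (nat_lit 5) (nat_lit 380) (nat_lit 324) (nat_lit 196)) (XT.lf (nat_lit 0) (nat_lit 7281827035) (nat_lit 456) (nat_lit 10709034045) (nat_lit 76) (nat_lit 4216371668) (nat_lit 127) (nat_lit 5) (nat_lit 133) (nat_lit 5) (nat_lit 128) (nat_lit 5) (nat_lit 381) (nat_lit 324) (nat_lit 195))) (XT.nd (nat_lit 78) (nat_lit 304) (nat_lit 0) (XT.lf (nat_lit 0) (nat_lit 7284323802) (nat_lit 380) (nat_lit 6845495309) (nat_lit 456) (nat_lit 8506010352) (nat_lit 122) (nat_lit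 5) (nat_lit 127) (nat_lit 5) (nat_lit 128) (nat_lit 5) (nat_lit 382) (nat_lit 324) (nat_lit 194)) (XT.nd (nat_lit 42354) (nat_lit 0) (nat_lit 26448) (XT.lf (nat_lit 0) (nat_lit 2873031987) (nat_lit 304) (nat_lit 18417272138) (nat_lit 380) (nat_lit 1784842484) (nat_lit 118) (nat_lit 5) (nat_lit 122) (nat_lit 5) (nat_lit 123) (nat_lit 5) (nat_lit 383) (nat_lit 324) (nat_lit 193)) (XT.lf (nat_lit 0) (nat_lit 428329259) (nat_lit 1596) (nat_lit 2068876946) (nat_lit 1596) (nat_lit 2068876946) (nat_lit 466) (nat_lit 3) (nat_lit 487) (nat_lit 3) (nat_lit 487) (nat_lit 5) (nat_lit 325) (nat_lit 325) (nat_lit 250))))) (XT.nd (nat_lit 156) (nat_lit 0) (nat_lit 76) (XT.nd (nat_lit 78) (nat_lit 0) (nat_lit 0) (XT.lf (nat_lit 0) (nat_lit 2158105379) (nat_lit 1520) (nat_lit 6844498846) (nat_lit 1596) (nat_lit 240179129) (nat_lit 467) (nat_lit 5) (nat_lit 487) (nat_lit 5) (nat_lit 488) (nat_lit 5) (nat_lit 326) (nat_lit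 325) (nat_lit 249)) (XT.lf (nat_lit 0) (nat_lit 3510589470) (nat_lit 1520) (nat_lit 229531511) (nat_lit 1596) (nat_lit 5616381225) (nat_lit 467) (nat_lit 5) (nat_lit 487) (nat_lit 5) (nat_lit 488) (nat_lit 5) (nat_lit 327) (nat_lit 325) (nat_lit 248))) (XT.nd (nat_lit 78) (nat_lit 0) (nat_lit 0) (XT.lf (nat_lit 0) (nat_lit 4909945504) (nat_lit 1520) (nat_lit 2840108214) (nat_lit 1596) (nat_lit 1723475444) (nat_lit 468) (nat_lit 5) (nat_lit 488) (nat_lit 5) (nat_lit 489) (nat_lit 5) (nat_lit 328) (nat_lit 325) (nat_lit 247)) (XT.nd (nat_lit 78) (nat_lit 0) (nat_lit 76) (XT.lf (nat_lit 76) (nat_lit 4113570823) (nat_lit 0) (nat_lit 2244187555) (nat_lit 1596) (nat_lit 3236200858) (nat_lit 469) (nat_lit 5) (nat_lit 468) (nat_lit 5) (nat_lit 489) (nat_lit 5) (nat_lit 329) (nat_lit 325) (nat_lit 246)) (XT.lf (nat_lit 76) (nat_lit 1567955232) (nat_lit 0) (nat_lit 6287361702) (nat_lit 1596) (nat_lit 1862580250)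 (nat_lit 470) (nat_lit 5) (nat_lit 469) (nat_lit 5) (nat_lit 490) (nat_lit 5) (nat_lit 330) (nat_lit 325) (nat_lit 245)))))) (XT.nd (nat_lit 390) (nat_lit 1368) (nat_lit 0) (XT.nd (nat_lit 156) (nat_lit 0) (nat_lit 76) (XT.nd (nat_lit 78) (nat_lit 1520) (nat_lit 0) (XT.lf (nat_lit 76) (nat_lit 8860651327) (nat_lit 0) (nat_lit 544855947) (nat_lit 1596) (nat_lit 439912477) (nat_lit 470) (nat_lit 5) (nat_lit 469) (nat_lit 5) (nat_lit 490) (nat_lit 5) (nat_lit 331) (nat_lit 325) (nat_lit 244)) (XT.lf (nat_lit 0) (nat_lit 1045781826) (nat_lit 1596) (nat_lit 3565447901) (nat_lit 1672) (nat_lit 5364748793) (nat_lit 449) (nat_lit 5) (nat_lit 470) (nat_lit 5) (nat_lit 471) (nat_lit 5) (nat_lit 332) (nat_lit 325) (nat_lit 243))) (XT.nd (nat_lit 78) (nat_lit 0) (nat_lit 0) (XT.lf (nat_lit 0) (nat_lit 2572935875) (nat_lit 1596) (nat_lit 6170775495) (nat_lit 1672) (nat_lit 1366646233) (nat_lit 450) (nat_lit 5)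 (nat_lit 471) (nat_lit 5) (nat_lit 472) (nat_lit 5) (nat_lit 333) (nat_lit 325) (nat_lit 242)) (XT.nd (nat_lit 78) (nat_lit 0) (nat_lit 76) (XT.lf (nat_lit 76) (nat_lit 1430299157) (nat_lit 0) (nat_lit 2739037948) (nat_lit 1672) (nat_lit 6078980766) (nat_lit 451) (nat_lit 5) (nat_lit 450) (nat_lit 5) (nat_lit 472) (nat_lit 5) (nat_lit 334) (nat_lit 325) (nat_lit 241)) (XT.lf (nat_lit 0) (nat_lit 5838182609) (nat_lit 1596) (nat_lit 1096552095) (nat_lit 1672) (nat_lit 3455209125) (nat_lit 451) (nat_lit 5) (nat_lit 472) (nat_lit 5) (nat_lit 473) (nat_lit 5) (nat_lit 335) (nat_lit 325) (nat_lit 240))))) (XT.nd (nat_lit 156) (nat_lit 1520) (nat_lit 0) (XT.nd (nat_lit 78) (nat_lit 0) (nat_lit 76) (XT.lf (nat_lit 76) (nat_lit 6901380552) (nat_lit 0) (nat_lit 680088842) (nat_lit 1672) (nat_lit 2953879057) (nat_lit 452) (nat_lit 5) (nat_lit 451) (nat_lit 5) (nat_lit 473) (nat_lit 5) (nat_lit 336) (nat_lit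 325) (nat_lit 239)) (XT.lf (nat_lit 76) (nat_lit 4462587871) (nat_lit 0) (nat_lit 4950607537) (nat_lit 1672) (nat_lit 1271213888) (nat_lit 453) (nat_lit 5) (nat_lit 452) (nat_lit 5) (nat_lit 474) (nat_lit 5) (nat_lit 337) (nat_lit 325) (nat_lit 238))) (XT.nd (nat_lit 78) (nat_lit 0) (nat_lit 0) (XT.lf (nat_lit 0) (nat_lit 471187754) (nat_lit 1672) (nat_lit 8842727442) (nat_lit 1748) (nat_lit 1523676575) (nat_lit 431) (nat_lit 5) (nat_lit 453) (nat_lit 5) (nat_lit 454) (nat_lit 5) (nat_lit 338) (nat_lit 325) (nat_lit 237)) (XT.nd (nat_lit 78) (nat_lit 0) (nat_lit 76) (XT.lf (nat_lit 0) (nat_lit 2288131239) (nat_lit 1672) (nat_lit 521373184) (nat_lit 1748) (nat_lit 8184922047) (nat_lit 431) (nat_lit 5) (nat_lit 453) (nat_lit 5) (nat_lit 454) (nat_lit 5) (nat_lit 339) (nat_lit 325) (nat_lit 236)) (XT.lf (nat_lit 0) (nat_lit 4202963933) (nat_lit 1672) (nat_lit 3052404374) (nat_lit 1748) (nat_lit 3899745443)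 (nat_lit 432) (nat_lit 5) (nat_lit 454) (nat_lit 5) (nat_lit 455) (nat_lit 5) (nat_lit 340) (nat_lit 325) (nat_lit 235))))))) (XT.nd (nat_lit 780) (nat_lit 5928) (nat_lit 0) (XT.nd (nat_lit 390) (nat_lit 3496) (nat_lit 0) (XT.nd (nat_lit 156) (nat_lit 2888) (nat_lit 0) (XT.nd (nat_lit 78) (nat_lit 1596) (nat_lit 0) (XT.lf (nat_lit 76) (nat_lit 5700392818) (nat_lit 0) (nat_lit 500044542) (nat_lit 1748) (nat_lit 5119695093) (nat_lit 433) (nat_lit 5) (nat_lit 432) (nat_lit 5) (nat_lit 455) (nat_lit 5) (nat_lit 341) (nat_lit 325) (nat_lit 234)) (XT.lf (nat_lit 0) (nat_lit 3240370158) (nat_lit 1672) (nat_lit 5067952066) (nat_lit 1748) (nat_lit 3180784037) (nat_lit 411) (nat_lit 5) (nat_lit 433) (nat_lit 5) (nat_lit 434) (nat_lit 5) (nat_lit 342) (nat_lit 325) (nat_lit 233))) (XT.nd (nat_lit 78) (nat_lit 1140) (nat_lit 0) (XT.lf (nat_lit 0) (nat_lit 746657762) (nat_lit 1748) (nat_lit 9759018642) (nat_lit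 1824) (nat_lit 1156962099) (nat_lit 388) (nat_lit 5) (nat_lit 411) (nat_lit 5) (nat_lit 412) (nat_lit 5) (nat_lit 343) (nat_lit 325) (nat_lit 232)) (XT.nd (nat_lit 78) (nat_lit 1064) (nat_lit 0) (XT.lf (nat_lit 0) (nat_lit 973632320) (nat_lit 1824) (nat_lit 1783873111) (nat_lit 76) (nat_lit 9082599575) (nat_lit 387) (nat_lit 5) (nat_lit 411) (nat_lit 5) (nat_lit 388) (nat_lit 5) (nat_lit 344) (nat_lit 325) (nat_lit 231)) (XT.lf (nat_lit 0) (nat_lit 3200750622) (nat_lit 1140) (nat_lit 4363743640) (nat_lit 76) (nat_lit 4457294620) (nat_lit 373) (nat_lit 5) (nat_lit 388) (nat_lit 5) (nat_lit 374) (nat_lit 5) (nat_lit 345) (nat_lit 325) (nat_lit 230))))) (XT.nd (nat_lit 156) (nat_lit 1748) (nat_lit 0) (XT.nd (nat_lit 78) (nat_lit 836) (nat_lit 0) (XT.lf (nat_lit 0) (nat_lit 5221386256) (nat_lit 912) (nat_lit 307551577) (nat_lit 988) (nat_lit 6679312781) (nat_lit 361) (nat_lit 5) (nat_lit 373) (nat_lit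 5) (nat_lit 374) (nat_lit 5) (nat_lit 346) (nat_lit 325) (nat_lit 229)) (XT.lf (nat_lit 0) (nat_lit 2715266230) (nat_lit 836) (nat_lit 5276100445) (nat_lit 912) (nat_lit 4407663689) (nat_lit 350) (nat_lit 5) (nat_lit 361) (nat_lit 5) (nat_lit 362) (nat_lit 5) (nat_lit 347) (nat_lit 325) (nat_lit 228))) (XT.nd (nat_lit 78) (nat_lit 912) (nat_lit 0) (XT.lf (nat_lit 0) (nat_lit 167365265) (nat_lit 836) (nat_lit 10396384870) (nat_lit 912) (nat_lit 2031073469) (nat_lit 339) (nat_lit 5) (nat_lit 350) (nat_lit 5) (nat_lit 351) (nat_lit 5) (nat_lit 348) (nat_lit 325) (nat_lit 227)) (XT.nd (nat_lit 78) (nat_lit 836) (nat_lit 0) (XT.lf (nat_lit 0) (nat_lit 484311336) (nat_lit 912) (nat_lit 2414809711) (nat_lit 76) (nat_lit 9895867367) (nat_lit 338) (nat_lit 5) (nat_lit 350) (nat_lit 5) (nat_lit 339) (nat_lit 5) (nat_lit 349) (nat_lit 325) (nat_lit 226)) (XT.lf (nat_lit 0) (nat_lit 3103617767) (nat_lit 912)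 (nat_lit 5070084241) (nat_lit 76) (nat_lit 4826077407) (nat_lit 327) (nat_lit 5) (nat_lit 339) (nat_lit 5) (nat_lit 328) (nat_lit 5) (nat_lit 350) (nat_lit 325) (nat_lit 225)))))) (XT.nd (nat_lit 390) (nat_lit 2812) (nat_lit 0) (XT.nd (nat_lit 156) (nat_lit 1520) (nat_lit 0) (XT.nd (nat_lit 78) (nat_lit 760) (nat_lit 0) (XT.lf (nat_lit 0) (nat_lit 5431853536) (nat_lit 836) (nat_lit 413860640) (nat_lit 912) (nat_lit 7364126283) (nat_lit 316) (nat_lit 5) (nat_lit 327) (nat_lit 5) (nat_lit 328) (nat_lit 5) (nat_lit 351) (nat_lit 325) (nat_lit 224)) (XT.lf (nat_lit 0) (nat_lit 2853536772) (nat_lit 760) (nat_lit 5892546868) (nat_lit 836) (nat_lit 4678609709) (nat_lit 306) (nat_lit 5) (nat_lit 316) (nat_lit 5) (nat_lit 317) (nat_lit 5) (nat_lit 352) (nat_lit 325) (nat_lit 223))) (XT.nd (nat_lit 78) (nat_lit 760) (nat_lit 0) (XT.lf (nat_lit 0) (nat_lit 224712443) (nat_lit 760) (nat_lit 11553701138) (nat_lit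 836) (nat_lit 1866689180) (nat_lit 296) (nat_lit 5) (nat_lit 306) (nat_lit 5) (nat_lit 307) (nat_lit 5) (nat_lit 353) (nat_lit 325) (nat_lit 222)) (XT.nd (nat_lit 78) (nat_lit 684) (nat_lit 0) (XT.lf (nat_lit 0) (nat_lit 1102277202) (nat_lit 836) (nat_lit 2455267184) (nat_lit 76) (nat_lit 10312731989) (nat_lit 295) (nat_lit 5) (nat_lit 306) (nat_lit 5) (nat_lit 296) (nat_lit 5) (nat_lit 354) (nat_lit 325) (nat_lit 221)) (XT.lf (nat_lit 0) (nat_lit 4199235987) (nat_lit 760) (nat_lit 5215231962) (nat_lit 76) (nat_lit 4686213954) (nat_lit 286) (nat_lit 5) (nat_lit 296) (nat_lit 5) (nat_lit 287) (nat_lit 5) (nat_lit 355) (nat_lit 325) (nat_lit 220))))) (XT.nd (nat_lit 156) (nat_lit 1368) (nat_lit 0) (XT.nd (nat_lit 78) (nat_lit 684) (nat_lit 0) (XT.lf (nat_lit 0) (nat_lit 6294557625) (nat_lit 760) (nat_lit 1151903334) (nat_lit 836) (nat_lit 6890400391) (nat_lit 276) (nat_lit 5) (nat_lit 286) (nat_lit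 5) (nat_lit 287) (nat_lit 5) (nat_lit 356) (nat_lit 325) (nat_lit 219)) (XT.lf (nat_lit 0) (nat_lit 3614543694) (nat_lit 684) (nat_lit 7259843465) (nat_lit 760) (nat_lit 3704081976) (nat_lit 267) (nat_lit 5) (nat_lit 276) (nat_lit 5) (nat_lit 277) (nat_lit 5) (nat_lit 357) (nat_lit 325) (nat_lit 218))) (XT.nd (nat_lit 78) (nat_lit 684) (nat_lit 0) (XT.lf (nat_lit 0) (nat_lit 874122556) (nat_lit 684) (nat_lit 13583971786) (nat_lit 760) (nat_lit 368180338) (nat_lit 258) (nat_lit 5) (nat_lit 267) (nat_lit 5) (nat_lit 268) (nat_lit 5) (nat_lit 358) (nat_lit 325) (nat_lit 217)) (XT.nd (nat_lit 78) (nat_lit 608) (nat_lit 0) (XT.lf (nat_lit 0) (nat_lit 3128207775) (nat_lit 760) (nat_lit 1957960004) (nat_lit 76) (nat_lit 9992943353) (nat_lit 257) (nat_lit 5) (nat_lit 267) (nat_lit 5) (nat_lit 258) (nat_lit 5) (nat_lit 359) (nat_lit 325) (nat_lit 216)) (XT.lf (nat_lit 0) (nat_lit 6794943468) (nat_lit 684)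 (nat_lit 4857029032) (nat_lit 76) (nat_lit 3686110098) (nat_lit 249) (nat_lit 5) (nat_lit 258) (nat_lit 5) (nat_lit 250) (nat_lit 5) (nat_lit 360) (nat_lit 325) (nat_lit 215))))))))
noncomputable def xc94 : XT := (XT.nd (nat_lit 1560) (nat_lit 836) (nat_lit 0) (XT.nd (nat_lit 780) (nat_lit 3800) (nat_lit 0) (XT.nd (nat_lit 390) (nat_lit 2204) (nat_lit 0) (XT.nd (nat_lit 156) (nat_lit 1216) (nat_lit 0) (XT.nd (nat_lit 78) (nat_lit 608) (nat_lit 0) (XT.lf (nat_lit 0) (nat_lit 7757529035) (nat_lit 608) (nat_lit 2890311288) (nat_lit 684) (nat_lit 4955467231) (nat_lit 241) (nat_lit 5) (nat_lit 249) (nat_lit 5) (nat_lit 250) (nat_lit 5) (nat_lit 361) (nat_lit 325) (nat_lit 214)) (XT.lf (nat_lit 0) (nat_lit 4940345325) (nat_lit 608) (nat_lit 9759874375) (nat_lit 684) (nat_lit 1174598957) (nat_lit 233) (nat_lit 5) (nat_lit 241) (nat_lit 5) (nat_lit 242) (nat_lit 5) (nat_lit 362) (nat_lit 325) (nat_lit 213)))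 (XT.nd (nat_lit 78) (nat_lit 532) (nat_lit 0) (XT.lf (nat_lit 0) (nat_lit 2027843609) (nat_lit 608) (nat_lit 721364816) (nat_lit 684) (nat_lit 13403616817) (nat_lit 224) (nat_lit 5) (nat_lit 232) (nat_lit 5) (nat_lit 233) (nat_lit 5) (nat_lit 363) (nat_lit 325) (nat_lit 212)) (XT.nd (nat_lit 78) (nat_lit 532) (nat_lit 0) (XT.lf (nat_lit 0) (nat_lit 6884793745) (nat_lit 684) (nat_lit 998513713) (nat_lit 76) (nat_lit 8553515601) (nat_lit 224) (nat_lit 5) (nat_lit 233) (nat_lit 5) (nat_lit 225) (nat_lit 5) (nat_lit 364) (nat_lit 325) (nat_lit 211)) (XT.lf (nat_lit 0) (nat_lit 11221027488) (nat_lit 608) (nat_lit 4079135903) (nat_lit 76) (nat_lit 1427652360) (nat_lit 217) (nat_lit 5) (nat_lit 225) (nat_lit 5) (nat_lit 218) (nat_lit 5) (nat_lit 365) (nat_lit 325) (nat_lit 210))))) (XT.nd (nat_lit 156) (nat_lit 988) (nat_lit 0) (XT.nd (nat_lit 78) (nat_lit 608) (nat_lit 0) (XT.lf (nat_lit 0) (nat_lit 9741915409)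 (nat_lit 608) (nat_lit 6048780565) (nat_lit 684) (nat_lit 1234781662) (nat_lit 209) (nat_lit 5) (nat_lit 217) (nat_lit 5) (nat_lit 218) (nat_lit 5) (nat_lit 366) (nat_lit 325) (nat_lit 209)) (XT.lf (nat_lit 0) (nat_lit 3199503219) (nat_lit 608) (nat_lit 10608642334) (nat_lit 76) (nat_lit 3522006196) (nat_lit 201) (nat_lit 5) (nat_lit 209) (nat_lit 5) (nat_lit 202) (nat_lit 5) (nat_lit 367) (nat_lit 325) (nat_lit 208))) (XT.nd (nat_lit 78) (nat_lit 456) (nat_lit 0) (XT.lf (nat_lit 0) (nat_lit 3576877598) (nat_lit 532) (nat_lit 4267825544) (nat_lit 608) (nat_lit 9797212342) (nat_lit 194) (nat_lit 5) (nat_lit 201) (nat_lit 5) (nat_lit 202) (nat_lit 5) (nat_lit 368) (nat_lit 325) (nat_lit 207)) (XT.nd (nat_lit 78) (nat_lit 0) (nat_lit 0) (XT.lf (nat_lit 0) (nat_lit 314751072) (nat_lit 456) (nat_lit 12406570131) (nat_lit 532) (nat_lit 5239875398) (nat_lit 188) (nat_lit 5) (nat_lit 194) (nat_lit 5) (nat_lit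 195) (nat_lit 5) (nat_lit 369) (nat_lit 325) (nat_lit 206)) (XT.lf (nat_lit 0) (nat_lit 15265542156) (nat_lit 456) (nat_lit 2584303214) (nat_lit 532) (nat_lit 438104177) (nat_lit 188) (nat_lit 5) (nat_lit 194) (nat_lit 5) (nat_lit 195) (nat_lit 5) (nat_lit 370) (nat_lit 325) (nat_lit 205)))))) (XT.nd (nat_lit 390) (nat_lit 1748) (nat_lit 0) (XT.nd (nat_lit 156) (nat_lit 988) (nat_lit 0) (XT.nd (nat_lit 78) (nat_lit 456) (nat_lit 0) (XT.lf (nat_lit 0) (nat_lit 4559400617) (nat_lit 608) (nat_lit 6525429260) (nat_lit 76) (nat_lit 7536879141) (nat_lit 180) (nat_lit 5) (nat_lit 188) (nat_lit 5) (nat_lit 181) (nat_lit 5) (nat_lit 371) (nat_lit 325) (nat_lit 204)) (XT.lf (nat_lit 0) (nat_lit 8816643411) (nat_lit 456) (nat_lit 962086716) (nat_lit 532) (nat_lit 9185141319) (nat_lit 174) (nat_lit 5) (nat_lit 180) (nat_lit 5) (nat_lit 181) (nat_lit 5) (nat_lit 372) (nat_lit 325) (nat_lit 203))) (XT.nd (nat_lit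 78) (nat_lit 532) (nat_lit 0) (XT.lf (nat_lit 0) (nat_lit 5378288996) (nat_lit 456) (nat_lit 9900220366) (nat_lit 532) (nat_lit 4035316965) (nat_lit 168) (nat_lit 5) (nat_lit 174) (nat_lit 5) (nat_lit 175) (nat_lit 5) (nat_lit 373) (nat_lit 325) (nat_lit 202)) (XT.nd (nat_lit 78) (nat_lit 0) (nat_lit 0) (XT.lf (nat_lit 0) (nat_lit 1326287523) (nat_lit 532) (nat_lit 17854860179) (nat_lit 76) (nat_lit 491493533) (nat_lit 161) (nat_lit 5) (nat_lit 168) (nat_lit 5) (nat_lit 162) (nat_lit 5) (nat_lit 374) (nat_lit 325) (nat_lit 201)) (XT.lf (nat_lit 0) (nat_lit 6939012546) (nat_lit 532) (nat_lit 1922854063) (nat_lit 76) (nat_lit 11176923179) (nat_lit 161) (nat_lit 5) (nat_lit 168) (nat_lit 5) (nat_lit 162) (nat_lit 5) (nat_lit 375) (nat_lit 325) (nat_lit 200))))) (XT.nd (nat_lit 156) (nat_lit 912) (nat_lit 0) (XT.nd (nat_lit 78) (nat_lit 380) (nat_lit 0) (XT.lf (nat_lit 0) (nat_lit 12811341895) (nat_lit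 532) (nat_lit 5769545117) (nat_lit 76) (nat_lit 1833215800) (nat_lit 155) (nat_lit 5) (nat_lit 162) (nat_lit 5) (nat_lit 156) (nat_lit 5) (nat_lit 376) (nat_lit 325) (nat_lit 199)) (XT.lf (nat_lit 0) (nat_lit 10997389302) (nat_lit 380) (nat_lit 7990514081) (nat_lit 456) (nat_lit 1810214931) (nat_lit 150) (nat_lit 5) (nat_lit 155) (nat_lit 5) (nat_lit 156) (nat_lit 5) (nat_lit 377) (nat_lit 325) (nat_lit 198))) (XT.nd (nat_lit 78) (nat_lit 380) (nat_lit 0) (XT.lf (nat_lit 0) (nat_lit 4191828193) (nat_lit 532) (nat_lit 14012994975) (nat_lit 76) (nat_lit 2986490979) (nat_lit 143) (nat_lit 5) (nat_lit 150) (nat_lit 5) (nat_lit 144) (nat_lit 5) (nat_lit 378) (nat_lit 325) (nat_lit 197)) (XT.nd (nat_lit 78) (nat_lit 0) (nat_lit 0) (XT.lf (nat_lit 0) (nat_lit 3159225004) (nat_lit 380) (nat_lit 7315810185) (nat_lit 456) (nat_lit 11118521434) (nat_lit 138) (nat_lit 5) (nat_lit 143) (nat_lit 5) (nat_lit 144)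 (nat_lit 5) (nat_lit 379) (nat_lit 325) (nat_lit 196)) (XT.lf (nat_lit 0) (nat_lit 17052658018) (nat_lit 456) (nat_lit 1015534358) (nat_lit 76) (nat_lit 3937559494) (nat_lit 138) (nat_lit 5) (nat_lit 144) (nat_lit 5) (nat_lit 139) (nat_lit 5) (nat_lit 380) (nat_lit 325) (nat_lit 195))))))) (XT.nd (nat_lit 43212) (nat_lit 0) (nat_lit 21584) (XT.nd (nat_lit 42822) (nat_lit 0) (nat_lit 24396) (XT.nd (nat_lit 42588) (nat_lit 0) (nat_lit 25764) (XT.nd (nat_lit 78) (nat_lit 380) (nat_lit 0) (XT.lf (nat_lit 0) (nat_lit 1525194815) (nat_lit 456) (nat_lit 5357941476) (nat_lit 76) (nat_lit 15544074460) (nat_lit 132) (nat_lit 5) (nat_lit 138) (nat_lit 5) (nat_lit 133) (nat_lit 5) (nat_lit 381) (nat_lit 325) (nat_lit 194)) (XT.lf (nat_lit 0) (nat_lit 8238553686) (nat_lit 456) (nat_lit 9925043060) (nat_lit 76) (nat_lit 4694905155) (nat_lit 127) (nat_lit 5) (nat_lit 133) (nat_lit 5) (nat_lit 128) (nat_lit 5) (nat_lit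 382) (nat_lit 325) (nat_lit 193))) (XT.nd (nat_lit 78) (nat_lit 0) (nat_lit 0) (XT.lf (nat_lit 0) (nat_lit 1700392464) (nat_lit 1596) (nat_lit 1488450559) (nat_lit 1596) (nat_lit 1488450559) (nat_lit 466) (nat_lit 3) (nat_lit 487) (nat_lit 3) (nat_lit 487) (nat_lit 5) (nat_lit 326) (nat_lit 326) (nat_lit 248)) (XT.nd (nat_lit 78) (nat_lit 0) (nat_lit 76) (XT.lf (nat_lit 76) (nat_lit 3736031153) (nat_lit 0) (nat_lit 938471902) (nat_lit 1596) (nat_lit 4795389358) (nat_lit 467) (nat_lit 5) (nat_lit 466) (nat_lit 3) (nat_lit 487) (nat_lit 5) (nat_lit 327) (nat_lit 326) (nat_lit 247)) (XT.lf (nat_lit 76) (nat_lit 1061057468) (nat_lit 0) (nat_lit 4936070165) (nat_lit 1596) (nat_lit 3591337119) (nat_lit 468) (nat_lit 5) (nat_lit 467) (nat_lit 5) (nat_lit 488) (nat_lit 5) (nat_lit 328) (nat_lit 326) (nat_lit 246))))) (XT.nd (nat_lit 156) (nat_lit 1520) (nat_lit 0) (XT.nd (nat_lit 78) (nat_lit 0) (nat_lit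 0) (XT.lf (nat_lit 0) (nat_lit 7363797037) (nat_lit 1520) (nat_lit 1608411936) (nat_lit 1596) (nat_lit 738319165) (nat_lit 468) (nat_lit 5) (nat_lit 488) (nat_lit 5) (nat_lit 489) (nat_lit 5) (nat_lit 329) (nat_lit 326) (nat_lit 245)) (XT.lf (nat_lit 76) (nat_lit 5532512342) (nat_lit 0) (nat_lit 3263762265) (nat_lit 1596) (nat_lit 1039503238) (nat_lit 469) (nat_lit 5) (nat_lit 468) (nat_lit 5) (nat_lit 489) (nat_lit 5) (nat_lit 330) (nat_lit 326) (nat_lit 244))) (XT.nd (nat_lit 78) (nat_lit 0) (nat_lit 0) (XT.lf (nat_lit 0) (nat_lit 307093514) (nat_lit 1596) (nat_lit 7025896005) (nat_lit 1672) (nat_lit 2631691701) (nat_lit 448) (nat_lit 5) (nat_lit 469) (nat_lit 5) (nat_lit 470) (nat_lit 5) (nat_lit 331) (nat_lit 326) (nat_lit 243)) (XT.nd (nat_lit 78) (nat_lit 0) (nat_lit 76) (XT.lf (nat_lit 76) (nat_lit 309277227) (nat_lit 0) (nat_lit 1381864788) (nat_lit 1672) (nat_lit 8405967744) (nat_lit 449)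 (nat_lit 5) (nat_lit 448) (nat_lit 5) (nat_lit 470) (nat_lit 5) (nat_lit 332) (nat_lit 326) (nat_lit 242)) (XT.lf (nat_lit 0) (nat_lit 3154532229) (nat_lit 1596) (nat_lit 2329482577) (nat_lit 1672) (nat_lit 4748758409) (nat_lit 449) (nat_lit 5) (nat_lit 470) (nat_lit 5) (nat_lit 471) (nat_lit 5) (nat_lit 333) (nat_lit 326) (nat_lit 241)))))) (XT.nd (nat_lit 390) (nat_lit 1444) (nat_lit 0) (XT.nd (nat_lit 156) (nat_lit 1520) (nat_lit 0) (XT.nd (nat_lit 78) (nat_lit 0) (nat_lit 0) (XT.lf (nat_lit 0) (nat_lit 4670999671) (nat_lit 1596) (nat_lit 4988765795) (nat_lit 1672) (nat_lit 712575524) (nat_lit 450) (nat_lit 5) (nat_lit 471) (nat_lit 5) (nat_lit 472) (nat_lit 5) (nat_lit 334) (nat_lit 326) (nat_lit 240)) (XT.lf (nat_lit 76) (nat_lit 2818160989) (nat_lit 0) (nat_lit 3447003817) (nat_lit 1672) (nat_lit 4250304322) (nat_lit 451) (nat_lit 5) (nat_lit 450) (nat_lit 5) (nat_lit 472) (nat_lit 5) (nat_lit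 335) (nat_lit 326) (nat_lit 239))) (XT.nd (nat_lit 78) (nat_lit 1596) (nat_lit 0) (XT.lf (nat_lit 76) (nat_lit 222315801) (nat_lit 0) (nat_lit 7701858147) (nat_lit 1672) (nat_lit 2738393679) (nat_lit 452) (nat_lit 5) (nat_lit 451) (nat_lit 5) (nat_lit 473) (nat_lit 5) (nat_lit 336) (nat_lit 326) (nat_lit 238)) (XT.nd (nat_lit 78) (nat_lit 1596) (nat_lit 0) (XT.lf (nat_lit 76) (nat_lit 8435387248) (nat_lit 0) (nat_lit 1235930543) (nat_lit 1672) (nat_lit 1142010406) (nat_lit 452) (nat_lit 5) (nat_lit 451) (nat_lit 5) (nat_lit 473) (nat_lit 5) (nat_lit 337) (nat_lit 326) (nat_lit 237)) (XT.lf (nat_lit 0) (nat_lit 534155490) (nat_lit 1672) (nat_lit 5028591606) (nat_lit 1748) (nat_lit 5405045315) (nat_lit 430) (nat_lit 5) (nat_lit 452) (nat_lit 5) (nat_lit 453) (nat_lit 5) (nat_lit 338) (nat_lit 326) (nat_lit 236))))) (XT.nd (nat_lit 156) (nat_lit 1520) (nat_lit 0) (XT.nd (nat_lit 78) (nat_lit 0) (nat_lit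 0) (XT.lf (nat_lit 0) (nat_lit 2264412321) (nat_lit 1672) (nat_lit 7719657832) (nat_lit 1748) (nat_lit 1142298157) (nat_lit 431) (nat_lit 5) (nat_lit 453) (nat_lit 5) (nat_lit 454) (nat_lit 5) (nat_lit 339) (nat_lit 326) (nat_lit 235)) (XT.lf (nat_lit 76) (nat_lit 821676062) (nat_lit 0) (nat_lit 3267704789) (nat_lit 1748) (nat_lit 7199479273) (nat_lit 432) (nat_lit 5) (nat_lit 431) (nat_lit 5) (nat_lit 454) (nat_lit 5) (nat_lit 340) (nat_lit 326) (nat_lit 234))) (XT.nd (nat_lit 78) (nat_lit 1596) (nat_lit 0) (XT.lf (nat_lit 0) (nat_lit 6012290090) (nat_lit 1672) (nat_lit 1781159817) (nat_lit 1748) (nat_lit 3661927242) (nat_lit 432) (nat_lit 5) (nat_lit 454) (nat_lit 5) (nat_lit 455) (nat_lit 5) (nat_lit 341) (nat_lit 326) (nat_lit 233)) (XT.nd (nat_lit 78) (nat_lit 1596) (nat_lit 0) (XT.lf (nat_lit 76) (nat_lit 7212111208) (nat_lit 0) (nat_lit 817254941) (nat_lit 1748) (nat_lit 3596807820) (nat_lit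 433) (nat_lit 5) (nat_lit 432) (nat_lit 5) (nat_lit 455) (nat_lit 5) (nat_lit 342) (nat_lit 326) (nat_lit 232)) (XT.lf (nat_lit 0) (nat_lit 4691484751) (nat_lit 1672) (nat_lit 5468036344) (nat_lit 1748) (nat_lit 1641535736) (nat_lit 411) (nat_lit 5) (nat_lit 433) (nat_lit 5) (nat_lit 434) (nat_lit 5) (nat_lit 343) (nat_lit 326) (nat_lit 231))))))))
noncomputable def xc95 : XT := (XT.nd (nat_lit 1560) (nat_lit 7676) (nat_lit 0) (XT.nd (nat_lit 780) (nat_lit 5548) (nat_lit 0) (XT.nd (nat_lit 390) (nat_lit 3344) (nat_lit 0) (XT.nd (nat_lit 156) (nat_lit 2812) (nat_lit 0) (XT.nd (nat_lit 78) (nat_lit 0) (nat_lit 0) (XT.lf (nat_lit 0) (nat_lit 397555380) (nat_lit 1824) (nat_lit 9848445960) (nat_lit 76) (nat_lit 1734548404) (nat_lit 387) (nat_lit 5) (nat_lit 411) (nat_lit 5) (nat_lit 388) (nat_lit 5) (nat_lit 344) (nat_lit 326) (nat_lit 230)) (XT.lf (nat_lit 0) (nat_lit 2530605720) (nat_lit 1824) (nat_lit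 490518349) (nat_lit 76) (nat_lit 9142997043) (nat_lit 387) (nat_lit 5) (nat_lit 411) (nat_lit 5) (nat_lit 388) (nat_lit 5) (nat_lit 345) (nat_lit 326) (nat_lit 229))) (XT.nd (nat_lit 78) (nat_lit 1748) (nat_lit 0) (XT.lf (nat_lit 0) (nat_lit 4787559185) (nat_lit 1140) (nat_lit 3138102333) (nat_lit 76) (nat_lit 4426351954) (nat_lit 373) (nat_lit 5) (nat_lit 388) (nat_lit 5) (nat_lit 374) (nat_lit 5) (nat_lit 346) (nat_lit 326) (nat_lit 228)) (XT.nd (nat_lit 78) (nat_lit 836) (nat_lit 0) (XT.lf (nat_lit 0) (nat_lit 6712572989) (nat_lit 912) (nat_lit 438262823) (nat_lit 988) (nat_lit 5393946234) (nat_lit 361) (nat_lit 5) (nat_lit 373) (nat_lit 5) (nat_lit 374) (nat_lit 5) (nat_lit 347) (nat_lit 326) (nat_lit 227)) (XT.lf (nat_lit 0) (nat_lit 4139627894) (nat_lit 836) (nat_lit 5513054224) (nat_lit 912) (nat_lit 3089309522) (nat_lit 350) (nat_lit 5) (nat_lit 361) (nat_lit 5) (nat_lit 362) (nat_lit 5) (nat_lit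 348) (nat_lit 326) (nat_lit 226))))) (XT.nd (nat_lit 156) (nat_lit 2432) (nat_lit 0) (XT.nd (nat_lit 78) (nat_lit 76) (nat_lit 0) (XT.lf (nat_lit 0) (nat_lit 1522544368) (nat_lit 836) (nat_lit 10746557850) (nat_lit 912) (nat_lit 675235996) (nat_lit 339) (nat_lit 5) (nat_lit 350) (nat_lit 5) (nat_lit 351) (nat_lit 5) (nat_lit 349) (nat_lit 326) (nat_lit 225)) (XT.lf (nat_lit 0) (nat_lit 1856305228) (nat_lit 912) (nat_lit 1157846590) (nat_lit 76) (nat_lit 10137002685) (nat_lit 338) (nat_lit 5) (nat_lit 350) (nat_lit 5) (nat_lit 339) (nat_lit 5) (nat_lit 350) (nat_lit 326) (nat_lit 224))) (XT.nd (nat_lit 78) (nat_lit 1596) (nat_lit 0) (XT.lf (nat_lit 0) (nat_lit 4523023784) (nat_lit 912) (nat_lit 3887179713) (nat_lit 76) (nat_lit 4952524640) (nat_lit 327) (nat_lit 5) (nat_lit 339) (nat_lit 5) (nat_lit 328) (nat_lit 5) (nat_lit 351) (nat_lit 326) (nat_lit 223)) (XT.nd (nat_lit 78) (nat_lit 760) (nat_lit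 0) (XT.lf (nat_lit 0) (nat_lit 6908157294) (nat_lit 836) (nat_lit 409122894) (nat_lit 912) (nat_lit 6262427989) (nat_lit 316) (nat_lit 5) (nat_lit 327) (nat_lit 5) (nat_lit 328) (nat_lit 5) (nat_lit 352) (nat_lit 326) (nat_lit 222)) (XT.lf (nat_lit 0) (nat_lit 4257072689) (nat_lit 760) (nat_lit 6018499811) (nat_lit 836) (nat_lit 3526030588) (nat_lit 306) (nat_lit 5) (nat_lit 316) (nat_lit 5) (nat_lit 317) (nat_lit 5) (nat_lit 353) (nat_lit 326) (nat_lit 221)))))) (XT.nd (nat_lit 390) (nat_lit 2584) (nat_lit 0) (XT.nd (nat_lit 156) (nat_lit 2128) (nat_lit 0) (XT.nd (nat_lit 78) (nat_lit 76) (nat_lit 0) (XT.lf (nat_lit 0) (nat_lit 1553089142) (nat_lit 760) (nat_lit 11817778488) (nat_lit 836) (nat_lit 658331486) (nat_lit 296) (nat_lit 5) (nat_lit 306) (nat_lit 5) (nat_lit 307) (nat_lit 5) (nat_lit 354) (nat_lit 326) (nat_lit 220)) (XT.lf (nat_lit 0) (nat_lit 2346778607) (nat_lit 836) (nat_lit 1229232966)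 (nat_lit 76) (nat_lit 10685692600) (nat_lit 295) (nat_lit 5) (nat_lit 306) (nat_lit 5) (nat_lit 296) (nat_lit 5) (nat_lit 355) (nat_lit 326) (nat_lit 219))) (XT.nd (nat_lit 78) (nat_lit 1444) (nat_lit 0) (XT.lf (nat_lit 0) (nat_lit 5510274580) (nat_lit 760) (nat_lit 4069566298) (nat_lit 76) (nat_lit 4919721579) (nat_lit 286) (nat_lit 5) (nat_lit 296) (nat_lit 5) (nat_lit 287) (nat_lit 5) (nat_lit 356) (nat_lit 326) (nat_lit 218)) (XT.nd (nat_lit 78) (nat_lit 684) (nat_lit 0) (XT.lf (nat_lit 0) (nat_lit 7764391584) (nat_lit 760) (nat_lit 1064325447) (nat_lit 836) (nat_lit 5914647021) (nat_lit 276) (nat_lit 5) (nat_lit 286) (nat_lit 5) (nat_lit 287) (nat_lit 5) (nat_lit 357) (nat_lit 326) (nat_lit 217)) (XT.lf (nat_lit 0) (nat_lit 5005634667) (nat_lit 684) (nat_lit 7329190809) (nat_lit 760) (nat_lit 2657900108) (nat_lit 267) (nat_lit 5) (nat_lit 276) (nat_lit 5) (nat_lit 277) (nat_lit 5) (nat_lit 358)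 (nat_lit 326) (nat_lit 216))))) (XT.nd (nat_lit 156) (nat_lit 1824) (nat_lit 0) (XT.nd (nat_lit 78) (nat_lit 0) (nat_lit 0) (XT.lf (nat_lit 0) (nat_lit 743939381) (nat_lit 760) (nat_lit 13069380930) (nat_lit 76) (nat_lit 1435034447) (nat_lit 257) (nat_lit 5) (nat_lit 267) (nat_lit 5) (nat_lit 258) (nat_lit 5) (nat_lit 359) (nat_lit 326) (nat_lit 215)) (XT.lf (nat_lit 0) (nat_lit 4307676839) (nat_lit 760) (nat_lit 755656500) (nat_lit 76) (nat_lit 10446056559) (nat_lit 257) (nat_lit 5) (nat_lit 267) (nat_lit 5) (nat_lit 258) (nat_lit 5) (nat_lit 360) (nat_lit 326) (nat_lit 214))) (XT.nd (nat_lit 78) (nat_lit 1216) (nat_lit 0) (XT.lf (nat_lit 0) (nat_lit 8062008320) (nat_lit 684) (nat_lit 3741703490) (nat_lit 76) (nat_lit 3972877953) (nat_lit 249) (nat_lit 5) (nat_lit 258) (nat_lit 5) (nat_lit 250) (nat_lit 5) (nat_lit 361) (nat_lit 326) (nat_lit 213)) (XT.nd (nat_lit 78) (nat_lit 608) (nat_lit 0) (XT.lf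 (nat_lit 0) (nat_lit 9230832502) (nat_lit 608) (nat_lit 2776746759) (nat_lit 684) (nat_lit 4042661268) (nat_lit 241) (nat_lit 5) (nat_lit 249) (nat_lit 5) (nat_lit 250) (nat_lit 5) (nat_lit 362) (nat_lit 326) (nat_lit 212)) (XT.lf (nat_lit 0) (nat_lit 6328550022) (nat_lit 608) (nat_lit 9831993192) (nat_lit 684) (nat_lit 169783978) (nat_lit 233) (nat_lit 5) (nat_lit 241) (nat_lit 5) (nat_lit 242) (nat_lit 5) (nat_lit 363) (nat_lit 326) (nat_lit 211))))))) (XT.nd (nat_lit 780) (nat_lit 3192) (nat_lit 0) (XT.nd (nat_lit 390) (nat_lit 2052) (nat_lit 0) (XT.nd (nat_lit 156) (nat_lit 1216) (nat_lit 0) (XT.nd (nat_lit 78) (nat_lit 532) (nat_lit 0) (XT.lf (nat_lit 0) (nat_lit 3322312268) (nat_lit 608) (nat_lit 513898933) (nat_lit 684) (nat_lit 12780775423) (nat_lit 224) (nat_lit 5) (nat_lit 232) (nat_lit 5) (nat_lit 233) (nat_lit 5) (nat_lit 364) (nat_lit 326) (nat_lit 210)) (XT.lf (nat_lit 0) (nat_lit 190110827)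 (nat_lit 532) (nat_lit 7879173713) (nat_lit 608) (nat_lit 8840761121) (nat_lit 217) (nat_lit 5) (nat_lit 224) (nat_lit 5) (nat_lit 225) (nat_lit 5) (nat_lit 365) (nat_lit 326) (nat_lit 209))) (XT.nd (nat_lit 78) (nat_lit 1216) (nat_lit 0) (XT.lf (nat_lit 0) (nat_lit 12515250920) (nat_lit 608) (nat_lit 2987278892) (nat_lit 76) (nat_lit 1707654822) (nat_lit 217) (nat_lit 5) (nat_lit 225) (nat_lit 5) (nat_lit 218) (nat_lit 5) (nat_lit 366) (nat_lit 326) (nat_lit 208)) (XT.nd (nat_lit 78) (nat_lit 608) (nat_lit 0) (XT.lf (nat_lit 0) (nat_lit 11228704503) (nat_lit 608) (nat_lit 5973169603) (nat_lit 684) (nat_lit 315314114) (nat_lit 209) (nat_lit 5) (nat_lit 217) (nat_lit 5) (nat_lit 218) (nat_lit 5) (nat_lit 367) (nat_lit 326) (nat_lit 207)) (XT.lf (nat_lit 0) (nat_lit 4221383723) (nat_lit 608) (nat_lit 9722052635) (nat_lit 76) (nat_lit 3887812106) (nat_lit 201) (nat_lit 5) (nat_lit 209) (nat_lit 5) (nat_lit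 202) (nat_lit 5) (nat_lit 368) (nat_lit 326) (nat_lit 206))))) (XT.nd (nat_lit 156) (nat_lit 1064) (nat_lit 0) (XT.nd (nat_lit 78) (nat_lit 456) (nat_lit 0) (XT.lf (nat_lit 0) (nat_lit 4869485653) (nat_lit 532) (nat_lit 4117181929) (nat_lit 608) (nat_lit 9166091415) (nat_lit 194) (nat_lit 5) (nat_lit 201) (nat_lit 5) (nat_lit 202) (nat_lit 5) (nat_lit 369) (nat_lit 326) (nat_lit 205)) (XT.lf (nat_lit 0) (nat_lit 1506600415) (nat_lit 456) (nat_lit 12486010898) (nat_lit 532) (nat_lit 4489354890) (nat_lit 188) (nat_lit 5) (nat_lit 194) (nat_lit 5) (nat_lit 195) (nat_lit 5) (nat_lit 370) (nat_lit 326) (nat_lit 204))) (XT.nd (nat_lit 78) (nat_lit 988) (nat_lit 0) (XT.lf (nat_lit 0) (nat_lit 424391179) (nat_lit 532) (nat_lit 1950363789) (nat_lit 76) (nat_lit 16444237131) (nat_lit 187) (nat_lit 5) (nat_lit 194) (nat_lit 5) (nat_lit 188) (nat_lit 5) (nat_lit 371) (nat_lit 326) (nat_lit 203)) (XT.nd (nat_lit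 78) (nat_lit 456) (nat_lit 0) (XT.lf (nat_lit 0) (nat_lit 5549856707) (nat_lit 608) (nat_lit 5564811287) (nat_lit 76) (nat_lit 8048366265) (nat_lit 180) (nat_lit 5) (nat_lit 188) (nat_lit 5) (nat_lit 181) (nat_lit 5) (nat_lit 372) (nat_lit 326) (nat_lit 202)) (XT.lf (nat_lit 0) (nat_lit 10218762658) (nat_lit 456) (nat_lit 689525334) (nat_lit 532) (nat_lit 8607530486) (nat_lit 174) (nat_lit 5) (nat_lit 180) (nat_lit 5) (nat_lit 181) (nat_lit 5) (nat_lit 373) (nat_lit 326) (nat_lit 201)))))) (XT.nd (nat_lit 390) (nat_lit 1368) (nat_lit 0) (XT.nd (nat_lit 156) (nat_lit 836) (nat_lit 0) (XT.nd (nat_lit 78) (nat_lit 532) (nat_lit 0) (XT.lf (nat_lit 0) (nat_lit 6673569592) (nat_lit 456) (nat_lit 9884398071) (nat_lit 532) (nat_lit 3318613343) (nat_lit 168) (nat_lit 5) (nat_lit 174) (nat_lit 5) (nat_lit 175) (nat_lit 5) (nat_lit 374) (nat_lit 326) (nat_lit 200)) (XT.lf (nat_lit 0) (nat_lit 2178140833) (nat_lit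 532) (nat_lit 17249560579) (nat_lit 76) (nat_lit 818651180) (nat_lit 161) (nat_lit 5) (nat_lit 168) (nat_lit 5) (nat_lit 162) (nat_lit 5) (nat_lit 375) (nat_lit 326) (nat_lit 199))) (XT.nd (nat_lit 78) (nat_lit 836) (nat_lit 0) (XT.lf (nat_lit 0) (nat_lit 7935595238) (nat_lit 532) (nat_lit 872825699) (nat_lit 76) (nat_lit 11815544313) (nat_lit 161) (nat_lit 5) (nat_lit 168) (nat_lit 5) (nat_lit 162) (nat_lit 5) (nat_lit 376) (nat_lit 326) (nat_lit 198)) (XT.nd (nat_lit 78) (nat_lit 380) (nat_lit 0) (XT.lf (nat_lit 0) (nat_lit 13970265926) (nat_lit 532) (nat_lit 4839284359) (nat_lit 76) (nat_lit 2201270357) (nat_lit 155) (nat_lit 5) (nat_lit 162) (nat_lit 5) (nat_lit 156) (nat_lit 5) (nat_lit 377) (nat_lit 326) (nat_lit 197)) (XT.lf (nat_lit 0) (nat_lit 12412757596) (nat_lit 380) (nat_lit 7903853410) (nat_lit 456) (nat_lit 1090062090) (nat_lit 150) (nat_lit 5) (nat_lit 155) (nat_lit 5) (nat_lit 156)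 (nat_lit 5) (nat_lit 378) (nat_lit 326) (nat_lit 196))))) (XT.nd (nat_lit 234) (nat_lit 76) (nat_lit 0) (XT.nd (nat_lit 78) (nat_lit 760) (nat_lit 0) (XT.lf (nat_lit 0) (nat_lit 5068759220) (nat_lit 532) (nat_lit 13342313751) (nat_lit 76) (nat_lit 3400759706) (nat_lit 143) (nat_lit 5) (nat_lit 150) (nat_lit 5) (nat_lit 144) (nat_lit 5) (nat_lit 379) (nat_lit 326) (nat_lit 195)) (XT.nd (nat_lit 78) (nat_lit 380) (nat_lit 0) (XT.lf (nat_lit 0) (nat_lit 4327371495) (nat_lit 380) (nat_lit 7198181042) (nat_lit 456) (nat_lit 10700893838) (nat_lit 138) (nat_lit 5) (nat_lit 143) (nat_lit 5) (nat_lit 144) (nat_lit 5) (nat_lit 380) (nat_lit 326) (nat_lit 194)) (XT.lf (nat_lit 0) (nat_lit 8576155) (nat_lit 380) (nat_lit 18272663878) (nat_lit 456) (nat_lit 4370158307) (nat_lit 133) (nat_lit 5) (nat_lit 138) (nat_lit 5) (nat_lit 139) (nat_lit 5) (nat_lit 381) (nat_lit 326) (nat_lit 193)))) (XT.nd (nat_lit 42588)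 (nat_lit 0) (nat_lit 25384) (XT.lf (nat_lit 0) (nat_lit 2278583078) (nat_lit 456) (nat_lit 4471741937) (nat_lit 76) (nat_lit 16335372331) (nat_lit 132) (nat_lit 5) (nat_lit 138) (nat_lit 5) (nat_lit 133) (nat_lit 5) (nat_lit 382) (nat_lit 326) (nat_lit 192)) (XT.nd (nat_lit 78) (nat_lit 0) (nat_lit 0) (XT.lf (nat_lit 0) (nat_lit 2938333568) (nat_lit 1596) (nat_lit 927493090) (nat_lit 1596) (nat_lit 927493090) (nat_lit 466) (nat_lit 3) (nat_lit 487) (nat_lit 3) (nat_lit 487) (nat_lit 5) (nat_lit 327) (nat_lit 327) (nat_lit 246)) (XT.lf (nat_lit 76) (nat_lit 5039683422) (nat_lit 0) (nat_lit 2087508343) (nat_lit 1596) (nat_lit 2579472513) (nat_lit 467) (nat_lit 5) (nat_lit 466) (nat_lit 3) (nat_lit 487) (nat_lit 5) (nat_lit 328) (nat_lit 327) (nat_lit 245))))))))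
noncomputable def xc96 : XT := (XT.nd (nat_lit 1560) (nat_lit 11628) (nat_lit 0) (XT.nd (nat_lit 780) (nat_lit 5168) (nat_lit 0) (XT.nd (nat_lit 390) (nat_lit 1368) (nat_lit 0) (XT.nd (nat_lit 156) (nat_lit 1520) (nat_lit 0) (XT.nd (nat_lit 78) (nat_lit 0) (nat_lit 0) (XT.lf (nat_lit 76) (nat_lit 2318845256) (nat_lit 0) (nat_lit 6104190982) (nat_lit 1596) (nat_lit 1407118062) (nat_lit 468) (nat_lit 5) (nat_lit 467) (nat_lit 5) (nat_lit 488) (nat_lit 5) (nat_lit 329) (nat_lit 327) (nat_lit 244)) (XT.lf (nat_lit 76) (nat_lit 9540531441) (nat_lit 0) (nat_lit 219753876) (nat_lit 1596) (nat_lit 197033102) (nat_lit 468) (nat_lit 5) (nat_lit 467) (nat_lit 5) (nat_lit 488) (nat_lit 5) (nat_lit 330) (nat_lit 327) (nat_lit 243))) (XT.nd (nat_lit 78) (nat_lit 0) (nat_lit 76) (XT.lf (nat_lit 0) (nat_lit 1077108539) (nat_lit 1596) (nat_lit 3174924718) (nat_lit 1672) (nat_lit 5835316627) (nat_lit 447) (nat_lit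 5) (nat_lit 468) (nat_lit 5) (nat_lit 469) (nat_lit 5) (nat_lit 331) (nat_lit 327) (nat_lit 242)) (XT.nd (nat_lit 78) (nat_lit 0) (nat_lit 0) (XT.lf (nat_lit 0) (nat_lit 2390385172) (nat_lit 1596) (nat_lit 5958429595) (nat_lit 1672) (nat_lit 1872388190) (nat_lit 448) (nat_lit 5) (nat_lit 469) (nat_lit 5) (nat_lit 470) (nat_lit 5) (nat_lit 332) (nat_lit 327) (nat_lit 241)) (XT.lf (nat_lit 76) (nat_lit 1576060855) (nat_lit 0) (nat_lit 2187648768) (nat_lit 1672) (nat_lit 6594966934) (nat_lit 449) (nat_lit 5) (nat_lit 448) (nat_lit 5) (nat_lit 470) (nat_lit 5) (nat_lit 333) (nat_lit 327) (nat_lit 240))))) (XT.nd (nat_lit 156) (nat_lit 1520) (nat_lit 0) (XT.nd (nat_lit 78) (nat_lit 0) (nat_lit 76) (XT.lf (nat_lit 0) (nat_lit 5207295209) (nat_lit 1596) (nat_lit 1133527899) (nat_lit 1672) (nat_lit 4158887436) (nat_lit 449) (nat_lit 5) (nat_lit 470) (nat_lit 5) (nat_lit 471) (nat_lit 5) (nat_lit 334) (nat_lit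 327) (nat_lit 239)) (XT.lf (nat_lit 0) (nat_lit 6715998847) (nat_lit 1596) (nat_lit 3849774828) (nat_lit 1672) (nat_lit 78782560) (nat_lit 450) (nat_lit 5) (nat_lit 471) (nat_lit 5) (nat_lit 472) (nat_lit 5) (nat_lit 335) (nat_lit 327) (nat_lit 238))) (XT.nd (nat_lit 78) (nat_lit 1596) (nat_lit 0) (XT.lf (nat_lit 76) (nat_lit 4170452880) (nat_lit 0) (nat_lit 4140285485) (nat_lit 1672) (nat_lit 2482209844) (nat_lit 451) (nat_lit 5) (nat_lit 450) (nat_lit 5) (nat_lit 472) (nat_lit 5) (nat_lit 336) (nat_lit 327) (nat_lit 237)) (XT.nd (nat_lit 78) (nat_lit 1672) (nat_lit 0) (XT.lf (nat_lit 76) (nat_lit 1517301081) (nat_lit 0) (nat_lit 8452757615) (nat_lit 1672) (nat_lit 975414399) (nat_lit 452) (nat_lit 5) (nat_lit 451) (nat_lit 5) (nat_lit 473) (nat_lit 5) (nat_lit 337) (nat_lit 327) (nat_lit 236)) (XT.lf (nat_lit 0) (nat_lit 607051296) (nat_lit 1672) (nat_lit 1166586173) (nat_lit 1748) (nat_lit 9328115980)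 (nat_lit 429) (nat_lit 5) (nat_lit 451) (nat_lit 5) (nat_lit 452) (nat_lit 5) (nat_lit 338) (nat_lit 327) (nat_lit 235)))))) (XT.nd (nat_lit 390) (nat_lit 5244) (nat_lit 0) (XT.nd (nat_lit 156) (nat_lit 0) (nat_lit 76) (XT.nd (nat_lit 78) (nat_lit 0) (nat_lit 76) (XT.lf (nat_lit 0) (nat_lit 2271674576) (nat_lit 1672) (nat_lit 3886789072) (nat_lit 1748) (nat_lit 5103185621) (nat_lit 430) (nat_lit 5) (nat_lit 452) (nat_lit 5) (nat_lit 453) (nat_lit 5) (nat_lit 339) (nat_lit 327) (nat_lit 234)) (XT.lf (nat_lit 0) (nat_lit 4009306642) (nat_lit 1672) (nat_lit 6642593186) (nat_lit 1748) (nat_lit 773995025) (nat_lit 431) (nat_lit 5) (nat_lit 453) (nat_lit 5) (nat_lit 454) (nat_lit 5) (nat_lit 340) (nat_lit 327) (nat_lit 233))) (XT.nd (nat_lit 78) (nat_lit 0) (nat_lit 76) (XT.lf (nat_lit 76) (nat_lit 2133749363) (nat_lit 0) (nat_lit 3714790117) (nat_lit 1748) (nat_lit 5745552760) (nat_lit 432) (nat_lit 5)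 (nat_lit 431) (nat_lit 5) (nat_lit 454) (nat_lit 5) (nat_lit 341) (nat_lit 327) (nat_lit 232)) (XT.nd (nat_lit 78) (nat_lit 0) (nat_lit 0) (XT.lf (nat_lit 0) (nat_lit 7779271329) (nat_lit 1672) (nat_lit 550009177) (nat_lit 1748) (nat_lit 3437342073) (nat_lit 432) (nat_lit 5) (nat_lit 454) (nat_lit 5) (nat_lit 455) (nat_lit 5) (nat_lit 342) (nat_lit 327) (nat_lit 231)) (XT.lf (nat_lit 76) (nat_lit 8692219107) (nat_lit 0) (nat_lit 1126633615) (nat_lit 1748) (nat_lit 2124470632) (nat_lit 433) (nat_lit 5) (nat_lit 432) (nat_lit 5) (nat_lit 455) (nat_lit 5) (nat_lit 343) (nat_lit 327) (nat_lit 230))))) (XT.nd (nat_lit 156) (nat_lit 1976) (nat_lit 0) (XT.nd (nat_lit 78) (nat_lit 1824) (nat_lit 0) (XT.lf (nat_lit 0) (nat_lit 6108413183) (nat_lit 1672) (nat_lit 5865884310) (nat_lit 1748) (nat_lit 149946836) (nat_lit 411) (nat_lit 5) (nat_lit 433) (nat_lit 5) (nat_lit 434) (nat_lit 5) (nat_lit 344) (nat_lit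 327) (nat_lit 229)) (XT.lf (nat_lit 0) (nat_lit 1892748478) (nat_lit 1824) (nat_lit 8836257635) (nat_lit 76) (nat_lit 1580681440) (nat_lit 387) (nat_lit 5) (nat_lit 411) (nat_lit 5) (nat_lit 388) (nat_lit 5) (nat_lit 345) (nat_lit 327) (nat_lit 228))) (XT.nd (nat_lit 78) (nat_lit 912) (nat_lit 0) (XT.lf (nat_lit 0) (nat_lit 774478579) (nat_lit 1064) (nat_lit 3277138243) (nat_lit 1140) (nat_lit 8447930574) (nat_lit 373) (nat_lit 5) (nat_lit 387) (nat_lit 5) (nat_lit 388) (nat_lit 5) (nat_lit 346) (nat_lit 327) (nat_lit 227)) (XT.nd (nat_lit 78) (nat_lit 912) (nat_lit 0) (XT.lf (nat_lit 0) (nat_lit 6336394787) (nat_lit 1140) (nat_lit 1953563514) (nat_lit 76) (nat_lit 4403933253) (nat_lit 373) (nat_lit 5) (nat_lit 388) (nat_lit 5) (nat_lit 374) (nat_lit 5) (nat_lit 347) (nat_lit 327) (nat_lit 226)) (XT.lf (nat_lit 0) (nat_lit 8171886973) (nat_lit 912) (nat_lit 565921687) (nat_lit 988) (nat_lit 4155306585)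 (nat_lit 361) (nat_lit 5) (nat_lit 373) (nat_lit 5) (nat_lit 374) (nat_lit 5) (nat_lit 348) (nat_lit 327) (nat_lit 225))))))) (XT.nd (nat_lit 780) (nat_lit 5168) (nat_lit 0) (XT.nd (nat_lit 390) (nat_lit 3040) (nat_lit 0) (XT.nd (nat_lit 156) (nat_lit 1672) (nat_lit 0) (XT.nd (nat_lit 78) (nat_lit 912) (nat_lit 0) (XT.lf (nat_lit 0) (nat_lit 5529632244) (nat_lit 836) (nat_lit 5752600592) (nat_lit 912) (nat_lit 1814674190) (nat_lit 350) (nat_lit 5) (nat_lit 361) (nat_lit 5) (nat_lit 362) (nat_lit 5) (nat_lit 349) (nat_lit 327) (nat_lit 224)) (XT.lf (nat_lit 0) (nat_lit 631555189) (nat_lit 912) (nat_lit 10469245251) (nat_lit 76) (nat_lit 2205080985) (nat_lit 338) (nat_lit 5) (nat_lit 350) (nat_lit 5) (nat_lit 339) (nat_lit 5) (nat_lit 350) (nat_lit 327) (nat_lit 223))) (XT.nd (nat_lit 78) (nat_lit 836) (nat_lit 0) (XT.lf (nat_lit 0) (nat_lit 61316173) (nat_lit 836) (nat_lit 3130616850) (nat_lit 912)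 (nat_lit 10327653740) (nat_lit 327) (nat_lit 5) (nat_lit 338) (nat_lit 5) (nat_lit 339) (nat_lit 5) (nat_lit 351) (nat_lit 327) (nat_lit 222)) (XT.nd (nat_lit 78) (nat_lit 836) (nat_lit 0) (XT.lf (nat_lit 0) (nat_lit 5908877080) (nat_lit 912) (nat_lit 2745422915) (nat_lit 76) (nat_lit 5083817800) (nat_lit 327) (nat_lit 5) (nat_lit 339) (nat_lit 5) (nat_lit 328) (nat_lit 5) (nat_lit 352) (nat_lit 327) (nat_lit 221)) (XT.lf (nat_lit 0) (nat_lit 8353358609) (nat_lit 836) (nat_lit 405227701) (nat_lit 912) (nat_lit 5203602664) (nat_lit 316) (nat_lit 5) (nat_lit 327) (nat_lit 5) (nat_lit 328) (nat_lit 5) (nat_lit 353) (nat_lit 327) (nat_lit 220))))) (XT.nd (nat_lit 156) (nat_lit 1444) (nat_lit 0) (XT.nd (nat_lit 78) (nat_lit 836) (nat_lit 0) (XT.lf (nat_lit 0) (nat_lit 5627060121) (nat_lit 760) (nat_lit 6151148816) (nat_lit 836) (nat_lit 2413093990) (nat_lit 306) (nat_lit 5) (nat_lit 316) (nat_lit 5) (nat_lit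 317) (nat_lit 5) (nat_lit 354) (nat_lit 327) (nat_lit 219)) (XT.lf (nat_lit 0) (nat_lit 506960358) (nat_lit 836) (nat_lit 11584153600) (nat_lit 76) (nat_lit 2335087539) (nat_lit 295) (nat_lit 5) (nat_lit 306) (nat_lit 5) (nat_lit 296) (nat_lit 5) (nat_lit 355) (nat_lit 327) (nat_lit 218))) (XT.nd (nat_lit 78) (nat_lit 1444) (nat_lit 0) (XT.lf (nat_lit 0) (nat_lit 3559073839) (nat_lit 836) (nat_lit 41025373) (nat_lit 76) (nat_lit 11066192354) (nat_lit 295) (nat_lit 5) (nat_lit 306) (nat_lit 5) (nat_lit 296) (nat_lit 5) (nat_lit 356) (nat_lit 327) (nat_lit 217)) (XT.nd (nat_lit 78) (nat_lit 760) (nat_lit 0) (XT.lf (nat_lit 0) (nat_lit 6792616953) (nat_lit 760) (nat_lit 2964277830) (nat_lit 76) (nat_lit 5154900376) (nat_lit 286) (nat_lit 5) (nat_lit 296) (nat_lit 5) (nat_lit 287) (nat_lit 5) (nat_lit 357) (nat_lit 327) (nat_lit 216)) (XT.lf (nat_lit 0) (nat_lit 9204786080) (nat_lit 760) (nat_lit 981131270)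 (nat_lit 836) (nat_lit 4977499399) (nat_lit 276) (nat_lit 5) (nat_lit 286) (nat_lit 5) (nat_lit 287) (nat_lit 5) (nat_lit 358) (nat_lit 327) (nat_lit 215)))))) (XT.nd (nat_lit 390) (nat_lit 2508) (nat_lit 0) (XT.nd (nat_lit 156) (nat_lit 1216) (nat_lit 0) (XT.nd (nat_lit 78) (nat_lit 760) (nat_lit 0) (XT.lf (nat_lit 0) (nat_lit 6364828745) (nat_lit 684) (nat_lit 7409140095) (nat_lit 760) (nat_lit 1646766787) (nat_lit 267) (nat_lit 5) (nat_lit 276) (nat_lit 5) (nat_lit 277) (nat_lit 5) (nat_lit 359) (nat_lit 327) (nat_lit 214)) (XT.lf (nat_lit 0) (nat_lit 1820260311) (nat_lit 760) (nat_lit 12237149442) (nat_lit 76) (nat_lit 1626944611) (nat_lit 257) (nat_lit 5) (nat_lit 267) (nat_lit 5) (nat_lit 258) (nat_lit 5) (nat_lit 360) (nat_lit 327) (nat_lit 213))) (XT.nd (nat_lit 78) (nat_lit 608) (nat_lit 0) (XT.lf (nat_lit 0) (nat_lit 415780152) (nat_lit 608) (nat_lit 5047130152) (nat_lit 684) (nat_lit 10490881051)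 (nat_lit 249) (nat_lit 5) (nat_lit 257) (nat_lit 5) (nat_lit 258) (nat_lit 5) (nat_lit 361) (nat_lit 327) (nat_lit 212)) (XT.nd (nat_lit 78) (nat_lit 608) (nat_lit 0) (XT.lf (nat_lit 0) (nat_lit 9306052138) (nat_lit 684) (nat_lit 2665306831) (nat_lit 76) (nat_lit 4258135129) (nat_lit 249) (nat_lit 5) (nat_lit 258) (nat_lit 5) (nat_lit 250) (nat_lit 5) (nat_lit 362) (nat_lit 327) (nat_lit 211)) (XT.lf (nat_lit 0) (nat_lit 10677120843) (nat_lit 608) (nat_lit 2671271834) (nat_lit 684) (nat_lit 3163403846) (nat_lit 241) (nat_lit 5) (nat_lit 249) (nat_lit 5) (nat_lit 250) (nat_lit 5) (nat_lit 363) (nat_lit 327) (nat_lit 210))))) (XT.nd (nat_lit 156) (nat_lit 1216) (nat_lit 0) (XT.nd (nat_lit 78) (nat_lit 608) (nat_lit 0) (XT.lf (nat_lit 0) (nat_lit 794908243) (nat_lit 684) (nat_lit 9118700863) (nat_lit 76) (nat_lit 6886977616) (nat_lit 232) (nat_lit 5) (nat_lit 241) (nat_lit 5) (nat_lit 233) (nat_lit 5)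 (nat_lit 364) (nat_lit 327) (nat_lit 209)) (XT.lf (nat_lit 0) (nat_lit 4584799386) (nat_lit 608) (nat_lit 313360743) (nat_lit 684) (nat_lit 12198085105) (nat_lit 224) (nat_lit 5) (nat_lit 232) (nat_lit 5) (nat_lit 233) (nat_lit 5) (nat_lit 365) (nat_lit 327) (nat_lit 208))) (XT.nd (nat_lit 78) (nat_lit 684) (nat_lit 0) (XT.lf (nat_lit 0) (nat_lit 1357325854) (nat_lit 532) (nat_lit 7882223882) (nat_lit 608) (nat_lit 8158928962) (nat_lit 217) (nat_lit 5) (nat_lit 224) (nat_lit 5) (nat_lit 225) (nat_lit 5) (nat_lit 366) (nat_lit 327) (nat_lit 207)) (XT.nd (nat_lit 78) (nat_lit 684) (nat_lit 0) (XT.lf (nat_lit 0) (nat_lit 13793331322) (nat_lit 608) (nat_lit 1932368001) (nat_lit 76) (nat_lit 1982442663) (nat_lit 217) (nat_lit 5) (nat_lit 225) (nat_lit 5) (nat_lit 218) (nat_lit 5) (nat_lit 367) (nat_lit 327) (nat_lit 206)) (XT.lf (nat_lit 0) (nat_lit 569264587) (nat_lit 684) (nat_lit 5336962780) (nat_lit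 76) (nat_lit 12118441614) (nat_lit 208) (nat_lit 5) (nat_lit 217) (nat_lit 5) (nat_lit 209) (nat_lit 5) (nat_lit 368) (nat_lit 327) (nat_lit 205))))))))
noncomputable def xc97 : XT := (XT.nd (nat_lit 44070) (nat_lit 0) (nat_lit 14820) (XT.nd (nat_lit 780) (nat_lit 1748) (nat_lit 0) (XT.nd (nat_lit 390) (nat_lit 1900) (nat_lit 0) (XT.nd (nat_lit 156) (nat_lit 1064) (nat_lit 0) (XT.nd (nat_lit 78) (nat_lit 532) (nat_lit 0) (XT.lf (nat_lit 0) (nat_lit 5220770458) (nat_lit 608) (nat_lit 8878028504) (nat_lit 76) (nat_lit 4249658764) (nat_lit 201) (nat_lit 5) (nat_lit 209) (nat_lit 5) (nat_lit 202) (nat_lit 5) (nat_lit 369) (nat_lit 327) (nat_lit 204)) (XT.lf (nat_lit 0) (nat_lit 6132830781) (nat_lit 532) (nat_lit 3978016285) (nat_lit 608) (nat_lit 8569137785) (nat_lit 194) (nat_lit 5) (nat_lit 201) (nat_lit 5) (nat_lit 202) (nat_lit 5) (nat_lit 370) (nat_lit 327) (nat_lit 203))) (XT.nd (nat_lit 78) (nat_lit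 608) (nat_lit 0) (XT.lf (nat_lit 0) (nat_lit 2666330251) (nat_lit 456) (nat_lit 12584640300) (nat_lit 532) (nat_lit 3768425423) (nat_lit 188) (nat_lit 5) (nat_lit 194) (nat_lit 5) (nat_lit 195) (nat_lit 5) (nat_lit 371) (nat_lit 327) (nat_lit 202)) (XT.nd (nat_lit 78) (nat_lit 532) (nat_lit 0) (XT.lf (nat_lit 0) (nat_lit 1256917705) (nat_lit 532) (nat_lit 915665138) (nat_lit 76) (nat_lit 17194337931) (nat_lit 187) (nat_lit 5) (nat_lit 194) (nat_lit 5) (nat_lit 188) (nat_lit 5) (nat_lit 372) (nat_lit 327) (nat_lit 201)) (XT.lf (nat_lit 0) (nat_lit 6521022096) (nat_lit 608) (nat_lit 4641755766) (nat_lit 76) (nat_lit 8558815980) (nat_lit 180) (nat_lit 5) (nat_lit 188) (nat_lit 5) (nat_lit 181) (nat_lit 5) (nat_lit 373) (nat_lit 327) (nat_lit 200))))) (XT.nd (nat_lit 156) (nat_lit 988) (nat_lit 0) (XT.nd (nat_lit 78) (nat_lit 456) (nat_lit 0) (XT.lf (nat_lit 0) (nat_lit 11597641444) (nat_lit 456) (nat_lit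 426090081) (nat_lit 532) (nat_lit 8061566493) (nat_lit 174) (nat_lit 5) (nat_lit 180) (nat_lit 5) (nat_lit 181) (nat_lit 5) (nat_lit 374) (nat_lit 327) (nat_lit 199)) (XT.lf (nat_lit 0) (nat_lit 7942616275) (nat_lit 456) (nat_lit 9886058767) (nat_lit 532) (nat_lit 2628499642) (nat_lit 168) (nat_lit 5) (nat_lit 174) (nat_lit 5) (nat_lit 175) (nat_lit 5) (nat_lit 375) (nat_lit 327) (nat_lit 198))) (XT.nd (nat_lit 78) (nat_lit 456) (nat_lit 0) (XT.lf (nat_lit 0) (nat_lit 3008933907) (nat_lit 532) (nat_lit 16691596925) (nat_lit 76) (nat_lit 1137689783) (nat_lit 161) (nat_lit 5) (nat_lit 168) (nat_lit 5) (nat_lit 162) (nat_lit 5) (nat_lit 376) (nat_lit 327) (nat_lit 197)) (XT.nd (nat_lit 78) (nat_lit 0) (nat_lit 0) (XT.lf (nat_lit 0) (nat_lit 147044718) (nat_lit 456) (nat_lit 8770727311) (nat_lit 532) (nat_lit 12309822642) (nat_lit 155) (nat_lit 5) (nat_lit 161) (nat_lit 5) (nat_lit 162) (nat_lit 5) (nat_lit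 377) (nat_lit 327) (nat_lit 196)) (XT.lf (nat_lit 0) (nat_lit 15119493401) (nat_lit 532) (nat_lit 3944452416) (nat_lit 76) (nat_lit 2562395737) (nat_lit 155) (nat_lit 5) (nat_lit 162) (nat_lit 5) (nat_lit 156) (nat_lit 5) (nat_lit 378) (nat_lit 327) (nat_lit 195)))))) (XT.nd (nat_lit 42900) (nat_lit 0) (nat_lit 23864) (XT.nd (nat_lit 156) (nat_lit 836) (nat_lit 0) (XT.nd (nat_lit 78) (nat_lit 532) (nat_lit 0) (XT.lf (nat_lit 0) (nat_lit 13808277863) (nat_lit 380) (nat_lit 7833328241) (nat_lit 456) (nat_lit 392761795) (nat_lit 150) (nat_lit 5) (nat_lit 155) (nat_lit 5) (nat_lit 156) (nat_lit 5) (nat_lit 379) (nat_lit 327) (nat_lit 194)) (XT.lf (nat_lit 0) (nat_lit 5928877592) (nat_lit 532) (nat_lit 12714144034) (nat_lit 76) (nat_lit 3808818878) (nat_lit 143) (nat_lit 5) (nat_lit 150) (nat_lit 5) (nat_lit 144) (nat_lit 5) (nat_lit 380) (nat_lit 327) (nat_lit 193))) (XT.nd (nat_lit 78) (nat_lit 456)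 (nat_lit 0) (XT.lf (nat_lit 0) (nat_lit 5468946566) (nat_lit 380) (nat_lit 7096374141) (nat_lit 456) (nat_lit 10313858404) (nat_lit 138) (nat_lit 5) (nat_lit 143) (nat_lit 5) (nat_lit 144) (nat_lit 5) (nat_lit 381) (nat_lit 327) (nat_lit 192)) (XT.nd (nat_lit 78) (nat_lit 76) (nat_lit 0) (XT.lf (nat_lit 0) (nat_lit 1015975809) (nat_lit 380) (nat_lit 18496031388) (nat_lit 456) (nat_lit 3805111133) (nat_lit 133) (nat_lit 5) (nat_lit 138) (nat_lit 5) (nat_lit 139) (nat_lit 5) (nat_lit 382) (nat_lit 327) (nat_lit 191)) (XT.lf (nat_lit 0) (nat_lit 3013951992) (nat_lit 456) (nat_lit 3619054923) (nat_lit 76) (nat_lit 17131754207) (nat_lit 132) (nat_lit 5) (nat_lit 138) (nat_lit 5) (nat_lit 133) (nat_lit 5) (nat_lit 383) (nat_lit 327) (nat_lit 190))))) (XT.nd (nat_lit 156) (nat_lit 1520) (nat_lit 0) (XT.nd (nat_lit 78) (nat_lit 0) (nat_lit 0) (XT.lf (nat_lit 0) (nat_lit 4145278307) (nat_lit 1596) (nat_lit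 384471444) (nat_lit 1596) (nat_lit 384471444) (nat_lit 466) (nat_lit 3) (nat_lit 487) (nat_lit 3) (nat_lit 487) (nat_lit 5) (nat_lit 328) (nat_lit 328) (nat_lit 244)) (XT.lf (nat_lit 76) (nat_lit 6314044191) (nat_lit 0) (nat_lit 3206672649) (nat_lit 1596) (nat_lit 432539103) (nat_lit 467) (nat_lit 5) (nat_lit 466) (nat_lit 3) (nat_lit 487) (nat_lit 5) (nat_lit 329) (nat_lit 328) (nat_lit 243))) (XT.nd (nat_lit 78) (nat_lit 0) (nat_lit 0) (XT.lf (nat_lit 0) (nat_lit 701734057) (nat_lit 1596) (nat_lit 6542357966) (nat_lit 1672) (nat_lit 2837548723) (nat_lit 446) (nat_lit 5) (nat_lit 467) (nat_lit 5) (nat_lit 468) (nat_lit 5) (nat_lit 330) (nat_lit 328) (nat_lit 242)) (XT.nd (nat_lit 78) (nat_lit 0) (nat_lit 76) (XT.lf (nat_lit 76) (nat_lit 731996576) (nat_lit 0) (nat_lit 1142432240) (nat_lit 1672) (nat_lit 8339204159) (nat_lit 447) (nat_lit 5) (nat_lit 446) (nat_lit 5) (nat_lit 468) (nat_lit 5) (nat_lit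 331) (nat_lit 328) (nat_lit 241)) (XT.lf (nat_lit 0) (nat_lit 3120690157) (nat_lit 1596) (nat_lit 2091468405) (nat_lit 1672) (nat_lit 5136676623) (nat_lit 447) (nat_lit 5) (nat_lit 468) (nat_lit 5) (nat_lit 469) (nat_lit 5) (nat_lit 332) (nat_lit 328) (nat_lit 240))))))) (XT.nd (nat_lit 780) (nat_lit 7752) (nat_lit 0) (XT.nd (nat_lit 390) (nat_lit 1444) (nat_lit 0) (XT.nd (nat_lit 156) (nat_lit 0) (nat_lit 76) (XT.nd (nat_lit 78) (nat_lit 0) (nat_lit 0) (XT.lf (nat_lit 0) (nat_lit 4417114969) (nat_lit 1596) (nat_lit 4932315587) (nat_lit 1672) (nat_lit 1138424797) (nat_lit 448) (nat_lit 5) (nat_lit 469) (nat_lit 5) (nat_lit 470) (nat_lit 5) (nat_lit 333) (nat_lit 328) (nat_lit 239)) (XT.lf (nat_lit 76) (nat_lit 2808662043) (nat_lit 0) (nat_lit 2973730712) (nat_lit 1672) (nat_lit 4848071063) (nat_lit 449) (nat_lit 5) (nat_lit 448) (nat_lit 5) (nat_lit 470) (nat_lit 5) (nat_lit 334) (nat_lit 328) (nat_lit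 238))) (XT.nd (nat_lit 78) (nat_lit 0) (nat_lit 0) (XT.lf (nat_lit 76) (nat_lit 25981830) (nat_lit 0) (nat_lit 7183423438) (nat_lit 1672) (nat_lit 3567546147) (nat_lit 450) (nat_lit 5) (nat_lit 449) (nat_lit 5) (nat_lit 471) (nat_lit 5) (nat_lit 335) (nat_lit 328) (nat_lit 237)) (XT.nd (nat_lit 78) (nat_lit 0) (nat_lit 76) (XT.lf (nat_lit 76) (nat_lit 8172986349) (nat_lit 0) (nat_lit 543543409) (nat_lit 1672) (nat_lit 2210573775) (nat_lit 450) (nat_lit 5) (nat_lit 449) (nat_lit 5) (nat_lit 471) (nat_lit 5) (nat_lit 336) (nat_lit 328) (nat_lit 236)) (XT.lf (nat_lit 76) (nat_lit 5490539660) (nat_lit 0) (nat_lit 4820504562) (nat_lit 1672) (nat_lit 769887933) (nat_lit 451) (nat_lit 5) (nat_lit 450) (nat_lit 5) (nat_lit 472) (nat_lit 5) (nat_lit 337) (nat_lit 328) (nat_lit 235))))) (XT.nd (nat_lit 156) (nat_lit 0) (nat_lit 76) (XT.nd (nat_lit 78) (nat_lit 0) (nat_lit 0) (XT.lf (nat_lit 0) (nat_lit 724902612)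 (nat_lit 1672) (nat_lit 8466575820) (nat_lit 1748) (nat_lit 2047414232) (nat_lit 429) (nat_lit 5) (nat_lit 451) (nat_lit 5) (nat_lit 452) (nat_lit 5) (nat_lit 338) (nat_lit 328) (nat_lit 234)) (XT.lf (nat_lit 76) (nat_lit 282397) (nat_lit 0) (nat_lit 2291392879) (nat_lit 1748) (nat_lit 9109077260) (nat_lit 430) (nat_lit 5) (nat_lit 429) (nat_lit 5) (nat_lit 452) (nat_lit 5) (nat_lit 339) (nat_lit 328) (nat_lit 233))) (XT.nd (nat_lit 78) (nat_lit 0) (nat_lit 76) (XT.lf (nat_lit 0) (nat_lit 3962498412) (nat_lit 1672) (nat_lit 2784936451) (nat_lit 1748) (nat_lit 4818906268) (nat_lit 430) (nat_lit 5) (nat_lit 452) (nat_lit 5) (nat_lit 453) (nat_lit 5) (nat_lit 340) (nat_lit 328) (nat_lit 232)) (XT.nd (nat_lit 78) (nat_lit 0) (nat_lit 0) (XT.lf (nat_lit 0) (nat_lit 5710283316) (nat_lit 1672) (nat_lit 5608338715) (nat_lit 1748) (nat_lit 417752083) (nat_lit 431) (nat_lit 5) (nat_lit 453) (nat_lit 5) (nat_lit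 454) (nat_lit 5) (nat_lit 341) (nat_lit 328) (nat_lit 231)) (XT.lf (nat_lit 76) (nat_lit 3411281515) (nat_lit 0) (nat_lit 4155250867) (nat_lit 1748) (nat_lit 4343868169) (nat_lit 432) (nat_lit 5) (nat_lit 431) (nat_lit 5) (nat_lit 454) (nat_lit 5) (nat_lit 342) (nat_lit 328) (nat_lit 230)))))) (XT.nd (nat_lit 390) (nat_lit 3496) (nat_lit 0) (XT.nd (nat_lit 156) (nat_lit 4484) (nat_lit 0) (XT.nd (nat_lit 78) (nat_lit 0) (nat_lit 0) (XT.lf (nat_lit 76) (nat_lit 652898402) (nat_lit 0) (nat_lit 8859524601) (nat_lit 1748) (nat_lit 2576558391) (nat_lit 433) (nat_lit 5) (nat_lit 432) (nat_lit 5) (nat_lit 455) (nat_lit 5) (nat_lit 343) (nat_lit 328) (nat_lit 229)) (XT.lf (nat_lit 76) (nat_lit 10144186134) (nat_lit 0) (nat_lit 1428941461) (nat_lit 1748) (nat_lit 698675650) (nat_lit 433) (nat_lit 5) (nat_lit 432) (nat_lit 5) (nat_lit 455) (nat_lit 5) (nat_lit 344) (nat_lit 328) (nat_lit 228))) (XT.nd (nat_lit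 78) (nat_lit 2812) (nat_lit 0) (XT.lf (nat_lit 0) (nat_lit 1280916790) (nat_lit 1748) (nat_lit 4972733829) (nat_lit 76) (nat_lit 6205078876) (nat_lit 410) (nat_lit 5) (nat_lit 433) (nat_lit 5) (nat_lit 411) (nat_lit 5) (nat_lit 345) (nat_lit 328) (nat_lit 227)) (XT.nd (nat_lit 78) (nat_lit 1064) (nat_lit 0) (XT.lf (nat_lit 0) (nat_lit 3347651808) (nat_lit 1824) (nat_lit 7868767643) (nat_lit 76) (nat_lit 1434018164) (nat_lit 387) (nat_lit 5) (nat_lit 411) (nat_lit 5) (nat_lit 388) (nat_lit 5) (nat_lit 346) (nat_lit 328) (nat_lit 226)) (XT.lf (nat_lit 0) (nat_lit 2010293548) (nat_lit 1064) (nat_lit 3528143565) (nat_lit 1140) (nat_lit 7308229962) (nat_lit 373) (nat_lit 5) (nat_lit 387) (nat_lit 5) (nat_lit 388) (nat_lit 5) (nat_lit 347) (nat_lit 328) (nat_lit 225))))) (XT.nd (nat_lit 156) (nat_lit 2584) (nat_lit 0) (XT.nd (nat_lit 78) (nat_lit 912) (nat_lit 0) (XT.lf (nat_lit 0) (nat_lit 7851030721)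 (nat_lit 1140) (nat_lit 806890102) (nat_lit 76) (nat_lit 4389751637) (nat_lit 373) (nat_lit 5) (nat_lit 388) (nat_lit 5) (nat_lit 374) (nat_lit 5) (nat_lit 348) (nat_lit 328) (nat_lit 224)) (XT.lf (nat_lit 0) (nat_lit 9602769658) (nat_lit 912) (nat_lit 690836919) (nat_lit 988) (nat_lit 2959899766) (nat_lit 361) (nat_lit 5) (nat_lit 373) (nat_lit 5) (nat_lit 374) (nat_lit 5) (nat_lit 349) (nat_lit 328) (nat_lit 223))) (XT.nd (nat_lit 78) (nat_lit 1748) (nat_lit 0) (XT.lf (nat_lit 0) (nat_lit 6888673735) (nat_lit 836) (nat_lit 5995076566) (nat_lit 912) (nat_lit 580289251) (nat_lit 350) (nat_lit 5) (nat_lit 361) (nat_lit 5) (nat_lit 362) (nat_lit 5) (nat_lit 350) (nat_lit 328) (nat_lit 222)) (XT.nd (nat_lit 78) (nat_lit 836) (nat_lit 0) (XT.lf (nat_lit 0) (nat_lit 1892774207) (nat_lit 912) (nat_lit 9566726503) (nat_lit 76) (nat_lit 2220222776) (nat_lit 338) (nat_lit 5) (nat_lit 350) (nat_lit 5) (nat_lit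 339) (nat_lit 5) (nat_lit 351) (nat_lit 328) (nat_lit 221)) (XT.lf (nat_lit 0) (nat_lit 1260013937) (nat_lit 836) (nat_lit 3241537546) (nat_lit 912) (nat_lit 9398870978) (nat_lit 327) (nat_lit 5) (nat_lit 338) (nat_lit 5) (nat_lit 339) (nat_lit 5) (nat_lit 352) (nat_lit 328) (nat_lit 220))))))))
noncomputable def xc98 : XT := (XT.nd (nat_lit 1560) (nat_lit 4180) (nat_lit 0) (XT.nd (nat_lit 780) (nat_lit 4636) (nat_lit 0) (XT.nd (nat_lit 390) (nat_lit 2812) (nat_lit 0) (XT.nd (nat_lit 156) (nat_lit 2280) (nat_lit 0) (XT.nd (nat_lit 78) (nat_lit 836) (nat_lit 0) (XT.lf (nat_lit 0) (nat_lit 7264541529) (nat_lit 912) (nat_lit 1641649124) (nat_lit 76) (nat_lit 5220041844) (nat_lit 327) (nat_lit 5) (nat_lit 339) (nat_lit 5) (nat_lit 328) (nat_lit 5) (nat_lit 353) (nat_lit 328) (nat_lit 219)) (XT.lf (nat_lit 0) (nat_lit 9770852190) (nat_lit 836) (nat_lit 402143811) (nat_lit 912) (nat_lit 4184578154) (nat_lit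 316) (nat_lit 5) (nat_lit 327) (nat_lit 5) (nat_lit 328) (nat_lit 5) (nat_lit 354) (nat_lit 328) (nat_lit 218))) (XT.nd (nat_lit 78) (nat_lit 1520) (nat_lit 0) (XT.lf (nat_lit 0) (nat_lit 6966835494) (nat_lit 760) (nat_lit 6290527291) (nat_lit 836) (nat_lit 1336728665) (nat_lit 306) (nat_lit 5) (nat_lit 316) (nat_lit 5) (nat_lit 317) (nat_lit 5) (nat_lit 355) (nat_lit 328) (nat_lit 217)) (XT.nd (nat_lit 78) (nat_lit 684) (nat_lit 0) (XT.lf (nat_lit 0) (nat_lit 1630802056) (nat_lit 836) (nat_lit 10742275701) (nat_lit 76) (nat_lit 2463323638) (nat_lit 295) (nat_lit 5) (nat_lit 306) (nat_lit 5) (nat_lit 296) (nat_lit 5) (nat_lit 356) (nat_lit 328) (nat_lit 216)) (XT.lf (nat_lit 0) (nat_lit 1127288168) (nat_lit 684) (nat_lit 3622219597) (nat_lit 760) (nat_lit 10334697867) (nat_lit 286) (nat_lit 5) (nat_lit 295) (nat_lit 5) (nat_lit 296) (nat_lit 5) (nat_lit 357) (nat_lit 328) (nat_lit 215))))) (XT.nd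 (nat_lit 156) (nat_lit 2052) (nat_lit 0) (XT.nd (nat_lit 78) (nat_lit 760) (nat_lit 0) (XT.lf (nat_lit 0) (nat_lit 8049307267) (nat_lit 760) (nat_lit 1896287080) (nat_lit 76) (nat_lit 5392106677) (nat_lit 286) (nat_lit 5) (nat_lit 296) (nat_lit 5) (nat_lit 287) (nat_lit 5) (nat_lit 358) (nat_lit 328) (nat_lit 214)) (XT.lf (nat_lit 0) (nat_lit 10619079110) (nat_lit 760) (nat_lit 902049854) (nat_lit 836) (nat_lit 4076219205) (nat_lit 276) (nat_lit 5) (nat_lit 286) (nat_lit 5) (nat_lit 287) (nat_lit 5) (nat_lit 359) (nat_lit 328) (nat_lit 213))) (XT.nd (nat_lit 78) (nat_lit 1368) (nat_lit 0) (XT.lf (nat_lit 0) (nat_lit 7695395662) (nat_lit 684) (nat_lit 7499520208) (nat_lit 760) (nat_lit 667919885) (nat_lit 267) (nat_lit 5) (nat_lit 276) (nat_lit 5) (nat_lit 277) (nat_lit 5) (nat_lit 360) (nat_lit 328) (nat_lit 212)) (XT.nd (nat_lit 78) (nat_lit 608) (nat_lit 0) (XT.lf (nat_lit 0) (nat_lit 2868366799)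 (nat_lit 760) (nat_lit 11450231578) (nat_lit 76) (nat_lit 1816066957) (nat_lit 257) (nat_lit 5) (nat_lit 267) (nat_lit 5) (nat_lit 258) (nat_lit 5) (nat_lit 361) (nat_lit 328) (nat_lit 211)) (XT.lf (nat_lit 0) (nat_lit 1563563099) (nat_lit 608) (nat_lit 5035167520) (nat_lit 684) (nat_lit 9813896314) (nat_lit 249) (nat_lit 5) (nat_lit 257) (nat_lit 5) (nat_lit 258) (nat_lit 5) (nat_lit 362) (nat_lit 328) (nat_lit 210)))))) (XT.nd (nat_lit 390) (nat_lit 2204) (nat_lit 0) (XT.nd (nat_lit 156) (nat_lit 1824) (nat_lit 0) (XT.nd (nat_lit 78) (nat_lit 608) (nat_lit 0) (XT.lf (nat_lit 0) (nat_lit 10529887834) (nat_lit 684) (nat_lit 1624851516) (nat_lit 76) (nat_lit 4542416876) (nat_lit 249) (nat_lit 5) (nat_lit 258) (nat_lit 5) (nat_lit 250) (nat_lit 5) (nat_lit 363) (nat_lit 328) (nat_lit 209)) (XT.lf (nat_lit 0) (nat_lit 12099671594) (nat_lit 608) (nat_lit 2573469252) (nat_lit 684) (nat_lit 2315203633)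 (nat_lit 241) (nat_lit 5) (nat_lit 249) (nat_lit 5) (nat_lit 250) (nat_lit 5) (nat_lit 364) (nat_lit 328) (nat_lit 208))) (XT.nd (nat_lit 78) (nat_lit 1140) (nat_lit 0) (XT.lf (nat_lit 0) (nat_lit 1730709673) (nat_lit 684) (nat_lit 8278118990) (nat_lit 76) (nat_lit 7277231978) (nat_lit 232) (nat_lit 5) (nat_lit 241) (nat_lit 5) (nat_lit 233) (nat_lit 5) (nat_lit 365) (nat_lit 328) (nat_lit 207)) (XT.nd (nat_lit 78) (nat_lit 532) (nat_lit 0) (XT.lf (nat_lit 0) (nat_lit 5818410622) (nat_lit 608) (nat_lit 119203116) (nat_lit 684) (nat_lit 11653372948) (nat_lit 224) (nat_lit 5) (nat_lit 232) (nat_lit 5) (nat_lit 233) (nat_lit 5) (nat_lit 366) (nat_lit 328) (nat_lit 206)) (XT.lf (nat_lit 0) (nat_lit 2492881809) (nat_lit 532) (nat_lit 7898759367) (nat_lit 608) (nat_lit 7511006669) (nat_lit 217) (nat_lit 5) (nat_lit 224) (nat_lit 5) (nat_lit 225) (nat_lit 5) (nat_lit 367) (nat_lit 328) (nat_lit 205)))))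 (XT.nd (nat_lit 156) (nat_lit 1520) (nat_lit 0) (XT.nd (nat_lit 78) (nat_lit 684) (nat_lit 0) (XT.lf (nat_lit 0) (nat_lit 15057939890) (nat_lit 608) (nat_lit 911510446) (nat_lit 76) (nat_lit 2252640985) (nat_lit 217) (nat_lit 5) (nat_lit 225) (nat_lit 5) (nat_lit 218) (nat_lit 5) (nat_lit 368) (nat_lit 328) (nat_lit 204)) (XT.lf (nat_lit 0) (nat_lit 1425044252) (nat_lit 684) (nat_lit 4424334549) (nat_lit 76) (nat_lit 12698990888) (nat_lit 208) (nat_lit 5) (nat_lit 217) (nat_lit 5) (nat_lit 209) (nat_lit 5) (nat_lit 369) (nat_lit 328) (nat_lit 203))) (XT.nd (nat_lit 78) (nat_lit 988) (nat_lit 0) (XT.lf (nat_lit 0) (nat_lit 6200039650) (nat_lit 608) (nat_lit 8073876655) (nat_lit 76) (nat_lit 4608284634) (nat_lit 201) (nat_lit 5) (nat_lit 209) (nat_lit 5) (nat_lit 202) (nat_lit 5) (nat_lit 370) (nat_lit 328) (nat_lit 202)) (XT.nd (nat_lit 78) (nat_lit 456) (nat_lit 0) (XT.lf (nat_lit 0) (nat_lit 7369940936)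 (nat_lit 532) (nat_lit 3849754642) (nat_lit 608) (nat_lit 8004328262) (nat_lit 194) (nat_lit 5) (nat_lit 201) (nat_lit 5) (nat_lit 202) (nat_lit 5) (nat_lit 371) (nat_lit 328) (nat_lit 201)) (XT.lf (nat_lit 0) (nat_lit 3796873296) (nat_lit 456) (nat_lit 12702069295) (nat_lit 532) (nat_lit 3074983592) (nat_lit 188) (nat_lit 5) (nat_lit 194) (nat_lit 5) (nat_lit 195) (nat_lit 5) (nat_lit 372) (nat_lit 328) (nat_lit 200))))))) (XT.nd (nat_lit 780) (nat_lit 380) (nat_lit 0) (XT.nd (nat_lit 390) (nat_lit 1748) (nat_lit 0) (XT.nd (nat_lit 156) (nat_lit 1444) (nat_lit 0) (XT.nd (nat_lit 78) (nat_lit 0) (nat_lit 0) (XT.lf (nat_lit 0) (nat_lit 88480203) (nat_lit 532) (nat_lit 1979454719) (nat_lit 608) (nat_lit 17864296164) (nat_lit 180) (nat_lit 5) (nat_lit 187) (nat_lit 5) (nat_lit 188) (nat_lit 5) (nat_lit 373) (nat_lit 328) (nat_lit 199)) (XT.lf (nat_lit 0) (nat_lit 7475131115) (nat_lit 608) (nat_lit 3753579031)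 (nat_lit 76) (nat_lit 9069137559) (nat_lit 180) (nat_lit 5) (nat_lit 188) (nat_lit 5) (nat_lit 181) (nat_lit 5) (nat_lit 374) (nat_lit 328) (nat_lit 198))) (XT.nd (nat_lit 78) (nat_lit 988) (nat_lit 0) (XT.lf (nat_lit 0) (nat_lit 12956331274) (nat_lit 456) (nat_lit 171061478) (nat_lit 532) (nat_lit 7545387371) (nat_lit 174) (nat_lit 5) (nat_lit 180) (nat_lit 5) (nat_lit 181) (nat_lit 5) (nat_lit 375) (nat_lit 328) (nat_lit 197)) (XT.nd (nat_lit 78) (nat_lit 532) (nat_lit 0) (XT.lf (nat_lit 0) (nat_lit 9188378593) (nat_lit 456) (nat_lit 9904696099) (nat_lit 532) (nat_lit 1963012940) (nat_lit 168) (nat_lit 5) (nat_lit 174) (nat_lit 5) (nat_lit 175) (nat_lit 5) (nat_lit 376) (nat_lit 328) (nat_lit 196)) (XT.lf (nat_lit 0) (nat_lit 3820710879) (nat_lit 532) (nat_lit 16178629618) (nat_lit 76) (nat_lit 1449395240) (nat_lit 161) (nat_lit 5) (nat_lit 168) (nat_lit 5) (nat_lit 162) (nat_lit 5) (nat_lit 377)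 (nat_lit 328) (nat_lit 195))))) (XT.nd (nat_lit 156) (nat_lit 1292) (nat_lit 0) (XT.nd (nat_lit 78) (nat_lit 0) (nat_lit 0) (XT.lf (nat_lit 0) (nat_lit 1148724949) (nat_lit 456) (nat_lit 8743549302) (nat_lit 532) (nat_lit 11957813425) (nat_lit 155) (nat_lit 5) (nat_lit 161) (nat_lit 5) (nat_lit 162) (nat_lit 5) (nat_lit 378) (nat_lit 328) (nat_lit 194)) (XT.lf (nat_lit 0) (nat_lit 16261285854) (nat_lit 532) (nat_lit 3082476371) (nat_lit 76) (nat_lit 2917415661) (nat_lit 155) (nat_lit 5) (nat_lit 162) (nat_lit 5) (nat_lit 156) (nat_lit 5) (nat_lit 379) (nat_lit 328) (nat_lit 193))) (XT.nd (nat_lit 78) (nat_lit 836) (nat_lit 0) (XT.lf (nat_lit 0) (nat_lit 279833557) (nat_lit 456) (nat_lit 7496635768) (nat_lit 76) (nat_lit 14905220070) (nat_lit 149) (nat_lit 5) (nat_lit 155) (nat_lit 5) (nat_lit 150) (nat_lit 5) (nat_lit 380) (nat_lit 328) (nat_lit 192)) (XT.nd (nat_lit 78) (nat_lit 380) (nat_lit 0)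 (XT.lf (nat_lit 0) (nat_lit 6774154228) (nat_lit 532) (nat_lit 12126165839) (nat_lit 76) (nat_lit 4211552086) (nat_lit 143) (nat_lit 5) (nat_lit 150) (nat_lit 5) (nat_lit 144) (nat_lit 5) (nat_lit 381) (nat_lit 328) (nat_lit 191)) (XT.lf (nat_lit 0) (nat_lit 6586690075) (nat_lit 380) (nat_lit 7009753318) (nat_lit 456) (nat_lit 9955857577) (nat_lit 138) (nat_lit 5) (nat_lit 143) (nat_lit 5) (nat_lit 144) (nat_lit 5) (nat_lit 382) (nat_lit 328) (nat_lit 190)))))) (XT.nd (nat_lit 42978) (nat_lit 0) (nat_lit 23864) (XT.nd (nat_lit 42744) (nat_lit 0) (nat_lit 23712) (XT.nd (nat_lit 42666) (nat_lit 0) (nat_lit 23712) (XT.lf (nat_lit 0) (nat_lit 1995783361) (nat_lit 380) (nat_lit 18744745483) (nat_lit 456) (nat_lit 3263074513) (nat_lit 133) (nat_lit 5) (nat_lit 138) (nat_lit 5) (nat_lit 139) (nat_lit 5) (nat_lit 383) (nat_lit 328) (nat_lit 189)) (XT.lf (nat_lit 0) (nat_lit 141137245) (nat_lit 0) (nat_lit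 141137245) (nat_lit 1596) (nat_lit 4757715603) (nat_lit 445) (nat_lit 5) (nat_lit 445) (nat_lit 3) (nat_lit 466) (nat_lit 3) (nat_lit 329) (nat_lit 329) (nat_lit 242))) (XT.nd (nat_lit 78) (nat_lit 0) (nat_lit 76) (XT.lf (nat_lit 0) (nat_lit 1629462677) (nat_lit 1596) (nat_lit 2658364990) (nat_lit 1672) (nat_lit 5921763984) (nat_lit 445) (nat_lit 5) (nat_lit 466) (nat_lit 3) (nat_lit 467) (nat_lit 5) (nat_lit 330) (nat_lit 329) (nat_lit 241)) (XT.nd (nat_lit 78) (nat_lit 0) (nat_lit 0) (XT.lf (nat_lit 0) (nat_lit 2732454678) (nat_lit 1596) (nat_lit 5621765355) (nat_lit 1672) (nat_lit 1988766735) (nat_lit 446) (nat_lit 5) (nat_lit 467) (nat_lit 5) (nat_lit 468) (nat_lit 5) (nat_lit 331) (nat_lit 329) (nat_lit 240)) (XT.lf (nat_lit 76) (nat_lit 1852700043) (nat_lit 0) (nat_lit 2036229973) (nat_lit 1672) (nat_lit 6591063255) (nat_lit 447) (nat_lit 5) (nat_lit 446) (nat_lit 5) (nat_lit 468) (nat_lit 5)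 (nat_lit 332) (nat_lit 329) (nat_lit 239))))) (XT.nd (nat_lit 156) (nat_lit 0) (nat_lit 76) (XT.nd (nat_lit 78) (nat_lit 0) (nat_lit 76) (XT.lf (nat_lit 0) (nat_lit 5110124192) (nat_lit 1596) (nat_lit 1043170837) (nat_lit 1672) (nat_lit 4467231346) (nat_lit 447) (nat_lit 5) (nat_lit 468) (nat_lit 5) (nat_lit 469) (nat_lit 5) (nat_lit 333) (nat_lit 329) (nat_lit 238)) (XT.lf (nat_lit 0) (nat_lit 6392420615) (nat_lit 1596) (nat_lit 3944582447) (nat_lit 1672) (nat_lit 427799486) (nat_lit 448) (nat_lit 5) (nat_lit 469) (nat_lit 5) (nat_lit 470) (nat_lit 5) (nat_lit 334) (nat_lit 329) (nat_lit 237))) (XT.nd (nat_lit 78) (nat_lit 0) (nat_lit 76) (XT.lf (nat_lit 76) (nat_lit 4010199086) (nat_lit 0) (nat_lit 3742038194) (nat_lit 1672) (nat_lit 3160404627) (nat_lit 449) (nat_lit 5) (nat_lit 448) (nat_lit 5) (nat_lit 470) (nat_lit 5) (nat_lit 335) (nat_lit 329) (nat_lit 236)) (XT.nd (nat_lit 78) (nat_lit 0)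 (nat_lit 0) (XT.lf (nat_lit 76) (nat_lit 1166389407) (nat_lit 0) (nat_lit 8006467729) (nat_lit 1672) (nat_lit 1891674601) (nat_lit 450) (nat_lit 5) (nat_lit 449) (nat_lit 5) (nat_lit 471) (nat_lit 5) (nat_lit 336) (nat_lit 329) (nat_lit 235)) (XT.lf (nat_lit 76) (nat_lit 9524611010) (nat_lit 0) (nat_lit 1149695914) (nat_lit 1672) (nat_lit 545922124) (nat_lit 450) (nat_lit 5) (nat_lit 449) (nat_lit 5) (nat_lit 471) (nat_lit 5) (nat_lit 337) (nat_lit 329) (nat_lit 234))))))))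
noncomputable def xc99 : XT := (XT.nd (nat_lit 1560) (nat_lit 9652) (nat_lit 0) (XT.nd (nat_lit 780) (nat_lit 6992) (nat_lit 0) (XT.nd (nat_lit 390) (nat_lit 3116) (nat_lit 0) (XT.nd (nat_lit 156) (nat_lit 0) (nat_lit 76) (XT.nd (nat_lit 78) (nat_lit 0) (nat_lit 76) (XT.lf (nat_lit 0) (nat_lit 879545978) (nat_lit 1672) (nat_lit 4603764739) (nat_lit 1748) (nat_lit 5896184498) (nat_lit 428) (nat_lit 5) (nat_lit 450) (nat_lit 5) (nat_lit 451) (nat_lit 5) (nat_lit 338) (nat_lit 329) (nat_lit 233)) (XT.lf (nat_lit 0) (nat_lit 2364524066) (nat_lit 1672) (nat_lit 7553716345) (nat_lit 1748) (nat_lit 1624757401) (nat_lit 429) (nat_lit 5) (nat_lit 451) (nat_lit 5) (nat_lit 452) (nat_lit 5) (nat_lit 339) (nat_lit 329) (nat_lit 232))) (XT.nd (nat_lit 78) (nat_lit 0) (nat_lit 76) (XT.lf (nat_lit 76) (nat_lit 1148216754) (nat_lit 0) (nat_lit 2790413698) (nat_lit 1748) (nat_lit 7771896927) (nat_lit 430) (nat_lit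 5) (nat_lit 429) (nat_lit 5) (nat_lit 452) (nat_lit 5) (nat_lit 340) (nat_lit 329) (nat_lit 231)) (XT.nd (nat_lit 78) (nat_lit 0) (nat_lit 76) (XT.lf (nat_lit 0) (nat_lit 5610898861) (nat_lit 1672) (nat_lit 1719972628) (nat_lit 1748) (nat_lit 4551205645) (nat_lit 430) (nat_lit 5) (nat_lit 452) (nat_lit 5) (nat_lit 453) (nat_lit 5) (nat_lit 341) (nat_lit 329) (nat_lit 230)) (XT.lf (nat_lit 0) (nat_lit 7371550789) (nat_lit 1672) (nat_lit 4613866408) (nat_lit 1748) (nat_lit 72604570) (nat_lit 431) (nat_lit 5) (nat_lit 453) (nat_lit 5) (nat_lit 454) (nat_lit 5) (nat_lit 342) (nat_lit 329) (nat_lit 229))))) (XT.nd (nat_lit 156) (nat_lit 3344) (nat_lit 0) (XT.nd (nat_lit 78) (nat_lit 0) (nat_lit 76) (XT.lf (nat_lit 76) (nat_lit 4657478638) (nat_lit 0) (nat_lit 4590038515) (nat_lit 1748) (nat_lit 2990490016) (nat_lit 432) (nat_lit 5) (nat_lit 431) (nat_lit 5) (nat_lit 454) (nat_lit 5) (nat_lit 343) (nat_lit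 329) (nat_lit 228)) (XT.lf (nat_lit 76) (nat_lit 1828990650) (nat_lit 0) (nat_lit 9385998532) (nat_lit 1748) (nat_lit 1207710385) (nat_lit 433) (nat_lit 5) (nat_lit 432) (nat_lit 5) (nat_lit 455) (nat_lit 5) (nat_lit 344) (nat_lit 329) (nat_lit 227))) (XT.nd (nat_lit 78) (nat_lit 1672) (nat_lit 0) (XT.lf (nat_lit 0) (nat_lit 675412243) (nat_lit 1748) (nat_lit 1044960423) (nat_lit 1824) (nat_lit 10891387779) (nat_lit 409) (nat_lit 5) (nat_lit 432) (nat_lit 5) (nat_lit 433) (nat_lit 5) (nat_lit 345) (nat_lit 329) (nat_lit 226)) (XT.nd (nat_lit 78) (nat_lit 1748) (nat_lit 0) (XT.lf (nat_lit 0) (nat_lit 2670401372) (nat_lit 1748) (nat_lit 3969526843) (nat_lit 76) (nat_lit 6164980717) (nat_lit 410) (nat_lit 5) (nat_lit 433) (nat_lit 5) (nat_lit 411) (nat_lit 5) (nat_lit 346) (nat_lit 329) (nat_lit 225)) (XT.lf (nat_lit 0) (nat_lit 4765944381) (nat_lit 1824) (nat_lit 6943007954) (nat_lit 76) (nat_lit 1294096190)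 (nat_lit 387) (nat_lit 5) (nat_lit 411) (nat_lit 5) (nat_lit 388) (nat_lit 5) (nat_lit 347) (nat_lit 329) (nat_lit 224)))))) (XT.nd (nat_lit 390) (nat_lit 3268) (nat_lit 0) (XT.nd (nat_lit 156) (nat_lit 1748) (nat_lit 0) (XT.nd (nat_lit 78) (nat_lit 912) (nat_lit 0) (XT.lf (nat_lit 0) (nat_lit 3213575879) (nat_lit 1064) (nat_lit 3777913948) (nat_lit 1140) (nat_lit 6214310183) (nat_lit 373) (nat_lit 5) (nat_lit 387) (nat_lit 5) (nat_lit 388) (nat_lit 5) (nat_lit 348) (nat_lit 329) (nat_lit 223)) (XT.lf (nat_lit 0) (nat_lit 309048720) (nat_lit 912) (nat_lit 9028029313) (nat_lit 988) (nat_lit 4076500598) (nat_lit 361) (nat_lit 5) (nat_lit 373) (nat_lit 5) (nat_lit 374) (nat_lit 5) (nat_lit 349) (nat_lit 329) (nat_lit 222))) (XT.nd (nat_lit 78) (nat_lit 1748) (nat_lit 0) (XT.lf (nat_lit 0) (nat_lit 11008513297) (nat_lit 912) (nat_lit 813303548) (nat_lit 988) (nat_lit 1804407933) (nat_lit 361) (nat_lit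 5) (nat_lit 373) (nat_lit 5) (nat_lit 374) (nat_lit 5) (nat_lit 350) (nat_lit 329) (nat_lit 221)) (XT.nd (nat_lit 78) (nat_lit 836) (nat_lit 0) (XT.lf (nat_lit 0) (nat_lit 609049452) (nat_lit 912) (nat_lit 5627677895) (nat_lit 76) (nat_lit 7606858140) (nat_lit 349) (nat_lit 5) (nat_lit 361) (nat_lit 5) (nat_lit 350) (nat_lit 5) (nat_lit 351) (nat_lit 329) (nat_lit 220)) (XT.lf (nat_lit 0) (nat_lit 3120518280) (nat_lit 912) (nat_lit 8706969786) (nat_lit 76) (nat_lit 2238747039) (nat_lit 338) (nat_lit 5) (nat_lit 350) (nat_lit 5) (nat_lit 339) (nat_lit 5) (nat_lit 352) (nat_lit 329) (nat_lit 219))))) (XT.nd (nat_lit 156) (nat_lit 2432) (nat_lit 0) (XT.nd (nat_lit 78) (nat_lit 0) (nat_lit 0) (XT.lf (nat_lit 0) (nat_lit 2425968073) (nat_lit 836) (nat_lit 3354809868) (nat_lit 912) (nat_lit 8513326151) (nat_lit 327) (nat_lit 5) (nat_lit 338) (nat_lit 5) (nat_lit 339) (nat_lit 5) (nat_lit 353) (nat_lit 329)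 (nat_lit 218)) (XT.lf (nat_lit 0) (nat_lit 8593231037) (nat_lit 912) (nat_lit 572851206) (nat_lit 76) (nat_lit 5361287751) (nat_lit 327) (nat_lit 5) (nat_lit 339) (nat_lit 5) (nat_lit 328) (nat_lit 5) (nat_lit 354) (nat_lit 329) (nat_lit 217))) (XT.nd (nat_lit 78) (nat_lit 1596) (nat_lit 0) (XT.lf (nat_lit 0) (nat_lit 11163886157) (nat_lit 836) (nat_lit 399842285) (nat_lit 912) (nat_lit 3202440327) (nat_lit 316) (nat_lit 5) (nat_lit 327) (nat_lit 5) (nat_lit 328) (nat_lit 5) (nat_lit 355) (nat_lit 329) (nat_lit 216)) (XT.nd (nat_lit 78) (nat_lit 836) (nat_lit 0) (XT.lf (nat_lit 0) (nat_lit 8279586029) (nat_lit 760) (nat_lit 6436679259) (nat_lit 836) (nat_lit 294015797) (nat_lit 306) (nat_lit 5) (nat_lit 316) (nat_lit 5) (nat_lit 317) (nat_lit 5) (nat_lit 356) (nat_lit 329) (nat_lit 215)) (XT.lf (nat_lit 0) (nat_lit 2724718942) (nat_lit 836) (nat_lit 9943418034) (nat_lit 76) (nat_lit 2592066850) (nat_lit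 295) (nat_lit 5) (nat_lit 306) (nat_lit 5) (nat_lit 296) (nat_lit 5) (nat_lit 357) (nat_lit 329) (nat_lit 214))))))) (XT.nd (nat_lit 780) (nat_lit 4256) (nat_lit 0) (XT.nd (nat_lit 390) (nat_lit 2508) (nat_lit 0) (XT.nd (nat_lit 156) (nat_lit 2204) (nat_lit 0) (XT.nd (nat_lit 78) (nat_lit 0) (nat_lit 0) (XT.lf (nat_lit 0) (nat_lit 2264043814) (nat_lit 684) (nat_lit 3649666323) (nat_lit 760) (nat_lit 9602208919) (nat_lit 286) (nat_lit 5) (nat_lit 295) (nat_lit 5) (nat_lit 296) (nat_lit 5) (nat_lit 358) (nat_lit 329) (nat_lit 213)) (XT.lf (nat_lit 0) (nat_lit 9283256846) (nat_lit 760) (nat_lit 862668496) (nat_lit 76) (nat_lit 5631689925) (nat_lit 286) (nat_lit 5) (nat_lit 296) (nat_lit 5) (nat_lit 287) (nat_lit 5) (nat_lit 359) (nat_lit 329) (nat_lit 212))) (XT.nd (nat_lit 78) (nat_lit 1444) (nat_lit 0) (XT.lf (nat_lit 0) (nat_lit 12010466496) (nat_lit 760) (nat_lit 826825220) (nat_lit 836) (nat_lit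 3208209639) (nat_lit 276) (nat_lit 5) (nat_lit 286) (nat_lit 5) (nat_lit 287) (nat_lit 5) (nat_lit 360) (nat_lit 329) (nat_lit 211)) (XT.nd (nat_lit 78) (nat_lit 684) (nat_lit 0) (XT.lf (nat_lit 0) (nat_lit 277577809) (nat_lit 760) (nat_lit 7320742483) (nat_lit 76) (nat_lit 8721020116) (nat_lit 266) (nat_lit 5) (nat_lit 276) (nat_lit 5) (nat_lit 267) (nat_lit 5) (nat_lit 361) (nat_lit 329) (nat_lit 210)) (XT.lf (nat_lit 0) (nat_lit 3890885594) (nat_lit 760) (nat_lit 10705952357) (nat_lit 76) (nat_lit 2002808375) (nat_lit 257) (nat_lit 5) (nat_lit 267) (nat_lit 5) (nat_lit 258) (nat_lit 5) (nat_lit 362) (nat_lit 329) (nat_lit 209))))) (XT.nd (nat_lit 156) (nat_lit 1900) (nat_lit 0) (XT.nd (nat_lit 78) (nat_lit 0) (nat_lit 0) (XT.lf (nat_lit 0) (nat_lit 2680608123) (nat_lit 608) (nat_lit 5032224491) (nat_lit 684) (nat_lit 9173530313) (nat_lit 249) (nat_lit 5) (nat_lit 257) (nat_lit 5) (nat_lit 258)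 (nat_lit 5) (nat_lit 363) (nat_lit 329) (nat_lit 208)) (XT.lf (nat_lit 0) (nat_lit 11736211589) (nat_lit 684) (nat_lit 617498918) (nat_lit 76) (nat_lit 4826241170) (nat_lit 249) (nat_lit 5) (nat_lit 258) (nat_lit 5) (nat_lit 250) (nat_lit 5) (nat_lit 364) (nat_lit 329) (nat_lit 207))) (XT.nd (nat_lit 78) (nat_lit 1292) (nat_lit 0) (XT.lf (nat_lit 0) (nat_lit 13501625947) (nat_lit 608) (nat_lit 2482947119) (nat_lit 684) (nat_lit 1495695345) (nat_lit 241) (nat_lit 5) (nat_lit 249) (nat_lit 5) (nat_lit 250) (nat_lit 5) (nat_lit 365) (nat_lit 329) (nat_lit 206)) (XT.nd (nat_lit 78) (nat_lit 608) (nat_lit 0) (XT.lf (nat_lit 0) (nat_lit 2642235245) (nat_lit 684) (nat_lit 7476276020) (nat_lit 76) (nat_lit 7668651995) (nat_lit 232) (nat_lit 5) (nat_lit 241) (nat_lit 5) (nat_lit 233) (nat_lit 5) (nat_lit 366) (nat_lit 329) (nat_lit 205)) (XT.lf (nat_lit 0) (nat_lit 6957465905) (nat_lit 684) (nat_lit 11075949187)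 (nat_lit 76) (nat_lit 68187968) (nat_lit 224) (nat_lit 5) (nat_lit 233) (nat_lit 5) (nat_lit 225) (nat_lit 5) (nat_lit 367) (nat_lit 329) (nat_lit 204)))))) (XT.nd (nat_lit 390) (nat_lit 1976) (nat_lit 0) (XT.nd (nat_lit 156) (nat_lit 1140) (nat_lit 0) (XT.nd (nat_lit 78) (nat_lit 608) (nat_lit 0) (XT.lf (nat_lit 0) (nat_lit 3599656366) (nat_lit 532) (nat_lit 7928415870) (nat_lit 608) (nat_lit 6894890774) (nat_lit 217) (nat_lit 5) (nat_lit 224) (nat_lit 5) (nat_lit 225) (nat_lit 5) (nat_lit 368) (nat_lit 329) (nat_lit 203)) (XT.lf (nat_lit 0) (nat_lit 79080819) (nat_lit 608) (nat_lit 16233079445) (nat_lit 684) (nat_lit 2440281403) (nat_lit 209) (nat_lit 5) (nat_lit 217) (nat_lit 5) (nat_lit 218) (nat_lit 5) (nat_lit 369) (nat_lit 329) (nat_lit 202))) (XT.nd (nat_lit 78) (nat_lit 1064) (nat_lit 0) (XT.lf (nat_lit 0) (nat_lit 2258352397) (nat_lit 684) (nat_lit 3545906970) (nat_lit 76) (nat_lit 13284500181)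 (nat_lit 208) (nat_lit 5) (nat_lit 217) (nat_lit 5) (nat_lit 209) (nat_lit 5) (nat_lit 370) (nat_lit 329) (nat_lit 201)) (XT.nd (nat_lit 78) (nat_lit 532) (nat_lit 0) (XT.lf (nat_lit 0) (nat_lit 7161463667) (nat_lit 608) (nat_lit 7307050911) (nat_lit 76) (nat_lit 4964401121) (nat_lit 201) (nat_lit 5) (nat_lit 209) (nat_lit 5) (nat_lit 202) (nat_lit 5) (nat_lit 371) (nat_lit 329) (nat_lit 200)) (XT.lf (nat_lit 0) (nat_lit 8583710699) (nat_lit 532) (nat_lit 3731858524) (nat_lit 608) (nat_lit 7469753936) (nat_lit 194) (nat_lit 5) (nat_lit 201) (nat_lit 5) (nat_lit 202) (nat_lit 5) (nat_lit 372) (nat_lit 329) (nat_lit 199))))) (XT.nd (nat_lit 156) (nat_lit 912) (nat_lit 0) (XT.nd (nat_lit 78) (nat_lit 608) (nat_lit 0) (XT.lf (nat_lit 0) (nat_lit 4901026584) (nat_lit 456) (nat_lit 12837952551) (nat_lit 532) (nat_lit 2407034595) (nat_lit 188) (nat_lit 5) (nat_lit 194) (nat_lit 5) (nat_lit 195) (nat_lit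 5) (nat_lit 373) (nat_lit 329) (nat_lit 198)) (XT.lf (nat_lit 0) (nat_lit 1075345248) (nat_lit 532) (nat_lit 1789394924) (nat_lit 608) (nat_lit 17650544654) (nat_lit 180) (nat_lit 5) (nat_lit 187) (nat_lit 5) (nat_lit 188) (nat_lit 5) (nat_lit 374) (nat_lit 329) (nat_lit 197))) (XT.nd (nat_lit 78) (nat_lit 912) (nat_lit 0) (XT.lf (nat_lit 0) (nat_lit 8414323644) (nat_lit 608) (nat_lit 2897735645) (nat_lit 76) (nat_lit 9580213570) (nat_lit 180) (nat_lit 5) (nat_lit 188) (nat_lit 5) (nat_lit 181) (nat_lit 5) (nat_lit 375) (nat_lit 329) (nat_lit 196)) (XT.nd (nat_lit 78) (nat_lit 456) (nat_lit 0) (XT.lf (nat_lit 0) (nat_lit 14222010519) (nat_lit 532) (nat_lit 6981487188) (nat_lit 76) (nat_lit 75244556) (nat_lit 174) (nat_lit 5) (nat_lit 181) (nat_lit 5) (nat_lit 175) (nat_lit 5) (nat_lit 376) (nat_lit 329) (nat_lit 195)) (XT.lf (nat_lit 0) (nat_lit 10413680088) (nat_lit 456) (nat_lit 9939847698) (nat_lit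 532) (nat_lit 1320289895) (nat_lit 168) (nat_lit 5) (nat_lit 174) (nat_lit 5) (nat_lit 175) (nat_lit 5) (nat_lit 377) (nat_lit 329) (nat_lit 194))))))))
noncomputable def xc100 : XT := (XT.nd (nat_lit 44226) (nat_lit 0) (nat_lit 9044) (XT.nd (nat_lit 43446) (nat_lit 0) (nat_lit 21964) (XT.nd (nat_lit 390) (nat_lit 380) (nat_lit 0) (XT.nd (nat_lit 156) (nat_lit 912) (nat_lit 0) (XT.nd (nat_lit 78) (nat_lit 456) (nat_lit 0) (XT.lf (nat_lit 0) (nat_lit 4615423594) (nat_lit 532) (nat_lit 15708464692) (nat_lit 76) (nat_lit 1754517933) (nat_lit 161) (nat_lit 5) (nat_lit 168) (nat_lit 5) (nat_lit 162) (nat_lit 5) (nat_lit 378) (nat_lit 329) (nat_lit 193)) (XT.lf (nat_lit 0) (nat_lit 2123208274) (nat_lit 456) (nat_lit 8732220351) (nat_lit 532) (nat_lit 11636649725) (nat_lit 155) (nat_lit 5) (nat_lit 161) (nat_lit 5) (nat_lit 162) (nat_lit 5) (nat_lit 379) (nat_lit 329) (nat_lit 192))) (XT.nd (nat_lit 78)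 (nat_lit 912) (nat_lit 0) (XT.lf (nat_lit 0) (nat_lit 17397826146) (nat_lit 532) (nat_lit 2250914826) (nat_lit 76) (nat_lit 3267119347) (nat_lit 155) (nat_lit 5) (nat_lit 162) (nat_lit 5) (nat_lit 156) (nat_lit 5) (nat_lit 380) (nat_lit 329) (nat_lit 191)) (XT.nd (nat_lit 78) (nat_lit 456) (nat_lit 0) (XT.lf (nat_lit 0) (nat_lit 928319554) (nat_lit 456) (nat_lit 6803813663) (nat_lit 76) (nat_lit 15617034787) (nat_lit 149) (nat_lit 5) (nat_lit 155) (nat_lit 5) (nat_lit 150) (nat_lit 5) (nat_lit 381) (nat_lit 329) (nat_lit 190)) (XT.lf (nat_lit 0) (nat_lit 7606477081) (nat_lit 532) (nat_lit 11576195968) (nat_lit 76) (nat_lit 4609808009) (nat_lit 143) (nat_lit 5) (nat_lit 150) (nat_lit 5) (nat_lit 144) (nat_lit 5) (nat_lit 382) (nat_lit 329) (nat_lit 189))))) (XT.nd (nat_lit 42822) (nat_lit 0) (nat_lit 23332) (XT.nd (nat_lit 42744) (nat_lit 0) (nat_lit 23332) (XT.lf (nat_lit 0) (nat_lit 7683221037) (nat_lit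 380) (nat_lit 6937727086) (nat_lit 456) (nat_lit 9625429168) (nat_lit 138) (nat_lit 5) (nat_lit 143) (nat_lit 5) (nat_lit 144) (nat_lit 5) (nat_lit 383) (nat_lit 329) (nat_lit 188)) (XT.lf (nat_lit 0) (nat_lit 649224255) (nat_lit 0) (nat_lit 649224255) (nat_lit 1596) (nat_lit 3872132256) (nat_lit 445) (nat_lit 5) (nat_lit 445) (nat_lit 3) (nat_lit 466) (nat_lit 3) (nat_lit 330) (nat_lit 330) (nat_lit 240))) (XT.nd (nat_lit 78) (nat_lit 0) (nat_lit 76) (XT.lf (nat_lit 0) (nat_lit 3628704689) (nat_lit 1596) (nat_lit 1713391145) (nat_lit 1672) (nat_lit 5133893076) (nat_lit 445) (nat_lit 5) (nat_lit 466) (nat_lit 3) (nat_lit 467) (nat_lit 5) (nat_lit 331) (nat_lit 330) (nat_lit 239)) (XT.nd (nat_lit 78) (nat_lit 0) (nat_lit 0) (XT.lf (nat_lit 0) (nat_lit 4708733719) (nat_lit 1596) (nat_lit 4737667491) (nat_lit 1672) (nat_lit 1168131453) (nat_lit 446) (nat_lit 5) (nat_lit 467) (nat_lit 5) (nat_lit 468)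 (nat_lit 5) (nat_lit 332) (nat_lit 330) (nat_lit 238)) (XT.lf (nat_lit 76) (nat_lit 2943952237) (nat_lit 0) (nat_lit 2907501401) (nat_lit 1672) (nat_lit 4905189696) (nat_lit 447) (nat_lit 5) (nat_lit 446) (nat_lit 5) (nat_lit 468) (nat_lit 5) (nat_lit 333) (nat_lit 330) (nat_lit 237)))))) (XT.nd (nat_lit 390) (nat_lit 0) (nat_lit 76) (XT.nd (nat_lit 156) (nat_lit 1520) (nat_lit 0) (XT.nd (nat_lit 78) (nat_lit 0) (nat_lit 0) (XT.lf (nat_lit 0) (nat_lit 7050413807) (nat_lit 1596) (nat_lit 27202677) (nat_lit 1672) (nat_lit 3824977594) (nat_lit 447) (nat_lit 5) (nat_lit 468) (nat_lit 5) (nat_lit 469) (nat_lit 5) (nat_lit 334) (nat_lit 330) (nat_lit 236)) (XT.lf (nat_lit 76) (nat_lit 8058056271) (nat_lit 0) (nat_lit 264865028) (nat_lit 1672) (nat_lit 2729265939) (nat_lit 448) (nat_lit 5) (nat_lit 447) (nat_lit 5) (nat_lit 469) (nat_lit 5) (nat_lit 335) (nat_lit 330) (nat_lit 235))) (XT.nd (nat_lit 78)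 (nat_lit 1596) (nat_lit 0) (XT.lf (nat_lit 76) (nat_lit 5183645960) (nat_lit 0) (nat_lit 4494412037) (nat_lit 1672) (nat_lit 1527336129) (nat_lit 449) (nat_lit 5) (nat_lit 448) (nat_lit 5) (nat_lit 470) (nat_lit 5) (nat_lit 336) (nat_lit 330) (nat_lit 234)) (XT.nd (nat_lit 78) (nat_lit 1672) (nat_lit 0) (XT.lf (nat_lit 76) (nat_lit 2275589896) (nat_lit 0) (nat_lit 8819327976) (nat_lit 1672) (nat_lit 267872543) (nat_lit 450) (nat_lit 5) (nat_lit 449) (nat_lit 5) (nat_lit 471) (nat_lit 5) (nat_lit 337) (nat_lit 330) (nat_lit 233)) (XT.lf (nat_lit 0) (nat_lit 1055280262) (nat_lit 1672) (nat_lit 677811660) (nat_lit 1748) (nat_lit 9790908762) (nat_lit 427) (nat_lit 5) (nat_lit 449) (nat_lit 5) (nat_lit 450) (nat_lit 5) (nat_lit 338) (nat_lit 330) (nat_lit 232))))) (XT.nd (nat_lit 156) (nat_lit 0) (nat_lit 76) (XT.nd (nat_lit 78) (nat_lit 0) (nat_lit 76) (XT.lf (nat_lit 0) (nat_lit 2472649687) (nat_lit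 1672) (nat_lit 3658654993) (nat_lit 1748) (nat_lit 5557557411) (nat_lit 428) (nat_lit 5) (nat_lit 450) (nat_lit 5) (nat_lit 451) (nat_lit 5) (nat_lit 339) (nat_lit 330) (nat_lit 231)) (XT.lf (nat_lit 0) (nat_lit 3960461557) (nat_lit 1672) (nat_lit 6680453437) (nat_lit 1748) (nat_lit 1217208995) (nat_lit 429) (nat_lit 5) (nat_lit 451) (nat_lit 5) (nat_lit 452) (nat_lit 5) (nat_lit 340) (nat_lit 330) (nat_lit 230))) (XT.nd (nat_lit 78) (nat_lit 0) (nat_lit 76) (XT.lf (nat_lit 76) (nat_lit 2264693500) (nat_lit 0) (nat_lit 3279705365) (nat_lit 1748) (nat_lit 6487047754) (nat_lit 430) (nat_lit 5) (nat_lit 429) (nat_lit 5) (nat_lit 452) (nat_lit 5) (nat_lit 341) (nat_lit 330) (nat_lit 229)) (XT.nd (nat_lit 78) (nat_lit 0) (nat_lit 0) (XT.lf (nat_lit 0) (nat_lit 7220950303) (nat_lit 1672) (nat_lit 688989171) (nat_lit 1748) (nat_lit 4299139861) (nat_lit 430) (nat_lit 5) (nat_lit 452) (nat_lit 5) (nat_lit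 453) (nat_lit 5) (nat_lit 342) (nat_lit 330) (nat_lit 228)) (XT.lf (nat_lit 76) (nat_lit 8733000869) (nat_lit 0) (nat_lit 265851762) (nat_lit 1748) (nat_lit 3392179282) (nat_lit 431) (nat_lit 5) (nat_lit 430) (nat_lit 5) (nat_lit 453) (nat_lit 5) (nat_lit 343) (nat_lit 330) (nat_lit 227))))))) (XT.nd (nat_lit 780) (nat_lit 6156) (nat_lit 0) (XT.nd (nat_lit 390) (nat_lit 3724) (nat_lit 0) (XT.nd (nat_lit 156) (nat_lit 1672) (nat_lit 0) (XT.nd (nat_lit 78) (nat_lit 1672) (nat_lit 0) (XT.lf (nat_lit 76) (nat_lit 5875399507) (nat_lit 0) (nat_lit 5020067055) (nat_lit 1748) (nat_lit 1681680635) (nat_lit 432) (nat_lit 5) (nat_lit 431) (nat_lit 5) (nat_lit 454) (nat_lit 5) (nat_lit 344) (nat_lit 330) (nat_lit 226)) (XT.lf (nat_lit 0) (nat_lit 117625257) (nat_lit 1748) (nat_lit 9794887526) (nat_lit 1824) (nat_lit 2855562945) (nat_lit 409) (nat_lit 5) (nat_lit 432) (nat_lit 5) (nat_lit 433) (nat_lit 5) (nat_lit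 345) (nat_lit 330) (nat_lit 225))) (XT.nd (nat_lit 78) (nat_lit 1672) (nat_lit 0) (XT.lf (nat_lit 0) (nat_lit 2001744936) (nat_lit 1748) (nat_lit 41114) (nat_lit 1824) (nat_lit 10961660842) (nat_lit 409) (nat_lit 5) (nat_lit 432) (nat_lit 5) (nat_lit 433) (nat_lit 5) (nat_lit 346) (nat_lit 330) (nat_lit 224)) (XT.nd (nat_lit 78) (nat_lit 1748) (nat_lit 0) (XT.lf (nat_lit 0) (nat_lit 4024014288) (nat_lit 1748) (nat_lit 3002375490) (nat_lit 76) (nat_lit 6136667318) (nat_lit 410) (nat_lit 5) (nat_lit 433) (nat_lit 5) (nat_lit 411) (nat_lit 5) (nat_lit 347) (nat_lit 330) (nat_lit 223)) (XT.lf (nat_lit 0) (nat_lit 6151135002) (nat_lit 1824) (nat_lit 6056168852) (nat_lit 76) (nat_lit 1160478206) (nat_lit 387) (nat_lit 5) (nat_lit 411) (nat_lit 5) (nat_lit 388) (nat_lit 5) (nat_lit 348) (nat_lit 330) (nat_lit 222))))) (XT.nd (nat_lit 156) (nat_lit 1748) (nat_lit 0) (XT.nd (nat_lit 78) (nat_lit 912) (nat_lit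 0) (XT.lf (nat_lit 0) (nat_lit 4387345323) (nat_lit 1064) (nat_lit 4026915497) (nat_lit 1140) (nat_lit 5162953950) (nat_lit 373) (nat_lit 5) (nat_lit 387) (nat_lit 5) (nat_lit 388) (nat_lit 5) (nat_lit 349) (nat_lit 330) (nat_lit 221)) (XT.lf (nat_lit 0) (nat_lit 1403427511) (nat_lit 912) (nat_lit 9397648370) (nat_lit 988) (nat_lit 2990748211) (nat_lit 361) (nat_lit 5) (nat_lit 373) (nat_lit 5) (nat_lit 374) (nat_lit 5) (nat_lit 350) (nat_lit 330) (nat_lit 220))) (XT.nd (nat_lit 78) (nat_lit 1748) (nat_lit 0) (XT.lf (nat_lit 0) (nat_lit 12392270957) (nat_lit 912) (nat_lit 933603797) (nat_lit 988) (nat_lit 685678613) (nat_lit 361) (nat_lit 5) (nat_lit 373) (nat_lit 5) (nat_lit 374) (nat_lit 5) (nat_lit 351) (nat_lit 330) (nat_lit 219)) (XT.nd (nat_lit 78) (nat_lit 836) (nat_lit 0) (XT.lf (nat_lit 0) (nat_lit 1757407151) (nat_lit 912) (nat_lit 4720941972) (nat_lit 76) (nat_lit 7757494759) (nat_lit 349)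 (nat_lit 5) (nat_lit 361) (nat_lit 5) (nat_lit 350) (nat_lit 5) (nat_lit 352) (nat_lit 330) (nat_lit 218)) (XT.lf (nat_lit 0) (nat_lit 4317876732) (nat_lit 912) (nat_lit 7887248997) (nat_lit 76) (nat_lit 2260587158) (nat_lit 338) (nat_lit 5) (nat_lit 350) (nat_lit 5) (nat_lit 339) (nat_lit 5) (nat_lit 353) (nat_lit 330) (nat_lit 217)))))) (XT.nd (nat_lit 390) (nat_lit 2888) (nat_lit 0) (XT.nd (nat_lit 156) (nat_lit 1596) (nat_lit 0) (XT.nd (nat_lit 78) (nat_lit 836) (nat_lit 0) (XT.lf (nat_lit 0) (nat_lit 3562140194) (nat_lit 836) (nat_lit 3470560390) (nat_lit 912) (nat_lit 7668234885) (nat_lit 327) (nat_lit 5) (nat_lit 338) (nat_lit 5) (nat_lit 339) (nat_lit 5) (nat_lit 354) (nat_lit 330) (nat_lit 216)) (XT.lf (nat_lit 0) (nat_lit 469994213) (nat_lit 836) (nat_lit 9431076750) (nat_lit 912) (nat_lit 5040709795) (nat_lit 316) (nat_lit 5) (nat_lit 327) (nat_lit 5) (nat_lit 328) (nat_lit 5) (nat_lit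 355) (nat_lit 330) (nat_lit 215))) (XT.nd (nat_lit 78) (nat_lit 1596) (nat_lit 0) (XT.lf (nat_lit 0) (nat_lit 12535571901) (nat_lit 836) (nat_lit 398296371) (nat_lit 912) (nat_lit 2254423452) (nat_lit 316) (nat_lit 5) (nat_lit 327) (nat_lit 5) (nat_lit 328) (nat_lit 5) (nat_lit 356) (nat_lit 330) (nat_lit 214)) (XT.nd (nat_lit 78) (nat_lit 760) (nat_lit 0) (XT.lf (nat_lit 0) (nat_lit 708406116) (nat_lit 836) (nat_lit 5876499231) (nat_lit 76) (nat_lit 8855199681) (nat_lit 305) (nat_lit 5) (nat_lit 316) (nat_lit 5) (nat_lit 306) (nat_lit 5) (nat_lit 357) (nat_lit 330) (nat_lit 213)) (XT.lf (nat_lit 0) (nat_lit 3791466471) (nat_lit 836) (nat_lit 9184951853) (nat_lit 76) (nat_lit 2721524117) (nat_lit 295) (nat_lit 5) (nat_lit 306) (nat_lit 5) (nat_lit 296) (nat_lit 5) (nat_lit 358) (nat_lit 330) (nat_lit 212))))) (XT.nd (nat_lit 156) (nat_lit 1444) (nat_lit 0) (XT.nd (nat_lit 78) (nat_lit 760) (nat_lit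 0) (XT.lf (nat_lit 0) (nat_lit 3371589034) (nat_lit 684) (nat_lit 3682598802) (nat_lit 760) (nat_lit 8907590784) (nat_lit 286) (nat_lit 5) (nat_lit 295) (nat_lit 5) (nat_lit 296) (nat_lit 5) (nat_lit 359) (nat_lit 330) (nat_lit 211)) (XT.lf (nat_lit 0) (nat_lit 141211080) (nat_lit 760) (nat_lit 10356958809) (nat_lit 836) (nat_lit 5733699237) (nat_lit 276) (nat_lit 5) (nat_lit 286) (nat_lit 5) (nat_lit 287) (nat_lit 5) (nat_lit 360) (nat_lit 330) (nat_lit 210))) (XT.nd (nat_lit 78) (nat_lit 1444) (nat_lit 0) (XT.lf (nat_lit 0) (nat_lit 13382011533) (nat_lit 760) (nat_lit 755215490) (nat_lit 836) (nat_lit 2371006836) (nat_lit 276) (nat_lit 5) (nat_lit 286) (nat_lit 5) (nat_lit 287) (nat_lit 5) (nat_lit 361) (nat_lit 330) (nat_lit 209)) (XT.nd (nat_lit 78) (nat_lit 684) (nat_lit 0) (XT.lf (nat_lit 0) (nat_lit 1187510011) (nat_lit 760) (nat_lit 6515523456) (nat_lit 76) (nat_lit 9087535043) (nat_lit 266)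 (nat_lit 5) (nat_lit 276) (nat_lit 5) (nat_lit 267) (nat_lit 5) (nat_lit 362) (nat_lit 330) (nat_lit 208)) (XT.lf (nat_lit 0) (nat_lit 4890322870) (nat_lit 760) (nat_lit 10001788135) (nat_lit 76) (nat_lit 2187559805) (nat_lit 257) (nat_lit 5) (nat_lit 267) (nat_lit 5) (nat_lit 258) (nat_lit 5) (nat_lit 363) (nat_lit 330) (nat_lit 207))))))))
noncomputable def xc101 : XT := (XT.nd (nat_lit 44382) (nat_lit 0) (nat_lit 16112) (XT.nd (nat_lit 780) (nat_lit 3420) (nat_lit 0) (XT.nd (nat_lit 390) (nat_lit 2280) (nat_lit 0) (XT.nd (nat_lit 156) (nat_lit 1292) (nat_lit 0) (XT.nd (nat_lit 78) (nat_lit 608) (nat_lit 0) (XT.lf (nat_lit 0) (nat_lit 3769734191) (nat_lit 608) (nat_lit 5038033290) (nat_lit 684) (nat_lit 8567613694) (nat_lit 249) (nat_lit 5) (nat_lit 257) (nat_lit 5) (nat_lit 258) (nat_lit 5) (nat_lit 364) (nat_lit 330) (nat_lit 206)) (XT.lf (nat_lit 0) (nat_lit 364226802) (nat_lit 608) (nat_lit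 12565748897) (nat_lit 684) (nat_lit 4748248117) (nat_lit 241) (nat_lit 5) (nat_lit 249) (nat_lit 5) (nat_lit 250) (nat_lit 5) (nat_lit 365) (nat_lit 330) (nat_lit 205))) (XT.nd (nat_lit 78) (nat_lit 1292) (nat_lit 0) (XT.lf (nat_lit 0) (nat_lit 14885998135) (nat_lit 608) (nat_lit 2399337492) (nat_lit 684) (nat_lit 702632001) (nat_lit 241) (nat_lit 5) (nat_lit 249) (nat_lit 5) (nat_lit 250) (nat_lit 5) (nat_lit 366) (nat_lit 330) (nat_lit 204)) (XT.nd (nat_lit 78) (nat_lit 608) (nat_lit 0) (XT.lf (nat_lit 0) (nat_lit 3531761781) (nat_lit 684) (nat_lit 6710662766) (nat_lit 76) (nat_lit 8061877788) (nat_lit 232) (nat_lit 5) (nat_lit 241) (nat_lit 5) (nat_lit 233) (nat_lit 5) (nat_lit 367) (nat_lit 330) (nat_lit 203)) (XT.lf (nat_lit 0) (nat_lit 7960346653) (nat_lit 684) (nat_lit 10419437959) (nat_lit 76) (nat_lit 248720653) (nat_lit 224) (nat_lit 5) (nat_lit 233) (nat_lit 5) (nat_lit 225) (nat_lit 5)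 (nat_lit 368) (nat_lit 330) (nat_lit 202))))) (XT.nd (nat_lit 156) (nat_lit 1140) (nat_lit 0) (XT.nd (nat_lit 78) (nat_lit 608) (nat_lit 0) (XT.lf (nat_lit 0) (nat_lit 4680393822) (nat_lit 532) (nat_lit 7970862296) (nat_lit 608) (nat_lit 6308593851) (nat_lit 217) (nat_lit 5) (nat_lit 224) (nat_lit 5) (nat_lit 225) (nat_lit 5) (nat_lit 369) (nat_lit 330) (nat_lit 201)) (XT.lf (nat_lit 0) (nat_lit 1052716774) (nat_lit 608) (nat_lit 16511046833) (nat_lit 684) (nat_lit 1735758872) (nat_lit 209) (nat_lit 5) (nat_lit 217) (nat_lit 5) (nat_lit 218) (nat_lit 5) (nat_lit 370) (nat_lit 330) (nat_lit 200))) (XT.nd (nat_lit 78) (nat_lit 1064) (nat_lit 0) (XT.lf (nat_lit 0) (nat_lit 3071278591) (nat_lit 684) (nat_lit 2699171148) (nat_lit 76) (nat_lit 13875833344) (nat_lit 208) (nat_lit 5) (nat_lit 217) (nat_lit 5) (nat_lit 209) (nat_lit 5) (nat_lit 371) (nat_lit 330) (nat_lit 199)) (XT.nd (nat_lit 78) (nat_lit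 532) (nat_lit 0) (XT.lf (nat_lit 0) (nat_lit 8107217962) (nat_lit 608) (nat_lit 6575143536) (nat_lit 76) (nat_lit 5318694592) (nat_lit 201) (nat_lit 5) (nat_lit 209) (nat_lit 5) (nat_lit 202) (nat_lit 5) (nat_lit 372) (nat_lit 330) (nat_lit 198)) (XT.lf (nat_lit 0) (nat_lit 9776910148) (nat_lit 532) (nat_lit 3623822993) (nat_lit 608) (nat_lit 6963613570) (nat_lit 194) (nat_lit 5) (nat_lit 201) (nat_lit 5) (nat_lit 202) (nat_lit 5) (nat_lit 373) (nat_lit 330) (nat_lit 197)))))) (XT.nd (nat_lit 390) (nat_lit 1444) (nat_lit 0) (XT.nd (nat_lit 156) (nat_lit 912) (nat_lit 0) (XT.nd (nat_lit 78) (nat_lit 608) (nat_lit 0) (XT.lf (nat_lit 0) (nat_lit 5981460237) (nat_lit 456) (nat_lit 12991986572) (nat_lit 532) (nat_lit 1762685632) (nat_lit 188) (nat_lit 5) (nat_lit 194) (nat_lit 5) (nat_lit 195) (nat_lit 5) (nat_lit 374) (nat_lit 330) (nat_lit 196)) (XT.lf (nat_lit 0) (nat_lit 2035318526) (nat_lit 532) (nat_lit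 1607952408) (nat_lit 608) (nat_lit 17473415321) (nat_lit 180) (nat_lit 5) (nat_lit 187) (nat_lit 5) (nat_lit 188) (nat_lit 5) (nat_lit 375) (nat_lit 330) (nat_lit 195))) (XT.nd (nat_lit 78) (nat_lit 912) (nat_lit 0) (XT.lf (nat_lit 0) (nat_lit 9340651549) (nat_lit 608) (nat_lit 2071809993) (nat_lit 76) (nat_lit 10092902177) (nat_lit 180) (nat_lit 5) (nat_lit 188) (nat_lit 5) (nat_lit 181) (nat_lit 5) (nat_lit 376) (nat_lit 330) (nat_lit 194)) (XT.nd (nat_lit 78) (nat_lit 456) (nat_lit 0) (XT.lf (nat_lit 0) (nat_lit 15310316558) (nat_lit 532) (nat_lit 6281033450) (nat_lit 76) (nat_lit 312328053) (nat_lit 174) (nat_lit 5) (nat_lit 181) (nat_lit 5) (nat_lit 175) (nat_lit 5) (nat_lit 377) (nat_lit 330) (nat_lit 193)) (XT.lf (nat_lit 0) (nat_lit 11621226825) (nat_lit 456) (nat_lit 9991093102) (nat_lit 532) (nat_lit 698560639) (nat_lit 168) (nat_lit 5) (nat_lit 174) (nat_lit 5) (nat_lit 175) (nat_lit 5)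 (nat_lit 378) (nat_lit 330) (nat_lit 192))))) (XT.nd (nat_lit 156) (nat_lit 456) (nat_lit 0) (XT.nd (nat_lit 78) (nat_lit 456) (nat_lit 0) (XT.lf (nat_lit 0) (nat_lit 5394937663) (nat_lit 532) (nat_lit 15279045794) (nat_lit 76) (nat_lit 2053775054) (nat_lit 161) (nat_lit 5) (nat_lit 168) (nat_lit 5) (nat_lit 162) (nat_lit 5) (nat_lit 379) (nat_lit 330) (nat_lit 191)) (XT.lf (nat_lit 0) (nat_lit 3072965014) (nat_lit 456) (nat_lit 8736259324) (nat_lit 532) (nat_lit 11344880046) (nat_lit 155) (nat_lit 5) (nat_lit 161) (nat_lit 5) (nat_lit 162) (nat_lit 5) (nat_lit 380) (nat_lit 330) (nat_lit 190))) (XT.nd (nat_lit 78) (nat_lit 456) (nat_lit 0) (XT.lf (nat_lit 0) (nat_lit 18531224514) (nat_lit 532) (nat_lit 1447449873) (nat_lit 76) (nat_lit 3612263870) (nat_lit 155) (nat_lit 5) (nat_lit 162) (nat_lit 5) (nat_lit 156) (nat_lit 5) (nat_lit 381) (nat_lit 330) (nat_lit 189)) (XT.nd (nat_lit 42900) (nat_lit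 0) (nat_lit 22496) (XT.lf (nat_lit 0) (nat_lit 1559516289) (nat_lit 456) (nat_lit 6142887845) (nat_lit 76) (nat_lit 16335011487) (nat_lit 149) (nat_lit 5) (nat_lit 155) (nat_lit 5) (nat_lit 150) (nat_lit 5) (nat_lit 382) (nat_lit 330) (nat_lit 188)) (XT.lf (nat_lit 0) (nat_lit 1143630658) (nat_lit 0) (nat_lit 1143630658) (nat_lit 1596) (nat_lit 3019010887) (nat_lit 445) (nat_lit 5) (nat_lit 445) (nat_lit 3) (nat_lit 466) (nat_lit 3) (nat_lit 331) (nat_lit 331) (nat_lit 238))))))) (XT.nd (nat_lit 780) (nat_lit 4940) (nat_lit 0) (XT.nd (nat_lit 390) (nat_lit 1444) (nat_lit 0) (XT.nd (nat_lit 156) (nat_lit 0) (nat_lit 76) (XT.nd (nat_lit 78) (nat_lit 0) (nat_lit 76) (XT.lf (nat_lit 0) (nat_lit 5575965426) (nat_lit 1596) (nat_lit 798891480) (nat_lit 1672) (nat_lit 4377811059) (nat_lit 445) (nat_lit 5) (nat_lit 466) (nat_lit 3) (nat_lit 467) (nat_lit 5) (nat_lit 332) (nat_lit 331) (nat_lit 237)) (XT.lf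 (nat_lit 0) (nat_lit 6635560252) (nat_lit 1596) (nat_lit 3887478895) (nat_lit 1672) (nat_lit 373409836) (nat_lit 446) (nat_lit 5) (nat_lit 467) (nat_lit 5) (nat_lit 468) (nat_lit 5) (nat_lit 333) (nat_lit 331) (nat_lit 236))) (XT.nd (nat_lit 78) (nat_lit 0) (nat_lit 76) (XT.lf (nat_lit 76) (nat_lit 4008490234) (nat_lit 0) (nat_lit 3758403064) (nat_lit 1672) (nat_lit 3276866588) (nat_lit 447) (nat_lit 5) (nat_lit 446) (nat_lit 5) (nat_lit 468) (nat_lit 5) (nat_lit 334) (nat_lit 331) (nat_lit 235)) (XT.nd (nat_lit 78) (nat_lit 0) (nat_lit 0) (XT.lf (nat_lit 76) (nat_lit 971873628) (nat_lit 0) (nat_lit 7980768230) (nat_lit 1672) (nat_lit 2242453764) (nat_lit 448) (nat_lit 5) (nat_lit 447) (nat_lit 5) (nat_lit 469) (nat_lit 5) (nat_lit 335) (nat_lit 331) (nat_lit 234)) (XT.lf (nat_lit 76) (nat_lit 9270928775) (nat_lit 0) (nat_lit 943330620) (nat_lit 1672) (nat_lit 1135920677) (nat_lit 448) (nat_lit 5)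 (nat_lit 447) (nat_lit 5) (nat_lit 469) (nat_lit 5) (nat_lit 336) (nat_lit 331) (nat_lit 233))))) (XT.nd (nat_lit 156) (nat_lit 0) (nat_lit 76) (XT.nd (nat_lit 78) (nat_lit 0) (nat_lit 76) (XT.lf (nat_lit 0) (nat_lit 54808628) (nat_lit 1672) (nat_lit 5177435585) (nat_lit 1748) (nat_lit 6276665221) (nat_lit 426) (nat_lit 5) (nat_lit 448) (nat_lit 5) (nat_lit 449) (nat_lit 5) (nat_lit 337) (nat_lit 331) (nat_lit 232)) (XT.lf (nat_lit 0) (nat_lit 1291016074) (nat_lit 1672) (nat_lit 8324021176) (nat_lit 1748) (nat_lit 2056722947) (nat_lit 427) (nat_lit 5) (nat_lit 449) (nat_lit 5) (nat_lit 450) (nat_lit 5) (nat_lit 338) (nat_lit 331) (nat_lit 231))) (XT.nd (nat_lit 78) (nat_lit 0) (nat_lit 76) (XT.lf (nat_lit 76) (nat_lit 309804488) (nat_lit 0) (nat_lit 2296918650) (nat_lit 1748) (nat_lit 9231938155) (nat_lit 428) (nat_lit 5) (nat_lit 427) (nat_lit 5) (nat_lit 450) (nat_lit 5) (nat_lit 339) (nat_lit 331)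 (nat_lit 230)) (XT.nd (nat_lit 78) (nat_lit 0) (nat_lit 76) (XT.lf (nat_lit 0) (nat_lit 4023610523) (nat_lit 1672) (nat_lit 2747373368) (nat_lit 1748) (nat_lit 5238364044) (nat_lit 428) (nat_lit 5) (nat_lit 450) (nat_lit 5) (nat_lit 451) (nat_lit 5) (nat_lit 340) (nat_lit 331) (nat_lit 229)) (XT.lf (nat_lit 0) (nat_lit 5516735832) (nat_lit 1672) (nat_lit 5844129931) (nat_lit 1748) (nat_lit 823627115) (nat_lit 429) (nat_lit 5) (nat_lit 451) (nat_lit 5) (nat_lit 452) (nat_lit 5) (nat_lit 341) (nat_lit 331) (nat_lit 228)))))) (XT.nd (nat_lit 390) (nat_lit 3648) (nat_lit 0) (XT.nd (nat_lit 156) (nat_lit 1520) (nat_lit 0) (XT.nd (nat_lit 78) (nat_lit 0) (nat_lit 76) (XT.lf (nat_lit 76) (nat_lit 3352551586) (nat_lit 0) (nat_lit 3760393874) (nat_lit 1748) (nat_lit 5250792865) (nat_lit 430) (nat_lit 5) (nat_lit 429) (nat_lit 5) (nat_lit 452) (nat_lit 5) (nat_lit 342) (nat_lit 331) (nat_lit 227)) (XT.lf (nat_lit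 76) (nat_lit 314909206) (nat_lit 0) (nat_lit 8483677797) (nat_lit 1748) (nat_lit 3748954839) (nat_lit 431) (nat_lit 5) (nat_lit 430) (nat_lit 5) (nat_lit 453) (nat_lit 5) (nat_lit 343) (nat_lit 331) (nat_lit 226))) (XT.nd (nat_lit 78) (nat_lit 1596) (nat_lit 0) (XT.lf (nat_lit 76) (nat_lit 9998873465) (nat_lit 0) (nat_lit 595844746) (nat_lit 1748) (nat_lit 2140954127) (nat_lit 431) (nat_lit 5) (nat_lit 430) (nat_lit 5) (nat_lit 453) (nat_lit 5) (nat_lit 344) (nat_lit 331) (nat_lit 225)) (XT.nd (nat_lit 78) (nat_lit 1672) (nat_lit 0) (XT.lf (nat_lit 76) (nat_lit 7067965111) (nat_lit 0) (nat_lit 5446215663) (nat_lit 1748) (nat_lit 413887977) (nat_lit 432) (nat_lit 5) (nat_lit 431) (nat_lit 5) (nat_lit 454) (nat_lit 5) (nat_lit 345) (nat_lit 331) (nat_lit 224)) (XT.lf (nat_lit 0) (nat_lit 1389183458) (nat_lit 1748) (nat_lit 9043813646) (nat_lit 1824) (nat_lit 2692231221) (nat_lit 409) (nat_lit 5) (nat_lit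 432) (nat_lit 5) (nat_lit 433) (nat_lit 5) (nat_lit 346) (nat_lit 331) (nat_lit 223))))) (XT.nd (nat_lit 156) (nat_lit 3648) (nat_lit 0) (XT.nd (nat_lit 78) (nat_lit 0) (nat_lit 76) (XT.lf (nat_lit 76) (nat_lit 1027925000) (nat_lit 0) (nat_lit 2271642801) (nat_lit 1824) (nat_lit 10027513413) (nat_lit 410) (nat_lit 5) (nat_lit 409) (nat_lit 5) (nat_lit 433) (nat_lit 5) (nat_lit 347) (nat_lit 331) (nat_lit 222)) (XT.lf (nat_lit 0) (nat_lit 5345131431) (nat_lit 1748) (nat_lit 2068564053) (nat_lit 76) (nat_lit 6119746676) (nat_lit 410) (nat_lit 5) (nat_lit 433) (nat_lit 5) (nat_lit 411) (nat_lit 5) (nat_lit 348) (nat_lit 331) (nat_lit 221))) (XT.nd (nat_lit 78) (nat_lit 1976) (nat_lit 0) (XT.lf (nat_lit 0) (nat_lit 7506573274) (nat_lit 1824) (nat_lit 5205589481) (nat_lit 76) (nat_lit 1032750494) (nat_lit 387) (nat_lit 5) (nat_lit 411) (nat_lit 5) (nat_lit 388) (nat_lit 5) (nat_lit 349) (nat_lit 331) (nat_lit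 220)) (XT.nd (nat_lit 78) (nat_lit 912) (nat_lit 0) (XT.lf (nat_lit 0) (nat_lit 5534482856) (nat_lit 1064) (nat_lit 4275599416) (nat_lit 1140) (nat_lit 4151110983) (nat_lit 373) (nat_lit 5) (nat_lit 387) (nat_lit 5) (nat_lit 388) (nat_lit 5) (nat_lit 350) (nat_lit 331) (nat_lit 219)) (XT.lf (nat_lit 0) (nat_lit 2468348065) (nat_lit 912) (nat_lit 9772685726) (nat_lit 988) (nat_lit 1941770116) (nat_lit 361) (nat_lit 5) (nat_lit 373) (nat_lit 5) (nat_lit 374) (nat_lit 5) (nat_lit 351) (nat_lit 331) (nat_lit 218))))))))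
noncomputable def xc102 : XT := (XT.nd (nat_lit 1560) (nat_lit 4104) (nat_lit 0) (XT.nd (nat_lit 780) (nat_lit 5092) (nat_lit 0) (XT.nd (nat_lit 390) (nat_lit 3040) (nat_lit 0) (XT.nd (nat_lit 156) (nat_lit 2508) (nat_lit 0) (XT.nd (nat_lit 78) (nat_lit 836) (nat_lit 0) (XT.lf (nat_lit 0) (nat_lit 394048832) (nat_lit 988) (nat_lit 655314829) (nat_lit 76) (nat_lit 13360372900) (nat_lit 360) (nat_lit 5) (nat_lit 373) (nat_lit 5) (nat_lit 361) (nat_lit 5) (nat_lit 352) (nat_lit 331) (nat_lit 217)) (XT.lf (nat_lit 0) (nat_lit 2875344009) (nat_lit 912) (nat_lit 3848745875) (nat_lit 76) (nat_lit 7917103263) (nat_lit 349) (nat_lit 5) (nat_lit 361) (nat_lit 5) (nat_lit 350) (nat_lit 5) (nat_lit 353) (nat_lit 331) (nat_lit 216))) (XT.nd (nat_lit 78) (nat_lit 1672) (nat_lit 0) (XT.lf (nat_lit 0) (nat_lit 5487796580) (nat_lit 912) (nat_lit 7104986382) (nat_lit 76) (nat_lit 2285684166) (nat_lit 338) (nat_lit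 5) (nat_lit 350) (nat_lit 5) (nat_lit 339) (nat_lit 5) (nat_lit 354) (nat_lit 331) (nat_lit 215)) (XT.nd (nat_lit 78) (nat_lit 836) (nat_lit 0) (XT.lf (nat_lit 0) (nat_lit 4671354366) (nat_lit 836) (nat_lit 3588916269) (nat_lit 912) (nat_lit 6860963568) (nat_lit 327) (nat_lit 5) (nat_lit 338) (nat_lit 5) (nat_lit 339) (nat_lit 5) (nat_lit 355) (nat_lit 331) (nat_lit 214)) (XT.lf (nat_lit 0) (nat_lit 1490666039) (nat_lit 836) (nat_lit 9700862273) (nat_lit 912) (nat_lit 4178251394) (nat_lit 316) (nat_lit 5) (nat_lit 327) (nat_lit 5) (nat_lit 328) (nat_lit 5) (nat_lit 356) (nat_lit 331) (nat_lit 213))))) (XT.nd (nat_lit 156) (nat_lit 2204) (nat_lit 0) (XT.nd (nat_lit 78) (nat_lit 836) (nat_lit 0) (XT.lf (nat_lit 0) (nat_lit 13888893426) (nat_lit 836) (nat_lit 397481399) (nat_lit 912) (nat_lit 1337901112) (nat_lit 316) (nat_lit 5) (nat_lit 327) (nat_lit 5) (nat_lit 328) (nat_lit 5) (nat_lit 357) (nat_lit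 331) (nat_lit 212)) (XT.lf (nat_lit 0) (nat_lit 1679107481) (nat_lit 836) (nat_lit 5059156293) (nat_lit 76) (nat_lit 9145698741) (nat_lit 305) (nat_lit 5) (nat_lit 316) (nat_lit 5) (nat_lit 306) (nat_lit 5) (nat_lit 358) (nat_lit 331) (nat_lit 211))) (XT.nd (nat_lit 78) (nat_lit 1444) (nat_lit 0) (XT.lf (nat_lit 0) (nat_lit 4833673055) (nat_lit 836) (nat_lit 8464394534) (nat_lit 76) (nat_lit 2851897582) (nat_lit 295) (nat_lit 5) (nat_lit 306) (nat_lit 5) (nat_lit 296) (nat_lit 5) (nat_lit 359) (nat_lit 331) (nat_lit 210)) (XT.nd (nat_lit 78) (nat_lit 760) (nat_lit 0) (XT.lf (nat_lit 0) (nat_lit 4452681945) (nat_lit 684) (nat_lit 3720913970) (nat_lit 760) (nat_lit 8248544209) (nat_lit 286) (nat_lit 5) (nat_lit 295) (nat_lit 5) (nat_lit 296) (nat_lit 5) (nat_lit 360) (nat_lit 331) (nat_lit 209)) (XT.lf (nat_lit 0) (nat_lit 1127225123) (nat_lit 760) (nat_lit 10574061275) (nat_lit 836) (nat_lit 4999448960)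 (nat_lit 276) (nat_lit 5) (nat_lit 286) (nat_lit 5) (nat_lit 287) (nat_lit 5) (nat_lit 361) (nat_lit 331) (nat_lit 208)))))) (XT.nd (nat_lit 390) (nat_lit 2432) (nat_lit 0) (XT.nd (nat_lit 156) (nat_lit 1900) (nat_lit 0) (XT.nd (nat_lit 78) (nat_lit 760) (nat_lit 0) (XT.lf (nat_lit 0) (nat_lit 14736654123) (nat_lit 760) (nat_lit 686992054) (nat_lit 836) (nat_lit 1562271746) (nat_lit 276) (nat_lit 5) (nat_lit 286) (nat_lit 5) (nat_lit 287) (nat_lit 5) (nat_lit 362) (nat_lit 331) (nat_lit 207)) (XT.lf (nat_lit 0) (nat_lit 2072984373) (nat_lit 760) (nat_lit 5744977941) (nat_lit 76) (nat_lit 9459024628) (nat_lit 266) (nat_lit 5) (nat_lit 276) (nat_lit 5) (nat_lit 267) (nat_lit 5) (nat_lit 363) (nat_lit 331) (nat_lit 206))) (XT.nd (nat_lit 78) (nat_lit 1216) (nat_lit 0) (XT.lf (nat_lit 0) (nat_lit 5869072059) (nat_lit 760) (nat_lit 9335357857) (nat_lit 76) (nat_lit 2370697372) (nat_lit 257) (nat_lit 5)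 (nat_lit 267) (nat_lit 5) (nat_lit 258) (nat_lit 5) (nat_lit 364) (nat_lit 331) (nat_lit 205)) (XT.nd (nat_lit 78) (nat_lit 608) (nat_lit 0) (XT.lf (nat_lit 0) (nat_lit 4833630085) (nat_lit 608) (nat_lit 5052349012) (nat_lit 684) (nat_lit 7994099614) (nat_lit 249) (nat_lit 5) (nat_lit 257) (nat_lit 5) (nat_lit 258) (nat_lit 5) (nat_lit 365) (nat_lit 331) (nat_lit 204)) (XT.lf (nat_lit 0) (nat_lit 1325953033) (nat_lit 608) (nat_lit 12789228121) (nat_lit 684) (nat_lit 4077167207) (nat_lit 241) (nat_lit 5) (nat_lit 249) (nat_lit 5) (nat_lit 250) (nat_lit 5) (nat_lit 366) (nat_lit 331) (nat_lit 203))))) (XT.nd (nat_lit 156) (nat_lit 1748) (nat_lit 0) (XT.nd (nat_lit 78) (nat_lit 608) (nat_lit 0) (XT.lf (nat_lit 0) (nat_lit 65255184) (nat_lit 684) (nat_lit 2256601971) (nat_lit 76) (nat_lit 16189991238) (nat_lit 240) (nat_lit 5) (nat_lit 249) (nat_lit 5) (nat_lit 241) (nat_lit 5) (nat_lit 367) (nat_lit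 331) (nat_lit 202)) (XT.lf (nat_lit 0) (nat_lit 4401461905) (nat_lit 684) (nat_lit 5978905511) (nat_lit 76) (nat_lit 8457533946) (nat_lit 232) (nat_lit 5) (nat_lit 241) (nat_lit 5) (nat_lit 233) (nat_lit 5) (nat_lit 368) (nat_lit 331) (nat_lit 201))) (XT.nd (nat_lit 78) (nat_lit 1140) (nat_lit 0) (XT.lf (nat_lit 0) (nat_lit 8947725975) (nat_lit 684) (nat_lit 9799991969) (nat_lit 76) (nat_lit 424423433) (nat_lit 224) (nat_lit 5) (nat_lit 233) (nat_lit 5) (nat_lit 225) (nat_lit 5) (nat_lit 369) (nat_lit 331) (nat_lit 200)) (XT.nd (nat_lit 78) (nat_lit 608) (nat_lit 0) (XT.lf (nat_lit 0) (nat_lit 5737713701) (nat_lit 532) (nat_lit 8025799222) (nat_lit 608) (nat_lit 5750237710) (nat_lit 217) (nat_lit 5) (nat_lit 224) (nat_lit 5) (nat_lit 225) (nat_lit 5) (nat_lit 370) (nat_lit 331) (nat_lit 199)) (XT.lf (nat_lit 0) (nat_lit 1999807307) (nat_lit 608) (nat_lit 16809352132) (nat_lit 684) (nat_lit 1054745606)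 (nat_lit 209) (nat_lit 5) (nat_lit 217) (nat_lit 5) (nat_lit 218) (nat_lit 5) (nat_lit 371) (nat_lit 331) (nat_lit 198))))))) (XT.nd (nat_lit 780) (nat_lit 0) (nat_lit 0) (XT.nd (nat_lit 390) (nat_lit 1900) (nat_lit 0) (XT.nd (nat_lit 156) (nat_lit 1596) (nat_lit 0) (XT.nd (nat_lit 78) (nat_lit 532) (nat_lit 0) (XT.lf (nat_lit 0) (nat_lit 3865816442) (nat_lit 684) (nat_lit 1881745838) (nat_lit 76) (nat_lit 14473839100) (nat_lit 208) (nat_lit 5) (nat_lit 217) (nat_lit 5) (nat_lit 209) (nat_lit 5) (nat_lit 372) (nat_lit 331) (nat_lit 197)) (XT.lf (nat_lit 0) (nat_lit 9039387639) (nat_lit 608) (nat_lit 5875877056) (nat_lit 76) (nat_lit 5671828280) (nat_lit 201) (nat_lit 5) (nat_lit 209) (nat_lit 5) (nat_lit 202) (nat_lit 5) (nat_lit 373) (nat_lit 331) (nat_lit 196))) (XT.nd (nat_lit 78) (nat_lit 1064) (nat_lit 0) (XT.lf (nat_lit 0) (nat_lit 10952193255) (nat_lit 532) (nat_lit 3525174795) (nat_lit 608)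 (nat_lit 6484207353) (nat_lit 194) (nat_lit 5) (nat_lit 201) (nat_lit 5) (nat_lit 202) (nat_lit 5) (nat_lit 374) (nat_lit 331) (nat_lit 195)) (XT.nd (nat_lit 78) (nat_lit 608) (nat_lit 0) (XT.lf (nat_lit 0) (nat_lit 7040725757) (nat_lit 456) (nat_lit 13163907960) (nat_lit 532) (nat_lit 1140139676) (nat_lit 188) (nat_lit 5) (nat_lit 194) (nat_lit 5) (nat_lit 195) (nat_lit 5) (nat_lit 375) (nat_lit 331) (nat_lit 194)) (XT.lf (nat_lit 0) (nat_lit 2970836487) (nat_lit 532) (nat_lit 1434563718) (nat_lit 608) (nat_lit 17331536459) (nat_lit 180) (nat_lit 5) (nat_lit 187) (nat_lit 5) (nat_lit 188) (nat_lit 5) (nat_lit 376) (nat_lit 331) (nat_lit 193))))) (XT.nd (nat_lit 156) (nat_lit 1444) (nat_lit 0) (XT.nd (nat_lit 78) (nat_lit 456) (nat_lit 0) (XT.lf (nat_lit 0) (nat_lit 10256084778) (nat_lit 608) (nat_lit 1273508339) (nat_lit 76) (nat_lit 10608039321) (nat_lit 180) (nat_lit 5) (nat_lit 188) (nat_lit 5)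 (nat_lit 181) (nat_lit 5) (nat_lit 377) (nat_lit 331) (nat_lit 192)) (XT.lf (nat_lit 0) (nat_lit 16393290606) (nat_lit 532) (nat_lit 5611797987) (nat_lit 76) (nat_lit 543044072) (nat_lit 174) (nat_lit 5) (nat_lit 181) (nat_lit 5) (nat_lit 175) (nat_lit 5) (nat_lit 378) (nat_lit 331) (nat_lit 191))) (XT.nd (nat_lit 78) (nat_lit 988) (nat_lit 0) (XT.lf (nat_lit 0) (nat_lit 12813615476) (nat_lit 456) (nat_lit 10058051810) (nat_lit 532) (nat_lit 96143010) (nat_lit 168) (nat_lit 5) (nat_lit 174) (nat_lit 5) (nat_lit 175) (nat_lit 5) (nat_lit 379) (nat_lit 331) (nat_lit 190)) (XT.nd (nat_lit 78) (nat_lit 456) (nat_lit 0) (XT.lf (nat_lit 0) (nat_lit 6161038183) (nat_lit 532) (nat_lit 14888446635) (nat_lit 76) (nat_lit 2347852800) (nat_lit 161) (nat_lit 5) (nat_lit 168) (nat_lit 5) (nat_lit 162) (nat_lit 5) (nat_lit 380) (nat_lit 331) (nat_lit 189)) (XT.lf (nat_lit 0) (nat_lit 4000350959) (nat_lit 456) (nat_lit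 8755225567) (nat_lit 532) (nat_lit 11081145790) (nat_lit 155) (nat_lit 5) (nat_lit 161) (nat_lit 5) (nat_lit 162) (nat_lit 5) (nat_lit 381) (nat_lit 331) (nat_lit 188)))))) (XT.nd (nat_lit 43290) (nat_lit 0) (nat_lit 20520) (XT.nd (nat_lit 43056) (nat_lit 0) (nat_lit 22040) (XT.nd (nat_lit 42978) (nat_lit 0) (nat_lit 22040) (XT.lf (nat_lit 0) (nat_lit 19663524323) (nat_lit 532) (nat_lit 669879497) (nat_lit 76) (nat_lit 3953576401) (nat_lit 155) (nat_lit 5) (nat_lit 162) (nat_lit 5) (nat_lit 156) (nat_lit 5) (nat_lit 382) (nat_lit 331) (nat_lit 187)) (XT.lf (nat_lit 0) (nat_lit 1625606346) (nat_lit 0) (nat_lit 1625606346) (nat_lit 1596) (nat_lit 2195936820) (nat_lit 445) (nat_lit 5) (nat_lit 445) (nat_lit 3) (nat_lit 466) (nat_lit 3) (nat_lit 332) (nat_lit 332) (nat_lit 236))) (XT.nd (nat_lit 78) (nat_lit 0) (nat_lit 0) (XT.lf (nat_lit 76) (nat_lit 88760593) (nat_lit 0) (nat_lit 7387928026) (nat_lit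 1672) (nat_lit 3563105674) (nat_lit 446) (nat_lit 5) (nat_lit 445) (nat_lit 5) (nat_lit 467) (nat_lit 5) (nat_lit 333) (nat_lit 332) (nat_lit 235)) (XT.nd (nat_lit 78) (nat_lit 0) (nat_lit 76) (XT.lf (nat_lit 76) (nat_lit 8117503803) (nat_lit 0) (nat_lit 402804343) (nat_lit 1672) (nat_lit 2668558718) (nat_lit 446) (nat_lit 5) (nat_lit 445) (nat_lit 5) (nat_lit 467) (nat_lit 5) (nat_lit 334) (nat_lit 332) (nat_lit 234)) (XT.lf (nat_lit 76) (nat_lit 5048925383) (nat_lit 0) (nat_lit 4590993616) (nat_lit 1672) (nat_lit 1701613534) (nat_lit 447) (nat_lit 5) (nat_lit 446) (nat_lit 5) (nat_lit 468) (nat_lit 5) (nat_lit 335) (nat_lit 332) (nat_lit 233))))) (XT.nd (nat_lit 156) (nat_lit 0) (nat_lit 76) (XT.nd (nat_lit 78) (nat_lit 1672) (nat_lit 0) (XT.lf (nat_lit 76) (nat_lit 1943875290) (nat_lit 0) (nat_lit 8871181219) (nat_lit 1672) (nat_lit 683297047) (nat_lit 448) (nat_lit 5) (nat_lit 447) (nat_lit 5)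 (nat_lit 469) (nat_lit 5) (nat_lit 336) (nat_lit 332) (nat_lit 232)) (XT.lf (nat_lit 0) (nat_lit 403695375) (nat_lit 1672) (nat_lit 1197255226) (nat_lit 1748) (nat_lit 10058036190) (nat_lit 425) (nat_lit 5) (nat_lit 447) (nat_lit 5) (nat_lit 448) (nat_lit 5) (nat_lit 337) (nat_lit 332) (nat_lit 231))) (XT.nd (nat_lit 78) (nat_lit 0) (nat_lit 76) (XT.lf (nat_lit 0) (nat_lit 1571518034) (nat_lit 1672) (nat_lit 4376258461) (nat_lit 1748) (nat_lit 5875435196) (nat_lit 426) (nat_lit 5) (nat_lit 448) (nat_lit 5) (nat_lit 449) (nat_lit 5) (nat_lit 338) (nat_lit 332) (nat_lit 230)) (XT.nd (nat_lit 78) (nat_lit 0) (nat_lit 0) (XT.lf (nat_lit 0) (nat_lit 2803312587) (nat_lit 1672) (nat_lit 7599093892) (nat_lit 1748) (nat_lit 1589390812) (nat_lit 427) (nat_lit 5) (nat_lit 449) (nat_lit 5) (nat_lit 450) (nat_lit 5) (nat_lit 339) (nat_lit 332) (nat_lit 229)) (XT.lf (nat_lit 76) (nat_lit 1277934037) (nat_lit 0)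 (nat_lit 2843862822) (nat_lit 1748) (nat_lit 8042661209) (nat_lit 428) (nat_lit 5) (nat_lit 427) (nat_lit 5) (nat_lit 450) (nat_lit 5) (nat_lit 340) (nat_lit 332) (nat_lit 228))))))))
noncomputable def xc103 : XT := (XT.nd (nat_lit 1560) (nat_lit 9728) (nat_lit 0) (XT.nd (nat_lit 780) (nat_lit 6992) (nat_lit 0) (XT.nd (nat_lit 390) (nat_lit 3116) (nat_lit 0) (XT.nd (nat_lit 156) (nat_lit 0) (nat_lit 76) (XT.nd (nat_lit 78) (nat_lit 0) (nat_lit 76) (XT.lf (nat_lit 0) (nat_lit 5536326894) (nat_lit 1672) (nat_lit 1867365241) (nat_lit 1748) (nat_lit 4937488678) (nat_lit 428) (nat_lit 5) (nat_lit 450) (nat_lit 5) (nat_lit 451) (nat_lit 5) (nat_lit 341) (nat_lit 332) (nat_lit 227)) (XT.lf (nat_lit 0) (nat_lit 7037182227) (nat_lit 1672) (nat_lit 5042229671) (nat_lit 1748) (nat_lit 442927171) (nat_lit 429) (nat_lit 5) (nat_lit 451) (nat_lit 5) (nat_lit 452) (nat_lit 5) (nat_lit 342) (nat_lit 332) (nat_lit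 226))) (XT.nd (nat_lit 78) (nat_lit 0) (nat_lit 76) (XT.lf (nat_lit 76) (nat_lit 4414497991) (nat_lit 0) (nat_lit 4233557606) (nat_lit 1748) (nat_lit 4059587910) (nat_lit 430) (nat_lit 5) (nat_lit 429) (nat_lit 5) (nat_lit 452) (nat_lit 5) (nat_lit 343) (nat_lit 332) (nat_lit 225)) (XT.nd (nat_lit 78) (nat_lit 0) (nat_lit 0) (XT.lf (nat_lit 76) (nat_lit 1298999754) (nat_lit 0) (nat_lit 9050826414) (nat_lit 1748) (nat_lit 2547840442) (nat_lit 431) (nat_lit 5) (nat_lit 430) (nat_lit 5) (nat_lit 453) (nat_lit 5) (nat_lit 344) (nat_lit 332) (nat_lit 224)) (XT.lf (nat_lit 76) (nat_lit 11245095272) (nat_lit 0) (nat_lit 917252402) (nat_lit 1748) (nat_lit 929859409) (nat_lit 431) (nat_lit 5) (nat_lit 430) (nat_lit 5) (nat_lit 453) (nat_lit 5) (nat_lit 345) (nat_lit 332) (nat_lit 223))))) (XT.nd (nat_lit 156) (nat_lit 1596) (nat_lit 0) (XT.nd (nat_lit 78) (nat_lit 0) (nat_lit 76) (XT.lf (nat_lit 0) (nat_lit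 805560441) (nat_lit 1748) (nat_lit 5058365051) (nat_lit 1824) (nat_lit 7427001523) (nat_lit 408) (nat_lit 5) (nat_lit 431) (nat_lit 5) (nat_lit 432) (nat_lit 5) (nat_lit 346) (nat_lit 332) (nat_lit 222)) (XT.lf (nat_lit 0) (nat_lit 2626098327) (nat_lit 1748) (nat_lit 8330190262) (nat_lit 1824) (nat_lit 2538293085) (nat_lit 409) (nat_lit 5) (nat_lit 432) (nat_lit 5) (nat_lit 433) (nat_lit 5) (nat_lit 347) (nat_lit 332) (nat_lit 221))) (XT.nd (nat_lit 78) (nat_lit 1672) (nat_lit 0) (XT.lf (nat_lit 76) (nat_lit 2027721098) (nat_lit 0) (nat_lit 2537551426) (nat_lit 1824) (nat_lit 9137802584) (nat_lit 410) (nat_lit 5) (nat_lit 409) (nat_lit 5) (nat_lit 433) (nat_lit 5) (nat_lit 348) (nat_lit 332) (nat_lit 220)) (XT.nd (nat_lit 78) (nat_lit 1748) (nat_lit 0) (XT.lf (nat_lit 0) (nat_lit 6636974407) (nat_lit 1748) (nat_lit 1165513329) (nat_lit 76) (nat_lit 6113857822) (nat_lit 410) (nat_lit 5) (nat_lit 433)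 (nat_lit 5) (nat_lit 411) (nat_lit 5) (nat_lit 349) (nat_lit 332) (nat_lit 219)) (XT.lf (nat_lit 0) (nat_lit 8835460003) (nat_lit 1824) (nat_lit 4388748930) (nat_lit 76) (nat_lit 910521529) (nat_lit 387) (nat_lit 5) (nat_lit 411) (nat_lit 5) (nat_lit 388) (nat_lit 5) (nat_lit 350) (nat_lit 332) (nat_lit 218)))))) (XT.nd (nat_lit 390) (nat_lit 3268) (nat_lit 0) (XT.nd (nat_lit 156) (nat_lit 1748) (nat_lit 0) (XT.nd (nat_lit 78) (nat_lit 912) (nat_lit 0) (XT.lf (nat_lit 0) (nat_lit 6657739674) (nat_lit 1064) (nat_lit 4524403222) (nat_lit 1140) (nat_lit 3175887893) (nat_lit 373) (nat_lit 5) (nat_lit 387) (nat_lit 5) (nat_lit 388) (nat_lit 5) (nat_lit 351) (nat_lit 332) (nat_lit 217)) (XT.lf (nat_lit 0) (nat_lit 3506502315) (nat_lit 912) (nat_lit 10153629429) (nat_lit 988) (nat_lit 926688748) (nat_lit 361) (nat_lit 5) (nat_lit 373) (nat_lit 5) (nat_lit 374) (nat_lit 5) (nat_lit 352) (nat_lit 332) (nat_lit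 216))) (XT.nd (nat_lit 78) (nat_lit 836) (nat_lit 0) (XT.lf (nat_lit 0) (nat_lit 278781551) (nat_lit 836) (nat_lit 1157304117) (nat_lit 912) (nat_lit 13384929206) (nat_lit 349) (nat_lit 5) (nat_lit 360) (nat_lit 5) (nat_lit 361) (nat_lit 5) (nat_lit 353) (nat_lit 332) (nat_lit 215)) (XT.nd (nat_lit 78) (nat_lit 836) (nat_lit 0) (XT.lf (nat_lit 0) (nat_lit 3965671295) (nat_lit 912) (nat_lit 3008581560) (nat_lit 76) (nat_lit 8085697198) (nat_lit 349) (nat_lit 5) (nat_lit 361) (nat_lit 5) (nat_lit 350) (nat_lit 5) (nat_lit 354) (nat_lit 332) (nat_lit 214)) (XT.lf (nat_lit 0) (nat_lit 6633091751) (nat_lit 912) (nat_lit 6357743774) (nat_lit 76) (nat_lit 2313986421) (nat_lit 338) (nat_lit 5) (nat_lit 350) (nat_lit 5) (nat_lit 339) (nat_lit 5) (nat_lit 355) (nat_lit 332) (nat_lit 213))))) (XT.nd (nat_lit 156) (nat_lit 1596) (nat_lit 0) (XT.nd (nat_lit 78) (nat_lit 836) (nat_lit 0) (XT.lf (nat_lit 0) (nat_lit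 5756305974) (nat_lit 836) (nat_lit 3710005443) (nat_lit 912) (nat_lit 6089020430) (nat_lit 327) (nat_lit 5) (nat_lit 338) (nat_lit 5) (nat_lit 339) (nat_lit 5) (nat_lit 356) (nat_lit 332) (nat_lit 212)) (XT.lf (nat_lit 0) (nat_lit 2484176669) (nat_lit 836) (nat_lit 9979496041) (nat_lit 912) (nat_lit 3348108603) (nat_lit 316) (nat_lit 5) (nat_lit 327) (nat_lit 5) (nat_lit 328) (nat_lit 5) (nat_lit 357) (nat_lit 332) (nat_lit 211))) (XT.nd (nat_lit 78) (nat_lit 1596) (nat_lit 0) (XT.lf (nat_lit 0) (nat_lit 15226716199) (nat_lit 836) (nat_lit 397374676) (nat_lit 912) (nat_lit 450377627) (nat_lit 316) (nat_lit 5) (nat_lit 327) (nat_lit 5) (nat_lit 328) (nat_lit 5) (nat_lit 358) (nat_lit 332) (nat_lit 210)) (XT.nd (nat_lit 78) (nat_lit 760) (nat_lit 0) (XT.lf (nat_lit 0) (nat_lit 2624427619) (nat_lit 836) (nat_lit 4274331948) (nat_lit 76) (nat_lit 9443486680) (nat_lit 305) (nat_lit 5) (nat_lit 316) (nat_lit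 5) (nat_lit 306) (nat_lit 5) (nat_lit 359) (nat_lit 332) (nat_lit 209)) (XT.lf (nat_lit 0) (nat_lit 5853848285) (nat_lit 836) (nat_lit 7779401048) (nat_lit 76) (nat_lit 2983385080) (nat_lit 295) (nat_lit 5) (nat_lit 306) (nat_lit 5) (nat_lit 296) (nat_lit 5) (nat_lit 360) (nat_lit 332) (nat_lit 208))))))) (XT.nd (nat_lit 780) (nat_lit 4332) (nat_lit 0) (XT.nd (nat_lit 390) (nat_lit 2508) (nat_lit 0) (XT.nd (nat_lit 156) (nat_lit 1444) (nat_lit 0) (XT.nd (nat_lit 78) (nat_lit 760) (nat_lit 0) (XT.lf (nat_lit 0) (nat_lit 5509954778) (nat_lit 684) (nat_lit 3764521033) (nat_lit 760) (nat_lit 7622898171) (nat_lit 286) (nat_lit 5) (nat_lit 295) (nat_lit 5) (nat_lit 296) (nat_lit 5) (nat_lit 361) (nat_lit 332) (nat_lit 207)) (XT.lf (nat_lit 0) (nat_lit 2086461531) (nat_lit 760) (nat_lit 10803050200) (nat_lit 836) (nat_lit 4295194278) (nat_lit 276) (nat_lit 5) (nat_lit 286) (nat_lit 5) (nat_lit 287) (nat_lit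 5) (nat_lit 362) (nat_lit 332) (nat_lit 206))) (XT.nd (nat_lit 78) (nat_lit 1444) (nat_lit 0) (XT.lf (nat_lit 0) (nat_lit 16077219431) (nat_lit 760) (nat_lit 621938793) (nat_lit 836) (nat_lit 779782470) (nat_lit 276) (nat_lit 5) (nat_lit 286) (nat_lit 5) (nat_lit 287) (nat_lit 5) (nat_lit 363) (nat_lit 332) (nat_lit 205)) (XT.nd (nat_lit 78) (nat_lit 684) (nat_lit 0) (XT.lf (nat_lit 0) (nat_lit 2936238152) (nat_lit 760) (nat_lit 5006769057) (nat_lit 76) (nat_lit 9835983729) (nat_lit 266) (nat_lit 5) (nat_lit 276) (nat_lit 5) (nat_lit 267) (nat_lit 5) (nat_lit 364) (nat_lit 332) (nat_lit 204)) (XT.lf (nat_lit 0) (nat_lit 6829421253) (nat_lit 760) (nat_lit 8704414801) (nat_lit 76) (nat_lit 2552583466) (nat_lit 257) (nat_lit 5) (nat_lit 267) (nat_lit 5) (nat_lit 258) (nat_lit 5) (nat_lit 365) (nat_lit 332) (nat_lit 203))))) (XT.nd (nat_lit 156) (nat_lit 1292) (nat_lit 0) (XT.nd (nat_lit 78) (nat_lit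 608) (nat_lit 0) (XT.lf (nat_lit 0) (nat_lit 5874862825) (nat_lit 608) (nat_lit 5074948537) (nat_lit 684) (nat_lit 7451056648) (nat_lit 249) (nat_lit 5) (nat_lit 257) (nat_lit 5) (nat_lit 258) (nat_lit 5) (nat_lit 366) (nat_lit 332) (nat_lit 202)) (XT.lf (nat_lit 0) (nat_lit 2261951274) (nat_lit 608) (nat_lit 13028222862) (nat_lit 684) (nat_lit 3432653725) (nat_lit 241) (nat_lit 5) (nat_lit 249) (nat_lit 5) (nat_lit 250) (nat_lit 5) (nat_lit 367) (nat_lit 332) (nat_lit 201))) (XT.nd (nat_lit 78) (nat_lit 1216) (nat_lit 0) (XT.lf (nat_lit 0) (nat_lit 801942358) (nat_lit 684) (nat_lit 1444172028) (nat_lit 76) (nat_lit 16806147200) (nat_lit 240) (nat_lit 5) (nat_lit 249) (nat_lit 5) (nat_lit 241) (nat_lit 5) (nat_lit 368) (nat_lit 332) (nat_lit 200)) (XT.nd (nat_lit 78) (nat_lit 608) (nat_lit 0) (XT.lf (nat_lit 0) (nat_lit 5253410815) (nat_lit 684) (nat_lit 5278757983) (nat_lit 76) (nat_lit 8856231050)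 (nat_lit 232) (nat_lit 5) (nat_lit 241) (nat_lit 5) (nat_lit 233) (nat_lit 5) (nat_lit 369) (nat_lit 332) (nat_lit 199)) (XT.lf (nat_lit 0) (nat_lit 9921755760) (nat_lit 684) (nat_lit 9215464884) (nat_lit 76) (nat_lit 595739565) (nat_lit 224) (nat_lit 5) (nat_lit 233) (nat_lit 5) (nat_lit 225) (nat_lit 5) (nat_lit 370) (nat_lit 332) (nat_lit 198)))))) (XT.nd (nat_lit 390) (nat_lit 2052) (nat_lit 0) (XT.nd (nat_lit 156) (nat_lit 1140) (nat_lit 0) (XT.nd (nat_lit 78) (nat_lit 608) (nat_lit 0) (XT.lf (nat_lit 0) (nat_lit 6774118901) (nat_lit 532) (nat_lit 8092957454) (nat_lit 608) (nat_lit 5218046984) (nat_lit 217) (nat_lit 5) (nat_lit 224) (nat_lit 5) (nat_lit 225) (nat_lit 5) (nat_lit 371) (nat_lit 332) (nat_lit 197)) (XT.lf (nat_lit 0) (nat_lit 2922756592) (nat_lit 608) (nat_lit 17127916695) (nat_lit 684) (nat_lit 395384078) (nat_lit 209) (nat_lit 5) (nat_lit 217) (nat_lit 5) (nat_lit 218) (nat_lit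 5) (nat_lit 372) (nat_lit 332) (nat_lit 196))) (XT.nd (nat_lit 78) (nat_lit 1064) (nat_lit 0) (XT.lf (nat_lit 0) (nat_lit 4643869824) (nat_lit 684) (nat_lit 1091369629) (nat_lit 76) (nat_lit 15079352939) (nat_lit 208) (nat_lit 5) (nat_lit 217) (nat_lit 5) (nat_lit 209) (nat_lit 5) (nat_lit 373) (nat_lit 332) (nat_lit 195)) (XT.nd (nat_lit 78) (nat_lit 532) (nat_lit 0) (XT.lf (nat_lit 0) (nat_lit 9959973678) (nat_lit 608) (nat_lit 5207096542) (nat_lit 76) (nat_lit 6024444105) (nat_lit 201) (nat_lit 5) (nat_lit 209) (nat_lit 5) (nat_lit 202) (nat_lit 5) (nat_lit 374) (nat_lit 332) (nat_lit 194)) (XT.lf (nat_lit 0) (nat_lit 12112105835) (nat_lit 532) (nat_lit 3435470629) (nat_lit 608) (nat_lit 6029931025) (nat_lit 194) (nat_lit 5) (nat_lit 201) (nat_lit 5) (nat_lit 202) (nat_lit 5) (nat_lit 375) (nat_lit 332) (nat_lit 193))))) (XT.nd (nat_lit 156) (nat_lit 988) (nat_lit 0) (XT.nd (nat_lit 78) (nat_lit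 608) (nat_lit 0) (XT.lf (nat_lit 0) (nat_lit 8081263878) (nat_lit 456) (nat_lit 13353491795) (nat_lit 532) (nat_lit 537689587) (nat_lit 188) (nat_lit 5) (nat_lit 194) (nat_lit 5) (nat_lit 195) (nat_lit 5) (nat_lit 376) (nat_lit 332) (nat_lit 192)) (XT.lf (nat_lit 0) (nat_lit 3884222496) (nat_lit 532) (nat_lit 1268695678) (nat_lit 608) (nat_lit 17223637025) (nat_lit 180) (nat_lit 5) (nat_lit 187) (nat_lit 5) (nat_lit 188) (nat_lit 5) (nat_lit 377) (nat_lit 332) (nat_lit 191))) (XT.nd (nat_lit 78) (nat_lit 988) (nat_lit 0) (XT.lf (nat_lit 0) (nat_lit 11162517139) (nat_lit 608) (nat_lit 500651326) (nat_lit 76) (nat_lit 11126440817) (nat_lit 180) (nat_lit 5) (nat_lit 188) (nat_lit 5) (nat_lit 181) (nat_lit 5) (nat_lit 378) (nat_lit 332) (nat_lit 190)) (XT.nd (nat_lit 78) (nat_lit 532) (nat_lit 0) (XT.lf (nat_lit 0) (nat_lit 17472952979) (nat_lit 532) (nat_lit 4971719025) (nat_lit 76) (nat_lit 767975395)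 (nat_lit 174) (nat_lit 5) (nat_lit 181) (nat_lit 5) (nat_lit 175) (nat_lit 5) (nat_lit 379) (nat_lit 332) (nat_lit 189)) (XT.lf (nat_lit 0) (nat_lit 482155313) (nat_lit 532) (nat_lit 9654990634) (nat_lit 76) (nat_lit 13507950149) (nat_lit 167) (nat_lit 5) (nat_lit 174) (nat_lit 5) (nat_lit 168) (nat_lit 5) (nat_lit 380) (nat_lit 332) (nat_lit 188))))))))
noncomputable def xc104 : XT := (XT.nd (nat_lit 44538) (nat_lit 0) (nat_lit 5852) (XT.nd (nat_lit 43758) (nat_lit 0) (nat_lit 19152) (XT.nd (nat_lit 43368) (nat_lit 0) (nat_lit 20520) (XT.nd (nat_lit 43134) (nat_lit 0) (nat_lit 22040) (XT.nd (nat_lit 78) (nat_lit 456) (nat_lit 0) (XT.lf (nat_lit 0) (nat_lit 6915435160) (nat_lit 532) (nat_lit 14534863882) (nat_lit 76) (nat_lit 2637408466) (nat_lit 161) (nat_lit 5) (nat_lit 168) (nat_lit 5) (nat_lit 162) (nat_lit 5) (nat_lit 381) (nat_lit 332) (nat_lit 187)) (XT.lf (nat_lit 0) (nat_lit 4907614759) (nat_lit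 456) (nat_lit 8788716969) (nat_lit 532) (nat_lit 10844176206) (nat_lit 155) (nat_lit 5) (nat_lit 161) (nat_lit 5) (nat_lit 162) (nat_lit 5) (nat_lit 382) (nat_lit 332) (nat_lit 186))) (XT.nd (nat_lit 78) (nat_lit 0) (nat_lit 0) (XT.lf (nat_lit 0) (nat_lit 2096343402) (nat_lit 0) (nat_lit 2096343402) (nat_lit 1596) (nat_lit 1400617456) (nat_lit 445) (nat_lit 5) (nat_lit 445) (nat_lit 3) (nat_lit 466) (nat_lit 3) (nat_lit 333) (nat_lit 333) (nat_lit 234)) (XT.nd (nat_lit 78) (nat_lit 0) (nat_lit 0) (XT.lf (nat_lit 76) (nat_lit 961019199) (nat_lit 0) (nat_lit 8379010302) (nat_lit 1672) (nat_lit 1997438044) (nat_lit 446) (nat_lit 5) (nat_lit 445) (nat_lit 5) (nat_lit 467) (nat_lit 5) (nat_lit 334) (nat_lit 333) (nat_lit 233)) (XT.lf (nat_lit 76) (nat_lit 9205296672) (nat_lit 0) (nat_lit 1161921905) (nat_lit 1672) (nat_lit 1124770043) (nat_lit 446) (nat_lit 5) (nat_lit 445) (nat_lit 5) (nat_lit 467) (nat_lit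 5) (nat_lit 335) (nat_lit 333) (nat_lit 232))))) (XT.nd (nat_lit 156) (nat_lit 0) (nat_lit 0) (XT.nd (nat_lit 78) (nat_lit 1596) (nat_lit 0) (XT.lf (nat_lit 76) (nat_lit 6067751464) (nat_lit 0) (nat_lit 5407240212) (nat_lit 1672) (nat_lit 175172024) (nat_lit 447) (nat_lit 5) (nat_lit 446) (nat_lit 5) (nat_lit 468) (nat_lit 5) (nat_lit 336) (nat_lit 333) (nat_lit 231)) (XT.lf (nat_lit 0) (nat_lit 818394583) (nat_lit 1672) (nat_lit 8927050671) (nat_lit 1748) (nat_lit 2067027374) (nat_lit 425) (nat_lit 5) (nat_lit 447) (nat_lit 5) (nat_lit 448) (nat_lit 5) (nat_lit 337) (nat_lit 333) (nat_lit 230))) (XT.nd (nat_lit 78) (nat_lit 0) (nat_lit 76) (XT.lf (nat_lit 0) (nat_lit 1884699568) (nat_lit 1672) (nat_lit 350170520) (nat_lit 1748) (nat_lit 9743864049) (nat_lit 425) (nat_lit 5) (nat_lit 447) (nat_lit 5) (nat_lit 448) (nat_lit 5) (nat_lit 338) (nat_lit 333) (nat_lit 229)) (XT.nd (nat_lit 78) (nat_lit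 0) (nat_lit 76) (XT.lf (nat_lit 0) (nat_lit 3046757786) (nat_lit 1672) (nat_lit 3605953048) (nat_lit 1748) (nat_lit 5496009702) (nat_lit 426) (nat_lit 5) (nat_lit 448) (nat_lit 5) (nat_lit 449) (nat_lit 5) (nat_lit 339) (nat_lit 333) (nat_lit 228)) (XT.lf (nat_lit 0) (nat_lit 4276389278) (nat_lit 1672) (nat_lit 6908367567) (nat_lit 1748) (nat_lit 1138407419) (nat_lit 427) (nat_lit 5) (nat_lit 449) (nat_lit 5) (nat_lit 450) (nat_lit 5) (nat_lit 340) (nat_lit 333) (nat_lit 227)))))) (XT.nd (nat_lit 390) (nat_lit 1520) (nat_lit 0) (XT.nd (nat_lit 156) (nat_lit 0) (nat_lit 152) (XT.nd (nat_lit 78) (nat_lit 0) (nat_lit 76) (XT.lf (nat_lit 76) (nat_lit 2220066398) (nat_lit 0) (nat_lit 3379774062) (nat_lit 1748) (nat_lit 6901873847) (nat_lit 428) (nat_lit 5) (nat_lit 427) (nat_lit 5) (nat_lit 450) (nat_lit 5) (nat_lit 341) (nat_lit 333) (nat_lit 226)) (XT.lf (nat_lit 0) (nat_lit 7014517799) (nat_lit 1672)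 (nat_lit 1016204250) (nat_lit 1748) (nat_lit 4653879633) (nat_lit 428) (nat_lit 5) (nat_lit 450) (nat_lit 5) (nat_lit 451) (nat_lit 5) (nat_lit 342) (nat_lit 333) (nat_lit 225))) (XT.nd (nat_lit 78) (nat_lit 0) (nat_lit 0) (XT.lf (nat_lit 0) (nat_lit 8525462667) (nat_lit 1672) (nat_lit 4272369068) (nat_lit 1748) (nat_lit 74078350) (nat_lit 429) (nat_lit 5) (nat_lit 451) (nat_lit 5) (nat_lit 452) (nat_lit 5) (nat_lit 343) (nat_lit 333) (nat_lit 224)) (XT.nd (nat_lit 78) (nat_lit 0) (nat_lit 76) (XT.lf (nat_lit 76) (nat_lit 5453116224) (nat_lit 0) (nat_lit 4700230576) (nat_lit 1748) (nat_lit 2910069353) (nat_lit 430) (nat_lit 5) (nat_lit 429) (nat_lit 5) (nat_lit 452) (nat_lit 5) (nat_lit 344) (nat_lit 333) (nat_lit 223)) (XT.lf (nat_lit 76) (nat_lit 2256664507) (nat_lit 0) (nat_lit 9617042773) (nat_lit 1748) (nat_lit 1386097653) (nat_lit 431) (nat_lit 5) (nat_lit 430) (nat_lit 5) (nat_lit 453) (nat_lit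 5) (nat_lit 345) (nat_lit 333) (nat_lit 222))))) (XT.nd (nat_lit 156) (nat_lit 0) (nat_lit 152) (XT.nd (nat_lit 78) (nat_lit 0) (nat_lit 76) (XT.lf (nat_lit 0) (nat_lit 241154556) (nat_lit 1748) (nat_lit 988105460) (nat_lit 1824) (nat_lit 12231611960) (nat_lit 407) (nat_lit 5) (nat_lit 430) (nat_lit 5) (nat_lit 431) (nat_lit 5) (nat_lit 346) (nat_lit 333) (nat_lit 221)) (XT.lf (nat_lit 0) (nat_lit 1985608107) (nat_lit 1748) (nat_lit 4291298164) (nat_lit 1824) (nat_lit 7389146750) (nat_lit 408) (nat_lit 5) (nat_lit 431) (nat_lit 5) (nat_lit 432) (nat_lit 5) (nat_lit 347) (nat_lit 333) (nat_lit 220))) (XT.nd (nat_lit 78) (nat_lit 0) (nat_lit 0) (XT.lf (nat_lit 0) (nat_lit 3831509013) (nat_lit 1748) (nat_lit 7651697634) (nat_lit 1824) (nat_lit 2393209836) (nat_lit 409) (nat_lit 5) (nat_lit 432) (nat_lit 5) (nat_lit 433) (nat_lit 5) (nat_lit 348) (nat_lit 333) (nat_lit 219)) (XT.nd (nat_lit 78) (nat_lit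 0) (nat_lit 76) (XT.lf (nat_lit 76) (nat_lit 3001888907) (nat_lit 0) (nat_lit 2800085114) (nat_lit 1824) (nat_lit 8289742081) (nat_lit 410) (nat_lit 5) (nat_lit 409) (nat_lit 5) (nat_lit 433) (nat_lit 5) (nat_lit 349) (nat_lit 333) (nat_lit 218)) (XT.lf (nat_lit 0) (nat_lit 7902620573) (nat_lit 1748) (nat_lit 290772210) (nat_lit 76) (nat_lit 6118669303) (nat_lit 410) (nat_lit 5) (nat_lit 433) (nat_lit 5) (nat_lit 411) (nat_lit 5) (nat_lit 350) (nat_lit 333) (nat_lit 217))))))) (XT.nd (nat_lit 780) (nat_lit 5548) (nat_lit 0) (XT.nd (nat_lit 390) (nat_lit 3344) (nat_lit 0) (XT.nd (nat_lit 156) (nat_lit 1824) (nat_lit 0) (XT.nd (nat_lit 78) (nat_lit 1064) (nat_lit 0) (XT.lf (nat_lit 0) (nat_lit 10140857039) (nat_lit 1824) (nat_lit 3603257816) (nat_lit 76) (nat_lit 793420661) (nat_lit 387) (nat_lit 5) (nat_lit 411) (nat_lit 5) (nat_lit 388) (nat_lit 5) (nat_lit 351) (nat_lit 333) (nat_lit 216)) (XT.lf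 (nat_lit 0) (nat_lit 7759745719) (nat_lit 1064) (nat_lit 4773751892) (nat_lit 1140) (nat_lit 2234538628) (nat_lit 373) (nat_lit 5) (nat_lit 387) (nat_lit 5) (nat_lit 388) (nat_lit 5) (nat_lit 352) (nat_lit 333) (nat_lit 215))) (XT.nd (nat_lit 78) (nat_lit 836) (nat_lit 0) (XT.lf (nat_lit 0) (nat_lit 56480673) (nat_lit 988) (nat_lit 10484103791) (nat_lit 76) (nat_lit 4463598001) (nat_lit 360) (nat_lit 5) (nat_lit 373) (nat_lit 5) (nat_lit 361) (nat_lit 5) (nat_lit 353) (nat_lit 333) (nat_lit 214)) (XT.nd (nat_lit 78) (nat_lit 0) (nat_lit 0) (XT.lf (nat_lit 0) (nat_lit 1194606472) (nat_lit 836) (nat_lit 1259824272) (nat_lit 912) (nat_lit 12791323357) (nat_lit 349) (nat_lit 5) (nat_lit 360) (nat_lit 5) (nat_lit 361) (nat_lit 5) (nat_lit 354) (nat_lit 333) (nat_lit 213)) (XT.lf (nat_lit 0) (nat_lit 5031070847) (nat_lit 912) (nat_lit 2198069197) (nat_lit 76) (nat_lit 8263305193) (nat_lit 349) (nat_lit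 5) (nat_lit 361) (nat_lit 5) (nat_lit 350) (nat_lit 5) (nat_lit 355) (nat_lit 333) (nat_lit 212))))) (XT.nd (nat_lit 156) (nat_lit 1672) (nat_lit 0) (XT.nd (nat_lit 78) (nat_lit 836) (nat_lit 0) (XT.lf (nat_lit 0) (nat_lit 7756451809) (nat_lit 912) (nat_lit 5643214328) (nat_lit 76) (nat_lit 2345449307) (nat_lit 338) (nat_lit 5) (nat_lit 350) (nat_lit 5) (nat_lit 339) (nat_lit 5) (nat_lit 356) (nat_lit 333) (nat_lit 211)) (XT.lf (nat_lit 0) (nat_lit 6819570116) (nat_lit 836) (nat_lit 3833956833) (nat_lit 912) (nat_lit 5350047112) (nat_lit 327) (nat_lit 5) (nat_lit 338) (nat_lit 5) (nat_lit 339) (nat_lit 5) (nat_lit 357) (nat_lit 333) (nat_lit 210))) (XT.nd (nat_lit 78) (nat_lit 836) (nat_lit 0) (XT.lf (nat_lit 0) (nat_lit 3453028154) (nat_lit 836) (nat_lit 10267200180) (nat_lit 912) (nat_lit 2547910581) (nat_lit 316) (nat_lit 5) (nat_lit 327) (nat_lit 5) (nat_lit 328) (nat_lit 5) (nat_lit 358) (nat_lit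 333) (nat_lit 209)) (XT.nd (nat_lit 78) (nat_lit 0) (nat_lit 0) (XT.lf (nat_lit 0) (nat_lit 10030850) (nat_lit 760) (nat_lit 395170284) (nat_lit 836) (nat_lit 16133975126) (nat_lit 305) (nat_lit 5) (nat_lit 315) (nat_lit 5) (nat_lit 316) (nat_lit 5) (nat_lit 359) (nat_lit 333) (nat_lit 208)) (XT.lf (nat_lit 0) (nat_lit 3546733748) (nat_lit 836) (nat_lit 3519727489) (nat_lit 76) (nat_lit 9748864026) (nat_lit 305) (nat_lit 5) (nat_lit 316) (nat_lit 5) (nat_lit 306) (nat_lit 5) (nat_lit 360) (nat_lit 333) (nat_lit 207)))))) (XT.nd (nat_lit 390) (nat_lit 2584) (nat_lit 0) (XT.nd (nat_lit 156) (nat_lit 1520) (nat_lit 0) (XT.nd (nat_lit 78) (nat_lit 684) (nat_lit 0) (XT.lf (nat_lit 0) (nat_lit 6854390718) (nat_lit 836) (nat_lit 7127755911) (nat_lit 76) (nat_lit 3116180600) (nat_lit 295) (nat_lit 5) (nat_lit 306) (nat_lit 5) (nat_lit 296) (nat_lit 5) (nat_lit 361) (nat_lit 333) (nat_lit 206)) (XT.lf (nat_lit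 0) (nat_lit 6545922075) (nat_lit 684) (nat_lit 3813340955) (nat_lit 760) (nat_lit 7028602399) (nat_lit 286) (nat_lit 5) (nat_lit 295) (nat_lit 5) (nat_lit 296) (nat_lit 5) (nat_lit 362) (nat_lit 333) (nat_lit 205))) (XT.nd (nat_lit 78) (nat_lit 760) (nat_lit 0) (XT.lf (nat_lit 0) (nat_lit 3021352158) (nat_lit 760) (nat_lit 11043973723) (nat_lit 836) (nat_lit 3618848720) (nat_lit 276) (nat_lit 5) (nat_lit 286) (nat_lit 5) (nat_lit 287) (nat_lit 5) (nat_lit 363) (nat_lit 333) (nat_lit 204)) (XT.nd (nat_lit 78) (nat_lit 760) (nat_lit 0) (XT.lf (nat_lit 0) (nat_lit 17406426092) (nat_lit 760) (nat_lit 559851342) (nat_lit 836) (nat_lit 21427026) (nat_lit 276) (nat_lit 5) (nat_lit 286) (nat_lit 5) (nat_lit 287) (nat_lit 5) (nat_lit 364) (nat_lit 333) (nat_lit 203)) (XT.lf (nat_lit 0) (nat_lit 3779405180) (nat_lit 760) (nat_lit 4298683673) (nat_lit 76) (nat_lit 10218902211) (nat_lit 266) (nat_lit 5) (nat_lit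 276) (nat_lit 5) (nat_lit 267) (nat_lit 5) (nat_lit 365) (nat_lit 333) (nat_lit 202))))) (XT.nd (nat_lit 156) (nat_lit 1292) (nat_lit 0) (XT.nd (nat_lit 78) (nat_lit 608) (nat_lit 0) (XT.lf (nat_lit 0) (nat_lit 7773560212) (nat_lit 760) (nat_lit 8106838799) (nat_lit 76) (nat_lit 2733567769) (nat_lit 257) (nat_lit 5) (nat_lit 267) (nat_lit 5) (nat_lit 258) (nat_lit 5) (nat_lit 366) (nat_lit 333) (nat_lit 201)) (XT.lf (nat_lit 0) (nat_lit 6895885632) (nat_lit 608) (nat_lit 5105629506) (nat_lit 684) (nat_lit 6936662102) (nat_lit 249) (nat_lit 5) (nat_lit 257) (nat_lit 5) (nat_lit 258) (nat_lit 5) (nat_lit 367) (nat_lit 333) (nat_lit 200))) (XT.nd (nat_lit 78) (nat_lit 684) (nat_lit 0) (XT.lf (nat_lit 0) (nat_lit 3174582789) (nat_lit 608) (nat_lit 13282692789) (nat_lit 684) (nat_lit 2812823932) (nat_lit 241) (nat_lit 5) (nat_lit 249) (nat_lit 5) (nat_lit 250) (nat_lit 5) (nat_lit 368) (nat_lit 333) (nat_lit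 199)) (XT.nd (nat_lit 78) (nat_lit 608) (nat_lit 0) (XT.lf (nat_lit 0) (nat_lit 1518553667) (nat_lit 684) (nat_lit 657892136) (nat_lit 76) (nat_lit 17433299120) (nat_lit 240) (nat_lit 5) (nat_lit 249) (nat_lit 5) (nat_lit 241) (nat_lit 5) (nat_lit 369) (nat_lit 333) (nat_lit 198)) (XT.lf (nat_lit 0) (nat_lit 6089592697) (nat_lit 684) (nat_lit 4608093771) (nat_lit 76) (nat_lit 9258567133) (nat_lit 232) (nat_lit 5) (nat_lit 241) (nat_lit 5) (nat_lit 233) (nat_lit 5) (nat_lit 370) (nat_lit 333) (nat_lit 197))))))))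
noncomputable def xc105 : XT := (XT.nd (nat_lit 44616) (nat_lit 0) (nat_lit 10944) (XT.nd (nat_lit 780) (nat_lit 988) (nat_lit 0) (XT.nd (nat_lit 390) (nat_lit 2052) (nat_lit 0) (XT.nd (nat_lit 156) (nat_lit 1216) (nat_lit 0) (XT.nd (nat_lit 78) (nat_lit 532) (nat_lit 0) (XT.lf (nat_lit 0) (nat_lit 10884502225) (nat_lit 684) (nat_lit 8663833021) (nat_lit 76) (nat_lit 763091843) (nat_lit 224) (nat_lit 5) (nat_lit 233) (nat_lit 5) (nat_lit 225) (nat_lit 5) (nat_lit 371) (nat_lit 333) (nat_lit 196)) (XT.lf (nat_lit 0) (nat_lit 7792003407) (nat_lit 532) (nat_lit 8172096687) (nat_lit 608) (nat_lit 4710343076) (nat_lit 217) (nat_lit 5) (nat_lit 224) (nat_lit 5) (nat_lit 225) (nat_lit 5) (nat_lit 372) (nat_lit 333) (nat_lit 195))) (XT.nd (nat_lit 78) (nat_lit 532) (nat_lit 0) (XT.lf (nat_lit 0) (nat_lit 240890535) (nat_lit 684) (nat_lit 17224192015) (nat_lit 76) (nat_lit 3581350167) (nat_lit 208) (nat_lit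 5) (nat_lit 217) (nat_lit 5) (nat_lit 209) (nat_lit 5) (nat_lit 373) (nat_lit 333) (nat_lit 194)) (XT.nd (nat_lit 78) (nat_lit 532) (nat_lit 0) (XT.lf (nat_lit 0) (nat_lit 5407258771) (nat_lit 684) (nat_lit 325893559) (nat_lit 76) (nat_lit 15693198949) (nat_lit 208) (nat_lit 5) (nat_lit 217) (nat_lit 5) (nat_lit 209) (nat_lit 5) (nat_lit 374) (nat_lit 333) (nat_lit 193)) (XT.lf (nat_lit 0) (nat_lit 10870898829) (nat_lit 608) (nat_lit 4566762331) (nat_lit 76) (nat_lit 6377164398) (nat_lit 201) (nat_lit 5) (nat_lit 209) (nat_lit 5) (nat_lit 202) (nat_lit 5) (nat_lit 375) (nat_lit 333) (nat_lit 192))))) (XT.nd (nat_lit 156) (nat_lit 988) (nat_lit 0) (XT.nd (nat_lit 78) (nat_lit 532) (nat_lit 0) (XT.lf (nat_lit 0) (nat_lit 13259093087) (nat_lit 532) (nat_lit 3354295508) (nat_lit 608) (nat_lit 5599270328) (nat_lit 194) (nat_lit 5) (nat_lit 201) (nat_lit 5) (nat_lit 202) (nat_lit 5) (nat_lit 376) (nat_lit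 333) (nat_lit 191)) (XT.lf (nat_lit 0) (nat_lit 45680376) (nat_lit 532) (nat_lit 13514563206) (nat_lit 76) (nat_lit 9059425075) (nat_lit 187) (nat_lit 5) (nat_lit 194) (nat_lit 5) (nat_lit 188) (nat_lit 5) (nat_lit 377) (nat_lit 333) (nat_lit 190))) (XT.nd (nat_lit 78) (nat_lit 456) (nat_lit 0) (XT.lf (nat_lit 0) (nat_lit 4777694137) (nat_lit 532) (nat_lit 1109843596) (nat_lit 608) (nat_lit 17148541509) (nat_lit 180) (nat_lit 5) (nat_lit 187) (nat_lit 5) (nat_lit 188) (nat_lit 5) (nat_lit 378) (nat_lit 333) (nat_lit 189)) (XT.nd (nat_lit 78) (nat_lit 0) (nat_lit 0) (XT.lf (nat_lit 0) (nat_lit 252139964) (nat_lit 456) (nat_lit 11811268878) (nat_lit 532) (nat_lit 11398401431) (nat_lit 174) (nat_lit 5) (nat_lit 180) (nat_lit 5) (nat_lit 181) (nat_lit 5) (nat_lit 379) (nat_lit 333) (nat_lit 188)) (XT.lf (nat_lit 0) (nat_lit 18551259445) (nat_lit 532) (nat_lit 4358845049) (nat_lit 76) (nat_lit 987677869)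 (nat_lit 174) (nat_lit 5) (nat_lit 181) (nat_lit 5) (nat_lit 175) (nat_lit 5) (nat_lit 380) (nat_lit 333) (nat_lit 187)))))) (XT.nd (nat_lit 43446) (nat_lit 0) (nat_lit 19988) (XT.nd (nat_lit 43212) (nat_lit 0) (nat_lit 19912) (XT.nd (nat_lit 78) (nat_lit 456) (nat_lit 0) (XT.lf (nat_lit 0) (nat_lit 1043216121) (nat_lit 532) (nat_lit 9187559497) (nat_lit 76) (nat_lit 14112587145) (nat_lit 167) (nat_lit 5) (nat_lit 174) (nat_lit 5) (nat_lit 168) (nat_lit 5) (nat_lit 381) (nat_lit 333) (nat_lit 186)) (XT.lf (nat_lit 0) (nat_lit 7659768637) (nat_lit 532) (nat_lit 14216610476) (nat_lit 76) (nat_lit 2923072412) (nat_lit 161) (nat_lit 5) (nat_lit 168) (nat_lit 5) (nat_lit 162) (nat_lit 5) (nat_lit 382) (nat_lit 333) (nat_lit 185))) (XT.nd (nat_lit 78) (nat_lit 1672) (nat_lit 0) (XT.lf (nat_lit 0) (nat_lit 2556979830) (nat_lit 0) (nat_lit 2556979830) (nat_lit 1596) (nat_lit 630874770) (nat_lit 445) (nat_lit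 5) (nat_lit 445) (nat_lit 3) (nat_lit 466) (nat_lit 3) (nat_lit 334) (nat_lit 334) (nat_lit 232)) (XT.nd (nat_lit 78) (nat_lit 1672) (nat_lit 0) (XT.lf (nat_lit 76) (nat_lit 1809527207) (nat_lit 0) (nat_lit 9355655787) (nat_lit 1672) (nat_lit 480812218) (nat_lit 446) (nat_lit 5) (nat_lit 445) (nat_lit 5) (nat_lit 467) (nat_lit 5) (nat_lit 335) (nat_lit 334) (nat_lit 231)) (XT.lf (nat_lit 0) (nat_lit 367236541) (nat_lit 1672) (nat_lit 1531229327) (nat_lit 1748) (nat_lit 9907558013) (nat_lit 423) (nat_lit 5) (nat_lit 445) (nat_lit 5) (nat_lit 446) (nat_lit 5) (nat_lit 336) (nat_lit 334) (nat_lit 230))))) (XT.nd (nat_lit 156) (nat_lit 0) (nat_lit 76) (XT.nd (nat_lit 78) (nat_lit 0) (nat_lit 76) (XT.lf (nat_lit 0) (nat_lit 1289373264) (nat_lit 1672) (nat_lit 4910998928) (nat_lit 1748) (nat_lit 5769326774) (nat_lit 424) (nat_lit 5) (nat_lit 446) (nat_lit 5) (nat_lit 447) (nat_lit 5) (nat_lit 337) (nat_lit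 334) (nat_lit 229)) (XT.lf (nat_lit 0) (nat_lit 2269056451) (nat_lit 1672) (nat_lit 8337578344) (nat_lit 1748) (nat_lit 1531064188) (nat_lit 425) (nat_lit 5) (nat_lit 447) (nat_lit 5) (nat_lit 448) (nat_lit 5) (nat_lit 338) (nat_lit 334) (nat_lit 228))) (XT.nd (nat_lit 78) (nat_lit 0) (nat_lit 76) (XT.lf (nat_lit 76) (nat_lit 477906609) (nat_lit 0) (nat_lit 2851009677) (nat_lit 1748) (nat_lit 8980818959) (nat_lit 426) (nat_lit 5) (nat_lit 425) (nat_lit 5) (nat_lit 448) (nat_lit 5) (nat_lit 339) (nat_lit 334) (nat_lit 227)) (XT.nd (nat_lit 78) (nat_lit 0) (nat_lit 76) (XT.lf (nat_lit 0) (nat_lit 4484276280) (nat_lit 1672) (nat_lit 2864293608) (nat_lit 1748) (nat_lit 5137100240) (nat_lit 426) (nat_lit 5) (nat_lit 448) (nat_lit 5) (nat_lit 449) (nat_lit 5) (nat_lit 340) (nat_lit 334) (nat_lit 226)) (XT.lf (nat_lit 0) (nat_lit 5713925289) (nat_lit 1672) (nat_lit 6249656541) (nat_lit 1748) (nat_lit 702519942)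 (nat_lit 427) (nat_lit 5) (nat_lit 449) (nat_lit 5) (nat_lit 450) (nat_lit 5) (nat_lit 341) (nat_lit 334) (nat_lit 225))))))) (XT.nd (nat_lit 780) (nat_lit 6232) (nat_lit 0) (XT.nd (nat_lit 390) (nat_lit 3040) (nat_lit 0) (XT.nd (nat_lit 156) (nat_lit 0) (nat_lit 76) (XT.nd (nat_lit 78) (nat_lit 0) (nat_lit 76) (XT.lf (nat_lit 76) (nat_lit 3138581237) (nat_lit 0) (nat_lit 3905896623) (nat_lit 1748) (nat_lit 5806199176) (nat_lit 428) (nat_lit 5) (nat_lit 427) (nat_lit 5) (nat_lit 450) (nat_lit 5) (nat_lit 342) (nat_lit 334) (nat_lit 224)) (XT.lf (nat_lit 0) (nat_lit 8461734460) (nat_lit 1672) (nat_lit 191584385) (nat_lit 1748) (nat_lit 4386545597) (nat_lit 428) (nat_lit 5) (nat_lit 450) (nat_lit 5) (nat_lit 451) (nat_lit 5) (nat_lit 343) (nat_lit 334) (nat_lit 223))) (XT.nd (nat_lit 78) (nat_lit 0) (nat_lit 76) (XT.lf (nat_lit 76) (nat_lit 9699272179) (nat_lit 0) (nat_lit 287672607) (nat_lit 1748)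 (nat_lit 3246484287) (nat_lit 429) (nat_lit 5) (nat_lit 428) (nat_lit 5) (nat_lit 451) (nat_lit 5) (nat_lit 344) (nat_lit 334) (nat_lit 222)) (XT.nd (nat_lit 78) (nat_lit 0) (nat_lit 76) (XT.lf (nat_lit 76) (nat_lit 6470874377) (nat_lit 0) (nat_lit 5161405504) (nat_lit 1748) (nat_lit 1799043416) (nat_lit 430) (nat_lit 5) (nat_lit 429) (nat_lit 5) (nat_lit 452) (nat_lit 5) (nat_lit 345) (nat_lit 334) (nat_lit 221)) (XT.lf (nat_lit 76) (nat_lit 3190322365) (nat_lit 0) (nat_lit 10183329121) (nat_lit 1748) (nat_lit 260579063) (nat_lit 431) (nat_lit 5) (nat_lit 430) (nat_lit 5) (nat_lit 453) (nat_lit 5) (nat_lit 346) (nat_lit 334) (nat_lit 220))))) (XT.nd (nat_lit 156) (nat_lit 1520) (nat_lit 0) (XT.nd (nat_lit 78) (nat_lit 0) (nat_lit 76) (XT.lf (nat_lit 0) (nat_lit 1366636545) (nat_lit 1748) (nat_lit 161681772) (nat_lit 1824) (nat_lit 12313544785) (nat_lit 407) (nat_lit 5) (nat_lit 430) (nat_lit 5) (nat_lit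 431) (nat_lit 5) (nat_lit 347) (nat_lit 334) (nat_lit 219)) (XT.lf (nat_lit 0) (nat_lit 3134704913) (nat_lit 1748) (nat_lit 3553963172) (nat_lit 1824) (nat_lit 7365119561) (nat_lit 408) (nat_lit 5) (nat_lit 431) (nat_lit 5) (nat_lit 432) (nat_lit 5) (nat_lit 348) (nat_lit 334) (nat_lit 218))) (XT.nd (nat_lit 78) (nat_lit 1672) (nat_lit 0) (XT.lf (nat_lit 0) (nat_lit 5008408979) (nat_lit 1748) (nat_lit 7006144090) (nat_lit 1824) (nat_lit 2256473714) (nat_lit 409) (nat_lit 5) (nat_lit 432) (nat_lit 5) (nat_lit 433) (nat_lit 5) (nat_lit 349) (nat_lit 334) (nat_lit 217)) (XT.nd (nat_lit 78) (nat_lit 1672) (nat_lit 0) (XT.lf (nat_lit 76) (nat_lit 3952852516) (nat_lit 0) (nat_lit 3059794279) (nat_lit 1824) (nat_lit 7480658322) (nat_lit 410) (nat_lit 5) (nat_lit 409) (nat_lit 5) (nat_lit 433) (nat_lit 5) (nat_lit 350) (nat_lit 334) (nat_lit 216)) (XT.lf (nat_lit 0) (nat_lit 565405663) (nat_lit 1748) (nat_lit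 8583277866) (nat_lit 1824) (nat_lit 5572143068) (nat_lit 387) (nat_lit 5) (nat_lit 410) (nat_lit 5) (nat_lit 411) (nat_lit 5) (nat_lit 351) (nat_lit 334) (nat_lit 215)))))) (XT.nd (nat_lit 390) (nat_lit 3344) (nat_lit 0) (XT.nd (nat_lit 156) (nat_lit 1824) (nat_lit 0) (XT.nd (nat_lit 78) (nat_lit 1064) (nat_lit 0) (XT.lf (nat_lit 0) (nat_lit 11425696602) (nat_lit 1824) (nat_lit 2846850337) (nat_lit 76) (nat_lit 681096866) (nat_lit 387) (nat_lit 5) (nat_lit 411) (nat_lit 5) (nat_lit 388) (nat_lit 5) (nat_lit 352) (nat_lit 334) (nat_lit 214)) (XT.lf (nat_lit 0) (nat_lit 8843017735) (nat_lit 1064) (nat_lit 5024058966) (nat_lit 1140) (nat_lit 1324455452) (nat_lit 373) (nat_lit 5) (nat_lit 387) (nat_lit 5) (nat_lit 388) (nat_lit 5) (nat_lit 353) (nat_lit 334) (nat_lit 213))) (XT.nd (nat_lit 78) (nat_lit 836) (nat_lit 0) (XT.lf (nat_lit 0) (nat_lit 999311660) (nat_lit 988) (nat_lit 9929151221) (nat_lit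 76) (nat_lit 4506647598) (nat_lit 360) (nat_lit 5) (nat_lit 373) (nat_lit 5) (nat_lit 361) (nat_lit 5) (nat_lit 354) (nat_lit 334) (nat_lit 212)) (XT.nd (nat_lit 78) (nat_lit 0) (nat_lit 0) (XT.lf (nat_lit 0) (nat_lit 2085814140) (nat_lit 836) (nat_lit 1361527975) (nat_lit 912) (nat_lit 12237035227) (nat_lit 349) (nat_lit 5) (nat_lit 360) (nat_lit 5) (nat_lit 361) (nat_lit 5) (nat_lit 355) (nat_lit 334) (nat_lit 211)) (XT.lf (nat_lit 0) (nat_lit 6074103467) (nat_lit 912) (nat_lit 1414949336) (nat_lit 76) (nat_lit 8449970566) (nat_lit 349) (nat_lit 5) (nat_lit 361) (nat_lit 5) (nat_lit 350) (nat_lit 5) (nat_lit 356) (nat_lit 334) (nat_lit 210))))) (XT.nd (nat_lit 156) (nat_lit 1672) (nat_lit 0) (XT.nd (nat_lit 78) (nat_lit 836) (nat_lit 0) (XT.lf (nat_lit 0) (nat_lit 8860450204) (nat_lit 912) (nat_lit 4959214727) (nat_lit 76) (nat_lit 2380034951) (nat_lit 338) (nat_lit 5) (nat_lit 350) (nat_lit 5)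 (nat_lit 339) (nat_lit 5) (nat_lit 357) (nat_lit 334) (nat_lit 209)) (XT.lf (nat_lit 0) (nat_lit 7863609536) (nat_lit 836) (nat_lit 3960900533) (nat_lit 912) (nat_lit 4641810728) (nat_lit 327) (nat_lit 5) (nat_lit 338) (nat_lit 5) (nat_lit 339) (nat_lit 5) (nat_lit 358) (nat_lit 334) (nat_lit 208))) (XT.nd (nat_lit 78) (nat_lit 836) (nat_lit 0) (XT.lf (nat_lit 0) (nat_lit 4399607201) (nat_lit 836) (nat_lit 10564205965) (nat_lit 912) (nat_lit 1775407113) (nat_lit 316) (nat_lit 5) (nat_lit 327) (nat_lit 5) (nat_lit 328) (nat_lit 5) (nat_lit 359) (nat_lit 334) (nat_lit 207)) (XT.nd (nat_lit 78) (nat_lit 0) (nat_lit 0) (XT.lf (nat_lit 0) (nat_lit 850908636) (nat_lit 760) (nat_lit 385310750) (nat_lit 836) (nat_lit 15782447242) (nat_lit 305) (nat_lit 5) (nat_lit 315) (nat_lit 5) (nat_lit 316) (nat_lit 5) (nat_lit 360) (nat_lit 334) (nat_lit 206)) (XT.lf (nat_lit 0) (nat_lit 4448284502) (nat_lit 836) (nat_lit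 2793163203) (nat_lit 76) (nat_lit 10062135627) (nat_lit 305) (nat_lit 5) (nat_lit 316) (nat_lit 5) (nat_lit 306) (nat_lit 5) (nat_lit 361) (nat_lit 334) (nat_lit 205))))))))
noncomputable def xc106 : XT := (XT.nd (nat_lit 1560) (nat_lit 532) (nat_lit 0) (XT.nd (nat_lit 780) (nat_lit 4408) (nat_lit 0) (XT.nd (nat_lit 390) (nat_lit 2584) (nat_lit 0) (XT.nd (nat_lit 156) (nat_lit 1520) (nat_lit 0) (XT.nd (nat_lit 78) (nat_lit 684) (nat_lit 0) (XT.lf (nat_lit 0) (nat_lit 7837595242) (nat_lit 836) (nat_lit 6507365601) (nat_lit 76) (nat_lit 3250474735) (nat_lit 295) (nat_lit 5) (nat_lit 306) (nat_lit 5) (nat_lit 296) (nat_lit 5) (nat_lit 362) (nat_lit 334) (nat_lit 204)) (XT.lf (nat_lit 0) (nat_lit 7562988448) (nat_lit 684) (nat_lit 3867305978) (nat_lit 760) (nat_lit 6463720329) (nat_lit 286) (nat_lit 5) (nat_lit 295) (nat_lit 5) (nat_lit 296) (nat_lit 5) (nat_lit 363) (nat_lit 334) (nat_lit 203))) (XT.nd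 (nat_lit 78) (nat_lit 760) (nat_lit 0) (XT.lf (nat_lit 0) (nat_lit 3934216099) (nat_lit 760) (nat_lit 11296899134) (nat_lit 836) (nat_lit 2968434649) (nat_lit 276) (nat_lit 5) (nat_lit 286) (nat_lit 5) (nat_lit 287) (nat_lit 5) (nat_lit 364) (nat_lit 334) (nat_lit 202)) (XT.nd (nat_lit 78) (nat_lit 0) (nat_lit 0) (XT.lf (nat_lit 0) (nat_lit 212411942) (nat_lit 684) (nat_lit 494395896) (nat_lit 760) (nat_lit 17805698657) (nat_lit 266) (nat_lit 5) (nat_lit 275) (nat_lit 5) (nat_lit 276) (nat_lit 5) (nat_lit 365) (nat_lit 334) (nat_lit 201)) (XT.lf (nat_lit 0) (nat_lit 4604522544) (nat_lit 760) (nat_lit 3618624995) (nat_lit 76) (nat_lit 10608265930) (nat_lit 266) (nat_lit 5) (nat_lit 276) (nat_lit 5) (nat_lit 267) (nat_lit 5) (nat_lit 366) (nat_lit 334) (nat_lit 200))))) (XT.nd (nat_lit 156) (nat_lit 1292) (nat_lit 0) (XT.nd (nat_lit 78) (nat_lit 608) (nat_lit 0) (XT.lf (nat_lit 0) (nat_lit 8703587003)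 (nat_lit 760) (nat_lit 7540628894) (nat_lit 76) (nat_lit 2913988224) (nat_lit 257) (nat_lit 5) (nat_lit 267) (nat_lit 5) (nat_lit 258) (nat_lit 5) (nat_lit 367) (nat_lit 334) (nat_lit 199)) (XT.lf (nat_lit 0) (nat_lit 7899045472) (nat_lit 608) (nat_lit 5144209377) (nat_lit 684) (nat_lit 6449195705) (nat_lit 249) (nat_lit 5) (nat_lit 257) (nat_lit 5) (nat_lit 258) (nat_lit 5) (nat_lit 368) (nat_lit 334) (nat_lit 198))) (XT.nd (nat_lit 78) (nat_lit 684) (nat_lit 0) (XT.lf (nat_lit 0) (nat_lit 4066099824) (nat_lit 608) (nat_lit 13552625398) (nat_lit 684) (nat_lit 2215891462) (nat_lit 241) (nat_lit 5) (nat_lit 249) (nat_lit 5) (nat_lit 250) (nat_lit 5) (nat_lit 369) (nat_lit 334) (nat_lit 197)) (XT.nd (nat_lit 78) (nat_lit 0) (nat_lit 0) (XT.lf (nat_lit 0) (nat_lit 105740231) (nat_lit 608) (nat_lit 2111854242) (nat_lit 684) (nat_lit 17967153064) (nat_lit 232) (nat_lit 5) (nat_lit 240) (nat_lit 5) (nat_lit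 241) (nat_lit 5) (nat_lit 370) (nat_lit 334) (nat_lit 196)) (XT.lf (nat_lit 0) (nat_lit 6911906793) (nat_lit 684) (nat_lit 3964899172) (nat_lit 76) (nat_lit 9665129079) (nat_lit 232) (nat_lit 5) (nat_lit 241) (nat_lit 5) (nat_lit 233) (nat_lit 5) (nat_lit 371) (nat_lit 334) (nat_lit 195)))))) (XT.nd (nat_lit 390) (nat_lit 2052) (nat_lit 0) (XT.nd (nat_lit 156) (nat_lit 1216) (nat_lit 0) (XT.nd (nat_lit 78) (nat_lit 532) (nat_lit 0) (XT.lf (nat_lit 0) (nat_lit 11837951980) (nat_lit 684) (nat_lit 8143188290) (nat_lit 76) (nat_lit 926883921) (nat_lit 224) (nat_lit 5) (nat_lit 233) (nat_lit 5) (nat_lit 225) (nat_lit 5) (nat_lit 372) (nat_lit 334) (nat_lit 194)) (XT.lf (nat_lit 0) (nat_lit 8793659577) (nat_lit 532) (nat_lit 8263004247) (nat_lit 608) (nat_lit 4225538450) (nat_lit 217) (nat_lit 5) (nat_lit 224) (nat_lit 5) (nat_lit 225) (nat_lit 5) (nat_lit 373) (nat_lit 334) (nat_lit 193))) (XT.nd (nat_lit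 78) (nat_lit 532) (nat_lit 0) (XT.lf (nat_lit 0) (nat_lit 854013224) (nat_lit 684) (nat_lit 16965949660) (nat_lit 76) (nat_lit 3845553218) (nat_lit 208) (nat_lit 5) (nat_lit 217) (nat_lit 5) (nat_lit 209) (nat_lit 5) (nat_lit 374) (nat_lit 334) (nat_lit 192)) (XT.nd (nat_lit 78) (nat_lit 0) (nat_lit 0) (XT.lf (nat_lit 0) (nat_lit 422263929) (nat_lit 532) (nat_lit 5738202739) (nat_lit 608) (nat_lit 15896669252) (nat_lit 201) (nat_lit 5) (nat_lit 208) (nat_lit 5) (nat_lit 209) (nat_lit 5) (nat_lit 375) (nat_lit 334) (nat_lit 191)) (XT.lf (nat_lit 0) (nat_lit 11774013201) (nat_lit 608) (nat_lit 3952943156) (nat_lit 76) (nat_lit 6730593545) (nat_lit 201) (nat_lit 5) (nat_lit 209) (nat_lit 5) (nat_lit 202) (nat_lit 5) (nat_lit 376) (nat_lit 334) (nat_lit 190))))) (XT.nd (nat_lit 156) (nat_lit 988) (nat_lit 0) (XT.nd (nat_lit 78) (nat_lit 532) (nat_lit 0) (XT.lf (nat_lit 0) (nat_lit 14395506729) (nat_lit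 532) (nat_lit 3281261220) (nat_lit 608) (nat_lit 5190795776) (nat_lit 194) (nat_lit 5) (nat_lit 201) (nat_lit 5) (nat_lit 202) (nat_lit 5) (nat_lit 377) (nat_lit 334) (nat_lit 189)) (XT.lf (nat_lit 0) (nat_lit 605291148) (nat_lit 532) (nat_lit 13175577584) (nat_lit 76) (nat_lit 9506058213) (nat_lit 187) (nat_lit 5) (nat_lit 194) (nat_lit 5) (nat_lit 188) (nat_lit 5) (nat_lit 378) (nat_lit 334) (nat_lit 188))) (XT.nd (nat_lit 78) (nat_lit 456) (nat_lit 0) (XT.lf (nat_lit 0) (nat_lit 5653370108) (nat_lit 532) (nat_lit 957529560) (nat_lit 608) (nat_lit 17105165134) (nat_lit 180) (nat_lit 5) (nat_lit 187) (nat_lit 5) (nat_lit 188) (nat_lit 5) (nat_lit 379) (nat_lit 334) (nat_lit 187)) (XT.nd (nat_lit 78) (nat_lit 0) (nat_lit 0) (XT.lf (nat_lit 0) (nat_lit 989899117) (nat_lit 456) (nat_lit 11972134359) (nat_lit 532) (nat_lit 11192739279) (nat_lit 174) (nat_lit 5) (nat_lit 180) (nat_lit 5) (nat_lit 181)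 (nat_lit 5) (nat_lit 380) (nat_lit 334) (nat_lit 186)) (XT.lf (nat_lit 0) (nat_lit 19630106472) (nat_lit 532) (nat_lit 3771328238) (nat_lit 76) (nat_lit 1202682144) (nat_lit 174) (nat_lit 5) (nat_lit 181) (nat_lit 5) (nat_lit 175) (nat_lit 5) (nat_lit 381) (nat_lit 334) (nat_lit 185))))))) (XT.nd (nat_lit 43914) (nat_lit 0) (nat_lit 16720) (XT.nd (nat_lit 43524) (nat_lit 0) (nat_lit 19608) (XT.nd (nat_lit 43290) (nat_lit 0) (nat_lit 19456) (XT.nd (nat_lit 43212) (nat_lit 0) (nat_lit 19380) (XT.lf (nat_lit 0) (nat_lit 1589731898) (nat_lit 532) (nat_lit 8749564965) (nat_lit 76) (nat_lit 14723916961) (nat_lit 167) (nat_lit 5) (nat_lit 174) (nat_lit 5) (nat_lit 168) (nat_lit 5) (nat_lit 382) (nat_lit 334) (nat_lit 184)) (XT.lf (nat_lit 0) (nat_lit 113848792) (nat_lit 1748) (nat_lit 2893990319) (nat_lit 1748) (nat_lit 2893990319) (nat_lit 422) (nat_lit 3) (nat_lit 445) (nat_lit 3) (nat_lit 445) (nat_lit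 5) (nat_lit 335) (nat_lit 335) (nat_lit 230))) (XT.nd (nat_lit 78) (nat_lit 0) (nat_lit 0) (XT.lf (nat_lit 0) (nat_lit 977817345) (nat_lit 1672) (nat_lit 9335587861) (nat_lit 1748) (nat_lit 1652058604) (nat_lit 423) (nat_lit 5) (nat_lit 445) (nat_lit 5) (nat_lit 446) (nat_lit 5) (nat_lit 336) (nat_lit 335) (nat_lit 229)) (XT.nd (nat_lit 78) (nat_lit 0) (nat_lit 76) (XT.lf (nat_lit 0) (nat_lit 1802097145) (nat_lit 1672) (nat_lit 807497488) (nat_lit 1748) (nat_lit 9521507471) (nat_lit 423) (nat_lit 5) (nat_lit 445) (nat_lit 5) (nat_lit 446) (nat_lit 5) (nat_lit 337) (nat_lit 335) (nat_lit 228)) (XT.lf (nat_lit 0) (nat_lit 2711251855) (nat_lit 1672) (nat_lit 4268702898) (nat_lit 1748) (nat_lit 5320563834) (nat_lit 424) (nat_lit 5) (nat_lit 446) (nat_lit 5) (nat_lit 447) (nat_lit 5) (nat_lit 338) (nat_lit 335) (nat_lit 227))))) (XT.nd (nat_lit 156) (nat_lit 0) (nat_lit 76) (XT.nd (nat_lit 78) (nat_lit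 0) (nat_lit 0) (XT.lf (nat_lit 0) (nat_lit 3681373626) (nat_lit 1672) (nat_lit 7779633447) (nat_lit 1748) (nat_lit 1013348262) (nat_lit 425) (nat_lit 5) (nat_lit 447) (nat_lit 5) (nat_lit 448) (nat_lit 5) (nat_lit 339) (nat_lit 335) (nat_lit 226)) (XT.lf (nat_lit 76) (nat_lit 1287206043) (nat_lit 0) (nat_lit 3451831854) (nat_lit 1748) (nat_lit 7913211790) (nat_lit 426) (nat_lit 5) (nat_lit 425) (nat_lit 5) (nat_lit 448) (nat_lit 5) (nat_lit 340) (nat_lit 335) (nat_lit 225))) (XT.nd (nat_lit 78) (nat_lit 0) (nat_lit 76) (XT.lf (nat_lit 0) (nat_lit 5887647777) (nat_lit 1672) (nat_lit 2149168564) (nat_lit 1748) (nat_lit 4797491168) (nat_lit 426) (nat_lit 5) (nat_lit 448) (nat_lit 5) (nat_lit 449) (nat_lit 5) (nat_lit 341) (nat_lit 335) (nat_lit 224)) (XT.nd (nat_lit 78) (nat_lit 0) (nat_lit 0) (XT.lf (nat_lit 0) (nat_lit 7119431399) (nat_lit 1672) (nat_lit 5620893950) (nat_lit 1748) (nat_lit 280538042)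 (nat_lit 427) (nat_lit 5) (nat_lit 449) (nat_lit 5) (nat_lit 450) (nat_lit 5) (nat_lit 342) (nat_lit 335) (nat_lit 223)) (XT.lf (nat_lit 76) (nat_lit 4035748239) (nat_lit 0) (nat_lit 4423421659) (nat_lit 1748) (nat_lit 4752436346) (nat_lit 428) (nat_lit 5) (nat_lit 427) (nat_lit 5) (nat_lit 450) (nat_lit 5) (nat_lit 343) (nat_lit 335) (nat_lit 222)))))) (XT.nd (nat_lit 390) (nat_lit 1520) (nat_lit 0) (XT.nd (nat_lit 156) (nat_lit 1596) (nat_lit 0) (XT.nd (nat_lit 78) (nat_lit 0) (nat_lit 0) (XT.lf (nat_lit 76) (nat_lit 616776630) (nat_lit 0) (nat_lit 9268599218) (nat_lit 1748) (nat_lit 3521780052) (nat_lit 429) (nat_lit 5) (nat_lit 428) (nat_lit 5) (nat_lit 451) (nat_lit 5) (nat_lit 344) (nat_lit 335) (nat_lit 221)) (XT.lf (nat_lit 76) (nat_lit 10783193048) (nat_lit 0) (nat_lit 640338325) (nat_lit 1748) (nat_lit 2183667135) (nat_lit 429) (nat_lit 5) (nat_lit 428) (nat_lit 5) (nat_lit 451) (nat_lit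 5) (nat_lit 345) (nat_lit 335) (nat_lit 220))) (XT.nd (nat_lit 78) (nat_lit 1672) (nat_lit 0) (XT.lf (nat_lit 76) (nat_lit 7470132728) (nat_lit 0) (nat_lit 5618036725) (nat_lit 1748) (nat_lit 723475631) (nat_lit 430) (nat_lit 5) (nat_lit 429) (nat_lit 5) (nat_lit 452) (nat_lit 5) (nat_lit 346) (nat_lit 335) (nat_lit 219)) (XT.nd (nat_lit 78) (nat_lit 0) (nat_lit 0) (XT.lf (nat_lit 0) (nat_lit 820800673) (nat_lit 1748) (nat_lit 9924349956) (nat_lit 1824) (nat_lit 3275971753) (nat_lit 407) (nat_lit 5) (nat_lit 430) (nat_lit 5) (nat_lit 431) (nat_lit 5) (nat_lit 347) (nat_lit 335) (nat_lit 218)) (XT.lf (nat_lit 76) (nat_lit 648903371) (nat_lit 0) (nat_lit 1817000761) (nat_lit 1824) (nat_lit 11769606392) (nat_lit 408) (nat_lit 5) (nat_lit 407) (nat_lit 5) (nat_lit 431) (nat_lit 5) (nat_lit 348) (nat_lit 335) (nat_lit 217))))) (XT.nd (nat_lit 156) (nat_lit 1596) (nat_lit 0) (XT.nd (nat_lit 78) (nat_lit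 0) (nat_lit 76) (XT.lf (nat_lit 0) (nat_lit 4255731227) (nat_lit 1748) (nat_lit 2844224318) (nat_lit 1824) (nat_lit 7354475833) (nat_lit 408) (nat_lit 5) (nat_lit 431) (nat_lit 5) (nat_lit 432) (nat_lit 5) (nat_lit 349) (nat_lit 335) (nat_lit 216)) (XT.lf (nat_lit 0) (nat_lit 6159655400) (nat_lit 1748) (nat_lit 6391458517) (nat_lit 1824) (nat_lit 2127606122) (nat_lit 409) (nat_lit 5) (nat_lit 432) (nat_lit 5) (nat_lit 433) (nat_lit 5) (nat_lit 350) (nat_lit 335) (nat_lit 215))) (XT.nd (nat_lit 78) (nat_lit 1672) (nat_lit 0) (XT.lf (nat_lit 76) (nat_lit 4882925454) (nat_lit 0) (nat_lit 3317208442) (nat_lit 1824) (nat_lit 6708022722) (nat_lit 410) (nat_lit 5) (nat_lit 409) (nat_lit 5) (nat_lit 433) (nat_lit 5) (nat_lit 351) (nat_lit 335) (nat_lit 214)) (XT.nd (nat_lit 78) (nat_lit 0) (nat_lit 0) (XT.lf (nat_lit 0) (nat_lit 1401371675) (nat_lit 1748) (nat_lit 8974694128) (nat_lit 1824) (nat_lit 4766933467)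 (nat_lit 387) (nat_lit 5) (nat_lit 410) (nat_lit 5) (nat_lit 411) (nat_lit 5) (nat_lit 352) (nat_lit 335) (nat_lit 213)) (XT.lf (nat_lit 0) (nat_lit 12692790106) (nat_lit 1824) (nat_lit 2117376768) (nat_lit 76) (nat_lit 573217570) (nat_lit 387) (nat_lit 5) (nat_lit 411) (nat_lit 5) (nat_lit 388) (nat_lit 5) (nat_lit 353) (nat_lit 335) (nat_lit 212))))))))
noncomputable def xc107 : XT := (XT.nd (nat_lit 1560) (nat_lit 3800) (nat_lit 0) (XT.nd (nat_lit 780) (nat_lit 5396) (nat_lit 0) (XT.nd (nat_lit 390) (nat_lit 3268) (nat_lit 0) (XT.nd (nat_lit 156) (nat_lit 1672) (nat_lit 0) (XT.nd (nat_lit 78) (nat_lit 988) (nat_lit 0) (XT.lf (nat_lit 0) (nat_lit 9909966900) (nat_lit 1064) (nat_lit 5275727589) (nat_lit 1140) (nat_lit 443160428) (nat_lit 373) (nat_lit 5) (nat_lit 387) (nat_lit 5) (nat_lit 388) (nat_lit 5) (nat_lit 354) (nat_lit 335) (nat_lit 211)) (XT.lf (nat_lit 0) (nat_lit 1916402487) (nat_lit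 988) (nat_lit 9407461536) (nat_lit 76) (nat_lit 4556204324) (nat_lit 360) (nat_lit 5) (nat_lit 373) (nat_lit 5) (nat_lit 361) (nat_lit 5) (nat_lit 355) (nat_lit 335) (nat_lit 210))) (XT.nd (nat_lit 78) (nat_lit 836) (nat_lit 0) (XT.lf (nat_lit 0) (nat_lit 2954656331) (nat_lit 836) (nat_lit 1462614152) (nat_lit 912) (nat_lit 11719965087) (nat_lit 349) (nat_lit 5) (nat_lit 360) (nat_lit 5) (nat_lit 361) (nat_lit 5) (nat_lit 356) (nat_lit 335) (nat_lit 209)) (XT.nd (nat_lit 78) (nat_lit 836) (nat_lit 0) (XT.lf (nat_lit 0) (nat_lit 7097216847) (nat_lit 912) (nat_lit 657075507) (nat_lit 76) (nat_lit 8645750969) (nat_lit 349) (nat_lit 5) (nat_lit 361) (nat_lit 5) (nat_lit 350) (nat_lit 5) (nat_lit 357) (nat_lit 335) (nat_lit 208)) (XT.lf (nat_lit 0) (nat_lit 9947552088) (nat_lit 912) (nat_lit 4303677821) (nat_lit 76) (nat_lit 2417711957) (nat_lit 338) (nat_lit 5) (nat_lit 350) (nat_lit 5) (nat_lit 339)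 (nat_lit 5) (nat_lit 358) (nat_lit 335) (nat_lit 207))))) (XT.nd (nat_lit 156) (nat_lit 1596) (nat_lit 0) (XT.nd (nat_lit 78) (nat_lit 836) (nat_lit 0) (XT.lf (nat_lit 0) (nat_lit 8890782141) (nat_lit 836) (nat_lit 4090968000) (nat_lit 912) (nat_lit 3962196355) (nat_lit 327) (nat_lit 5) (nat_lit 338) (nat_lit 5) (nat_lit 339) (nat_lit 5) (nat_lit 359) (nat_lit 335) (nat_lit 206)) (XT.lf (nat_lit 0) (nat_lit 5326192648) (nat_lit 836) (nat_lit 10870753955) (nat_lit 912) (nat_lit 1028461215) (nat_lit 316) (nat_lit 5) (nat_lit 327) (nat_lit 5) (nat_lit 328) (nat_lit 5) (nat_lit 360) (nat_lit 335) (nat_lit 205))) (XT.nd (nat_lit 78) (nat_lit 760) (nat_lit 0) (XT.lf (nat_lit 0) (nat_lit 1668760204) (nat_lit 760) (nat_lit 376401940) (nat_lit 836) (nat_lit 15468337345) (nat_lit 305) (nat_lit 5) (nat_lit 315) (nat_lit 5) (nat_lit 316) (nat_lit 5) (nat_lit 361) (nat_lit 335) (nat_lit 204)) (XT.nd (nat_lit 78)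 (nat_lit 760) (nat_lit 0) (XT.lf (nat_lit 0) (nat_lit 5331236988) (nat_lit 836) (nat_lit 2092571153) (nat_lit 76) (nat_lit 10383611045) (nat_lit 305) (nat_lit 5) (nat_lit 316) (nat_lit 5) (nat_lit 306) (nat_lit 5) (nat_lit 362) (nat_lit 335) (nat_lit 203)) (XT.lf (nat_lit 0) (nat_lit 8805660041) (nat_lit 836) (nat_lit 5916251393) (nat_lit 76) (nat_lit 3386455106) (nat_lit 295) (nat_lit 5) (nat_lit 306) (nat_lit 5) (nat_lit 296) (nat_lit 5) (nat_lit 363) (nat_lit 335) (nat_lit 202)))))) (XT.nd (nat_lit 390) (nat_lit 2508) (nat_lit 0) (XT.nd (nat_lit 156) (nat_lit 1444) (nat_lit 0) (XT.nd (nat_lit 78) (nat_lit 760) (nat_lit 0) (XT.lf (nat_lit 0) (nat_lit 8563455923) (nat_lit 684) (nat_lit 3926359180) (nat_lit 760) (nat_lit 5926422454) (nat_lit 286) (nat_lit 5) (nat_lit 295) (nat_lit 5) (nat_lit 296) (nat_lit 5) (nat_lit 364) (nat_lit 335) (nat_lit 201)) (XT.lf (nat_lit 0) (nat_lit 4827266973) (nat_lit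 760) (nat_lit 11561912432) (nat_lit 836) (nat_lit 2342076685) (nat_lit 276) (nat_lit 5) (nat_lit 286) (nat_lit 5) (nat_lit 287) (nat_lit 5) (nat_lit 365) (nat_lit 335) (nat_lit 200))) (XT.nd (nat_lit 78) (nat_lit 684) (nat_lit 0) (XT.lf (nat_lit 0) (nat_lit 990713884) (nat_lit 684) (nat_lit 427774397) (nat_lit 760) (nat_lit 17635338621) (nat_lit 266) (nat_lit 5) (nat_lit 275) (nat_lit 5) (nat_lit 276) (nat_lit 5) (nat_lit 366) (nat_lit 335) (nat_lit 199)) (XT.nd (nat_lit 78) (nat_lit 684) (nat_lit 0) (XT.lf (nat_lit 0) (nat_lit 5413536917) (nat_lit 760) (nat_lit 2964605569) (nat_lit 76) (nat_lit 11004557695) (nat_lit 266) (nat_lit 5) (nat_lit 276) (nat_lit 5) (nat_lit 267) (nat_lit 5) (nat_lit 367) (nat_lit 335) (nat_lit 198)) (XT.lf (nat_lit 0) (nat_lit 9621514280) (nat_lit 760) (nat_lit 7003896428) (nat_lit 76) (nat_lit 3094171959) (nat_lit 257) (nat_lit 5) (nat_lit 267) (nat_lit 5) (nat_lit 258)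 (nat_lit 5) (nat_lit 368) (nat_lit 335) (nat_lit 197))))) (XT.nd (nat_lit 156) (nat_lit 1292) (nat_lit 0) (XT.nd (nat_lit 78) (nat_lit 608) (nat_lit 0) (XT.lf (nat_lit 0) (nat_lit 8886590190) (nat_lit 608) (nat_lit 5190524521) (nat_lit 684) (nat_lit 5987033664) (nat_lit 249) (nat_lit 5) (nat_lit 257) (nat_lit 5) (nat_lit 258) (nat_lit 5) (nat_lit 369) (nat_lit 335) (nat_lit 196)) (XT.lf (nat_lit 0) (nat_lit 4938652666) (nat_lit 608) (nat_lit 13838035177) (nat_lit 684) (nat_lit 1640161411) (nat_lit 241) (nat_lit 5) (nat_lit 249) (nat_lit 5) (nat_lit 250) (nat_lit 5) (nat_lit 370) (nat_lit 335) (nat_lit 195))) (XT.nd (nat_lit 78) (nat_lit 608) (nat_lit 0) (XT.lf (nat_lit 0) (nat_lit 855801366) (nat_lit 608) (nat_lit 2048494645) (nat_lit 684) (nat_lit 17873383061) (nat_lit 232) (nat_lit 5) (nat_lit 240) (nat_lit 5) (nat_lit 241) (nat_lit 5) (nat_lit 371) (nat_lit 335) (nat_lit 194)) (XT.nd (nat_lit 78)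 (nat_lit 608) (nat_lit 0) (XT.lf (nat_lit 0) (nat_lit 7722173144) (nat_lit 684) (nat_lit 3347266438) (nat_lit 76) (nat_lit 10076493953) (nat_lit 232) (nat_lit 5) (nat_lit 241) (nat_lit 5) (nat_lit 233) (nat_lit 5) (nat_lit 372) (nat_lit 335) (nat_lit 193)) (XT.lf (nat_lit 0) (nat_lit 12784017760) (nat_lit 684) (nat_lit 7651731537) (nat_lit 76) (nat_lit 1087501563) (nat_lit 224) (nat_lit 5) (nat_lit 233) (nat_lit 5) (nat_lit 225) (nat_lit 5) (nat_lit 373) (nat_lit 335) (nat_lit 192))))))) (XT.nd (nat_lit 44070) (nat_lit 0) (nat_lit 17632) (XT.nd (nat_lit 390) (nat_lit 1520) (nat_lit 0) (XT.nd (nat_lit 156) (nat_lit 1064) (nat_lit 0) (XT.nd (nat_lit 78) (nat_lit 684) (nat_lit 0) (XT.lf (nat_lit 0) (nat_lit 9781285057) (nat_lit 532) (nat_lit 8365493922) (nat_lit 608) (nat_lit 3762131242) (nat_lit 217) (nat_lit 5) (nat_lit 224) (nat_lit 5) (nat_lit 225) (nat_lit 5) (nat_lit 374) (nat_lit 335) (nat_lit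 191)) (XT.lf (nat_lit 0) (nat_lit 1450748686) (nat_lit 684) (nat_lit 16744446374) (nat_lit 76) (nat_lit 4108683549) (nat_lit 208) (nat_lit 5) (nat_lit 217) (nat_lit 5) (nat_lit 209) (nat_lit 5) (nat_lit 375) (nat_lit 335) (nat_lit 190))) (XT.nd (nat_lit 78) (nat_lit 532) (nat_lit 0) (XT.lf (nat_lit 0) (nat_lit 1153562424) (nat_lit 532) (nat_lit 5750864717) (nat_lit 608) (nat_lit 15803064516) (nat_lit 201) (nat_lit 5) (nat_lit 208) (nat_lit 5) (nat_lit 209) (nat_lit 5) (nat_lit 376) (nat_lit 335) (nat_lit 189)) (XT.nd (nat_lit 78) (nat_lit 532) (nat_lit 0) (XT.lf (nat_lit 0) (nat_lit 12671099567) (nat_lit 608) (nat_lit 3363809663) (nat_lit 76) (nat_lit 7085319547) (nat_lit 201) (nat_lit 5) (nat_lit 209) (nat_lit 5) (nat_lit 202) (nat_lit 5) (nat_lit 377) (nat_lit 335) (nat_lit 188)) (XT.lf (nat_lit 0) (nat_lit 15523611773) (nat_lit 532) (nat_lit 3216004878) (nat_lit 608) (nat_lit 4803157729) (nat_lit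 194) (nat_lit 5) (nat_lit 201) (nat_lit 5) (nat_lit 202) (nat_lit 5) (nat_lit 378) (nat_lit 335) (nat_lit 187))))) (XT.nd (nat_lit 156) (nat_lit 456) (nat_lit 0) (XT.nd (nat_lit 78) (nat_lit 532) (nat_lit 0) (XT.lf (nat_lit 0) (nat_lit 1149644963) (nat_lit 532) (nat_lit 12869155292) (nat_lit 76) (nat_lit 9956053218) (nat_lit 187) (nat_lit 5) (nat_lit 194) (nat_lit 5) (nat_lit 188) (nat_lit 5) (nat_lit 379) (nat_lit 335) (nat_lit 186)) (XT.lf (nat_lit 0) (nat_lit 6513276751) (nat_lit 532) (nat_lit 811300839) (nat_lit 608) (nat_lit 17092509343) (nat_lit 180) (nat_lit 5) (nat_lit 187) (nat_lit 5) (nat_lit 188) (nat_lit 5) (nat_lit 380) (nat_lit 335) (nat_lit 185))) (XT.nd (nat_lit 43368) (nat_lit 0) (nat_lit 18848) (XT.lf (nat_lit 0) (nat_lit 1707874866) (nat_lit 456) (nat_lit 12148931923) (nat_lit 532) (nat_lit 11012342557) (nat_lit 174) (nat_lit 5) (nat_lit 180) (nat_lit 5) (nat_lit 181) (nat_lit 5)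 (nat_lit 381) (nat_lit 335) (nat_lit 184)) (XT.nd (nat_lit 78) (nat_lit 0) (nat_lit 76) (XT.lf (nat_lit 0) (nat_lit 829044393) (nat_lit 1748) (nat_lit 2617645752) (nat_lit 1748) (nat_lit 2617645752) (nat_lit 422) (nat_lit 3) (nat_lit 445) (nat_lit 3) (nat_lit 445) (nat_lit 5) (nat_lit 336) (nat_lit 336) (nat_lit 228)) (XT.lf (nat_lit 0) (nat_lit 2389524203) (nat_lit 1672) (nat_lit 8868404313) (nat_lit 1748) (nat_lit 1038244360) (nat_lit 423) (nat_lit 5) (nat_lit 445) (nat_lit 5) (nat_lit 446) (nat_lit 5) (nat_lit 337) (nat_lit 336) (nat_lit 227)))))) (XT.nd (nat_lit 390) (nat_lit 1292) (nat_lit 0) (XT.nd (nat_lit 156) (nat_lit 0) (nat_lit 152) (XT.nd (nat_lit 78) (nat_lit 0) (nat_lit 76) (XT.lf (nat_lit 0) (nat_lit 3198269125) (nat_lit 1672) (nat_lit 106235827) (nat_lit 1748) (nat_lit 9163098325) (nat_lit 423) (nat_lit 5) (nat_lit 445) (nat_lit 5) (nat_lit 446) (nat_lit 5) (nat_lit 338) (nat_lit 336)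 (nat_lit 226)) (XT.lf (nat_lit 0) (nat_lit 4096385615) (nat_lit 1672) (nat_lit 3652465749) (nat_lit 1748) (nat_lit 4894034323) (nat_lit 424) (nat_lit 5) (nat_lit 446) (nat_lit 5) (nat_lit 447) (nat_lit 5) (nat_lit 339) (nat_lit 336) (nat_lit 225))) (XT.nd (nat_lit 78) (nat_lit 0) (nat_lit 0) (XT.lf (nat_lit 0) (nat_lit 5058895126) (nat_lit 1672) (nat_lit 7251336856) (nat_lit 1748) (nat_lit 512456550) (nat_lit 425) (nat_lit 5) (nat_lit 447) (nat_lit 5) (nat_lit 448) (nat_lit 5) (nat_lit 340) (nat_lit 336) (nat_lit 224)) (XT.nd (nat_lit 78) (nat_lit 0) (nat_lit 76) (XT.lf (nat_lit 76) (nat_lit 2075150375) (nat_lit 0) (nat_lit 4041098835) (nat_lit 1748) (nat_lit 6890327498) (nat_lit 426) (nat_lit 5) (nat_lit 425) (nat_lit 5) (nat_lit 448) (nat_lit 5) (nat_lit 341) (nat_lit 336) (nat_lit 223)) (XT.lf (nat_lit 0) (nat_lit 7260283628) (nat_lit 1672) (nat_lit 1458573537) (nat_lit 1748) (nat_lit 4476035492)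 (nat_lit 426) (nat_lit 5) (nat_lit 448) (nat_lit 5) (nat_lit 449) (nat_lit 5) (nat_lit 342) (nat_lit 336) (nat_lit 222))))) (XT.nd (nat_lit 156) (nat_lit 1520) (nat_lit 0) (XT.nd (nat_lit 78) (nat_lit 0) (nat_lit 76) (XT.lf (nat_lit 76) (nat_lit 8366727528) (nat_lit 0) (nat_lit 130379958) (nat_lit 1748) (nat_lit 4890591255) (nat_lit 427) (nat_lit 5) (nat_lit 426) (nat_lit 5) (nat_lit 449) (nat_lit 5) (nat_lit 343) (nat_lit 336) (nat_lit 221)) (XT.lf (nat_lit 76) (nat_lit 4913734216) (nat_lit 0) (nat_lit 4933490825) (nat_lit 1748) (nat_lit 3737549917) (nat_lit 428) (nat_lit 5) (nat_lit 427) (nat_lit 5) (nat_lit 450) (nat_lit 5) (nat_lit 344) (nat_lit 336) (nat_lit 220))) (XT.nd (nat_lit 78) (nat_lit 1672) (nat_lit 0) (XT.lf (nat_lit 76) (nat_lit 1405127214) (nat_lit 0) (nat_lit 9880672281) (nat_lit 1748) (nat_lit 2501014347) (nat_lit 429) (nat_lit 5) (nat_lit 428) (nat_lit 5) (nat_lit 451) (nat_lit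 5) (nat_lit 345) (nat_lit 336) (nat_lit 219)) (XT.nd (nat_lit 78) (nat_lit 1672) (nat_lit 0) (XT.lf (nat_lit 76) (nat_lit 11854113388) (nat_lit 0) (nat_lit 983834967) (nat_lit 1748) (nat_lit 1155566366) (nat_lit 429) (nat_lit 5) (nat_lit 428) (nat_lit 5) (nat_lit 451) (nat_lit 5) (nat_lit 346) (nat_lit 336) (nat_lit 218)) (XT.lf (nat_lit 0) (nat_lit 315328473) (nat_lit 1748) (nat_lit 5753598464) (nat_lit 1824) (nat_lit 8135706460) (nat_lit 406) (nat_lit 5) (nat_lit 429) (nat_lit 5) (nat_lit 430) (nat_lit 5) (nat_lit 347) (nat_lit 336) (nat_lit 217))))))))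
noncomputable def xc108 : XT := (XT.nd (nat_lit 1560) (nat_lit 6536) (nat_lit 0) (XT.nd (nat_lit 780) (nat_lit 6308) (nat_lit 0) (XT.nd (nat_lit 390) (nat_lit 4408) (nat_lit 0) (XT.nd (nat_lit 156) (nat_lit 0) (nat_lit 76) (XT.nd (nat_lit 78) (nat_lit 0) (nat_lit 0) (XT.lf (nat_lit 0) (nat_lit 1868779431) (nat_lit 1748) (nat_lit 9438658015) (nat_lit 1824) (nat_lit 3113421317) (nat_lit 407) (nat_lit 5) (nat_lit 430) (nat_lit 5) (nat_lit 431) (nat_lit 5) (nat_lit 348) (nat_lit 336) (nat_lit 216)) (XT.lf (nat_lit 76) (nat_lit 1439082813) (nat_lit 0) (nat_lit 2099350708) (nat_lit 1824) (nat_lit 11103753609) (nat_lit 408) (nat_lit 5) (nat_lit 407) (nat_lit 5) (nat_lit 431) (nat_lit 5) (nat_lit 349) (nat_lit 336) (nat_lit 215))) (XT.nd (nat_lit 78) (nat_lit 0) (nat_lit 76) (XT.lf (nat_lit 0) (nat_lit 5351435180) (nat_lit 1748) (nat_lit 2160055572) (nat_lit 1824) (nat_lit 7356807426) (nat_lit 408) (nat_lit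 5) (nat_lit 431) (nat_lit 5) (nat_lit 432) (nat_lit 5) (nat_lit 350) (nat_lit 336) (nat_lit 214)) (XT.nd (nat_lit 78) (nat_lit 0) (nat_lit 0) (XT.lf (nat_lit 0) (nat_lit 7287978054) (nat_lit 1748) (nat_lit 5805683283) (nat_lit 1824) (nat_lit 2006155954) (nat_lit 409) (nat_lit 5) (nat_lit 432) (nat_lit 5) (nat_lit 433) (nat_lit 5) (nat_lit 351) (nat_lit 336) (nat_lit 213)) (XT.lf (nat_lit 76) (nat_lit 5794317885) (nat_lit 0) (nat_lit 3572837745) (nat_lit 1824) (nat_lit 5969443109) (nat_lit 410) (nat_lit 5) (nat_lit 409) (nat_lit 5) (nat_lit 433) (nat_lit 5) (nat_lit 352) (nat_lit 336) (nat_lit 212))))) (XT.nd (nat_lit 156) (nat_lit 2888) (nat_lit 0) (XT.nd (nat_lit 78) (nat_lit 0) (nat_lit 0) (XT.lf (nat_lit 0) (nat_lit 2215402496) (nat_lit 1748) (nat_lit 9370165441) (nat_lit 1824) (nat_lit 3993385818) (nat_lit 387) (nat_lit 5) (nat_lit 410) (nat_lit 5) (nat_lit 411) (nat_lit 5) (nat_lit 353) (nat_lit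 336) (nat_lit 211)) (XT.lf (nat_lit 0) (nat_lit 13944836516) (nat_lit 1824) (nat_lit 1412796385) (nat_lit 76) (nat_lit 469467540) (nat_lit 387) (nat_lit 5) (nat_lit 411) (nat_lit 5) (nat_lit 388) (nat_lit 5) (nat_lit 354) (nat_lit 336) (nat_lit 210))) (XT.nd (nat_lit 78) (nat_lit 1748) (nat_lit 0) (XT.lf (nat_lit 0) (nat_lit 406303077) (nat_lit 1140) (nat_lit 5120121924) (nat_lit 76) (nat_lit 10553876471) (nat_lit 372) (nat_lit 5) (nat_lit 387) (nat_lit 5) (nat_lit 373) (nat_lit 5) (nat_lit 355) (nat_lit 336) (nat_lit 209)) (XT.nd (nat_lit 78) (nat_lit 836) (nat_lit 0) (XT.lf (nat_lit 0) (nat_lit 2810082212) (nat_lit 988) (nat_lit 8917167498) (nat_lit 76) (nat_lit 4612163993) (nat_lit 360) (nat_lit 5) (nat_lit 373) (nat_lit 5) (nat_lit 361) (nat_lit 5) (nat_lit 356) (nat_lit 336) (nat_lit 208)) (XT.lf (nat_lit 0) (nat_lit 3803280719) (nat_lit 836) (nat_lit 1563274872) (nat_lit 912) (nat_lit 11238138462)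 (nat_lit 349) (nat_lit 5) (nat_lit 360) (nat_lit 5) (nat_lit 361) (nat_lit 5) (nat_lit 357) (nat_lit 336) (nat_lit 207)))))) (XT.nd (nat_lit 390) (nat_lit 2964) (nat_lit 0) (XT.nd (nat_lit 156) (nat_lit 2508) (nat_lit 0) (XT.nd (nat_lit 78) (nat_lit 0) (nat_lit 0) (XT.lf (nat_lit 0) (nat_lit 78623928) (nat_lit 836) (nat_lit 8024639636) (nat_lit 912) (nat_lit 8772604624) (nat_lit 338) (nat_lit 5) (nat_lit 349) (nat_lit 5) (nat_lit 350) (nat_lit 5) (nat_lit 358) (nat_lit 336) (nat_lit 206)) (XT.lf (nat_lit 0) (nat_lit 11020121717) (nat_lit 912) (nat_lit 3674645685) (nat_lit 76) (nat_lit 2458455172) (nat_lit 338) (nat_lit 5) (nat_lit 350) (nat_lit 5) (nat_lit 339) (nat_lit 5) (nat_lit 359) (nat_lit 336) (nat_lit 205))) (XT.nd (nat_lit 78) (nat_lit 1672) (nat_lit 0) (XT.lf (nat_lit 0) (nat_lit 9903348116) (nat_lit 836) (nat_lit 4224292243) (nat_lit 912) (nat_lit 3309199964) (nat_lit 327) (nat_lit 5) (nat_lit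 338) (nat_lit 5) (nat_lit 339) (nat_lit 5) (nat_lit 360) (nat_lit 336) (nat_lit 204)) (XT.nd (nat_lit 78) (nat_lit 836) (nat_lit 0) (XT.lf (nat_lit 0) (nat_lit 6234962527) (nat_lit 836) (nat_lit 11187094135) (nat_lit 912) (nat_lit 305042159) (nat_lit 316) (nat_lit 5) (nat_lit 327) (nat_lit 5) (nat_lit 328) (nat_lit 5) (nat_lit 361) (nat_lit 336) (nat_lit 203)) (XT.lf (nat_lit 0) (nat_lit 2465664663) (nat_lit 760) (nat_lit 368400820) (nat_lit 836) (nat_lit 15190014656) (nat_lit 305) (nat_lit 5) (nat_lit 315) (nat_lit 5) (nat_lit 316) (nat_lit 5) (nat_lit 362) (nat_lit 336) (nat_lit 202))))) (XT.nd (nat_lit 156) (nat_lit 2204) (nat_lit 0) (XT.nd (nat_lit 78) (nat_lit 760) (nat_lit 0) (XT.lf (nat_lit 0) (nat_lit 6197653455) (nat_lit 836) (nat_lit 1415988362) (nat_lit 76) (nat_lit 10713604954) (nat_lit 305) (nat_lit 5) (nat_lit 316) (nat_lit 5) (nat_lit 306) (nat_lit 5) (nat_lit 363) (nat_lit 336) (nat_lit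 201)) (XT.lf (nat_lit 0) (nat_lit 9760693205) (nat_lit 836) (nat_lit 5352542615) (nat_lit 76) (nat_lit 3524306776) (nat_lit 295) (nat_lit 5) (nat_lit 306) (nat_lit 5) (nat_lit 296) (nat_lit 5) (nat_lit 364) (nat_lit 336) (nat_lit 200))) (XT.nd (nat_lit 78) (nat_lit 1520) (nat_lit 0) (XT.lf (nat_lit 0) (nat_lit 9549530891) (nat_lit 684) (nat_lit 3990454058) (nat_lit 760) (nat_lit 5414980059) (nat_lit 286) (nat_lit 5) (nat_lit 295) (nat_lit 5) (nat_lit 296) (nat_lit 5) (nat_lit 365) (nat_lit 336) (nat_lit 199)) (XT.nd (nat_lit 78) (nat_lit 760) (nat_lit 0) (XT.lf (nat_lit 0) (nat_lit 5702619803) (nat_lit 760) (nat_lit 11839117928) (nat_lit 836) (nat_lit 1737995501) (nat_lit 276) (nat_lit 5) (nat_lit 286) (nat_lit 5) (nat_lit 287) (nat_lit 5) (nat_lit 366) (nat_lit 336) (nat_lit 198)) (XT.lf (nat_lit 0) (nat_lit 1748052968) (nat_lit 684) (nat_lit 363830010) (nat_lit 760) (nat_lit 17500310746) (nat_lit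 266) (nat_lit 5) (nat_lit 275) (nat_lit 5) (nat_lit 276) (nat_lit 5) (nat_lit 367) (nat_lit 336) (nat_lit 197))))))) (XT.nd (nat_lit 780) (nat_lit 1596) (nat_lit 0) (XT.nd (nat_lit 390) (nat_lit 2356) (nat_lit 0) (XT.nd (nat_lit 156) (nat_lit 1900) (nat_lit 0) (XT.nd (nat_lit 78) (nat_lit 684) (nat_lit 0) (XT.lf (nat_lit 0) (nat_lit 6208310539) (nat_lit 760) (nat_lit 2334740667) (nat_lit 76) (nat_lit 11408258180) (nat_lit 266) (nat_lit 5) (nat_lit 276) (nat_lit 5) (nat_lit 267) (nat_lit 5) (nat_lit 368) (nat_lit 336) (nat_lit 196)) (XT.lf (nat_lit 0) (nat_lit 10529275239) (nat_lit 760) (nat_lit 6494858515) (nat_lit 76) (nat_lit 3274436169) (nat_lit 257) (nat_lit 5) (nat_lit 267) (nat_lit 5) (nat_lit 258) (nat_lit 5) (nat_lit 369) (nat_lit 336) (nat_lit 195))) (XT.nd (nat_lit 78) (nat_lit 1292) (nat_lit 0) (XT.lf (nat_lit 0) (nat_lit 9860675269) (nat_lit 608) (nat_lit 5244429401) (nat_lit 684) (nat_lit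 5548643060) (nat_lit 249) (nat_lit 5) (nat_lit 257) (nat_lit 5) (nat_lit 258) (nat_lit 5) (nat_lit 370) (nat_lit 336) (nat_lit 194)) (XT.nd (nat_lit 78) (nat_lit 684) (nat_lit 0) (XT.lf (nat_lit 0) (nat_lit 5794296314) (nat_lit 608) (nat_lit 14138962844) (nat_lit 684) (nat_lit 1084024756) (nat_lit 241) (nat_lit 5) (nat_lit 249) (nat_lit 5) (nat_lit 250) (nat_lit 5) (nat_lit 371) (nat_lit 336) (nat_lit 193)) (XT.lf (nat_lit 0) (nat_lit 1585489855) (nat_lit 608) (nat_lit 1990508232) (nat_lit 684) (nat_lit 17813124383) (nat_lit 232) (nat_lit 5) (nat_lit 240) (nat_lit 5) (nat_lit 241) (nat_lit 5) (nat_lit 372) (nat_lit 336) (nat_lit 192))))) (XT.nd (nat_lit 156) (nat_lit 1748) (nat_lit 0) (XT.nd (nat_lit 78) (nat_lit 608) (nat_lit 0) (XT.lf (nat_lit 0) (nat_lit 8522138035) (nat_lit 684) (nat_lit 2753387411) (nat_lit 76) (nat_lit 10493230285) (nat_lit 232) (nat_lit 5) (nat_lit 241) (nat_lit 5) (nat_lit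 233) (nat_lit 5) (nat_lit 373) (nat_lit 336) (nat_lit 191)) (XT.lf (nat_lit 0) (nat_lit 13724543874) (nat_lit 684) (nat_lit 7187766280) (nat_lit 76) (nat_lit 1245313833) (nat_lit 224) (nat_lit 5) (nat_lit 233) (nat_lit 5) (nat_lit 225) (nat_lit 5) (nat_lit 374) (nat_lit 336) (nat_lit 190))) (XT.nd (nat_lit 78) (nat_lit 1216) (nat_lit 0) (XT.lf (nat_lit 0) (nat_lit 10756989320) (nat_lit 532) (nat_lit 8479404867) (nat_lit 608) (nat_lit 3318700184) (nat_lit 217) (nat_lit 5) (nat_lit 224) (nat_lit 5) (nat_lit 225) (nat_lit 5) (nat_lit 375) (nat_lit 336) (nat_lit 189)) (XT.nd (nat_lit 78) (nat_lit 532) (nat_lit 0) (XT.lf (nat_lit 0) (nat_lit 2032601871) (nat_lit 684) (nat_lit 16558230632) (nat_lit 76) (nat_lit 4371225547) (nat_lit 208) (nat_lit 5) (nat_lit 217) (nat_lit 5) (nat_lit 209) (nat_lit 5) (nat_lit 376) (nat_lit 336) (nat_lit 188)) (XT.lf (nat_lit 0) (nat_lit 1865547538) (nat_lit 532) (nat_lit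 5773061594) (nat_lit 608) (nat_lit 15739400947) (nat_lit 201) (nat_lit 5) (nat_lit 208) (nat_lit 5) (nat_lit 209) (nat_lit 5) (nat_lit 377) (nat_lit 336) (nat_lit 187)))))) (XT.nd (nat_lit 43758) (nat_lit 0) (nat_lit 18468) (XT.nd (nat_lit 156) (nat_lit 1064) (nat_lit 0) (XT.nd (nat_lit 78) (nat_lit 532) (nat_lit 0) (XT.lf (nat_lit 0) (nat_lit 13563878392) (nat_lit 608) (nat_lit 2797628291) (nat_lit 76) (nat_lit 7441915513) (nat_lit 201) (nat_lit 5) (nat_lit 209) (nat_lit 5) (nat_lit 202) (nat_lit 5) (nat_lit 378) (nat_lit 336) (nat_lit 186)) (XT.lf (nat_lit 0) (nat_lit 16645592953) (nat_lit 532) (nat_lit 3158187562) (nat_lit 608) (nat_lit 4435081738) (nat_lit 194) (nat_lit 5) (nat_lit 201) (nat_lit 5) (nat_lit 202) (nat_lit 5) (nat_lit 379) (nat_lit 336) (nat_lit 185))) (XT.nd (nat_lit 78) (nat_lit 532) (nat_lit 0) (XT.lf (nat_lit 0) (nat_lit 1680123642) (nat_lit 532) (nat_lit 12593820185) (nat_lit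 76) (nat_lit 10410087118) (nat_lit 187) (nat_lit 5) (nat_lit 194) (nat_lit 5) (nat_lit 188) (nat_lit 5) (nat_lit 380) (nat_lit 336) (nat_lit 184)) (XT.nd (nat_lit 43446) (nat_lit 0) (nat_lit 18392) (XT.lf (nat_lit 0) (nat_lit 7359354231) (nat_lit 532) (nat_lit 670728366) (nat_lit 608) (nat_lit 17109657565) (nat_lit 180) (nat_lit 5) (nat_lit 187) (nat_lit 5) (nat_lit 188) (nat_lit 5) (nat_lit 381) (nat_lit 336) (nat_lit 183)) (XT.lf (nat_lit 0) (nat_lit 1524836772) (nat_lit 1748) (nat_lit 2353857964) (nat_lit 1748) (nat_lit 2353857964) (nat_lit 422) (nat_lit 3) (nat_lit 445) (nat_lit 3) (nat_lit 445) (nat_lit 5) (nat_lit 337) (nat_lit 337) (nat_lit 226))))) (XT.nd (nat_lit 156) (nat_lit 0) (nat_lit 76) (XT.nd (nat_lit 78) (nat_lit 0) (nat_lit 0) (XT.lf (nat_lit 0) (nat_lit 3764228440) (nat_lit 1672) (nat_lit 8430100534) (nat_lit 1748) (nat_lit 444096186) (nat_lit 423) (nat_lit 5) (nat_lit 445) (nat_lit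 5) (nat_lit 446) (nat_lit 5) (nat_lit 338) (nat_lit 337) (nat_lit 225)) (XT.lf (nat_lit 76) (nat_lit 582051495) (nat_lit 0) (nat_lit 3981011283) (nat_lit 1748) (nat_lit 8252635829) (nat_lit 424) (nat_lit 5) (nat_lit 423) (nat_lit 5) (nat_lit 446) (nat_lit 5) (nat_lit 339) (nat_lit 337) (nat_lit 224))) (XT.nd (nat_lit 78) (nat_lit 0) (nat_lit 76) (XT.lf (nat_lit 0) (nat_lit 5448230152) (nat_lit 1672) (nat_lit 3060467249) (nat_lit 1748) (nat_lit 4488356130) (nat_lit 424) (nat_lit 5) (nat_lit 446) (nat_lit 5) (nat_lit 447) (nat_lit 5) (nat_lit 340) (nat_lit 337) (nat_lit 223)) (XT.nd (nat_lit 78) (nat_lit 0) (nat_lit 0) (XT.lf (nat_lit 0) (nat_lit 6405006678) (nat_lit 1672) (nat_lit 6750915236) (nat_lit 1748) (nat_lit 27036430) (nat_lit 425) (nat_lit 5) (nat_lit 447) (nat_lit 5) (nat_lit 448) (nat_lit 5) (nat_lit 341) (nat_lit 337) (nat_lit 222)) (XT.lf (nat_lit 76) (nat_lit 2843718535) (nat_lit 0) (nat_lit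 4620161967) (nat_lit 1748) (nat_lit 5909101941) (nat_lit 426) (nat_lit 5) (nat_lit 425) (nat_lit 5) (nat_lit 448) (nat_lit 5) (nat_lit 342) (nat_lit 337) (nat_lit 221))))))))
noncomputable def xc109 : XT := (XT.nd (nat_lit 1560) (nat_lit 9728) (nat_lit 0) (XT.nd (nat_lit 780) (nat_lit 6916) (nat_lit 0) (XT.nd (nat_lit 390) (nat_lit 1520) (nat_lit 0) (XT.nd (nat_lit 156) (nat_lit 0) (nat_lit 76) (XT.nd (nat_lit 78) (nat_lit 0) (nat_lit 0) (XT.lf (nat_lit 0) (nat_lit 8605442894) (nat_lit 1672) (nat_lit 790604771) (nat_lit 1748) (nat_lit 4171650884) (nat_lit 426) (nat_lit 5) (nat_lit 448) (nat_lit 5) (nat_lit 449) (nat_lit 5) (nat_lit 343) (nat_lit 337) (nat_lit 220)) (XT.lf (nat_lit 76) (nat_lit 9317908418) (nat_lit 0) (nat_lit 533173618) (nat_lit 1748) (nat_lit 3915786954) (nat_lit 427) (nat_lit 5) (nat_lit 426) (nat_lit 5) (nat_lit 449) (nat_lit 5) (nat_lit 344) (nat_lit 337) (nat_lit 219))) (XT.nd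 (nat_lit 78) (nat_lit 0) (nat_lit 76) (XT.lf (nat_lit 76) (nat_lit 5774609840) (nat_lit 0) (nat_lit 5437199685) (nat_lit 1748) (nat_lit 2758659806) (nat_lit 428) (nat_lit 5) (nat_lit 427) (nat_lit 5) (nat_lit 450) (nat_lit 5) (nat_lit 345) (nat_lit 337) (nat_lit 218)) (XT.nd (nat_lit 78) (nat_lit 0) (nat_lit 0) (XT.lf (nat_lit 76) (nat_lit 2172935932) (nat_lit 0) (nat_lit 10491933705) (nat_lit 1748) (nat_lit 1514286735) (nat_lit 429) (nat_lit 5) (nat_lit 428) (nat_lit 5) (nat_lit 451) (nat_lit 5) (nat_lit 346) (nat_lit 337) (nat_lit 217)) (XT.lf (nat_lit 76) (nat_lit 12914256111) (nat_lit 0) (nat_lit 1319021137) (nat_lit 1748) (nat_lit 159400306) (nat_lit 429) (nat_lit 5) (nat_lit 428) (nat_lit 5) (nat_lit 451) (nat_lit 5) (nat_lit 347) (nat_lit 337) (nat_lit 216))))) (XT.nd (nat_lit 156) (nat_lit 0) (nat_lit 76) (XT.nd (nat_lit 78) (nat_lit 0) (nat_lit 76) (XT.lf (nat_lit 0) (nat_lit 1315207033)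 (nat_lit 1748) (nat_lit 5197277149) (nat_lit 1824) (nat_lit 8098062177) (nat_lit 406) (nat_lit 5) (nat_lit 429) (nat_lit 5) (nat_lit 430) (nat_lit 5) (nat_lit 348) (nat_lit 337) (nat_lit 215)) (XT.lf (nat_lit 0) (nat_lit 2889452804) (nat_lit 1748) (nat_lit 8983366969) (nat_lit 1824) (nat_lit 2960967054) (nat_lit 407) (nat_lit 5) (nat_lit 430) (nat_lit 5) (nat_lit 431) (nat_lit 5) (nat_lit 349) (nat_lit 337) (nat_lit 214))) (XT.nd (nat_lit 78) (nat_lit 0) (nat_lit 76) (XT.lf (nat_lit 76) (nat_lit 2208725597) (nat_lit 0) (nat_lit 2377092210) (nat_lit 1824) (nat_lit 10476416622) (nat_lit 408) (nat_lit 5) (nat_lit 407) (nat_lit 5) (nat_lit 431) (nat_lit 5) (nat_lit 350) (nat_lit 337) (nat_lit 213)) (XT.nd (nat_lit 78) (nat_lit 0) (nat_lit 76) (XT.lf (nat_lit 0) (nat_lit 6424441254) (nat_lit 1748) (nat_lit 1499533952) (nat_lit 1824) (nat_lit 7371740434) (nat_lit 408) (nat_lit 5) (nat_lit 431) (nat_lit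 5) (nat_lit 432) (nat_lit 5) (nat_lit 351) (nat_lit 337) (nat_lit 212)) (XT.lf (nat_lit 0) (nat_lit 8395987735) (nat_lit 1748) (nat_lit 5246967562) (nat_lit 1824) (nat_lit 1891698016) (nat_lit 409) (nat_lit 5) (nat_lit 432) (nat_lit 5) (nat_lit 433) (nat_lit 5) (nat_lit 352) (nat_lit 337) (nat_lit 211)))))) (XT.nd (nat_lit 390) (nat_lit 3420) (nat_lit 0) (XT.nd (nat_lit 156) (nat_lit 2052) (nat_lit 0) (XT.nd (nat_lit 78) (nat_lit 1672) (nat_lit 0) (XT.lf (nat_lit 76) (nat_lit 6689143433) (nat_lit 0) (nat_lit 3827174399) (nat_lit 1824) (nat_lit 5262655637) (nat_lit 410) (nat_lit 5) (nat_lit 409) (nat_lit 5) (nat_lit 433) (nat_lit 5) (nat_lit 353) (nat_lit 337) (nat_lit 210)) (XT.lf (nat_lit 0) (nat_lit 3009538877) (nat_lit 1748) (nat_lit 9770254747) (nat_lit 1824) (nat_lit 3249245783) (nat_lit 387) (nat_lit 5) (nat_lit 410) (nat_lit 5) (nat_lit 411) (nat_lit 5) (nat_lit 354) (nat_lit 337) (nat_lit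 209))) (XT.nd (nat_lit 78) (nat_lit 2052) (nat_lit 0) (XT.lf (nat_lit 0) (nat_lit 15184430275) (nat_lit 1824) (nat_lit 731170770) (nat_lit 76) (nat_lit 369547837) (nat_lit 387) (nat_lit 5) (nat_lit 411) (nat_lit 5) (nat_lit 388) (nat_lit 5) (nat_lit 355) (nat_lit 337) (nat_lit 208)) (XT.nd (nat_lit 78) (nat_lit 912) (nat_lit 0) (XT.lf (nat_lit 0) (nat_lit 1226081788) (nat_lit 1140) (nat_lit 4550406584) (nat_lit 76) (nat_lit 10769747108) (nat_lit 372) (nat_lit 5) (nat_lit 387) (nat_lit 5) (nat_lit 373) (nat_lit 5) (nat_lit 356) (nat_lit 337) (nat_lit 207)) (XT.lf (nat_lit 0) (nat_lit 3682571736) (nat_lit 988) (nat_lit 8456510327) (nat_lit 76) (nat_lit 4674436481) (nat_lit 360) (nat_lit 5) (nat_lit 373) (nat_lit 5) (nat_lit 361) (nat_lit 5) (nat_lit 357) (nat_lit 337) (nat_lit 206))))) (XT.nd (nat_lit 156) (nat_lit 1748) (nat_lit 0) (XT.nd (nat_lit 78) (nat_lit 836) (nat_lit 0) (XT.lf (nat_lit 0) (nat_lit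 4633737608) (nat_lit 836) (nat_lit 1663695879) (nat_lit 912) (nat_lit 10789699075) (nat_lit 349) (nat_lit 5) (nat_lit 360) (nat_lit 5) (nat_lit 361) (nat_lit 5) (nat_lit 358) (nat_lit 337) (nat_lit 205)) (XT.lf (nat_lit 0) (nat_lit 801508478) (nat_lit 836) (nat_lit 8296651244) (nat_lit 912) (nat_lit 8268652734) (nat_lit 338) (nat_lit 5) (nat_lit 349) (nat_lit 5) (nat_lit 350) (nat_lit 5) (nat_lit 359) (nat_lit 337) (nat_lit 204))) (XT.nd (nat_lit 78) (nat_lit 1748) (nat_lit 0) (XT.lf (nat_lit 0) (nat_lit 12080429455) (nat_lit 912) (nat_lit 3070263063) (nat_lit 76) (nat_lit 2502245453) (nat_lit 338) (nat_lit 5) (nat_lit 350) (nat_lit 5) (nat_lit 339) (nat_lit 5) (nat_lit 360) (nat_lit 337) (nat_lit 203)) (XT.nd (nat_lit 78) (nat_lit 912) (nat_lit 0) (XT.lf (nat_lit 0) (nat_lit 10903476659) (nat_lit 836) (nat_lit 4361008006) (nat_lit 912) (nat_lit 2680921733) (nat_lit 327) (nat_lit 5) (nat_lit 338)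 (nat_lit 5) (nat_lit 339) (nat_lit 5) (nat_lit 361) (nat_lit 337) (nat_lit 202)) (XT.lf (nat_lit 0) (nat_lit 391577262) (nat_lit 912) (nat_lit 11119281120) (nat_lit 76) (nat_lit 6733795799) (nat_lit 315) (nat_lit 5) (nat_lit 327) (nat_lit 5) (nat_lit 316) (nat_lit 5) (nat_lit 362) (nat_lit 337) (nat_lit 201))))))) (XT.nd (nat_lit 780) (nat_lit 4104) (nat_lit 0) (XT.nd (nat_lit 390) (nat_lit 2660) (nat_lit 0) (XT.nd (nat_lit 156) (nat_lit 2204) (nat_lit 0) (XT.nd (nat_lit 78) (nat_lit 0) (nat_lit 0) (XT.lf (nat_lit 0) (nat_lit 3243604490) (nat_lit 760) (nat_lit 361267174) (nat_lit 836) (nat_lit 14945957522) (nat_lit 305) (nat_lit 5) (nat_lit 315) (nat_lit 5) (nat_lit 316) (nat_lit 5) (nat_lit 363) (nat_lit 337) (nat_lit 200)) (XT.lf (nat_lit 0) (nat_lit 7049507612) (nat_lit 836) (nat_lit 761550371) (nat_lit 76) (nat_lit 11052437532) (nat_lit 305) (nat_lit 5) (nat_lit 316) (nat_lit 5) (nat_lit 306)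 (nat_lit 5) (nat_lit 364) (nat_lit 337) (nat_lit 199))) (XT.nd (nat_lit 78) (nat_lit 1444) (nat_lit 0) (XT.lf (nat_lit 0) (nat_lit 10704718981) (nat_lit 836) (nat_lit 4814470274) (nat_lit 76) (nat_lit 3664212637) (nat_lit 295) (nat_lit 5) (nat_lit 306) (nat_lit 5) (nat_lit 296) (nat_lit 5) (nat_lit 365) (nat_lit 337) (nat_lit 198)) (XT.nd (nat_lit 78) (nat_lit 760) (nat_lit 0) (XT.lf (nat_lit 0) (nat_lit 10523330693) (nat_lit 684) (nat_lit 4059554146) (nat_lit 760) (nat_lit 4927759304) (nat_lit 286) (nat_lit 5) (nat_lit 295) (nat_lit 5) (nat_lit 296) (nat_lit 5) (nat_lit 366) (nat_lit 337) (nat_lit 197)) (XT.lf (nat_lit 0) (nat_lit 6562297531) (nat_lit 760) (nat_lit 12128637892) (nat_lit 836) (nat_lit 1154501956) (nat_lit 276) (nat_lit 5) (nat_lit 286) (nat_lit 5) (nat_lit 287) (nat_lit 5) (nat_lit 367) (nat_lit 337) (nat_lit 196))))) (XT.nd (nat_lit 156) (nat_lit 1900) (nat_lit 0) (XT.nd (nat_lit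 78) (nat_lit 0) (nat_lit 0) (XT.lf (nat_lit 0) (nat_lit 2486343995) (nat_lit 684) (nat_lit 302374641) (nat_lit 760) (nat_lit 17399353404) (nat_lit 266) (nat_lit 5) (nat_lit 275) (nat_lit 5) (nat_lit 276) (nat_lit 5) (nat_lit 368) (nat_lit 337) (nat_lit 195)) (XT.lf (nat_lit 0) (nat_lit 6990626888) (nat_lit 760) (nat_lit 1727242054) (nat_lit 76) (nat_lit 11819846819) (nat_lit 266) (nat_lit 5) (nat_lit 276) (nat_lit 5) (nat_lit 267) (nat_lit 5) (nat_lit 369) (nat_lit 337) (nat_lit 194))) (XT.nd (nat_lit 78) (nat_lit 1216) (nat_lit 0) (XT.lf (nat_lit 0) (nat_lit 11428729263) (nat_lit 760) (nat_lit 6011831893) (nat_lit 76) (nat_lit 3455088945) (nat_lit 257) (nat_lit 5) (nat_lit 267) (nat_lit 5) (nat_lit 258) (nat_lit 5) (nat_lit 370) (nat_lit 337) (nat_lit 193)) (XT.nd (nat_lit 78) (nat_lit 608) (nat_lit 0) (XT.lf (nat_lit 0) (nat_lit 10823370230) (nat_lit 608) (nat_lit 5305795787) (nat_lit 684) (nat_lit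 5132576560) (nat_lit 249) (nat_lit 5) (nat_lit 257) (nat_lit 5) (nat_lit 258) (nat_lit 5) (nat_lit 371) (nat_lit 337) (nat_lit 192)) (XT.lf (nat_lit 0) (nat_lit 6634996791) (nat_lit 608) (nat_lit 14455474657) (nat_lit 684) (nat_lit 545953080) (nat_lit 241) (nat_lit 5) (nat_lit 249) (nat_lit 5) (nat_lit 250) (nat_lit 5) (nat_lit 372) (nat_lit 337) (nat_lit 191)))))) (XT.nd (nat_lit 390) (nat_lit 1596) (nat_lit 0) (XT.nd (nat_lit 156) (nat_lit 1824) (nat_lit 0) (XT.nd (nat_lit 78) (nat_lit 0) (nat_lit 0) (XT.lf (nat_lit 0) (nat_lit 2296655689) (nat_lit 608) (nat_lit 1937638643) (nat_lit 684) (nat_lit 17785297197) (nat_lit 232) (nat_lit 5) (nat_lit 240) (nat_lit 5) (nat_lit 241) (nat_lit 5) (nat_lit 373) (nat_lit 337) (nat_lit 190)) (XT.lf (nat_lit 0) (nat_lit 9313479145) (nat_lit 684) (nat_lit 2181547502) (nat_lit 76) (nat_lit 10915899296) (nat_lit 232) (nat_lit 5) (nat_lit 241) (nat_lit 5) (nat_lit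 233) (nat_lit 5) (nat_lit 374) (nat_lit 337) (nat_lit 189))) (XT.nd (nat_lit 78) (nat_lit 1216) (nat_lit 0) (XT.lf (nat_lit 0) (nat_lit 14661311372) (nat_lit 684) (nat_lit 6749692790) (nat_lit 76) (nat_lit 1400674213) (nat_lit 224) (nat_lit 5) (nat_lit 233) (nat_lit 5) (nat_lit 225) (nat_lit 5) (nat_lit 375) (nat_lit 337) (nat_lit 188)) (XT.nd (nat_lit 78) (nat_lit 684) (nat_lit 0) (XT.lf (nat_lit 0) (nat_lit 11722799867) (nat_lit 532) (nat_lit 8604600594) (nat_lit 608) (nat_lit 2893899802) (nat_lit 217) (nat_lit 5) (nat_lit 224) (nat_lit 5) (nat_lit 225) (nat_lit 5) (nat_lit 376) (nat_lit 337) (nat_lit 187)) (XT.lf (nat_lit 0) (nat_lit 2601008265) (nat_lit 684) (nat_lit 16405953955) (nat_lit 76) (nat_lit 4633648478) (nat_lit 208) (nat_lit 5) (nat_lit 217) (nat_lit 5) (nat_lit 209) (nat_lit 5) (nat_lit 377) (nat_lit 337) (nat_lit 186))))) (XT.nd (nat_lit 156) (nat_lit 1064) (nat_lit 0) (XT.nd (nat_lit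 78) (nat_lit 0) (nat_lit 0) (XT.lf (nat_lit 0) (nat_lit 2560007923) (nat_lit 532) (nat_lit 5804553881) (nat_lit 608) (nat_lit 15704696838) (nat_lit 201) (nat_lit 5) (nat_lit 208) (nat_lit 5) (nat_lit 209) (nat_lit 5) (nat_lit 378) (nat_lit 337) (nat_lit 185)) (XT.lf (nat_lit 0) (nat_lit 14454012614) (nat_lit 608) (nat_lit 2252755498) (nat_lit 76) (nat_lit 7800941081) (nat_lit 201) (nat_lit 5) (nat_lit 209) (nat_lit 5) (nat_lit 202) (nat_lit 5) (nat_lit 379) (nat_lit 337) (nat_lit 184))) (XT.nd (nat_lit 78) (nat_lit 532) (nat_lit 0) (XT.lf (nat_lit 0) (nat_lit 17763560824) (nat_lit 532) (nat_lit 3107493031) (nat_lit 608) (nat_lit 4085364162) (nat_lit 194) (nat_lit 5) (nat_lit 201) (nat_lit 5) (nat_lit 202) (nat_lit 5) (nat_lit 380) (nat_lit 337) (nat_lit 183)) (XT.nd (nat_lit 43524) (nat_lit 0) (nat_lit 17860) (XT.lf (nat_lit 0) (nat_lit 2198044865) (nat_lit 532) (nat_lit 12348192652) (nat_lit 76)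 (nat_lit 10868824177) (nat_lit 187) (nat_lit 5) (nat_lit 194) (nat_lit 5) (nat_lit 188) (nat_lit 5) (nat_lit 381) (nat_lit 337) (nat_lit 182)) (XT.lf (nat_lit 0) (nat_lit 2202989308) (nat_lit 1748) (nat_lit 2101806947) (nat_lit 1748) (nat_lit 2101806947) (nat_lit 422) (nat_lit 3) (nat_lit 445) (nat_lit 3) (nat_lit 445) (nat_lit 5) (nat_lit 338) (nat_lit 338) (nat_lit 224))))))))
noncomputable def xc110 : XT := (XT.nd (nat_lit 1560) (nat_lit 11552) (nat_lit 0) (XT.nd (nat_lit 780) (nat_lit 3420) (nat_lit 0) (XT.nd (nat_lit 390) (nat_lit 1292) (nat_lit 0) (XT.nd (nat_lit 156) (nat_lit 0) (nat_lit 152) (XT.nd (nat_lit 78) (nat_lit 0) (nat_lit 76) (XT.lf (nat_lit 76) (nat_lit 4972507628) (nat_lit 0) (nat_lit 133735883) (nat_lit 1748) (nat_lit 7886212970) (nat_lit 423) (nat_lit 5) (nat_lit 422) (nat_lit 3) (nat_lit 445) (nat_lit 5) (nat_lit 339) (nat_lit 338) (nat_lit 223)) (XT.lf (nat_lit 76) (nat_lit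 1252664675) (nat_lit 0) (nat_lit 4643977201) (nat_lit 1748) (nat_lit 7279069995) (nat_lit 424) (nat_lit 5) (nat_lit 423) (nat_lit 5) (nat_lit 446) (nat_lit 5) (nat_lit 340) (nat_lit 338) (nat_lit 222))) (XT.nd (nat_lit 78) (nat_lit 0) (nat_lit 0) (XT.lf (nat_lit 0) (nat_lit 6770083098) (nat_lit 1672) (nat_lit 2490981924) (nat_lit 1748) (nat_lit 4102223307) (nat_lit 424) (nat_lit 5) (nat_lit 446) (nat_lit 5) (nat_lit 447) (nat_lit 5) (nat_lit 341) (nat_lit 338) (nat_lit 221)) (XT.nd (nat_lit 78) (nat_lit 0) (nat_lit 76) (XT.lf (nat_lit 76) (nat_lit 7275761820) (nat_lit 0) (nat_lit 450101846) (nat_lit 1748) (nat_lit 5829515421) (nat_lit 425) (nat_lit 5) (nat_lit 424) (nat_lit 5) (nat_lit 447) (nat_lit 5) (nat_lit 342) (nat_lit 338) (nat_lit 220)) (XT.lf (nat_lit 76) (nat_lit 3594798448) (nat_lit 0) (nat_lit 5190315669) (nat_lit 1748) (nat_lit 4966631969) (nat_lit 426) (nat_lit 5) (nat_lit 425) (nat_lit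 5) (nat_lit 448) (nat_lit 5) (nat_lit 343) (nat_lit 338) (nat_lit 219))))) (XT.nd (nat_lit 156) (nat_lit 1596) (nat_lit 0) (XT.nd (nat_lit 78) (nat_lit 0) (nat_lit 0) (XT.lf (nat_lit 0) (nat_lit 9926242393) (nat_lit 1672) (nat_lit 143452925) (nat_lit 1748) (nat_lit 3883315943) (nat_lit 426) (nat_lit 5) (nat_lit 448) (nat_lit 5) (nat_lit 449) (nat_lit 5) (nat_lit 344) (nat_lit 338) (nat_lit 218)) (XT.lf (nat_lit 76) (nat_lit 10257431591) (nat_lit 0) (nat_lit 925153614) (nat_lit 1748) (nat_lit 2976118476) (nat_lit 427) (nat_lit 5) (nat_lit 426) (nat_lit 5) (nat_lit 449) (nat_lit 5) (nat_lit 345) (nat_lit 338) (nat_lit 217))) (XT.nd (nat_lit 78) (nat_lit 1672) (nat_lit 0) (XT.lf (nat_lit 76) (nat_lit 6620356004) (nat_lit 0) (nat_lit 5935600938) (nat_lit 1748) (nat_lit 1813031808) (nat_lit 428) (nat_lit 5) (nat_lit 427) (nat_lit 5) (nat_lit 450) (nat_lit 5) (nat_lit 346) (nat_lit 338) (nat_lit 216)) (XT.nd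 (nat_lit 78) (nat_lit 1748) (nat_lit 0) (XT.lf (nat_lit 76) (nat_lit 2922123351) (nat_lit 0) (nat_lit 11103459795) (nat_lit 1748) (nat_lit 558906550) (nat_lit 429) (nat_lit 5) (nat_lit 428) (nat_lit 5) (nat_lit 451) (nat_lit 5) (nat_lit 347) (nat_lit 338) (nat_lit 215)) (XT.lf (nat_lit 0) (nat_lit 796886498) (nat_lit 1748) (nat_lit 844482093) (nat_lit 1824) (nat_lit 13163526799) (nat_lit 405) (nat_lit 5) (nat_lit 428) (nat_lit 5) (nat_lit 429) (nat_lit 5) (nat_lit 348) (nat_lit 338) (nat_lit 214)))))) (XT.nd (nat_lit 390) (nat_lit 3496) (nat_lit 0) (XT.nd (nat_lit 156) (nat_lit 0) (nat_lit 76) (XT.nd (nat_lit 78) (nat_lit 0) (nat_lit 76) (XT.lf (nat_lit 0) (nat_lit 2288227864) (nat_lit 1748) (nat_lit 4666109717) (nat_lit 1824) (nat_lit 8075460187) (nat_lit 406) (nat_lit 5) (nat_lit 429) (nat_lit 5) (nat_lit 430) (nat_lit 5) (nat_lit 349) (nat_lit 338) (nat_lit 213)) (XT.lf (nat_lit 0) (nat_lit 3885373818)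 (nat_lit 1748) (nat_lit 8556807288) (nat_lit 1824) (nat_lit 2818052355) (nat_lit 407) (nat_lit 5) (nat_lit 430) (nat_lit 5) (nat_lit 431) (nat_lit 5) (nat_lit 350) (nat_lit 338) (nat_lit 212))) (XT.nd (nat_lit 78) (nat_lit 0) (nat_lit 76) (XT.lf (nat_lit 76) (nat_lit 2959755298) (nat_lit 0) (nat_lit 2650837797) (nat_lit 1824) (nat_lit 9885393262) (nat_lit 408) (nat_lit 5) (nat_lit 407) (nat_lit 5) (nat_lit 431) (nat_lit 5) (nat_lit 351) (nat_lit 338) (nat_lit 211)) (XT.nd (nat_lit 78) (nat_lit 0) (nat_lit 76) (XT.lf (nat_lit 0) (nat_lit 7477258400) (nat_lit 1748) (nat_lit 860833208) (nat_lit 1824) (nat_lit 7398933541) (nat_lit 408) (nat_lit 5) (nat_lit 431) (nat_lit 5) (nat_lit 432) (nat_lit 5) (nat_lit 352) (nat_lit 338) (nat_lit 210)) (XT.lf (nat_lit 0) (nat_lit 9486184210) (nat_lit 1748) (nat_lit 4713561037) (nat_lit 1824) (nat_lit 1783831540) (nat_lit 409) (nat_lit 5) (nat_lit 432) (nat_lit 5)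 (nat_lit 433) (nat_lit 5) (nat_lit 353) (nat_lit 338) (nat_lit 209))))) (XT.nd (nat_lit 156) (nat_lit 2052) (nat_lit 0) (XT.nd (nat_lit 78) (nat_lit 1672) (nat_lit 0) (XT.lf (nat_lit 76) (nat_lit 7569425626) (nat_lit 0) (nat_lit 4080694053) (nat_lit 1824) (nat_lit 4585517148) (nat_lit 410) (nat_lit 5) (nat_lit 409) (nat_lit 5) (nat_lit 433) (nat_lit 5) (nat_lit 354) (nat_lit 338) (nat_lit 208)) (XT.lf (nat_lit 0) (nat_lit 3785727867) (nat_lit 1748) (nat_lit 10175516544) (nat_lit 1824) (nat_lit 2532375330) (nat_lit 387) (nat_lit 5) (nat_lit 410) (nat_lit 5) (nat_lit 411) (nat_lit 5) (nat_lit 355) (nat_lit 338) (nat_lit 207))) (XT.nd (nat_lit 78) (nat_lit 2052) (nat_lit 0) (XT.lf (nat_lit 0) (nat_lit 16414068814) (nat_lit 1824) (nat_lit 70657494) (nat_lit 76) (nat_lit 273174823) (nat_lit 387) (nat_lit 5) (nat_lit 411) (nat_lit 5) (nat_lit 388) (nat_lit 5) (nat_lit 356) (nat_lit 338) (nat_lit 206)) (XT.nd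 (nat_lit 78) (nat_lit 912) (nat_lit 0) (XT.lf (nat_lit 0) (nat_lit 2024094912) (nat_lit 1140) (nat_lit 4005121253) (nat_lit 76) (nat_lit 10997877077) (nat_lit 372) (nat_lit 5) (nat_lit 387) (nat_lit 5) (nat_lit 373) (nat_lit 5) (nat_lit 357) (nat_lit 338) (nat_lit 205)) (XT.lf (nat_lit 0) (nat_lit 4535990785) (nat_lit 988) (nat_lit 8023833503) (nat_lit 76) (nat_lit 4742945161) (nat_lit 360) (nat_lit 5) (nat_lit 373) (nat_lit 5) (nat_lit 361) (nat_lit 5) (nat_lit 358) (nat_lit 338) (nat_lit 204))))))) (XT.nd (nat_lit 780) (nat_lit 5168) (nat_lit 0) (XT.nd (nat_lit 390) (nat_lit 2964) (nat_lit 0) (XT.nd (nat_lit 156) (nat_lit 1748) (nat_lit 0) (XT.nd (nat_lit 78) (nat_lit 836) (nat_lit 0) (XT.lf (nat_lit 0) (nat_lit 5447986298) (nat_lit 836) (nat_lit 1764057090) (nat_lit 912) (nat_lit 10372902215) (nat_lit 349) (nat_lit 5) (nat_lit 360) (nat_lit 5) (nat_lit 361) (nat_lit 5) (nat_lit 359) (nat_lit 338)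 (nat_lit 203)) (XT.lf (nat_lit 0) (nat_lit 1504718433) (nat_lit 836) (nat_lit 8575028036) (nat_lit 912) (nat_lit 7793618688) (nat_lit 338) (nat_lit 5) (nat_lit 349) (nat_lit 5) (nat_lit 350) (nat_lit 5) (nat_lit 360) (nat_lit 338) (nat_lit 202))) (XT.nd (nat_lit 78) (nat_lit 1748) (nat_lit 0) (XT.lf (nat_lit 0) (nat_lit 13130658426) (nat_lit 912) (nat_lit 2488771189) (nat_lit 76) (nat_lit 2549069462) (nat_lit 338) (nat_lit 5) (nat_lit 350) (nat_lit 5) (nat_lit 339) (nat_lit 5) (nat_lit 361) (nat_lit 338) (nat_lit 201)) (XT.nd (nat_lit 78) (nat_lit 912) (nat_lit 0) (XT.lf (nat_lit 0) (nat_lit 11893252369) (nat_lit 836) (nat_lit 4501251947) (nat_lit 912) (nat_lit 2075559745) (nat_lit 327) (nat_lit 5) (nat_lit 338) (nat_lit 5) (nat_lit 339) (nat_lit 5) (nat_lit 362) (nat_lit 338) (nat_lit 200)) (XT.lf (nat_lit 0) (nat_lit 1064696984) (nat_lit 912) (nat_lit 10778357423) (nat_lit 76) (nat_lit 6935461784)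 (nat_lit 315) (nat_lit 5) (nat_lit 327) (nat_lit 5) (nat_lit 316) (nat_lit 5) (nat_lit 363) (nat_lit 338) (nat_lit 199))))) (XT.nd (nat_lit 156) (nat_lit 2204) (nat_lit 0) (XT.nd (nat_lit 78) (nat_lit 0) (nat_lit 0) (XT.lf (nat_lit 0) (nat_lit 4004471760) (nat_lit 760) (nat_lit 354963451) (nat_lit 836) (nat_lit 14734747621) (nat_lit 305) (nat_lit 5) (nat_lit 315) (nat_lit 5) (nat_lit 316) (nat_lit 5) (nat_lit 364) (nat_lit 338) (nat_lit 198)) (XT.lf (nat_lit 0) (nat_lit 7888690599) (nat_lit 836) (nat_lit 127485164) (nat_lit 76) (nat_lit 11400434854) (nat_lit 305) (nat_lit 5) (nat_lit 316) (nat_lit 5) (nat_lit 306) (nat_lit 5) (nat_lit 365) (nat_lit 338) (nat_lit 197))) (XT.nd (nat_lit 78) (nat_lit 1444) (nat_lit 0) (XT.lf (nat_lit 0) (nat_lit 11639683700) (nat_lit 836) (nat_lit 4300361053) (nat_lit 76) (nat_lit 3806353794) (nat_lit 295) (nat_lit 5) (nat_lit 306) (nat_lit 5) (nat_lit 296) (nat_lit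 5) (nat_lit 366) (nat_lit 338) (nat_lit 196)) (XT.nd (nat_lit 78) (nat_lit 760) (nat_lit 0) (XT.lf (nat_lit 0) (nat_lit 11486889861) (nat_lit 684) (nat_lit 4133632661) (nat_lit 760) (nat_lit 4463215652) (nat_lit 286) (nat_lit 5) (nat_lit 295) (nat_lit 5) (nat_lit 296) (nat_lit 5) (nat_lit 367) (nat_lit 338) (nat_lit 195)) (XT.lf (nat_lit 0) (nat_lit 7408237183) (nat_lit 760) (nat_lit 12430612238) (nat_lit 836) (nat_lit 589991563) (nat_lit 276) (nat_lit 5) (nat_lit 286) (nat_lit 5) (nat_lit 287) (nat_lit 5) (nat_lit 368) (nat_lit 338) (nat_lit 194)))))) (XT.nd (nat_lit 390) (nat_lit 2508) (nat_lit 0) (XT.nd (nat_lit 156) (nat_lit 1900) (nat_lit 0) (XT.nd (nat_lit 78) (nat_lit 0) (nat_lit 0) (XT.lf (nat_lit 0) (nat_lit 3207413188) (nat_lit 684) (nat_lit 243229960) (nat_lit 760) (nat_lit 17331300390) (nat_lit 266) (nat_lit 5) (nat_lit 275) (nat_lit 5) (nat_lit 276) (nat_lit 5) (nat_lit 369) (nat_lit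 338) (nat_lit 193)) (XT.lf (nat_lit 0) (nat_lit 7762196041) (nat_lit 760) (nat_lit 1140412098) (nat_lit 76) (nat_lit 12239802666) (nat_lit 266) (nat_lit 5) (nat_lit 276) (nat_lit 5) (nat_lit 267) (nat_lit 5) (nat_lit 370) (nat_lit 338) (nat_lit 192))) (XT.nd (nat_lit 78) (nat_lit 1216) (nat_lit 0) (XT.lf (nat_lit 0) (nat_lit 12321667271) (nat_lit 760) (nat_lit 5553227120) (nat_lit 76) (nat_lit 3636430078) (nat_lit 257) (nat_lit 5) (nat_lit 267) (nat_lit 5) (nat_lit 258) (nat_lit 5) (nat_lit 371) (nat_lit 338) (nat_lit 191)) (XT.nd (nat_lit 78) (nat_lit 608) (nat_lit 0) (XT.lf (nat_lit 0) (nat_lit 11776664704) (nat_lit 608) (nat_lit 5374512034) (nat_lit 684) (nat_lit 4737467427) (nat_lit 249) (nat_lit 5) (nat_lit 257) (nat_lit 5) (nat_lit 258) (nat_lit 5) (nat_lit 372) (nat_lit 338) (nat_lit 190)) (XT.lf (nat_lit 0) (nat_lit 7462637126) (nat_lit 608) (nat_lit 14787661781) (nat_lit 684) (nat_lit 24493593)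 (nat_lit 241) (nat_lit 5) (nat_lit 249) (nat_lit 5) (nat_lit 250) (nat_lit 5) (nat_lit 373) (nat_lit 338) (nat_lit 189))))) (XT.nd (nat_lit 156) (nat_lit 1824) (nat_lit 0) (XT.nd (nat_lit 78) (nat_lit 0) (nat_lit 0) (XT.lf (nat_lit 0) (nat_lit 2991063078) (nat_lit 608) (nat_lit 1889645797) (nat_lit 684) (nat_lit 17788908977) (nat_lit 232) (nat_lit 5) (nat_lit 240) (nat_lit 5) (nat_lit 241) (nat_lit 5) (nat_lit 374) (nat_lit 338) (nat_lit 188)) (XT.lf (nat_lit 0) (nat_lit 10097810439) (nat_lit 684) (nat_lit 1630120017) (nat_lit 76) (nat_lit 11345056077) (nat_lit 232) (nat_lit 5) (nat_lit 241) (nat_lit 5) (nat_lit 233) (nat_lit 5) (nat_lit 375) (nat_lit 338) (nat_lit 187))) (XT.nd (nat_lit 78) (nat_lit 1216) (nat_lit 0) (XT.lf (nat_lit 0) (nat_lit 15596042957) (nat_lit 684) (nat_lit 6336002521) (nat_lit 76) (nat_lit 1553921666) (nat_lit 224) (nat_lit 5) (nat_lit 233) (nat_lit 5) (nat_lit 225) (nat_lit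 5) (nat_lit 376) (nat_lit 338) (nat_lit 186)) (XT.nd (nat_lit 78) (nat_lit 684) (nat_lit 0) (XT.lf (nat_lit 0) (nat_lit 12680668110) (nat_lit 532) (nat_lit 8740968022) (nat_lit 608) (nat_lit 2486455898) (nat_lit 217) (nat_lit 5) (nat_lit 224) (nat_lit 5) (nat_lit 225) (nat_lit 5) (nat_lit 377) (nat_lit 338) (nat_lit 185)) (XT.lf (nat_lit 0) (nat_lit 3157338389) (nat_lit 684) (nat_lit 16286365587) (nat_lit 76) (nat_lit 4896407733) (nat_lit 208) (nat_lit 5) (nat_lit 217) (nat_lit 5) (nat_lit 209) (nat_lit 5) (nat_lit 378) (nat_lit 338) (nat_lit 184))))))))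
noncomputable def xc111 : XT := (XT.nd (nat_lit 45084) (nat_lit 0) (nat_lit 2888) (XT.nd (nat_lit 44304) (nat_lit 0) (nat_lit 16036) (XT.nd (nat_lit 43914) (nat_lit 0) (nat_lit 17404) (XT.nd (nat_lit 156) (nat_lit 532) (nat_lit 0) (XT.nd (nat_lit 78) (nat_lit 0) (nat_lit 0) (XT.lf (nat_lit 0) (nat_lit 3238649955) (nat_lit 532) (nat_lit 5845125071) (nat_lit 608) (nat_lit 15698048943) (nat_lit 201) (nat_lit 5) (nat_lit 208) (nat_lit 5) (nat_lit 209) (nat_lit 5) (nat_lit 379) (nat_lit 338) (nat_lit 183)) (XT.lf (nat_lit 0) (nat_lit 15343112180) (nat_lit 608) (nat_lit 1727632308) (nat_lit 76) (nat_lit 8162943772) (nat_lit 201) (nat_lit 5) (nat_lit 209) (nat_lit 5) (nat_lit 202) (nat_lit 5) (nat_lit 380) (nat_lit 338) (nat_lit 182))) (XT.nd (nat_lit 43602) (nat_lit 0) (nat_lit 17328) (XT.lf (nat_lit 0) (nat_lit 18879557556) (nat_lit 532) (nat_lit 3063626525) (nat_lit 608) (nat_lit 3752868033) (nat_lit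 194) (nat_lit 5) (nat_lit 201) (nat_lit 5) (nat_lit 202) (nat_lit 5) (nat_lit 381) (nat_lit 338) (nat_lit 181)) (XT.nd (nat_lit 78) (nat_lit 0) (nat_lit 0) (XT.lf (nat_lit 0) (nat_lit 2865183647) (nat_lit 1748) (nat_lit 1860716792) (nat_lit 1748) (nat_lit 1860716792) (nat_lit 422) (nat_lit 3) (nat_lit 445) (nat_lit 3) (nat_lit 445) (nat_lit 5) (nat_lit 339) (nat_lit 339) (nat_lit 222)) (XT.lf (nat_lit 76) (nat_lit 5720102823) (nat_lit 0) (nat_lit 700698110) (nat_lit 1748) (nat_lit 6937693153) (nat_lit 423) (nat_lit 5) (nat_lit 422) (nat_lit 3) (nat_lit 445) (nat_lit 5) (nat_lit 340) (nat_lit 339) (nat_lit 221))))) (XT.nd (nat_lit 156) (nat_lit 0) (nat_lit 76) (XT.nd (nat_lit 78) (nat_lit 0) (nat_lit 76) (XT.lf (nat_lit 76) (nat_lit 1905902676) (nat_lit 0) (nat_lit 5295630931) (nat_lit 1748) (nat_lit 6346395900) (nat_lit 424) (nat_lit 5) (nat_lit 423) (nat_lit 5) (nat_lit 446) (nat_lit 5) (nat_lit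 341) (nat_lit 339) (nat_lit 220)) (XT.lf (nat_lit 0) (nat_lit 8065094386) (nat_lit 1672) (nat_lit 1942373327) (nat_lit 1748) (nat_lit 3734401602) (nat_lit 424) (nat_lit 5) (nat_lit 446) (nat_lit 5) (nat_lit 447) (nat_lit 5) (nat_lit 342) (nat_lit 339) (nat_lit 219))) (XT.nd (nat_lit 78) (nat_lit 0) (nat_lit 76) (XT.lf (nat_lit 76) (nat_lit 8107259810) (nat_lit 0) (nat_lit 914466856) (nat_lit 1748) (nat_lit 4918566530) (nat_lit 425) (nat_lit 5) (nat_lit 424) (nat_lit 5) (nat_lit 447) (nat_lit 5) (nat_lit 343) (nat_lit 339) (nat_lit 218)) (XT.nd (nat_lit 78) (nat_lit 0) (nat_lit 76) (XT.lf (nat_lit 76) (nat_lit 4330192931) (nat_lit 0) (nat_lit 5752801313) (nat_lit 1748) (nat_lit 4060165727) (nat_lit 426) (nat_lit 5) (nat_lit 425) (nat_lit 5) (nat_lit 448) (nat_lit 5) (nat_lit 344) (nat_lit 339) (nat_lit 217)) (XT.lf (nat_lit 76) (nat_lit 491042910) (nat_lit 0) (nat_lit 10737811477) (nat_lit 1748) (nat_lit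 3122211918) (nat_lit 427) (nat_lit 5) (nat_lit 426) (nat_lit 5) (nat_lit 449) (nat_lit 5) (nat_lit 345) (nat_lit 339) (nat_lit 216)))))) (XT.nd (nat_lit 390) (nat_lit 0) (nat_lit 152) (XT.nd (nat_lit 156) (nat_lit 1596) (nat_lit 0) (XT.nd (nat_lit 78) (nat_lit 0) (nat_lit 76) (XT.lf (nat_lit 76) (nat_lit 11187254568) (nat_lit 0) (nat_lit 1307309946) (nat_lit 1748) (nat_lit 2068944225) (nat_lit 427) (nat_lit 5) (nat_lit 426) (nat_lit 5) (nat_lit 449) (nat_lit 5) (nat_lit 346) (nat_lit 339) (nat_lit 215)) (XT.lf (nat_lit 76) (nat_lit 7452869849) (nat_lit 0) (nat_lit 6429707482) (nat_lit 1748) (nat_lit 898068636) (nat_lit 428) (nat_lit 5) (nat_lit 427) (nat_lit 5) (nat_lit 450) (nat_lit 5) (nat_lit 347) (nat_lit 339) (nat_lit 214))) (XT.nd (nat_lit 78) (nat_lit 0) (nat_lit 0) (XT.lf (nat_lit 0) (nat_lit 362862272) (nat_lit 1748) (nat_lit 11350998696) (nat_lit 1824) (nat_lit 3289224763) (nat_lit 405)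 (nat_lit 5) (nat_lit 428) (nat_lit 5) (nat_lit 429) (nat_lit 5) (nat_lit 348) (nat_lit 339) (nat_lit 213)) (XT.nd (nat_lit 78) (nat_lit 0) (nat_lit 76) (XT.lf (nat_lit 0) (nat_lit 1724662952) (nat_lit 1748) (nat_lit 231466086) (nat_lit 1824) (nat_lit 13274453593) (nat_lit 405) (nat_lit 5) (nat_lit 428) (nat_lit 5) (nat_lit 429) (nat_lit 5) (nat_lit 349) (nat_lit 339) (nat_lit 212)) (XT.lf (nat_lit 0) (nat_lit 3236848892) (nat_lit 1748) (nat_lit 4158448794) (nat_lit 1824) (nat_lit 8067423441) (nat_lit 406) (nat_lit 5) (nat_lit 429) (nat_lit 5) (nat_lit 430) (nat_lit 5) (nat_lit 350) (nat_lit 339) (nat_lit 211))))) (XT.nd (nat_lit 156) (nat_lit 0) (nat_lit 76) (XT.nd (nat_lit 78) (nat_lit 0) (nat_lit 0) (XT.lf (nat_lit 0) (nat_lit 4858978514) (nat_lit 1748) (nat_lit 8157407547) (nat_lit 1824) (nat_lit 2684153252) (nat_lit 407) (nat_lit 5) (nat_lit 430) (nat_lit 5) (nat_lit 431) (nat_lit 5) (nat_lit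 351) (nat_lit 339) (nat_lit 210)) (XT.lf (nat_lit 76) (nat_lit 3694007409) (nat_lit 0) (nat_lit 2921175280) (nat_lit 1824) (nat_lit 9328608034) (nat_lit 408) (nat_lit 5) (nat_lit 407) (nat_lit 5) (nat_lit 431) (nat_lit 5) (nat_lit 352) (nat_lit 339) (nat_lit 209))) (XT.nd (nat_lit 78) (nat_lit 0) (nat_lit 76) (XT.lf (nat_lit 0) (nat_lit 8512287726) (nat_lit 1748) (nat_lit 242217858) (nat_lit 1824) (nat_lit 7438076488) (nat_lit 408) (nat_lit 5) (nat_lit 431) (nat_lit 5) (nat_lit 432) (nat_lit 5) (nat_lit 353) (nat_lit 339) (nat_lit 208)) (XT.nd (nat_lit 78) (nat_lit 0) (nat_lit 0) (XT.lf (nat_lit 0) (nat_lit 10560963763) (nat_lit 1748) (nat_lit 4203807955) (nat_lit 1824) (nat_lit 1682178784) (nat_lit 409) (nat_lit 5) (nat_lit 432) (nat_lit 5) (nat_lit 433) (nat_lit 5) (nat_lit 354) (nat_lit 339) (nat_lit 207)) (XT.lf (nat_lit 76) (nat_lit 8437104012) (nat_lit 0) (nat_lit 4333857096) (nat_lit 1824)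 (nat_lit 3935997961) (nat_lit 410) (nat_lit 5) (nat_lit 409) (nat_lit 5) (nat_lit 433) (nat_lit 5) (nat_lit 355) (nat_lit 339) (nat_lit 206))))))) (XT.nd (nat_lit 780) (nat_lit 5548) (nat_lit 0) (XT.nd (nat_lit 390) (nat_lit 3344) (nat_lit 0) (XT.nd (nat_lit 156) (nat_lit 1748) (nat_lit 0) (XT.nd (nat_lit 78) (nat_lit 1140) (nat_lit 0) (XT.lf (nat_lit 0) (nat_lit 4545828899) (nat_lit 1748) (nat_lit 10586498087) (nat_lit 1824) (nat_lit 1840745660) (nat_lit 387) (nat_lit 5) (nat_lit 410) (nat_lit 5) (nat_lit 411) (nat_lit 5) (nat_lit 356) (nat_lit 339) (nat_lit 205)) (XT.lf (nat_lit 0) (nat_lit 389074353) (nat_lit 1140) (nat_lit 16670150253) (nat_lit 76) (nat_lit 186392192) (nat_lit 372) (nat_lit 5) (nat_lit 387) (nat_lit 5) (nat_lit 373) (nat_lit 5) (nat_lit 357) (nat_lit 339) (nat_lit 204))) (XT.nd (nat_lit 78) (nat_lit 1748) (nat_lit 0) (XT.lf (nat_lit 0) (nat_lit 2802350676) (nat_lit 1140) (nat_lit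 3482615330) (nat_lit 76) (nat_lit 11238302178) (nat_lit 372) (nat_lit 5) (nat_lit 387) (nat_lit 5) (nat_lit 373) (nat_lit 5) (nat_lit 358) (nat_lit 339) (nat_lit 203)) (XT.nd (nat_lit 78) (nat_lit 836) (nat_lit 0) (XT.lf (nat_lit 0) (nat_lit 5372364501) (nat_lit 988) (nat_lit 7617576943) (nat_lit 76) (nat_lit 4817626376) (nat_lit 360) (nat_lit 5) (nat_lit 373) (nat_lit 5) (nat_lit 361) (nat_lit 5) (nat_lit 359) (nat_lit 339) (nat_lit 202)) (XT.lf (nat_lit 0) (nat_lit 6247901107) (nat_lit 836) (nat_lit 1864533081) (nat_lit 912) (nat_lit 9986108481) (nat_lit 349) (nat_lit 5) (nat_lit 360) (nat_lit 5) (nat_lit 361) (nat_lit 5) (nat_lit 360) (nat_lit 339) (nat_lit 201))))) (XT.nd (nat_lit 156) (nat_lit 2508) (nat_lit 0) (XT.nd (nat_lit 78) (nat_lit 0) (nat_lit 0) (XT.lf (nat_lit 0) (nat_lit 2190037855) (nat_lit 836) (nat_lit 8860064016) (nat_lit 912) (nat_lit 7345842154) (nat_lit 338) (nat_lit 5) (nat_lit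 349) (nat_lit 5) (nat_lit 350) (nat_lit 5) (nat_lit 361) (nat_lit 339) (nat_lit 200)) (XT.lf (nat_lit 0) (nat_lit 14172910808) (nat_lit 912) (nat_lit 1928501940) (nat_lit 76) (nat_lit 2598919476) (nat_lit 338) (nat_lit 5) (nat_lit 350) (nat_lit 5) (nat_lit 339) (nat_lit 5) (nat_lit 362) (nat_lit 339) (nat_lit 199))) (XT.nd (nat_lit 78) (nat_lit 1672) (nat_lit 0) (XT.lf (nat_lit 0) (nat_lit 12874681300) (nat_lit 836) (nat_lit 4645162821) (nat_lit 912) (nat_lit 1491404028) (nat_lit 327) (nat_lit 5) (nat_lit 338) (nat_lit 5) (nat_lit 339) (nat_lit 5) (nat_lit 363) (nat_lit 339) (nat_lit 198)) (XT.nd (nat_lit 78) (nat_lit 760) (nat_lit 0) (XT.lf (nat_lit 0) (nat_lit 1720044817) (nat_lit 912) (nat_lit 10465925196) (nat_lit 76) (nat_lit 7143197718) (nat_lit 315) (nat_lit 5) (nat_lit 327) (nat_lit 5) (nat_lit 316) (nat_lit 5) (nat_lit 364) (nat_lit 339) (nat_lit 197)) (XT.lf (nat_lit 0) (nat_lit 4750074039)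 (nat_lit 760) (nat_lit 349454621) (nat_lit 836) (nat_lit 14555064509) (nat_lit 305) (nat_lit 5) (nat_lit 315) (nat_lit 5) (nat_lit 316) (nat_lit 5) (nat_lit 365) (nat_lit 339) (nat_lit 196)))))) (XT.nd (nat_lit 390) (nat_lit 2584) (nat_lit 0) (XT.nd (nat_lit 156) (nat_lit 2204) (nat_lit 0) (XT.nd (nat_lit 78) (nat_lit 0) (nat_lit 0) (XT.lf (nat_lit 0) (nat_lit 494376414) (nat_lit 760) (nat_lit 8225850063) (nat_lit 836) (nat_lit 11266762685) (nat_lit 295) (nat_lit 5) (nat_lit 305) (nat_lit 5) (nat_lit 306) (nat_lit 5) (nat_lit 366) (nat_lit 339) (nat_lit 195)) (XT.lf (nat_lit 0) (nat_lit 12567461401) (nat_lit 836) (nat_lit 3808631635) (nat_lit 76) (nat_lit 3950909925) (nat_lit 295) (nat_lit 5) (nat_lit 306) (nat_lit 5) (nat_lit 296) (nat_lit 5) (nat_lit 367) (nat_lit 339) (nat_lit 194))) (XT.nd (nat_lit 78) (nat_lit 1520) (nat_lit 0) (XT.lf (nat_lit 0) (nat_lit 12442166033) (nat_lit 684) (nat_lit 4212672172)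 (nat_lit 760) (nat_lit 4019888602) (nat_lit 286) (nat_lit 5) (nat_lit 295) (nat_lit 5) (nat_lit 296) (nat_lit 5) (nat_lit 368) (nat_lit 339) (nat_lit 193)) (XT.nd (nat_lit 78) (nat_lit 760) (nat_lit 0) (XT.lf (nat_lit 0) (nat_lit 8242295710) (nat_lit 760) (nat_lit 12745198255) (nat_lit 836) (nat_lit 42939258) (nat_lit 276) (nat_lit 5) (nat_lit 286) (nat_lit 5) (nat_lit 287) (nat_lit 5) (nat_lit 369) (nat_lit 339) (nat_lit 192)) (XT.lf (nat_lit 0) (nat_lit 3913003926) (nat_lit 684) (nat_lit 186226812) (nat_lit 760) (nat_lit 17295076128) (nat_lit 266) (nat_lit 5) (nat_lit 275) (nat_lit 5) (nat_lit 276) (nat_lit 5) (nat_lit 370) (nat_lit 339) (nat_lit 191))))) (XT.nd (nat_lit 156) (nat_lit 1900) (nat_lit 0) (XT.nd (nat_lit 78) (nat_lit 684) (nat_lit 0) (XT.lf (nat_lit 0) (nat_lit 8524659760) (nat_lit 760) (nat_lit 572638207) (nat_lit 76) (nat_lit 12668605232) (nat_lit 266) (nat_lit 5) (nat_lit 276) (nat_lit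 5) (nat_lit 267) (nat_lit 5) (nat_lit 371) (nat_lit 339) (nat_lit 190)) (XT.lf (nat_lit 0) (nat_lit 13209816800) (nat_lit 760) (nat_lit 5117543107) (nat_lit 76) (nat_lit 3818751808) (nat_lit 257) (nat_lit 5) (nat_lit 267) (nat_lit 5) (nat_lit 258) (nat_lit 5) (nat_lit 372) (nat_lit 339) (nat_lit 189))) (XT.nd (nat_lit 78) (nat_lit 1292) (nat_lit 0) (XT.lf (nat_lit 0) (nat_lit 12722474182) (nat_lit 608) (nat_lit 5450482406) (nat_lit 684) (nat_lit 4362024828) (nat_lit 249) (nat_lit 5) (nat_lit 257) (nat_lit 5) (nat_lit 258) (nat_lit 5) (nat_lit 373) (nat_lit 339) (nat_lit 188)) (XT.nd (nat_lit 78) (nat_lit 608) (nat_lit 0) (XT.lf (nat_lit 0) (nat_lit 475417524) (nat_lit 684) (nat_lit 14657031894) (nat_lit 76) (nat_lit 7800415182) (nat_lit 240) (nat_lit 5) (nat_lit 249) (nat_lit 5) (nat_lit 241) (nat_lit 5) (nat_lit 374) (nat_lit 339) (nat_lit 187)) (XT.lf (nat_lit 0) (nat_lit 3670395987) (nat_lit 608)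 (nat_lit 1846305002) (nat_lit 684) (nat_lit 17823050244) (nat_lit 232) (nat_lit 5) (nat_lit 240) (nat_lit 5) (nat_lit 241) (nat_lit 5) (nat_lit 375) (nat_lit 339) (nat_lit 186))))))))
noncomputable def xc112 : XT := (XT.nd (nat_lit 45162) (nat_lit 0) (nat_lit 4256) (XT.nd (nat_lit 44382) (nat_lit 0) (nat_lit 15504) (XT.nd (nat_lit 390) (nat_lit 0) (nat_lit 0) (XT.nd (nat_lit 156) (nat_lit 1748) (nat_lit 0) (XT.nd (nat_lit 78) (nat_lit 608) (nat_lit 0) (XT.lf (nat_lit 0) (nat_lit 10876686801) (nat_lit 684) (nat_lit 1097560794) (nat_lit 76) (nat_lit 11781250725) (nat_lit 232) (nat_lit 5) (nat_lit 241) (nat_lit 5) (nat_lit 233) (nat_lit 5) (nat_lit 376) (nat_lit 339) (nat_lit 185)) (XT.lf (nat_lit 0) (nat_lit 16530407650) (nat_lit 684) (nat_lit 5945272857) (nat_lit 76) (nat_lit 1705381644) (nat_lit 224) (nat_lit 5) (nat_lit 233) (nat_lit 5) (nat_lit 225) (nat_lit 5) (nat_lit 377) (nat_lit 339) (nat_lit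 184))) (XT.nd (nat_lit 78) (nat_lit 1216) (nat_lit 0) (XT.lf (nat_lit 0) (nat_lit 13632474945) (nat_lit 532) (nat_lit 8888416603) (nat_lit 608) (nat_lit 2095161274) (nat_lit 217) (nat_lit 5) (nat_lit 224) (nat_lit 5) (nat_lit 225) (nat_lit 5) (nat_lit 378) (nat_lit 339) (nat_lit 183)) (XT.nd (nat_lit 78) (nat_lit 532) (nat_lit 0) (XT.lf (nat_lit 0) (nat_lit 3702902047) (nat_lit 684) (nat_lit 16198307496) (nat_lit 76) (nat_lit 5159946022) (nat_lit 208) (nat_lit 5) (nat_lit 217) (nat_lit 5) (nat_lit 209) (nat_lit 5) (nat_lit 379) (nat_lit 339) (nat_lit 182)) (XT.lf (nat_lit 0) (nat_lit 3903103067) (nat_lit 532) (nat_lit 5894580599) (nat_lit 608) (nat_lit 15718628643) (nat_lit 201) (nat_lit 5) (nat_lit 208) (nat_lit 5) (nat_lit 209) (nat_lit 5) (nat_lit 380) (nat_lit 339) (nat_lit 181))))) (XT.nd (nat_lit 43758) (nat_lit 0) (nat_lit 16796) (XT.nd (nat_lit 43680) (nat_lit 0) (nat_lit 16796) (XT.lf (nat_lit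 0) (nat_lit 16232738364) (nat_lit 608) (nat_lit 1220779163) (nat_lit 76) (nat_lit 8528460286) (nat_lit 201) (nat_lit 5) (nat_lit 209) (nat_lit 5) (nat_lit 202) (nat_lit 5) (nat_lit 381) (nat_lit 339) (nat_lit 180)) (XT.lf (nat_lit 0) (nat_lit 3513024970) (nat_lit 1748) (nat_lit 1629853063) (nat_lit 1748) (nat_lit 1629853063) (nat_lit 422) (nat_lit 3) (nat_lit 445) (nat_lit 3) (nat_lit 445) (nat_lit 5) (nat_lit 340) (nat_lit 340) (nat_lit 220))) (XT.nd (nat_lit 78) (nat_lit 0) (nat_lit 76) (XT.lf (nat_lit 76) (nat_lit 6455774119) (nat_lit 0) (nat_lit 1252353562) (nat_lit 1748) (nat_lit 6028747686) (nat_lit 423) (nat_lit 5) (nat_lit 422) (nat_lit 3) (nat_lit 445) (nat_lit 5) (nat_lit 341) (nat_lit 340) (nat_lit 219)) (XT.nd (nat_lit 78) (nat_lit 0) (nat_lit 76) (XT.lf (nat_lit 76) (nat_lit 2543396525) (nat_lit 0) (nat_lit 5937424181) (nat_lit 1748) (nat_lit 5451816342) (nat_lit 424) (nat_lit 5) (nat_lit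 423) (nat_lit 5) (nat_lit 446) (nat_lit 5) (nat_lit 342) (nat_lit 340) (nat_lit 218)) (XT.lf (nat_lit 0) (nat_lit 9336275981) (nat_lit 1672) (nat_lit 1413088626) (nat_lit 1748) (nat_lit 3383724249) (nat_lit 424) (nat_lit 5) (nat_lit 446) (nat_lit 5) (nat_lit 447) (nat_lit 5) (nat_lit 343) (nat_lit 340) (nat_lit 217)))))) (XT.nd (nat_lit 390) (nat_lit 1444) (nat_lit 0) (XT.nd (nat_lit 156) (nat_lit 0) (nat_lit 152) (XT.nd (nat_lit 78) (nat_lit 0) (nat_lit 76) (XT.lf (nat_lit 76) (nat_lit 8928501108) (nat_lit 0) (nat_lit 1366881496) (nat_lit 1748) (nat_lit 4042620505) (nat_lit 425) (nat_lit 5) (nat_lit 424) (nat_lit 5) (nat_lit 447) (nat_lit 5) (nat_lit 344) (nat_lit 340) (nat_lit 216)) (XT.lf (nat_lit 76) (nat_lit 5051625281) (nat_lit 0) (nat_lit 6308810910) (nat_lit 1748) (nat_lit 3187093519) (nat_lit 426) (nat_lit 5) (nat_lit 425) (nat_lit 5) (nat_lit 448) (nat_lit 5) (nat_lit 345) (nat_lit 340)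 (nat_lit 215))) (XT.nd (nat_lit 78) (nat_lit 0) (nat_lit 0) (XT.lf (nat_lit 76) (nat_lit 1109754808) (nat_lit 0) (nat_lit 11404025163) (nat_lit 1748) (nat_lit 2248443513) (nat_lit 427) (nat_lit 5) (nat_lit 426) (nat_lit 5) (nat_lit 449) (nat_lit 5) (nat_lit 346) (nat_lit 340) (nat_lit 214)) (XT.nd (nat_lit 78) (nat_lit 0) (nat_lit 76) (XT.lf (nat_lit 76) (nat_lit 12109261148) (nat_lit 0) (nat_lit 1680586858) (nat_lit 1748) (nat_lit 1191755501) (nat_lit 427) (nat_lit 5) (nat_lit 426) (nat_lit 5) (nat_lit 449) (nat_lit 5) (nat_lit 347) (nat_lit 340) (nat_lit 213)) (XT.lf (nat_lit 76) (nat_lit 8273970475) (nat_lit 0) (nat_lit 6920495320) (nat_lit 1748) (nat_lit 11301462) (nat_lit 428) (nat_lit 5) (nat_lit 427) (nat_lit 5) (nat_lit 450) (nat_lit 5) (nat_lit 348) (nat_lit 340) (nat_lit 212))))) (XT.nd (nat_lit 156) (nat_lit 0) (nat_lit 76) (XT.nd (nat_lit 78) (nat_lit 0) (nat_lit 0) (XT.lf (nat_lit 0)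 (nat_lit 1251291693) (nat_lit 1748) (nat_lit 11071770919) (nat_lit 1824) (nat_lit 3112193730) (nat_lit 405) (nat_lit 5) (nat_lit 428) (nat_lit 5) (nat_lit 429) (nat_lit 5) (nat_lit 349) (nat_lit 340) (nat_lit 211)) (XT.lf (nat_lit 76) (nat_lit 368124490) (nat_lit 0) (nat_lit 2262652490) (nat_lit 1824) (nat_lit 13039275366) (nat_lit 406) (nat_lit 5) (nat_lit 405) (nat_lit 5) (nat_lit 429) (nat_lit 5) (nat_lit 350) (nat_lit 340) (nat_lit 210))) (XT.nd (nat_lit 78) (nat_lit 0) (nat_lit 76) (XT.lf (nat_lit 0) (nat_lit 4163414433) (nat_lit 1748) (nat_lit 3672735471) (nat_lit 1824) (nat_lit 8073513867) (nat_lit 406) (nat_lit 5) (nat_lit 429) (nat_lit 5) (nat_lit 430) (nat_lit 5) (nat_lit 351) (nat_lit 340) (nat_lit 209)) (XT.nd (nat_lit 78) (nat_lit 0) (nat_lit 0) (XT.lf (nat_lit 0) (nat_lit 5812593550) (nat_lit 1748) (nat_lit 7783688866) (nat_lit 1824) (nat_lit 2558776564) (nat_lit 407) (nat_lit 5) (nat_lit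 430) (nat_lit 5) (nat_lit 431) (nat_lit 5) (nat_lit 352) (nat_lit 340) (nat_lit 208)) (XT.lf (nat_lit 76) (nat_lit 4413235070) (nat_lit 0) (nat_lit 3188669479) (nat_lit 1824) (nat_lit 8804104860) (nat_lit 408) (nat_lit 5) (nat_lit 407) (nat_lit 5) (nat_lit 431) (nat_lit 5) (nat_lit 353) (nat_lit 340) (nat_lit 207))))))) (XT.nd (nat_lit 780) (nat_lit 6156) (nat_lit 0) (XT.nd (nat_lit 390) (nat_lit 2584) (nat_lit 0) (XT.nd (nat_lit 156) (nat_lit 2736) (nat_lit 0) (XT.nd (nat_lit 78) (nat_lit 0) (nat_lit 76) (XT.lf (nat_lit 76) (nat_lit 362719571) (nat_lit 0) (nat_lit 9171465215) (nat_lit 1824) (nat_lit 7128524074) (nat_lit 409) (nat_lit 5) (nat_lit 408) (nat_lit 5) (nat_lit 432) (nat_lit 5) (nat_lit 354) (nat_lit 340) (nat_lit 206)) (XT.lf (nat_lit 0) (nat_lit 11622626333) (nat_lit 1748) (nat_lit 3716141523) (nat_lit 1824) (nat_lit 1586383705) (nat_lit 409) (nat_lit 5) (nat_lit 432) (nat_lit 5) (nat_lit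 433) (nat_lit 5) (nat_lit 355) (nat_lit 340) (nat_lit 205))) (XT.nd (nat_lit 78) (nat_lit 2812) (nat_lit 0) (XT.lf (nat_lit 76) (nat_lit 9294039941) (nat_lit 0) (nat_lit 4587109892) (nat_lit 1824) (nat_lit 3312175081) (nat_lit 410) (nat_lit 5) (nat_lit 409) (nat_lit 5) (nat_lit 433) (nat_lit 5) (nat_lit 356) (nat_lit 340) (nat_lit 204)) (XT.nd (nat_lit 78) (nat_lit 1140) (nat_lit 0) (XT.lf (nat_lit 0) (nat_lit 5291619541) (nat_lit 1748) (nat_lit 11003740544) (nat_lit 1824) (nat_lit 1172430533) (nat_lit 387) (nat_lit 5) (nat_lit 410) (nat_lit 5) (nat_lit 411) (nat_lit 5) (nat_lit 357) (nat_lit 340) (nat_lit 203)) (XT.lf (nat_lit 0) (nat_lit 1097380483) (nat_lit 1140) (nat_lit 16546313440) (nat_lit 76) (nat_lit 105079869) (nat_lit 372) (nat_lit 5) (nat_lit 387) (nat_lit 5) (nat_lit 373) (nat_lit 5) (nat_lit 358) (nat_lit 340) (nat_lit 202))))) (XT.nd (nat_lit 156) (nat_lit 1672) (nat_lit 0) (XT.nd (nat_lit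 78) (nat_lit 912) (nat_lit 0) (XT.lf (nat_lit 0) (nat_lit 3562764787) (nat_lit 1140) (nat_lit 2981325517) (nat_lit 76) (nat_lit 11491078341) (nat_lit 372) (nat_lit 5) (nat_lit 387) (nat_lit 5) (nat_lit 373) (nat_lit 5) (nat_lit 359) (nat_lit 340) (nat_lit 201)) (XT.lf (nat_lit 0) (nat_lit 6193629689) (nat_lit 988) (nat_lit 7236271500) (nat_lit 76) (nat_lit 4898428953) (nat_lit 360) (nat_lit 5) (nat_lit 373) (nat_lit 5) (nat_lit 361) (nat_lit 5) (nat_lit 360) (nat_lit 340) (nat_lit 200))) (XT.nd (nat_lit 78) (nat_lit 836) (nat_lit 0) (XT.lf (nat_lit 0) (nat_lit 7035277079) (nat_lit 836) (nat_lit 1965293543) (nat_lit 912) (nat_lit 9627777888) (nat_lit 349) (nat_lit 5) (nat_lit 360) (nat_lit 5) (nat_lit 361) (nat_lit 5) (nat_lit 361) (nat_lit 340) (nat_lit 199)) (XT.nd (nat_lit 78) (nat_lit 0) (nat_lit 0) (XT.lf (nat_lit 0) (nat_lit 2859168032) (nat_lit 836) (nat_lit 9152056095) (nat_lit 912) (nat_lit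 6923758096) (nat_lit 338) (nat_lit 5) (nat_lit 349) (nat_lit 5) (nat_lit 350) (nat_lit 5) (nat_lit 362) (nat_lit 340) (nat_lit 198)) (XT.lf (nat_lit 0) (nat_lit 15209213817) (nat_lit 912) (nat_lit 1387872331) (nat_lit 76) (nat_lit 2651793206) (nat_lit 338) (nat_lit 5) (nat_lit 350) (nat_lit 5) (nat_lit 339) (nat_lit 5) (nat_lit 363) (nat_lit 340) (nat_lit 197)))))) (XT.nd (nat_lit 390) (nat_lit 2888) (nat_lit 0) (XT.nd (nat_lit 156) (nat_lit 1520) (nat_lit 0) (XT.nd (nat_lit 78) (nat_lit 912) (nat_lit 0) (XT.lf (nat_lit 0) (nat_lit 13849696704) (nat_lit 836) (nat_lit 4792881657) (nat_lit 912) (nat_lit 926830937) (nat_lit 327) (nat_lit 5) (nat_lit 338) (nat_lit 5) (nat_lit 339) (nat_lit 5) (nat_lit 364) (nat_lit 340) (nat_lit 196)) (XT.lf (nat_lit 0) (nat_lit 2359266976) (nat_lit 912) (nat_lit 10180616545) (nat_lit 76) (nat_lit 7357184554) (nat_lit 315) (nat_lit 5) (nat_lit 327) (nat_lit 5) (nat_lit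 316) (nat_lit 5) (nat_lit 365) (nat_lit 340) (nat_lit 195))) (XT.nd (nat_lit 78) (nat_lit 760) (nat_lit 0) (XT.lf (nat_lit 0) (nat_lit 5482139958) (nat_lit 760) (nat_lit 344708047) (nat_lit 836) (nat_lit 14405680493) (nat_lit 305) (nat_lit 5) (nat_lit 315) (nat_lit 5) (nat_lit 316) (nat_lit 5) (nat_lit 366) (nat_lit 340) (nat_lit 194)) (XT.nd (nat_lit 78) (nat_lit 0) (nat_lit 0) (XT.lf (nat_lit 0) (nat_lit 1100621761) (nat_lit 760) (nat_lit 8442752692) (nat_lit 836) (nat_lit 11031784048) (nat_lit 295) (nat_lit 5) (nat_lit 305) (nat_lit 5) (nat_lit 306) (nat_lit 5) (nat_lit 367) (nat_lit 340) (nat_lit 193)) (XT.lf (nat_lit 0) (nat_lit 13489859162) (nat_lit 836) (nat_lit 3337783365) (nat_lit 76) (nat_lit 4098059636) (nat_lit 295) (nat_lit 5) (nat_lit 306) (nat_lit 5) (nat_lit 296) (nat_lit 5) (nat_lit 368) (nat_lit 340) (nat_lit 192))))) (XT.nd (nat_lit 156) (nat_lit 1368) (nat_lit 0) (XT.nd (nat_lit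 78) (nat_lit 836) (nat_lit 0) (XT.lf (nat_lit 0) (nat_lit 13391045563) (nat_lit 684) (nat_lit 4296664300) (nat_lit 760) (nat_lit 3596396732) (nat_lit 286) (nat_lit 5) (nat_lit 295) (nat_lit 5) (nat_lit 296) (nat_lit 5) (nat_lit 369) (nat_lit 340) (nat_lit 191)) (XT.lf (nat_lit 0) (nat_lit 481703945) (nat_lit 836) (nat_lit 12587633935) (nat_lit 76) (nat_lit 8581319082) (nat_lit 275) (nat_lit 5) (nat_lit 286) (nat_lit 5) (nat_lit 276) (nat_lit 5) (nat_lit 370) (nat_lit 340) (nat_lit 190))) (XT.nd (nat_lit 78) (nat_lit 684) (nat_lit 0) (XT.lf (nat_lit 0) (nat_lit 4604782149) (nat_lit 684) (nat_lit 131204655) (nat_lit 760) (nat_lit 17289691186) (nat_lit 266) (nat_lit 5) (nat_lit 275) (nat_lit 5) (nat_lit 276) (nat_lit 5) (nat_lit 371) (nat_lit 340) (nat_lit 189)) (XT.nd (nat_lit 78) (nat_lit 684) (nat_lit 0) (XT.lf (nat_lit 0) (nat_lit 9279596308) (nat_lit 760) (nat_lit 22387573) (nat_lit 76) (nat_lit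 13106735295) (nat_lit 266) (nat_lit 5) (nat_lit 276) (nat_lit 5) (nat_lit 267) (nat_lit 5) (nat_lit 372) (nat_lit 340) (nat_lit 188)) (XT.lf (nat_lit 0) (nat_lit 14094846821) (nat_lit 760) (nat_lit 4703361956) (nat_lit 76) (nat_lit 4002339556) (nat_lit 257) (nat_lit 5) (nat_lit 267) (nat_lit 5) (nat_lit 258) (nat_lit 5) (nat_lit 373) (nat_lit 340) (nat_lit 187))))))))
noncomputable def xc113 : XT := (XT.nd (nat_lit 45318) (nat_lit 0) (nat_lit 3724) (XT.nd (nat_lit 44538) (nat_lit 0) (nat_lit 14896) (XT.nd (nat_lit 390) (nat_lit 1216) (nat_lit 0) (XT.nd (nat_lit 156) (nat_lit 1216) (nat_lit 0) (XT.nd (nat_lit 78) (nat_lit 684) (nat_lit 0) (XT.lf (nat_lit 0) (nat_lit 13662645473) (nat_lit 608) (nat_lit 5533626448) (nat_lit 684) (nat_lit 4005029393) (nat_lit 249) (nat_lit 5) (nat_lit 257) (nat_lit 5) (nat_lit 258) (nat_lit 5) (nat_lit 374) (nat_lit 340) (nat_lit 186)) (XT.lf (nat_lit 0) (nat_lit 961274969)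 (nat_lit 684) (nat_lit 14531822178) (nat_lit 76) (nat_lit 8118162524) (nat_lit 240) (nat_lit 5) (nat_lit 249) (nat_lit 5) (nat_lit 241) (nat_lit 5) (nat_lit 375) (nat_lit 340) (nat_lit 185))) (XT.nd (nat_lit 78) (nat_lit 608) (nat_lit 0) (XT.lf (nat_lit 0) (nat_lit 4336263372) (nat_lit 608) (nat_lit 1807406125) (nat_lit 684) (nat_lit 17886890585) (nat_lit 232) (nat_lit 5) (nat_lit 240) (nat_lit 5) (nat_lit 241) (nat_lit 5) (nat_lit 376) (nat_lit 340) (nat_lit 184)) (XT.nd (nat_lit 78) (nat_lit 608) (nat_lit 0) (XT.lf (nat_lit 0) (nat_lit 11651608433) (nat_lit 684) (nat_lit 582403138) (nat_lit 76) (nat_lit 12225029434) (nat_lit 232) (nat_lit 5) (nat_lit 241) (nat_lit 5) (nat_lit 233) (nat_lit 5) (nat_lit 377) (nat_lit 340) (nat_lit 183)) (XT.lf (nat_lit 0) (nat_lit 17466025229) (nat_lit 684) (nat_lit 5576162158) (nat_lit 76) (nat_lit 1855367043) (nat_lit 224) (nat_lit 5) (nat_lit 233) (nat_lit 5) (nat_lit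 225) (nat_lit 5) (nat_lit 378) (nat_lit 340) (nat_lit 182))))) (XT.nd (nat_lit 43914) (nat_lit 0) (nat_lit 16264) (XT.nd (nat_lit 78) (nat_lit 684) (nat_lit 0) (XT.lf (nat_lit 0) (nat_lit 14580036046) (nat_lit 532) (nat_lit 9046877509) (nat_lit 608) (nat_lit 1718871705) (nat_lit 217) (nat_lit 5) (nat_lit 224) (nat_lit 5) (nat_lit 225) (nat_lit 5) (nat_lit 379) (nat_lit 340) (nat_lit 181)) (XT.lf (nat_lit 0) (nat_lit 4238952353) (nat_lit 684) (nat_lit 16140709677) (nat_lit 76) (nat_lit 5424694498) (nat_lit 208) (nat_lit 5) (nat_lit 217) (nat_lit 5) (nat_lit 209) (nat_lit 5) (nat_lit 380) (nat_lit 340) (nat_lit 180))) (XT.nd (nat_lit 78) (nat_lit 0) (nat_lit 0) (XT.lf (nat_lit 0) (nat_lit 4148046989) (nat_lit 1748) (nat_lit 1408520327) (nat_lit 1748) (nat_lit 1408520327) (nat_lit 422) (nat_lit 3) (nat_lit 445) (nat_lit 3) (nat_lit 445) (nat_lit 5) (nat_lit 341) (nat_lit 341) (nat_lit 218)) (XT.nd (nat_lit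 78) (nat_lit 0) (nat_lit 76) (XT.lf (nat_lit 76) (nat_lit 7181135731) (nat_lit 0) (nat_lit 1790098086) (nat_lit 1748) (nat_lit 5156658602) (nat_lit 423) (nat_lit 5) (nat_lit 422) (nat_lit 3) (nat_lit 445) (nat_lit 5) (nat_lit 342) (nat_lit 341) (nat_lit 217)) (XT.lf (nat_lit 76) (nat_lit 3166702633) (nat_lit 0) (nat_lit 6570749397) (nat_lit 1748) (nat_lit 4592681196) (nat_lit 424) (nat_lit 5) (nat_lit 423) (nat_lit 5) (nat_lit 446) (nat_lit 5) (nat_lit 343) (nat_lit 341) (nat_lit 216)))))) (XT.nd (nat_lit 390) (nat_lit 1520) (nat_lit 0) (XT.nd (nat_lit 156) (nat_lit 0) (nat_lit 76) (XT.nd (nat_lit 78) (nat_lit 0) (nat_lit 0) (XT.lf (nat_lit 0) (nat_lit 10586511082) (nat_lit 1672) (nat_lit 901653496) (nat_lit 1748) (nat_lit 3049087988) (nat_lit 424) (nat_lit 5) (nat_lit 446) (nat_lit 5) (nat_lit 447) (nat_lit 5) (nat_lit 344) (nat_lit 341) (nat_lit 215)) (XT.lf (nat_lit 76) (nat_lit 9741198732) (nat_lit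 0) (nat_lit 1808472949) (nat_lit 1748) (nat_lit 3199149360) (nat_lit 425) (nat_lit 5) (nat_lit 424) (nat_lit 5) (nat_lit 447) (nat_lit 5) (nat_lit 345) (nat_lit 341) (nat_lit 214))) (XT.nd (nat_lit 78) (nat_lit 0) (nat_lit 76) (XT.lf (nat_lit 76) (nat_lit 5760744556) (nat_lit 0) (nat_lit 6859490599) (nat_lit 1748) (nat_lit 2344939165) (nat_lit 426) (nat_lit 5) (nat_lit 425) (nat_lit 5) (nat_lit 448) (nat_lit 5) (nat_lit 346) (nat_lit 341) (nat_lit 213)) (XT.nd (nat_lit 78) (nat_lit 0) (nat_lit 0) (XT.lf (nat_lit 76) (nat_lit 1712357106) (nat_lit 0) (nat_lit 12070473699) (nat_lit 1748) (nat_lit 1403996769) (nat_lit 427) (nat_lit 5) (nat_lit 426) (nat_lit 5) (nat_lit 449) (nat_lit 5) (nat_lit 347) (nat_lit 341) (nat_lit 212)) (XT.lf (nat_lit 76) (nat_lit 13025266801) (nat_lit 0) (nat_lit 2045885805) (nat_lit 1748) (nat_lit 342168312) (nat_lit 427) (nat_lit 5) (nat_lit 426) (nat_lit 5) (nat_lit 449)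 (nat_lit 5) (nat_lit 348) (nat_lit 341) (nat_lit 211))))) (XT.nd (nat_lit 156) (nat_lit 0) (nat_lit 76) (XT.nd (nat_lit 78) (nat_lit 0) (nat_lit 76) (XT.lf (nat_lit 0) (nat_lit 838475185) (nat_lit 1748) (nat_lit 6564804513) (nat_lit 1824) (nat_lit 8241302547) (nat_lit 404) (nat_lit 5) (nat_lit 427) (nat_lit 5) (nat_lit 428) (nat_lit 5) (nat_lit 349) (nat_lit 341) (nat_lit 210)) (XT.lf (nat_lit 0) (nat_lit 2115999407) (nat_lit 1748) (nat_lit 10819742938) (nat_lit 1824) (nat_lit 2945678520) (nat_lit 405) (nat_lit 5) (nat_lit 428) (nat_lit 5) (nat_lit 429) (nat_lit 5) (nat_lit 350) (nat_lit 341) (nat_lit 209))) (XT.nd (nat_lit 78) (nat_lit 0) (nat_lit 76) (XT.lf (nat_lit 76) (nat_lit 953871689) (nat_lit 0) (nat_lit 2562636621) (nat_lit 1824) (nat_lit 12607169848) (nat_lit 406) (nat_lit 5) (nat_lit 405) (nat_lit 5) (nat_lit 429) (nat_lit 5) (nat_lit 351) (nat_lit 341) (nat_lit 208)) (XT.nd (nat_lit 78)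 (nat_lit 0) (nat_lit 76) (XT.lf (nat_lit 0) (nat_lit 5070162538) (nat_lit 1748) (nat_lit 3207494040) (nat_lit 1824) (nat_lit 8093330485) (nat_lit 406) (nat_lit 5) (nat_lit 429) (nat_lit 5) (nat_lit 430) (nat_lit 5) (nat_lit 352) (nat_lit 341) (nat_lit 207)) (XT.lf (nat_lit 0) (nat_lit 6748443389) (nat_lit 1748) (nat_lit 7434259662) (nat_lit 1824) (nat_lit 2441458151) (nat_lit 407) (nat_lit 5) (nat_lit 430) (nat_lit 5) (nat_lit 431) (nat_lit 5) (nat_lit 353) (nat_lit 341) (nat_lit 206))))))) (XT.nd (nat_lit 780) (nat_lit 6156) (nat_lit 0) (XT.nd (nat_lit 390) (nat_lit 3724) (nat_lit 0) (XT.nd (nat_lit 156) (nat_lit 1520) (nat_lit 0) (XT.nd (nat_lit 78) (nat_lit 0) (nat_lit 76) (XT.lf (nat_lit 76) (nat_lit 5119114486) (nat_lit 0) (nat_lit 3453863864) (nat_lit 1824) (nat_lit 8310040227) (nat_lit 408) (nat_lit 5) (nat_lit 407) (nat_lit 5) (nat_lit 431) (nat_lit 5) (nat_lit 354) (nat_lit 341) (nat_lit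 205)) (XT.lf (nat_lit 76) (nat_lit 953787305) (nat_lit 0) (nat_lit 9590496712) (nat_lit 1824) (nat_lit 6603522907) (nat_lit 409) (nat_lit 5) (nat_lit 408) (nat_lit 5) (nat_lit 432) (nat_lit 5) (nat_lit 355) (nat_lit 341) (nat_lit 204))) (XT.nd (nat_lit 78) (nat_lit 1672) (nat_lit 0) (XT.lf (nat_lit 0) (nat_lit 12673382281) (nat_lit 1748) (nat_lit 3249078620) (nat_lit 1824) (nat_lit 1496110722) (nat_lit 409) (nat_lit 5) (nat_lit 432) (nat_lit 5) (nat_lit 433) (nat_lit 5) (nat_lit 356) (nat_lit 341) (nat_lit 203)) (XT.nd (nat_lit 78) (nat_lit 1672) (nat_lit 0) (XT.lf (nat_lit 76) (nat_lit 10142022048) (nat_lit 0) (nat_lit 4840885959) (nat_lit 1824) (nat_lit 2712225772) (nat_lit 410) (nat_lit 5) (nat_lit 409) (nat_lit 5) (nat_lit 433) (nat_lit 5) (nat_lit 357) (nat_lit 341) (nat_lit 202)) (XT.lf (nat_lit 0) (nat_lit 6024800944) (nat_lit 1748) (nat_lit 11427780099) (nat_lit 1824) (nat_lit 525599965) (nat_lit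 387) (nat_lit 5) (nat_lit 410) (nat_lit 5) (nat_lit 411) (nat_lit 5) (nat_lit 358) (nat_lit 341) (nat_lit 201))))) (XT.nd (nat_lit 156) (nat_lit 2584) (nat_lit 0) (XT.nd (nat_lit 78) (nat_lit 0) (nat_lit 0) (XT.lf (nat_lit 0) (nat_lit 1786946161) (nat_lit 1140) (nat_lit 16454578306) (nat_lit 76) (nat_lit 26316827) (nat_lit 372) (nat_lit 5) (nat_lit 387) (nat_lit 5) (nat_lit 373) (nat_lit 5) (nat_lit 359) (nat_lit 341) (nat_lit 200)) (XT.lf (nat_lit 0) (nat_lit 4307166433) (nat_lit 1140) (nat_lit 2499770586) (nat_lit 76) (nat_lit 11756281140) (nat_lit 372) (nat_lit 5) (nat_lit 387) (nat_lit 5) (nat_lit 373) (nat_lit 5) (nat_lit 360) (nat_lit 341) (nat_lit 199))) (XT.nd (nat_lit 78) (nat_lit 1672) (nat_lit 0) (XT.lf (nat_lit 0) (nat_lit 7001640721) (nat_lit 988) (nat_lit 6878533789) (nat_lit 76) (nat_lit 4985313754) (nat_lit 360) (nat_lit 5) (nat_lit 373) (nat_lit 5) (nat_lit 361) (nat_lit 5) (nat_lit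 361) (nat_lit 341) (nat_lit 198)) (XT.nd (nat_lit 78) (nat_lit 836) (nat_lit 0) (XT.lf (nat_lit 0) (nat_lit 7811835381) (nat_lit 836) (nat_lit 2066503710) (nat_lit 912) (nat_lit 9296464323) (nat_lit 349) (nat_lit 5) (nat_lit 360) (nat_lit 5) (nat_lit 361) (nat_lit 5) (nat_lit 362) (nat_lit 341) (nat_lit 197)) (XT.lf (nat_lit 0) (nat_lit 3513732818) (nat_lit 836) (nat_lit 9451304515) (nat_lit 912) (nat_lit 6525891309) (nat_lit 338) (nat_lit 5) (nat_lit 349) (nat_lit 5) (nat_lit 350) (nat_lit 5) (nat_lit 363) (nat_lit 341) (nat_lit 196)))))) (XT.nd (nat_lit 390) (nat_lit 2888) (nat_lit 0) (XT.nd (nat_lit 156) (nat_lit 2432) (nat_lit 0) (XT.nd (nat_lit 78) (nat_lit 836) (nat_lit 0) (XT.lf (nat_lit 0) (nat_lit 16241525376) (nat_lit 912) (nat_lit 865379301) (nat_lit 76) (nat_lit 2707693638) (nat_lit 338) (nat_lit 5) (nat_lit 350) (nat_lit 5) (nat_lit 339) (nat_lit 5) (nat_lit 364) (nat_lit 341) (nat_lit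 195)) (XT.lf (nat_lit 0) (nat_lit 14820164479) (nat_lit 836) (nat_lit 4944551933) (nat_lit 912) (nat_lit 380297838) (nat_lit 327) (nat_lit 5) (nat_lit 338) (nat_lit 5) (nat_lit 339) (nat_lit 5) (nat_lit 365) (nat_lit 341) (nat_lit 194))) (XT.nd (nat_lit 78) (nat_lit 1520) (nat_lit 0) (XT.lf (nat_lit 0) (nat_lit 2983933962) (nat_lit 912) (nat_lit 9921150125) (nat_lit 76) (nat_lit 7577608739) (nat_lit 315) (nat_lit 5) (nat_lit 327) (nat_lit 5) (nat_lit 316) (nat_lit 5) (nat_lit 366) (nat_lit 341) (nat_lit 193)) (XT.nd (nat_lit 78) (nat_lit 760) (nat_lit 0) (XT.lf (nat_lit 0) (nat_lit 6202324486) (nat_lit 760) (nat_lit 340693352) (nat_lit 836) (nat_lit 14285455817) (nat_lit 305) (nat_lit 5) (nat_lit 315) (nat_lit 5) (nat_lit 316) (nat_lit 5) (nat_lit 367) (nat_lit 341) (nat_lit 192)) (XT.lf (nat_lit 0) (nat_lit 1691104882) (nat_lit 760) (nat_lit 8667877224) (nat_lit 836) (nat_lit 10822647536) (nat_lit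 295) (nat_lit 5) (nat_lit 305) (nat_lit 5) (nat_lit 306) (nat_lit 5) (nat_lit 368) (nat_lit 341) (nat_lit 191))))) (XT.nd (nat_lit 156) (nat_lit 2204) (nat_lit 0) (XT.nd (nat_lit 78) (nat_lit 684) (nat_lit 0) (XT.lf (nat_lit 0) (nat_lit 14408622161) (nat_lit 836) (nat_lit 2886397195) (nat_lit 76) (nat_lit 4247980794) (nat_lit 295) (nat_lit 5) (nat_lit 306) (nat_lit 5) (nat_lit 296) (nat_lit 5) (nat_lit 369) (nat_lit 341) (nat_lit 190)) (XT.lf (nat_lit 0) (nat_lit 14335348850) (nat_lit 684) (nat_lit 4385609439) (nat_lit 760) (nat_lit 3191433013) (nat_lit 286) (nat_lit 5) (nat_lit 295) (nat_lit 5) (nat_lit 296) (nat_lit 5) (nat_lit 370) (nat_lit 341) (nat_lit 189))) (XT.nd (nat_lit 78) (nat_lit 1368) (nat_lit 0) (XT.lf (nat_lit 0) (nat_lit 991349079) (nat_lit 836) (nat_lit 12414918387) (nat_lit 76) (nat_lit 8883828141) (nat_lit 275) (nat_lit 5) (nat_lit 286) (nat_lit 5) (nat_lit 276) (nat_lit 5) (nat_lit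 371) (nat_lit 341) (nat_lit 188)) (XT.nd (nat_lit 78) (nat_lit 684) (nat_lit 0) (XT.lf (nat_lit 0) (nat_lit 5284341493) (nat_lit 684) (nat_lit 78011035) (nat_lit 760) (nat_lit 17314238056) (nat_lit 266) (nat_lit 5) (nat_lit 275) (nat_lit 5) (nat_lit 276) (nat_lit 5) (nat_lit 372) (nat_lit 341) (nat_lit 187)) (XT.lf (nat_lit 0) (nat_lit 518599312) (nat_lit 684) (nat_lit 9513292795) (nat_lit 760) (nat_lit 13039443474) (nat_lit 257) (nat_lit 5) (nat_lit 266) (nat_lit 5) (nat_lit 267) (nat_lit 5) (nat_lit 373) (nat_lit 341) (nat_lit 186))))))))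
noncomputable def xc114 : XT := (XT.nd (nat_lit 45396) (nat_lit 0) (nat_lit 3040) (XT.nd (nat_lit 44616) (nat_lit 0) (nat_lit 14136) (XT.nd (nat_lit 390) (nat_lit 1140) (nat_lit 0) (XT.nd (nat_lit 156) (nat_lit 1292) (nat_lit 0) (XT.nd (nat_lit 78) (nat_lit 608) (nat_lit 0) (XT.lf (nat_lit 0) (nat_lit 14978372325) (nat_lit 760) (nat_lit 4309344100) (nat_lit 76) (nat_lit 4187472609) (nat_lit 257) (nat_lit 5) (nat_lit 267) (nat_lit 5) (nat_lit 258) (nat_lit 5) (nat_lit 374) (nat_lit 341) (nat_lit 185)) (XT.lf (nat_lit 0) (nat_lit 14598961886) (nat_lit 608) (nat_lit 5623878403) (nat_lit 684) (nat_lit 3665329034) (nat_lit 249) (nat_lit 5) (nat_lit 257) (nat_lit 5) (nat_lit 258) (nat_lit 5) (nat_lit 375) (nat_lit 341) (nat_lit 184))) (XT.nd (nat_lit 78) (nat_lit 608) (nat_lit 0) (XT.lf (nat_lit 0) (nat_lit 1434636660) (nat_lit 684) (nat_lit 14435284928) (nat_lit 76) (nat_lit 8440635561) (nat_lit 240) (nat_lit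 5) (nat_lit 249) (nat_lit 5) (nat_lit 241) (nat_lit 5) (nat_lit 376) (nat_lit 341) (nat_lit 183)) (XT.nd (nat_lit 78) (nat_lit 0) (nat_lit 0) (XT.lf (nat_lit 0) (nat_lit 4990204140) (nat_lit 608) (nat_lit 1772752799) (nat_lit 684) (nat_lit 17979674919) (nat_lit 232) (nat_lit 5) (nat_lit 240) (nat_lit 5) (nat_lit 241) (nat_lit 5) (nat_lit 377) (nat_lit 341) (nat_lit 182)) (XT.lf (nat_lit 0) (nat_lit 12424025032) (nat_lit 684) (nat_lit 83253045) (nat_lit 76) (nat_lit 12676935551) (nat_lit 232) (nat_lit 5) (nat_lit 241) (nat_lit 5) (nat_lit 233) (nat_lit 5) (nat_lit 378) (nat_lit 341) (nat_lit 181))))) (XT.nd (nat_lit 43992) (nat_lit 0) (nat_lit 15580) (XT.nd (nat_lit 78) (nat_lit 532) (nat_lit 0) (XT.lf (nat_lit 0) (nat_lit 18404470449) (nat_lit 684) (nat_lit 5227405092) (nat_lit 76) (nat_lit 2004179106) (nat_lit 224) (nat_lit 5) (nat_lit 233) (nat_lit 5) (nat_lit 225) (nat_lit 5) (nat_lit 379) (nat_lit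 341) (nat_lit 180)) (XT.lf (nat_lit 0) (nat_lit 15525106891) (nat_lit 532) (nat_lit 9216302882) (nat_lit 608) (nat_lit 1356502135) (nat_lit 217) (nat_lit 5) (nat_lit 224) (nat_lit 5) (nat_lit 225) (nat_lit 5) (nat_lit 380) (nat_lit 341) (nat_lit 179))) (XT.nd (nat_lit 78) (nat_lit 0) (nat_lit 0) (XT.lf (nat_lit 0) (nat_lit 4771716666) (nat_lit 1748) (nat_lit 1196059821) (nat_lit 1748) (nat_lit 1196059821) (nat_lit 422) (nat_lit 3) (nat_lit 445) (nat_lit 3) (nat_lit 445) (nat_lit 5) (nat_lit 342) (nat_lit 342) (nat_lit 216)) (XT.nd (nat_lit 78) (nat_lit 0) (nat_lit 76) (XT.lf (nat_lit 76) (nat_lit 7897737103) (nat_lit 0) (nat_lit 2315262916) (nat_lit 1748) (nat_lit 4318850570) (nat_lit 423) (nat_lit 5) (nat_lit 422) (nat_lit 3) (nat_lit 445) (nat_lit 5) (nat_lit 343) (nat_lit 342) (nat_lit 215)) (XT.lf (nat_lit 76) (nat_lit 3777307645) (nat_lit 0) (nat_lit 7196943885) (nat_lit 1748) (nat_lit 3766478565)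 (nat_lit 424) (nat_lit 5) (nat_lit 423) (nat_lit 5) (nat_lit 446) (nat_lit 5) (nat_lit 344) (nat_lit 342) (nat_lit 214)))))) (XT.nd (nat_lit 390) (nat_lit 0) (nat_lit 76) (XT.nd (nat_lit 156) (nat_lit 1596) (nat_lit 0) (XT.nd (nat_lit 78) (nat_lit 0) (nat_lit 0) (XT.lf (nat_lit 0) (nat_lit 11818562840) (nat_lit 1672) (nat_lit 406667294) (nat_lit 1748) (nat_lit 2729449318) (nat_lit 424) (nat_lit 5) (nat_lit 446) (nat_lit 5) (nat_lit 447) (nat_lit 5) (nat_lit 345) (nat_lit 342) (nat_lit 213)) (XT.lf (nat_lit 76) (nat_lit 10547001091) (nat_lit 0) (nat_lit 2240316927) (nat_lit 1748) (nat_lit 2385754664) (nat_lit 425) (nat_lit 5) (nat_lit 424) (nat_lit 5) (nat_lit 447) (nat_lit 5) (nat_lit 346) (nat_lit 342) (nat_lit 212))) (XT.nd (nat_lit 78) (nat_lit 1672) (nat_lit 0) (XT.lf (nat_lit 76) (nat_lit 6459130581) (nat_lit 0) (nat_lit 7405943959) (nat_lit 1748) (nat_lit 1531351851) (nat_lit 426) (nat_lit 5)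 (nat_lit 425) (nat_lit 5) (nat_lit 448) (nat_lit 5) (nat_lit 347) (nat_lit 342) (nat_lit 211)) (XT.nd (nat_lit 78) (nat_lit 1748) (nat_lit 0) (XT.lf (nat_lit 76) (nat_lit 2300356769) (nat_lit 0) (nat_lit 12738297949) (nat_lit 1748) (nat_lit 586563416) (nat_lit 427) (nat_lit 5) (nat_lit 426) (nat_lit 5) (nat_lit 449) (nat_lit 5) (nat_lit 348) (nat_lit 342) (nat_lit 210)) (XT.lf (nat_lit 0) (nat_lit 475761739) (nat_lit 1748) (nat_lit 1925113890) (nat_lit 1824) (nat_lit 13458069434) (nat_lit 403) (nat_lit 5) (nat_lit 426) (nat_lit 5) (nat_lit 427) (nat_lit 5) (nat_lit 349) (nat_lit 342) (nat_lit 209))))) (XT.nd (nat_lit 156) (nat_lit 0) (nat_lit 76) (XT.nd (nat_lit 78) (nat_lit 0) (nat_lit 76) (XT.lf (nat_lit 0) (nat_lit 1664801110) (nat_lit 1748) (nat_lit 6219877977) (nat_lit 1824) (nat_lit 8212877591) (nat_lit 404) (nat_lit 5) (nat_lit 427) (nat_lit 5) (nat_lit 428) (nat_lit 5) (nat_lit 350) (nat_lit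 342) (nat_lit 208)) (XT.lf (nat_lit 0) (nat_lit 2959165470) (nat_lit 1748) (nat_lit 10593688504) (nat_lit 1824) (nat_lit 2789086087) (nat_lit 405) (nat_lit 5) (nat_lit 428) (nat_lit 5) (nat_lit 429) (nat_lit 5) (nat_lit 351) (nat_lit 342) (nat_lit 207))) (XT.nd (nat_lit 78) (nat_lit 0) (nat_lit 76) (XT.lf (nat_lit 76) (nat_lit 1524200973) (nat_lit 0) (nat_lit 2858296524) (nat_lit 1824) (nat_lit 12209361021) (nat_lit 406) (nat_lit 5) (nat_lit 405) (nat_lit 5) (nat_lit 429) (nat_lit 5) (nat_lit 352) (nat_lit 342) (nat_lit 206)) (XT.nd (nat_lit 78) (nat_lit 0) (nat_lit 76) (XT.lf (nat_lit 0) (nat_lit 5959231946) (nat_lit 1748) (nat_lit 2761327027) (nat_lit 1824) (nat_lit 8126507628) (nat_lit 406) (nat_lit 5) (nat_lit 429) (nat_lit 5) (nat_lit 430) (nat_lit 5) (nat_lit 353) (nat_lit 342) (nat_lit 205)) (XT.lf (nat_lit 0) (nat_lit 7668657115) (nat_lit 1748) (nat_lit 7107810715) (nat_lit 1824) (nat_lit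 2331761270) (nat_lit 407) (nat_lit 5) (nat_lit 430) (nat_lit 5) (nat_lit 431) (nat_lit 5) (nat_lit 354) (nat_lit 342) (nat_lit 204))))))) (XT.nd (nat_lit 780) (nat_lit 6156) (nat_lit 0) (XT.nd (nat_lit 390) (nat_lit 3648) (nat_lit 0) (XT.nd (nat_lit 156) (nat_lit 1596) (nat_lit 0) (XT.nd (nat_lit 78) (nat_lit 0) (nat_lit 76) (XT.lf (nat_lit 76) (nat_lit 5813250050) (nat_lit 0) (nat_lit 3717282118) (nat_lit 1824) (nat_lit 7844676734) (nat_lit 408) (nat_lit 5) (nat_lit 407) (nat_lit 5) (nat_lit 431) (nat_lit 5) (nat_lit 355) (nat_lit 342) (nat_lit 203)) (XT.lf (nat_lit 76) (nat_lit 1529282012) (nat_lit 0) (nat_lit 10013839420) (nat_lit 1824) (nat_lit 6105185112) (nat_lit 409) (nat_lit 5) (nat_lit 408) (nat_lit 5) (nat_lit 432) (nat_lit 5) (nat_lit 356) (nat_lit 342) (nat_lit 202))) (XT.nd (nat_lit 78) (nat_lit 1748) (nat_lit 0) (XT.lf (nat_lit 0) (nat_lit 13715358806) (nat_lit 1748) (nat_lit 2801214803)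 (nat_lit 1824) (nat_lit 1411043536) (nat_lit 409) (nat_lit 5) (nat_lit 432) (nat_lit 5) (nat_lit 433) (nat_lit 5) (nat_lit 357) (nat_lit 342) (nat_lit 201)) (XT.nd (nat_lit 78) (nat_lit 1748) (nat_lit 0) (XT.lf (nat_lit 76) (nat_lit 10982771453) (nat_lit 0) (nat_lit 5095607090) (nat_lit 1824) (nat_lit 2134421499) (nat_lit 410) (nat_lit 5) (nat_lit 409) (nat_lit 5) (nat_lit 433) (nat_lit 5) (nat_lit 358) (nat_lit 342) (nat_lit 200)) (XT.lf (nat_lit 0) (nat_lit 100154726) (nat_lit 1824) (nat_lit 11758322209) (nat_lit 76) (nat_lit 6646176178) (nat_lit 386) (nat_lit 5) (nat_lit 410) (nat_lit 5) (nat_lit 387) (nat_lit 5) (nat_lit 359) (nat_lit 342) (nat_lit 199))))) (XT.nd (nat_lit 156) (nat_lit 2584) (nat_lit 0) (XT.nd (nat_lit 78) (nat_lit 0) (nat_lit 0) (XT.lf (nat_lit 0) (nat_lit 2409061674) (nat_lit 1064) (nat_lit 50772718) (nat_lit 1140) (nat_lit 16343408804) (nat_lit 372) (nat_lit 5) (nat_lit 386)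 (nat_lit 5) (nat_lit 387) (nat_lit 5) (nat_lit 360) (nat_lit 342) (nat_lit 198)) (XT.lf (nat_lit 0) (nat_lit 5037303947) (nat_lit 1140) (nat_lit 2036546439) (nat_lit 76) (nat_lit 12034005343) (nat_lit 372) (nat_lit 5) (nat_lit 387) (nat_lit 5) (nat_lit 373) (nat_lit 5) (nat_lit 361) (nat_lit 342) (nat_lit 197))) (XT.nd (nat_lit 78) (nat_lit 1672) (nat_lit 0) (XT.lf (nat_lit 0) (nat_lit 7798175137) (nat_lit 988) (nat_lit 6543061302) (nat_lit 76) (nat_lit 5078253251) (nat_lit 360) (nat_lit 5) (nat_lit 373) (nat_lit 5) (nat_lit 361) (nat_lit 5) (nat_lit 362) (nat_lit 342) (nat_lit 196)) (XT.nd (nat_lit 78) (nat_lit 836) (nat_lit 0) (XT.lf (nat_lit 0) (nat_lit 8579228419) (nat_lit 836) (nat_lit 2168324781) (nat_lit 912) (nat_lit 8990810321) (nat_lit 349) (nat_lit 5) (nat_lit 360) (nat_lit 5) (nat_lit 361) (nat_lit 5) (nat_lit 363) (nat_lit 342) (nat_lit 195)) (XT.lf (nat_lit 0) (nat_lit 4155283689) (nat_lit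 836) (nat_lit 9758113267) (nat_lit 912) (nat_lit 6150851262) (nat_lit 338) (nat_lit 5) (nat_lit 349) (nat_lit 5) (nat_lit 350) (nat_lit 5) (nat_lit 364) (nat_lit 342) (nat_lit 194)))))) (XT.nd (nat_lit 390) (nat_lit 2888) (nat_lit 0) (XT.nd (nat_lit 156) (nat_lit 2356) (nat_lit 0) (XT.nd (nat_lit 78) (nat_lit 912) (nat_lit 0) (XT.lf (nat_lit 0) (nat_lit 17271739508) (nat_lit 912) (nat_lit 359594805) (nat_lit 76) (nat_lit 2766628883) (nat_lit 338) (nat_lit 5) (nat_lit 350) (nat_lit 5) (nat_lit 339) (nat_lit 5) (nat_lit 365) (nat_lit 342) (nat_lit 193)) (XT.lf (nat_lit 0) (nat_lit 147699058) (nat_lit 912) (nat_lit 4951629556) (nat_lit 76) (nat_lit 15639198147) (nat_lit 326) (nat_lit 5) (nat_lit 338) (nat_lit 5) (nat_lit 327) (nat_lit 5) (nat_lit 366) (nat_lit 342) (nat_lit 192))) (XT.nd (nat_lit 78) (nat_lit 1520) (nat_lit 0) (XT.lf (nat_lit 0) (nat_lit 3595545464) (nat_lit 912) (nat_lit 9686326418)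 (nat_lit 76) (nat_lit 7804662373) (nat_lit 315) (nat_lit 5) (nat_lit 327) (nat_lit 5) (nat_lit 316) (nat_lit 5) (nat_lit 367) (nat_lit 342) (nat_lit 191)) (XT.nd (nat_lit 78) (nat_lit 760) (nat_lit 0) (XT.lf (nat_lit 0) (nat_lit 6912213929) (nat_lit 760) (nat_lit 337382306) (nat_lit 836) (nat_lit 14193334139) (nat_lit 305) (nat_lit 5) (nat_lit 315) (nat_lit 5) (nat_lit 316) (nat_lit 5) (nat_lit 368) (nat_lit 342) (nat_lit 190)) (XT.lf (nat_lit 0) (nat_lit 2267301756) (nat_lit 760) (nat_lit 8901371880) (nat_lit 836) (nat_lit 10638240305) (nat_lit 295) (nat_lit 5) (nat_lit 305) (nat_lit 5) (nat_lit 306) (nat_lit 5) (nat_lit 369) (nat_lit 342) (nat_lit 189))))) (XT.nd (nat_lit 156) (nat_lit 2204) (nat_lit 0) (XT.nd (nat_lit 78) (nat_lit 684) (nat_lit 0) (XT.lf (nat_lit 0) (nat_lit 15325438488) (nat_lit 836) (nat_lit 2453128924) (nat_lit 76) (nat_lit 4400850861) (nat_lit 295) (nat_lit 5) (nat_lit 306)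 (nat_lit 5) (nat_lit 296) (nat_lit 5) (nat_lit 370) (nat_lit 342) (nat_lit 188)) (XT.lf (nat_lit 0) (nat_lit 15276835388) (nat_lit 684) (nat_lit 4479516500) (nat_lit 760) (nat_lit 2803760394) (nat_lit 286) (nat_lit 5) (nat_lit 295) (nat_lit 5) (nat_lit 296) (nat_lit 5) (nat_lit 371) (nat_lit 342) (nat_lit 187))) (XT.nd (nat_lit 78) (nat_lit 1368) (nat_lit 0) (XT.lf (nat_lit 0) (nat_lit 1487857405) (nat_lit 836) (nat_lit 12268613403) (nat_lit 76) (nat_lit 9192825299) (nat_lit 275) (nat_lit 5) (nat_lit 286) (nat_lit 5) (nat_lit 276) (nat_lit 5) (nat_lit 372) (nat_lit 342) (nat_lit 186)) (XT.nd (nat_lit 78) (nat_lit 684) (nat_lit 0) (XT.lf (nat_lit 0) (nat_lit 5953208130) (nat_lit 684) (nat_lit 26501089) (nat_lit 760) (nat_lit 17367887213) (nat_lit 266) (nat_lit 5) (nat_lit 275) (nat_lit 5) (nat_lit 276) (nat_lit 5) (nat_lit 373) (nat_lit 342) (nat_lit 185)) (XT.lf (nat_lit 0) (nat_lit 1045011244) (nat_lit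 684) (nat_lit 9734684281) (nat_lit 760) (nat_lit 12974685765) (nat_lit 257) (nat_lit 5) (nat_lit 266) (nat_lit 5) (nat_lit 267) (nat_lit 5) (nat_lit 374) (nat_lit 342) (nat_lit 184))))))))
noncomputable def xc115 : XT := (XT.nd (nat_lit 45474) (nat_lit 0) (nat_lit 2508) (XT.nd (nat_lit 44694) (nat_lit 0) (nat_lit 13604) (XT.nd (nat_lit 390) (nat_lit 0) (nat_lit 0) (XT.nd (nat_lit 156) (nat_lit 1900) (nat_lit 0) (XT.nd (nat_lit 78) (nat_lit 608) (nat_lit 0) (XT.lf (nat_lit 0) (nat_lit 15861958671) (nat_lit 760) (nat_lit 3934223712) (nat_lit 76) (nat_lit 4374424778) (nat_lit 257) (nat_lit 5) (nat_lit 267) (nat_lit 5) (nat_lit 258) (nat_lit 5) (nat_lit 375) (nat_lit 342) (nat_lit 183)) (XT.lf (nat_lit 0) (nat_lit 15533148151) (nat_lit 608) (nat_lit 5721186670) (nat_lit 684) (nat_lit 3341835008) (nat_lit 249) (nat_lit 5) (nat_lit 257) (nat_lit 5) (nat_lit 258) (nat_lit 5) (nat_lit 376) (nat_lit 342) (nat_lit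 182))) (XT.nd (nat_lit 78) (nat_lit 1216) (nat_lit 0) (XT.lf (nat_lit 0) (nat_lit 1896681738) (nat_lit 684) (nat_lit 14366418775) (nat_lit 76) (nat_lit 8768251990) (nat_lit 240) (nat_lit 5) (nat_lit 249) (nat_lit 5) (nat_lit 241) (nat_lit 5) (nat_lit 377) (nat_lit 342) (nat_lit 181)) (XT.nd (nat_lit 78) (nat_lit 608) (nat_lit 0) (XT.lf (nat_lit 0) (nat_lit 5633691833) (nat_lit 608) (nat_lit 1742161692) (nat_lit 684) (nat_lit 18100720004) (nat_lit 232) (nat_lit 5) (nat_lit 240) (nat_lit 5) (nat_lit 241) (nat_lit 5) (nat_lit 378) (nat_lit 342) (nat_lit 180)) (XT.lf (nat_lit 0) (nat_lit 406547264) (nat_lit 608) (nat_lit 12791432066) (nat_lit 684) (nat_lit 12733602902) (nat_lit 224) (nat_lit 5) (nat_lit 232) (nat_lit 5) (nat_lit 233) (nat_lit 5) (nat_lit 379) (nat_lit 342) (nat_lit 179))))) (XT.nd (nat_lit 44070) (nat_lit 0) (nat_lit 15048) (XT.nd (nat_lit 43992) (nat_lit 0) (nat_lit 15048) (XT.lf (nat_lit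 0) (nat_lit 19347277070) (nat_lit 684) (nat_lit 4897808232) (nat_lit 76) (nat_lit 2152108278) (nat_lit 224) (nat_lit 5) (nat_lit 233) (nat_lit 5) (nat_lit 225) (nat_lit 5) (nat_lit 380) (nat_lit 342) (nat_lit 178)) (XT.lf (nat_lit 0) (nat_lit 5385438689) (nat_lit 1748) (nat_lit 991847246) (nat_lit 1748) (nat_lit 991847246) (nat_lit 422) (nat_lit 3) (nat_lit 445) (nat_lit 3) (nat_lit 445) (nat_lit 5) (nat_lit 343) (nat_lit 343) (nat_lit 214))) (XT.nd (nat_lit 78) (nat_lit 0) (nat_lit 76) (XT.lf (nat_lit 76) (nat_lit 8607067463) (nat_lit 0) (nat_lit 2829118851) (nat_lit 1748) (nat_lit 3512882305) (nat_lit 423) (nat_lit 5) (nat_lit 422) (nat_lit 3) (nat_lit 445) (nat_lit 5) (nat_lit 344) (nat_lit 343) (nat_lit 213)) (XT.nd (nat_lit 78) (nat_lit 0) (nat_lit 76) (XT.lf (nat_lit 76) (nat_lit 4376633032) (nat_lit 0) (nat_lit 7817293719) (nat_lit 1748) (nat_lit 2970826426) (nat_lit 424) (nat_lit 5) (nat_lit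 423) (nat_lit 5) (nat_lit 446) (nat_lit 5) (nat_lit 345) (nat_lit 343) (nat_lit 212)) (XT.lf (nat_lit 76) (nat_lit 74174312) (nat_lit 0) (nat_lit 12961389887) (nat_lit 1748) (nat_lit 2350128235) (nat_lit 425) (nat_lit 5) (nat_lit 424) (nat_lit 5) (nat_lit 447) (nat_lit 5) (nat_lit 346) (nat_lit 343) (nat_lit 211)))))) (XT.nd (nat_lit 390) (nat_lit 0) (nat_lit 152) (XT.nd (nat_lit 156) (nat_lit 1596) (nat_lit 0) (XT.nd (nat_lit 78) (nat_lit 0) (nat_lit 76) (XT.lf (nat_lit 76) (nat_lit 11347496708) (nat_lit 0) (nat_lit 2663441025) (nat_lit 1748) (nat_lit 1600159638) (nat_lit 425) (nat_lit 5) (nat_lit 424) (nat_lit 5) (nat_lit 447) (nat_lit 5) (nat_lit 347) (nat_lit 343) (nat_lit 210)) (XT.lf (nat_lit 76) (nat_lit 7148298682) (nat_lit 0) (nat_lit 7949235145) (nat_lit 1748) (nat_lit 744098431) (nat_lit 426) (nat_lit 5) (nat_lit 425) (nat_lit 5) (nat_lit 448) (nat_lit 5) (nat_lit 348) (nat_lit 343) (nat_lit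 209))) (XT.nd (nat_lit 78) (nat_lit 0) (nat_lit 0) (XT.lf (nat_lit 0) (nat_lit 203348667) (nat_lit 1748) (nat_lit 13203894676) (nat_lit 1824) (nat_lit 2670478481) (nat_lit 403) (nat_lit 5) (nat_lit 426) (nat_lit 5) (nat_lit 427) (nat_lit 5) (nat_lit 349) (nat_lit 343) (nat_lit 208)) (XT.nd (nat_lit 78) (nat_lit 0) (nat_lit 76) (XT.lf (nat_lit 0) (nat_lit 1266331014) (nat_lit 1748) (nat_lit 1481129520) (nat_lit 1824) (nat_lit 13571397245) (nat_lit 403) (nat_lit 5) (nat_lit 426) (nat_lit 5) (nat_lit 427) (nat_lit 5) (nat_lit 350) (nat_lit 343) (nat_lit 207)) (XT.lf (nat_lit 0) (nat_lit 2469926282) (nat_lit 1748) (nat_lit 5895709238) (nat_lit 1824) (nat_lit 8199424130) (nat_lit 404) (nat_lit 5) (nat_lit 427) (nat_lit 5) (nat_lit 428) (nat_lit 5) (nat_lit 351) (nat_lit 343) (nat_lit 206))))) (XT.nd (nat_lit 156) (nat_lit 0) (nat_lit 76) (XT.nd (nat_lit 78) (nat_lit 0) (nat_lit 0) (XT.lf (nat_lit 0) (nat_lit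 3782869344) (nat_lit 1748) (nat_lit 10392461811) (nat_lit 1824) (nat_lit 2641857748) (nat_lit 405) (nat_lit 5) (nat_lit 428) (nat_lit 5) (nat_lit 429) (nat_lit 5) (nat_lit 352) (nat_lit 343) (nat_lit 205)) (XT.lf (nat_lit 76) (nat_lit 2080543586) (nat_lit 0) (nat_lit 3150267311) (nat_lit 1824) (nat_lit 11844164876) (nat_lit 406) (nat_lit 5) (nat_lit 405) (nat_lit 5) (nat_lit 429) (nat_lit 5) (nat_lit 353) (nat_lit 343) (nat_lit 204))) (XT.nd (nat_lit 78) (nat_lit 0) (nat_lit 76) (XT.lf (nat_lit 0) (nat_lit 6832668658) (nat_lit 1748) (nat_lit 2332910515) (nat_lit 1824) (nat_lit 8172713290) (nat_lit 406) (nat_lit 5) (nat_lit 429) (nat_lit 5) (nat_lit 430) (nat_lit 5) (nat_lit 354) (nat_lit 343) (nat_lit 203)) (XT.nd (nat_lit 78) (nat_lit 0) (nat_lit 0) (XT.lf (nat_lit 0) (nat_lit 8575274867) (nat_lit 1748) (nat_lit 6803110512) (nat_lit 1824) (nat_lit 2229275023) (nat_lit 407) (nat_lit 5) (nat_lit 430)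 (nat_lit 5) (nat_lit 431) (nat_lit 5) (nat_lit 355) (nat_lit 343) (nat_lit 202)) (XT.lf (nat_lit 76) (nat_lit 6497179203) (nat_lit 0) (nat_lit 3979429612) (nat_lit 1824) (nat_lit 7406377014) (nat_lit 408) (nat_lit 5) (nat_lit 407) (nat_lit 5) (nat_lit 431) (nat_lit 5) (nat_lit 356) (nat_lit 343) (nat_lit 201))))))) (XT.nd (nat_lit 780) (nat_lit 5320) (nat_lit 0) (XT.nd (nat_lit 390) (nat_lit 3420) (nat_lit 0) (XT.nd (nat_lit 156) (nat_lit 2736) (nat_lit 0) (XT.nd (nat_lit 78) (nat_lit 0) (nat_lit 76) (XT.lf (nat_lit 76) (nat_lit 2090648348) (nat_lit 0) (nat_lit 10442096818) (nat_lit 1824) (nat_lit 5631875888) (nat_lit 409) (nat_lit 5) (nat_lit 408) (nat_lit 5) (nat_lit 432) (nat_lit 5) (nat_lit 357) (nat_lit 343) (nat_lit 200)) (XT.lf (nat_lit 0) (nat_lit 14750606032) (nat_lit 1748) (nat_lit 2371219598) (nat_lit 1824) (nat_lit 1330884024) (nat_lit 409) (nat_lit 5) (nat_lit 432) (nat_lit 5) (nat_lit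 433) (nat_lit 5) (nat_lit 358) (nat_lit 343) (nat_lit 199))) (XT.nd (nat_lit 78) (nat_lit 2812) (nat_lit 0) (XT.lf (nat_lit 76) (nat_lit 11817946693) (nat_lit 0) (nat_lit 5351684419) (nat_lit 1824) (nat_lit 1577122213) (nat_lit 410) (nat_lit 5) (nat_lit 409) (nat_lit 5) (nat_lit 433) (nat_lit 5) (nat_lit 359) (nat_lit 343) (nat_lit 198)) (XT.nd (nat_lit 78) (nat_lit 1064) (nat_lit 0) (XT.lf (nat_lit 0) (nat_lit 701163471) (nat_lit 1824) (nat_lit 11592508074) (nat_lit 76) (nat_lit 6753920556) (nat_lit 386) (nat_lit 5) (nat_lit 410) (nat_lit 5) (nat_lit 387) (nat_lit 5) (nat_lit 360) (nat_lit 343) (nat_lit 197)) (XT.lf (nat_lit 0) (nat_lit 2991484243) (nat_lit 1064) (nat_lit 126043925) (nat_lit 1140) (nat_lit 16237900831) (nat_lit 372) (nat_lit 5) (nat_lit 386) (nat_lit 5) (nat_lit 387) (nat_lit 5) (nat_lit 361) (nat_lit 343) (nat_lit 196))))) (XT.nd (nat_lit 156) (nat_lit 2508) (nat_lit 0) (XT.nd (nat_lit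 78) (nat_lit 912) (nat_lit 0) (XT.lf (nat_lit 0) (nat_lit 5754850176) (nat_lit 1140) (nat_lit 1590321441) (nat_lit 76) (nat_lit 12324364527) (nat_lit 372) (nat_lit 5) (nat_lit 387) (nat_lit 5) (nat_lit 373) (nat_lit 5) (nat_lit 362) (nat_lit 343) (nat_lit 195)) (XT.lf (nat_lit 0) (nat_lit 8584938935) (nat_lit 988) (nat_lit 6228627814) (nat_lit 76) (nat_lit 5177231148) (nat_lit 360) (nat_lit 5) (nat_lit 373) (nat_lit 5) (nat_lit 361) (nat_lit 5) (nat_lit 363) (nat_lit 343) (nat_lit 194))) (XT.nd (nat_lit 78) (nat_lit 1672) (nat_lit 0) (XT.lf (nat_lit 0) (nat_lit 9339044688) (nat_lit 836) (nat_lit 2270914312) (nat_lit 912) (nat_lit 8709542141) (nat_lit 349) (nat_lit 5) (nat_lit 360) (nat_lit 5) (nat_lit 361) (nat_lit 5) (nat_lit 364) (nat_lit 343) (nat_lit 193)) (XT.nd (nat_lit 78) (nat_lit 836) (nat_lit 0) (XT.lf (nat_lit 0) (nat_lit 4785304521) (nat_lit 836) (nat_lit 10072790510) (nat_lit 912) (nat_lit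 5797327231) (nat_lit 338) (nat_lit 5) (nat_lit 349) (nat_lit 5) (nat_lit 350) (nat_lit 5) (nat_lit 365) (nat_lit 343) (nat_lit 192)) (XT.lf (nat_lit 0) (nat_lit 132577617) (nat_lit 836) (nat_lit 18169974623) (nat_lit 912) (nat_lit 2696895206) (nat_lit 327) (nat_lit 5) (nat_lit 338) (nat_lit 5) (nat_lit 339) (nat_lit 5) (nat_lit 366) (nat_lit 343) (nat_lit 191)))))) (XT.nd (nat_lit 390) (nat_lit 2888) (nat_lit 0) (XT.nd (nat_lit 156) (nat_lit 1520) (nat_lit 0) (XT.nd (nat_lit 78) (nat_lit 836) (nat_lit 0) (XT.lf (nat_lit 0) (nat_lit 655729358) (nat_lit 912) (nat_lit 4600204375) (nat_lit 76) (nat_lit 16094485111) (nat_lit 326) (nat_lit 5) (nat_lit 338) (nat_lit 5) (nat_lit 327) (nat_lit 5) (nat_lit 367) (nat_lit 343) (nat_lit 190)) (XT.lf (nat_lit 0) (nat_lit 4195535010) (nat_lit 912) (nat_lit 9475023279) (nat_lit 76) (nat_lit 8038543382) (nat_lit 315) (nat_lit 5) (nat_lit 327) (nat_lit 5) (nat_lit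 316) (nat_lit 5) (nat_lit 368) (nat_lit 343) (nat_lit 189))) (XT.nd (nat_lit 78) (nat_lit 760) (nat_lit 0) (XT.lf (nat_lit 0) (nat_lit 7613330662) (nat_lit 760) (nat_lit 334748711) (nat_lit 836) (nat_lit 14128338281) (nat_lit 305) (nat_lit 5) (nat_lit 315) (nat_lit 5) (nat_lit 316) (nat_lit 5) (nat_lit 369) (nat_lit 343) (nat_lit 188)) (XT.nd (nat_lit 78) (nat_lit 0) (nat_lit 0) (XT.lf (nat_lit 0) (nat_lit 2830620769) (nat_lit 760) (nat_lit 9143394975) (nat_lit 836) (nat_lit 10477524514) (nat_lit 295) (nat_lit 5) (nat_lit 305) (nat_lit 5) (nat_lit 306) (nat_lit 5) (nat_lit 370) (nat_lit 343) (nat_lit 187)) (XT.lf (nat_lit 0) (nat_lit 16241943714) (nat_lit 836) (nat_lit 2036704707) (nat_lit 76) (nat_lit 4556847207) (nat_lit 295) (nat_lit 5) (nat_lit 306) (nat_lit 5) (nat_lit 296) (nat_lit 5) (nat_lit 371) (nat_lit 343) (nat_lit 186))))) (XT.nd (nat_lit 156) (nat_lit 1368) (nat_lit 0) (XT.nd (nat_lit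 78) (nat_lit 836) (nat_lit 0) (XT.lf (nat_lit 0) (nat_lit 16217208573) (nat_lit 684) (nat_lit 4578402681) (nat_lit 760) (nat_lit 2432207629) (nat_lit 286) (nat_lit 5) (nat_lit 295) (nat_lit 5) (nat_lit 296) (nat_lit 5) (nat_lit 372) (nat_lit 343) (nat_lit 185)) (XT.lf (nat_lit 0) (nat_lit 1972466596) (nat_lit 836) (nat_lit 12147697786) (nat_lit 76) (nat_lit 9508653713) (nat_lit 275) (nat_lit 5) (nat_lit 286) (nat_lit 5) (nat_lit 276) (nat_lit 5) (nat_lit 373) (nat_lit 343) (nat_lit 184))) (XT.nd (nat_lit 78) (nat_lit 684) (nat_lit 0) (XT.lf (nat_lit 0) (nat_lit 6589534779) (nat_lit 760) (nat_lit 17426572813) (nat_lit 76) (nat_lit 23155208) (nat_lit 266) (nat_lit 5) (nat_lit 276) (nat_lit 5) (nat_lit 267) (nat_lit 5) (nat_lit 374) (nat_lit 343) (nat_lit 183)) (XT.nd (nat_lit 78) (nat_lit 0) (nat_lit 0) (XT.lf (nat_lit 0) (nat_lit 1557890427) (nat_lit 684) (nat_lit 9966391792) (nat_lit 760) (nat_lit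 12934158205) (nat_lit 257) (nat_lit 5) (nat_lit 266) (nat_lit 5) (nat_lit 267) (nat_lit 5) (nat_lit 375) (nat_lit 343) (nat_lit 182)) (XT.lf (nat_lit 0) (nat_lit 16747125733) (nat_lit 760) (nat_lit 3576804376) (nat_lit 76) (nat_lit 4563465034) (nat_lit 257) (nat_lit 5) (nat_lit 267) (nat_lit 5) (nat_lit 258) (nat_lit 5) (nat_lit 376) (nat_lit 343) (nat_lit 181))))))))
noncomputable def xc116 : XT := (XT.nd (nat_lit 45552) (nat_lit 0) (nat_lit 1216) (XT.nd (nat_lit 44772) (nat_lit 0) (nat_lit 13604) (XT.nd (nat_lit 44382) (nat_lit 0) (nat_lit 13528) (XT.nd (nat_lit 156) (nat_lit 1216) (nat_lit 0) (XT.nd (nat_lit 78) (nat_lit 684) (nat_lit 0) (XT.lf (nat_lit 0) (nat_lit 16466875096) (nat_lit 608) (nat_lit 5825513300) (nat_lit 684) (nat_lit 3033518188) (nat_lit 249) (nat_lit 5) (nat_lit 257) (nat_lit 5) (nat_lit 258) (nat_lit 5) (nat_lit 377) (nat_lit 343) (nat_lit 180)) (XT.lf (nat_lit 0) (nat_lit 2348535511)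 (nat_lit 684) (nat_lit 14324299168) (nat_lit 76) (nat_lit 9101426199) (nat_lit 240) (nat_lit 5) (nat_lit 249) (nat_lit 5) (nat_lit 241) (nat_lit 5) (nat_lit 378) (nat_lit 343) (nat_lit 179))) (XT.nd (nat_lit 78) (nat_lit 608) (nat_lit 0) (XT.lf (nat_lit 0) (nat_lit 6268139075) (nat_lit 608) (nat_lit 1715461804) (nat_lit 684) (nat_lit 18249411165) (nat_lit 232) (nat_lit 5) (nat_lit 240) (nat_lit 5) (nat_lit 241) (nat_lit 5) (nat_lit 379) (nat_lit 343) (nat_lit 178)) (XT.nd (nat_lit 44070) (nat_lit 0) (nat_lit 15048) (XT.lf (nat_lit 0) (nat_lit 883855835) (nat_lit 608) (nat_lit 13088795741) (nat_lit 684) (nat_lit 12729177976) (nat_lit 224) (nat_lit 5) (nat_lit 232) (nat_lit 5) (nat_lit 233) (nat_lit 5) (nat_lit 380) (nat_lit 343) (nat_lit 177)) (XT.lf (nat_lit 0) (nat_lit 5990559700) (nat_lit 1748) (nat_lit 795290693) (nat_lit 1748) (nat_lit 795290693) (nat_lit 422) (nat_lit 3) (nat_lit 445) (nat_lit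 3) (nat_lit 445) (nat_lit 5) (nat_lit 344) (nat_lit 344) (nat_lit 212))))) (XT.nd (nat_lit 156) (nat_lit 1520) (nat_lit 0) (XT.nd (nat_lit 78) (nat_lit 0) (nat_lit 76) (XT.lf (nat_lit 76) (nat_lit 9310560141) (nat_lit 0) (nat_lit 3332880197) (nat_lit 1748) (nat_lit 2736438458) (nat_lit 423) (nat_lit 5) (nat_lit 422) (nat_lit 3) (nat_lit 445) (nat_lit 5) (nat_lit 345) (nat_lit 344) (nat_lit 211)) (XT.lf (nat_lit 76) (nat_lit 4966039440) (nat_lit 0) (nat_lit 8433037450) (nat_lit 1748) (nat_lit 2203464749) (nat_lit 424) (nat_lit 5) (nat_lit 423) (nat_lit 5) (nat_lit 446) (nat_lit 5) (nat_lit 346) (nat_lit 344) (nat_lit 210))) (XT.nd (nat_lit 78) (nat_lit 1672) (nat_lit 0) (XT.lf (nat_lit 76) (nat_lit 546385546) (nat_lit 0) (nat_lit 13695779730) (nat_lit 1748) (nat_lit 1588430464) (nat_lit 425) (nat_lit 5) (nat_lit 424) (nat_lit 5) (nat_lit 447) (nat_lit 5) (nat_lit 347) (nat_lit 344) (nat_lit 209)) (XT.nd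 (nat_lit 78) (nat_lit 1672) (nat_lit 0) (XT.lf (nat_lit 76) (nat_lit 12144218701) (nat_lit 0) (nat_lit 3078827893) (nat_lit 1748) (nat_lit 840201691) (nat_lit 425) (nat_lit 5) (nat_lit 424) (nat_lit 5) (nat_lit 447) (nat_lit 5) (nat_lit 348) (nat_lit 344) (nat_lit 208)) (XT.lf (nat_lit 0) (nat_lit 18695396) (nat_lit 1748) (nat_lit 8471571023) (nat_lit 1824) (nat_lit 7810883320) (nat_lit 402) (nat_lit 5) (nat_lit 425) (nat_lit 5) (nat_lit 426) (nat_lit 5) (nat_lit 349) (nat_lit 344) (nat_lit 207)))))) (XT.nd (nat_lit 390) (nat_lit 0) (nat_lit 228) (XT.nd (nat_lit 156) (nat_lit 0) (nat_lit 76) (XT.nd (nat_lit 78) (nat_lit 0) (nat_lit 0) (XT.lf (nat_lit 0) (nat_lit 963134974) (nat_lit 1748) (nat_lit 13112887451) (nat_lit 1824) (nat_lit 2468637231) (nat_lit 403) (nat_lit 5) (nat_lit 426) (nat_lit 5) (nat_lit 427) (nat_lit 5) (nat_lit 350) (nat_lit 344) (nat_lit 206)) (XT.lf (nat_lit 0) (nat_lit 2036054777)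 (nat_lit 1748) (nat_lit 1052627420) (nat_lit 1824) (nat_lit 13704795857) (nat_lit 403) (nat_lit 5) (nat_lit 426) (nat_lit 5) (nat_lit 427) (nat_lit 5) (nat_lit 351) (nat_lit 344) (nat_lit 205))) (XT.nd (nat_lit 78) (nat_lit 0) (nat_lit 76) (XT.lf (nat_lit 0) (nat_lit 3255854722) (nat_lit 1748) (nat_lit 5591135443) (nat_lit 1824) (nat_lit 8200482932) (nat_lit 404) (nat_lit 5) (nat_lit 427) (nat_lit 5) (nat_lit 428) (nat_lit 5) (nat_lit 352) (nat_lit 344) (nat_lit 204)) (XT.nd (nat_lit 78) (nat_lit 0) (nat_lit 0) (XT.lf (nat_lit 0) (nat_lit 4589096409) (nat_lit 1748) (nat_lit 10214993184) (nat_lit 1824) (nat_lit 2503467216) (nat_lit 405) (nat_lit 5) (nat_lit 428) (nat_lit 5) (nat_lit 429) (nat_lit 5) (nat_lit 353) (nat_lit 344) (nat_lit 203)) (XT.lf (nat_lit 76) (nat_lit 2624264997) (nat_lit 0) (nat_lit 3439159241) (nat_lit 1824) (nat_lit 11510002619) (nat_lit 406) (nat_lit 5) (nat_lit 405) (nat_lit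 5) (nat_lit 429) (nat_lit 5) (nat_lit 354) (nat_lit 344) (nat_lit 202))))) (XT.nd (nat_lit 156) (nat_lit 0) (nat_lit 76) (XT.nd (nat_lit 78) (nat_lit 0) (nat_lit 76) (XT.lf (nat_lit 0) (nat_lit 7692432160) (nat_lit 1748) (nat_lit 1920989712) (nat_lit 1824) (nat_lit 8231647571) (nat_lit 406) (nat_lit 5) (nat_lit 429) (nat_lit 5) (nat_lit 430) (nat_lit 5) (nat_lit 355) (nat_lit 344) (nat_lit 201)) (XT.lf (nat_lit 0) (nat_lit 9470253953) (nat_lit 1748) (nat_lit 6519000864) (nat_lit 1824) (nat_lit 2133612898) (nat_lit 407) (nat_lit 5) (nat_lit 430) (nat_lit 5) (nat_lit 431) (nat_lit 5) (nat_lit 356) (nat_lit 344) (nat_lit 200))) (XT.nd (nat_lit 78) (nat_lit 0) (nat_lit 76) (XT.lf (nat_lit 76) (nat_lit 7172377030) (nat_lit 0) (nat_lit 4240794809) (nat_lit 1824) (nat_lit 6993597996) (nat_lit 408) (nat_lit 5) (nat_lit 407) (nat_lit 5) (nat_lit 431) (nat_lit 5) (nat_lit 357) (nat_lit 344) (nat_lit 199)) (XT.nd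 (nat_lit 78) (nat_lit 0) (nat_lit 76) (XT.lf (nat_lit 76) (nat_lit 2639264562) (nat_lit 0) (nat_lit 10875863272) (nat_lit 1824) (nat_lit 5182051151) (nat_lit 409) (nat_lit 5) (nat_lit 408) (nat_lit 5) (nat_lit 432) (nat_lit 5) (nat_lit 358) (nat_lit 344) (nat_lit 198)) (XT.lf (nat_lit 0) (nat_lit 15781102780) (nat_lit 1748) (nat_lit 1957832057) (nat_lit 1824) (nat_lit 1255351202) (nat_lit 409) (nat_lit 5) (nat_lit 432) (nat_lit 5) (nat_lit 433) (nat_lit 5) (nat_lit 359) (nat_lit 344) (nat_lit 197))))))) (XT.nd (nat_lit 780) (nat_lit 5700) (nat_lit 0) (XT.nd (nat_lit 390) (nat_lit 3420) (nat_lit 0) (XT.nd (nat_lit 156) (nat_lit 1976) (nat_lit 0) (XT.nd (nat_lit 78) (nat_lit 1748) (nat_lit 0) (XT.lf (nat_lit 76) (nat_lit 12649148394) (nat_lit 0) (nat_lit 5609519443) (nat_lit 1824) (nat_lit 1038770943) (nat_lit 410) (nat_lit 5) (nat_lit 409) (nat_lit 5) (nat_lit 433) (nat_lit 5) (nat_lit 360) (nat_lit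 344) (nat_lit 196)) (XT.lf (nat_lit 0) (nat_lit 1285874596) (nat_lit 1824) (nat_lit 11451487199) (nat_lit 76) (nat_lit 6870157828) (nat_lit 386) (nat_lit 5) (nat_lit 410) (nat_lit 5) (nat_lit 387) (nat_lit 5) (nat_lit 361) (nat_lit 344) (nat_lit 195))) (XT.nd (nat_lit 78) (nat_lit 912) (nat_lit 0) (XT.lf (nat_lit 0) (nat_lit 3562094752) (nat_lit 1064) (nat_lit 199339829) (nat_lit 1140) (nat_lit 16163429564) (nat_lit 372) (nat_lit 5) (nat_lit 386) (nat_lit 5) (nat_lit 387) (nat_lit 5) (nat_lit 362) (nat_lit 344) (nat_lit 194)) (XT.nd (nat_lit 78) (nat_lit 912) (nat_lit 0) (XT.lf (nat_lit 0) (nat_lit 6461407558) (nat_lit 1140) (nat_lit 1159832015) (nat_lit 76) (nat_lit 12627490715) (nat_lit 372) (nat_lit 5) (nat_lit 387) (nat_lit 5) (nat_lit 373) (nat_lit 5) (nat_lit 363) (nat_lit 344) (nat_lit 193)) (XT.lf (nat_lit 0) (nat_lit 9363571602) (nat_lit 988) (nat_lit 5934079043) (nat_lit 76) (nat_lit 5282242021)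 (nat_lit 360) (nat_lit 5) (nat_lit 373) (nat_lit 5) (nat_lit 361) (nat_lit 5) (nat_lit 364) (nat_lit 344) (nat_lit 192))))) (XT.nd (nat_lit 156) (nat_lit 1748) (nat_lit 0) (XT.nd (nat_lit 78) (nat_lit 836) (nat_lit 0) (XT.lf (nat_lit 0) (nat_lit 10092813367) (nat_lit 836) (nat_lit 2374426591) (nat_lit 912) (nat_lit 8451465138) (nat_lit 349) (nat_lit 5) (nat_lit 360) (nat_lit 5) (nat_lit 361) (nat_lit 5) (nat_lit 365) (nat_lit 344) (nat_lit 191)) (XT.lf (nat_lit 0) (nat_lit 5405216113) (nat_lit 836) (nat_lit 10395648979) (nat_lit 912) (nat_lit 5464083727) (nat_lit 338) (nat_lit 5) (nat_lit 349) (nat_lit 5) (nat_lit 350) (nat_lit 5) (nat_lit 366) (nat_lit 344) (nat_lit 190))) (XT.nd (nat_lit 78) (nat_lit 912) (nat_lit 0) (XT.lf (nat_lit 0) (nat_lit 615282871) (nat_lit 836) (nat_lit 18721874519) (nat_lit 912) (nat_lit 2282373035) (nat_lit 327) (nat_lit 5) (nat_lit 338) (nat_lit 5) (nat_lit 339) (nat_lit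 5) (nat_lit 367) (nat_lit 344) (nat_lit 189)) (XT.nd (nat_lit 78) (nat_lit 836) (nat_lit 0) (XT.lf (nat_lit 0) (nat_lit 1150091905) (nat_lit 912) (nat_lit 4266936996) (nat_lit 76) (nat_lit 16564227968) (nat_lit 326) (nat_lit 5) (nat_lit 338) (nat_lit 5) (nat_lit 327) (nat_lit 5) (nat_lit 368) (nat_lit 344) (nat_lit 188)) (XT.lf (nat_lit 0) (nat_lit 4785274358) (nat_lit 912) (nat_lit 9286191754) (nat_lit 76) (nat_lit 8279455681) (nat_lit 315) (nat_lit 5) (nat_lit 327) (nat_lit 5) (nat_lit 316) (nat_lit 5) (nat_lit 369) (nat_lit 344) (nat_lit 187)))))) (XT.nd (nat_lit 390) (nat_lit 2660) (nat_lit 0) (XT.nd (nat_lit 156) (nat_lit 1520) (nat_lit 0) (XT.nd (nat_lit 78) (nat_lit 760) (nat_lit 0) (XT.lf (nat_lit 0) (nat_lit 8307137609) (nat_lit 760) (nat_lit 332768302) (nat_lit 836) (nat_lit 14089566237) (nat_lit 305) (nat_lit 5) (nat_lit 315) (nat_lit 5) (nat_lit 316) (nat_lit 5) (nat_lit 370) (nat_lit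 344) (nat_lit 186)) (XT.lf (nat_lit 0) (nat_lit 3382407108) (nat_lit 760) (nat_lit 9394114902) (nat_lit 836) (nat_lit 10339533349) (nat_lit 295) (nat_lit 5) (nat_lit 305) (nat_lit 5) (nat_lit 306) (nat_lit 5) (nat_lit 371) (nat_lit 344) (nat_lit 185))) (XT.nd (nat_lit 78) (nat_lit 1520) (nat_lit 0) (XT.lf (nat_lit 0) (nat_lit 17159725233) (nat_lit 836) (nat_lit 1635916807) (nat_lit 76) (nat_lit 4716147420) (nat_lit 295) (nat_lit 5) (nat_lit 306) (nat_lit 5) (nat_lit 296) (nat_lit 5) (nat_lit 372) (nat_lit 344) (nat_lit 184)) (XT.nd (nat_lit 78) (nat_lit 836) (nat_lit 0) (XT.lf (nat_lit 0) (nat_lit 17158120271) (nat_lit 684) (nat_lit 4682293254) (nat_lit 760) (nat_lit 2075665350) (nat_lit 286) (nat_lit 5) (nat_lit 295) (nat_lit 5) (nat_lit 296) (nat_lit 5) (nat_lit 373) (nat_lit 344) (nat_lit 183)) (XT.lf (nat_lit 0) (nat_lit 2446357786) (nat_lit 836) (nat_lit 12051223810) (nat_lit 76) (nat_lit 9831658310)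 (nat_lit 275) (nat_lit 5) (nat_lit 286) (nat_lit 5) (nat_lit 276) (nat_lit 5) (nat_lit 374) (nat_lit 344) (nat_lit 182))))) (XT.nd (nat_lit 156) (nat_lit 1292) (nat_lit 0) (XT.nd (nat_lit 78) (nat_lit 684) (nat_lit 0) (XT.lf (nat_lit 0) (nat_lit 7193113467) (nat_lit 760) (nat_lit 17487997660) (nat_lit 76) (nat_lit 71067638) (nat_lit 266) (nat_lit 5) (nat_lit 276) (nat_lit 5) (nat_lit 267) (nat_lit 5) (nat_lit 375) (nat_lit 344) (nat_lit 181)) (XT.lf (nat_lit 0) (nat_lit 2058514260) (nat_lit 684) (nat_lit 10208513891) (nat_lit 760) (nat_lit 12917085267) (nat_lit 257) (nat_lit 5) (nat_lit 266) (nat_lit 5) (nat_lit 267) (nat_lit 5) (nat_lit 376) (nat_lit 344) (nat_lit 180))) (XT.nd (nat_lit 78) (nat_lit 1292) (nat_lit 0) (XT.lf (nat_lit 0) (nat_lit 17635351835) (nat_lit 760) (nat_lit 3235955009) (nat_lit 76) (nat_lit 4754858111) (nat_lit 257) (nat_lit 5) (nat_lit 267) (nat_lit 5) (nat_lit 258) (nat_lit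 5) (nat_lit 377) (nat_lit 344) (nat_lit 179)) (XT.nd (nat_lit 78) (nat_lit 684) (nat_lit 0) (XT.lf (nat_lit 0) (nat_lit 17401764089) (nat_lit 608) (nat_lit 5936833540) (nat_lit 684) (nat_lit 2739405559) (nat_lit 249) (nat_lit 5) (nat_lit 257) (nat_lit 5) (nat_lit 258) (nat_lit 5) (nat_lit 378) (nat_lit 344) (nat_lit 178)) (XT.lf (nat_lit 0) (nat_lit 2791272961) (nat_lit 684) (nat_lit 14308074548) (nat_lit 76) (nat_lit 9440570078) (nat_lit 240) (nat_lit 5) (nat_lit 249) (nat_lit 5) (nat_lit 241) (nat_lit 5) (nat_lit 379) (nat_lit 344) (nat_lit 177))))))))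
noncomputable def xc117 : XT := (XT.nd (nat_lit 1560) (nat_lit 9348) (nat_lit 0) (XT.nd (nat_lit 780) (nat_lit 2280) (nat_lit 0) (XT.nd (nat_lit 390) (nat_lit 1520) (nat_lit 0) (XT.nd (nat_lit 156) (nat_lit 0) (nat_lit 76) (XT.nd (nat_lit 78) (nat_lit 0) (nat_lit 0) (XT.lf (nat_lit 0) (nat_lit 6588372306) (nat_lit 1748) (nat_lit 605828676) (nat_lit 1748) (nat_lit 605828676) (nat_lit 422) (nat_lit 3) (nat_lit 445) (nat_lit 3) (nat_lit 445) (nat_lit 5) (nat_lit 345) (nat_lit 345) (nat_lit 210)) (XT.lf (nat_lit 76) (nat_lit 10009596669) (nat_lit 0) (nat_lit 3827708512) (nat_lit 1748) (nat_lit 1987321963) (nat_lit 423) (nat_lit 5) (nat_lit 422) (nat_lit 3) (nat_lit 445) (nat_lit 5) (nat_lit 346) (nat_lit 345) (nat_lit 209))) (XT.nd (nat_lit 78) (nat_lit 0) (nat_lit 76) (XT.lf (nat_lit 76) (nat_lit 5546830799) (nat_lit 0) (nat_lit 9045369623) (nat_lit 1748) (nat_lit 1462248049) (nat_lit 424) (nat_lit 5)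 (nat_lit 423) (nat_lit 5) (nat_lit 446) (nat_lit 5) (nat_lit 347) (nat_lit 345) (nat_lit 208)) (XT.nd (nat_lit 78) (nat_lit 0) (nat_lit 0) (XT.lf (nat_lit 76) (nat_lit 1005783998) (nat_lit 0) (nat_lit 14432365391) (nat_lit 1748) (nat_lit 851653538) (nat_lit 425) (nat_lit 5) (nat_lit 424) (nat_lit 5) (nat_lit 447) (nat_lit 5) (nat_lit 348) (nat_lit 345) (nat_lit 207)) (XT.lf (nat_lit 76) (nat_lit 12938649034) (nat_lit 0) (nat_lit 3487418234) (nat_lit 1748) (nat_lit 103825373) (nat_lit 425) (nat_lit 5) (nat_lit 424) (nat_lit 5) (nat_lit 447) (nat_lit 5) (nat_lit 349) (nat_lit 345) (nat_lit 206))))) (XT.nd (nat_lit 156) (nat_lit 0) (nat_lit 76) (XT.nd (nat_lit 78) (nat_lit 0) (nat_lit 76) (XT.lf (nat_lit 0) (nat_lit 749829381) (nat_lit 1748) (nat_lit 8275547125) (nat_lit 1824) (nat_lit 7749885481) (nat_lit 402) (nat_lit 5) (nat_lit 425) (nat_lit 5) (nat_lit 426) (nat_lit 5) (nat_lit 350) (nat_lit 345)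 (nat_lit 205)) (XT.lf (nat_lit 0) (nat_lit 1702450220) (nat_lit 1748) (nat_lit 13047112923) (nat_lit 1824) (nat_lit 2276926149) (nat_lit 403) (nat_lit 5) (nat_lit 426) (nat_lit 5) (nat_lit 427) (nat_lit 5) (nat_lit 351) (nat_lit 345) (nat_lit 204))) (XT.nd (nat_lit 78) (nat_lit 0) (nat_lit 76) (XT.lf (nat_lit 0) (nat_lit 2786865737) (nat_lit 1748) (nat_lit 638418717) (nat_lit 1824) (nat_lit 13857910414) (nat_lit 403) (nat_lit 5) (nat_lit 426) (nat_lit 5) (nat_lit 427) (nat_lit 5) (nat_lit 352) (nat_lit 345) (nat_lit 203)) (XT.nd (nat_lit 78) (nat_lit 0) (nat_lit 76) (XT.lf (nat_lit 0) (nat_lit 4024499024) (nat_lit 1748) (nat_lit 5305061350) (nat_lit 1824) (nat_lit 8215633133) (nat_lit 404) (nat_lit 5) (nat_lit 427) (nat_lit 5) (nat_lit 428) (nat_lit 5) (nat_lit 353) (nat_lit 345) (nat_lit 202)) (XT.lf (nat_lit 0) (nat_lit 5379744119) (nat_lit 1748) (nat_lit 10060285018) (nat_lit 1824) (nat_lit 2373418754)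 (nat_lit 405) (nat_lit 5) (nat_lit 428) (nat_lit 5) (nat_lit 429) (nat_lit 5) (nat_lit 354) (nat_lit 345) (nat_lit 201)))))) (XT.nd (nat_lit 390) (nat_lit 2508) (nat_lit 0) (XT.nd (nat_lit 156) (nat_lit 0) (nat_lit 152) (XT.nd (nat_lit 78) (nat_lit 0) (nat_lit 76) (XT.lf (nat_lit 76) (nat_lit 3156669168) (nat_lit 0) (nat_lit 3725559498) (nat_lit 1824) (nat_lit 11205394879) (nat_lit 406) (nat_lit 5) (nat_lit 405) (nat_lit 5) (nat_lit 429) (nat_lit 5) (nat_lit 355) (nat_lit 345) (nat_lit 200)) (XT.lf (nat_lit 0) (nat_lit 8540401318) (nat_lit 1748) (nat_lit 1524374782) (nat_lit 1824) (nat_lit 8303041227) (nat_lit 406) (nat_lit 5) (nat_lit 429) (nat_lit 5) (nat_lit 430) (nat_lit 5) (nat_lit 356) (nat_lit 345) (nat_lit 199))) (XT.nd (nat_lit 78) (nat_lit 0) (nat_lit 0) (XT.lf (nat_lit 0) (nat_lit 10355474626) (nat_lit 1748) (nat_lit 6254392774) (nat_lit 1824) (nat_lit 2044411391) (nat_lit 407) (nat_lit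 5) (nat_lit 430) (nat_lit 5) (nat_lit 431) (nat_lit 5) (nat_lit 357) (nat_lit 345) (nat_lit 198)) (XT.nd (nat_lit 78) (nat_lit 0) (nat_lit 76) (XT.lf (nat_lit 76) (nat_lit 7840260614) (nat_lit 0) (nat_lit 4501850596) (nat_lit 1824) (nat_lit 6604885502) (nat_lit 408) (nat_lit 5) (nat_lit 407) (nat_lit 5) (nat_lit 431) (nat_lit 5) (nat_lit 358) (nat_lit 345) (nat_lit 197)) (XT.lf (nat_lit 76) (nat_lit 3176446801) (nat_lit 0) (nat_lit 11315725323) (nat_lit 1824) (nat_lit 4754252234) (nat_lit 409) (nat_lit 5) (nat_lit 408) (nat_lit 5) (nat_lit 432) (nat_lit 5) (nat_lit 359) (nat_lit 345) (nat_lit 196))))) (XT.nd (nat_lit 156) (nat_lit 2812) (nat_lit 0) (XT.nd (nat_lit 78) (nat_lit 0) (nat_lit 0) (XT.lf (nat_lit 0) (nat_lit 16808762055) (nat_lit 1748) (nat_lit 1559856557) (nat_lit 1824) (nat_lit 1184180233) (nat_lit 409) (nat_lit 5) (nat_lit 432) (nat_lit 5) (nat_lit 433) (nat_lit 5) (nat_lit 360) (nat_lit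 345) (nat_lit 195)) (XT.lf (nat_lit 76) (nat_lit 13477923723) (nat_lit 0) (nat_lit 5869504990) (nat_lit 1824) (nat_lit 517888699) (nat_lit 410) (nat_lit 5) (nat_lit 409) (nat_lit 5) (nat_lit 433) (nat_lit 5) (nat_lit 361) (nat_lit 345) (nat_lit 194))) (XT.nd (nat_lit 78) (nat_lit 1064) (nat_lit 0) (XT.lf (nat_lit 0) (nat_lit 1855769733) (nat_lit 1824) (nat_lit 11334294594) (nat_lit 76) (nat_lit 6994840804) (nat_lit 386) (nat_lit 5) (nat_lit 410) (nat_lit 5) (nat_lit 387) (nat_lit 5) (nat_lit 362) (nat_lit 345) (nat_lit 193)) (XT.nd (nat_lit 78) (nat_lit 0) (nat_lit 0) (XT.lf (nat_lit 0) (nat_lit 4122219901) (nat_lit 1064) (nat_lit 270844189) (nat_lit 1140) (nat_lit 16118962772) (nat_lit 372) (nat_lit 5) (nat_lit 386) (nat_lit 5) (nat_lit 387) (nat_lit 5) (nat_lit 363) (nat_lit 345) (nat_lit 192)) (XT.lf (nat_lit 0) (nat_lit 7158512935) (nat_lit 1140) (nat_lit 743878490) (nat_lit 76) (nat_lit 12943534073)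 (nat_lit 372) (nat_lit 5) (nat_lit 387) (nat_lit 5) (nat_lit 373) (nat_lit 5) (nat_lit 364) (nat_lit 345) (nat_lit 191))))))) (XT.nd (nat_lit 780) (nat_lit 2812) (nat_lit 0) (XT.nd (nat_lit 390) (nat_lit 3040) (nat_lit 0) (XT.nd (nat_lit 156) (nat_lit 1748) (nat_lit 0) (XT.nd (nat_lit 78) (nat_lit 836) (nat_lit 0) (XT.lf (nat_lit 0) (nat_lit 10135650866) (nat_lit 988) (nat_lit 5658328575) (nat_lit 76) (nat_lit 5393290994) (nat_lit 360) (nat_lit 5) (nat_lit 373) (nat_lit 5) (nat_lit 361) (nat_lit 5) (nat_lit 365) (nat_lit 345) (nat_lit 190)) (XT.lf (nat_lit 0) (nat_lit 10842008682) (nat_lit 836) (nat_lit 2479013003) (nat_lit 912) (nat_lit 8215459402) (nat_lit 349) (nat_lit 5) (nat_lit 360) (nat_lit 5) (nat_lit 361) (nat_lit 5) (nat_lit 366) (nat_lit 345) (nat_lit 189))) (XT.nd (nat_lit 78) (nat_lit 912) (nat_lit 0) (XT.lf (nat_lit 0) (nat_lit 6016380474) (nat_lit 836) (nat_lit 10727006386) (nat_lit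 912) (nat_lit 5149956166) (nat_lit 338) (nat_lit 5) (nat_lit 349) (nat_lit 5) (nat_lit 350) (nat_lit 5) (nat_lit 367) (nat_lit 345) (nat_lit 188)) (XT.nd (nat_lit 78) (nat_lit 76) (nat_lit 0) (XT.lf (nat_lit 0) (nat_lit 1084988342) (nat_lit 836) (nat_lit 19289941027) (nat_lit 912) (nat_lit 1883854851) (nat_lit 327) (nat_lit 5) (nat_lit 338) (nat_lit 5) (nat_lit 339) (nat_lit 5) (nat_lit 368) (nat_lit 345) (nat_lit 187)) (XT.lf (nat_lit 0) (nat_lit 1632036143) (nat_lit 912) (nat_lit 3950724623) (nat_lit 76) (nat_lit 17048814627) (nat_lit 326) (nat_lit 5) (nat_lit 338) (nat_lit 5) (nat_lit 327) (nat_lit 5) (nat_lit 369) (nat_lit 345) (nat_lit 186))))) (XT.nd (nat_lit 156) (nat_lit 1444) (nat_lit 0) (XT.nd (nat_lit 78) (nat_lit 760) (nat_lit 0) (XT.lf (nat_lit 0) (nat_lit 5366077661) (nat_lit 912) (nat_lit 9118852138) (nat_lit 76) (nat_lit 8527609355) (nat_lit 315) (nat_lit 5) (nat_lit 327) (nat_lit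 5) (nat_lit 316) (nat_lit 5) (nat_lit 370) (nat_lit 345) (nat_lit 185)) (XT.lf (nat_lit 0) (nat_lit 8995042496) (nat_lit 760) (nat_lit 331418642) (nat_lit 836) (nat_lit 14076187439) (nat_lit 305) (nat_lit 5) (nat_lit 315) (nat_lit 5) (nat_lit 316) (nat_lit 5) (nat_lit 371) (nat_lit 345) (nat_lit 184))) (XT.nd (nat_lit 78) (nat_lit 684) (nat_lit 0) (XT.lf (nat_lit 0) (nat_lit 3923946921) (nat_lit 760) (nat_lit 9653710126) (nat_lit 836) (nat_lit 10223367290) (nat_lit 295) (nat_lit 5) (nat_lit 305) (nat_lit 5) (nat_lit 306) (nat_lit 5) (nat_lit 372) (nat_lit 345) (nat_lit 183)) (XT.nd (nat_lit 78) (nat_lit 684) (nat_lit 0) (XT.lf (nat_lit 0) (nat_lit 18080326404) (nat_lit 836) (nat_lit 1249619589) (nat_lit 76) (nat_lit 4878929606) (nat_lit 295) (nat_lit 5) (nat_lit 306) (nat_lit 5) (nat_lit 296) (nat_lit 5) (nat_lit 373) (nat_lit 345) (nat_lit 182)) (XT.lf (nat_lit 0) (nat_lit 18101175163) (nat_lit 684)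 (nat_lit 4791221371) (nat_lit 760) (nat_lit 1733082347) (nat_lit 286) (nat_lit 5) (nat_lit 295) (nat_lit 5) (nat_lit 296) (nat_lit 5) (nat_lit 374) (nat_lit 345) (nat_lit 181)))))) (XT.nd (nat_lit 44616) (nat_lit 0) (nat_lit 11552) (XT.nd (nat_lit 156) (nat_lit 1292) (nat_lit 0) (XT.nd (nat_lit 78) (nat_lit 684) (nat_lit 0) (XT.lf (nat_lit 0) (nat_lit 2910659249) (nat_lit 836) (nat_lit 11978313442) (nat_lit 76) (nat_lit 10162186328) (nat_lit 275) (nat_lit 5) (nat_lit 286) (nat_lit 5) (nat_lit 276) (nat_lit 5) (nat_lit 375) (nat_lit 345) (nat_lit 180)) (XT.lf (nat_lit 0) (nat_lit 7791499617) (nat_lit 760) (nat_lit 17577749911) (nat_lit 76) (nat_lit 117706948) (nat_lit 266) (nat_lit 5) (nat_lit 276) (nat_lit 5) (nat_lit 267) (nat_lit 5) (nat_lit 376) (nat_lit 345) (nat_lit 179))) (XT.nd (nat_lit 78) (nat_lit 608) (nat_lit 0) (XT.lf (nat_lit 0) (nat_lit 2548101830) (nat_lit 684) (nat_lit 10461164204)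 (nat_lit 760) (nat_lit 12922754405) (nat_lit 257) (nat_lit 5) (nat_lit 266) (nat_lit 5) (nat_lit 267) (nat_lit 5) (nat_lit 377) (nat_lit 345) (nat_lit 178)) (XT.nd (nat_lit 78) (nat_lit 608) (nat_lit 0) (XT.lf (nat_lit 0) (nat_lit 18528077515) (nat_lit 760) (nat_lit 2910606004) (nat_lit 76) (nat_lit 4948865081) (nat_lit 257) (nat_lit 5) (nat_lit 267) (nat_lit 5) (nat_lit 258) (nat_lit 5) (nat_lit 378) (nat_lit 345) (nat_lit 177)) (XT.lf (nat_lit 0) (nat_lit 18339391280) (nat_lit 608) (nat_lit 6055135398) (nat_lit 684) (nat_lit 2458576911) (nat_lit 249) (nat_lit 5) (nat_lit 257) (nat_lit 5) (nat_lit 258) (nat_lit 5) (nat_lit 379) (nat_lit 345) (nat_lit 176))))) (XT.nd (nat_lit 156) (nat_lit 1596) (nat_lit 0) (XT.nd (nat_lit 78) (nat_lit 0) (nat_lit 0) (XT.lf (nat_lit 0) (nat_lit 7180118880) (nat_lit 1748) (nat_lit 422928282) (nat_lit 1748) (nat_lit 422928282) (nat_lit 422) (nat_lit 3) (nat_lit 445)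 (nat_lit 3) (nat_lit 445) (nat_lit 5) (nat_lit 346) (nat_lit 346) (nat_lit 208)) (XT.lf (nat_lit 76) (nat_lit 10705510664) (nat_lit 0) (nat_lit 4314716135) (nat_lit 1748) (nat_lit 1263446807) (nat_lit 423) (nat_lit 5) (nat_lit 422) (nat_lit 3) (nat_lit 445) (nat_lit 5) (nat_lit 347) (nat_lit 346) (nat_lit 207))) (XT.nd (nat_lit 78) (nat_lit 1672) (nat_lit 0) (XT.lf (nat_lit 76) (nat_lit 6120258229) (nat_lit 0) (nat_lit 9655444115) (nat_lit 1748) (nat_lit 745138355) (nat_lit 424) (nat_lit 5) (nat_lit 423) (nat_lit 5) (nat_lit 446) (nat_lit 5) (nat_lit 348) (nat_lit 346) (nat_lit 206)) (XT.nd (nat_lit 78) (nat_lit 1748) (nat_lit 0) (XT.lf (nat_lit 76) (nat_lit 1453533996) (nat_lit 0) (nat_lit 15172351406) (nat_lit 1748) (nat_lit 137802785) (nat_lit 425) (nat_lit 5) (nat_lit 424) (nat_lit 5) (nat_lit 447) (nat_lit 5) (nat_lit 349) (nat_lit 346) (nat_lit 205)) (XT.lf (nat_lit 0) (nat_lit 602911909) (nat_lit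 1748) (nat_lit 3283155882) (nat_lit 1824) (nat_lit 13125264796) (nat_lit 401) (nat_lit 5) (nat_lit 424) (nat_lit 5) (nat_lit 425) (nat_lit 5) (nat_lit 350) (nat_lit 346) (nat_lit 204))))))))
noncomputable def xc118 : XT := (XT.nd (nat_lit 1560) (nat_lit 5244) (nat_lit 0) (XT.nd (nat_lit 780) (nat_lit 5776) (nat_lit 0) (XT.nd (nat_lit 390) (nat_lit 0) (nat_lit 228) (XT.nd (nat_lit 156) (nat_lit 0) (nat_lit 76) (XT.nd (nat_lit 78) (nat_lit 0) (nat_lit 76) (XT.lf (nat_lit 0) (nat_lit 1460959500) (nat_lit 1748) (nat_lit 8099484168) (nat_lit 1824) (nat_lit 7704010533) (nat_lit 402) (nat_lit 5) (nat_lit 425) (nat_lit 5) (nat_lit 426) (nat_lit 5) (nat_lit 351) (nat_lit 346) (nat_lit 203)) (XT.lf (nat_lit 0) (nat_lit 2423163840) (nat_lit 1748) (nat_lit 13005722888) (nat_lit 1824) (nat_lit 2094720031) (nat_lit 403) (nat_lit 5) (nat_lit 426) (nat_lit 5) (nat_lit 427) (nat_lit 5) (nat_lit 352) (nat_lit 346)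 (nat_lit 202))) (XT.nd (nat_lit 78) (nat_lit 0) (nat_lit 76) (XT.lf (nat_lit 0) (nat_lit 3520607741) (nat_lit 1748) (nat_lit 237373780) (nat_lit 1824) (nat_lit 14030430345) (nat_lit 403) (nat_lit 5) (nat_lit 426) (nat_lit 5) (nat_lit 427) (nat_lit 5) (nat_lit 353) (nat_lit 346) (nat_lit 201)) (XT.nd (nat_lit 78) (nat_lit 0) (nat_lit 76) (XT.lf (nat_lit 0) (nat_lit 4777686309) (nat_lit 1748) (nat_lit 5036455479) (nat_lit 1824) (nat_lit 8244490395) (nat_lit 404) (nat_lit 5) (nat_lit 427) (nat_lit 5) (nat_lit 428) (nat_lit 5) (nat_lit 354) (nat_lit 346) (nat_lit 200)) (XT.lf (nat_lit 0) (nat_lit 6156627834) (nat_lit 1748) (nat_lit 9927407961) (nat_lit 1824) (nat_lit 2251245429) (nat_lit 405) (nat_lit 5) (nat_lit 428) (nat_lit 5) (nat_lit 429) (nat_lit 5) (nat_lit 355) (nat_lit 346) (nat_lit 199))))) (XT.nd (nat_lit 156) (nat_lit 0) (nat_lit 152) (XT.nd (nat_lit 78) (nat_lit 0) (nat_lit 76) (XT.lf (nat_lit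 76) (nat_lit 3679002594) (nat_lit 0) (nat_lit 4010033870) (nat_lit 1824) (nat_lit 10928956275) (nat_lit 406) (nat_lit 5) (nat_lit 405) (nat_lit 5) (nat_lit 429) (nat_lit 5) (nat_lit 356) (nat_lit 346) (nat_lit 198)) (XT.lf (nat_lit 0) (nat_lit 9378379965) (nat_lit 1748) (nat_lit 1141936903) (nat_lit 1824) (nat_lit 8386654312) (nat_lit 406) (nat_lit 5) (nat_lit 429) (nat_lit 5) (nat_lit 430) (nat_lit 5) (nat_lit 357) (nat_lit 346) (nat_lit 197))) (XT.nd (nat_lit 78) (nat_lit 0) (nat_lit 0) (XT.lf (nat_lit 0) (nat_lit 11232745571) (nat_lit 1748) (nat_lit 6008262547) (nat_lit 1824) (nat_lit 1961328714) (nat_lit 407) (nat_lit 5) (nat_lit 430) (nat_lit 5) (nat_lit 431) (nat_lit 5) (nat_lit 358) (nat_lit 346) (nat_lit 196)) (XT.nd (nat_lit 78) (nat_lit 0) (nat_lit 76) (XT.lf (nat_lit 76) (nat_lit 8502193169) (nat_lit 0) (nat_lit 4763055555) (nat_lit 1824) (nat_lit 6238869154) (nat_lit 408) (nat_lit 5) (nat_lit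 407) (nat_lit 5) (nat_lit 431) (nat_lit 5) (nat_lit 359) (nat_lit 346) (nat_lit 195)) (XT.lf (nat_lit 76) (nat_lit 3703453186) (nat_lit 0) (nat_lit 11762262925) (nat_lit 1824) (nat_lit 4347100885) (nat_lit 409) (nat_lit 5) (nat_lit 408) (nat_lit 5) (nat_lit 432) (nat_lit 5) (nat_lit 360) (nat_lit 346) (nat_lit 194)))))) (XT.nd (nat_lit 390) (nat_lit 3496) (nat_lit 0) (XT.nd (nat_lit 156) (nat_lit 2812) (nat_lit 0) (XT.nd (nat_lit 78) (nat_lit 0) (nat_lit 0) (XT.lf (nat_lit 0) (nat_lit 17835436258) (nat_lit 1748) (nat_lit 1176158841) (nat_lit 1824) (nat_lit 1117121509) (nat_lit 409) (nat_lit 5) (nat_lit 432) (nat_lit 5) (nat_lit 433) (nat_lit 5) (nat_lit 361) (nat_lit 346) (nat_lit 193)) (XT.lf (nat_lit 76) (nat_lit 14305770604) (nat_lit 0) (nat_lit 6132026150) (nat_lit 1824) (nat_lit 13069649) (nat_lit 410) (nat_lit 5) (nat_lit 409) (nat_lit 5) (nat_lit 433) (nat_lit 5) (nat_lit 362) (nat_lit 346)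 (nat_lit 192))) (XT.nd (nat_lit 78) (nat_lit 1064) (nat_lit 0) (XT.lf (nat_lit 0) (nat_lit 2412261847) (nat_lit 1824) (nat_lit 11240034413) (nat_lit 76) (nat_lit 7127938211) (nat_lit 386) (nat_lit 5) (nat_lit 410) (nat_lit 5) (nat_lit 387) (nat_lit 5) (nat_lit 363) (nat_lit 346) (nat_lit 191)) (XT.nd (nat_lit 78) (nat_lit 0) (nat_lit 0) (XT.lf (nat_lit 0) (nat_lit 4673129694) (nat_lit 1064) (nat_lit 340732324) (nat_lit 1140) (nat_lit 16103549961) (nat_lit 372) (nat_lit 5) (nat_lit 386) (nat_lit 5) (nat_lit 387) (nat_lit 5) (nat_lit 364) (nat_lit 346) (nat_lit 190)) (XT.lf (nat_lit 0) (nat_lit 7847642110) (nat_lit 1140) (nat_lit 341321166) (nat_lit 76) (nat_lit 13272662640) (nat_lit 372) (nat_lit 5) (nat_lit 387) (nat_lit 5) (nat_lit 373) (nat_lit 5) (nat_lit 365) (nat_lit 346) (nat_lit 189))))) (XT.nd (nat_lit 156) (nat_lit 1748) (nat_lit 0) (XT.nd (nat_lit 78) (nat_lit 836) (nat_lit 0) (XT.lf (nat_lit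 0) (nat_lit 10902697220) (nat_lit 988) (nat_lit 5400354011) (nat_lit 76) (nat_lit 5510393440) (nat_lit 360) (nat_lit 5) (nat_lit 373) (nat_lit 5) (nat_lit 361) (nat_lit 5) (nat_lit 366) (nat_lit 346) (nat_lit 188)) (XT.lf (nat_lit 0) (nat_lit 11588054043) (nat_lit 836) (nat_lit 2584822374) (nat_lit 912) (nat_lit 8000475648) (nat_lit 349) (nat_lit 5) (nat_lit 360) (nat_lit 5) (nat_lit 361) (nat_lit 5) (nat_lit 367) (nat_lit 346) (nat_lit 187))) (XT.nd (nat_lit 78) (nat_lit 912) (nat_lit 0) (XT.lf (nat_lit 0) (nat_lit 6620104876) (nat_lit 836) (nat_lit 11067185828) (nat_lit 912) (nat_lit 4853846808) (nat_lit 338) (nat_lit 5) (nat_lit 349) (nat_lit 5) (nat_lit 350) (nat_lit 5) (nat_lit 368) (nat_lit 346) (nat_lit 186)) (XT.nd (nat_lit 78) (nat_lit 76) (nat_lit 0) (XT.lf (nat_lit 0) (nat_lit 1542881554) (nat_lit 836) (nat_lit 19874681554) (nat_lit 912) (nat_lit 1500188223) (nat_lit 327) (nat_lit 5) (nat_lit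 338) (nat_lit 5) (nat_lit 339) (nat_lit 5) (nat_lit 369) (nat_lit 346) (nat_lit 185)) (XT.lf (nat_lit 0) (nat_lit 2102753736) (nat_lit 912) (nat_lit 3650525952) (nat_lit 76) (nat_lit 17548647263) (nat_lit 326) (nat_lit 5) (nat_lit 338) (nat_lit 5) (nat_lit 327) (nat_lit 5) (nat_lit 370) (nat_lit 346) (nat_lit 184))))))) (XT.nd (nat_lit 45084) (nat_lit 0) (nat_lit 10944) (XT.nd (nat_lit 390) (nat_lit 2204) (nat_lit 0) (XT.nd (nat_lit 156) (nat_lit 1444) (nat_lit 0) (XT.nd (nat_lit 78) (nat_lit 760) (nat_lit 0) (XT.lf (nat_lit 0) (nat_lit 5939205408) (nat_lit 912) (nat_lit 8972090273) (nat_lit 76) (nat_lit 8783220843) (nat_lit 315) (nat_lit 5) (nat_lit 327) (nat_lit 5) (nat_lit 316) (nat_lit 5) (nat_lit 371) (nat_lit 346) (nat_lit 183)) (XT.lf (nat_lit 0) (nat_lit 9678401887) (nat_lit 760) (nat_lit 330679036) (nat_lit 836) (nat_lit 14087439237) (nat_lit 305) (nat_lit 5) (nat_lit 315) (nat_lit 5) (nat_lit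 316) (nat_lit 5) (nat_lit 372) (nat_lit 346) (nat_lit 182))) (XT.nd (nat_lit 78) (nat_lit 684) (nat_lit 0) (XT.lf (nat_lit 0) (nat_lit 4456471247) (nat_lit 760) (nat_lit 9922369198) (nat_lit 836) (nat_lit 10128190600) (nat_lit 295) (nat_lit 5) (nat_lit 305) (nat_lit 5) (nat_lit 306) (nat_lit 5) (nat_lit 373) (nat_lit 346) (nat_lit 181)) (XT.nd (nat_lit 78) (nat_lit 684) (nat_lit 0) (XT.lf (nat_lit 0) (nat_lit 19005250489) (nat_lit 836) (nat_lit 876725746) (nat_lit 76) (nat_lit 5045372679) (nat_lit 295) (nat_lit 5) (nat_lit 306) (nat_lit 5) (nat_lit 296) (nat_lit 5) (nat_lit 374) (nat_lit 346) (nat_lit 180)) (XT.lf (nat_lit 0) (nat_lit 19047934882) (nat_lit 684) (nat_lit 4905227896) (nat_lit 760) (nat_lit 1403462071) (nat_lit 286) (nat_lit 5) (nat_lit 295) (nat_lit 5) (nat_lit 296) (nat_lit 5) (nat_lit 375) (nat_lit 346) (nat_lit 179))))) (XT.nd (nat_lit 156) (nat_lit 684) (nat_lit 0) (XT.nd (nat_lit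 78) (nat_lit 684) (nat_lit 0) (XT.lf (nat_lit 0) (nat_lit 3366449880) (nat_lit 836) (nat_lit 11928154803) (nat_lit 76) (nat_lit 10500587848) (nat_lit 275) (nat_lit 5) (nat_lit 286) (nat_lit 5) (nat_lit 276) (nat_lit 5) (nat_lit 376) (nat_lit 346) (nat_lit 178)) (XT.lf (nat_lit 0) (nat_lit 8385874963) (nat_lit 760) (nat_lit 17695159062) (nat_lit 76) (nat_lit 163190538) (nat_lit 266) (nat_lit 5) (nat_lit 276) (nat_lit 5) (nat_lit 267) (nat_lit 5) (nat_lit 377) (nat_lit 346) (nat_lit 177))) (XT.nd (nat_lit 78) (nat_lit 0) (nat_lit 0) (XT.lf (nat_lit 0) (nat_lit 3027817712) (nat_lit 684) (nat_lit 10724471178) (nat_lit 760) (nat_lit 12950512992) (nat_lit 257) (nat_lit 5) (nat_lit 266) (nat_lit 5) (nat_lit 267) (nat_lit 5) (nat_lit 378) (nat_lit 346) (nat_lit 176)) (XT.nd (nat_lit 44382) (nat_lit 0) (nat_lit 12540) (XT.lf (nat_lit 0) (nat_lit 19426709099) (nat_lit 760) (nat_lit 2599745606) (nat_lit 76)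 (nat_lit 5145743916) (nat_lit 257) (nat_lit 5) (nat_lit 267) (nat_lit 5) (nat_lit 258) (nat_lit 5) (nat_lit 379) (nat_lit 346) (nat_lit 175)) (XT.lf (nat_lit 0) (nat_lit 7766995162) (nat_lit 1748) (nat_lit 246083419) (nat_lit 1748) (nat_lit 246083419) (nat_lit 422) (nat_lit 3) (nat_lit 445) (nat_lit 3) (nat_lit 445) (nat_lit 5) (nat_lit 347) (nat_lit 347) (nat_lit 206)))))) (XT.nd (nat_lit 390) (nat_lit 0) (nat_lit 152) (XT.nd (nat_lit 156) (nat_lit 1596) (nat_lit 0) (XT.nd (nat_lit 78) (nat_lit 0) (nat_lit 76) (XT.lf (nat_lit 76) (nat_lit 11399591522) (nat_lit 0) (nat_lit 4794969541) (nat_lit 1748) (nat_lit 562831204) (nat_lit 423) (nat_lit 5) (nat_lit 422) (nat_lit 3) (nat_lit 445) (nat_lit 5) (nat_lit 348) (nat_lit 347) (nat_lit 205)) (XT.lf (nat_lit 76) (nat_lit 6687523725) (nat_lit 0) (nat_lit 10264377307) (nat_lit 1748) (nat_lit 50198571) (nat_lit 424) (nat_lit 5) (nat_lit 423) (nat_lit 5) (nat_lit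 446) (nat_lit 5) (nat_lit 349) (nat_lit 347) (nat_lit 204))) (XT.nd (nat_lit 78) (nat_lit 0) (nat_lit 0) (XT.lf (nat_lit 0) (nat_lit 547739711) (nat_lit 1748) (nat_lit 15365497747) (nat_lit 1824) (nat_lit 1339330562) (nat_lit 401) (nat_lit 5) (nat_lit 424) (nat_lit 5) (nat_lit 425) (nat_lit 5) (nat_lit 350) (nat_lit 347) (nat_lit 203)) (XT.nd (nat_lit 78) (nat_lit 0) (nat_lit 76) (XT.lf (nat_lit 0) (nat_lit 1288780871) (nat_lit 1748) (nat_lit 2990350052) (nat_lit 1824) (nat_lit 13228901599) (nat_lit 401) (nat_lit 5) (nat_lit 424) (nat_lit 5) (nat_lit 425) (nat_lit 5) (nat_lit 351) (nat_lit 347) (nat_lit 202)) (XT.lf (nat_lit 0) (nat_lit 2153893042) (nat_lit 1748) (nat_lit 7942497564) (nat_lit 1824) (nat_lit 7672738999) (nat_lit 402) (nat_lit 5) (nat_lit 425) (nat_lit 5) (nat_lit 426) (nat_lit 5) (nat_lit 352) (nat_lit 347) (nat_lit 201))))) (XT.nd (nat_lit 156) (nat_lit 0) (nat_lit 76) (XT.nd (nat_lit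 78) (nat_lit 0) (nat_lit 0) (XT.lf (nat_lit 0) (nat_lit 3127058786) (nat_lit 1748) (nat_lit 12987935839) (nat_lit 1824) (nat_lit 1921428253) (nat_lit 403) (nat_lit 5) (nat_lit 426) (nat_lit 5) (nat_lit 427) (nat_lit 5) (nat_lit 353) (nat_lit 347) (nat_lit 200)) (XT.lf (nat_lit 76) (nat_lit 153595885) (nat_lit 0) (nat_lit 4086442898) (nat_lit 1824) (nat_lit 14069488908) (nat_lit 404) (nat_lit 5) (nat_lit 403) (nat_lit 5) (nat_lit 427) (nat_lit 5) (nat_lit 354) (nat_lit 347) (nat_lit 199))) (XT.nd (nat_lit 78) (nat_lit 0) (nat_lit 76) (XT.lf (nat_lit 0) (nat_lit 5517163862) (nat_lit 1748) (nat_lit 4784346474) (nat_lit 1824) (nat_lit 8286705178) (nat_lit 404) (nat_lit 5) (nat_lit 427) (nat_lit 5) (nat_lit 428) (nat_lit 5) (nat_lit 355) (nat_lit 347) (nat_lit 198)) (XT.nd (nat_lit 78) (nat_lit 0) (nat_lit 0) (XT.lf (nat_lit 0) (nat_lit 6921486337) (nat_lit 1748) (nat_lit 9815497324) (nat_lit 1824) (nat_lit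 2136507472) (nat_lit 405) (nat_lit 5) (nat_lit 428) (nat_lit 5) (nat_lit 429) (nat_lit 5) (nat_lit 356) (nat_lit 347) (nat_lit 197)) (XT.lf (nat_lit 76) (nat_lit 4192458118) (nat_lit 0) (nat_lit 4293128351) (nat_lit 1824) (nat_lit 10679390285) (nat_lit 406) (nat_lit 5) (nat_lit 405) (nat_lit 5) (nat_lit 429) (nat_lit 5) (nat_lit 357) (nat_lit 347) (nat_lit 196))))))))
noncomputable def xc119 : XT := (XT.nd (nat_lit 1560) (nat_lit 684) (nat_lit 0) (XT.nd (nat_lit 780) (nat_lit 6460) (nat_lit 0) (XT.nd (nat_lit 390) (nat_lit 3496) (nat_lit 0) (XT.nd (nat_lit 156) (nat_lit 0) (nat_lit 76) (XT.nd (nat_lit 78) (nat_lit 0) (nat_lit 76) (XT.lf (nat_lit 0) (nat_lit 10208102187) (nat_lit 1748) (nat_lit 772604548) (nat_lit 1824) (nat_lit 8482274913) (nat_lit 406) (nat_lit 5) (nat_lit 429) (nat_lit 5) (nat_lit 430) (nat_lit 5) (nat_lit 358) (nat_lit 347) (nat_lit 195)) (XT.lf (nat_lit 0) (nat_lit 12103809102)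 (nat_lit 1748) (nat_lit 5779648127) (nat_lit 1824) (nat_lit 1884043569) (nat_lit 407) (nat_lit 5) (nat_lit 430) (nat_lit 5) (nat_lit 431) (nat_lit 5) (nat_lit 359) (nat_lit 347) (nat_lit 194))) (XT.nd (nat_lit 78) (nat_lit 0) (nat_lit 76) (XT.lf (nat_lit 76) (nat_lit 9159487955) (nat_lit 0) (nat_lit 5024855170) (nat_lit 1824) (nat_lit 5894257574) (nat_lit 408) (nat_lit 5) (nat_lit 407) (nat_lit 5) (nat_lit 431) (nat_lit 5) (nat_lit 360) (nat_lit 347) (nat_lit 193)) (XT.nd (nat_lit 78) (nat_lit 0) (nat_lit 76) (XT.lf (nat_lit 76) (nat_lit 4221487671) (nat_lit 0) (nat_lit 12216050639) (nat_lit 1824) (nat_lit 3959294555) (nat_lit 409) (nat_lit 5) (nat_lit 408) (nat_lit 5) (nat_lit 432) (nat_lit 5) (nat_lit 361) (nat_lit 347) (nat_lit 192)) (XT.lf (nat_lit 0) (nat_lit 18862922139) (nat_lit 1748) (nat_lit 805662276) (nat_lit 1824) (nat_lit 1053939772) (nat_lit 409) (nat_lit 5) (nat_lit 432) (nat_lit 5)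 (nat_lit 433) (nat_lit 5) (nat_lit 362) (nat_lit 347) (nat_lit 191))))) (XT.nd (nat_lit 156) (nat_lit 1900) (nat_lit 0) (XT.nd (nat_lit 78) (nat_lit 0) (nat_lit 76) (XT.lf (nat_lit 0) (nat_lit 470767176) (nat_lit 1824) (nat_lit 5923534892) (nat_lit 1900) (nat_lit 14660215460) (nat_lit 385) (nat_lit 5) (nat_lit 409) (nat_lit 5) (nat_lit 410) (nat_lit 5) (nat_lit 363) (nat_lit 347) (nat_lit 190)) (XT.lf (nat_lit 0) (nat_lit 2956699663) (nat_lit 1824) (nat_lit 11167876392) (nat_lit 76) (nat_lit 7269434178) (nat_lit 386) (nat_lit 5) (nat_lit 410) (nat_lit 5) (nat_lit 387) (nat_lit 5) (nat_lit 364) (nat_lit 347) (nat_lit 189))) (XT.nd (nat_lit 78) (nat_lit 912) (nat_lit 0) (XT.lf (nat_lit 0) (nat_lit 5216041274) (nat_lit 1064) (nat_lit 409171666) (nat_lit 1140) (nat_lit 16116318356) (nat_lit 372) (nat_lit 5) (nat_lit 386) (nat_lit 5) (nat_lit 387) (nat_lit 5) (nat_lit 365) (nat_lit 347) (nat_lit 188))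 (XT.nd (nat_lit 78) (nat_lit 0) (nat_lit 0) (XT.lf (nat_lit 0) (nat_lit 49573556) (nat_lit 912) (nat_lit 8480962473) (nat_lit 988) (nat_lit 13565810400) (nat_lit 360) (nat_lit 5) (nat_lit 372) (nat_lit 5) (nat_lit 373) (nat_lit 5) (nat_lit 366) (nat_lit 347) (nat_lit 187)) (XT.lf (nat_lit 0) (nat_lit 11666178200) (nat_lit 988) (nat_lit 5159193341) (nat_lit 76) (nat_lit 5633574709) (nat_lit 360) (nat_lit 5) (nat_lit 373) (nat_lit 5) (nat_lit 361) (nat_lit 5) (nat_lit 367) (nat_lit 347) (nat_lit 186)))))) (XT.nd (nat_lit 390) (nat_lit 3040) (nat_lit 0) (XT.nd (nat_lit 156) (nat_lit 1748) (nat_lit 0) (XT.nd (nat_lit 78) (nat_lit 836) (nat_lit 0) (XT.lf (nat_lit 0) (nat_lit 12332325980) (nat_lit 836) (nat_lit 2692001300) (nat_lit 912) (nat_lit 7805531358) (nat_lit 349) (nat_lit 5) (nat_lit 360) (nat_lit 5) (nat_lit 361) (nat_lit 5) (nat_lit 368) (nat_lit 347) (nat_lit 185)) (XT.lf (nat_lit 0) (nat_lit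 7217645706) (nat_lit 836) (nat_lit 11416516183) (nat_lit 912) (nat_lit 4574720915) (nat_lit 338) (nat_lit 5) (nat_lit 349) (nat_lit 5) (nat_lit 350) (nat_lit 5) (nat_lit 369) (nat_lit 347) (nat_lit 184))) (XT.nd (nat_lit 78) (nat_lit 912) (nat_lit 0) (XT.lf (nat_lit 0) (nat_lit 1990095103) (nat_lit 836) (nat_lit 20476617445) (nat_lit 912) (nat_lit 1130279859) (nat_lit 327) (nat_lit 5) (nat_lit 338) (nat_lit 5) (nat_lit 339) (nat_lit 5) (nat_lit 370) (nat_lit 347) (nat_lit 183)) (XT.nd (nat_lit 78) (nat_lit 836) (nat_lit 0) (XT.lf (nat_lit 0) (nat_lit 2563382308) (nat_lit 912) (nat_lit 3365357585) (nat_lit 76) (nat_lit 18064142592) (nat_lit 326) (nat_lit 5) (nat_lit 338) (nat_lit 5) (nat_lit 327) (nat_lit 5) (nat_lit 371) (nat_lit 347) (nat_lit 182)) (XT.lf (nat_lit 0) (nat_lit 6505868154) (nat_lit 912) (nat_lit 8845054067) (nat_lit 76) (nat_lit 9046513119) (nat_lit 315) (nat_lit 5) (nat_lit 327) (nat_lit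 5) (nat_lit 316) (nat_lit 5) (nat_lit 372) (nat_lit 347) (nat_lit 181))))) (XT.nd (nat_lit 156) (nat_lit 1520) (nat_lit 0) (XT.nd (nat_lit 78) (nat_lit 760) (nat_lit 0) (XT.lf (nat_lit 0) (nat_lit 10358525001) (nat_lit 760) (nat_lit 330530443) (nat_lit 836) (nat_lit 14122623612) (nat_lit 305) (nat_lit 5) (nat_lit 315) (nat_lit 5) (nat_lit 316) (nat_lit 5) (nat_lit 373) (nat_lit 347) (nat_lit 180)) (XT.lf (nat_lit 0) (nat_lit 4981159747) (nat_lit 760) (nat_lit 10200290785) (nat_lit 836) (nat_lit 10053228035) (nat_lit 295) (nat_lit 5) (nat_lit 305) (nat_lit 5) (nat_lit 306) (nat_lit 5) (nat_lit 374) (nat_lit 347) (nat_lit 179))) (XT.nd (nat_lit 78) (nat_lit 1520) (nat_lit 0) (XT.lf (nat_lit 0) (nat_lit 19935964412) (nat_lit 836) (nat_lit 516202717) (nat_lit 76) (nat_lit 5215656646) (nat_lit 295) (nat_lit 5) (nat_lit 306) (nat_lit 5) (nat_lit 296) (nat_lit 5) (nat_lit 375) (nat_lit 347) (nat_lit 178))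 (XT.nd (nat_lit 78) (nat_lit 836) (nat_lit 0) (XT.lf (nat_lit 0) (nat_lit 19999921957) (nat_lit 684) (nat_lit 5024361246) (nat_lit 760) (nat_lit 1085859319) (nat_lit 286) (nat_lit 5) (nat_lit 295) (nat_lit 5) (nat_lit 296) (nat_lit 5) (nat_lit 376) (nat_lit 347) (nat_lit 177)) (XT.lf (nat_lit 0) (nat_lit 3814762496) (nat_lit 836) (nat_lit 11899998842) (nat_lit 76) (nat_lit 10847216315) (nat_lit 275) (nat_lit 5) (nat_lit 286) (nat_lit 5) (nat_lit 276) (nat_lit 5) (nat_lit 377) (nat_lit 347) (nat_lit 176))))))) (XT.nd (nat_lit 45240) (nat_lit 0) (nat_lit 8056) (XT.nd (nat_lit 44850) (nat_lit 0) (nat_lit 10260) (XT.nd (nat_lit 44616) (nat_lit 0) (nat_lit 10108) (XT.nd (nat_lit 44538) (nat_lit 0) (nat_lit 11856) (XT.lf (nat_lit 0) (nat_lit 8977379911) (nat_lit 760) (nat_lit 17839621765) (nat_lit 76) (nat_lit 207630397) (nat_lit 266) (nat_lit 5) (nat_lit 276) (nat_lit 5) (nat_lit 267) (nat_lit 5) (nat_lit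 378) (nat_lit 347) (nat_lit 175)) (XT.lf (nat_lit 0) (nat_lit 8350153680) (nat_lit 1748) (nat_lit 74813162) (nat_lit 1748) (nat_lit 74813162) (nat_lit 422) (nat_lit 3) (nat_lit 445) (nat_lit 3) (nat_lit 445) (nat_lit 5) (nat_lit 348) (nat_lit 348) (nat_lit 204))) (XT.nd (nat_lit 78) (nat_lit 0) (nat_lit 76) (XT.lf (nat_lit 0) (nat_lit 114882131) (nat_lit 1748) (nat_lit 5153839459) (nat_lit 1824) (nat_lit 11977434878) (nat_lit 399) (nat_lit 5) (nat_lit 422) (nat_lit 3) (nat_lit 423) (nat_lit 5) (nat_lit 349) (nat_lit 348) (nat_lit 203)) (XT.nd (nat_lit 78) (nat_lit 0) (nat_lit 76) (XT.lf (nat_lit 0) (nat_lit 616224500) (nat_lit 1748) (nat_lit 10252891408) (nat_lit 1824) (nat_lit 6629423970) (nat_lit 400) (nat_lit 5) (nat_lit 423) (nat_lit 5) (nat_lit 424) (nat_lit 5) (nat_lit 350) (nat_lit 348) (nat_lit 202)) (XT.lf (nat_lit 0) (nat_lit 1212503558) (nat_lit 1748) (nat_lit 15446559275) (nat_lit 1824)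 (nat_lit 1097839469) (nat_lit 401) (nat_lit 5) (nat_lit 424) (nat_lit 5) (nat_lit 425) (nat_lit 5) (nat_lit 351) (nat_lit 348) (nat_lit 201))))) (XT.nd (nat_lit 156) (nat_lit 0) (nat_lit 152) (XT.nd (nat_lit 78) (nat_lit 0) (nat_lit 76) (XT.lf (nat_lit 0) (nat_lit 1956892506) (nat_lit 1748) (nat_lit 2711222297) (nat_lit 1824) (nat_lit 13352301647) (nat_lit 401) (nat_lit 5) (nat_lit 424) (nat_lit 5) (nat_lit 425) (nat_lit 5) (nat_lit 352) (nat_lit 348) (nat_lit 200)) (XT.lf (nat_lit 0) (nat_lit 2830353323) (nat_lit 1748) (nat_lit 7803761341) (nat_lit 1824) (nat_lit 7655591685) (nat_lit 402) (nat_lit 5) (nat_lit 425) (nat_lit 5) (nat_lit 426) (nat_lit 5) (nat_lit 353) (nat_lit 348) (nat_lit 199))) (XT.nd (nat_lit 78) (nat_lit 0) (nat_lit 0) (XT.lf (nat_lit 0) (nat_lit 3815837117) (nat_lit 1748) (nat_lit 12993033678) (nat_lit 1824) (nat_lit 1756492743) (nat_lit 403) (nat_lit 5) (nat_lit 426) (nat_lit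 5) (nat_lit 427) (nat_lit 5) (nat_lit 354) (nat_lit 348) (nat_lit 198)) (XT.nd (nat_lit 78) (nat_lit 0) (nat_lit 76) (XT.lf (nat_lit 76) (nat_lit 536505289) (nat_lit 0) (nat_lit 4410828287) (nat_lit 1824) (nat_lit 13899632740) (nat_lit 404) (nat_lit 5) (nat_lit 403) (nat_lit 5) (nat_lit 427) (nat_lit 5) (nat_lit 355) (nat_lit 348) (nat_lit 197)) (XT.lf (nat_lit 0) (nat_lit 6244604468) (nat_lit 1748) (nat_lit 4547819682) (nat_lit 1824) (nat_lit 8341961128) (nat_lit 404) (nat_lit 5) (nat_lit 427) (nat_lit 5) (nat_lit 428) (nat_lit 5) (nat_lit 356) (nat_lit 348) (nat_lit 196)))))) (XT.nd (nat_lit 390) (nat_lit 2508) (nat_lit 0) (XT.nd (nat_lit 156) (nat_lit 0) (nat_lit 76) (XT.nd (nat_lit 78) (nat_lit 0) (nat_lit 0) (XT.lf (nat_lit 0) (nat_lit 7675987057) (nat_lit 1748) (nat_lit 9723749711) (nat_lit 1824) (nat_lit 2028790725) (nat_lit 405) (nat_lit 5) (nat_lit 428) (nat_lit 5) (nat_lit 429) (nat_lit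 5) (nat_lit 357) (nat_lit 348) (nat_lit 195)) (XT.lf (nat_lit 76) (nat_lit 4698178555) (nat_lit 0) (nat_lit 4575370656) (nat_lit 1824) (nat_lit 10455484427) (nat_lit 406) (nat_lit 5) (nat_lit 405) (nat_lit 5) (nat_lit 429) (nat_lit 5) (nat_lit 358) (nat_lit 348) (nat_lit 194))) (XT.nd (nat_lit 78) (nat_lit 0) (nat_lit 76) (XT.lf (nat_lit 0) (nat_lit 11031237348) (nat_lit 1748) (nat_lit 415359965) (nat_lit 1824) (nat_lit 8589717965) (nat_lit 406) (nat_lit 5) (nat_lit 429) (nat_lit 5) (nat_lit 430) (nat_lit 5) (nat_lit 359) (nat_lit 348) (nat_lit 193)) (XT.nd (nat_lit 78) (nat_lit 0) (nat_lit 0) (XT.lf (nat_lit 0) (nat_lit 12970346094) (nat_lit 1748) (nat_lit 5567645643) (nat_lit 1824) (nat_lit 1812254002) (nat_lit 407) (nat_lit 5) (nat_lit 430) (nat_lit 5) (nat_lit 431) (nat_lit 5) (nat_lit 360) (nat_lit 348) (nat_lit 192)) (XT.lf (nat_lit 76) (nat_lit 9813411995) (nat_lit 0) (nat_lit 5287682970) (nat_lit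 1824) (nat_lit 5569833861) (nat_lit 408) (nat_lit 5) (nat_lit 407) (nat_lit 5) (nat_lit 431) (nat_lit 5) (nat_lit 361) (nat_lit 348) (nat_lit 191))))) (XT.nd (nat_lit 156) (nat_lit 2736) (nat_lit 0) (XT.nd (nat_lit 78) (nat_lit 0) (nat_lit 76) (XT.lf (nat_lit 76) (nat_lit 4731703693) (nat_lit 0) (nat_lit 12677658772) (nat_lit 1824) (nat_lit 3589601945) (nat_lit 409) (nat_lit 5) (nat_lit 408) (nat_lit 5) (nat_lit 432) (nat_lit 5) (nat_lit 362) (nat_lit 348) (nat_lit 190)) (XT.lf (nat_lit 0) (nat_lit 19892965513) (nat_lit 1748) (nat_lit 447344323) (nat_lit 1824) (nat_lit 994413293) (nat_lit 409) (nat_lit 5) (nat_lit 432) (nat_lit 5) (nat_lit 433) (nat_lit 5) (nat_lit 363) (nat_lit 348) (nat_lit 189))) (XT.nd (nat_lit 78) (nat_lit 988) (nat_lit 0) (XT.lf (nat_lit 0) (nat_lit 941155968) (nat_lit 1824) (nat_lit 5718710654) (nat_lit 1900) (nat_lit 15016976775) (nat_lit 385) (nat_lit 5) (nat_lit 409) (nat_lit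 5) (nat_lit 410) (nat_lit 5) (nat_lit 364) (nat_lit 348) (nat_lit 188)) (XT.nd (nat_lit 78) (nat_lit 1064) (nat_lit 0) (XT.lf (nat_lit 0) (nat_lit 3490371867) (nat_lit 1824) (nat_lit 11117052515) (nat_lit 76) (nat_lit 7419327762) (nat_lit 386) (nat_lit 5) (nat_lit 410) (nat_lit 5) (nat_lit 387) (nat_lit 5) (nat_lit 365) (nat_lit 348) (nat_lit 187)) (XT.lf (nat_lit 0) (nat_lit 5752122558) (nat_lit 1064) (nat_lit 476322272) (nat_lit 1140) (nat_lit 16156469135) (nat_lit 372) (nat_lit 5) (nat_lit 386) (nat_lit 5) (nat_lit 387) (nat_lit 5) (nat_lit 366) (nat_lit 348) (nat_lit 186))))))))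
noncomputable def xc120 : XT := (XT.nd (nat_lit 46098) (nat_lit 0) (nat_lit 1520) (XT.nd (nat_lit 780) (nat_lit 1520) (nat_lit 0) (XT.nd (nat_lit 390) (nat_lit 2432) (nat_lit 0) (XT.nd (nat_lit 156) (nat_lit 2508) (nat_lit 0) (XT.nd (nat_lit 78) (nat_lit 0) (nat_lit 0) (XT.lf (nat_lit 0) (nat_lit 433572230) (nat_lit 912) (nat_lit 8776838364) (nat_lit 988) (nat_lit 13540178360) (nat_lit 360) (nat_lit 5) (nat_lit 372) (nat_lit 5) (nat_lit 373) (nat_lit 5) (nat_lit 367) (nat_lit 348) (nat_lit 185)) (XT.lf (nat_lit 0) (nat_lit 12427512461) (nat_lit 988) (nat_lit 4933941533) (nat_lit 76) (nat_lit 5762869881) (nat_lit 360) (nat_lit 5) (nat_lit 373) (nat_lit 5) (nat_lit 361) (nat_lit 5) (nat_lit 368) (nat_lit 348) (nat_lit 184))) (XT.nd (nat_lit 78) (nat_lit 1672) (nat_lit 0) (XT.lf (nat_lit 0) (nat_lit 13076157871) (nat_lit 836) (nat_lit 2800694466) (nat_lit 912) (nat_lit 7629707141) (nat_lit 349) (nat_lit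 5) (nat_lit 360) (nat_lit 5) (nat_lit 361) (nat_lit 5) (nat_lit 369) (nat_lit 348) (nat_lit 183)) (XT.nd (nat_lit 78) (nat_lit 836) (nat_lit 0) (XT.lf (nat_lit 0) (nat_lit 7810212105) (nat_lit 836) (nat_lit 11775332509) (nat_lit 912) (nat_lit 4311603133) (nat_lit 338) (nat_lit 5) (nat_lit 349) (nat_lit 5) (nat_lit 350) (nat_lit 5) (nat_lit 370) (nat_lit 348) (nat_lit 182)) (XT.lf (nat_lit 0) (nat_lit 2427710201) (nat_lit 836) (nat_lit 21096284470) (nat_lit 912) (nat_lit 773092006) (nat_lit 327) (nat_lit 5) (nat_lit 338) (nat_lit 5) (nat_lit 339) (nat_lit 5) (nat_lit 371) (nat_lit 348) (nat_lit 181))))) (XT.nd (nat_lit 156) (nat_lit 1520) (nat_lit 0) (XT.nd (nat_lit 78) (nat_lit 836) (nat_lit 0) (XT.lf (nat_lit 0) (nat_lit 3015008973) (nat_lit 912) (nat_lit 3094290652) (nat_lit 76) (nat_lit 18595732164) (nat_lit 326) (nat_lit 5) (nat_lit 338) (nat_lit 5) (nat_lit 327) (nat_lit 5) (nat_lit 372) (nat_lit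 348) (nat_lit 180)) (XT.lf (nat_lit 0) (nat_lit 7067230064) (nat_lit 912) (nat_lit 8736950213) (nat_lit 76) (nat_lit 9317715895) (nat_lit 315) (nat_lit 5) (nat_lit 327) (nat_lit 5) (nat_lit 316) (nat_lit 5) (nat_lit 373) (nat_lit 348) (nat_lit 179))) (XT.nd (nat_lit 78) (nat_lit 760) (nat_lit 0) (XT.lf (nat_lit 0) (nat_lit 11036677356) (nat_lit 760) (nat_lit 330955391) (nat_lit 836) (nat_lit 14181104090) (nat_lit 305) (nat_lit 5) (nat_lit 315) (nat_lit 5) (nat_lit 316) (nat_lit 5) (nat_lit 374) (nat_lit 348) (nat_lit 178)) (XT.nd (nat_lit 78) (nat_lit 0) (nat_lit 0) (XT.lf (nat_lit 0) (nat_lit 5499144226) (nat_lit 760) (nat_lit 10487683722) (nat_lit 836) (nat_lit 9997761738) (nat_lit 295) (nat_lit 5) (nat_lit 305) (nat_lit 5) (nat_lit 306) (nat_lit 5) (nat_lit 375) (nat_lit 348) (nat_lit 177)) (XT.lf (nat_lit 0) (nat_lit 20873902340) (nat_lit 836) (nat_lit 167069324) (nat_lit 76) (nat_lit 5389962887)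 (nat_lit 295) (nat_lit 5) (nat_lit 306) (nat_lit 5) (nat_lit 296) (nat_lit 5) (nat_lit 376) (nat_lit 348) (nat_lit 176)))))) (XT.nd (nat_lit 44928) (nat_lit 0) (nat_lit 9576) (XT.nd (nat_lit 44694) (nat_lit 0) (nat_lit 9424) (XT.nd (nat_lit 78) (nat_lit 836) (nat_lit 0) (XT.lf (nat_lit 0) (nat_lit 20958623573) (nat_lit 684) (nat_lit 5148677260) (nat_lit 760) (nat_lit 779377116) (nat_lit 286) (nat_lit 5) (nat_lit 295) (nat_lit 5) (nat_lit 296) (nat_lit 5) (nat_lit 377) (nat_lit 348) (nat_lit 175)) (XT.lf (nat_lit 0) (nat_lit 4256586952) (nat_lit 836) (nat_lit 11893156215) (nat_lit 76) (nat_lit 11202429045) (nat_lit 275) (nat_lit 5) (nat_lit 286) (nat_lit 5) (nat_lit 276) (nat_lit 5) (nat_lit 378) (nat_lit 348) (nat_lit 174))) (XT.nd (nat_lit 78) (nat_lit 0) (nat_lit 0) (XT.lf (nat_lit 0) (nat_lit 90738882) (nat_lit 0) (nat_lit 90738882) (nat_lit 1748) (nat_lit 8566502015) (nat_lit 399) (nat_lit 5)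 (nat_lit 399) (nat_lit 3) (nat_lit 422) (nat_lit 3) (nat_lit 349) (nat_lit 349) (nat_lit 202)) (XT.nd (nat_lit 78) (nat_lit 0) (nat_lit 76) (XT.lf (nat_lit 0) (nat_lit 765887451) (nat_lit 1748) (nat_lit 4968242175) (nat_lit 1824) (nat_lit 12016184233) (nat_lit 399) (nat_lit 5) (nat_lit 422) (nat_lit 3) (nat_lit 423) (nat_lit 5) (nat_lit 350) (nat_lit 349) (nat_lit 201)) (XT.lf (nat_lit 0) (nat_lit 1263659217) (nat_lit 1748) (nat_lit 10210976738) (nat_lit 1824) (nat_lit 6536013076) (nat_lit 400) (nat_lit 5) (nat_lit 423) (nat_lit 5) (nat_lit 424) (nat_lit 5) (nat_lit 351) (nat_lit 349) (nat_lit 200))))) (XT.nd (nat_lit 156) (nat_lit 0) (nat_lit 76) (XT.nd (nat_lit 78) (nat_lit 0) (nat_lit 0) (XT.lf (nat_lit 0) (nat_lit 1859993430) (nat_lit 1748) (nat_lit 15551860659) (nat_lit 1824) (nat_lit 865272711) (nat_lit 401) (nat_lit 5) (nat_lit 424) (nat_lit 5) (nat_lit 425) (nat_lit 5) (nat_lit 352) (nat_lit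 349) (nat_lit 199)) (XT.lf (nat_lit 0) (nat_lit 2608914588) (nat_lit 1748) (nat_lit 2444893534) (nat_lit 1824) (nat_lit 13495101821) (nat_lit 401) (nat_lit 5) (nat_lit 424) (nat_lit 5) (nat_lit 425) (nat_lit 5) (nat_lit 353) (nat_lit 349) (nat_lit 198))) (XT.nd (nat_lit 78) (nat_lit 0) (nat_lit 76) (XT.lf (nat_lit 0) (nat_lit 3491985092) (nat_lit 1748) (nat_lit 7682505013) (nat_lit 1824) (nat_lit 7652127675) (nat_lit 402) (nat_lit 5) (nat_lit 425) (nat_lit 5) (nat_lit 426) (nat_lit 5) (nat_lit 354) (nat_lit 349) (nat_lit 197)) (XT.nd (nat_lit 78) (nat_lit 0) (nat_lit 0) (XT.lf (nat_lit 0) (nat_lit 4491125283) (nat_lit 1748) (nat_lit 13020358636) (nat_lit 1824) (nat_lit 1599386076) (nat_lit 403) (nat_lit 5) (nat_lit 426) (nat_lit 5) (nat_lit 427) (nat_lit 5) (nat_lit 355) (nat_lit 349) (nat_lit 196)) (XT.lf (nat_lit 76) (nat_lit 909185920) (nat_lit 0) (nat_lit 4733361545) (nat_lit 1824) (nat_lit 13758660712)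 (nat_lit 404) (nat_lit 5) (nat_lit 403) (nat_lit 5) (nat_lit 427) (nat_lit 5) (nat_lit 356) (nat_lit 349) (nat_lit 195))))))) (XT.nd (nat_lit 780) (nat_lit 6840) (nat_lit 0) (XT.nd (nat_lit 390) (nat_lit 1444) (nat_lit 0) (XT.nd (nat_lit 156) (nat_lit 0) (nat_lit 76) (XT.nd (nat_lit 78) (nat_lit 0) (nat_lit 76) (XT.lf (nat_lit 0) (nat_lit 6961611458) (nat_lit 1748) (nat_lit 4326013923) (nat_lit 1824) (nat_lit 8409973562) (nat_lit 404) (nat_lit 5) (nat_lit 427) (nat_lit 5) (nat_lit 428) (nat_lit 5) (nat_lit 357) (nat_lit 349) (nat_lit 194)) (XT.lf (nat_lit 0) (nat_lit 8421731020) (nat_lit 1748) (nat_lit 9651419849) (nat_lit 1824) (nat_lit 1927705186) (nat_lit 405) (nat_lit 5) (nat_lit 428) (nat_lit 5) (nat_lit 429) (nat_lit 5) (nat_lit 358) (nat_lit 349) (nat_lit 193))) (XT.nd (nat_lit 78) (nat_lit 0) (nat_lit 76) (XT.lf (nat_lit 76) (nat_lit 5197260110) (nat_lit 0) (nat_lit 4857271661) (nat_lit 1824)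 (nat_lit 10256105727) (nat_lit 406) (nat_lit 5) (nat_lit 405) (nat_lit 5) (nat_lit 429) (nat_lit 5) (nat_lit 359) (nat_lit 349) (nat_lit 192)) (XT.nd (nat_lit 78) (nat_lit 0) (nat_lit 76) (XT.lf (nat_lit 0) (nat_lit 11849394843) (nat_lit 1748) (nat_lit 69235866) (nat_lit 1824) (nat_lit 8708824158) (nat_lit 406) (nat_lit 5) (nat_lit 429) (nat_lit 5) (nat_lit 430) (nat_lit 5) (nat_lit 360) (nat_lit 349) (nat_lit 191)) (XT.lf (nat_lit 0) (nat_lit 13833980673) (nat_lit 1748) (nat_lit 5371406158) (nat_lit 1824) (nat_lit 1745676318) (nat_lit 407) (nat_lit 5) (nat_lit 430) (nat_lit 5) (nat_lit 431) (nat_lit 5) (nat_lit 361) (nat_lit 349) (nat_lit 190))))) (XT.nd (nat_lit 156) (nat_lit 1672) (nat_lit 0) (XT.nd (nat_lit 78) (nat_lit 0) (nat_lit 76) (XT.lf (nat_lit 76) (nat_lit 10465189604) (nat_lit 0) (nat_lit 5551961630) (nat_lit 1824) (nat_lit 5264451319) (nat_lit 408) (nat_lit 5) (nat_lit 407) (nat_lit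 5) (nat_lit 431) (nat_lit 5) (nat_lit 362) (nat_lit 349) (nat_lit 189)) (XT.lf (nat_lit 76) (nat_lit 5235207629) (nat_lit 0) (nat_lit 13147654494) (nat_lit 1824) (nat_lit 3236858817) (nat_lit 409) (nat_lit 5) (nat_lit 408) (nat_lit 5) (nat_lit 432) (nat_lit 5) (nat_lit 363) (nat_lit 349) (nat_lit 188))) (XT.nd (nat_lit 78) (nat_lit 1824) (nat_lit 0) (XT.lf (nat_lit 0) (nat_lit 20927265753) (nat_lit 1748) (nat_lit 100233196) (nat_lit 1824) (nat_lit 938333097) (nat_lit 409) (nat_lit 5) (nat_lit 432) (nat_lit 5) (nat_lit 433) (nat_lit 5) (nat_lit 364) (nat_lit 349) (nat_lit 187)) (XT.nd (nat_lit 78) (nat_lit 0) (nat_lit 76) (XT.lf (nat_lit 0) (nat_lit 1399464902) (nat_lit 1824) (nat_lit 5529700492) (nat_lit 1900) (nat_lit 15389208060) (nat_lit 385) (nat_lit 5) (nat_lit 409) (nat_lit 5) (nat_lit 410) (nat_lit 5) (nat_lit 365) (nat_lit 349) (nat_lit 186)) (XT.lf (nat_lit 0) (nat_lit 4014511069) (nat_lit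 1824) (nat_lit 11086853874) (nat_lit 76) (nat_lit 7577632506) (nat_lit 386) (nat_lit 5) (nat_lit 410) (nat_lit 5) (nat_lit 387) (nat_lit 5) (nat_lit 366) (nat_lit 349) (nat_lit 185)))))) (XT.nd (nat_lit 390) (nat_lit 3268) (nat_lit 0) (XT.nd (nat_lit 156) (nat_lit 1672) (nat_lit 0) (XT.nd (nat_lit 78) (nat_lit 912) (nat_lit 0) (XT.lf (nat_lit 0) (nat_lit 6282495685) (nat_lit 1064) (nat_lit 542337321) (nat_lit 1140) (nat_lit 16223273896) (nat_lit 372) (nat_lit 5) (nat_lit 386) (nat_lit 5) (nat_lit 387) (nat_lit 5) (nat_lit 367) (nat_lit 349) (nat_lit 184)) (XT.lf (nat_lit 0) (nat_lit 807133141) (nat_lit 912) (nat_lit 9079211303) (nat_lit 988) (nat_lit 13538610733) (nat_lit 360) (nat_lit 5) (nat_lit 372) (nat_lit 5) (nat_lit 373) (nat_lit 5) (nat_lit 368) (nat_lit 349) (nat_lit 183))) (XT.nd (nat_lit 78) (nat_lit 1672) (nat_lit 0) (XT.lf (nat_lit 0) (nat_lit 13188073640) (nat_lit 988) (nat_lit 4723747309)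 (nat_lit 76) (nat_lit 5898323543) (nat_lit 360) (nat_lit 5) (nat_lit 373) (nat_lit 5) (nat_lit 361) (nat_lit 5) (nat_lit 369) (nat_lit 349) (nat_lit 182)) (XT.nd (nat_lit 78) (nat_lit 836) (nat_lit 0) (XT.lf (nat_lit 0) (nat_lit 13820843505) (nat_lit 836) (nat_lit 2911044951) (nat_lit 912) (nat_lit 7472143308) (nat_lit 349) (nat_lit 5) (nat_lit 360) (nat_lit 5) (nat_lit 361) (nat_lit 5) (nat_lit 370) (nat_lit 349) (nat_lit 181)) (XT.lf (nat_lit 0) (nat_lit 8398969433) (nat_lit 836) (nat_lit 12143976442) (nat_lit 912) (nat_lit 4063574085) (nat_lit 338) (nat_lit 5) (nat_lit 349) (nat_lit 5) (nat_lit 350) (nat_lit 5) (nat_lit 371) (nat_lit 349) (nat_lit 180))))) (XT.nd (nat_lit 156) (nat_lit 2356) (nat_lit 0) (XT.nd (nat_lit 78) (nat_lit 76) (nat_lit 0) (XT.lf (nat_lit 0) (nat_lit 2856760044) (nat_lit 836) (nat_lit 21734233332) (nat_lit 912) (nat_lit 427639042) (nat_lit 327) (nat_lit 5) (nat_lit 338)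 (nat_lit 5) (nat_lit 339) (nat_lit 5) (nat_lit 372) (nat_lit 349) (nat_lit 179)) (XT.lf (nat_lit 0) (nat_lit 3458673679) (nat_lit 912) (nat_lit 2836447620) (nat_lit 76) (nat_lit 19143862677) (nat_lit 326) (nat_lit 5) (nat_lit 338) (nat_lit 5) (nat_lit 327) (nat_lit 5) (nat_lit 373) (nat_lit 349) (nat_lit 178))) (XT.nd (nat_lit 78) (nat_lit 1520) (nat_lit 0) (XT.lf (nat_lit 0) (nat_lit 7624412264) (nat_lit 912) (nat_lit 8647041115) (nat_lit 76) (nat_lit 9597065811) (nat_lit 315) (nat_lit 5) (nat_lit 327) (nat_lit 5) (nat_lit 316) (nat_lit 5) (nat_lit 374) (nat_lit 349) (nat_lit 177)) (XT.nd (nat_lit 78) (nat_lit 760) (nat_lit 0) (XT.lf (nat_lit 0) (nat_lit 11714084213) (nat_lit 760) (nat_lit 331937907) (nat_lit 836) (nat_lit 14262302855) (nat_lit 305) (nat_lit 5) (nat_lit 315) (nat_lit 5) (nat_lit 316) (nat_lit 5) (nat_lit 375) (nat_lit 349) (nat_lit 176)) (XT.lf (nat_lit 0) (nat_lit 6011511979) (nat_lit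 760) (nat_lit 10784767069) (nat_lit 836) (nat_lit 9961128337) (nat_lit 295) (nat_lit 5) (nat_lit 305) (nat_lit 5) (nat_lit 306) (nat_lit 5) (nat_lit 376) (nat_lit 349) (nat_lit 175))))))))
noncomputable def xc121 : XT := (XT.nd (nat_lit 46176) (nat_lit 0) (nat_lit 684) (XT.nd (nat_lit 45396) (nat_lit 0) (nat_lit 7524) (XT.nd (nat_lit 45006) (nat_lit 0) (nat_lit 8740) (XT.nd (nat_lit 44772) (nat_lit 0) (nat_lit 8588) (XT.nd (nat_lit 78) (nat_lit 0) (nat_lit 0) (XT.lf (nat_lit 0) (nat_lit 173887993) (nat_lit 684) (nat_lit 21647710111) (nat_lit 760) (nat_lit 5395715427) (nat_lit 286) (nat_lit 5) (nat_lit 295) (nat_lit 5) (nat_lit 296) (nat_lit 5) (nat_lit 377) (nat_lit 349) (nat_lit 174)) (XT.lf (nat_lit 0) (nat_lit 21925495162) (nat_lit 684) (nat_lit 5278239074) (nat_lit 760) (nat_lit 483163762) (nat_lit 286) (nat_lit 5) (nat_lit 295) (nat_lit 5) (nat_lit 296) (nat_lit 5) (nat_lit 378) (nat_lit 349)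 (nat_lit 173))) (XT.nd (nat_lit 78) (nat_lit 0) (nat_lit 0) (XT.lf (nat_lit 0) (nat_lit 251147431) (nat_lit 0) (nat_lit 251147431) (nat_lit 1748) (nat_lit 8501682814) (nat_lit 399) (nat_lit 5) (nat_lit 399) (nat_lit 3) (nat_lit 422) (nat_lit 3) (nat_lit 350) (nat_lit 350) (nat_lit 200)) (XT.nd (nat_lit 78) (nat_lit 0) (nat_lit 76) (XT.lf (nat_lit 0) (nat_lit 1399250403) (nat_lit 1748) (nat_lit 4796606560) (nat_lit 1824) (nat_lit 12074498310) (nat_lit 399) (nat_lit 5) (nat_lit 422) (nat_lit 3) (nat_lit 423) (nat_lit 5) (nat_lit 351) (nat_lit 350) (nat_lit 199)) (XT.lf (nat_lit 0) (nat_lit 1894412789) (nat_lit 1748) (nat_lit 10187867439) (nat_lit 1824) (nat_lit 6456578703) (nat_lit 400) (nat_lit 5) (nat_lit 423) (nat_lit 5) (nat_lit 424) (nat_lit 5) (nat_lit 352) (nat_lit 350) (nat_lit 198))))) (XT.nd (nat_lit 156) (nat_lit 0) (nat_lit 76) (XT.nd (nat_lit 78) (nat_lit 0) (nat_lit 0) (XT.lf (nat_lit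 0) (nat_lit 2491827512) (nat_lit 1748) (nat_lit 15680877225) (nat_lit 1824) (nat_lit 640969849) (nat_lit 401) (nat_lit 5) (nat_lit 424) (nat_lit 5) (nat_lit 425) (nat_lit 5) (nat_lit 353) (nat_lit 350) (nat_lit 197)) (XT.lf (nat_lit 0) (nat_lit 3246438607) (nat_lit 1748) (nat_lit 2190532327) (nat_lit 1824) (nat_lit 13656982988) (nat_lit 401) (nat_lit 5) (nat_lit 424) (nat_lit 5) (nat_lit 425) (nat_lit 5) (nat_lit 354) (nat_lit 350) (nat_lit 196))) (XT.nd (nat_lit 78) (nat_lit 0) (nat_lit 76) (XT.lf (nat_lit 0) (nat_lit 4140359661) (nat_lit 1748) (nat_lit 7578010640) (nat_lit 1824) (nat_lit 7661942463) (nat_lit 402) (nat_lit 5) (nat_lit 425) (nat_lit 5) (nat_lit 426) (nat_lit 5) (nat_lit 355) (nat_lit 350) (nat_lit 195)) (XT.nd (nat_lit 78) (nat_lit 0) (nat_lit 0) (XT.lf (nat_lit 0) (nat_lit 5154479131) (nat_lit 1748) (nat_lit 13069310376) (nat_lit 1824) (nat_lit 1449609670) (nat_lit 403) (nat_lit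 5) (nat_lit 426) (nat_lit 5) (nat_lit 427) (nat_lit 5) (nat_lit 356) (nat_lit 350) (nat_lit 194)) (XT.lf (nat_lit 76) (nat_lit 1272577504) (nat_lit 0) (nat_lit 5054652060) (nat_lit 1824) (nat_lit 13645488768) (nat_lit 404) (nat_lit 5) (nat_lit 403) (nat_lit 5) (nat_lit 427) (nat_lit 5) (nat_lit 357) (nat_lit 350) (nat_lit 193)))))) (XT.nd (nat_lit 390) (nat_lit 1444) (nat_lit 0) (XT.nd (nat_lit 156) (nat_lit 0) (nat_lit 76) (XT.nd (nat_lit 78) (nat_lit 0) (nat_lit 76) (XT.lf (nat_lit 0) (nat_lit 7669723499) (nat_lit 1748) (nat_lit 4118118453) (nat_lit 1824) (nat_lit 8490488058) (nat_lit 404) (nat_lit 5) (nat_lit 427) (nat_lit 5) (nat_lit 428) (nat_lit 5) (nat_lit 358) (nat_lit 350) (nat_lit 192)) (XT.lf (nat_lit 0) (nat_lit 9160257539) (nat_lit 1748) (nat_lit 9597817612) (nat_lit 1824) (nat_lit 1832883631) (nat_lit 405) (nat_lit 5) (nat_lit 428) (nat_lit 5) (nat_lit 429) (nat_lit 5) (nat_lit 359)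 (nat_lit 350) (nat_lit 191))) (XT.nd (nat_lit 78) (nat_lit 0) (nat_lit 76) (XT.lf (nat_lit 76) (nat_lit 5690755629) (nat_lit 0) (nat_lit 5139326775) (nat_lit 1824) (nat_lit 10080196446) (nat_lit 406) (nat_lit 5) (nat_lit 405) (nat_lit 5) (nat_lit 429) (nat_lit 5) (nat_lit 360) (nat_lit 350) (nat_lit 190)) (XT.nd (nat_lit 78) (nat_lit 0) (nat_lit 76) (XT.lf (nat_lit 76) (nat_lit 270231855) (nat_lit 0) (nat_lit 12395651289) (nat_lit 1824) (nat_lit 8570981570) (nat_lit 407) (nat_lit 5) (nat_lit 406) (nat_lit 5) (nat_lit 430) (nat_lit 5) (nat_lit 361) (nat_lit 350) (nat_lit 189)) (XT.lf (nat_lit 0) (nat_lit 14696284660) (nat_lit 1748) (nat_lit 5190132607) (nat_lit 1824) (nat_lit 1684044058) (nat_lit 407) (nat_lit 5) (nat_lit 430) (nat_lit 5) (nat_lit 431) (nat_lit 5) (nat_lit 362) (nat_lit 350) (nat_lit 188))))) (XT.nd (nat_lit 156) (nat_lit 1672) (nat_lit 0) (XT.nd (nat_lit 78) (nat_lit 0) (nat_lit 76)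 (XT.lf (nat_lit 76) (nat_lit 11116005740) (nat_lit 0) (nat_lit 5818104013) (nat_lit 1824) (nat_lit 4977029445) (nat_lit 408) (nat_lit 5) (nat_lit 407) (nat_lit 5) (nat_lit 431) (nat_lit 5) (nat_lit 363) (nat_lit 350) (nat_lit 187)) (XT.lf (nat_lit 76) (nat_lit 5733062071) (nat_lit 0) (nat_lit 13626602893) (nat_lit 1824) (nat_lit 2899964029) (nat_lit 409) (nat_lit 5) (nat_lit 408) (nat_lit 5) (nat_lit 432) (nat_lit 5) (nat_lit 364) (nat_lit 350) (nat_lit 186))) (XT.nd (nat_lit 78) (nat_lit 1824) (nat_lit 0) (XT.lf (nat_lit 76) (nat_lit 239739509) (nat_lit 0) (nat_lit 21729297100) (nat_lit 1824) (nat_lit 647319268) (nat_lit 410) (nat_lit 5) (nat_lit 409) (nat_lit 5) (nat_lit 433) (nat_lit 5) (nat_lit 365) (nat_lit 350) (nat_lit 185)) (XT.nd (nat_lit 78) (nat_lit 0) (nat_lit 76) (XT.lf (nat_lit 0) (nat_lit 1846835082) (nat_lit 1824) (nat_lit 5355718304) (nat_lit 1900) (nat_lit 15777099762) (nat_lit 385)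 (nat_lit 5) (nat_lit 409) (nat_lit 5) (nat_lit 410) (nat_lit 5) (nat_lit 366) (nat_lit 350) (nat_lit 184)) (XT.lf (nat_lit 0) (nat_lit 4530297561) (nat_lit 1824) (nat_lit 11076627728) (nat_lit 76) (nat_lit 7744376046) (nat_lit 386) (nat_lit 5) (nat_lit 410) (nat_lit 5) (nat_lit 387) (nat_lit 5) (nat_lit 367) (nat_lit 350) (nat_lit 183))))))) (XT.nd (nat_lit 45552) (nat_lit 0) (nat_lit 7904) (XT.nd (nat_lit 390) (nat_lit 3268) (nat_lit 0) (XT.nd (nat_lit 156) (nat_lit 1672) (nat_lit 0) (XT.nd (nat_lit 78) (nat_lit 912) (nat_lit 0) (XT.lf (nat_lit 0) (nat_lit 6808240280) (nat_lit 1064) (nat_lit 607363573) (nat_lit 1140) (nat_lit 16316071356) (nat_lit 372) (nat_lit 5) (nat_lit 386) (nat_lit 5) (nat_lit 387) (nat_lit 5) (nat_lit 368) (nat_lit 350) (nat_lit 182)) (XT.lf (nat_lit 0) (nat_lit 1171203619) (nat_lit 912) (nat_lit 9388412779) (nat_lit 988) (nat_lit 13560403914) (nat_lit 360) (nat_lit 5) (nat_lit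 372) (nat_lit 5) (nat_lit 373) (nat_lit 5) (nat_lit 369) (nat_lit 350) (nat_lit 181))) (XT.nd (nat_lit 78) (nat_lit 1672) (nat_lit 0) (XT.lf (nat_lit 0) (nat_lit 13949194032) (nat_lit 988) (nat_lit 4527810121) (nat_lit 76) (nat_lit 6039989590) (nat_lit 360) (nat_lit 5) (nat_lit 373) (nat_lit 5) (nat_lit 361) (nat_lit 5) (nat_lit 370) (nat_lit 350) (nat_lit 180)) (XT.nd (nat_lit 78) (nat_lit 836) (nat_lit 0) (XT.lf (nat_lit 0) (nat_lit 14567640455) (nat_lit 836) (nat_lit 3023194521) (nat_lit 912) (nat_lit 7332036662) (nat_lit 349) (nat_lit 5) (nat_lit 360) (nat_lit 5) (nat_lit 361) (nat_lit 5) (nat_lit 371) (nat_lit 350) (nat_lit 179)) (XT.lf (nat_lit 0) (nat_lit 8985042545) (nat_lit 836) (nat_lit 12522796591) (nat_lit 912) (nat_lit 3829767158) (nat_lit 338) (nat_lit 5) (nat_lit 349) (nat_lit 5) (nat_lit 350) (nat_lit 5) (nat_lit 372) (nat_lit 350) (nat_lit 178))))) (XT.nd (nat_lit 156) (nat_lit 2356)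 (nat_lit 0) (XT.nd (nat_lit 78) (nat_lit 76) (nat_lit 0) (XT.lf (nat_lit 0) (nat_lit 3278232981) (nat_lit 836) (nat_lit 22391030177) (nat_lit 912) (nat_lit 92984261) (nat_lit 327) (nat_lit 5) (nat_lit 338) (nat_lit 5) (nat_lit 339) (nat_lit 5) (nat_lit 373) (nat_lit 350) (nat_lit 177)) (XT.lf (nat_lit 0) (nat_lit 3895372372) (nat_lit 912) (nat_lit 2590999290) (nat_lit 76) (nat_lit 19708996305) (nat_lit 326) (nat_lit 5) (nat_lit 338) (nat_lit 5) (nat_lit 327) (nat_lit 5) (nat_lit 374) (nat_lit 350) (nat_lit 176))) (XT.nd (nat_lit 78) (nat_lit 1520) (nat_lit 0) (XT.lf (nat_lit 0) (nat_lit 8178496030) (nat_lit 912) (nat_lit 8574641995) (nat_lit 76) (nat_lit 9884806646) (nat_lit 315) (nat_lit 5) (nat_lit 327) (nat_lit 5) (nat_lit 316) (nat_lit 5) (nat_lit 375) (nat_lit 350) (nat_lit 175)) (XT.nd (nat_lit 78) (nat_lit 760) (nat_lit 0) (XT.lf (nat_lit 0) (nat_lit 12391933865) (nat_lit 760) (nat_lit 333463445)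 (nat_lit 836) (nat_lit 14365698043) (nat_lit 305) (nat_lit 5) (nat_lit 315) (nat_lit 5) (nat_lit 316) (nat_lit 5) (nat_lit 376) (nat_lit 350) (nat_lit 174)) (XT.lf (nat_lit 0) (nat_lit 6519308962) (nat_lit 760) (nat_lit 11091770195) (nat_lit 836) (nat_lit 9942716213) (nat_lit 295) (nat_lit 5) (nat_lit 305) (nat_lit 5) (nat_lit 306) (nat_lit 5) (nat_lit 377) (nat_lit 350) (nat_lit 173)))))) (XT.nd (nat_lit 390) (nat_lit 0) (nat_lit 228) (XT.nd (nat_lit 156) (nat_lit 0) (nat_lit 76) (XT.nd (nat_lit 78) (nat_lit 0) (nat_lit 0) (XT.lf (nat_lit 0) (nat_lit 407316392) (nat_lit 0) (nat_lit 407316392) (nat_lit 1748) (nat_lit 8453392493) (nat_lit 399) (nat_lit 5) (nat_lit 399) (nat_lit 3) (nat_lit 422) (nat_lit 3) (nat_lit 351) (nat_lit 351) (nat_lit 198)) (XT.lf (nat_lit 0) (nat_lit 2016575571) (nat_lit 1748) (nat_lit 4638230385) (nat_lit 1824) (nat_lit 12151907687) (nat_lit 399) (nat_lit 5) (nat_lit 422)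 (nat_lit 3) (nat_lit 423) (nat_lit 5) (nat_lit 352) (nat_lit 351) (nat_lit 197))) (XT.nd (nat_lit 78) (nat_lit 0) (nat_lit 76) (XT.lf (nat_lit 0) (nat_lit 2510057309) (nat_lit 1748) (nat_lit 10182975985) (nat_lit 1824) (nat_lit 6390576974) (nat_lit 400) (nat_lit 5) (nat_lit 423) (nat_lit 5) (nat_lit 424) (nat_lit 5) (nat_lit 353) (nat_lit 351) (nat_lit 196)) (XT.nd (nat_lit 78) (nat_lit 0) (nat_lit 0) (XT.lf (nat_lit 0) (nat_lit 3109549892) (nat_lit 1748) (nat_lit 15833140421) (nat_lit 1824) (nat_lit 424303908) (nat_lit 401) (nat_lit 5) (nat_lit 424) (nat_lit 5) (nat_lit 425) (nat_lit 5) (nat_lit 354) (nat_lit 351) (nat_lit 195)) (XT.lf (nat_lit 0) (nat_lit 3870984731) (nat_lit 1748) (nat_lit 1947352063) (nat_lit 1824) (nat_lit 13837668171) (nat_lit 401) (nat_lit 5) (nat_lit 424) (nat_lit 5) (nat_lit 425) (nat_lit 5) (nat_lit 355) (nat_lit 351) (nat_lit 194))))) (XT.nd (nat_lit 156) (nat_lit 0) (nat_lit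 76) (XT.nd (nat_lit 78) (nat_lit 0) (nat_lit 76) (XT.lf (nat_lit 0) (nat_lit 4776979740) (nat_lit 1748) (nat_lit 7489610057) (nat_lit 1824) (nat_lit 7684666187) (nat_lit 402) (nat_lit 5) (nat_lit 425) (nat_lit 5) (nat_lit 426) (nat_lit 5) (nat_lit 356) (nat_lit 351) (nat_lit 193)) (XT.lf (nat_lit 0) (nat_lit 5807388638) (nat_lit 1748) (nat_lit 13139343294) (nat_lit 1824) (nat_lit 1306692090) (nat_lit 403) (nat_lit 5) (nat_lit 426) (nat_lit 5) (nat_lit 427) (nat_lit 5) (nat_lit 357) (nat_lit 351) (nat_lit 192))) (XT.nd (nat_lit 78) (nat_lit 0) (nat_lit 76) (XT.lf (nat_lit 76) (nat_lit 1627576402) (nat_lit 0) (nat_lit 5375289330) (nat_lit 1824) (nat_lit 13559112300) (nat_lit 404) (nat_lit 5) (nat_lit 403) (nat_lit 5) (nat_lit 427) (nat_lit 5) (nat_lit 358) (nat_lit 351) (nat_lit 191)) (XT.nd (nat_lit 78) (nat_lit 0) (nat_lit 76) (XT.lf (nat_lit 0) (nat_lit 8370419123) (nat_lit 1748) (nat_lit 3923370097)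 (nat_lit 1824) (nat_lit 8583279134) (nat_lit 404) (nat_lit 5) (nat_lit 427) (nat_lit 5) (nat_lit 428) (nat_lit 5) (nat_lit 359) (nat_lit 351) (nat_lit 190)) (XT.lf (nat_lit 0) (nat_lit 9893048665) (nat_lit 1748) (nat_lit 9562305225) (nat_lit 1824) (nat_lit 1743980319) (nat_lit 405) (nat_lit 5) (nat_lit 428) (nat_lit 5) (nat_lit 429) (nat_lit 5) (nat_lit 360) (nat_lit 351) (nat_lit 189))))))))
noncomputable def xc122 : XT := (XT.nd (nat_lit 46410) (nat_lit 0) (nat_lit 2508) (XT.nd (nat_lit 780) (nat_lit 4180) (nat_lit 0) (XT.nd (nat_lit 390) (nat_lit 3420) (nat_lit 0) (XT.nd (nat_lit 156) (nat_lit 0) (nat_lit 152) (XT.nd (nat_lit 78) (nat_lit 0) (nat_lit 76) (XT.lf (nat_lit 76) (nat_lit 6179677671) (nat_lit 0) (nat_lit 5422017243) (nat_lit 1824) (nat_lit 9926770072) (nat_lit 406) (nat_lit 5) (nat_lit 405) (nat_lit 5) (nat_lit 429) (nat_lit 5) (nat_lit 361) (nat_lit 351) (nat_lit 188)) (XT.lf (nat_lit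 76) (nat_lit 601170849) (nat_lit 0) (nat_lit 12879673821) (nat_lit 1824) (nat_lit 8384243733) (nat_lit 407) (nat_lit 5) (nat_lit 406) (nat_lit 5) (nat_lit 430) (nat_lit 5) (nat_lit 362) (nat_lit 351) (nat_lit 187))) (XT.nd (nat_lit 78) (nat_lit 0) (nat_lit 0) (XT.lf (nat_lit 0) (nat_lit 15558781802) (nat_lit 1748) (nat_lit 5023076913) (nat_lit 1824) (nat_lit 1627107043) (nat_lit 407) (nat_lit 5) (nat_lit 430) (nat_lit 5) (nat_lit 431) (nat_lit 5) (nat_lit 363) (nat_lit 351) (nat_lit 186)) (XT.nd (nat_lit 78) (nat_lit 0) (nat_lit 76) (XT.lf (nat_lit 76) (nat_lit 11767009192) (nat_lit 0) (nat_lit 6086514166) (nat_lit 1824) (nat_lit 4706550138) (nat_lit 408) (nat_lit 5) (nat_lit 407) (nat_lit 5) (nat_lit 431) (nat_lit 5) (nat_lit 364) (nat_lit 351) (nat_lit 185)) (XT.lf (nat_lit 76) (nat_lit 6226288936) (nat_lit 0) (nat_lit 14115068022) (nat_lit 1824) (nat_lit 2577875804) (nat_lit 409) (nat_lit 5) (nat_lit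 408) (nat_lit 5) (nat_lit 432) (nat_lit 5) (nat_lit 365) (nat_lit 351) (nat_lit 184))))) (XT.nd (nat_lit 156) (nat_lit 1900) (nat_lit 0) (XT.nd (nat_lit 78) (nat_lit 1824) (nat_lit 0) (XT.lf (nat_lit 76) (nat_lit 571516208) (nat_lit 0) (nat_lit 22447422018) (nat_lit 1824) (nat_lit 267929523) (nat_lit 410) (nat_lit 5) (nat_lit 409) (nat_lit 5) (nat_lit 433) (nat_lit 5) (nat_lit 366) (nat_lit 351) (nat_lit 183)) (XT.lf (nat_lit 0) (nat_lit 2284355540) (nat_lit 1824) (nat_lit 5196026762) (nat_lit 1900) (nat_lit 16180863750) (nat_lit 385) (nat_lit 5) (nat_lit 409) (nat_lit 5) (nat_lit 410) (nat_lit 5) (nat_lit 367) (nat_lit 351) (nat_lit 182))) (XT.nd (nat_lit 78) (nat_lit 1976) (nat_lit 0) (XT.lf (nat_lit 0) (nat_lit 5038862874) (nat_lit 1824) (nat_lit 11085774743) (nat_lit 76) (nat_lit 7919599743) (nat_lit 386) (nat_lit 5) (nat_lit 410) (nat_lit 5) (nat_lit 387) (nat_lit 5) (nat_lit 368) (nat_lit 351)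 (nat_lit 181)) (XT.nd (nat_lit 78) (nat_lit 912) (nat_lit 0) (XT.lf (nat_lit 0) (nat_lit 7330396551) (nat_lit 1064) (nat_lit 671541811) (nat_lit 1140) (nat_lit 16434264255) (nat_lit 372) (nat_lit 5) (nat_lit 386) (nat_lit 5) (nat_lit 387) (nat_lit 5) (nat_lit 369) (nat_lit 351) (nat_lit 180)) (XT.lf (nat_lit 0) (nat_lit 1526687060) (nat_lit 912) (nat_lit 9704776387) (nat_lit 988) (nat_lit 13604915022) (nat_lit 360) (nat_lit 5) (nat_lit 372) (nat_lit 5) (nat_lit 373) (nat_lit 5) (nat_lit 370) (nat_lit 351) (nat_lit 179)))))) (XT.nd (nat_lit 390) (nat_lit 1596) (nat_lit 0) (XT.nd (nat_lit 156) (nat_lit 1748) (nat_lit 0) (XT.nd (nat_lit 78) (nat_lit 836) (nat_lit 0) (XT.lf (nat_lit 0) (nat_lit 14712168093) (nat_lit 988) (nat_lit 4345377285) (nat_lit 76) (nat_lit 6187931044) (nat_lit 360) (nat_lit 5) (nat_lit 373) (nat_lit 5) (nat_lit 361) (nat_lit 5) (nat_lit 371) (nat_lit 351) (nat_lit 178)) (XT.lf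 (nat_lit 0) (nat_lit 15317773302) (nat_lit 836) (nat_lit 3137283911) (nat_lit 912) (nat_lit 7208637458) (nat_lit 349) (nat_lit 5) (nat_lit 360) (nat_lit 5) (nat_lit 361) (nat_lit 5) (nat_lit 372) (nat_lit 351) (nat_lit 177))) (XT.nd (nat_lit 78) (nat_lit 912) (nat_lit 0) (XT.lf (nat_lit 0) (nat_lit 9569518912) (nat_lit 836) (nat_lit 12912148936) (nat_lit 912) (nat_lit 3609365470) (nat_lit 338) (nat_lit 5) (nat_lit 349) (nat_lit 5) (nat_lit 350) (nat_lit 5) (nat_lit 373) (nat_lit 351) (nat_lit 176)) (XT.nd (nat_lit 78) (nat_lit 0) (nat_lit 0) (XT.lf (nat_lit 0) (nat_lit 228723546) (nat_lit 912) (nat_lit 22836998716) (nat_lit 76) (nat_lit 3462817125) (nat_lit 326) (nat_lit 5) (nat_lit 338) (nat_lit 5) (nat_lit 327) (nat_lit 5) (nat_lit 374) (nat_lit 351) (nat_lit 175)) (XT.lf (nat_lit 0) (nat_lit 4326059995) (nat_lit 912) (nat_lit 2357161960) (nat_lit 76) (nat_lit 20291611040) (nat_lit 326) (nat_lit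 5) (nat_lit 338) (nat_lit 5) (nat_lit 327) (nat_lit 5) (nat_lit 375) (nat_lit 351) (nat_lit 174))))) (XT.nd (nat_lit 45006) (nat_lit 0) (nat_lit 7144) (XT.nd (nat_lit 78) (nat_lit 760) (nat_lit 0) (XT.lf (nat_lit 0) (nat_lit 8730525808) (nat_lit 912) (nat_lit 8519118173) (nat_lit 76) (nat_lit 10181189531) (nat_lit 315) (nat_lit 5) (nat_lit 327) (nat_lit 5) (nat_lit 316) (nat_lit 5) (nat_lit 376) (nat_lit 351) (nat_lit 173)) (XT.lf (nat_lit 0) (nat_lit 13071380753) (nat_lit 760) (nat_lit 335518814) (nat_lit 836) (nat_lit 14490821216) (nat_lit 305) (nat_lit 5) (nat_lit 315) (nat_lit 5) (nat_lit 316) (nat_lit 5) (nat_lit 377) (nat_lit 351) (nat_lit 172))) (XT.nd (nat_lit 78) (nat_lit 0) (nat_lit 0) (XT.lf (nat_lit 0) (nat_lit 559638192) (nat_lit 0) (nat_lit 559638192) (nat_lit 1748) (nat_lit 8421066465) (nat_lit 399) (nat_lit 5) (nat_lit 399) (nat_lit 3) (nat_lit 422) (nat_lit 3) (nat_lit 352) (nat_lit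 352) (nat_lit 196)) (XT.nd (nat_lit 78) (nat_lit 0) (nat_lit 76) (XT.lf (nat_lit 0) (nat_lit 2619393186) (nat_lit 1748) (nat_lit 4492454711) (nat_lit 1824) (nat_lit 12247989498) (nat_lit 399) (nat_lit 5) (nat_lit 422) (nat_lit 3) (nat_lit 423) (nat_lit 5) (nat_lit 353) (nat_lit 352) (nat_lit 195)) (XT.lf (nat_lit 0) (nat_lit 3112093063) (nat_lit 1748) (nat_lit 10195763334) (nat_lit 1824) (nat_lit 6337502984) (nat_lit 400) (nat_lit 5) (nat_lit 423) (nat_lit 5) (nat_lit 424) (nat_lit 5) (nat_lit 354) (nat_lit 352) (nat_lit 194))))))) (XT.nd (nat_lit 780) (nat_lit 4788) (nat_lit 0) (XT.nd (nat_lit 390) (nat_lit 0) (nat_lit 228) (XT.nd (nat_lit 156) (nat_lit 0) (nat_lit 76) (XT.nd (nat_lit 78) (nat_lit 0) (nat_lit 0) (XT.lf (nat_lit 0) (nat_lit 3714635384) (nat_lit 1748) (nat_lit 16008235378) (nat_lit 1824) (nat_lit 214679329) (nat_lit 401) (nat_lit 5) (nat_lit 424) (nat_lit 5) (nat_lit 425) (nat_lit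 5) (nat_lit 355) (nat_lit 352) (nat_lit 193)) (XT.lf (nat_lit 0) (nat_lit 4484006502) (nat_lit 1748) (nat_lit 1714608299) (nat_lit 1824) (nat_lit 14036920841) (nat_lit 401) (nat_lit 5) (nat_lit 424) (nat_lit 5) (nat_lit 425) (nat_lit 5) (nat_lit 356) (nat_lit 352) (nat_lit 192))) (XT.nd (nat_lit 78) (nat_lit 0) (nat_lit 76) (XT.lf (nat_lit 0) (nat_lit 5403284033) (nat_lit 1748) (nat_lit 7416682275) (nat_lit 1824) (nat_lit 7719961994) (nat_lit 402) (nat_lit 5) (nat_lit 425) (nat_lit 5) (nat_lit 426) (nat_lit 5) (nat_lit 357) (nat_lit 352) (nat_lit 191)) (XT.nd (nat_lit 78) (nat_lit 0) (nat_lit 0) (XT.lf (nat_lit 0) (nat_lit 6451282400) (nat_lit 1748) (nat_lit 13229963980) (nat_lit 1824) (nat_lit 1170187442) (nat_lit 403) (nat_lit 5) (nat_lit 426) (nat_lit 5) (nat_lit 427) (nat_lit 5) (nat_lit 358) (nat_lit 352) (nat_lit 190)) (XT.lf (nat_lit 76) (nat_lit 1975038413) (nat_lit 0) (nat_lit 5695844558)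 (nat_lit 1824) (nat_lit 13498602108) (nat_lit 404) (nat_lit 5) (nat_lit 403) (nat_lit 5) (nat_lit 427) (nat_lit 5) (nat_lit 359) (nat_lit 352) (nat_lit 189))))) (XT.nd (nat_lit 156) (nat_lit 0) (nat_lit 76) (XT.nd (nat_lit 78) (nat_lit 0) (nat_lit 76) (XT.lf (nat_lit 0) (nat_lit 9065121025) (nat_lit 1748) (nat_lit 3741050547) (nat_lit 1824) (nat_lit 8688149017) (nat_lit 404) (nat_lit 5) (nat_lit 427) (nat_lit 5) (nat_lit 428) (nat_lit 5) (nat_lit 360) (nat_lit 352) (nat_lit 188)) (XT.lf (nat_lit 0) (nat_lit 10621533403) (nat_lit 1748) (nat_lit 9544294642) (nat_lit 1824) (nat_lit 1660669772) (nat_lit 405) (nat_lit 5) (nat_lit 428) (nat_lit 5) (nat_lit 429) (nat_lit 5) (nat_lit 361) (nat_lit 352) (nat_lit 187))) (XT.nd (nat_lit 78) (nat_lit 0) (nat_lit 76) (XT.lf (nat_lit 76) (nat_lit 6665001429) (nat_lit 0) (nat_lit 5705811388) (nat_lit 1824) (nat_lit 9794907544) (nat_lit 406) (nat_lit 5) (nat_lit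 405) (nat_lit 5) (nat_lit 429) (nat_lit 5) (nat_lit 362) (nat_lit 352) (nat_lit 186)) (XT.nd (nat_lit 78) (nat_lit 0) (nat_lit 76) (XT.lf (nat_lit 76) (nat_lit 923506134) (nat_lit 0) (nat_lit 13371778989) (nat_lit 1824) (nat_lit 8217383558) (nat_lit 407) (nat_lit 5) (nat_lit 406) (nat_lit 5) (nat_lit 430) (nat_lit 5) (nat_lit 363) (nat_lit 352) (nat_lit 185)) (XT.lf (nat_lit 0) (nat_lit 16422951800) (nat_lit 1748) (nat_lit 4869537274) (nat_lit 1824) (nat_lit 1574630465) (nat_lit 407) (nat_lit 5) (nat_lit 430) (nat_lit 5) (nat_lit 431) (nat_lit 5) (nat_lit 364) (nat_lit 352) (nat_lit 184)))))) (XT.nd (nat_lit 390) (nat_lit 3572) (nat_lit 0) (XT.nd (nat_lit 156) (nat_lit 1672) (nat_lit 0) (XT.nd (nat_lit 78) (nat_lit 0) (nat_lit 76) (XT.lf (nat_lit 76) (nat_lit 12419315613) (nat_lit 0) (nat_lit 6357588271) (nat_lit 1824) (nat_lit 4452054126) (nat_lit 408) (nat_lit 5) (nat_lit 407) (nat_lit 5) (nat_lit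 431) (nat_lit 5) (nat_lit 365) (nat_lit 352) (nat_lit 183)) (XT.lf (nat_lit 76) (nat_lit 6715872402) (nat_lit 0) (nat_lit 14613613891) (nat_lit 1824) (nat_lit 2269608208) (nat_lit 409) (nat_lit 5) (nat_lit 408) (nat_lit 5) (nat_lit 432) (nat_lit 5) (nat_lit 366) (nat_lit 352) (nat_lit 182))) (XT.nd (nat_lit 78) (nat_lit 0) (nat_lit 0) (XT.lf (nat_lit 0) (nat_lit 98637783) (nat_lit 1824) (nat_lit 23083988197) (nat_lit 1900) (nat_lit 795314033) (nat_lit 385) (nat_lit 5) (nat_lit 409) (nat_lit 5) (nat_lit 410) (nat_lit 5) (nat_lit 367) (nat_lit 352) (nat_lit 181)) (XT.nd (nat_lit 78) (nat_lit 0) (nat_lit 76) (XT.lf (nat_lit 0) (nat_lit 2713066623) (nat_lit 1824) (nat_lit 5049934626) (nat_lit 1900) (nat_lit 16600733055) (nat_lit 385) (nat_lit 5) (nat_lit 409) (nat_lit 5) (nat_lit 410) (nat_lit 5) (nat_lit 368) (nat_lit 352) (nat_lit 180)) (XT.lf (nat_lit 0) (nat_lit 5541293146) (nat_lit 1824) (nat_lit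 11113746405) (nat_lit 76) (nat_lit 8103358361) (nat_lit 386) (nat_lit 5) (nat_lit 410) (nat_lit 5) (nat_lit 387) (nat_lit 5) (nat_lit 369) (nat_lit 352) (nat_lit 179))))) (XT.nd (nat_lit 156) (nat_lit 1672) (nat_lit 0) (XT.nd (nat_lit 78) (nat_lit 912) (nat_lit 0) (XT.lf (nat_lit 0) (nat_lit 7849968229) (nat_lit 1064) (nat_lit 735007258) (nat_lit 1140) (nat_lit 16577316462) (nat_lit 372) (nat_lit 5) (nat_lit 386) (nat_lit 5) (nat_lit 387) (nat_lit 5) (nat_lit 370) (nat_lit 352) (nat_lit 178)) (XT.lf (nat_lit 0) (nat_lit 1874445756) (nat_lit 912) (nat_lit 10028638336) (nat_lit 988) (nat_lit 13671559024) (nat_lit 360) (nat_lit 5) (nat_lit 372) (nat_lit 5) (nat_lit 373) (nat_lit 5) (nat_lit 371) (nat_lit 352) (nat_lit 177))) (XT.nd (nat_lit 78) (nat_lit 1672) (nat_lit 0) (XT.lf (nat_lit 0) (nat_lit 15478255768) (nat_lit 988) (nat_lit 4175741300) (nat_lit 76) (nat_lit 6342219901) (nat_lit 360) (nat_lit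 5) (nat_lit 373) (nat_lit 5) (nat_lit 361) (nat_lit 5) (nat_lit 372) (nat_lit 352) (nat_lit 176)) (XT.nd (nat_lit 78) (nat_lit 836) (nat_lit 0) (XT.lf (nat_lit 0) (nat_lit 16072436705) (nat_lit 836) (nat_lit 3253453097) (nat_lit 912) (nat_lit 7101246565) (nat_lit 349) (nat_lit 5) (nat_lit 360) (nat_lit 5) (nat_lit 361) (nat_lit 5) (nat_lit 373) (nat_lit 352) (nat_lit 175)) (XT.lf (nat_lit 0) (nat_lit 10153451582) (nat_lit 836) (nat_lit 13312397227) (nat_lit 912) (nat_lit 3401599019) (nat_lit 338) (nat_lit 5) (nat_lit 349) (nat_lit 5) (nat_lit 350) (nat_lit 5) (nat_lit 374) (nat_lit 352) (nat_lit 174))))))))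
noncomputable def xc123 : XT := (XT.nd (nat_lit 46488) (nat_lit 0) (nat_lit 836) (XT.nd (nat_lit 45708) (nat_lit 0) (nat_lit 5320) (XT.nd (nat_lit 45318) (nat_lit 0) (nat_lit 6460) (XT.nd (nat_lit 156) (nat_lit 836) (nat_lit 0) (XT.nd (nat_lit 78) (nat_lit 0) (nat_lit 0) (XT.lf (nat_lit 0) (nat_lit 540271128) (nat_lit 912) (nat_lit 23219616144) (nat_lit 76) (nat_lit 3558298577) (nat_lit 326) (nat_lit 5) (nat_lit 338) (nat_lit 5) (nat_lit 327) (nat_lit 5) (nat_lit 375) (nat_lit 352) (nat_lit 173)) (XT.lf (nat_lit 0) (nat_lit 4751653324) (nat_lit 912) (nat_lit 2134194748) (nat_lit 76) (nat_lit 20892201059) (nat_lit 326) (nat_lit 5) (nat_lit 338) (nat_lit 5) (nat_lit 327) (nat_lit 5) (nat_lit 376) (nat_lit 352) (nat_lit 172))) (XT.nd (nat_lit 45006) (nat_lit 0) (nat_lit 6384) (XT.lf (nat_lit 0) (nat_lit 9281512085) (nat_lit 912) (nat_lit 8479882517) (nat_lit 76) (nat_lit 10486473163) (nat_lit 315) (nat_lit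 5) (nat_lit 327) (nat_lit 5) (nat_lit 316) (nat_lit 5) (nat_lit 377) (nat_lit 352) (nat_lit 171)) (XT.nd (nat_lit 78) (nat_lit 0) (nat_lit 0) (XT.lf (nat_lit 0) (nat_lit 708487200) (nat_lit 0) (nat_lit 708487200) (nat_lit 1748) (nat_lit 8404184082) (nat_lit 399) (nat_lit 5) (nat_lit 399) (nat_lit 3) (nat_lit 422) (nat_lit 3) (nat_lit 353) (nat_lit 353) (nat_lit 194)) (XT.lf (nat_lit 0) (nat_lit 3209163922) (nat_lit 1748) (nat_lit 4358661489) (nat_lit 1824) (nat_lit 12362365351) (nat_lit 399) (nat_lit 5) (nat_lit 422) (nat_lit 3) (nat_lit 423) (nat_lit 5) (nat_lit 354) (nat_lit 353) (nat_lit 193))))) (XT.nd (nat_lit 156) (nat_lit 0) (nat_lit 76) (XT.nd (nat_lit 78) (nat_lit 0) (nat_lit 76) (XT.lf (nat_lit 0) (nat_lit 3701953200) (nat_lit 1748) (nat_lit 10225736593) (nat_lit 1824) (nat_lit 6296888795) (nat_lit 400) (nat_lit 5) (nat_lit 423) (nat_lit 5) (nat_lit 424) (nat_lit 5) (nat_lit 355) (nat_lit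 353) (nat_lit 192)) (XT.lf (nat_lit 0) (nat_lit 4308494085) (nat_lit 1748) (nat_lit 16205798628) (nat_lit 1824) (nat_lit 11530024) (nat_lit 401) (nat_lit 5) (nat_lit 424) (nat_lit 5) (nat_lit 425) (nat_lit 5) (nat_lit 356) (nat_lit 353) (nat_lit 191))) (XT.nd (nat_lit 78) (nat_lit 0) (nat_lit 76) (XT.lf (nat_lit 0) (nat_lit 5086895279) (nat_lit 1748) (nat_lit 1491596246) (nat_lit 1824) (nat_lit 14254543336) (nat_lit 401) (nat_lit 5) (nat_lit 424) (nat_lit 5) (nat_lit 425) (nat_lit 5) (nat_lit 357) (nat_lit 353) (nat_lit 190)) (XT.nd (nat_lit 78) (nat_lit 0) (nat_lit 76) (XT.lf (nat_lit 0) (nat_lit 6020651571) (nat_lit 1748) (nat_lit 7358651041) (nat_lit 1824) (nat_lit 7767524490) (nat_lit 402) (nat_lit 5) (nat_lit 425) (nat_lit 5) (nat_lit 426) (nat_lit 5) (nat_lit 358) (nat_lit 353) (nat_lit 189)) (XT.lf (nat_lit 0) (nat_lit 7087531874) (nat_lit 1748) (nat_lit 13340728851) (nat_lit 1824) (nat_lit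 1039673864) (nat_lit 403) (nat_lit 5) (nat_lit 426) (nat_lit 5) (nat_lit 427) (nat_lit 5) (nat_lit 359) (nat_lit 353) (nat_lit 188)))))) (XT.nd (nat_lit 390) (nat_lit 1368) (nat_lit 0) (XT.nd (nat_lit 156) (nat_lit 0) (nat_lit 152) (XT.nd (nat_lit 78) (nat_lit 0) (nat_lit 76) (XT.lf (nat_lit 76) (nat_lit 2315781430) (nat_lit 0) (nat_lit 6016872169) (nat_lit 1824) (nat_lit 13463100598) (nat_lit 404) (nat_lit 5) (nat_lit 403) (nat_lit 5) (nat_lit 427) (nat_lit 5) (nat_lit 360) (nat_lit 353) (nat_lit 187)) (XT.lf (nat_lit 0) (nat_lit 9755200142) (nat_lit 1748) (nat_lit 3570483824) (nat_lit 1824) (nat_lit 8804926496) (nat_lit 404) (nat_lit 5) (nat_lit 427) (nat_lit 5) (nat_lit 428) (nat_lit 5) (nat_lit 361) (nat_lit 353) (nat_lit 186))) (XT.nd (nat_lit 78) (nat_lit 0) (nat_lit 0) (XT.lf (nat_lit 0) (nat_lit 11347091724) (nat_lit 1748) (nat_lit 9543245086) (nat_lit 1824) (nat_lit 1582645623) (nat_lit 405)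 (nat_lit 5) (nat_lit 428) (nat_lit 5) (nat_lit 429) (nat_lit 5) (nat_lit 362) (nat_lit 353) (nat_lit 185)) (XT.nd (nat_lit 78) (nat_lit 0) (nat_lit 76) (XT.lf (nat_lit 76) (nat_lit 7147667495) (nat_lit 0) (nat_lit 5991165790) (nat_lit 1824) (nat_lit 9683753704) (nat_lit 406) (nat_lit 5) (nat_lit 405) (nat_lit 5) (nat_lit 429) (nat_lit 5) (nat_lit 363) (nat_lit 353) (nat_lit 184)) (XT.lf (nat_lit 76) (nat_lit 1238043402) (nat_lit 0) (nat_lit 13872578841) (nat_lit 1824) (nat_lit 8069534732) (nat_lit 407) (nat_lit 5) (nat_lit 406) (nat_lit 5) (nat_lit 430) (nat_lit 5) (nat_lit 364) (nat_lit 353) (nat_lit 183))))) (XT.nd (nat_lit 156) (nat_lit 1672) (nat_lit 0) (XT.nd (nat_lit 78) (nat_lit 0) (nat_lit 0) (XT.lf (nat_lit 0) (nat_lit 17290234136) (nat_lit 1748) (nat_lit 4728855603) (nat_lit 1824) (nat_lit 1526394039) (nat_lit 407) (nat_lit 5) (nat_lit 430) (nat_lit 5) (nat_lit 431) (nat_lit 5) (nat_lit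 365) (nat_lit 353) (nat_lit 182)) (XT.lf (nat_lit 76) (nat_lit 13074010403) (nat_lit 0) (nat_lit 6631715561) (nat_lit 1824) (nat_lit 4212637602) (nat_lit 408) (nat_lit 5) (nat_lit 407) (nat_lit 5) (nat_lit 431) (nat_lit 5) (nat_lit 366) (nat_lit 353) (nat_lit 181))) (XT.nd (nat_lit 78) (nat_lit 1748) (nat_lit 0) (XT.lf (nat_lit 76) (nat_lit 7202761713) (nat_lit 0) (nat_lit 15122805443) (nat_lit 1824) (nat_lit 1974227823) (nat_lit 409) (nat_lit 5) (nat_lit 408) (nat_lit 5) (nat_lit 432) (nat_lit 5) (nat_lit 367) (nat_lit 353) (nat_lit 180)) (XT.nd (nat_lit 78) (nat_lit 0) (nat_lit 0) (XT.lf (nat_lit 0) (nat_lit 451286642) (nat_lit 1824) (nat_lit 23483330232) (nat_lit 1900) (nat_lit 755526262) (nat_lit 385) (nat_lit 5) (nat_lit 409) (nat_lit 5) (nat_lit 410) (nat_lit 5) (nat_lit 368) (nat_lit 353) (nat_lit 179)) (XT.lf (nat_lit 0) (nat_lit 3133963210) (nat_lit 1824) (nat_lit 4916794207) (nat_lit 1900)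 (nat_lit 17036961657) (nat_lit 385) (nat_lit 5) (nat_lit 409) (nat_lit 5) (nat_lit 410) (nat_lit 5) (nat_lit 369) (nat_lit 353) (nat_lit 178))))))) (XT.nd (nat_lit 45864) (nat_lit 0) (nat_lit 5624) (XT.nd (nat_lit 390) (nat_lit 1748) (nat_lit 0) (XT.nd (nat_lit 156) (nat_lit 1748) (nat_lit 0) (XT.nd (nat_lit 78) (nat_lit 1064) (nat_lit 0) (XT.lf (nat_lit 0) (nat_lit 6038632313) (nat_lit 1824) (nat_lit 11160042593) (nat_lit 76) (nat_lit 8295719763) (nat_lit 386) (nat_lit 5) (nat_lit 410) (nat_lit 5) (nat_lit 387) (nat_lit 5) (nat_lit 370) (nat_lit 353) (nat_lit 177)) (XT.lf (nat_lit 0) (nat_lit 8367925360) (nat_lit 1064) (nat_lit 797889969) (nat_lit 1140) (nat_lit 16744750273) (nat_lit 372) (nat_lit 5) (nat_lit 386) (nat_lit 5) (nat_lit 387) (nat_lit 5) (nat_lit 371) (nat_lit 353) (nat_lit 176))) (XT.nd (nat_lit 78) (nat_lit 836) (nat_lit 0) (XT.lf (nat_lit 0) (nat_lit 2215303584) (nat_lit 912) (nat_lit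 10360337959) (nat_lit 988) (nat_lit 13759806040) (nat_lit 360) (nat_lit 5) (nat_lit 372) (nat_lit 5) (nat_lit 373) (nat_lit 5) (nat_lit 372) (nat_lit 353) (nat_lit 175)) (XT.nd (nat_lit 78) (nat_lit 836) (nat_lit 0) (XT.lf (nat_lit 0) (nat_lit 16248685665) (nat_lit 988) (nat_lit 4018237308) (nat_lit 76) (nat_lit 6502936989) (nat_lit 360) (nat_lit 5) (nat_lit 373) (nat_lit 5) (nat_lit 361) (nat_lit 5) (nat_lit 373) (nat_lit 353) (nat_lit 174)) (XT.lf (nat_lit 0) (nat_lit 16832798328) (nat_lit 836) (nat_lit 3371841560) (nat_lit 912) (nat_lit 7009212780) (nat_lit 349) (nat_lit 5) (nat_lit 360) (nat_lit 5) (nat_lit 361) (nat_lit 5) (nat_lit 374) (nat_lit 353) (nat_lit 173))))) (XT.nd (nat_lit 45240) (nat_lit 0) (nat_lit 5548) (XT.nd (nat_lit 78) (nat_lit 912) (nat_lit 0) (XT.lf (nat_lit 0) (nat_lit 10737861994) (nat_lit 836) (nat_lit 13723913382) (nat_lit 912) (nat_lit 3205741989) (nat_lit 338) (nat_lit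 5) (nat_lit 349) (nat_lit 5) (nat_lit 350) (nat_lit 5) (nat_lit 375) (nat_lit 353) (nat_lit 172)) (XT.lf (nat_lit 0) (nat_lit 843674922) (nat_lit 912) (nat_lit 23631076404) (nat_lit 76) (nat_lit 3657126842) (nat_lit 326) (nat_lit 5) (nat_lit 338) (nat_lit 5) (nat_lit 327) (nat_lit 5) (nat_lit 376) (nat_lit 353) (nat_lit 171))) (XT.nd (nat_lit 78) (nat_lit 0) (nat_lit 0) (XT.lf (nat_lit 0) (nat_lit 854220902) (nat_lit 0) (nat_lit 854220902) (nat_lit 1748) (nat_lit 8402266456) (nat_lit 399) (nat_lit 5) (nat_lit 399) (nat_lit 3) (nat_lit 422) (nat_lit 3) (nat_lit 354) (nat_lit 354) (nat_lit 192)) (XT.nd (nat_lit 78) (nat_lit 0) (nat_lit 76) (XT.lf (nat_lit 0) (nat_lit 3787283444) (nat_lit 1748) (nat_lit 4236271306) (nat_lit 1824) (nat_lit 12494699379) (nat_lit 399) (nat_lit 5) (nat_lit 422) (nat_lit 3) (nat_lit 423) (nat_lit 5) (nat_lit 355) (nat_lit 354) (nat_lit 191)) (XT.lf (nat_lit 0) (nat_lit 4281008163)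 (nat_lit 1748) (nat_lit 10272446817) (nat_lit 1824) (nat_lit 6268301560) (nat_lit 400) (nat_lit 5) (nat_lit 423) (nat_lit 5) (nat_lit 424) (nat_lit 5) (nat_lit 356) (nat_lit 354) (nat_lit 190)))))) (XT.nd (nat_lit 390) (nat_lit 0) (nat_lit 304) (XT.nd (nat_lit 156) (nat_lit 0) (nat_lit 152) (XT.nd (nat_lit 78) (nat_lit 0) (nat_lit 76) (XT.lf (nat_lit 76) (nat_lit 4705547206) (nat_lit 0) (nat_lit 188150076) (nat_lit 1824) (nat_lit 16238587502) (nat_lit 401) (nat_lit 5) (nat_lit 400) (nat_lit 5) (nat_lit 424) (nat_lit 5) (nat_lit 357) (nat_lit 354) (nat_lit 189)) (XT.lf (nat_lit 0) (nat_lit 5680984447) (nat_lit 1748) (nat_lit 1277648401) (nat_lit 1824) (nat_lit 14490375384) (nat_lit 401) (nat_lit 5) (nat_lit 424) (nat_lit 5) (nat_lit 425) (nat_lit 5) (nat_lit 358) (nat_lit 354) (nat_lit 188))) (XT.nd (nat_lit 78) (nat_lit 0) (nat_lit 76) (XT.lf (nat_lit 0) (nat_lit 6630405831) (nat_lit 1748) (nat_lit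 7314982537) (nat_lit 1824) (nat_lit 7827078301) (nat_lit 402) (nat_lit 5) (nat_lit 425) (nat_lit 5) (nat_lit 426) (nat_lit 5) (nat_lit 359) (nat_lit 354) (nat_lit 187)) (XT.nd (nat_lit 78) (nat_lit 0) (nat_lit 0) (XT.lf (nat_lit 0) (nat_lit 7717455410) (nat_lit 1748) (nat_lit 13471241932) (nat_lit 1824) (nat_lit 914752098) (nat_lit 403) (nat_lit 5) (nat_lit 426) (nat_lit 5) (nat_lit 427) (nat_lit 5) (nat_lit 360) (nat_lit 354) (nat_lit 186)) (XT.lf (nat_lit 76) (nat_lit 2650587953) (nat_lit 0) (nat_lit 6338911255) (nat_lit 1824) (nat_lit 13451818223) (nat_lit 404) (nat_lit 5) (nat_lit 403) (nat_lit 5) (nat_lit 427) (nat_lit 5) (nat_lit 361) (nat_lit 354) (nat_lit 185))))) (XT.nd (nat_lit 156) (nat_lit 0) (nat_lit 76) (XT.nd (nat_lit 78) (nat_lit 0) (nat_lit 76) (XT.lf (nat_lit 0) (nat_lit 10441979519) (nat_lit 1748) (nat_lit 3411033875) (nat_lit 1824) (nat_lit 8933465854) (nat_lit 404) (nat_lit 5)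 (nat_lit 427) (nat_lit 5) (nat_lit 428) (nat_lit 5) (nat_lit 362) (nat_lit 354) (nat_lit 184)) (XT.lf (nat_lit 0) (nat_lit 12071058362) (nat_lit 1748) (nat_lit 9558660739) (nat_lit 1824) (nat_lit 1509619532) (nat_lit 405) (nat_lit 5) (nat_lit 428) (nat_lit 5) (nat_lit 429) (nat_lit 5) (nat_lit 363) (nat_lit 354) (nat_lit 183))) (XT.nd (nat_lit 78) (nat_lit 0) (nat_lit 76) (XT.lf (nat_lit 76) (nat_lit 7628584485) (nat_lit 0) (nat_lit 6278526423) (nat_lit 1824) (nat_lit 9592513968) (nat_lit 406) (nat_lit 5) (nat_lit 405) (nat_lit 5) (nat_lit 429) (nat_lit 5) (nat_lit 364) (nat_lit 354) (nat_lit 182)) (XT.nd (nat_lit 78) (nat_lit 0) (nat_lit 76) (XT.lf (nat_lit 76) (nat_lit 1545551454) (nat_lit 0) (nat_lit 14382682573) (nat_lit 1824) (nat_lit 7939888911) (nat_lit 407) (nat_lit 5) (nat_lit 406) (nat_lit 5) (nat_lit 430) (nat_lit 5) (nat_lit 365) (nat_lit 354) (nat_lit 181)) (XT.lf (nat_lit 0) (nat_lit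 18162031727) (nat_lit 1748) (nat_lit 4600415127) (nat_lit 1824) (nat_lit 1482191194) (nat_lit 407) (nat_lit 5) (nat_lit 430) (nat_lit 5) (nat_lit 431) (nat_lit 5) (nat_lit 366) (nat_lit 354) (nat_lit 180))))))))
noncomputable def xc124 : XT := (XT.nd (nat_lit 46722) (nat_lit 0) (nat_lit 1672) (XT.nd (nat_lit 45942) (nat_lit 0) (nat_lit 4636) (XT.nd (nat_lit 390) (nat_lit 3572) (nat_lit 0) (XT.nd (nat_lit 156) (nat_lit 1672) (nat_lit 0) (XT.nd (nat_lit 78) (nat_lit 0) (nat_lit 76) (XT.lf (nat_lit 76) (nat_lit 13732151463) (nat_lit 0) (nat_lit 6909279189) (nat_lit 1824) (nat_lit 3987449055) (nat_lit 408) (nat_lit 5) (nat_lit 407) (nat_lit 5) (nat_lit 431) (nat_lit 5) (nat_lit 367) (nat_lit 354) (nat_lit 179)) (XT.lf (nat_lit 76) (nat_lit 7687873822) (nat_lit 0) (nat_lit 15643209500) (nat_lit 1824) (nat_lit 1690850614) (nat_lit 409) (nat_lit 5) (nat_lit 408) (nat_lit 5) (nat_lit 432) (nat_lit 5) (nat_lit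 368) (nat_lit 354) (nat_lit 178))) (XT.nd (nat_lit 78) (nat_lit 0) (nat_lit 0) (XT.lf (nat_lit 0) (nat_lit 794441347) (nat_lit 1824) (nat_lit 23911482122) (nat_lit 1900) (nat_lit 718198468) (nat_lit 385) (nat_lit 5) (nat_lit 409) (nat_lit 5) (nat_lit 410) (nat_lit 5) (nat_lit 369) (nat_lit 354) (nat_lit 177)) (XT.nd (nat_lit 78) (nat_lit 0) (nat_lit 76) (XT.lf (nat_lit 0) (nat_lit 3547997743) (nat_lit 1824) (nat_lit 4795998988) (nat_lit 1900) (nat_lit 17489824310) (nat_lit 385) (nat_lit 5) (nat_lit 409) (nat_lit 5) (nat_lit 410) (nat_lit 5) (nat_lit 370) (nat_lit 354) (nat_lit 176)) (XT.lf (nat_lit 0) (nat_lit 6531885139) (nat_lit 1824) (nat_lit 11224209312) (nat_lit 76) (nat_lit 8496764654) (nat_lit 386) (nat_lit 5) (nat_lit 410) (nat_lit 5) (nat_lit 387) (nat_lit 5) (nat_lit 371) (nat_lit 354) (nat_lit 175))))) (XT.nd (nat_lit 156) (nat_lit 1672) (nat_lit 0) (XT.nd (nat_lit 78) (nat_lit 912) (nat_lit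 0) (XT.lf (nat_lit 0) (nat_lit 8885206956) (nat_lit 1064) (nat_lit 860315209) (nat_lit 1140) (nat_lit 16936143887) (nat_lit 372) (nat_lit 5) (nat_lit 386) (nat_lit 5) (nat_lit 387) (nat_lit 5) (nat_lit 372) (nat_lit 354) (nat_lit 174)) (XT.lf (nat_lit 0) (nat_lit 2550048539) (nat_lit 912) (nat_lit 10700218201) (nat_lit 988) (nat_lit 13869178830) (nat_lit 360) (nat_lit 5) (nat_lit 372) (nat_lit 5) (nat_lit 373) (nat_lit 5) (nat_lit 373) (nat_lit 354) (nat_lit 173))) (XT.nd (nat_lit 78) (nat_lit 1672) (nat_lit 0) (XT.lf (nat_lit 0) (nat_lit 17024658088) (nat_lit 988) (nat_lit 3872240708) (nat_lit 76) (nat_lit 6670171852) (nat_lit 360) (nat_lit 5) (nat_lit 373) (nat_lit 5) (nat_lit 361) (nat_lit 5) (nat_lit 374) (nat_lit 354) (nat_lit 172)) (XT.nd (nat_lit 78) (nat_lit 836) (nat_lit 0) (XT.lf (nat_lit 0) (nat_lit 17600001642) (nat_lit 836) (nat_lit 3492588540) (nat_lit 912) (nat_lit 6931930315) (nat_lit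 349) (nat_lit 5) (nat_lit 360) (nat_lit 5) (nat_lit 361) (nat_lit 5) (nat_lit 375) (nat_lit 354) (nat_lit 171)) (XT.lf (nat_lit 0) (nat_lit 11323742660) (nat_lit 836) (nat_lit 14147077893) (nat_lit 912) (nat_lit 3021110214) (nat_lit 338) (nat_lit 5) (nat_lit 349) (nat_lit 5) (nat_lit 350) (nat_lit 5) (nat_lit 376) (nat_lit 354) (nat_lit 170)))))) (XT.nd (nat_lit 390) (nat_lit 0) (nat_lit 228) (XT.nd (nat_lit 156) (nat_lit 0) (nat_lit 76) (XT.nd (nat_lit 78) (nat_lit 0) (nat_lit 0) (XT.lf (nat_lit 0) (nat_lit 997181006) (nat_lit 0) (nat_lit 997181006) (nat_lit 1748) (nat_lit 8414874416) (nat_lit 399) (nat_lit 5) (nat_lit 399) (nat_lit 3) (nat_lit 422) (nat_lit 3) (nat_lit 355) (nat_lit 355) (nat_lit 190)) (XT.lf (nat_lit 0) (nat_lit 4355086700) (nat_lit 1748) (nat_lit 4124741266) (nat_lit 1824) (nat_lit 12644696423) (nat_lit 399) (nat_lit 5) (nat_lit 422) (nat_lit 3) (nat_lit 423) (nat_lit 5) (nat_lit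 356) (nat_lit 355) (nat_lit 189))) (XT.nd (nat_lit 78) (nat_lit 0) (nat_lit 0) (XT.lf (nat_lit 0) (nat_lit 4850569868) (nat_lit 1748) (nat_lit 10335486963) (nat_lit 1824) (nat_lit 6251341746) (nat_lit 400) (nat_lit 5) (nat_lit 423) (nat_lit 5) (nat_lit 424) (nat_lit 5) (nat_lit 357) (nat_lit 355) (nat_lit 188)) (XT.nd (nat_lit 78) (nat_lit 0) (nat_lit 76) (XT.lf (nat_lit 76) (nat_lit 5087869884) (nat_lit 0) (nat_lit 382487033) (nat_lit 1824) (nat_lit 16287116883) (nat_lit 401) (nat_lit 5) (nat_lit 400) (nat_lit 5) (nat_lit 424) (nat_lit 5) (nat_lit 358) (nat_lit 355) (nat_lit 187)) (XT.lf (nat_lit 0) (nat_lit 6267553399) (nat_lit 1748) (nat_lit 1072132314) (nat_lit 1824) (nat_lit 14744292743) (nat_lit 401) (nat_lit 5) (nat_lit 424) (nat_lit 5) (nat_lit 425) (nat_lit 5) (nat_lit 359) (nat_lit 355) (nat_lit 186))))) (XT.nd (nat_lit 156) (nat_lit 0) (nat_lit 76) (XT.nd (nat_lit 78) (nat_lit 0) (nat_lit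 76) (XT.lf (nat_lit 0) (nat_lit 7233818631) (nat_lit 1748) (nat_lit 7285183229) (nat_lit 1824) (nat_lit 7898376724) (nat_lit 402) (nat_lit 5) (nat_lit 425) (nat_lit 5) (nat_lit 426) (nat_lit 5) (nat_lit 360) (nat_lit 355) (nat_lit 185)) (XT.lf (nat_lit 0) (nat_lit 8342322064) (nat_lit 1748) (nat_lit 13621152793) (nat_lit 1824) (nat_lit 795044146) (nat_lit 403) (nat_lit 5) (nat_lit 426) (nat_lit 5) (nat_lit 427) (nat_lit 5) (nat_lit 361) (nat_lit 355) (nat_lit 184))) (XT.nd (nat_lit 78) (nat_lit 0) (nat_lit 76) (XT.lf (nat_lit 76) (nat_lit 2980207467) (nat_lit 0) (nat_lit 6662486944) (nat_lit 1824) (nat_lit 13464030144) (nat_lit 404) (nat_lit 5) (nat_lit 403) (nat_lit 5) (nat_lit 427) (nat_lit 5) (nat_lit 362) (nat_lit 355) (nat_lit 183)) (XT.nd (nat_lit 78) (nat_lit 0) (nat_lit 76) (XT.lf (nat_lit 0) (nat_lit 11126737984) (nat_lit 1748) (nat_lit 3262102318) (nat_lit 1824) (nat_lit 9073645872) (nat_lit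 404) (nat_lit 5) (nat_lit 427) (nat_lit 5) (nat_lit 428) (nat_lit 5) (nat_lit 363) (nat_lit 355) (nat_lit 182)) (XT.lf (nat_lit 0) (nat_lit 12794726438) (nat_lit 1748) (nat_lit 9590088579) (nat_lit 1824) (nat_lit 1441320165) (nat_lit 405) (nat_lit 5) (nat_lit 428) (nat_lit 5) (nat_lit 429) (nat_lit 5) (nat_lit 364) (nat_lit 355) (nat_lit 181))))))) (XT.nd (nat_lit 780) (nat_lit 0) (nat_lit 0) (XT.nd (nat_lit 390) (nat_lit 3420) (nat_lit 0) (XT.nd (nat_lit 156) (nat_lit 0) (nat_lit 152) (XT.nd (nat_lit 78) (nat_lit 0) (nat_lit 76) (XT.lf (nat_lit 76) (nat_lit 8108631544) (nat_lit 0) (nat_lit 6568329721) (nat_lit 1824) (nat_lit 9520451186) (nat_lit 406) (nat_lit 5) (nat_lit 405) (nat_lit 5) (nat_lit 429) (nat_lit 5) (nat_lit 365) (nat_lit 355) (nat_lit 180)) (XT.lf (nat_lit 76) (nat_lit 1846764590) (nat_lit 0) (nat_lit 14902697659) (nat_lit 1824) (nat_lit 7827692645) (nat_lit 407) (nat_lit 5) (nat_lit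 406) (nat_lit 5) (nat_lit 430) (nat_lit 5) (nat_lit 366) (nat_lit 355) (nat_lit 179))) (XT.nd (nat_lit 78) (nat_lit 0) (nat_lit 0) (XT.lf (nat_lit 0) (nat_lit 19039714403) (nat_lit 1748) (nat_lit 4483638116) (nat_lit 1824) (nat_lit 1441828327) (nat_lit 407) (nat_lit 5) (nat_lit 430) (nat_lit 5) (nat_lit 431) (nat_lit 5) (nat_lit 367) (nat_lit 355) (nat_lit 178)) (XT.nd (nat_lit 78) (nat_lit 0) (nat_lit 76) (XT.lf (nat_lit 76) (nat_lit 14394771816) (nat_lit 0) (nat_lit 7190657067) (nat_lit 1824) (nat_lit 3775686273) (nat_lit 408) (nat_lit 5) (nat_lit 407) (nat_lit 5) (nat_lit 431) (nat_lit 5) (nat_lit 368) (nat_lit 355) (nat_lit 177)) (XT.lf (nat_lit 76) (nat_lit 8172095913) (nat_lit 0) (nat_lit 16175395684) (nat_lit 1824) (nat_lit 1418638962) (nat_lit 409) (nat_lit 5) (nat_lit 408) (nat_lit 5) (nat_lit 432) (nat_lit 5) (nat_lit 369) (nat_lit 355) (nat_lit 176))))) (XT.nd (nat_lit 156) (nat_lit 1900)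 (nat_lit 0) (XT.nd (nat_lit 78) (nat_lit 0) (nat_lit 0) (XT.lf (nat_lit 0) (nat_lit 1128969379) (nat_lit 1824) (nat_lit 24368342076) (nat_lit 1900) (nat_lit 683194716) (nat_lit 385) (nat_lit 5) (nat_lit 409) (nat_lit 5) (nat_lit 410) (nat_lit 5) (nat_lit 370) (nat_lit 355) (nat_lit 175)) (XT.lf (nat_lit 0) (nat_lit 3956083104) (nat_lit 1824) (nat_lit 4686981375) (nat_lit 1900) (nat_lit 17959616412) (nat_lit 385) (nat_lit 5) (nat_lit 409) (nat_lit 5) (nat_lit 410) (nat_lit 5) (nat_lit 371) (nat_lit 355) (nat_lit 174))) (XT.nd (nat_lit 78) (nat_lit 1976) (nat_lit 0) (XT.lf (nat_lit 0) (nat_lit 7022020085) (nat_lit 1824) (nat_lit 11305836563) (nat_lit 76) (nat_lit 8706586339) (nat_lit 386) (nat_lit 5) (nat_lit 410) (nat_lit 5) (nat_lit 387) (nat_lit 5) (nat_lit 372) (nat_lit 355) (nat_lit 173)) (XT.nd (nat_lit 78) (nat_lit 912) (nat_lit 0) (XT.lf (nat_lit 0) (nat_lit 9402723514) (nat_lit 1064) (nat_lit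 922403807) (nat_lit 1140) (nat_lit 17151129047) (nat_lit 372) (nat_lit 5) (nat_lit 386) (nat_lit 5) (nat_lit 387) (nat_lit 5) (nat_lit 373) (nat_lit 355) (nat_lit 172)) (XT.lf (nat_lit 0) (nat_lit 2879435137) (nat_lit 912) (nat_lit 11048626108) (nat_lit 988) (nat_lit 13999250433) (nat_lit 360) (nat_lit 5) (nat_lit 372) (nat_lit 5) (nat_lit 373) (nat_lit 5) (nat_lit 374) (nat_lit 355) (nat_lit 171)))))) (XT.nd (nat_lit 45708) (nat_lit 0) (nat_lit 3116) (XT.nd (nat_lit 45474) (nat_lit 0) (nat_lit 2964) (XT.nd (nat_lit 45396) (nat_lit 0) (nat_lit 2964) (XT.lf (nat_lit 0) (nat_lit 17807347923) (nat_lit 988) (nat_lit 3737164911) (nat_lit 76) (nat_lit 6844022652) (nat_lit 360) (nat_lit 5) (nat_lit 373) (nat_lit 5) (nat_lit 361) (nat_lit 5) (nat_lit 375) (nat_lit 355) (nat_lit 170)) (XT.lf (nat_lit 0) (nat_lit 1137694492) (nat_lit 0) (nat_lit 1137694492) (nat_lit 1748) (nat_lit 8441606601) (nat_lit 399)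 (nat_lit 5) (nat_lit 399) (nat_lit 3) (nat_lit 422) (nat_lit 3) (nat_lit 356) (nat_lit 356) (nat_lit 188))) (XT.nd (nat_lit 78) (nat_lit 0) (nat_lit 76) (XT.lf (nat_lit 0) (nat_lit 4913851992) (nat_lit 1748) (nat_lit 4023562983) (nat_lit 1824) (nat_lit 12812100340) (nat_lit 399) (nat_lit 5) (nat_lit 422) (nat_lit 3) (nat_lit 423) (nat_lit 5) (nat_lit 357) (nat_lit 356) (nat_lit 187)) (XT.nd (nat_lit 78) (nat_lit 0) (nat_lit 0) (XT.lf (nat_lit 0) (nat_lit 5411895675) (nat_lit 1748) (nat_lit 10414489965) (nat_lit 1824) (nat_lit 6245641486) (nat_lit 400) (nat_lit 5) (nat_lit 423) (nat_lit 5) (nat_lit 424) (nat_lit 5) (nat_lit 358) (nat_lit 356) (nat_lit 186)) (XT.lf (nat_lit 76) (nat_lit 5467818887) (nat_lit 0) (nat_lit 571822381) (nat_lit 1824) (nat_lit 16362281201) (nat_lit 401) (nat_lit 5) (nat_lit 400) (nat_lit 5) (nat_lit 424) (nat_lit 5) (nat_lit 359) (nat_lit 356) (nat_lit 185))))) (XT.nd (nat_lit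 156) (nat_lit 0) (nat_lit 152) (XT.nd (nat_lit 78) (nat_lit 0) (nat_lit 76) (XT.lf (nat_lit 0) (nat_lit 6847831315) (nat_lit 1748) (nat_lit 874448476) (nat_lit 1824) (nat_lit 15016205932) (nat_lit 401) (nat_lit 5) (nat_lit 424) (nat_lit 5) (nat_lit 425) (nat_lit 5) (nat_lit 360) (nat_lit 356) (nat_lit 184)) (XT.lf (nat_lit 0) (nat_lit 7832113825) (nat_lit 1748) (nat_lit 7268797841) (nat_lit 1824) (nat_lit 7981200468) (nat_lit 402) (nat_lit 5) (nat_lit 425) (nat_lit 5) (nat_lit 426) (nat_lit 5) (nat_lit 361) (nat_lit 356) (nat_lit 183))) (XT.nd (nat_lit 78) (nat_lit 0) (nat_lit 0) (XT.lf (nat_lit 0) (nat_lit 8963355221) (nat_lit 1748) (nat_lit 13790154615) (nat_lit 1824) (nat_lit 680191996) (nat_lit 403) (nat_lit 5) (nat_lit 426) (nat_lit 5) (nat_lit 427) (nat_lit 5) (nat_lit 362) (nat_lit 356) (nat_lit 182)) (XT.nd (nat_lit 78) (nat_lit 0) (nat_lit 76) (XT.lf (nat_lit 76) (nat_lit 3305358695) (nat_lit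 0) (nat_lit 6988111718) (nat_lit 1824) (nat_lit 13499073090) (nat_lit 404) (nat_lit 5) (nat_lit 403) (nat_lit 5) (nat_lit 427) (nat_lit 5) (nat_lit 363) (nat_lit 356) (nat_lit 181)) (XT.lf (nat_lit 0) (nat_lit 11810713635) (nat_lit 1748) (nat_lit 3123126314) (nat_lit 1824) (nat_lit 9225368908) (nat_lit 404) (nat_lit 5) (nat_lit 427) (nat_lit 5) (nat_lit 428) (nat_lit 5) (nat_lit 364) (nat_lit 356) (nat_lit 180))))))))
noncomputable def xc125 : XT := (XT.nd (nat_lit 46956) (nat_lit 0) (nat_lit 1900) (XT.nd (nat_lit 780) (nat_lit 912) (nat_lit 0) (XT.nd (nat_lit 390) (nat_lit 2508) (nat_lit 0) (XT.nd (nat_lit 156) (nat_lit 0) (nat_lit 76) (XT.nd (nat_lit 78) (nat_lit 0) (nat_lit 0) (XT.lf (nat_lit 0) (nat_lit 13519350892) (nat_lit 1748) (nat_lit 9637116354) (nat_lit 1824) (nat_lit 1377492229) (nat_lit 405) (nat_lit 5) (nat_lit 428) (nat_lit 5) (nat_lit 429) (nat_lit 5) (nat_lit 365) (nat_lit 356) (nat_lit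 179)) (XT.lf (nat_lit 76) (nat_lit 8588660708) (nat_lit 0) (nat_lit 6861003616) (nat_lit 1824) (nat_lit 9466882705) (nat_lit 406) (nat_lit 5) (nat_lit 405) (nat_lit 5) (nat_lit 429) (nat_lit 5) (nat_lit 366) (nat_lit 356) (nat_lit 178))) (XT.nd (nat_lit 78) (nat_lit 0) (nat_lit 76) (XT.lf (nat_lit 76) (nat_lit 2142384883) (nat_lit 0) (nat_lit 15433230949) (nat_lit 1824) (nat_lit 7732244480) (nat_lit 407) (nat_lit 5) (nat_lit 406) (nat_lit 5) (nat_lit 430) (nat_lit 5) (nat_lit 367) (nat_lit 356) (nat_lit 177)) (XT.nd (nat_lit 78) (nat_lit 0) (nat_lit 0) (XT.lf (nat_lit 0) (nat_lit 19924622230) (nat_lit 1748) (nat_lit 4377983751) (nat_lit 1824) (nat_lit 1405124082) (nat_lit 407) (nat_lit 5) (nat_lit 430) (nat_lit 5) (nat_lit 431) (nat_lit 5) (nat_lit 368) (nat_lit 356) (nat_lit 176)) (XT.lf (nat_lit 76) (nat_lit 15062882111) (nat_lit 0) (nat_lit 7476222666) (nat_lit 1824) (nat_lit 3576593535) (nat_lit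 408) (nat_lit 5) (nat_lit 407) (nat_lit 5) (nat_lit 431) (nat_lit 5) (nat_lit 369) (nat_lit 356) (nat_lit 175))))) (XT.nd (nat_lit 156) (nat_lit 988) (nat_lit 0) (XT.nd (nat_lit 78) (nat_lit 1748) (nat_lit 0) (XT.lf (nat_lit 76) (nat_lit 8656287801) (nat_lit 0) (nat_lit 16719937316) (nat_lit 1824) (nat_lit 1156798875) (nat_lit 409) (nat_lit 5) (nat_lit 408) (nat_lit 5) (nat_lit 432) (nat_lit 5) (nat_lit 370) (nat_lit 356) (nat_lit 174)) (XT.lf (nat_lit 0) (nat_lit 1455698101) (nat_lit 1824) (nat_lit 24853860705) (nat_lit 1900) (nat_lit 650387036) (nat_lit 385) (nat_lit 5) (nat_lit 409) (nat_lit 5) (nat_lit 410) (nat_lit 5) (nat_lit 371) (nat_lit 356) (nat_lit 173))) (XT.nd (nat_lit 78) (nat_lit 988) (nat_lit 0) (XT.lf (nat_lit 0) (nat_lit 4359095345) (nat_lit 1824) (nat_lit 4589210590) (nat_lit 1900) (nat_lit 18446653913) (nat_lit 385) (nat_lit 5) (nat_lit 409) (nat_lit 5) (nat_lit 410) (nat_lit 5)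 (nat_lit 372) (nat_lit 356) (nat_lit 172)) (XT.nd (nat_lit 78) (nat_lit 1064) (nat_lit 0) (XT.lf (nat_lit 0) (nat_lit 7509972037) (nat_lit 1824) (nat_lit 11404556360) (nat_lit 76) (nat_lit 8925290524) (nat_lit 386) (nat_lit 5) (nat_lit 410) (nat_lit 5) (nat_lit 387) (nat_lit 5) (nat_lit 373) (nat_lit 356) (nat_lit 171)) (XT.lf (nat_lit 0) (nat_lit 9921359418) (nat_lit 1064) (nat_lit 984272491) (nat_lit 1140) (nat_lit 17389388853) (nat_lit 372) (nat_lit 5) (nat_lit 386) (nat_lit 5) (nat_lit 387) (nat_lit 5) (nat_lit 374) (nat_lit 356) (nat_lit 170)))))) (XT.nd (nat_lit 45786) (nat_lit 0) (nat_lit 3116) (XT.nd (nat_lit 45552) (nat_lit 0) (nat_lit 2964) (XT.nd (nat_lit 45474) (nat_lit 0) (nat_lit 2964) (XT.lf (nat_lit 0) (nat_lit 3204186691) (nat_lit 912) (nat_lit 11405913302) (nat_lit 988) (nat_lit 14149641970) (nat_lit 360) (nat_lit 5) (nat_lit 372) (nat_lit 5) (nat_lit 373) (nat_lit 5) (nat_lit 375)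 (nat_lit 356) (nat_lit 169)) (XT.lf (nat_lit 0) (nat_lit 1276074602) (nat_lit 0) (nat_lit 1276074602) (nat_lit 1748) (nat_lit 8482097661) (nat_lit 399) (nat_lit 5) (nat_lit 399) (nat_lit 3) (nat_lit 422) (nat_lit 3) (nat_lit 357) (nat_lit 357) (nat_lit 186))) (XT.nd (nat_lit 78) (nat_lit 0) (nat_lit 76) (XT.lf (nat_lit 0) (nat_lit 5464804822) (nat_lit 1748) (nat_lit 3932260711) (nat_lit 1824) (nat_lit 12996692425) (nat_lit 399) (nat_lit 5) (nat_lit 422) (nat_lit 3) (nat_lit 423) (nat_lit 5) (nat_lit 358) (nat_lit 357) (nat_lit 185)) (XT.nd (nat_lit 78) (nat_lit 0) (nat_lit 0) (XT.lf (nat_lit 0) (nat_lit 5966192134) (nat_lit 1748) (nat_lit 10509126939) (nat_lit 1824) (nat_lit 6250863014) (nat_lit 400) (nat_lit 5) (nat_lit 423) (nat_lit 5) (nat_lit 424) (nat_lit 5) (nat_lit 359) (nat_lit 357) (nat_lit 184)) (XT.lf (nat_lit 76) (nat_lit 5846117669) (nat_lit 0) (nat_lit 756627855) (nat_lit 1824) (nat_lit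 16463434123) (nat_lit 401) (nat_lit 5) (nat_lit 400) (nat_lit 5) (nat_lit 424) (nat_lit 5) (nat_lit 360) (nat_lit 357) (nat_lit 183))))) (XT.nd (nat_lit 156) (nat_lit 0) (nat_lit 152) (XT.nd (nat_lit 78) (nat_lit 0) (nat_lit 76) (XT.lf (nat_lit 0) (nat_lit 7423000738) (nat_lit 1748) (nat_lit 684028328) (nat_lit 1824) (nat_lit 15306059068) (nat_lit 401) (nat_lit 5) (nat_lit 424) (nat_lit 5) (nat_lit 425) (nat_lit 5) (nat_lit 361) (nat_lit 357) (nat_lit 182)) (XT.lf (nat_lit 0) (nat_lit 8426470806) (nat_lit 1748) (nat_lit 7265407460) (nat_lit 1824) (nat_lit 8075356477) (nat_lit 402) (nat_lit 5) (nat_lit 425) (nat_lit 5) (nat_lit 426) (nat_lit 5) (nat_lit 362) (nat_lit 357) (nat_lit 181))) (XT.nd (nat_lit 78) (nat_lit 0) (nat_lit 0) (XT.lf (nat_lit 0) (nat_lit 9581736031) (nat_lit 1748) (nat_lit 13977982393) (nat_lit 1824) (nat_lit 569856429) (nat_lit 403) (nat_lit 5) (nat_lit 426) (nat_lit 5) (nat_lit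 427) (nat_lit 5) (nat_lit 363) (nat_lit 357) (nat_lit 180)) (XT.nd (nat_lit 78) (nat_lit 0) (nat_lit 76) (XT.lf (nat_lit 76) (nat_lit 3626731733) (nat_lit 0) (nat_lit 7316286662) (nat_lit 1824) (nat_lit 13556342428) (nat_lit 404) (nat_lit 5) (nat_lit 403) (nat_lit 5) (nat_lit 427) (nat_lit 5) (nat_lit 364) (nat_lit 357) (nat_lit 179)) (XT.lf (nat_lit 0) (nat_lit 12495107164) (nat_lit 1748) (nat_lit 2993576561) (nat_lit 1824) (nat_lit 9388560044) (nat_lit 404) (nat_lit 5) (nat_lit 427) (nat_lit 5) (nat_lit 428) (nat_lit 5) (nat_lit 365) (nat_lit 357) (nat_lit 178))))))) (XT.nd (nat_lit 46332) (nat_lit 0) (nat_lit 1064) (XT.nd (nat_lit 390) (nat_lit 1520) (nat_lit 0) (XT.nd (nat_lit 156) (nat_lit 0) (nat_lit 76) (XT.nd (nat_lit 78) (nat_lit 0) (nat_lit 0) (XT.lf (nat_lit 0) (nat_lit 14246151760) (nat_lit 1748) (nat_lit 9699370686) (nat_lit 1824) (nat_lit 1317895571) (nat_lit 405) (nat_lit 5) (nat_lit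 428) (nat_lit 5) (nat_lit 429) (nat_lit 5) (nat_lit 366) (nat_lit 357) (nat_lit 177)) (XT.lf (nat_lit 76) (nat_lit 9069499168) (nat_lit 0) (nat_lit 7156968519) (nat_lit 1824) (nat_lit 9431177605) (nat_lit 406) (nat_lit 5) (nat_lit 405) (nat_lit 5) (nat_lit 429) (nat_lit 5) (nat_lit 367) (nat_lit 357) (nat_lit 176))) (XT.nd (nat_lit 78) (nat_lit 0) (nat_lit 76) (XT.lf (nat_lit 76) (nat_lit 2433084326) (nat_lit 0) (nat_lit 15974889730) (nat_lit 1824) (nat_lit 7652892231) (nat_lit 407) (nat_lit 5) (nat_lit 406) (nat_lit 5) (nat_lit 430) (nat_lit 5) (nat_lit 368) (nat_lit 357) (nat_lit 175)) (XT.nd (nat_lit 78) (nat_lit 0) (nat_lit 0) (XT.lf (nat_lit 0) (nat_lit 20818068688) (nat_lit 1748) (nat_lit 4282946123) (nat_lit 1824) (nat_lit 1371908689) (nat_lit 407) (nat_lit 5) (nat_lit 430) (nat_lit 5) (nat_lit 431) (nat_lit 5) (nat_lit 369) (nat_lit 357) (nat_lit 174)) (XT.lf (nat_lit 76) (nat_lit 15737473014)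 (nat_lit 0) (nat_lit 7766345794) (nat_lit 1824) (nat_lit 3389458948) (nat_lit 408) (nat_lit 5) (nat_lit 407) (nat_lit 5) (nat_lit 431) (nat_lit 5) (nat_lit 370) (nat_lit 357) (nat_lit 173))))) (XT.nd (nat_lit 156) (nat_lit 0) (nat_lit 0) (XT.nd (nat_lit 78) (nat_lit 1748) (nat_lit 0) (XT.lf (nat_lit 76) (nat_lit 9141284202) (nat_lit 0) (nat_lit 17277412296) (nat_lit 1824) (nat_lit 904577347) (nat_lit 409) (nat_lit 5) (nat_lit 408) (nat_lit 5) (nat_lit 432) (nat_lit 5) (nat_lit 371) (nat_lit 357) (nat_lit 172)) (XT.lf (nat_lit 0) (nat_lit 1775417342) (nat_lit 1824) (nat_lit 25368039413) (nat_lit 1900) (nat_lit 619654966) (nat_lit 385) (nat_lit 5) (nat_lit 409) (nat_lit 5) (nat_lit 410) (nat_lit 5) (nat_lit 372) (nat_lit 357) (nat_lit 171))) (XT.nd (nat_lit 78) (nat_lit 0) (nat_lit 76) (XT.lf (nat_lit 0) (nat_lit 4757876262) (nat_lit 1824) (nat_lit 4502190681) (nat_lit 1900) (nat_lit 18951273258) (nat_lit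 385) (nat_lit 5) (nat_lit 409) (nat_lit 5) (nat_lit 410) (nat_lit 5) (nat_lit 373) (nat_lit 357) (nat_lit 170)) (XT.nd (nat_lit 45630) (nat_lit 0) (nat_lit 988) (XT.lf (nat_lit 0) (nat_lit 7996644890) (nat_lit 1824) (nat_lit 11520040868) (nat_lit 76) (nat_lit 9152995129) (nat_lit 386) (nat_lit 5) (nat_lit 410) (nat_lit 5) (nat_lit 387) (nat_lit 5) (nat_lit 374) (nat_lit 357) (nat_lit 169)) (XT.lf (nat_lit 0) (nat_lit 1412621780) (nat_lit 0) (nat_lit 1412621780) (nat_lit 1748) (nat_lit 8536016583) (nat_lit 399) (nat_lit 5) (nat_lit 399) (nat_lit 3) (nat_lit 422) (nat_lit 3) (nat_lit 358) (nat_lit 358) (nat_lit 184)))))) (XT.nd (nat_lit 390) (nat_lit 0) (nat_lit 304) (XT.nd (nat_lit 156) (nat_lit 0) (nat_lit 76) (XT.nd (nat_lit 78) (nat_lit 0) (nat_lit 76) (XT.lf (nat_lit 0) (nat_lit 6009121546) (nat_lit 1748) (nat_lit 3850389563) (nat_lit 1824) (nat_lit 13198289940) (nat_lit 399) (nat_lit 5) (nat_lit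 422) (nat_lit 3) (nat_lit 423) (nat_lit 5) (nat_lit 359) (nat_lit 358) (nat_lit 183)) (XT.lf (nat_lit 0) (nat_lit 6514618552) (nat_lit 1748) (nat_lit 10619105503) (nat_lit 1824) (nat_lit 6266697212) (nat_lit 400) (nat_lit 5) (nat_lit 423) (nat_lit 5) (nat_lit 424) (nat_lit 5) (nat_lit 360) (nat_lit 358) (nat_lit 182))) (XT.nd (nat_lit 78) (nat_lit 0) (nat_lit 76) (XT.lf (nat_lit 76) (nat_lit 6223465773) (nat_lit 0) (nat_lit 937353652) (nat_lit 1824) (nat_lit 16589992898) (nat_lit 401) (nat_lit 5) (nat_lit 400) (nat_lit 5) (nat_lit 424) (nat_lit 5) (nat_lit 361) (nat_lit 358) (nat_lit 181)) (XT.nd (nat_lit 78) (nat_lit 0) (nat_lit 76) (XT.lf (nat_lit 0) (nat_lit 7994200972) (nat_lit 1748) (nat_lit 500332378) (nat_lit 1824) (nat_lit 15613828793) (nat_lit 401) (nat_lit 5) (nat_lit 424) (nat_lit 5) (nat_lit 425) (nat_lit 5) (nat_lit 362) (nat_lit 358) (nat_lit 180)) (XT.lf (nat_lit 0) (nat_lit 9018027835)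 (nat_lit 1748) (nat_lit 7274627751) (nat_lit 1824) (nat_lit 8180676833) (nat_lit 402) (nat_lit 5) (nat_lit 425) (nat_lit 5) (nat_lit 426) (nat_lit 5) (nat_lit 363) (nat_lit 358) (nat_lit 179))))) (XT.nd (nat_lit 156) (nat_lit 0) (nat_lit 76) (XT.nd (nat_lit 78) (nat_lit 0) (nat_lit 0) (XT.lf (nat_lit 0) (nat_lit 10198606675) (nat_lit 1748) (nat_lit 14184411260) (nat_lit 1824) (nat_lit 463715882) (nat_lit 403) (nat_lit 5) (nat_lit 426) (nat_lit 5) (nat_lit 427) (nat_lit 5) (nat_lit 364) (nat_lit 358) (nat_lit 178)) (XT.lf (nat_lit 76) (nat_lit 3944990068) (nat_lit 0) (nat_lit 7647502656) (nat_lit 1824) (nat_lit 13635289412) (nat_lit 404) (nat_lit 5) (nat_lit 403) (nat_lit 5) (nat_lit 427) (nat_lit 5) (nat_lit 365) (nat_lit 358) (nat_lit 177))) (XT.nd (nat_lit 78) (nat_lit 0) (nat_lit 76) (XT.lf (nat_lit 0) (nat_lit 13181085009) (nat_lit 1748) (nat_lit 2872955409) (nat_lit 1824) (nat_lit 9563166293)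 (nat_lit 404) (nat_lit 5) (nat_lit 427) (nat_lit 5) (nat_lit 428) (nat_lit 5) (nat_lit 366) (nat_lit 358) (nat_lit 176)) (XT.nd (nat_lit 78) (nat_lit 0) (nat_lit 0) (XT.lf (nat_lit 0) (nat_lit 14976317293) (nat_lit 1748) (nat_lit 9776515292) (nat_lit 1824) (nat_lit 1262304316) (nat_lit 405) (nat_lit 5) (nat_lit 428) (nat_lit 5) (nat_lit 429) (nat_lit 5) (nat_lit 367) (nat_lit 358) (nat_lit 175)) (XT.lf (nat_lit 76) (nat_lit 9551951415) (nat_lit 0) (nat_lit 7456638264) (nat_lit 1824) (nat_lit 9412754104) (nat_lit 406) (nat_lit 5) (nat_lit 405) (nat_lit 5) (nat_lit 429) (nat_lit 5) (nat_lit 368) (nat_lit 358) (nat_lit 174))))))))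
noncomputable def xc126 : XT := (XT.nd (nat_lit 47190) (nat_lit 0) (nat_lit 1064) (XT.nd (nat_lit 46410) (nat_lit 0) (nat_lit 1216) (XT.nd (nat_lit 390) (nat_lit 0) (nat_lit 0) (XT.nd (nat_lit 156) (nat_lit 1596) (nat_lit 0) (XT.nd (nat_lit 78) (nat_lit 0) (nat_lit 76) (XT.lf (nat_lit 76) (nat_lit 2719506864) (nat_lit 0) (nat_lit 16528282763) (nat_lit 1824) (nat_lit 7589030433) (nat_lit 407) (nat_lit 5) (nat_lit 406) (nat_lit 5) (nat_lit 430) (nat_lit 5) (nat_lit 369) (nat_lit 358) (nat_lit 173)) (XT.lf (nat_lit 0) (nat_lit 21721343703) (nat_lit 1748) (nat_lit 4198052341) (nat_lit 1824) (nat_lit 1342023330) (nat_lit 407) (nat_lit 5) (nat_lit 430) (nat_lit 5) (nat_lit 431) (nat_lit 5) (nat_lit 370) (nat_lit 358) (nat_lit 172))) (XT.nd (nat_lit 78) (nat_lit 1672) (nat_lit 0) (XT.lf (nat_lit 76) (nat_lit 16419517499) (nat_lit 0) (nat_lit 8061393334) (nat_lit 1824) (nat_lit 3213611947) (nat_lit 408) (nat_lit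 5) (nat_lit 407) (nat_lit 5) (nat_lit 431) (nat_lit 5) (nat_lit 371) (nat_lit 358) (nat_lit 171)) (XT.nd (nat_lit 78) (nat_lit 1748) (nat_lit 0) (XT.lf (nat_lit 76) (nat_lit 9627896908) (nat_lit 0) (nat_lit 17848403965) (nat_lit 1824) (nat_lit 661259872) (nat_lit 409) (nat_lit 5) (nat_lit 408) (nat_lit 5) (nat_lit 432) (nat_lit 5) (nat_lit 372) (nat_lit 358) (nat_lit 170)) (XT.lf (nat_lit 0) (nat_lit 2088881860) (nat_lit 1824) (nat_lit 25910928919) (nat_lit 1900) (nat_lit 590885127) (nat_lit 385) (nat_lit 5) (nat_lit 409) (nat_lit 5) (nat_lit 410) (nat_lit 5) (nat_lit 373) (nat_lit 358) (nat_lit 169))))) (XT.nd (nat_lit 45786) (nat_lit 0) (nat_lit 1064) (XT.nd (nat_lit 45708) (nat_lit 0) (nat_lit 1064) (XT.lf (nat_lit 0) (nat_lit 5153235848) (nat_lit 1824) (nat_lit 4425458658) (nat_lit 1900) (nat_lit 19473831370) (nat_lit 385) (nat_lit 5) (nat_lit 409) (nat_lit 5) (nat_lit 410) (nat_lit 5) (nat_lit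 374) (nat_lit 358) (nat_lit 168)) (XT.lf (nat_lit 0) (nat_lit 1547624564) (nat_lit 0) (nat_lit 1547624564) (nat_lit 1748) (nat_lit 8603065119) (nat_lit 399) (nat_lit 5) (nat_lit 399) (nat_lit 3) (nat_lit 422) (nat_lit 3) (nat_lit 359) (nat_lit 359) (nat_lit 182))) (XT.nd (nat_lit 78) (nat_lit 0) (nat_lit 76) (XT.lf (nat_lit 0) (nat_lit 6547932831) (nat_lit 1748) (nat_lit 3777533855) (nat_lit 1824) (nat_lit 13416744758) (nat_lit 399) (nat_lit 5) (nat_lit 422) (nat_lit 3) (nat_lit 423) (nat_lit 5) (nat_lit 360) (nat_lit 359) (nat_lit 181)) (XT.nd (nat_lit 78) (nat_lit 0) (nat_lit 0) (XT.lf (nat_lit 0) (nat_lit 7058290357) (nat_lit 1748) (nat_lit 10744168210) (nat_lit 1824) (nat_lit 6292862241) (nat_lit 400) (nat_lit 5) (nat_lit 423) (nat_lit 5) (nat_lit 424) (nat_lit 5) (nat_lit 361) (nat_lit 359) (nat_lit 180)) (XT.lf (nat_lit 76) (nat_lit 6600540726) (nat_lit 0) (nat_lit 1114429829) (nat_lit 1824)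 (nat_lit 16741435499) (nat_lit 401) (nat_lit 5) (nat_lit 400) (nat_lit 5) (nat_lit 424) (nat_lit 5) (nat_lit 362) (nat_lit 359) (nat_lit 179)))))) (XT.nd (nat_lit 390) (nat_lit 0) (nat_lit 304) (XT.nd (nat_lit 156) (nat_lit 0) (nat_lit 152) (XT.nd (nat_lit 78) (nat_lit 0) (nat_lit 76) (XT.lf (nat_lit 0) (nat_lit 8562531301) (nat_lit 1748) (nat_lit 322848429) (nat_lit 1824) (nat_lit 15939523280) (nat_lit 401) (nat_lit 5) (nat_lit 424) (nat_lit 5) (nat_lit 425) (nat_lit 5) (nat_lit 363) (nat_lit 359) (nat_lit 178)) (XT.lf (nat_lit 0) (nat_lit 9607885199) (nat_lit 1748) (nat_lit 7296107292) (nat_lit 1824) (nat_lit 8297017735) (nat_lit 402) (nat_lit 5) (nat_lit 425) (nat_lit 5) (nat_lit 426) (nat_lit 5) (nat_lit 364) (nat_lit 359) (nat_lit 177))) (XT.nd (nat_lit 78) (nat_lit 0) (nat_lit 0) (XT.lf (nat_lit 0) (nat_lit 10815073465) (nat_lit 1748) (nat_lit 14409254933) (nat_lit 1824) (nat_lit 361465383)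 (nat_lit 403) (nat_lit 5) (nat_lit 426) (nat_lit 5) (nat_lit 427) (nat_lit 5) (nat_lit 365) (nat_lit 359) (nat_lit 176)) (XT.nd (nat_lit 78) (nat_lit 0) (nat_lit 76) (XT.lf (nat_lit 76) (nat_lit 4260772501) (nat_lit 0) (nat_lit 7982241520) (nat_lit 1824) (nat_lit 13735418611) (nat_lit 404) (nat_lit 5) (nat_lit 403) (nat_lit 5) (nat_lit 427) (nat_lit 5) (nat_lit 366) (nat_lit 359) (nat_lit 175)) (XT.lf (nat_lit 0) (nat_lit 13869782363) (nat_lit 1748) (nat_lit 2760795076) (nat_lit 1824) (nat_lit 9749155869) (nat_lit 404) (nat_lit 5) (nat_lit 427) (nat_lit 5) (nat_lit 428) (nat_lit 5) (nat_lit 367) (nat_lit 359) (nat_lit 174))))) (XT.nd (nat_lit 156) (nat_lit 0) (nat_lit 76) (XT.nd (nat_lit 78) (nat_lit 0) (nat_lit 0) (XT.lf (nat_lit 0) (nat_lit 15711006925) (nat_lit 1748) (nat_lit 9868249326) (nat_lit 1824) (nat_lit 1210506066) (nat_lit 405) (nat_lit 5) (nat_lit 428) (nat_lit 5) (nat_lit 429) (nat_lit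 5) (nat_lit 368) (nat_lit 359) (nat_lit 173)) (XT.lf (nat_lit 76) (nat_lit 10036801287) (nat_lit 0) (nat_lit 7760421009) (nat_lit 1824) (nat_lit 9411077128) (nat_lit 406) (nat_lit 5) (nat_lit 405) (nat_lit 5) (nat_lit 429) (nat_lit 5) (nat_lit 369) (nat_lit 359) (nat_lit 172))) (XT.nd (nat_lit 78) (nat_lit 0) (nat_lit 76) (XT.lf (nat_lit 76) (nat_lit 3002270323) (nat_lit 0) (nat_lit 17094021284) (nat_lit 1824) (nat_lit 7540097929) (nat_lit 407) (nat_lit 5) (nat_lit 406) (nat_lit 5) (nat_lit 430) (nat_lit 5) (nat_lit 370) (nat_lit 359) (nat_lit 171)) (XT.nd (nat_lit 78) (nat_lit 0) (nat_lit 0) (XT.lf (nat_lit 0) (nat_lit 22635716556) (nat_lit 1748) (nat_lit 4122860754) (nat_lit 1824) (nat_lit 1315319547) (nat_lit 407) (nat_lit 5) (nat_lit 430) (nat_lit 5) (nat_lit 431) (nat_lit 5) (nat_lit 371) (nat_lit 359) (nat_lit 170)) (XT.lf (nat_lit 76) (nat_lit 17109973034) (nat_lit 0) (nat_lit 8361729965) (nat_lit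 1824) (nat_lit 3048420937) (nat_lit 408) (nat_lit 5) (nat_lit 407) (nat_lit 5) (nat_lit 431) (nat_lit 5) (nat_lit 372) (nat_lit 359) (nat_lit 169))))))) (XT.nd (nat_lit 46566) (nat_lit 0) (nat_lit 0) (XT.nd (nat_lit 46176) (nat_lit 0) (nat_lit 152) (XT.nd (nat_lit 45942) (nat_lit 0) (nat_lit 0) (XT.nd (nat_lit 45864) (nat_lit 684) (nat_lit 0) (XT.lf (nat_lit 76) (nat_lit 10116916848) (nat_lit 0) (nat_lit 18433501951) (nat_lit 1824) (nat_lit 426168083) (nat_lit 409) (nat_lit 5) (nat_lit 408) (nat_lit 5) (nat_lit 432) (nat_lit 5) (nat_lit 373) (nat_lit 359) (nat_lit 168)) (XT.lf (nat_lit 0) (nat_lit 1681360427) (nat_lit 0) (nat_lit 1681360427) (nat_lit 1748) (nat_lit 8682976319) (nat_lit 399) (nat_lit 5) (nat_lit 399) (nat_lit 3) (nat_lit 422) (nat_lit 3) (nat_lit 360) (nat_lit 360) (nat_lit 180))) (XT.nd (nat_lit 78) (nat_lit 0) (nat_lit 76) (XT.lf (nat_lit 0) (nat_lit 7082326927) (nat_lit 1748) (nat_lit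 3713305535) (nat_lit 1824) (nat_lit 13651942095) (nat_lit 399) (nat_lit 5) (nat_lit 422) (nat_lit 3) (nat_lit 423) (nat_lit 5) (nat_lit 361) (nat_lit 360) (nat_lit 179)) (XT.nd (nat_lit 78) (nat_lit 0) (nat_lit 0) (XT.lf (nat_lit 0) (nat_lit 7598282303) (nat_lit 1748) (nat_lit 10884091090) (nat_lit 1824) (nat_lit 6329102263) (nat_lit 400) (nat_lit 5) (nat_lit 423) (nat_lit 5) (nat_lit 424) (nat_lit 5) (nat_lit 362) (nat_lit 360) (nat_lit 178)) (XT.lf (nat_lit 76) (nat_lit 6977999856) (nat_lit 0) (nat_lit 1288267631) (nat_lit 1824) (nat_lit 16917297956) (nat_lit 401) (nat_lit 5) (nat_lit 400) (nat_lit 5) (nat_lit 424) (nat_lit 5) (nat_lit 363) (nat_lit 360) (nat_lit 177))))) (XT.nd (nat_lit 156) (nat_lit 0) (nat_lit 152) (XT.nd (nat_lit 78) (nat_lit 0) (nat_lit 76) (XT.lf (nat_lit 0) (nat_lit 9129054050) (nat_lit 1748) (nat_lit 151089900) (nat_lit 1824) (nat_lit 16283181336) (nat_lit 401) (nat_lit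 5) (nat_lit 424) (nat_lit 5) (nat_lit 425) (nat_lit 5) (nat_lit 364) (nat_lit 360) (nat_lit 176)) (XT.lf (nat_lit 0) (nat_lit 10197108209) (nat_lit 1748) (nat_lit 7329526007) (nat_lit 1824) (nat_lit 8424258550) (nat_lit 402) (nat_lit 5) (nat_lit 425) (nat_lit 5) (nat_lit 426) (nat_lit 5) (nat_lit 365) (nat_lit 360) (nat_lit 175))) (XT.nd (nat_lit 78) (nat_lit 0) (nat_lit 0) (XT.lf (nat_lit 0) (nat_lit 11432209796) (nat_lit 1748) (nat_lit 14652364266) (nat_lit 1824) (nat_lit 262815541) (nat_lit 403) (nat_lit 5) (nat_lit 426) (nat_lit 5) (nat_lit 427) (nat_lit 5) (nat_lit 366) (nat_lit 360) (nat_lit 174)) (XT.nd (nat_lit 78) (nat_lit 0) (nat_lit 76) (XT.lf (nat_lit 76) (nat_lit 4574694959) (nat_lit 0) (nat_lit 8320977108) (nat_lit 1824) (nat_lit 13856285503) (nat_lit 404) (nat_lit 5) (nat_lit 403) (nat_lit 5) (nat_lit 427) (nat_lit 5) (nat_lit 367) (nat_lit 360) (nat_lit 173)) (XT.lf (nat_lit 0) (nat_lit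 14562306038) (nat_lit 1748) (nat_lit 2656655976) (nat_lit 1824) (nat_lit 9946517515) (nat_lit 404) (nat_lit 5) (nat_lit 427) (nat_lit 5) (nat_lit 428) (nat_lit 5) (nat_lit 368) (nat_lit 360) (nat_lit 172)))))) (XT.nd (nat_lit 46254) (nat_lit 456) (nat_lit 0) (XT.nd (nat_lit 156) (nat_lit 0) (nat_lit 76) (XT.nd (nat_lit 78) (nat_lit 0) (nat_lit 0) (XT.lf (nat_lit 0) (nat_lit 16451354112) (nat_lit 1748) (nat_lit 9974305832) (nat_lit 1824) (nat_lit 1162301143) (nat_lit 405) (nat_lit 5) (nat_lit 428) (nat_lit 5) (nat_lit 429) (nat_lit 5) (nat_lit 369) (nat_lit 360) (nat_lit 171)) (XT.lf (nat_lit 76) (nat_lit 10524813922) (nat_lit 0) (nat_lit 8068720111) (nat_lit 1824) (nat_lit 9425656026) (nat_lit 406) (nat_lit 5) (nat_lit 405) (nat_lit 5) (nat_lit 429) (nat_lit 5) (nat_lit 370) (nat_lit 360) (nat_lit 170))) (XT.nd (nat_lit 78) (nat_lit 0) (nat_lit 76) (XT.lf (nat_lit 76) (nat_lit 3281968232) (nat_lit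 0) (nat_lit 17672719986) (nat_lit 1824) (nat_lit 7505575618) (nat_lit 407) (nat_lit 5) (nat_lit 406) (nat_lit 5) (nat_lit 430) (nat_lit 5) (nat_lit 371) (nat_lit 360) (nat_lit 169)) (XT.nd (nat_lit 78) (nat_lit 0) (nat_lit 0) (XT.lf (nat_lit 0) (nat_lit 23562438673) (nat_lit 1748) (nat_lit 4056959286) (nat_lit 1824) (nat_lit 1291658686) (nat_lit 407) (nat_lit 5) (nat_lit 430) (nat_lit 5) (nat_lit 431) (nat_lit 5) (nat_lit 372) (nat_lit 360) (nat_lit 168)) (XT.lf (nat_lit 76) (nat_lit 17809783688) (nat_lit 0) (nat_lit 8667718852) (nat_lit 1824) (nat_lit 2893291071) (nat_lit 408) (nat_lit 5) (nat_lit 407) (nat_lit 5) (nat_lit 431) (nat_lit 5) (nat_lit 373) (nat_lit 360) (nat_lit 167))))) (XT.nd (nat_lit 156) (nat_lit 0) (nat_lit 76) (XT.nd (nat_lit 78) (nat_lit 0) (nat_lit 0) (XT.lf (nat_lit 0) (nat_lit 1814096580) (nat_lit 0) (nat_lit 1814096580) (nat_lit 1748) (nat_lit 8775513159) (nat_lit 399) (nat_lit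 5) (nat_lit 399) (nat_lit 3) (nat_lit 422) (nat_lit 3) (nat_lit 361) (nat_lit 361) (nat_lit 178)) (XT.lf (nat_lit 0) (nat_lit 7613352782) (nat_lit 1748) (nat_lit 3657342710) (nat_lit 1824) (nat_lit 13903799345) (nat_lit 399) (nat_lit 5) (nat_lit 422) (nat_lit 3) (nat_lit 423) (nat_lit 5) (nat_lit 362) (nat_lit 361) (nat_lit 177))) (XT.nd (nat_lit 78) (nat_lit 0) (nat_lit 0) (XT.lf (nat_lit 0) (nat_lit 8135631503) (nat_lit 1748) (nat_lit 11038682288) (nat_lit 1824) (nat_lit 6375186242) (nat_lit 400) (nat_lit 5) (nat_lit 423) (nat_lit 5) (nat_lit 424) (nat_lit 5) (nat_lit 363) (nat_lit 361) (nat_lit 176)) (XT.nd (nat_lit 78) (nat_lit 0) (nat_lit 76) (XT.lf (nat_lit 76) (nat_lit 7356482002) (nat_lit 0) (nat_lit 1459260752) (nat_lit 1824) (nat_lit 17117171870) (nat_lit 401) (nat_lit 5) (nat_lit 400) (nat_lit 5) (nat_lit 424) (nat_lit 5) (nat_lit 364) (nat_lit 361) (nat_lit 175)) (XT.lf (nat_lit 76) (nat_lit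 15610491) (nat_lit 0) (nat_lit 9679288349) (nat_lit 1824) (nat_lit 16629362432) (nat_lit 402) (nat_lit 5) (nat_lit 401) (nat_lit 5) (nat_lit 425) (nat_lit 5) (nat_lit 365) (nat_lit 361) (nat_lit 174))))))))
noncomputable def xc127 : XT := (XT.nd (nat_lit 93756) (nat_lit 0) (nat_lit 0) (XT.nd (nat_lit 46800) (nat_lit 0) (nat_lit 0) (XT.nd (nat_lit 390) (nat_lit 228) (nat_lit 0) (XT.nd (nat_lit 156) (nat_lit 0) (nat_lit 76) (XT.nd (nat_lit 78) (nat_lit 0) (nat_lit 76) (XT.lf (nat_lit 0) (nat_lit 10786730055) (nat_lit 1748) (nat_lit 7374593705) (nat_lit 1824) (nat_lit 8562300928) (nat_lit 402) (nat_lit 5) (nat_lit 425) (nat_lit 5) (nat_lit 426) (nat_lit 5) (nat_lit 366) (nat_lit 361) (nat_lit 173)) (XT.lf (nat_lit 0) (nat_lit 12051058950) (nat_lit 1748) (nat_lit 14913625914) (nat_lit 1824) (nat_lit 167491597) (nat_lit 403) (nat_lit 5) (nat_lit 426) (nat_lit 5) (nat_lit 427) (nat_lit 5) (nat_lit 367)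 (nat_lit 361) (nat_lit 172))) (XT.nd (nat_lit 78) (nat_lit 0) (nat_lit 76) (XT.lf (nat_lit 76) (nat_lit 4887352232) (nat_lit 0) (nat_lit 8664176355) (nat_lit 1824) (nat_lit 13997494224) (nat_lit 404) (nat_lit 5) (nat_lit 403) (nat_lit 5) (nat_lit 427) (nat_lit 5) (nat_lit 368) (nat_lit 361) (nat_lit 171)) (XT.nd (nat_lit 78) (nat_lit 0) (nat_lit 76) (XT.lf (nat_lit 0) (nat_lit 15259737199) (nat_lit 1748) (nat_lit 2560125142) (nat_lit 1824) (nat_lit 10155259888) (nat_lit 404) (nat_lit 5) (nat_lit 427) (nat_lit 5) (nat_lit 428) (nat_lit 5) (nat_lit 369) (nat_lit 361) (nat_lit 170)) (XT.lf (nat_lit 0) (nat_lit 17198469040) (nat_lit 1748) (nat_lit 10094450292) (nat_lit 1824) (nat_lit 1117501872) (nat_lit 405) (nat_lit 5) (nat_lit 428) (nat_lit 5) (nat_lit 429) (nat_lit 5) (nat_lit 370) (nat_lit 361) (nat_lit 169))))) (XT.nd (nat_lit 46176) (nat_lit 456) (nat_lit 0) (XT.nd (nat_lit 78) (nat_lit 0) (nat_lit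 76) (XT.lf (nat_lit 76) (nat_lit 11016737618) (nat_lit 0) (nat_lit 8381934953) (nat_lit 1824) (nat_lit 9456042433) (nat_lit 406) (nat_lit 5) (nat_lit 405) (nat_lit 5) (nat_lit 429) (nat_lit 5) (nat_lit 371) (nat_lit 361) (nat_lit 168)) (XT.lf (nat_lit 76) (nat_lit 3559171551) (nat_lit 0) (nat_lit 18264997979) (nat_lit 1824) (nat_lit 7484984333) (nat_lit 407) (nat_lit 5) (nat_lit 406) (nat_lit 5) (nat_lit 430) (nat_lit 5) (nat_lit 372) (nat_lit 361) (nat_lit 167))) (XT.nd (nat_lit 78) (nat_lit 0) (nat_lit 0) (XT.lf (nat_lit 0) (nat_lit 1946090728) (nat_lit 0) (nat_lit 1946090728) (nat_lit 1748) (nat_lit 8880467262) (nat_lit 399) (nat_lit 5) (nat_lit 399) (nat_lit 3) (nat_lit 422) (nat_lit 3) (nat_lit 362) (nat_lit 362) (nat_lit 176)) (XT.nd (nat_lit 78) (nat_lit 0) (nat_lit 76) (XT.lf (nat_lit 0) (nat_lit 8142022993) (nat_lit 1748) (nat_lit 3609308264) (nat_lit 1824) (nat_lit 14172264995) (nat_lit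 399) (nat_lit 5) (nat_lit 422) (nat_lit 3) (nat_lit 423) (nat_lit 5) (nat_lit 363) (nat_lit 362) (nat_lit 175)) (XT.lf (nat_lit 0) (nat_lit 8671340312) (nat_lit 1748) (nat_lit 11207780795) (nat_lit 1824) (nat_lit 6430906821) (nat_lit 400) (nat_lit 5) (nat_lit 423) (nat_lit 5) (nat_lit 424) (nat_lit 5) (nat_lit 364) (nat_lit 362) (nat_lit 174)))))) (XT.nd (nat_lit 390) (nat_lit 76) (nat_lit 0) (XT.nd (nat_lit 156) (nat_lit 0) (nat_lit 152) (XT.nd (nat_lit 78) (nat_lit 0) (nat_lit 76) (XT.lf (nat_lit 76) (nat_lit 7736609161) (nat_lit 0) (nat_lit 1627786517) (nat_lit 1824) (nat_lit 17340702084) (nat_lit 401) (nat_lit 5) (nat_lit 400) (nat_lit 5) (nat_lit 424) (nat_lit 5) (nat_lit 365) (nat_lit 362) (nat_lit 173)) (XT.lf (nat_lit 76) (nat_lit 179431838) (nat_lit 0) (nat_lit 10082491743) (nat_lit 1824) (nat_lit 16846424800) (nat_lit 402) (nat_lit 5) (nat_lit 401) (nat_lit 5) (nat_lit 425) (nat_lit 5) (nat_lit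 366) (nat_lit 362) (nat_lit 172))) (XT.nd (nat_lit 78) (nat_lit 0) (nat_lit 76) (XT.lf (nat_lit 0) (nat_lit 11377754522) (nat_lit 1748) (nat_lit 7431048706) (nat_lit 1824) (nat_lit 8711067988) (nat_lit 402) (nat_lit 5) (nat_lit 425) (nat_lit 5) (nat_lit 426) (nat_lit 5) (nat_lit 367) (nat_lit 362) (nat_lit 171)) (XT.nd (nat_lit 78) (nat_lit 0) (nat_lit 0) (XT.lf (nat_lit 0) (nat_lit 12672636774) (nat_lit 1748) (nat_lit 15192961094) (nat_lit 1824) (nat_lit 75232519) (nat_lit 403) (nat_lit 5) (nat_lit 426) (nat_lit 5) (nat_lit 427) (nat_lit 5) (nat_lit 368) (nat_lit 362) (nat_lit 170)) (XT.lf (nat_lit 76) (nat_lit 5199319602) (nat_lit 0) (nat_lit 9012300282) (nat_lit 1824) (nat_lit 14158695472) (nat_lit 404) (nat_lit 5) (nat_lit 403) (nat_lit 5) (nat_lit 427) (nat_lit 5) (nat_lit 369) (nat_lit 362) (nat_lit 169))))) (XT.nd (nat_lit 46332) (nat_lit 380) (nat_lit 0) (XT.nd (nat_lit 78) (nat_lit 0) (nat_lit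 76) (XT.lf (nat_lit 0) (nat_lit 15963133971) (nat_lit 1748) (nat_lit 2470814735) (nat_lit 1824) (nat_lit 10375410990) (nat_lit 404) (nat_lit 5) (nat_lit 427) (nat_lit 5) (nat_lit 428) (nat_lit 5) (nat_lit 370) (nat_lit 362) (nat_lit 168)) (XT.lf (nat_lit 0) (nat_lit 17953441213) (nat_lit 1748) (nat_lit 10228479281) (nat_lit 1824) (nat_lit 1075931910) (nat_lit 405) (nat_lit 5) (nat_lit 428) (nat_lit 5) (nat_lit 429) (nat_lit 5) (nat_lit 371) (nat_lit 362) (nat_lit 167))) (XT.nd (nat_lit 78) (nat_lit 0) (nat_lit 0) (XT.lf (nat_lit 0) (nat_lit 2077591794) (nat_lit 0) (nat_lit 2077591794) (nat_lit 1748) (nat_lit 8997657704) (nat_lit 399) (nat_lit 5) (nat_lit 399) (nat_lit 3) (nat_lit 422) (nat_lit 3) (nat_lit 363) (nat_lit 363) (nat_lit 174)) (XT.nd (nat_lit 78) (nat_lit 0) (nat_lit 76) (XT.lf (nat_lit 0) (nat_lit 8669316605) (nat_lit 1748) (nat_lit 3568888551) (nat_lit 1824) (nat_lit 14457317636) (nat_lit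 399) (nat_lit 5) (nat_lit 422) (nat_lit 3) (nat_lit 423) (nat_lit 5) (nat_lit 364) (nat_lit 363) (nat_lit 173)) (XT.lf (nat_lit 0) (nat_lit 9206379063) (nat_lit 1748) (nat_lit 11391255276) (nat_lit 1824) (nat_lit 6496079282) (nat_lit 400) (nat_lit 5) (nat_lit 423) (nat_lit 5) (nat_lit 424) (nat_lit 5) (nat_lit 365) (nat_lit 363) (nat_lit 172))))))) (XT.nd (nat_lit 47034) (nat_lit 0) (nat_lit 0) (XT.nd (nat_lit 390) (nat_lit 76) (nat_lit 0) (XT.nd (nat_lit 156) (nat_lit 0) (nat_lit 152) (XT.nd (nat_lit 78) (nat_lit 0) (nat_lit 76) (XT.lf (nat_lit 76) (nat_lit 8118988046) (nat_lit 0) (nat_lit 1794207012) (nat_lit 1824) (nat_lit 17587584526) (nat_lit 401) (nat_lit 5) (nat_lit 400) (nat_lit 5) (nat_lit 424) (nat_lit 5) (nat_lit 366) (nat_lit 363) (nat_lit 171)) (XT.lf (nat_lit 76) (nat_lit 338790693) (nat_lit 0) (nat_lit 10491314637) (nat_lit 1824) (nat_lit 17086176575) (nat_lit 402) (nat_lit 5) (nat_lit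 401) (nat_lit 5) (nat_lit 425) (nat_lit 5) (nat_lit 367) (nat_lit 363) (nat_lit 170))) (XT.nd (nat_lit 78) (nat_lit 0) (nat_lit 0) (XT.lf (nat_lit 0) (nat_lit 11971158574) (nat_lit 1748) (nat_lit 7498656566) (nat_lit 1824) (nat_lit 8870503555) (nat_lit 402) (nat_lit 5) (nat_lit 425) (nat_lit 5) (nat_lit 426) (nat_lit 5) (nat_lit 368) (nat_lit 363) (nat_lit 169)) (XT.nd (nat_lit 78) (nat_lit 0) (nat_lit 76) (XT.lf (nat_lit 76) (nat_lit 13283629028) (nat_lit 0) (nat_lit 14398682) (nat_lit 1824) (nat_lit 15476019244) (nat_lit 403) (nat_lit 5) (nat_lit 402) (nat_lit 5) (nat_lit 426) (nat_lit 5) (nat_lit 369) (nat_lit 363) (nat_lit 168)) (XT.lf (nat_lit 76) (nat_lit 5511154410) (nat_lit 0) (nat_lit 9365804965) (nat_lit 1824) (nat_lit 14339584550) (nat_lit 404) (nat_lit 5) (nat_lit 403) (nat_lit 5) (nat_lit 427) (nat_lit 5) (nat_lit 370) (nat_lit 363) (nat_lit 167))))) (XT.nd (nat_lit 46410) (nat_lit 0)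 (nat_lit 0) (XT.nd (nat_lit 46332) (nat_lit 380) (nat_lit 0) (XT.lf (nat_lit 0) (nat_lit 16673533934) (nat_lit 1748) (nat_lit 2388360649) (nat_lit 1824) (nat_lit 10607017655) (nat_lit 404) (nat_lit 5) (nat_lit 427) (nat_lit 5) (nat_lit 428) (nat_lit 5) (nat_lit 371) (nat_lit 363) (nat_lit 166)) (XT.lf (nat_lit 0) (nat_lit 2208840600) (nat_lit 0) (nat_lit 2208840600) (nat_lit 1748) (nat_lit 9126929903) (nat_lit 399) (nat_lit 5) (nat_lit 399) (nat_lit 3) (nat_lit 422) (nat_lit 3) (nat_lit 364) (nat_lit 364) (nat_lit 172))) (XT.nd (nat_lit 78) (nat_lit 0) (nat_lit 76) (XT.lf (nat_lit 0) (nat_lit 9196181778) (nat_lit 1748) (nat_lit 3535792176) (nat_lit 1824) (nat_lit 14758965049) (nat_lit 399) (nat_lit 5) (nat_lit 422) (nat_lit 3) (nat_lit 423) (nat_lit 5) (nat_lit 365) (nat_lit 364) (nat_lit 171)) (XT.nd (nat_lit 78) (nat_lit 0) (nat_lit 0) (XT.lf (nat_lit 0) (nat_lit 9741688677) (nat_lit 1748) (nat_lit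 11589002980) (nat_lit 1824) (nat_lit 6570540562) (nat_lit 400) (nat_lit 5) (nat_lit 423) (nat_lit 5) (nat_lit 424) (nat_lit 5) (nat_lit 366) (nat_lit 364) (nat_lit 170)) (XT.lf (nat_lit 76) (nat_lit 8504211575) (nat_lit 0) (nat_lit 1958870154) (nat_lit 1824) (nat_lit 17857564196) (nat_lit 401) (nat_lit 5) (nat_lit 400) (nat_lit 5) (nat_lit 424) (nat_lit 5) (nat_lit 367) (nat_lit 364) (nat_lit 169)))))) (XT.nd (nat_lit 46800) (nat_lit 0) (nat_lit 0) (XT.nd (nat_lit 156) (nat_lit 152) (nat_lit 0) (XT.nd (nat_lit 78) (nat_lit 0) (nat_lit 76) (XT.lf (nat_lit 76) (nat_lit 494091467) (nat_lit 0) (nat_lit 10906297400) (nat_lit 1824) (nat_lit 17348369781) (nat_lit 402) (nat_lit 5) (nat_lit 401) (nat_lit 5) (nat_lit 425) (nat_lit 5) (nat_lit 368) (nat_lit 364) (nat_lit 168)) (XT.lf (nat_lit 0) (nat_lit 12567894818) (nat_lit 1748) (nat_lit 7577208871) (nat_lit 1824) (nat_lit 9040571464) (nat_lit 402) (nat_lit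 5) (nat_lit 425) (nat_lit 5) (nat_lit 426) (nat_lit 5) (nat_lit 369) (nat_lit 364) (nat_lit 167))) (XT.nd (nat_lit 46488) (nat_lit 228) (nat_lit 0) (XT.lf (nat_lit 76) (nat_lit 13826170005) (nat_lit 0) (nat_lit 102414743) (nat_lit 1824) (nat_lit 15703953161) (nat_lit 403) (nat_lit 5) (nat_lit 402) (nat_lit 5) (nat_lit 426) (nat_lit 5) (nat_lit 370) (nat_lit 364) (nat_lit 166)) (XT.nd (nat_lit 78) (nat_lit 0) (nat_lit 0) (XT.lf (nat_lit 0) (nat_lit 2340070519) (nat_lit 0) (nat_lit 2340070519) (nat_lit 1748) (nat_lit 9268154586) (nat_lit 399) (nat_lit 5) (nat_lit 399) (nat_lit 3) (nat_lit 422) (nat_lit 3) (nat_lit 365) (nat_lit 365) (nat_lit 170)) (XT.lf (nat_lit 0) (nat_lit 9723538317) (nat_lit 1748) (nat_lit 3509748840) (nat_lit 1824) (nat_lit 15077243364) (nat_lit 399) (nat_lit 5) (nat_lit 422) (nat_lit 3) (nat_lit 423) (nat_lit 5) (nat_lit 366) (nat_lit 365) (nat_lit 169))))) (XT.nd (nat_lit 46878)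 (nat_lit 76) (nat_lit 0) (XT.nd (nat_lit 78) (nat_lit 0) (nat_lit 0) (XT.lf (nat_lit 0) (nat_lit 10278183131) (nat_lit 1748) (nat_lit 11800948728) (nat_lit 1824) (nat_lit 6654148344) (nat_lit 400) (nat_lit 5) (nat_lit 423) (nat_lit 5) (nat_lit 424) (nat_lit 5) (nat_lit 367) (nat_lit 365) (nat_lit 168)) (XT.nd (nat_lit 78) (nat_lit 0) (nat_lit 76) (XT.lf (nat_lit 76) (nat_lit 8892860298) (nat_lit 0) (nat_lit 2122110696) (nat_lit 1824) (nat_lit 18150433298) (nat_lit 401) (nat_lit 5) (nat_lit 400) (nat_lit 5) (nat_lit 424) (nat_lit 5) (nat_lit 368) (nat_lit 365) (nat_lit 167)) (XT.lf (nat_lit 76) (nat_lit 645719804) (nat_lit 0) (nat_lit 11327975268) (nat_lit 1824) (nat_lit 17632802314) (nat_lit 402) (nat_lit 5) (nat_lit 401) (nat_lit 5) (nat_lit 425) (nat_lit 5) (nat_lit 369) (nat_lit 365) (nat_lit 166)))) (XT.nd (nat_lit 78) (nat_lit 0) (nat_lit 0) (XT.lf (nat_lit 0) (nat_lit 10252280083) (nat_lit 1748)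 (nat_lit 3490508267) (nat_lit 1824) (nat_lit 15412216301) (nat_lit 399) (nat_lit 5) (nat_lit 422) (nat_lit 3) (nat_lit 423) (nat_lit 5) (nat_lit 367) (nat_lit 366) (nat_lit 167)) (XT.nd (nat_lit 46878) (nat_lit 76) (nat_lit 0) (XT.lf (nat_lit 0) (nat_lit 10816751826) (nat_lit 1748) (nat_lit 12027043981) (nat_lit 1824) (nat_lit 6746780207) (nat_lit 400) (nat_lit 5) (nat_lit 423) (nat_lit 5) (nat_lit 424) (nat_lit 5) (nat_lit 368) (nat_lit 366) (nat_lit 166)) (XT.lf (nat_lit 0) (nat_lit 10783277288) (nat_lit 1748) (nat_lit 3477839182) (nat_lit 1824) (nat_lit 15763974472) (nat_lit 399) (nat_lit 5) (nat_lit 422) (nat_lit 3) (nat_lit 423) (nat_lit 5) (nat_lit 368) (nat_lit 367) (nat_lit 165))))))))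

set_option maxRecDepth 10000000 in
noncomputable def Tp : PT := (PT.nd (nat_lit 7276776) (PT.nd (nat_lit 6528990) (PT.nd (nat_lit 5918796) (PT.nd (nat_lit 5310630) (PT.nd (nat_lit 4888806) pc0 pc1) (PT.nd (nat_lit 327678) pc2 pc3)) (PT.nd (nat_lit 374634) (PT.nd (nat_lit 187668) pc4 pc5) (PT.nd (nat_lit 140634) pc6 pc7))) (PT.nd (nat_lit 421356) (PT.nd (nat_lit 234078) (PT.nd (nat_lit 139698) pc8 pc9) (PT.nd (nat_lit 93756) pc10 pc11)) (PT.nd (nat_lit 185952) (PT.nd (nat_lit 93132) pc12 pc13) (PT.nd (nat_lit 48360) pc14 pc15)))) (PT.nd (nat_lit 423228) (PT.nd (nat_lit 234624) (PT.nd (nat_lit 96018) (PT.nd (nat_lit 48048) pc16 pc17) (PT.nd (nat_lit 91026) pc18 pc19)) (PT.nd (nat_lit 94614) (PT.nd (nat_lit 47346) pc20 pc21) (PT.nd (nat_lit 47034) pc22 pc23))) (PT.nd (nat_lit 231816) (PT.nd (nat_lit 93600) (PT.nd (nat_lit 46722) pc24 pc25) (PT.nd (nat_lit 47970) pc26 pc27)) (PT.nd (nat_lit 191568) (PT.nd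 (nat_lit 93132) pc28 pc29) (PT.nd (nat_lit 181350) pc30 pc31)))))

set_option maxRecDepth 10000000 in
noncomputable def Tx : XT := (XT.nd (nat_lit 12077754) (nat_lit 0) (nat_lit 608) XT.nil (XT.nd (nat_lit 5155254) (nat_lit 0) (nat_lit 0) (XT.nd (nat_lit 2385006) (nat_lit 0) (nat_lit 4484) (XT.nd (nat_lit 1635426) (nat_lit 0) (nat_lit 1900) (XT.nd (nat_lit 1122888) (nat_lit 0) (nat_lit 836) (XT.nd (nat_lit 750048) (nat_lit 0) (nat_lit 228) (XT.nd (nat_lit 515268) (nat_lit 0) (nat_lit 152) (XT.nd (nat_lit 373776) (nat_lit 0) (nat_lit 152) (XT.nd (nat_lit 234000) (nat_lit 0) (nat_lit 0) xc0 xc1) (XT.nd (nat_lit 93444) (nat_lit 0) (nat_lit 0) xc2 xc3)) (XT.nd (nat_lit 140088) (nat_lit 0) (nat_lit 76) (XT.nd (nat_lit 92508) (nat_lit 0) (nat_lit 76) xc4 xc5) (XT.nd (nat_lit 47424) (nat_lit 0) (nat_lit 0) xc6 xc7))) (XT.nd (nat_lit 187512) (nat_lit 0) (nat_lit 304) (XT.nd (nat_lit 137748) (nat_lit 0) (nat_lit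 228) (XT.nd (nat_lit 90948) (nat_lit 0) (nat_lit 228) xc8 xc9) (XT.nd (nat_lit 46644) (nat_lit 0) (nat_lit 380) xc10 xc11)) (XT.nd (nat_lit 92976) (nat_lit 0) (nat_lit 228) (XT.nd (nat_lit 46566) (nat_lit 0) (nat_lit 152) xc12 xc13) (XT.nd (nat_lit 46254) (nat_lit 0) (nat_lit 76) xc14 xc15)))) (XT.nd (nat_lit 279708) (nat_lit 0) (nat_lit 532) (XT.nd (nat_lit 140634) (nat_lit 0) (nat_lit 152) (XT.nd (nat_lit 49062) (nat_lit 0) (nat_lit 152) (XT.nd (nat_lit 45942) (nat_lit 0) (nat_lit 380) xc16 xc17) (XT.nd (nat_lit 45864) (nat_lit 0) (nat_lit 76) xc18 xc19)) (XT.nd (nat_lit 48594) (nat_lit 0) (nat_lit 228) (XT.nd (nat_lit 45474) (nat_lit 0) (nat_lit 1368) xc20 xc21) (XT.nd (nat_lit 45318) (nat_lit 0) (nat_lit 0) xc22 xc23))) (XT.nd (nat_lit 96096) (nat_lit 0) (nat_lit 0) (XT.nd (nat_lit 48126) (nat_lit 0) (nat_lit 0) (XT.nd (nat_lit 3120) (nat_lit 1444) (nat_lit 0) xc24 xc25) (XT.nd (nat_lit 44850)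 (nat_lit 0) (nat_lit 4028) xc26 xc27)) (XT.nd (nat_lit 47814) (nat_lit 0) (nat_lit 228) (XT.nd (nat_lit 44694) (nat_lit 0) (nat_lit 1368) xc28 xc29) (XT.nd (nat_lit 44538) (nat_lit 0) (nat_lit 152) xc30 xc31))))) (XT.nd (nat_lit 375414) (nat_lit 0) (nat_lit 1140) (XT.nd (nat_lit 188838) (nat_lit 0) (nat_lit 684) (XT.nd (nat_lit 94692) (nat_lit 0) (nat_lit 228) (XT.nd (nat_lit 47424) (nat_lit 0) (nat_lit 76) (XT.nd (nat_lit 3120) (nat_lit 7296) (nat_lit 0) xc32 xc33) (XT.nd (nat_lit 3120) (nat_lit 5016) (nat_lit 0) xc34 xc35)) (XT.nd (nat_lit 47112) (nat_lit 0) (nat_lit 152) (XT.nd (nat_lit 3120) (nat_lit 3572) (nat_lit 0) xc36 xc37) (XT.nd (nat_lit 3120) (nat_lit 2812) (nat_lit 0) xc38 xc39))) (XT.nd (nat_lit 93600) (nat_lit 0) (nat_lit 152) (XT.nd (nat_lit 46878) (nat_lit 0) (nat_lit 0) (XT.nd (nat_lit 3120) (nat_lit 2204) (nat_lit 0) xc40 xc41) (XT.nd (nat_lit 3120) (nat_lit 2204) (nat_lit 0) xc42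 xc43)) (XT.nd (nat_lit 46566) (nat_lit 0) (nat_lit 228) (XT.nd (nat_lit 3120) (nat_lit 2660) (nat_lit 0) xc44 xc45) (XT.nd (nat_lit 3120) (nat_lit 3952) (nat_lit 0) xc46 xc47)))) (XT.nd (nat_lit 186342) (nat_lit 0) (nat_lit 684) (XT.nd (nat_lit 93054) (nat_lit 0) (nat_lit 152) (XT.nd (nat_lit 46488) (nat_lit 0) (nat_lit 152) (XT.nd (nat_lit 3120) (nat_lit 5700) (nat_lit 0) xc48 xc49) (XT.nd (nat_lit 3120) (nat_lit 7676) (nat_lit 0) xc50 xc51)) (XT.nd (nat_lit 46566) (nat_lit 0) (nat_lit 228) (XT.nd (nat_lit 3120) (nat_lit 10032) (nat_lit 0) xc52 xc53) (XT.nd (nat_lit 3120) (nat_lit 11932) (nat_lit 0) xc54 xc55))) (XT.nd (nat_lit 93678) (nat_lit 0) (nat_lit 228) (XT.nd (nat_lit 46800) (nat_lit 0) (nat_lit 0) (XT.nd (nat_lit 3120) (nat_lit 12844) (nat_lit 0) xc56 xc57) (XT.nd (nat_lit 3120) (nat_lit 14136) (nat_lit 0) xc58 xc59)) (XT.nd (nat_lit 46956) (nat_lit 0) (nat_lit 304) (XT.nd (nat_lit 3120)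 (nat_lit 13908) (nat_lit 0) xc60 xc61) (XT.nd (nat_lit 3120) (nat_lit 13528) (nat_lit 0) xc62 xc63)))))) (XT.nd (nat_lit 892008) (nat_lit 0) (nat_lit 4940) (XT.nd (nat_lit 379626) (nat_lit 0) (nat_lit 1748) (XT.nd (nat_lit 189228) (nat_lit 0) (nat_lit 836) (XT.nd (nat_lit 94458) (nat_lit 0) (nat_lit 228) (XT.nd (nat_lit 47190) (nat_lit 0) (nat_lit 228) (XT.nd (nat_lit 3120) (nat_lit 11476) (nat_lit 0) xc64 xc65) (XT.nd (nat_lit 3120) (nat_lit 9500) (nat_lit 0) xc66 xc67)) (XT.nd (nat_lit 47346) (nat_lit 0) (nat_lit 380) (XT.nd (nat_lit 3120) (nat_lit 7448) (nat_lit 0) xc68 xc69) (XT.nd (nat_lit 3120) (nat_lit 5244) (nat_lit 0) xc70 xc71))) (XT.nd (nat_lit 95004) (nat_lit 0) (nat_lit 380) (XT.nd (nat_lit 47502) (nat_lit 0) (nat_lit 0) (XT.nd (nat_lit 3120) (nat_lit 3040) (nat_lit 0) xc72 xc73) (XT.nd (nat_lit 3120) (nat_lit 912) (nat_lit 0) xc74 xc75)) (XT.nd (nat_lit 47658) (nat_lit 0) (nat_lit 228)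 (XT.nd (nat_lit 44538) (nat_lit 0) (nat_lit 9044) xc76 xc77) (XT.nd (nat_lit 44616) (nat_lit 0) (nat_lit 4332) xc78 xc79)))) (XT.nd (nat_lit 233922) (nat_lit 0) (nat_lit 988) (XT.nd (nat_lit 137670) (nat_lit 0) (nat_lit 988) (XT.nd (nat_lit 89622) (nat_lit 0) (nat_lit 684) (XT.nd (nat_lit 44772) (nat_lit 0) (nat_lit 380) xc80 xc81) (XT.nd (nat_lit 3120) (nat_lit 9576) (nat_lit 0) xc82 xc83)) (XT.nd (nat_lit 48126) (nat_lit 0) (nat_lit 0) (XT.nd (nat_lit 3120) (nat_lit 3572) (nat_lit 0) xc84 xc85) (XT.nd (nat_lit 45006) (nat_lit 0) (nat_lit 7448) xc86 xc87))) (XT.nd (nat_lit 138684) (nat_lit 0) (nat_lit 1140) (XT.nd (nat_lit 48204) (nat_lit 0) (nat_lit 380) (XT.nd (nat_lit 45084) (nat_lit 0) (nat_lit 1140) xc88 xc89) (XT.nd (nat_lit 45162) (nat_lit 0) (nat_lit 684) xc90 xc91)) (XT.nd (nat_lit 48516) (nat_lit 0) (nat_lit 684) (XT.nd (nat_lit 3120) (nat_lit 1520) (nat_lit 0) xc92 xc93) (XT.nd (nat_lit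 45552) (nat_lit 0) (nat_lit 380) xc94 xc95))))) (XT.nd (nat_lit 566202) (nat_lit 0) (nat_lit 5244) (XT.nd (nat_lit 238446) (nat_lit 0) (nat_lit 1748) (XT.nd (nat_lit 97578) (nat_lit 0) (nat_lit 456) (XT.nd (nat_lit 48750) (nat_lit 0) (nat_lit 76) (XT.nd (nat_lit 3120) (nat_lit 5776) (nat_lit 0) xc96 xc97) (XT.nd (nat_lit 45708) (nat_lit 0) (nat_lit 2660) xc98 xc99)) (XT.nd (nat_lit 91728) (nat_lit 0) (nat_lit 1292) (XT.nd (nat_lit 45786) (nat_lit 0) (nat_lit 836) xc100 xc101) (XT.nd (nat_lit 46020) (nat_lit 0) (nat_lit 912) xc102 xc103))) (XT.nd (nat_lit 184938) (nat_lit 0) (nat_lit 1900) (XT.nd (nat_lit 92274) (nat_lit 0) (nat_lit 912) (XT.nd (nat_lit 46098) (nat_lit 0) (nat_lit 456) xc104 xc105) (XT.nd (nat_lit 46254) (nat_lit 0) (nat_lit 532) xc106 xc107)) (XT.nd (nat_lit 93054) (nat_lit 0) (nat_lit 1064) (XT.nd (nat_lit 46488) (nat_lit 0) (nat_lit 532) xc108 xc109) (XT.nd (nat_lit 3120) (nat_lit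 1064) (nat_lit 0) xc110 xc111)))) (XT.nd (nat_lit 421200) (nat_lit 0) (nat_lit 5624) (XT.nd (nat_lit 187590) (nat_lit 0) (nat_lit 1748) (XT.nd (nat_lit 93600) (nat_lit 0) (nat_lit 1216) (XT.nd (nat_lit 46722) (nat_lit 0) (nat_lit 532) xc112 xc113) (XT.nd (nat_lit 46956) (nat_lit 0) (nat_lit 532) xc114 xc115)) (XT.nd (nat_lit 138606) (nat_lit 0) (nat_lit 2508) (XT.nd (nat_lit 91260) (nat_lit 0) (nat_lit 1900) xc116 xc117) (XT.nd (nat_lit 47424) (nat_lit 0) (nat_lit 684) xc118 xc119))) (XT.nd (nat_lit 281268) (nat_lit 0) (nat_lit 4788) (XT.nd (nat_lit 140166) (nat_lit 0) (nat_lit 2280) (XT.nd (nat_lit 47658) (nat_lit 0) (nat_lit 836) xc120 xc121) (XT.nd (nat_lit 47970) (nat_lit 0) (nat_lit 760) xc122 xc123)) (XT.nd (nat_lit 187668) (nat_lit 0) (nat_lit 3572) (XT.nd (nat_lit 93600) (nat_lit 0) (nat_lit 1672) xc124 xc125) (XT.nd (nat_lit 140400) (nat_lit 0) (nat_lit 1064) xc126 xc127))))))) XT.nil))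

set_option maxRecDepth 10000000 in
noncomputable def Te : XT := XT.nil

set_option maxRecDepth 10000000 in
noncomputable def Tz : ZL := (ZL.cons (nat_lit 76) (nat_lit 3) (nat_lit 125592448551200758757) (ZL.cons (nat_lit 152) (nat_lit 6) (nat_lit 247672501965365978284) (ZL.cons (nat_lit 2432) (nat_lit 3) (nat_lit 95187973938759045042) (ZL.cons (nat_lit 2584) (nat_lit 6) (nat_lit 187866519862226928838) (ZL.cons (nat_lit 2660) (nat_lit 6) (nat_lit 185440651897175508952) (ZL.cons (nat_lit 2736) (nat_lit 3) (nat_lit 92681202083883696299) (ZL.cons (nat_lit 2888) (nat_lit 6) (nat_lit 182942007893172546468) (ZL.cons (nat_lit 2964) (nat_lit 6) (nat_lit 180603216129076239606) (ZL.cons (nat_lit 3040) (nat_lit 3) (nat_lit 90263623729873985653) (ZL.cons (nat_lit 3192) (nat_lit 6) (nat_lit 178194260612057043540) (ZL.cons (nat_lit 3268) (nat_lit 6) (nat_lit 175941008817902751688) (ZL.cons (nat_lit 3344) (nat_lit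 3) (nat_lit 87933626414131828123) (ZL.cons (nat_lit 3420) (nat_lit 6) (nat_lit 173765523216494087140) (ZL.cons (nat_lit 3496) (nat_lit 6) (nat_lit 173620159469923831076) (ZL.cons (nat_lit 3648) (nat_lit 6) (nat_lit 171451017057404067214) (ZL.cons (nat_lit 3724) (nat_lit 3) (nat_lit 85689704650236453296) (ZL.cons (nat_lit 3800) (nat_lit 6) (nat_lit 169357930223547793990) (ZL.cons (nat_lit 3876) (nat_lit 6) (nat_lit 169216800372508710436) (ZL.cons (nat_lit 4028) (nat_lit 6) (nat_lit 167130443027744671946) (ZL.cons (nat_lit 4104) (nat_lit 3) (nat_lit 83530460466818374507) (ZL.cons (nat_lit 4180) (nat_lit 6) (nat_lit 165118514235491191480) (ZL.cons (nat_lit 4256) (nat_lit 6) (nat_lit 164981494962637712304) (ZL.cons (nat_lit 4332) (nat_lit 6) (nat_lit 163179255999716202892) (ZL.cons (nat_lit 4408) (nat_lit 6) (nat_lit 162976705485362183670) (ZL.cons (nat_lit 4484) (nat_lit 3) (nat_lit 81454604153308313713)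 (ZL.cons (nat_lit 4560) (nat_lit 6) (nat_lit 161044800744014485468) (ZL.cons (nat_lit 4636) (nat_lit 6) (nat_lit 160911772323768389178) (ZL.cons (nat_lit 4712) (nat_lit 6) (nat_lit 159184092666490527478) (ZL.cons (nat_lit 4788) (nat_lit 6) (nat_lit 158987441681680800076) (ZL.cons (nat_lit 4864) (nat_lit 3) (nat_lit 79460955220090130015) (ZL.cons (nat_lit 5016) (nat_lit 6) (nat_lit 157134534926394754456) (ZL.cons (nat_lit 5092) (nat_lit 6) (nat_lit 157005381120330583298) (ZL.cons (nat_lit 5168) (nat_lit 6) (nat_lit 155351433013172623734) (ZL.cons (nat_lit 5244) (nat_lit 6) (nat_lit 155160509726949587420) (ZL.cons (nat_lit 5320) (nat_lit 3) (nat_lit 77548443581192978154) (ZL.cons (nat_lit 5396) (nat_lit 6) (nat_lit 153636577891798971098) (ZL.cons (nat_lit 5472) (nat_lit 6) (nat_lit 153385684236489657934) (ZL.cons (nat_lit 5548) (nat_lit 6) (nat_lit 153260292191767161666) (ZL.cons (nat_lit 5624) (nat_lit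 6) (nat_lit 151679353830561072568) (ZL.cons (nat_lit 5700) (nat_lit 6) (nat_lit 151493991416752299450) (ZL.cons (nat_lit 5776) (nat_lit 3) (nat_lit 75716110968296717147) (ZL.cons (nat_lit 5852) (nat_lit 6) (nat_lit 150040027540847971398) (ZL.cons (nat_lit 5928) (nat_lit 6) (nat_lit 149796441467732133376) (ZL.cons (nat_lit 6004) (nat_lit 6) (nat_lit 149674701618486991370) (ZL.cons (nat_lit 6156) (nat_lit 6) (nat_lit 148166159048634704074) (ZL.cons (nat_lit 6232) (nat_lit 6) (nat_lit 147986195540082497164) (ZL.cons (nat_lit 6308) (nat_lit 3) (nat_lit 73963112585498110157) (ZL.cons (nat_lit 6384) (nat_lit 6) (nat_lit 146601719640841382722) (ZL.cons (nat_lit 6460) (nat_lit 6) (nat_lit 146365228307719209886) (ZL.cons (nat_lit 6536) (nat_lit 6) (nat_lit 146247034279325868132) (ZL.cons (nat_lit 6612) (nat_lit 6) (nat_lit 145101756258461864478) (ZL.cons (nat_lit 6688) (nat_lit 6) (nat_lit 144810383542262054820)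 (ZL.cons (nat_lit 6764) (nat_lit 6) (nat_lit 144635661689298747140) (ZL.cons (nat_lit 6840) (nat_lit 3) (nat_lit 72288719014995841118) (ZL.cons (nat_lit 6992) (nat_lit 6) (nat_lit 143320302641488787850) (ZL.cons (nat_lit 7068) (nat_lit 6) (nat_lit 143090699405447843348) (ZL.cons (nat_lit 7144) (nat_lit 6) (nat_lit 142975947921570812518) (ZL.cons (nat_lit 7220) (nat_lit 6) (nat_lit 141893683592961840102) (ZL.cons (nat_lit 7296) (nat_lit 6) (nat_lit 141610797460729015190) (ZL.cons (nat_lit 7372) (nat_lit 6) (nat_lit 141441164593774347538) (ZL.cons (nat_lit 7448) (nat_lit 3) (nat_lit 70692318384602190806) (ZL.cons (nat_lit 7524) (nat_lit 6) (nat_lit 140529279836347547252) (ZL.cons (nat_lit 7600) (nat_lit 6) (nat_lit 140194662736938139420) (ZL.cons (nat_lit 7676) (nat_lit 6) (nat_lit 139971746973791591358) (ZL.cons (nat_lit 7752) (nat_lit 6) (nat_lit 139860337766143988610) (ZL.cons (nat_lit 7828) (nat_lit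 6) (nat_lit 138841057834802000704) (ZL.cons (nat_lit 7904) (nat_lit 6) (nat_lit 138566411104478869722) (ZL.cons (nat_lit 7980) (nat_lit 6) (nat_lit 138401719000639386564) (ZL.cons (nat_lit 8056) (nat_lit 3) (nat_lit 69173418808780874871) (ZL.cons (nat_lit 8132) (nat_lit 6) (nat_lit 137548799992755625720) (ZL.cons (nat_lit 8208) (nat_lit 6) (nat_lit 137223929022455229766) (ZL.cons (nat_lit 8284) (nat_lit 6) (nat_lit 137007505951439163688) (ZL.cons (nat_lit 8360) (nat_lit 6) (nat_lit 136899341672169646456) (ZL.cons (nat_lit 8436) (nat_lit 6) (nat_lit 136316760053461304044) (ZL.cons (nat_lit 8512) (nat_lit 6) (nat_lit 135943127685124728506) (ZL.cons (nat_lit 8588) (nat_lit 6) (nat_lit 135676480374131397456) (ZL.cons (nat_lit 8664) (nat_lit 6) (nat_lit 135516585127685297304) (ZL.cons (nat_lit 8740) (nat_lit 3) (nat_lit 67731651115746708447) (ZL.cons (nat_lit 8816) (nat_lit 6) (nat_lit 134722887945687756764)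 (ZL.cons (nat_lit 8892) (nat_lit 6) (nat_lit 134407479236658246130) (ZL.cons (nat_lit 8968) (nat_lit 6) (nat_lit 134197359750234881006) (ZL.cons (nat_lit 9044) (nat_lit 6) (nat_lit 134092345886866417676) (ZL.cons (nat_lit 9120) (nat_lit 6) (nat_lit 133562143575245777382) (ZL.cons (nat_lit 9196) (nat_lit 6) (nat_lit 133199393703074344820) (ZL.cons (nat_lit 9272) (nat_lit 6) (nat_lit 132940512818614800112) (ZL.cons (nat_lit 9348) (nat_lit 6) (nat_lit 132785274715269071810) (ZL.cons (nat_lit 9424) (nat_lit 3) (nat_lit 66366771874046244445) (ZL.cons (nat_lit 9500) (nat_lit 6) (nat_lit 132459880331145006108) (ZL.cons (nat_lit 9576) (nat_lit 6) (nat_lit 132051168164661027984) (ZL.cons (nat_lit 9652) (nat_lit 6) (nat_lit 131744946117059561348) (ZL.cons (nat_lit 9728) (nat_lit 6) (nat_lit 131540946615677653462) (ZL.cons (nat_lit 9804) (nat_lit 6) (nat_lit 131438991408523805570) (ZL.cons (nat_lit 9880) (nat_lit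 6) (nat_lit 130961799317549779132) (ZL.cons (nat_lit 9956) (nat_lit 6) (nat_lit 130609614975635766934) (ZL.cons (nat_lit 10032) (nat_lit 6) (nat_lit 130358274311111937120) (ZL.cons (nat_lit 10108) (nat_lit 6) (nat_lit 130207557705921909644) (ZL.cons (nat_lit 10184) (nat_lit 3) (nat_lit 65078666732972322336) (ZL.cons (nat_lit 10260) (nat_lit 6) (nat_lit 129930335286048947652) (ZL.cons (nat_lit 10336) (nat_lit 6) (nat_lit 129533527357423726176) (ZL.cons (nat_lit 10412) (nat_lit 6) (nat_lit 129236224398587350800) (ZL.cons (nat_lit 10488) (nat_lit 6) (nat_lit 129038166630255401396) (ZL.cons (nat_lit 10564) (nat_lit 6) (nat_lit 128939180992241956840) (ZL.cons (nat_lit 10640) (nat_lit 6) (nat_lit 128955874790907707582) (ZL.cons (nat_lit 10716) (nat_lit 6) (nat_lit 128515742991689079034) (ZL.cons (nat_lit 10792) (nat_lit 6) (nat_lit 128173816446141494380) (ZL.cons (nat_lit 10868) (nat_lit 6) (nat_lit 127929796383496999414)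 (ZL.cons (nat_lit 10944) (nat_lit 6) (nat_lit 127783469582341632930) (ZL.cons (nat_lit 11020) (nat_lit 3) (nat_lit 63867354092152726673) (ZL.cons (nat_lit 11172) (nat_lit 6) (nat_lit 127555372552287008832) (ZL.cons (nat_lit 11248) (nat_lit 6) (nat_lit 127170122136146017106) (ZL.cons (nat_lit 11324) (nat_lit 6) (nat_lit 126881478486790312862) (ZL.cons (nat_lit 11400) (nat_lit 6) (nat_lit 126689189391322400816) (ZL.cons (nat_lit 11476) (nat_lit 6) (nat_lit 126593086830144299304) (ZL.cons (nat_lit 11552) (nat_lit 6) (nat_lit 126651576880581144824) (ZL.cons (nat_lit 11628) (nat_lit 6) (nat_lit 126224264454155291866) (ZL.cons (nat_lit 11704) (nat_lit 6) (nat_lit 125892296934206180550) (ZL.cons (nat_lit 11780) (nat_lit 6) (nat_lit 125655384252027059226) (ZL.cons (nat_lit 11856) (nat_lit 6) (nat_lit 125513319396536412152) (ZL.cons (nat_lit 11932) (nat_lit 3) (nat_lit 62732989116697245112) (ZL.cons (nat_lit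 12008) (nat_lit 6) (nat_lit 125803566252198151792) (ZL.cons (nat_lit 12084) (nat_lit 6) (nat_lit 125335416922583113172) (ZL.cons (nat_lit 12160) (nat_lit 6) (nat_lit 124961387392349140624) (ZL.cons (nat_lit 12236) (nat_lit 6) (nat_lit 124681150839576612228) (ZL.cons (nat_lit 12312) (nat_lit 6) (nat_lit 124494462397374755876) (ZL.cons (nat_lit 12388) (nat_lit 6) (nat_lit 124401158939920288386) (ZL.cons (nat_lit 12464) (nat_lit 6) (nat_lit 125010599686977306732) (ZL.cons (nat_lit 12540) (nat_lit 6) (nat_lit 124502802878537816010) (ZL.cons (nat_lit 12616) (nat_lit 6) (nat_lit 124087936445114657800) (ZL.cons (nat_lit 12692) (nat_lit 6) (nat_lit 123765637882057268172) (ZL.cons (nat_lit 12768) (nat_lit 6) (nat_lit 123535625569262004748) (ZL.cons (nat_lit 12844) (nat_lit 6) (nat_lit 123397698525096327980) (ZL.cons (nat_lit 12920) (nat_lit 3) (nat_lit 61675868115391891209) (ZL.cons (nat_lit 12996) (nat_lit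 6) (nat_lit 123725694795184797698) (ZL.cons (nat_lit 13072) (nat_lit 6) (nat_lit 123271180882937187386) (ZL.cons (nat_lit 13148) (nat_lit 6) (nat_lit 122908045416690612096) (ZL.cons (nat_lit 13224) (nat_lit 6) (nat_lit 122635971093610487440) (ZL.cons (nat_lit 13300) (nat_lit 6) (nat_lit 122454720178851403600) (ZL.cons (nat_lit 13376) (nat_lit 6) (nat_lit 122364134297827648760) (ZL.cons (nat_lit 13452) (nat_lit 6) (nat_lit 123003413646043458508) (ZL.cons (nat_lit 13528) (nat_lit 6) (nat_lit 122510407035908030626) (ZL.cons (nat_lit 13604) (nat_lit 6) (nat_lit 122107624090837003234) (ZL.cons (nat_lit 13680) (nat_lit 6) (nat_lit 121794712864567692916) (ZL.cons (nat_lit 13756) (nat_lit 6) (nat_lit 121571399939523747844) (ZL.cons (nat_lit 13832) (nat_lit 6) (nat_lit 121437490187906585932) (ZL.cons (nat_lit 13908) (nat_lit 3) (nat_lit 60696433300597688327) (ZL.cons (nat_lit 13984) (nat_lit 6) (nat_lit 122335328311663092414)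 (ZL.cons (nat_lit 14060) (nat_lit 6) (nat_lit 121804950150180268830) (ZL.cons (nat_lit 14136) (nat_lit 6) (nat_lit 121363674507221423868) (ZL.cons (nat_lit 14212) (nat_lit 6) (nat_lit 121011115802127661448) (ZL.cons (nat_lit 14288) (nat_lit 6) (nat_lit 120746965973894530714) (ZL.cons (nat_lit 14364) (nat_lit 6) (nat_lit 120570994211992507570) (ZL.cons (nat_lit 14440) (nat_lit 6) (nat_lit 120483046754687891220) (ZL.cons (nat_lit 14516) (nat_lit 6) (nat_lit 121720855028159289394) (ZL.cons (nat_lit 14592) (nat_lit 6) (nat_lit 121154193807115887458) (ZL.cons (nat_lit 14668) (nat_lit 6) (nat_lit 120675546612809646794) (ZL.cons (nat_lit 14744) (nat_lit 6) (nat_lit 120284495209828066804) (ZL.cons (nat_lit 14820) (nat_lit 6) (nat_lit 119980697902770483968) (ZL.cons (nat_lit 14896) (nat_lit 6) (nat_lit 119763889237679275162) (ZL.cons (nat_lit 14972) (nat_lit 6) (nat_lit 119633879770089797580) (ZL.cons (nat_lit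 15048) (nat_lit 3) (nat_lit 59795277949748195254) (ZL.cons (nat_lit 15124) (nat_lit 6) (nat_lit 121159456877128987866) (ZL.cons (nat_lit 15200) (nat_lit 6) (nat_lit 120557569384667548696) (ZL.cons (nat_lit 15276) (nat_lit 6) (nat_lit 120042639130800729680) (ZL.cons (nat_lit 15352) (nat_lit 6) (nat_lit 119614216176471753988) (ZL.cons (nat_lit 15428) (nat_lit 6) (nat_lit 119271926171526353582) (ZL.cons (nat_lit 15504) (nat_lit 6) (nat_lit 119015470027610692674) (ZL.cons (nat_lit 15580) (nat_lit 6) (nat_lit 118844623656832029430) (ZL.cons (nat_lit 15656) (nat_lit 6) (nat_lit 118759237775953761126) (ZL.cons (nat_lit 15732) (nat_lit 6) (nat_lit 120014555560524375358) (ZL.cons (nat_lit 15808) (nat_lit 6) (nat_lit 119464399035239519108) (ZL.cons (nat_lit 15884) (nat_lit 6) (nat_lit 118999693021349965064) (ZL.cons (nat_lit 15960) (nat_lit 6) (nat_lit 118620031465057168956) (ZL.cons (nat_lit 16036) (nat_lit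 6) (nat_lit 118325082623253690478) (ZL.cons (nat_lit 16112) (nat_lit 6) (nat_lit 118114588773650575132) (ZL.cons (nat_lit 16188) (nat_lit 6) (nat_lit 117988365989583121166) (ZL.cons (nat_lit 16264) (nat_lit 3) (nat_lit 58973151989649129967) (ZL.cons (nat_lit 16340) (nat_lit 6) (nat_lit 119524677856587601560) (ZL.cons (nat_lit 16416) (nat_lit 6) (nat_lit 118940321067790087802) (ZL.cons (nat_lit 16492) (nat_lit 6) (nat_lit 118440388782482496524) (ZL.cons (nat_lit 16568) (nat_lit 6) (nat_lit 118024444166629122064) (ZL.cons (nat_lit 16644) (nat_lit 6) (nat_lit 117692123773478247884) (ZL.cons (nat_lit 16720) (nat_lit 6) (nat_lit 117443137225987314968) (ZL.cons (nat_lit 16796) (nat_lit 6) (nat_lit 117277266963095408900) (ZL.cons (nat_lit 16872) (nat_lit 6) (nat_lit 117194368049621362006) (ZL.cons (nat_lit 17100) (nat_lit 6) (nat_lit 117553153518395739002) (ZL.cons (nat_lit 17176) (nat_lit 6) (nat_lit 117680505759154799622)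 (ZL.cons (nat_lit 17252) (nat_lit 6) (nat_lit 117858954659128771804) (ZL.cons (nat_lit 17328) (nat_lit 6) (nat_lit 118088656144540933782) (ZL.cons (nat_lit 17404) (nat_lit 6) (nat_lit 118369810925427082586) (ZL.cons (nat_lit 17480) (nat_lit 6) (nat_lit 118702664671013235236) (ZL.cons (nat_lit 17556) (nat_lit 6) (nat_lit 119087508224378059252) (ZL.cons (nat_lit 17632) (nat_lit 6) (nat_lit 118469947296247868300) (ZL.cons (nat_lit 17708) (nat_lit 6) (nat_lit 117935814747427619514) (ZL.cons (nat_lit 17784) (nat_lit 6) (nat_lit 117484643860156207820) (ZL.cons (nat_lit 17860) (nat_lit 6) (nat_lit 117116040407444755288) (ZL.cons (nat_lit 17936) (nat_lit 6) (nat_lit 116829682308606426670) (ZL.cons (nat_lit 18012) (nat_lit 6) (nat_lit 116625319347826703032) (ZL.cons (nat_lit 18088) (nat_lit 6) (nat_lit 116502772955528204036) (ZL.cons (nat_lit 18164) (nat_lit 3) (nat_lit 58230968026169509187) (ZL.cons (nat_lit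 18240) (nat_lit 6) (nat_lit 116600694684562950272) (ZL.cons (nat_lit 18316) (nat_lit 6) (nat_lit 116652354546737245160) (ZL.cons (nat_lit 18392) (nat_lit 6) (nat_lit 116755719410771229948) (ZL.cons (nat_lit 18468) (nat_lit 6) (nat_lit 116910879595478138218) (ZL.cons (nat_lit 18544) (nat_lit 6) (nat_lit 117117970677718393482) (ZL.cons (nat_lit 18620) (nat_lit 6) (nat_lit 117377173610864827030) (ZL.cons (nat_lit 18696) (nat_lit 6) (nat_lit 117688714882917275552) (ZL.cons (nat_lit 18772) (nat_lit 6) (nat_lit 118052866714404716914) (ZL.cons (nat_lit 18848) (nat_lit 6) (nat_lit 117485530026251790934) (ZL.cons (nat_lit 18924) (nat_lit 6) (nat_lit 117000158875467721732) (ZL.cons (nat_lit 19000) (nat_lit 6) (nat_lit 116596329151338231966) (ZL.cons (nat_lit 19076) (nat_lit 6) (nat_lit 116273687992939324996) (ZL.cons (nat_lit 19152) (nat_lit 6) (nat_lit 116031953480812205656) (ZL.cons (nat_lit 19228) (nat_lit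 6) (nat_lit 115870914390625889090) (ZL.cons (nat_lit 19304) (nat_lit 6) (nat_lit 115790430008612251326) (ZL.cons (nat_lit 19380) (nat_lit 3) (nat_lit 57900137579438091228) (ZL.cons (nat_lit 19456) (nat_lit 6) (nat_lit 115826486813082844396) (ZL.cons (nat_lit 19532) (nat_lit 6) (nat_lit 115905144679090001078) (ZL.cons (nat_lit 19608) (nat_lit 6) (nat_lit 116036317487071833516) (ZL.cons (nat_lit 19684) (nat_lit 6) (nat_lit 116220119854045024868) (ZL.cons (nat_lit 19760) (nat_lit 6) (nat_lit 116456712384019551702) (ZL.cons (nat_lit 19836) (nat_lit 6) (nat_lit 116746301808332284968) (ZL.cons (nat_lit 19912) (nat_lit 6) (nat_lit 117089141166286022202) (ZL.cons (nat_lit 19988) (nat_lit 6) (nat_lit 116570565876169275806) (ZL.cons (nat_lit 20064) (nat_lit 6) (nat_lit 116132535888527128532) (ZL.cons (nat_lit 20140) (nat_lit 6) (nat_lit 115774668458710184328) (ZL.cons (nat_lit 20216) (nat_lit 6) (nat_lit 115496650887022486636)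 (ZL.cons (nat_lit 20292) (nat_lit 6) (nat_lit 115298240245488774368) (ZL.cons (nat_lit 20368) (nat_lit 6) (nat_lit 115179263165587319034) (ZL.cons (nat_lit 20444) (nat_lit 3) (nat_lit 57569807843381433466) (ZL.cons (nat_lit 20520) (nat_lit 6) (nat_lit 115074828685432256164) (ZL.cons (nat_lit 20596) (nat_lit 6) (nat_lit 115128038343471779898) (ZL.cons (nat_lit 20672) (nat_lit 6) (nat_lit 115234504153426784230) (ZL.cons (nat_lit 20748) (nat_lit 6) (nat_lit 115394319143674899750) (ZL.cons (nat_lit 20824) (nat_lit 6) (nat_lit 115607622958382362672) (ZL.cons (nat_lit 20900) (nat_lit 6) (nat_lit 115874601979523189224) (ZL.cons (nat_lit 20976) (nat_lit 6) (nat_lit 116195489489737211202) (ZL.cons (nat_lit 21052) (nat_lit 6) (nat_lit 115724255362762386734) (ZL.cons (nat_lit 21128) (nat_lit 6) (nat_lit 115332187669432785022) (ZL.cons (nat_lit 21204) (nat_lit 6) (nat_lit 115018943826327050096) (ZL.cons (nat_lit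 21280) (nat_lit 6) (nat_lit 114784250125232759476) (ZL.cons (nat_lit 21356) (nat_lit 6) (nat_lit 114627901493983908440) (ZL.cons (nat_lit 21432) (nat_lit 6) (nat_lit 114549761317271638768) (ZL.cons (nat_lit 21508) (nat_lit 3) (nat_lit 57198361687565125900) (ZL.cons (nat_lit 21584) (nat_lit 6) (nat_lit 114423721378963113594) (ZL.cons (nat_lit 21660) (nat_lit 6) (nat_lit 114504738980950484978) (ZL.cons (nat_lit 21736) (nat_lit 6) (nat_lit 114639846973171772392) (ZL.cons (nat_lit 21812) (nat_lit 6) (nat_lit 114829163411154159482) (ZL.cons (nat_lit 21888) (nat_lit 6) (nat_lit 115072853717027922122) (ZL.cons (nat_lit 21964) (nat_lit 6) (nat_lit 115371130824070037386) (ZL.cons (nat_lit 22040) (nat_lit 6) (nat_lit 114945858991407758480) (ZL.cons (nat_lit 22116) (nat_lit 6) (nat_lit 114598414884789366046) (ZL.cons (nat_lit 22192) (nat_lit 6) (nat_lit 114328494912277038192) (ZL.cons (nat_lit 22268) (nat_lit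 6) (nat_lit 114135863221467608804) (ZL.cons (nat_lit 22344) (nat_lit 6) (nat_lit 114020351493407943430) (ZL.cons (nat_lit 22420) (nat_lit 3) (nat_lit 56990929397760062930) (ZL.cons (nat_lit 22496) (nat_lit 6) (nat_lit 113791578362973654792) (ZL.cons (nat_lit 22572) (nat_lit 6) (nat_lit 113846384310754364236) (ZL.cons (nat_lit 22648) (nat_lit 6) (nat_lit 113956044095008018702) (ZL.cons (nat_lit 22724) (nat_lit 6) (nat_lit 114120653534963577686) (ZL.cons (nat_lit 22800) (nat_lit 6) (nat_lit 114340356464112264494) (ZL.cons (nat_lit 22876) (nat_lit 6) (nat_lit 114615344855887315846) (ZL.cons (nat_lit 22952) (nat_lit 6) (nat_lit 114234696609936246218) (ZL.cons (nat_lit 23028) (nat_lit 6) (nat_lit 113930576373911260856) (ZL.cons (nat_lit 23104) (nat_lit 6) (nat_lit 113702718411683794234) (ZL.cons (nat_lit 23180) (nat_lit 6) (nat_lit 113550923624063550508) (ZL.cons (nat_lit 23256) (nat_lit 6) (nat_lit 113475059374828337236)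 (ZL.cons (nat_lit 23332) (nat_lit 3) (nat_lit 56615528468764133531) (ZL.cons (nat_lit 23408) (nat_lit 6) (nat_lit 113258864881476114712) (ZL.cons (nat_lit 23484) (nat_lit 6) (nat_lit 113342313011523107238) (ZL.cons (nat_lit 23560) (nat_lit 6) (nat_lit 113481474243511033274) (ZL.cons (nat_lit 23636) (nat_lit 6) (nat_lit 113676470174632891976) (ZL.cons (nat_lit 23712) (nat_lit 6) (nat_lit 113927471189682867496) (ZL.cons (nat_lit 23788) (nat_lit 6) (nat_lit 113590146814325204940) (ZL.cons (nat_lit 23864) (nat_lit 6) (nat_lit 113328088588585080810) (ZL.cons (nat_lit 23940) (nat_lit 6) (nat_lit 113141067529546799850) (ZL.cons (nat_lit 24016) (nat_lit 6) (nat_lit 113028920220751008226) (ZL.cons (nat_lit 24092) (nat_lit 3) (nat_lit 56495774334701806262) (ZL.cons (nat_lit 24168) (nat_lit 6) (nat_lit 112741667326624134054) (ZL.cons (nat_lit 24244) (nat_lit 6) (nat_lit 112798117452838264786) (ZL.cons (nat_lit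 24320) (nat_lit 6) (nat_lit 112911067030619528882) (ZL.cons (nat_lit 24396) (nat_lit 6) (nat_lit 113080614753773754636) (ZL.cons (nat_lit 24472) (nat_lit 6) (nat_lit 113306908770796902050) (ZL.cons (nat_lit 24548) (nat_lit 6) (nat_lit 113011646405724100726) (ZL.cons (nat_lit 24624) (nat_lit 6) (nat_lit 112790425083173162258) (ZL.cons (nat_lit 24700) (nat_lit 6) (nat_lit 112643051502959333400) (ZL.cons (nat_lit 24776) (nat_lit 6) (nat_lit 112569396892051359346) (ZL.cons (nat_lit 24852) (nat_lit 3) (nat_lit 56147169863002431139) (ZL.cons (nat_lit 24928) (nat_lit 6) (nat_lit 112322981908271145360) (ZL.cons (nat_lit 25004) (nat_lit 6) (nat_lit 112408933482219547662) (ZL.cons (nat_lit 25080) (nat_lit 6) (nat_lit 112552269551167111476) (ZL.cons (nat_lit 25156) (nat_lit 6) (nat_lit 112753115360222625942) (ZL.cons (nat_lit 25232) (nat_lit 6) (nat_lit 112498689898339010280) (ZL.cons (nat_lit 25308) (nat_lit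 6) (nat_lit 112317116054612523914) (ZL.cons (nat_lit 25384) (nat_lit 6) (nat_lit 112208235172286512626) (ZL.cons (nat_lit 25460) (nat_lit 3) (nat_lit 56085976056362967137) (ZL.cons (nat_lit 25536) (nat_lit 6) (nat_lit 111916491210841059246) (ZL.cons (nat_lit 25612) (nat_lit 6) (nat_lit 111974634840841613898) (ZL.cons (nat_lit 25688) (nat_lit 6) (nat_lit 112090972905956315918) (ZL.cons (nat_lit 25764) (nat_lit 6) (nat_lit 112265607060805168444) (ZL.cons (nat_lit 25840) (nat_lit 6) (nat_lit 112050829077746004884) (ZL.cons (nat_lit 25916) (nat_lit 6) (nat_lit 111907747931907336088) (ZL.cons (nat_lit 25992) (nat_lit 6) (nat_lit 111836238600928720502) (ZL.cons (nat_lit 26068) (nat_lit 3) (nat_lit 55789145087250854158) (ZL.cons (nat_lit 26144) (nat_lit 6) (nat_lit 111607791622235979886) (ZL.cons (nat_lit 26220) (nat_lit 6) (nat_lit 111696321743402834256) (ZL.cons (nat_lit 26296) (nat_lit 6) (nat_lit 111843957894418824988)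 (ZL.cons (nat_lit 26372) (nat_lit 6) (nat_lit 111667672609247478998) (ZL.cons (nat_lit 26448) (nat_lit 6) (nat_lit 111561963014756205904) (ZL.cons (nat_lit 26524) (nat_lit 3) (nat_lit 55763368371669084335) (ZL.cons (nat_lit 26600) (nat_lit 6) (nat_lit 111308083283784446526) (ZL.cons (nat_lit 26676) (nat_lit 6) (nat_lit 111367971222685017814) (ZL.cons (nat_lit 26752) (nat_lit 6) (nat_lit 111487799429753160896) (ZL.cons (nat_lit 26828) (nat_lit 6) (nat_lit 111348885695929210608) (ZL.cons (nat_lit 26904) (nat_lit 6) (nat_lit 111279459160998515866) (ZL.cons (nat_lit 26980) (nat_lit 3) (nat_lit 55537623972207290219) (ZL.cons (nat_lit 27056) (nat_lit 6) (nat_lit 111105634435580880156) (ZL.cons (nat_lit 27132) (nat_lit 6) (nat_lit 111196820460382740156) (ZL.cons (nat_lit 27208) (nat_lit 6) (nat_lit 111094189786119368220) (ZL.cons (nat_lit 27284) (nat_lit 3) (nat_lit 55529994761303355356) (ZL.cons (nat_lit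 27360) (nat_lit 6) (nat_lit 110909082155771592420) (ZL.cons (nat_lit 27436) (nat_lit 6) (nat_lit 110970766732839180850) (ZL.cons (nat_lit 27512) (nat_lit 6) (nat_lit 110903362329993846148) (ZL.cons (nat_lit 27588) (nat_lit 3) (nat_lit 55389071319273320818) (ZL.cons (nat_lit 27664) (nat_lit 6) (nat_lit 110809440724447930348) (ZL.cons (nat_lit 27740) (nat_lit 3) (nat_lit 55388118292557626577) (ZL.cons (nat_lit 27816) (nat_lit 6) (nat_lit 110712701470735637072) (ZL.cons (nat_lit 27892) (nat_lit 1) (nat_lit 18446744073709551617) ZL.nil)))))))))))))))))))))))))))))))))))))))))))))))))))))))))))))))))))))))))))))))))))))))))))))))))))))))))))))))))))))))))))))))))))))))))))))))))))))))))))))))))))))))))))))))))))))))))))))))))))))))))))))))))))))))))))))))))))))))))))))))))))))))))))))))))))))))))))))))))))))))))))))))))))))))))))))))))))))))))))))))))))))))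

noncomputable def vl : XL := ⟨(nat_lit 0), (nat_lit 76), (nat_lit 269009567), (nat_lit 152), (nat_lit 103936283), (nat_lit 152), (nat_lit 103936283), (nat_lit 1), (nat_lit 4), (nat_lit 2), (nat_lit 5), (nat_lit 2), (nat_lit 4), (nat_lit 0), (nat_lit 0), (nat_lit 0)⟩

noncomputable def cp0 : Nat := (nat_lit 130991405946438966130206103460603824164958637911820388057653421661337060365911000743278355416741181656341388842632389523062765313055792269074587689139407235760283288803982440348971728551689471165450660121203104098452597647397804343228813016319706421387023392263225765281208002255447143540679416357002364484918494734107925336305732820178962765764679062495254913380466914184296493333983487508580650403967773536322660799923150696829955986463882157353796827459349314832735544388499444404958251032290805956728956546814685261493743422579982952306158740546687850847345874904152108907522072184712750789806677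7329709048567939543073547082144402210510264230452482358817099910834193832991387031462312318115003396195972058813964796934734154766867285754186550491575096325083078838547402270705763856678053408875722506883187666765406748699469614804714536743753803029670768864108227943065961377593261903499473044248629614236420377561614235422131162053214171079483565139219576000106638285701634419808411219703833792395972574767832640473035201303504048926686642233190724079823983728647425167013366709041299031192971326862722558920020196776062193751467914885497586623287545971120317720608792392233724187925748713958346006903451771685577393885480881173973900690604558103278467427397107040895342506054099796321426672753175124908730782972717488044282898242483193091082816937567250942790790138367080943366327737501163158790962123209126245976007563391454563888041234562861538402979927194441192822005878454507005393341084890280975707975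2078342749036318802105676225424194310187386296311736662427656561875085437864816234266127862305012409643746941606140646118018133142229757171214162414829504930511990448248669220102496939253503385402785336532116798302594572820976750531675853480509754550732264480575303275040117733880088977070844025948964474164865342700548231280936395486428632815431269388104078221220609401488094174318195898219900364161755482578058910903208926290054748512475746627818350042922921505667228908457999419390317782450708189347328672593016751980382318040138142533748080351278737228692084037970487168862356654718235603126607894419775728553263269995853089564744820279741480192799640000648640281743512442594848269801657266604542797058546333982948557387654385778687317540435163908622822252961210847019659920014578058352075384424607901819610390268389392819369840067912976869833736233015268953743408245079424056200808752612319297834193402670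3918375524739987609479728679937160168596022792806399610542512730211956197545102805113857027496073970193436618525305790297077527934190405624912052384685379167220937766931663114059740685462305955574737076019628549325114714064142090093617112250902275950030851541419859860088947725359056212259479391765878456336600683983139558386850345149579144666535283355867147228994246586402623136316131400522581968263204226937686734761026404777862629142600356691800457140209330988022494312067493776761477798571672453575596694336473865028144734442875318485911060631963076292207982839514306094060529897994884865914394662209128668491374996929832800989337854934149507587627203593782112735240996713827418036032693944180333035056003851608511466705625377276088616115798796852749404513260753652489343223198104347672551473016614022768389663757826791617925582237534299390935477724668497522967201566074923083590581810420636258387646477792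5087823445162238814972028082797982073806514811887191519223399933755708537158524668351671075851619268380643189644185022520721489174552862131159803239100230309887716889156485299702369901618751115443780227614731519152414227006196509929451493781726248194570907818515140447761876926012837010185837681523048313228437299043359363373382073340248907991166442353271153342499715475985120341738921539561198773034471041200395278206830198398277519054486860490357475271856105181583621622988973449049787899932931983126628995986015213718875972408255472101617644218616378401668106520875317486763155457741471284201434468268879997812838539105947429860321535997487449170327039044664864211761521965410660256316490455356936081890077082455115137848363695411695296381153522634401286345122655954997036807119574371607031212987716234420859369630288036706681317376633143119473558133908081869603398886215473186126737221002084166283252847299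5710957705224136057119602669294748222783076081048343078309278371729937694851634546333796528153363706375575850444591397479846323797524141413988879964458437006326704504457663150471194900866572991720348372635068728660643084546437672441110282441764085215302324304736918800232355489068708767847577428198452388867808037776329807323351505448498429386563266898782157737336207044874905790714476045083553243995042112284436393229108741772071276202286301711143047618645080066244210285278219054408841541553439335504771327485439913590099351901537270801619298340971014033500292498265277511538937681226083579503121186234399725536635560214213143328274474448362021801066394335611859549462741789008053910153555341465885639012081691529593612520490106605642767660991167105241705365073331815347875473153442440905905694512205212593506129343904552576670206852111153416521748756935235613268102922417430269539539840626720109056450111993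5801515162943361106173519853838288699336828137085647844196301980621473444600709605189227805889311763117812512202841718367926056165634946223368908959231499392665158787438348543338089354972925867455251267981820693516291833612664251534661899388876459962847567889316687962271557178116466682254103279702333828950028700634922680706998984696124930518938240854389152236632128226557382332546367623089260089088927509916652097623695525683776323625799411378400343570794996871867730420854579327859958145027686329760456430528890013316463651531160165558135709515876350916486927248121342197079769276723633647301296569168255306555593328163711763071440855261549280731026435297579045160115664225149415510715313501198216540554202560630714186225165748987087039488394365867925150869818178899292258467254831998374493524596703831526864102523349412948855627553179574642729496638302463878406909671398455457825009620090983708614001139609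9675862357645291470703418656551273974988588365654768728385827322181524516489908423144423089490786706002449637809688023176711034293777927743722329550025031557726014669912499492805760641747310042857260614470891101293085411974131352447750942052540766777530396963601058174436772817385666936740229113575779354205387190645465635298421068394705469366981166702656441542835548922418496837426334352561023154956396843224963360273617791946935772149748904537071475704689974530900662207420078741644159045689813679998249772020460103532837367857774054465037998473345161786537832708259577916215392678759619299285119366184290554856744526901736334257081462859400196666843810464499132471898674874411106316253303224523359124789842104238738801040816303065534056182687167537684784626230436306392233698070997198262125201695462884713173502781242005874090451167831694173794001701497884341604636010237820969571715917543859953504542586096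9860743076468406812140998059256843014239806367917944335875895171963461140658171920821924378766031597608901784156613124789730007722400176078638527103218684123317185027575276306875868877854346314950493954830119472843350020673097234390375297536724231545344176139696218930963569755172345148679733285384653587291073580747651452663748518678840779985168194996110998771498622514361903735416949156394833871583921676623469814935082425720843237271468072044055589868608691712888652581447677354616497092236369071434123118655739657516335697025197099547293610775082346117742877695803073506367815778072322663825515088022498996465695448517459834624136835993369467938985909434713458883570170162124421740558074501481862309874221498822938065427978412676453877379138029423416212405394208495084184816949862003173717381508737153061276737143728160123930360353401152199663123715247961489722688797449836228085615793765983351068029905172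62988743351542756018372098387292551948372402019129747088844182290077302950961476614430924203430690703253087918199878438963018897423382420256987203390330126949020958996456235776911553947545908666321892084416272750085924582076379064594358634749155902951884007958018907366249364472810346666898289176751960978924763790099705482466276932684316884960169972289114763801707680204973325223522755372070464114602220989864484254571871726261896972251283976150147505709801452331010279494662678396144207031622059823266782794220155110844549170049581056)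

noncomputable def cp1 : Nat := (nat_lit 1669476534923976817609097763758256809551815686330873781503933553978160719456945335297087344789253318225716773498321955610731253467500457599842379838420031876707603258633985079448477287588971004857015121810176857921768601506110310670102279292463104289627244655067222837985782658904565910113010934619138624971025103523980031401854260802570997042329482688838362131603703075287688794661444853839723139820246535152312363871222884912386092051410069880480190667420637814384063862724094674734007787867592748849016381009663445418499702843119475363407103913867429946028595312820026950397757580826876770943640564309853430082352790713891819949459590282905720760360585325880779014381390157954705839535011981868356889372784020023271520298069069217383829576791879132870324874380908027517257182440649651336147772864564578507461512350111021570779281690556140196989090896232989390533439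2127849269739653817900155715481074227923284205190346225937253221815810437777074107947746275679370950424428040326083331001948864852649546409867357737736493893813404556506477993102507436222810459655192318749886963782138471554114747977245256864295090220766548037217646332416165305693431376583893520732667813040394358308614279703120352118723750550294491733665463934481207908478952741221283983259647643963854989635892825851599006978236188745176484606519352480412033589188596464131051172584362862012238649440618767203337697688686947759297997651704386233049221925337896615851785976573583815284295850457206581723500155824227873878809151033827280268149658864914644455571077105407977992728380090966351497908551267647553955226144826240002644097885413990661276753722659384316122937838751555218381853045438262649584046192735436885991386888010826162102787136309054879885143564290205011078287938555142938498718655935334509173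3622807620316022425715479191272922224416614527464158381984022826340353186314827521316049050516188997088016661345307543848207229517216856918920221968194502061101467340720509866140053157676794080889481463573106031784017014266146672230907347602806262621380469726177525532515598138470852989438597566414596757991814260703862962360453305021877425174237293224887661258590288488550136805895898931628512296739664524765393241516187118434230676083801276678351158244694800734397606931354707039800251088925901353901082060506721671225705496607201345553644476205795465562573824577409272371165263278232521352516575246319449249124541567763188981333737441255610672610149639380944825042789654946661368783182955520384082779302367001512542383230434249064888964155122291070664270939233520825458997889698494887711935595194238238968370001959515079816221107605727374184482429809623922153597625027428933534994867875202310910456289836719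6017322565236436262508363376768203161599297088863662533981320186835370056810546092830845619316719144312162142705453419423051138947567598004108323915186492383473686895672564575420697546982479439653991862415176584885173543530569789246214844624756653009453058918199540407174210099050356653565371238871044610716680357270926839151280871668707103701695869250013433173588536501801679312374404907685571756706010622601629934166090413933061105854237544943270211853111733496858403021161941030400930174154699847835996253001870614444670609186649737622136612609661263016411616045180201480571907101876606597312386959835801912632496718157206741741352125964515549089009563088030072517355944855360928188553202699152882928338790625395760676429930248447017080217253471778313992747218996600561779648872123392152133259410394488192829593325311491253810521109570294586462429913379008957386978800453695630964126513657190958972047251947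2650426357000669531860098779175845934800509124332377504809411225943205830044318346933967787858808675876050788657042530542599473282146172138003967335640265663127630287104844798634641498618861576071725331627991346317436989806595640764236617627125753269057286974385189162764146278816456909195474894944141641601707931334568846040431340011290025858222087481915013509837330018711589084344432429855503231417623370509115199848966579324718433925062863999669758545693402695916079503810851674794070500706134893304856238368994413503149483391920077548800239731094526856315049821094772038705883476948871203529756844556242573872714752955672422898524266951383394240056095760388847653219681887156304866227318873577936652395174401694124595781309582379341378030038359180281116365607260101555858024569384513468405884662269807637543460467844600588890533459363840662507866224246919325223110283507881156443645581857520040147477981110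2699542475293507052928899566680157576749466899066750456961127147242270168664483096453723561975470901444317468176569083784507515301717781513902309603213290291071031605649317965623395711716058228097286375755991163651293340275115386669193888648520272393598575069069647488557172582793541668960981200724692239974948794979534759239950148049876091398863882485660704401931824118646531907194579829404633407226306413993255563296626175420359800014775146856238995802701056125466259427816635960257740789974876849378520418504934901492100469910555460945608670201921802671561283828857925627241856524875953531210412448999468185960959026929169717024116748675471282511000129606354464719085159178020921469769736218931224605144251709287031659916956884515746667713181659743750730120713181001863433843383462622494111454872979484235408896276042447356953130940544854010761376307685389778253357547606386603545145184196815308743282612825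1175544002229838021220514001991706796189827724706427544449265336729904185291883091505456940152716768905936188501206475518266191825553288302033669786420427860911540479010274012259994399975651308776136093012515105005008874750252989350352248350149197690903408266595344196692544670411162255713629564401772362745739065194228806935218999833558302844399877157278960779736674403838187962935020859194778687171063012224442521181496524560425772910341120492212623671539999716749024580922903213769680669440456367666832045442773709149932139297220361532503536316901448561633203400721881348880811181412492855271741462816393917815621525457766819373800592712517670579529139999140956765364777526643158233106866611438434938252328620070571466104492175515072185824859137487876803584138011082734236917478795139706873471263231196223851409139647525095983173812298837382941906536676794875444314609140493788951007435383875380031855059917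8136233145929558160915727410210584929427643713714377450812983590769963923964628700333772309879403195334065308853230303625656540917879365329070988412028663835053516787550311819191486820797132329780926780773916590737041522370836140402197695399242745226228888668355174324319983968626508215922795676545350709723122664341862392103585434536708647082941248178761382207524564586854259785889725027794508506644775809100415352096886857286562833738600148708655442297286920652354340126188249562831063659184723039867619080015413790701121021592806579281330211390383226234360932048902173992774992760851516743585742962187776179747594406525847074265371251064883136192486959126238258220338139958537466047439100728234751981936606971207256186418163324194545789234535984045424330979752467890293586162672146648749441680927185136930999234648528072896049666416846273738131125963000975841104892809417548834910231306612396680677977315419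0984933595920425606686787612745805399284233742337067451241822905180637692511705787366125550191401128952107149011640362996973015830875252817002233477700598637882610017380095025137380794235599169415527544309517848560491278222949352958629606942579280355209879781101419668317108528249874930629291045833277754045992255479721779930522218901218371293427617208729617137537363634059446035072170856885309680095067643150302830364707725261829224390275228945434058076538923542637923858836120418841560488271009755659039761616825770629760154527150580331198475515006527907968432896795605737909678097664971270354611759676734460614096965714623084369971778548407643113631940038369843828261545781525656810410174656545404437088704462484652412447675274698251786511697682137468172606288110601509165764055397008573881482169746718459769332207111446009853185574042022499249973332003125517925077067919099501730120207865829804209279957774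9757335830644580311272678439128294108243147907876199612443513949004379651783412925679634053628714280573547938692088586898879009337669097764778763105556255324915708903963234255932781299537188340025552788691535535257510793061601890459205463120530095210635557933306103486720946536637834000271457341081436911418985672878105756491814727637466122289311667750713276899076175727488237466560880047131620758619375705208038887378704424055859563604787764733870794243716904912564219953037668968576544906371009207586079835755631996132237190784303787845483241619902299157226275036659769803731411686114620181831672387986259609855122390682148809471950085120042480716389932817417362492136489551026043541765968598766789283641106033097934006404138150070519737700962394800862987489451735344805791250626130137753007254863258991673767484275448146888337841416866422733199423532075641518582856935635782000973915863551154515282374094342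8566402280276265115530108871439769421403040502976170243277986923008813770499370123397354383480135169737513537975968043545139585556328101158478180052201796193799239672969589776247569043747859126798585033104118744015661270212277246438144849029727056290366194613427487623684193750140809343862498091836020840108780979817594756410106699944177402341091807118214170367894198740121366379447688131264096296099429279769979431684665094776176830767554068930972329385035897301042822048832931672125785862865083204580135736114095685429223664471182983373409305003776877498470116977329863129015563128579389091351562889981984162546620811920873882889250228864998422922436460243859344213780207566666993399738344673207746657767223388296650398425800389811732609855353023970766963698316553353787882486453249451999229187785490363331472034378506251458282950090970205542649725474298120357707429989012345170307285997743704527605690853661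5819630850278565280288511274037074249162123860001259536813054086469501790569157275421146755396160903013254098004408306290493845932614877736680719579812462441687022915098217074670742574761535233863067367579448490616388440218573443209933775176331799236923688821418722063342375537320284550225416459173536702807210405619570145804407728690984520531375806461912431589222522868832087467753176128979248213554453798605269667121102813453739314215619766039625344367487145494497421539066660354240179733644665554155567674308055029328336952773245618690517069645792180592448495156831785842997948010976791857499799858192857701103462998277608034473284054085814158642743882706152276506982472932853223139508798482594940053351925105254395468279174180392984296905925125568661231617201645334207773367492760435986469904948188487403292098034061993312802863883143146428381149509554924578669285454325756105866686047874064446510807480087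8621475194872333655019519844766203162881505783934032372706927763988818909554195677984039641968736727301190263375229590998986155739957853728950873355641561434601135780866410051705245007383742798197301594767532698030778936559789916787648320134227378674414016861363304896239692807201940372763001084774056119244329506366771661109360191519028994311193979510669712482051036963161457174981172025940503815993032360137406835592547538176013758083140928660446499524451967877379680476051580393389240731281386483114514647493860650729406135018503279289694049123338499196763394864644054601296090234728519169915561198561966837360146169969971572087490944119989066464591485481759677685108490180973251781784924198283490802893043557697404249015748373312769245451770479194767850833775003291970190049963802261354796151424241301024538098240438520159382048374486220494988052868978474043357389896019178655210637611059922192469922383670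4758417763441567342398074105969451153976652013115391612692028131618939379108673463129887539187764179946771066146048878109311439272640691609897495463959423171886405913262093117472585928163357729367361029442457933677714907096474070707427057025473805478235056770117347502434333392233261306172158243809139525160165156671978693711511763239680887221400599532152875942446713487871379093739349315574780978470417972883779217911440447565131974907114961359569081719995608083596900253460959597849621179901181841107136973345153937754318290896295821396781686212966794268870122202850310078206706999999940030808967150600744749464325518883030081695685884279112751056128916944632115429906690977023524928526708656913864049557655962467924679329237088055336399778775689756980226060385863118751396680157588818680550546275648777658187623556820485292736285185845036144381693418808241975346397910836680529668529721183029706486929253216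2599288743478745392449823982242359183412614878172633608276015712175446076855355507900447262510550332820599661131849777623958304747026877907798160728187171418341380386101594270760630023274235256201035467950069988243688014642428120620537820155440499787717912987117609707528260080255333497712500199299207328010967174245090613081265325704224910143123922926968550649384359714338645619975995124301709373983210380175712538032858150733954297470121297597342295024131498931674780161631986496256635098650955032983100922692904909433658040093416568002251357801953859789978621620087103617800136593978071279244840956816833148105861155007514954901727725031393198459741933383641941858288919109918012489353674031652078010436514843428031644545306887270869376869222088396530112576534971743911832850981174252564002031851551303835164914235882548845491207091026599657027076406833867006233935339262594451872146280566141194254766952522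5156633008440422235152724131128199267330640616578946746789300078455348896583135619875499801603810073032011821988307490859894759888721940109342782709425911927148633690106037300630419335776402920648153689899039508129867260586544807715434756492664675314313720024453017386846813483124517389589359689585773097221856957617687525099183841441444368439427929205198679351902932453341786950094474477974794351928580736508301231415563810517350662569901462106151046013076725732470755105623856292104671454202846205751628374329095538026192707681120090420328933190510825914267438338417318972029178997333405816592095444364688676446849388479955347923041426700074341973292535025667770920761648706212098028568468035263145924759689072952447016959599898038545417066030900722123235061221686546489309217629951599328959720209691276602582116815055905444924829470634245947796278920715481106776904852211441792978339648049425117436037353084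56214244111279004065451715056708724176154277019903240777183515639299220195278774161818181526745937560347951078004203923593641726011225847660784102798800350452345754299628779971458848009296588547195388575177054178507973965021398457701241722934888358816630632190116611862589056482167625110139213329125251893437787651047897140060961538307879666445576916287113025232169204441981738461135240699671977470998065916301525153777239837249970759378517628004920039367010012923795495611672476684841599917910667093947880887608037902530392261235949259826889316931076073492073076739903676715352770007642117600394374280060499284975722331653742206669587654671162012710042404670988090738224788225717967492427149686192277429899631378664231320272376391283364692332378467596384919189540896796988158891183596591344351072785514084537773083715595398942452958441532066434617103775782476076616315493159444507833284709886867871632643336097954093649631419997539466800664909507830391354234951519256531348029555906260007546396015924578280365581915066970573188890443415980638262805478978695365683144382267257050120471557468155867037886783998826209343718743716041213158547033386843738208997197690302086493869035826295713912848384)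

noncomputable def rc0 : Nat := (nat_lit 1669476534923976817609097763758256809551815686330873781503933553978160719456945335297087344789253318225716773498321955610731253467500457599842379838420031876707603258633985079448477287588971004857015121810176857921768601506110310670102279292463104289627244655067222837985782658904565910113010934619138624971025103523980031401854260802570997042329482688838362131603703075287688794661444853839723139820246535152312363871222884912386092051410069880480190667420637814384063862724094674734007787867592748849016381009663445418499702843119475363407103913867429946028595312820026950397757580826876770943640564309853430082352790713891819949459590282905720760360585325880779014381390157954705839535011981868356889372784020023271520298069069217383829576791879132870324874380908027517257182440649651336147772864564578507461512350111021570779281690556140196989090896232989390533439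2127849269739653817900155715481074227923284205190346225937253221815810437777074107947746275679370950424428040326083331001948864852649546409867357737736493893813404556506477993102507436222810459655192318749886963782138471554114747977245256864295090220766548037217646332416165305693431376583893520732667813040394358308614279703120352118723750550294491733665463934481207908478952741221283983259647643963854989635892825851599006978236188745176484606519352480412033589188596464131051172584362862012238649440618767203337697688686947759297997651704386233049221925337896615851785976573583815284295850457206581723500155824227873878809151033827280268149658864914644455571077105407977992728380090966351497908551267647553955226144826240002644097885413990661276753722659384316122937838751555218381853045438262649584046192735436885991386888010826162102787136309054879885143564290205011078287938555142938498718655935334509173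3622807620316022425715479191272922224416614527464158381984022826340353186314827521316049050516188997088016661345307543848207229517216856918920221968194502061101467340720509866140053157676794080889481463573106031784017014266146672230907347602806262621380469726177525532515598138470852989438597566414596757991814260703862962360453305021877425174237293224887661258590288488550136805895898931628512296739664524765393241516187118434230676083801276678351158244694800734397606931354707039800251088925901353901082060506721671225705496607201345553644476205795465562573824577409272371165263278232521352516575246319449249124541567763188981333737441255610672610149639380944825042789654946661368783182955520384082779302367001512542383230434249064888964155122291070664270939233520825458997889698494887711935595194238238968370001959515079816221107605727374184482429809623922153597625027428933534994867875202310910456289836719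6017322565236436262508363376768203161599297088863662533981320186835370056810546092830845619316719144312162142705453419423051138947567598004108323915186492383473686895672564575420697546982479439653991862415176584885173543530569789246214844624756653009453058918199540407174210099050356653565371238871044610716680357270926839151280871668707103701695869250013433173588536501801679312374404907685571756706010622601629934166090413933061105854237544943270211853111733496858403021161941030400930174154699847835996253001870614444670609186649737622136612609661263016411616045180201480571907101876606597312386959835801912632496718157206741741352125964515549089009563088030072517355944855360928188553202699152882928338790625395760676429930248447017080217253471778313992747218996600561779648872123392152133259410394488192829593325311491253810521109570294586462429913379008957386978800453695630964126513657190958972047251947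2650426357000669531860098779175845934800509124332377504809411225943205830044318346933967787858808675876050788657042530542599473282146172138003967335640265663127630287104844798634641498618861576071725331627991346317436989806595640764236617627125753269057286974385189162764146278816456909195474894944141641601707931334568846040431340011290025858222087481915013509837330018711589084344432429855503231417623370509115199848966579324718433925062863999669758545693402695916079503810851674794070500706134893304856238368994413503149483391920077548800239731094526856315049821094772038705883476948871203529756844556242573872714752955672422898524266951383394240056095760388847653219681887156304866227318873577936652395174401694124595781309582379341378030038359180281116365607260101555858024569384513468405884662269807637543460467844600588890533459363840662507866224246919325223110283507881156443645581857520040147477981110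2699542475293507052928899566680157576749466899066750456961127147242270168664483096453723561975470901444317468176569083784507515301717781513902309603213290291071031605649317965623395711716058228097286375755991163651293340275115386669193888648520272393598575069069647488557172582793541668960981200724692239974948794979534759239950148049876091398863882485660704401931824118646531907194579829404633407226306413993255563296626175420359800014775146856238995802701056125466259427816635960257740789974876849378520418504934901492100469910555460945608670201921802671561283828857925627241856524875953531210412448999468185960959026929169717024116748675471282511000129606354464719085159178020921469769736218931224605144251709287031659916956884515746667713181659743750730120713181001863433843383462622494111454872979484235408896276042447356953130940544854010761376307685389778253357547606386603545145184196815308743282612825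1175544002229838021220514001991706796189827724706427544449265336729904185291883091505456940152716768905936188501206475518266191825553288302033669786420427860911540479010274012259994399975651308776136093012515105005008874750252989350352248350149197690903408266595344196692544670411162255713629564401772362745739065194228806935218999833558302844399877157278960779736674403838187962935020859194778687171063012224442521181496524560425772910341120492212623671539999716749024580922903213769680669440456367666832045442773709149932139297220361532503536316901448561633203400721881348880811181412492855271741462816393917815621525457766819373800592712517670579529139999140956765364777526643158233106866611438434938252328620070571466104492175515072185824859137487876803584138011082734236917478795139706873471263231196223851409139647525095983173812298837382941906536676794875444314609140493788951007435383875380031855059917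8136233145929558160915727410210584929427643713714377450812983590769963923964628700333772309879403195334065308853230303625656540917879365329070988412028663835053516787550311819191486820797132329780926780773916590737041522370836140402197695399242745226228888668355174324319983968626508215922795676545350709723122664341862392103585434536708647082941248178761382207524564586854259785889725027794508506644775809100415352096886857286562833738600148708655442297286920652354340126188249562831063659184723039867619080015413790701121021592806579281330211390383226234360932048902173992774992760851516743585742962187776179747594406525847074265371251064883136192486959126238258220338139958537466047439100728234751981936606971207256186418163324194545789234535984045424330979752467890293586162672146648749441680927185136930999234648528072896049666416846273738131125963000975841104892809417548834910231306612396680677977315419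0984933595920425606686787612745805399284233742337067451241822905180637692511705787366125550191401128952107149011640362996973015830875252817002233477700598637882610017380095025137380794235599169415527544309517848560491278222949352958629606942579280355209879781101419668317108528249874930629291045833277754045992255479721779930522218901218371293427617208729617137537363634059446035072170856885309680095067643150302830364707725261829224390275228945434058076538923542637923858836120418841560488271009755659039761616825770629760154527150580331198475515006527907968432896795605737909678097664971270354611759676734460614096965714623084369971778548407643113631940038369843828261545781525656810410174656545404437088704462484652412447675274698251786511697682137468172606288110601509165764055397008573881482169746718459769332207111446009853185574042022499249973332003125517925077067919099501730120207865829804209279957774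9757335830644580311272678439128294108243147907876199612443513949004379651783412925679634053628714280573547938692088586898879009337669097764778763105556255324915708903963234255932781299537188340025552788691535535257510793061601890459205463120530095210635557933306103486720946536637834000271457341081436911418985672878105756491814727637466122289311667750713276899076175727488237466560880047131620758619375705208038887378704424055859563604787764733870794243716904912564219953037668968576544906371009207586079835755631996132237190784303787845483241619902299157226275036659769803731411686114620181831672387986259609855122390682148809471950085120042480716389932817417362492136489551026043541765968598766789283641106033097934006404138150070519737700962394800862987489451735344805791250626130137753007254863258991673767484275448146888337841416866422733199423532075641518582856935635782000973915863551154515282374094342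8566402280276265115530108871439769421403040502976170243277986923008813770499370123397354383480135169737513537975968043545139585556328101158478180052201796193799239672969589776247569043747859126798585033104118744015661270212277246438144849029727056290366194613427487623684193750140809343862498091836020840108780979817594756410106699944177402341091807118214170367894198740121366379447688131264096296099429279769979431684665094776176830767554068930972329385035897301042822048832931672125785862865083204580135736114095685429223664471182983373409305003776877498470116977329863129015563128579389091351562889981984162546620811920873882889250228864998422922436460243859344213780207566666993399738344673207746657767223388296650398425800389811732609855353023970766963698316553353787882486453249451999229187785490363331472034378506251458282950090970205542649725474298120357707429989012345170307285997743704527605690853661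5819630850278565280288511274037074249162123860001259536813054086469501790569157275421146755396160903013254098004408306290493845932614877736680719579812462441687022915098217074670742574761535233863067367579448490616388440218573443209933775176331799236923688821418722063342375537320284550225416459173536702807210405619570145804407728690984520531375806461912431589222522868832087467753176128979248213554453798605269667121102813453739314215619766039625344367487145494497421539066660354240179733644665554155567674308055029328336952773245618690517069645792180592448495156831785842997948010976791857499799858192857701103462998277608034473284054085814158642743882706152276506982472932853223139508798482594940053351925105254395468279174180392984296905925125568661231617201645334207773367492760435986469904948188487403292098034061993312802863883143146428381149509554924578669285454325756105866686047874064446510807480087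8621475194872333655019519844766203162881505783934032372706927763988818909554195677984039641968736727301190263375229590998986155739957853728950873355641561434601135780866410051705245007383742798197301594767532698030778936559789916787648320134227378674414016861363304896239692807201940372763001084774056119244329506366771661109360191519028994311193979510669712482051036963161457174981172025940503815993032360137406835592547538176013758083140928660446499524451967877379680476051580393389240731281386483114514647493860650729406135018503279289694049123338499196763394864644054601296090234728519169915561198561966837360146169969971572087490944119989066464591485481759677685108490180973251781784924198283490802893043557697404249015748373312769245451770479194767850833775003291970190049963802261354796151424241301024538098240438520159382048374486220494988052868978474043357389896019178655210637611059922192469922383670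4758417763441567342398074105969451153976652013115391612692028131618939379108673463129887539187764179946771066146048878109311439272640691609897495463959423171886405913262093117472585928163357729367361029442457933677714907096474070707427057025473805478235056770117347502434333392233261306172158243809139525160165156671978693711511763239680887221400599532152875942446713487871379093739349315574780978470417972883779217911440447565131974907114961359569081719995608083596900253460959597849621179901181841107136973345153937754318290896295821396781686212966794268870122202850310078206706999999940030808967150600744749464325518883030081695685884279112751056128916944632115429906690977023524928526708656913864049557655962467924679329237088055336399778775689756980226060385863118751396680157588818680550546275648777658187623556820485292736285185845036144381693418808241975346397910836680529668529721183029706486929253216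2599288743478745392449823982242359183412614878172633608276015712175446076855355507900447262510550332820599661131849777623958304747026877907798160728187171418341380386101594270760630023274235256201035467950069988243688014642428120620537820155440499787717912987117609707528260080255333497712500199299207328010967174245090613081265325704224910143123922926968550649384359714338645619975995124301709373983210380175712538032858150733954297470121297597342295024131498931674780161631986496256635098650955032983100922692904909433658040093416568002251357801953859789978621620087103617800136593978071279244840956816833148105861155007514954901727725031393198459741933383641941858288919109918012489353674031652078010436514843428031644545306887270869376869222088396530112576534971743911832850981174252564002031851551303835164914235882548845491207091026599657027076406833867006233935339262594451872146280566141194254766952522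5156633008440422235152724131128199267330640616578946746789300078455348896583135619875499801603810073032011821988307490859894759888721940109342782709425911927148633690106037300630419335776402920648153689899039508129867260586544807715434756492664675314313720024453017386846813483124517389589359689585773097221856957617687525099183841441444368439427929205198679351902932453341786950094474477974794351928580736508301231415563810517350662569901462106151046013076725732470755105623856292104671454202846205751628374329095538026192707681120090420328933190510825914267438338417318972029178997333405816592095444364688676446849388479955347923041426700074341973292535025667770920761648706212098028568468035263145924759689072952447016959599898038545417066030900722123235061221686546489309217629951599328959720209691276602582116815055905444924829470634245947796278920715481106776904852211441792978339648049425117436037353084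56214244111279004065451715056708724176154277019903240777183515639299220195278774161818181526745937560347951078004203923593641726011225847660784102798800350452345754299628779971458848009296588547195388575177054178507973965021398457701241722934888358816630632190116611862589056482167625110139213329125251893437787651047897140060961538307879666445576916287113025232169204441981738461135240699671977470998065916301525153777239837249970759378517628004920039367010012923795495611672476684841599917910667093947880887608037902530392261235949259826889316931076073492073076739903676715352770007642117600394374280060499284975722331653742206669587654671162012710042404670988090738224788225717967492427149686192277429899631378664231320272376391283364692332378467596384919189540896796988158891183596591344351072785514084537773083715595398942452958441532066434617103775782476076616315493159444507833284709886867871632643336097954093649631419997539466800664909507830391354234951519256531348029555906260007546396015924578280365581915066970573188890443415980638262805478978695365683144382267257050120471557468155867037886783998826209343718743716041213158547033386843738208997197690302086493869035826295713912848384)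

end Vale.Agent.Lib.P154.PChain.BI.S7
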