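import Vale.Agent.Lib.P154.PChain.BI.R7_0

set_option linter.all false

namespace Vale.Agent.Lib.P154.PChain.BI.S8

open Vale.Agent.Lib.P154.Chain

noncomputable def pc0 : PT := (PT.nd (nat_lit 6369402) (PT.nd (nat_lit 6132048) (PT.nd (nat_lit 5954130) (PT.nd (nat_lit 5835492) (PT.nd (nat_lit 4115202) (PT.nd (nat_lit 4055922) PT.nil (PT.lf (nat_lit 76) (nat_lit 3) (nat_lit 1) (nat_lit 1) (nat_lit 251) (nat_lit 68) (nat_lit 251))) (PT.nd (nat_lit 78) (PT.lf (nat_lit 152) (nat_lit 6) (nat_lit 2) (nat_lit 3) (nat_lit 250) (nat_lit 69) (nat_lit 251)) (PT.lf (nat_lit 152) (nat_lit 6) (nat_lit 2) (nat_lit 1) (nat_lit 251) (nat_lit 69) (nat_lit 250)))) (PT.nd (nat_lit 59358) (PT.nd (nat_lit 59280) (PT.lf (nat_lit 608) (nat_lit 3) (nat_lit 8) (nat_lit 1) (nat_lit 236) (nat_lit 98) (nat_lit 236)) (PT.lf (nat_lit 760) (nat_lit 6) (nat_lit 10) (nat_lit 3) (nat_lit 235) (nat_lit 99) (nat_lit 236))) (PT.nd (nat_lit 59202) (PT.lf (nat_lit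 760) (nat_lit 6) (nat_lit 10) (nat_lit 1) (nat_lit 236) (nat_lit 99) (nat_lit 235)) (PT.lf (nat_lit 836) (nat_lit 6) (nat_lit 11) (nat_lit 3) (nat_lit 234) (nat_lit 100) (nat_lit 236))))) (PT.nd (nat_lit 118560) (PT.nd (nat_lit 59280) (PT.nd (nat_lit 78) (PT.lf (nat_lit 912) (nat_lit 3) (nat_lit 12) (nat_lit 1) (nat_lit 235) (nat_lit 100) (nat_lit 235)) (PT.lf (nat_lit 836) (nat_lit 6) (nat_lit 11) (nat_lit 1) (nat_lit 236) (nat_lit 100) (nat_lit 234))) (PT.nd (nat_lit 78) (PT.lf (nat_lit 1064) (nat_lit 6) (nat_lit 14) (nat_lit 3) (nat_lit 234) (nat_lit 101) (nat_lit 235)) (PT.lf (nat_lit 1064) (nat_lit 6) (nat_lit 14) (nat_lit 1) (nat_lit 235) (nat_lit 101) (nat_lit 234)))) (PT.nd (nat_lit 156) (PT.nd (nat_lit 78) (PT.lf (nat_lit 1140) (nat_lit 6) (nat_lit 15) (nat_lit 3) (nat_lit 233) (nat_lit 102) (nat_lit 235)) (PT.lf (nat_lit 1216) (nat_lit 3) (nat_lit 16) (nat_lit 1) (nat_lit 234) (nat_lit 102) (nat_lit 234)))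 (PT.nd (nat_lit 59124) (PT.lf (nat_lit 1140) (nat_lit 6) (nat_lit 15) (nat_lit 1) (nat_lit 235) (nat_lit 102) (nat_lit 233)) (PT.lf (nat_lit 1292) (nat_lit 6) (nat_lit 17) (nat_lit 3) (nat_lit 232) (nat_lit 103) (nat_lit 235)))))) (PT.nd (nat_lit 118638) (PT.nd (nat_lit 59280) (PT.nd (nat_lit 78) (PT.lf (nat_lit 1368) (nat_lit 6) (nat_lit 18) (nat_lit 3) (nat_lit 233) (nat_lit 103) (nat_lit 234)) (PT.nd (nat_lit 78) (PT.lf (nat_lit 1368) (nat_lit 6) (nat_lit 18) (nat_lit 1) (nat_lit 234) (nat_lit 103) (nat_lit 233)) (PT.lf (nat_lit 1292) (nat_lit 6) (nat_lit 17) (nat_lit 1) (nat_lit 235) (nat_lit 103) (nat_lit 232)))) (PT.nd (nat_lit 156) (PT.nd (nat_lit 78) (PT.lf (nat_lit 1444) (nat_lit 6) (nat_lit 19) (nat_lit 3) (nat_lit 232) (nat_lit 104) (nat_lit 234)) (PT.lf (nat_lit 1520) (nat_lit 3) (nat_lit 20) (nat_lit 1) (nat_lit 233) (nat_lit 104) (nat_lit 233))) (PT.nd (nat_lit 59124) (PT.lf (nat_lit 1444) (nat_lit 6) (nat_lit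 19) (nat_lit 1) (nat_lit 234) (nat_lit 104) (nat_lit 232)) (PT.lf (nat_lit 1596) (nat_lit 6) (nat_lit 21) (nat_lit 3) (nat_lit 231) (nat_lit 105) (nat_lit 234))))) (PT.nd (nat_lit 59358) (PT.nd (nat_lit 156) (PT.nd (nat_lit 78) (PT.lf (nat_lit 1672) (nat_lit 6) (nat_lit 22) (nat_lit 3) (nat_lit 232) (nat_lit 105) (nat_lit 233)) (PT.lf (nat_lit 1672) (nat_lit 6) (nat_lit 22) (nat_lit 1) (nat_lit 233) (nat_lit 105) (nat_lit 232))) (PT.nd (nat_lit 59124) (PT.lf (nat_lit 1596) (nat_lit 6) (nat_lit 21) (nat_lit 1) (nat_lit 234) (nat_lit 105) (nat_lit 231)) (PT.lf (nat_lit 1824) (nat_lit 6) (nat_lit 24) (nat_lit 3) (nat_lit 231) (nat_lit 106) (nat_lit 233)))) (PT.nd (nat_lit 59202) (PT.nd (nat_lit 78) (PT.lf (nat_lit 1900) (nat_lit 3) (nat_lit 25) (nat_lit 1) (nat_lit 232) (nat_lit 106) (nat_lit 232)) (PT.lf (nat_lit 1824) (nat_lit 6) (nat_lit 24) (nat_lit 1) (nat_lit 233) (nat_lit 106) (nat_lit 231))) (PT.nd (nat_lit 78)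 (PT.lf (nat_lit 1976) (nat_lit 6) (nat_lit 26) (nat_lit 3) (nat_lit 230) (nat_lit 107) (nat_lit 233)) (PT.lf (nat_lit 2052) (nat_lit 6) (nat_lit 27) (nat_lit 3) (nat_lit 231) (nat_lit 107) (nat_lit 232))))))) (PT.nd (nat_lit 178074) (PT.nd (nat_lit 118482) (PT.nd (nat_lit 59202) (PT.nd (nat_lit 78) (PT.lf (nat_lit 2052) (nat_lit 6) (nat_lit 27) (nat_lit 1) (nat_lit 232) (nat_lit 107) (nat_lit 231)) (PT.nd (nat_lit 59046) (PT.lf (nat_lit 1976) (nat_lit 6) (nat_lit 26) (nat_lit 1) (nat_lit 233) (nat_lit 107) (nat_lit 230)) (PT.lf (nat_lit 2128) (nat_lit 6) (nat_lit 28) (nat_lit 3) (nat_lit 229) (nat_lit 108) (nat_lit 233)))) (PT.nd (nat_lit 156) (PT.nd (nat_lit 78) (PT.lf (nat_lit 2204) (nat_lit 6) (nat_lit 29) (nat_lit 3) (nat_lit 230) (nat_lit 108) (nat_lit 232)) (PT.lf (nat_lit 2280) (nat_lit 3) (nat_lit 30) (nat_lit 1) (nat_lit 231) (nat_lit 108) (nat_lit 231))) (PT.nd (nat_lit 78) (PT.lf (nat_lit 2204) (nat_lit 6)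 (nat_lit 29) (nat_lit 1) (nat_lit 232) (nat_lit 108) (nat_lit 230)) (PT.lf (nat_lit 2128) (nat_lit 6) (nat_lit 28) (nat_lit 1) (nat_lit 233) (nat_lit 108) (nat_lit 229))))) (PT.nd (nat_lit 59280) (PT.nd (nat_lit 156) (PT.nd (nat_lit 78) (PT.lf (nat_lit 2356) (nat_lit 6) (nat_lit 31) (nat_lit 3) (nat_lit 229) (nat_lit 109) (nat_lit 232)) (PT.lf (nat_lit 2432) (nat_lit 6) (nat_lit 32) (nat_lit 3) (nat_lit 230) (nat_lit 109) (nat_lit 231))) (PT.nd (nat_lit 78) (PT.lf (nat_lit 2432) (nat_lit 6) (nat_lit 32) (nat_lit 1) (nat_lit 231) (nat_lit 109) (nat_lit 230)) (PT.lf (nat_lit 2356) (nat_lit 6) (nat_lit 31) (nat_lit 1) (nat_lit 232) (nat_lit 109) (nat_lit 229)))) (PT.nd (nat_lit 156) (PT.nd (nat_lit 78) (PT.lf (nat_lit 2508) (nat_lit 6) (nat_lit 33) (nat_lit 3) (nat_lit 228) (nat_lit 110) (nat_lit 232)) (PT.lf (nat_lit 2584) (nat_lit 6) (nat_lit 34) (nat_lit 3) (nat_lit 229) (nat_lit 110) (nat_lit 231))) (PT.nd (nat_lit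 78) (PT.lf (nat_lit 2660) (nat_lit 3) (nat_lit 35) (nat_lit 1) (nat_lit 230) (nat_lit 110) (nat_lit 230)) (PT.lf (nat_lit 2584) (nat_lit 6) (nat_lit 34) (nat_lit 1) (nat_lit 231) (nat_lit 110) (nat_lit 229)))))) (PT.nd (nat_lit 118482) (PT.nd (nat_lit 59202) (PT.nd (nat_lit 59046) (PT.lf (nat_lit 2508) (nat_lit 6) (nat_lit 33) (nat_lit 1) (nat_lit 232) (nat_lit 110) (nat_lit 228)) (PT.nd (nat_lit 78) (PT.lf (nat_lit 2736) (nat_lit 6) (nat_lit 36) (nat_lit 3) (nat_lit 228) (nat_lit 111) (nat_lit 231)) (PT.lf (nat_lit 2812) (nat_lit 6) (nat_lit 37) (nat_lit 3) (nat_lit 229) (nat_lit 111) (nat_lit 230)))) (PT.nd (nat_lit 59124) (PT.nd (nat_lit 78) (PT.lf (nat_lit 2812) (nat_lit 6) (nat_lit 37) (nat_lit 1) (nat_lit 230) (nat_lit 111) (nat_lit 229)) (PT.lf (nat_lit 2736) (nat_lit 6) (nat_lit 36) (nat_lit 1) (nat_lit 231) (nat_lit 111) (nat_lit 228))) (PT.nd (nat_lit 78) (PT.lf (nat_lit 2888) (nat_lit 6) (nat_lit 38) (nat_lit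 3) (nat_lit 227) (nat_lit 112) (nat_lit 231)) (PT.lf (nat_lit 2964) (nat_lit 6) (nat_lit 39) (nat_lit 3) (nat_lit 228) (nat_lit 112) (nat_lit 230))))) (PT.nd (nat_lit 59280) (PT.nd (nat_lit 156) (PT.nd (nat_lit 78) (PT.lf (nat_lit 3040) (nat_lit 3) (nat_lit 40) (nat_lit 1) (nat_lit 229) (nat_lit 112) (nat_lit 229)) (PT.lf (nat_lit 2964) (nat_lit 6) (nat_lit 39) (nat_lit 1) (nat_lit 230) (nat_lit 112) (nat_lit 228))) (PT.nd (nat_lit 59046) (PT.lf (nat_lit 2888) (nat_lit 6) (nat_lit 38) (nat_lit 1) (nat_lit 231) (nat_lit 112) (nat_lit 227)) (PT.lf (nat_lit 3192) (nat_lit 6) (nat_lit 42) (nat_lit 3) (nat_lit 227) (nat_lit 113) (nat_lit 230)))) (PT.nd (nat_lit 156) (PT.nd (nat_lit 78) (PT.lf (nat_lit 3268) (nat_lit 6) (nat_lit 43) (nat_lit 3) (nat_lit 228) (nat_lit 113) (nat_lit 229)) (PT.lf (nat_lit 3268) (nat_lit 6) (nat_lit 43) (nat_lit 1) (nat_lit 229) (nat_lit 113) (nat_lit 228))) (PT.nd (nat_lit 59046) (PT.lf (nat_lit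 3192) (nat_lit 6) (nat_lit 42) (nat_lit 1) (nat_lit 230) (nat_lit 113) (nat_lit 227)) (PT.lf (nat_lit 3344) (nat_lit 6) (nat_lit 44) (nat_lit 3) (nat_lit 226) (nat_lit 114) (nat_lit 230))))))))
noncomputable def pc1 : PT := (PT.nd (nat_lit 296790) (PT.nd (nat_lit 177840) (PT.nd (nat_lit 59436) (PT.nd (nat_lit 234) (PT.nd (nat_lit 78) (PT.lf (nat_lit 3420) (nat_lit 6) (nat_lit 45) (nat_lit 3) (nat_lit 227) (nat_lit 114) (nat_lit 229)) (PT.nd (nat_lit 78) (PT.lf (nat_lit 3496) (nat_lit 3) (nat_lit 46) (nat_lit 1) (nat_lit 228) (nat_lit 114) (nat_lit 228)) (PT.lf (nat_lit 3420) (nat_lit 6) (nat_lit 45) (nat_lit 1) (nat_lit 229) (nat_lit 114) (nat_lit 227)))) (PT.nd (nat_lit 59046) (PT.nd (nat_lit 58968) (PT.lf (nat_lit 3344) (nat_lit 6) (nat_lit 44) (nat_lit 1) (nat_lit 230) (nat_lit 114) (nat_lit 226)) (PT.lf (nat_lit 3572) (nat_lit 6) (nat_lit 47) (nat_lit 3) (nat_lit 225) (nat_lit 115) (nat_lit 230))) (PT.nd (nat_lit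 78) (PT.lf (nat_lit 3648) (nat_lit 6) (nat_lit 48) (nat_lit 3) (nat_lit 226) (nat_lit 115) (nat_lit 229)) (PT.lf (nat_lit 3724) (nat_lit 6) (nat_lit 49) (nat_lit 3) (nat_lit 227) (nat_lit 115) (nat_lit 228))))) (PT.nd (nat_lit 59202) (PT.nd (nat_lit 156) (PT.nd (nat_lit 78) (PT.lf (nat_lit 3724) (nat_lit 6) (nat_lit 49) (nat_lit 1) (nat_lit 228) (nat_lit 115) (nat_lit 227)) (PT.lf (nat_lit 3648) (nat_lit 6) (nat_lit 48) (nat_lit 1) (nat_lit 229) (nat_lit 115) (nat_lit 226))) (PT.nd (nat_lit 58968) (PT.lf (nat_lit 3572) (nat_lit 6) (nat_lit 47) (nat_lit 1) (nat_lit 230) (nat_lit 115) (nat_lit 225)) (PT.lf (nat_lit 3800) (nat_lit 6) (nat_lit 50) (nat_lit 3) (nat_lit 225) (nat_lit 116) (nat_lit 229)))) (PT.nd (nat_lit 156) (PT.nd (nat_lit 78) (PT.lf (nat_lit 3876) (nat_lit 6) (nat_lit 51) (nat_lit 3) (nat_lit 226) (nat_lit 116) (nat_lit 228)) (PT.lf (nat_lit 3952) (nat_lit 3) (nat_lit 52) (nat_lit 1) (nat_lit 227) (nat_lit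 116) (nat_lit 227))) (PT.nd (nat_lit 78) (PT.lf (nat_lit 3876) (nat_lit 6) (nat_lit 51) (nat_lit 1) (nat_lit 228) (nat_lit 116) (nat_lit 226)) (PT.lf (nat_lit 3800) (nat_lit 6) (nat_lit 50) (nat_lit 1) (nat_lit 229) (nat_lit 116) (nat_lit 225)))))) (PT.nd (nat_lit 59436) (PT.nd (nat_lit 234) (PT.nd (nat_lit 78) (PT.lf (nat_lit 4028) (nat_lit 6) (nat_lit 53) (nat_lit 3) (nat_lit 224) (nat_lit 117) (nat_lit 229)) (PT.nd (nat_lit 78) (PT.lf (nat_lit 4104) (nat_lit 6) (nat_lit 54) (nat_lit 3) (nat_lit 225) (nat_lit 117) (nat_lit 228)) (PT.lf (nat_lit 4180) (nat_lit 6) (nat_lit 55) (nat_lit 3) (nat_lit 226) (nat_lit 117) (nat_lit 227)))) (PT.nd (nat_lit 156) (PT.nd (nat_lit 78) (PT.lf (nat_lit 4180) (nat_lit 6) (nat_lit 55) (nat_lit 1) (nat_lit 227) (nat_lit 117) (nat_lit 226)) (PT.lf (nat_lit 4104) (nat_lit 6) (nat_lit 54) (nat_lit 1) (nat_lit 228) (nat_lit 117) (nat_lit 225))) (PT.nd (nat_lit 58968) (PT.lf (nat_lit 4028)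 (nat_lit 6) (nat_lit 53) (nat_lit 1) (nat_lit 229) (nat_lit 117) (nat_lit 224)) (PT.lf (nat_lit 4332) (nat_lit 6) (nat_lit 57) (nat_lit 3) (nat_lit 224) (nat_lit 118) (nat_lit 228))))) (PT.nd (nat_lit 59202) (PT.nd (nat_lit 156) (PT.nd (nat_lit 78) (PT.lf (nat_lit 4408) (nat_lit 6) (nat_lit 58) (nat_lit 3) (nat_lit 225) (nat_lit 118) (nat_lit 227)) (PT.lf (nat_lit 4484) (nat_lit 3) (nat_lit 59) (nat_lit 1) (nat_lit 226) (nat_lit 118) (nat_lit 226))) (PT.nd (nat_lit 78) (PT.lf (nat_lit 4408) (nat_lit 6) (nat_lit 58) (nat_lit 1) (nat_lit 227) (nat_lit 118) (nat_lit 225)) (PT.lf (nat_lit 4332) (nat_lit 6) (nat_lit 57) (nat_lit 1) (nat_lit 228) (nat_lit 118) (nat_lit 224)))) (PT.nd (nat_lit 156) (PT.nd (nat_lit 78) (PT.lf (nat_lit 4560) (nat_lit 6) (nat_lit 60) (nat_lit 3) (nat_lit 223) (nat_lit 119) (nat_lit 228)) (PT.lf (nat_lit 4636) (nat_lit 6) (nat_lit 61) (nat_lit 3) (nat_lit 224) (nat_lit 119) (nat_lit 227))) (PT.nd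 (nat_lit 78) (PT.lf (nat_lit 4712) (nat_lit 6) (nat_lit 62) (nat_lit 3) (nat_lit 225) (nat_lit 119) (nat_lit 226)) (PT.lf (nat_lit 4712) (nat_lit 6) (nat_lit 62) (nat_lit 1) (nat_lit 226) (nat_lit 119) (nat_lit 225))))))) (PT.nd (nat_lit 177606) (PT.nd (nat_lit 59358) (PT.nd (nat_lit 59046) (PT.nd (nat_lit 78) (PT.lf (nat_lit 4636) (nat_lit 6) (nat_lit 61) (nat_lit 1) (nat_lit 227) (nat_lit 119) (nat_lit 224)) (PT.nd (nat_lit 58890) (PT.lf (nat_lit 4560) (nat_lit 6) (nat_lit 60) (nat_lit 1) (nat_lit 228) (nat_lit 119) (nat_lit 223)) (PT.lf (nat_lit 4788) (nat_lit 6) (nat_lit 63) (nat_lit 3) (nat_lit 222) (nat_lit 120) (nat_lit 228)))) (PT.nd (nat_lit 156) (PT.nd (nat_lit 78) (PT.lf (nat_lit 4864) (nat_lit 6) (nat_lit 64) (nat_lit 3) (nat_lit 223) (nat_lit 120) (nat_lit 227)) (PT.lf (nat_lit 4940) (nat_lit 6) (nat_lit 65) (nat_lit 3) (nat_lit 224) (nat_lit 120) (nat_lit 226))) (PT.nd (nat_lit 78) (PT.lf (nat_lit 5016)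 (nat_lit 3) (nat_lit 66) (nat_lit 1) (nat_lit 225) (nat_lit 120) (nat_lit 225)) (PT.lf (nat_lit 4940) (nat_lit 6) (nat_lit 65) (nat_lit 1) (nat_lit 226) (nat_lit 120) (nat_lit 224))))) (PT.nd (nat_lit 59124) (PT.nd (nat_lit 58968) (PT.nd (nat_lit 78) (PT.lf (nat_lit 4864) (nat_lit 6) (nat_lit 64) (nat_lit 1) (nat_lit 227) (nat_lit 120) (nat_lit 223)) (PT.lf (nat_lit 4788) (nat_lit 6) (nat_lit 63) (nat_lit 1) (nat_lit 228) (nat_lit 120) (nat_lit 222))) (PT.nd (nat_lit 78) (PT.lf (nat_lit 5092) (nat_lit 6) (nat_lit 67) (nat_lit 3) (nat_lit 222) (nat_lit 121) (nat_lit 227)) (PT.lf (nat_lit 5168) (nat_lit 6) (nat_lit 68) (nat_lit 3) (nat_lit 223) (nat_lit 121) (nat_lit 226)))) (PT.nd (nat_lit 156) (PT.nd (nat_lit 78) (PT.lf (nat_lit 5244) (nat_lit 6) (nat_lit 69) (nat_lit 3) (nat_lit 224) (nat_lit 121) (nat_lit 225)) (PT.lf (nat_lit 5244) (nat_lit 6) (nat_lit 69) (nat_lit 1) (nat_lit 225) (nat_lit 121) (nat_lit 224))) (PT.nd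 (nat_lit 78) (PT.lf (nat_lit 5168) (nat_lit 6) (nat_lit 68) (nat_lit 1) (nat_lit 226) (nat_lit 121) (nat_lit 223)) (PT.lf (nat_lit 5092) (nat_lit 6) (nat_lit 67) (nat_lit 1) (nat_lit 227) (nat_lit 121) (nat_lit 222)))))) (PT.nd (nat_lit 59358) (PT.nd (nat_lit 234) (PT.nd (nat_lit 78) (PT.lf (nat_lit 5320) (nat_lit 6) (nat_lit 70) (nat_lit 3) (nat_lit 221) (nat_lit 122) (nat_lit 227)) (PT.nd (nat_lit 78) (PT.lf (nat_lit 5396) (nat_lit 6) (nat_lit 71) (nat_lit 3) (nat_lit 222) (nat_lit 122) (nat_lit 226)) (PT.lf (nat_lit 5472) (nat_lit 6) (nat_lit 72) (nat_lit 3) (nat_lit 223) (nat_lit 122) (nat_lit 225)))) (PT.nd (nat_lit 156) (PT.nd (nat_lit 78) (PT.lf (nat_lit 5548) (nat_lit 3) (nat_lit 73) (nat_lit 1) (nat_lit 224) (nat_lit 122) (nat_lit 224)) (PT.lf (nat_lit 5472) (nat_lit 6) (nat_lit 72) (nat_lit 1) (nat_lit 225) (nat_lit 122) (nat_lit 223))) (PT.nd (nat_lit 78) (PT.lf (nat_lit 5396) (nat_lit 6) (nat_lit 71) (nat_lit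 1) (nat_lit 226) (nat_lit 122) (nat_lit 222)) (PT.lf (nat_lit 5320) (nat_lit 6) (nat_lit 70) (nat_lit 1) (nat_lit 227) (nat_lit 122) (nat_lit 221))))) (PT.nd (nat_lit 312) (PT.nd (nat_lit 156) (PT.nd (nat_lit 78) (PT.lf (nat_lit 5700) (nat_lit 6) (nat_lit 75) (nat_lit 3) (nat_lit 221) (nat_lit 123) (nat_lit 226)) (PT.lf (nat_lit 5776) (nat_lit 6) (nat_lit 76) (nat_lit 3) (nat_lit 222) (nat_lit 123) (nat_lit 225))) (PT.nd (nat_lit 78) (PT.lf (nat_lit 5852) (nat_lit 6) (nat_lit 77) (nat_lit 3) (nat_lit 223) (nat_lit 123) (nat_lit 224)) (PT.lf (nat_lit 5852) (nat_lit 6) (nat_lit 77) (nat_lit 1) (nat_lit 224) (nat_lit 123) (nat_lit 223)))) (PT.nd (nat_lit 58968) (PT.nd (nat_lit 78) (PT.lf (nat_lit 5776) (nat_lit 6) (nat_lit 76) (nat_lit 1) (nat_lit 225) (nat_lit 123) (nat_lit 222)) (PT.lf (nat_lit 5700) (nat_lit 6) (nat_lit 75) (nat_lit 1) (nat_lit 226) (nat_lit 123) (nat_lit 221))) (PT.nd (nat_lit 78) (PT.lf (nat_lit 5928)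 (nat_lit 6) (nat_lit 78) (nat_lit 3) (nat_lit 220) (nat_lit 124) (nat_lit 226)) (PT.lf (nat_lit 6004) (nat_lit 6) (nat_lit 79) (nat_lit 3) (nat_lit 221) (nat_lit 124) (nat_lit 225))))))))
noncomputable def pc2 : PT := (PT.nd (nat_lit 237198) (PT.nd (nat_lit 118638) (PT.nd (nat_lit 59280) (PT.nd (nat_lit 234) (PT.nd (nat_lit 78) (PT.lf (nat_lit 6080) (nat_lit 6) (nat_lit 80) (nat_lit 3) (nat_lit 222) (nat_lit 124) (nat_lit 224)) (PT.nd (nat_lit 78) (PT.lf (nat_lit 6156) (nat_lit 3) (nat_lit 81) (nat_lit 1) (nat_lit 223) (nat_lit 124) (nat_lit 223)) (PT.lf (nat_lit 6080) (nat_lit 6) (nat_lit 80) (nat_lit 1) (nat_lit 224) (nat_lit 124) (nat_lit 222)))) (PT.nd (nat_lit 58890) (PT.nd (nat_lit 78) (PT.lf (nat_lit 6004) (nat_lit 6) (nat_lit 79) (nat_lit 1) (nat_lit 225) (nat_lit 124) (nat_lit 221)) (PT.lf (nat_lit 5928) (nat_lit 6) (nat_lit 78) (nat_lit 1) (nat_lit 226) (nat_lit 124) (nat_lit 220))) (PT.nd (nat_lit 78) (PT.lf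 (nat_lit 6232) (nat_lit 6) (nat_lit 82) (nat_lit 3) (nat_lit 219) (nat_lit 125) (nat_lit 226)) (PT.lf (nat_lit 6308) (nat_lit 6) (nat_lit 83) (nat_lit 3) (nat_lit 220) (nat_lit 125) (nat_lit 225))))) (PT.nd (nat_lit 312) (PT.nd (nat_lit 156) (PT.nd (nat_lit 78) (PT.lf (nat_lit 6384) (nat_lit 6) (nat_lit 84) (nat_lit 3) (nat_lit 221) (nat_lit 125) (nat_lit 224)) (PT.lf (nat_lit 6460) (nat_lit 6) (nat_lit 85) (nat_lit 3) (nat_lit 222) (nat_lit 125) (nat_lit 223))) (PT.nd (nat_lit 78) (PT.lf (nat_lit 6460) (nat_lit 6) (nat_lit 85) (nat_lit 1) (nat_lit 223) (nat_lit 125) (nat_lit 222)) (PT.lf (nat_lit 6384) (nat_lit 6) (nat_lit 84) (nat_lit 1) (nat_lit 224) (nat_lit 125) (nat_lit 221)))) (PT.nd (nat_lit 58890) (PT.nd (nat_lit 78) (PT.lf (nat_lit 6308) (nat_lit 6) (nat_lit 83) (nat_lit 1) (nat_lit 225) (nat_lit 125) (nat_lit 220)) (PT.lf (nat_lit 6232) (nat_lit 6) (nat_lit 82) (nat_lit 1) (nat_lit 226) (nat_lit 125) (nat_lit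 219))) (PT.nd (nat_lit 78) (PT.lf (nat_lit 6536) (nat_lit 6) (nat_lit 86) (nat_lit 3) (nat_lit 219) (nat_lit 126) (nat_lit 225)) (PT.lf (nat_lit 6612) (nat_lit 6) (nat_lit 87) (nat_lit 3) (nat_lit 220) (nat_lit 126) (nat_lit 224)))))) (PT.nd (nat_lit 59280) (PT.nd (nat_lit 234) (PT.nd (nat_lit 78) (PT.lf (nat_lit 6688) (nat_lit 6) (nat_lit 88) (nat_lit 3) (nat_lit 221) (nat_lit 126) (nat_lit 223)) (PT.nd (nat_lit 78) (PT.lf (nat_lit 6764) (nat_lit 3) (nat_lit 89) (nat_lit 1) (nat_lit 222) (nat_lit 126) (nat_lit 222)) (PT.lf (nat_lit 6688) (nat_lit 6) (nat_lit 88) (nat_lit 1) (nat_lit 223) (nat_lit 126) (nat_lit 221)))) (PT.nd (nat_lit 58890) (PT.nd (nat_lit 78) (PT.lf (nat_lit 6612) (nat_lit 6) (nat_lit 87) (nat_lit 1) (nat_lit 224) (nat_lit 126) (nat_lit 220)) (PT.lf (nat_lit 6536) (nat_lit 6) (nat_lit 86) (nat_lit 1) (nat_lit 225) (nat_lit 126) (nat_lit 219))) (PT.nd (nat_lit 78) (PT.lf (nat_lit 6840) (nat_lit 6) (nat_lit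 90) (nat_lit 3) (nat_lit 218) (nat_lit 127) (nat_lit 225)) (PT.lf (nat_lit 6916) (nat_lit 6) (nat_lit 91) (nat_lit 3) (nat_lit 219) (nat_lit 127) (nat_lit 224))))) (PT.nd (nat_lit 312) (PT.nd (nat_lit 156) (PT.nd (nat_lit 78) (PT.lf (nat_lit 6992) (nat_lit 6) (nat_lit 92) (nat_lit 3) (nat_lit 220) (nat_lit 127) (nat_lit 223)) (PT.lf (nat_lit 7068) (nat_lit 6) (nat_lit 93) (nat_lit 3) (nat_lit 221) (nat_lit 127) (nat_lit 222))) (PT.nd (nat_lit 78) (PT.lf (nat_lit 7068) (nat_lit 6) (nat_lit 93) (nat_lit 1) (nat_lit 222) (nat_lit 127) (nat_lit 221)) (PT.lf (nat_lit 6992) (nat_lit 6) (nat_lit 92) (nat_lit 1) (nat_lit 223) (nat_lit 127) (nat_lit 220)))) (PT.nd (nat_lit 58812) (PT.nd (nat_lit 78) (PT.lf (nat_lit 6916) (nat_lit 6) (nat_lit 91) (nat_lit 1) (nat_lit 224) (nat_lit 127) (nat_lit 219)) (PT.lf (nat_lit 6840) (nat_lit 6) (nat_lit 90) (nat_lit 1) (nat_lit 225) (nat_lit 127) (nat_lit 218))) (PT.nd (nat_lit 78) (PT.lf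 (nat_lit 7144) (nat_lit 6) (nat_lit 94) (nat_lit 3) (nat_lit 217) (nat_lit 128) (nat_lit 225)) (PT.lf (nat_lit 7220) (nat_lit 6) (nat_lit 95) (nat_lit 3) (nat_lit 218) (nat_lit 128) (nat_lit 224))))))) (PT.nd (nat_lit 118482) (PT.nd (nat_lit 59202) (PT.nd (nat_lit 234) (PT.nd (nat_lit 78) (PT.lf (nat_lit 7296) (nat_lit 6) (nat_lit 96) (nat_lit 3) (nat_lit 219) (nat_lit 128) (nat_lit 223)) (PT.nd (nat_lit 78) (PT.lf (nat_lit 7372) (nat_lit 6) (nat_lit 97) (nat_lit 3) (nat_lit 220) (nat_lit 128) (nat_lit 222)) (PT.lf (nat_lit 7448) (nat_lit 3) (nat_lit 98) (nat_lit 1) (nat_lit 221) (nat_lit 128) (nat_lit 221)))) (PT.nd (nat_lit 156) (PT.nd (nat_lit 78) (PT.lf (nat_lit 7372) (nat_lit 6) (nat_lit 97) (nat_lit 1) (nat_lit 222) (nat_lit 128) (nat_lit 220)) (PT.lf (nat_lit 7296) (nat_lit 6) (nat_lit 96) (nat_lit 1) (nat_lit 223) (nat_lit 128) (nat_lit 219))) (PT.nd (nat_lit 78) (PT.lf (nat_lit 7220) (nat_lit 6) (nat_lit 95)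 (nat_lit 1) (nat_lit 224) (nat_lit 128) (nat_lit 218)) (PT.lf (nat_lit 7144) (nat_lit 6) (nat_lit 94) (nat_lit 1) (nat_lit 225) (nat_lit 128) (nat_lit 217))))) (PT.nd (nat_lit 312) (PT.nd (nat_lit 156) (PT.nd (nat_lit 78) (PT.lf (nat_lit 7524) (nat_lit 6) (nat_lit 99) (nat_lit 3) (nat_lit 217) (nat_lit 129) (nat_lit 224)) (PT.lf (nat_lit 7600) (nat_lit 6) (nat_lit 100) (nat_lit 3) (nat_lit 218) (nat_lit 129) (nat_lit 223))) (PT.nd (nat_lit 78) (PT.lf (nat_lit 7676) (nat_lit 6) (nat_lit 101) (nat_lit 3) (nat_lit 219) (nat_lit 129) (nat_lit 222)) (PT.lf (nat_lit 7752) (nat_lit 6) (nat_lit 102) (nat_lit 3) (nat_lit 220) (nat_lit 129) (nat_lit 221)))) (PT.nd (nat_lit 156) (PT.nd (nat_lit 78) (PT.lf (nat_lit 7752) (nat_lit 6) (nat_lit 102) (nat_lit 1) (nat_lit 221) (nat_lit 129) (nat_lit 220)) (PT.lf (nat_lit 7676) (nat_lit 6) (nat_lit 101) (nat_lit 1) (nat_lit 222) (nat_lit 129) (nat_lit 219))) (PT.nd (nat_lit 78) (PT.lf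 (nat_lit 7600) (nat_lit 6) (nat_lit 100) (nat_lit 1) (nat_lit 223) (nat_lit 129) (nat_lit 218)) (PT.lf (nat_lit 7524) (nat_lit 6) (nat_lit 99) (nat_lit 1) (nat_lit 224) (nat_lit 129) (nat_lit 217)))))) (PT.nd (nat_lit 546) (PT.nd (nat_lit 234) (PT.nd (nat_lit 78) (PT.lf (nat_lit 7828) (nat_lit 6) (nat_lit 103) (nat_lit 3) (nat_lit 216) (nat_lit 130) (nat_lit 224)) (PT.nd (nat_lit 78) (PT.lf (nat_lit 7904) (nat_lit 6) (nat_lit 104) (nat_lit 3) (nat_lit 217) (nat_lit 130) (nat_lit 223)) (PT.lf (nat_lit 7980) (nat_lit 6) (nat_lit 105) (nat_lit 3) (nat_lit 218) (nat_lit 130) (nat_lit 222)))) (PT.nd (nat_lit 156) (PT.nd (nat_lit 78) (PT.lf (nat_lit 8056) (nat_lit 6) (nat_lit 106) (nat_lit 3) (nat_lit 219) (nat_lit 130) (nat_lit 221)) (PT.lf (nat_lit 8132) (nat_lit 3) (nat_lit 107) (nat_lit 1) (nat_lit 220) (nat_lit 130) (nat_lit 220))) (PT.nd (nat_lit 78) (PT.lf (nat_lit 8056) (nat_lit 6) (nat_lit 106) (nat_lit 1) (nat_lit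 221) (nat_lit 130) (nat_lit 219)) (PT.lf (nat_lit 7980) (nat_lit 6) (nat_lit 105) (nat_lit 1) (nat_lit 222) (nat_lit 130) (nat_lit 218))))) (PT.nd (nat_lit 58968) (PT.nd (nat_lit 58812) (PT.nd (nat_lit 78) (PT.lf (nat_lit 7904) (nat_lit 6) (nat_lit 104) (nat_lit 1) (nat_lit 223) (nat_lit 130) (nat_lit 217)) (PT.lf (nat_lit 7828) (nat_lit 6) (nat_lit 103) (nat_lit 1) (nat_lit 224) (nat_lit 130) (nat_lit 216))) (PT.nd (nat_lit 78) (PT.lf (nat_lit 8208) (nat_lit 6) (nat_lit 108) (nat_lit 3) (nat_lit 216) (nat_lit 131) (nat_lit 223)) (PT.lf (nat_lit 8284) (nat_lit 6) (nat_lit 109) (nat_lit 3) (nat_lit 217) (nat_lit 131) (nat_lit 222)))) (PT.nd (nat_lit 156) (PT.nd (nat_lit 78) (PT.lf (nat_lit 8360) (nat_lit 6) (nat_lit 110) (nat_lit 3) (nat_lit 218) (nat_lit 131) (nat_lit 221)) (PT.lf (nat_lit 8436) (nat_lit 6) (nat_lit 111) (nat_lit 3) (nat_lit 219) (nat_lit 131) (nat_lit 220))) (PT.nd (nat_lit 78) (PT.lf (nat_lit 8436)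 (nat_lit 6) (nat_lit 111) (nat_lit 1) (nat_lit 220) (nat_lit 131) (nat_lit 219)) (PT.lf (nat_lit 8360) (nat_lit 6) (nat_lit 110) (nat_lit 1) (nat_lit 221) (nat_lit 131) (nat_lit 218))))))))
noncomputable def pc3 : PT := (PT.nd (nat_lit 236730) (PT.nd (nat_lit 118404) (PT.nd (nat_lit 59202) (PT.nd (nat_lit 58890) (PT.nd (nat_lit 78) (PT.lf (nat_lit 8284) (nat_lit 6) (nat_lit 109) (nat_lit 1) (nat_lit 222) (nat_lit 131) (nat_lit 217)) (PT.nd (nat_lit 58734) (PT.lf (nat_lit 8208) (nat_lit 6) (nat_lit 108) (nat_lit 1) (nat_lit 223) (nat_lit 131) (nat_lit 216)) (PT.lf (nat_lit 8512) (nat_lit 6) (nat_lit 112) (nat_lit 3) (nat_lit 215) (nat_lit 132) (nat_lit 223)))) (PT.nd (nat_lit 156) (PT.nd (nat_lit 78) (PT.lf (nat_lit 8588) (nat_lit 6) (nat_lit 113) (nat_lit 3) (nat_lit 216) (nat_lit 132) (nat_lit 222)) (PT.lf (nat_lit 8664) (nat_lit 6) (nat_lit 114) (nat_lit 3) (nat_lit 217) (nat_lit 132) (nat_lit 221))) (PT.nd (nat_lit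 78) (PT.lf (nat_lit 8740) (nat_lit 6) (nat_lit 115) (nat_lit 3) (nat_lit 218) (nat_lit 132) (nat_lit 220)) (PT.lf (nat_lit 8816) (nat_lit 3) (nat_lit 116) (nat_lit 1) (nat_lit 219) (nat_lit 132) (nat_lit 219))))) (PT.nd (nat_lit 58890) (PT.nd (nat_lit 156) (PT.nd (nat_lit 78) (PT.lf (nat_lit 8740) (nat_lit 6) (nat_lit 115) (nat_lit 1) (nat_lit 220) (nat_lit 132) (nat_lit 218)) (PT.lf (nat_lit 8664) (nat_lit 6) (nat_lit 114) (nat_lit 1) (nat_lit 221) (nat_lit 132) (nat_lit 217))) (PT.nd (nat_lit 78) (PT.lf (nat_lit 8588) (nat_lit 6) (nat_lit 113) (nat_lit 1) (nat_lit 222) (nat_lit 132) (nat_lit 216)) (PT.lf (nat_lit 8512) (nat_lit 6) (nat_lit 112) (nat_lit 1) (nat_lit 223) (nat_lit 132) (nat_lit 215)))) (PT.nd (nat_lit 156) (PT.nd (nat_lit 78) (PT.lf (nat_lit 8892) (nat_lit 6) (nat_lit 117) (nat_lit 3) (nat_lit 214) (nat_lit 133) (nat_lit 223)) (PT.lf (nat_lit 8968) (nat_lit 6) (nat_lit 118) (nat_lit 3) (nat_lit 215)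 (nat_lit 133) (nat_lit 222))) (PT.nd (nat_lit 78) (PT.lf (nat_lit 9044) (nat_lit 6) (nat_lit 119) (nat_lit 3) (nat_lit 216) (nat_lit 133) (nat_lit 221)) (PT.lf (nat_lit 9120) (nat_lit 6) (nat_lit 120) (nat_lit 3) (nat_lit 217) (nat_lit 133) (nat_lit 220)))))) (PT.nd (nat_lit 59124) (PT.nd (nat_lit 234) (PT.nd (nat_lit 78) (PT.lf (nat_lit 9196) (nat_lit 6) (nat_lit 121) (nat_lit 3) (nat_lit 218) (nat_lit 133) (nat_lit 219)) (PT.nd (nat_lit 78) (PT.lf (nat_lit 9196) (nat_lit 6) (nat_lit 121) (nat_lit 1) (nat_lit 219) (nat_lit 133) (nat_lit 218)) (PT.lf (nat_lit 9120) (nat_lit 6) (nat_lit 120) (nat_lit 1) (nat_lit 220) (nat_lit 133) (nat_lit 217)))) (PT.nd (nat_lit 156) (PT.nd (nat_lit 78) (PT.lf (nat_lit 9044) (nat_lit 6) (nat_lit 119) (nat_lit 1) (nat_lit 221) (nat_lit 133) (nat_lit 216)) (PT.lf (nat_lit 8968) (nat_lit 6) (nat_lit 118) (nat_lit 1) (nat_lit 222) (nat_lit 133) (nat_lit 215))) (PT.nd (nat_lit 58656) (PT.lf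 (nat_lit 8892) (nat_lit 6) (nat_lit 117) (nat_lit 1) (nat_lit 223) (nat_lit 133) (nat_lit 214)) (PT.lf (nat_lit 9272) (nat_lit 6) (nat_lit 122) (nat_lit 3) (nat_lit 214) (nat_lit 134) (nat_lit 222))))) (PT.nd (nat_lit 312) (PT.nd (nat_lit 156) (PT.nd (nat_lit 78) (PT.lf (nat_lit 9348) (nat_lit 6) (nat_lit 123) (nat_lit 3) (nat_lit 215) (nat_lit 134) (nat_lit 221)) (PT.lf (nat_lit 9424) (nat_lit 6) (nat_lit 124) (nat_lit 3) (nat_lit 216) (nat_lit 134) (nat_lit 220))) (PT.nd (nat_lit 78) (PT.lf (nat_lit 9500) (nat_lit 6) (nat_lit 125) (nat_lit 3) (nat_lit 217) (nat_lit 134) (nat_lit 219)) (PT.lf (nat_lit 9576) (nat_lit 3) (nat_lit 126) (nat_lit 1) (nat_lit 218) (nat_lit 134) (nat_lit 218)))) (PT.nd (nat_lit 156) (PT.nd (nat_lit 78) (PT.lf (nat_lit 9500) (nat_lit 6) (nat_lit 125) (nat_lit 1) (nat_lit 219) (nat_lit 134) (nat_lit 217)) (PT.lf (nat_lit 9424) (nat_lit 6) (nat_lit 124) (nat_lit 1) (nat_lit 220) (nat_lit 134)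 (nat_lit 216))) (PT.nd (nat_lit 78) (PT.lf (nat_lit 9348) (nat_lit 6) (nat_lit 123) (nat_lit 1) (nat_lit 221) (nat_lit 134) (nat_lit 215)) (PT.lf (nat_lit 9272) (nat_lit 6) (nat_lit 122) (nat_lit 1) (nat_lit 222) (nat_lit 134) (nat_lit 214))))))) (PT.nd (nat_lit 59670) (PT.nd (nat_lit 546) (PT.nd (nat_lit 234) (PT.nd (nat_lit 78) (PT.lf (nat_lit 9652) (nat_lit 6) (nat_lit 127) (nat_lit 3) (nat_lit 213) (nat_lit 135) (nat_lit 222)) (PT.nd (nat_lit 78) (PT.lf (nat_lit 9728) (nat_lit 6) (nat_lit 128) (nat_lit 3) (nat_lit 214) (nat_lit 135) (nat_lit 221)) (PT.lf (nat_lit 9804) (nat_lit 6) (nat_lit 129) (nat_lit 3) (nat_lit 215) (nat_lit 135) (nat_lit 220)))) (PT.nd (nat_lit 156) (PT.nd (nat_lit 78) (PT.lf (nat_lit 9880) (nat_lit 6) (nat_lit 130) (nat_lit 3) (nat_lit 216) (nat_lit 135) (nat_lit 219)) (PT.lf (nat_lit 9956) (nat_lit 6) (nat_lit 131) (nat_lit 3) (nat_lit 217) (nat_lit 135) (nat_lit 218))) (PT.nd (nat_lit 78)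 (PT.lf (nat_lit 9956) (nat_lit 6) (nat_lit 131) (nat_lit 1) (nat_lit 218) (nat_lit 135) (nat_lit 217)) (PT.lf (nat_lit 9880) (nat_lit 6) (nat_lit 130) (nat_lit 1) (nat_lit 219) (nat_lit 135) (nat_lit 216))))) (PT.nd (nat_lit 58812) (PT.nd (nat_lit 156) (PT.nd (nat_lit 78) (PT.lf (nat_lit 9804) (nat_lit 6) (nat_lit 129) (nat_lit 1) (nat_lit 220) (nat_lit 135) (nat_lit 215)) (PT.lf (nat_lit 9728) (nat_lit 6) (nat_lit 128) (nat_lit 1) (nat_lit 221) (nat_lit 135) (nat_lit 214))) (PT.nd (nat_lit 58578) (PT.lf (nat_lit 9652) (nat_lit 6) (nat_lit 127) (nat_lit 1) (nat_lit 222) (nat_lit 135) (nat_lit 213)) (PT.lf (nat_lit 10032) (nat_lit 6) (nat_lit 132) (nat_lit 3) (nat_lit 212) (nat_lit 136) (nat_lit 222)))) (PT.nd (nat_lit 156) (PT.nd (nat_lit 78) (PT.lf (nat_lit 10108) (nat_lit 6) (nat_lit 133) (nat_lit 3) (nat_lit 213) (nat_lit 136) (nat_lit 221)) (PT.lf (nat_lit 10184) (nat_lit 6) (nat_lit 134) (nat_lit 3) (nat_lit 214)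 (nat_lit 136) (nat_lit 220))) (PT.nd (nat_lit 78) (PT.lf (nat_lit 10260) (nat_lit 6) (nat_lit 135) (nat_lit 3) (nat_lit 215) (nat_lit 136) (nat_lit 219)) (PT.lf (nat_lit 10336) (nat_lit 6) (nat_lit 136) (nat_lit 3) (nat_lit 216) (nat_lit 136) (nat_lit 218)))))) (PT.nd (nat_lit 59124) (PT.nd (nat_lit 312) (PT.nd (nat_lit 156) (PT.nd (nat_lit 78) (PT.lf (nat_lit 10412) (nat_lit 3) (nat_lit 137) (nat_lit 1) (nat_lit 217) (nat_lit 136) (nat_lit 217)) (PT.lf (nat_lit 10336) (nat_lit 6) (nat_lit 136) (nat_lit 1) (nat_lit 218) (nat_lit 136) (nat_lit 216))) (PT.nd (nat_lit 78) (PT.lf (nat_lit 10260) (nat_lit 6) (nat_lit 135) (nat_lit 1) (nat_lit 219) (nat_lit 136) (nat_lit 215)) (PT.lf (nat_lit 10184) (nat_lit 6) (nat_lit 134) (nat_lit 1) (nat_lit 220) (nat_lit 136) (nat_lit 214)))) (PT.nd (nat_lit 58656) (PT.nd (nat_lit 78) (PT.lf (nat_lit 10108) (nat_lit 6) (nat_lit 133) (nat_lit 1) (nat_lit 221) (nat_lit 136) (nat_lit 213))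 (PT.lf (nat_lit 10032) (nat_lit 6) (nat_lit 132) (nat_lit 1) (nat_lit 222) (nat_lit 136) (nat_lit 212))) (PT.nd (nat_lit 78) (PT.lf (nat_lit 10488) (nat_lit 6) (nat_lit 138) (nat_lit 3) (nat_lit 212) (nat_lit 137) (nat_lit 221)) (PT.lf (nat_lit 10564) (nat_lit 6) (nat_lit 139) (nat_lit 3) (nat_lit 213) (nat_lit 137) (nat_lit 220))))) (PT.nd (nat_lit 312) (PT.nd (nat_lit 156) (PT.nd (nat_lit 78) (PT.lf (nat_lit 10640) (nat_lit 6) (nat_lit 140) (nat_lit 3) (nat_lit 214) (nat_lit 137) (nat_lit 219)) (PT.lf (nat_lit 10716) (nat_lit 6) (nat_lit 141) (nat_lit 3) (nat_lit 215) (nat_lit 137) (nat_lit 218))) (PT.nd (nat_lit 78) (PT.lf (nat_lit 10792) (nat_lit 6) (nat_lit 142) (nat_lit 3) (nat_lit 216) (nat_lit 137) (nat_lit 217)) (PT.lf (nat_lit 10792) (nat_lit 6) (nat_lit 142) (nat_lit 1) (nat_lit 217) (nat_lit 137) (nat_lit 216)))) (PT.nd (nat_lit 156) (PT.nd (nat_lit 78) (PT.lf (nat_lit 10716) (nat_lit 6) (nat_lit 141) (nat_lit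 1) (nat_lit 218) (nat_lit 137) (nat_lit 215)) (PT.lf (nat_lit 10640) (nat_lit 6) (nat_lit 140) (nat_lit 1) (nat_lit 219) (nat_lit 137) (nat_lit 214))) (PT.nd (nat_lit 78) (PT.lf (nat_lit 10564) (nat_lit 6) (nat_lit 139) (nat_lit 1) (nat_lit 220) (nat_lit 137) (nat_lit 213)) (PT.lf (nat_lit 10488) (nat_lit 6) (nat_lit 138) (nat_lit 1) (nat_lit 221) (nat_lit 137) (nat_lit 212))))))))
noncomputable def pc4 : PT := (PT.nd (nat_lit 119184) (PT.nd (nat_lit 59592) (PT.nd (nat_lit 546) (PT.nd (nat_lit 234) (PT.nd (nat_lit 78) (PT.lf (nat_lit 10868) (nat_lit 6) (nat_lit 143) (nat_lit 3) (nat_lit 211) (nat_lit 138) (nat_lit 221)) (PT.nd (nat_lit 78) (PT.lf (nat_lit 10944) (nat_lit 6) (nat_lit 144) (nat_lit 3) (nat_lit 212) (nat_lit 138) (nat_lit 220)) (PT.lf (nat_lit 11020) (nat_lit 6) (nat_lit 145) (nat_lit 3) (nat_lit 213) (nat_lit 138) (nat_lit 219)))) (PT.nd (nat_lit 156) (PT.nd (nat_lit 78) (PT.lf (nat_lit 11096) (nat_lit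 6) (nat_lit 146) (nat_lit 3) (nat_lit 214) (nat_lit 138) (nat_lit 218)) (PT.lf (nat_lit 11172) (nat_lit 6) (nat_lit 147) (nat_lit 3) (nat_lit 215) (nat_lit 138) (nat_lit 217))) (PT.nd (nat_lit 78) (PT.lf (nat_lit 11248) (nat_lit 3) (nat_lit 148) (nat_lit 1) (nat_lit 216) (nat_lit 138) (nat_lit 216)) (PT.lf (nat_lit 11172) (nat_lit 6) (nat_lit 147) (nat_lit 1) (nat_lit 217) (nat_lit 138) (nat_lit 215))))) (PT.nd (nat_lit 58734) (PT.nd (nat_lit 156) (PT.nd (nat_lit 78) (PT.lf (nat_lit 11096) (nat_lit 6) (nat_lit 146) (nat_lit 1) (nat_lit 218) (nat_lit 138) (nat_lit 214)) (PT.lf (nat_lit 11020) (nat_lit 6) (nat_lit 145) (nat_lit 1) (nat_lit 219) (nat_lit 138) (nat_lit 213))) (PT.nd (nat_lit 78) (PT.lf (nat_lit 10944) (nat_lit 6) (nat_lit 144) (nat_lit 1) (nat_lit 220) (nat_lit 138) (nat_lit 212)) (PT.lf (nat_lit 10868) (nat_lit 6) (nat_lit 143) (nat_lit 1) (nat_lit 221) (nat_lit 138) (nat_lit 211)))) (PT.nd (nat_lit 156)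 (PT.nd (nat_lit 78) (PT.lf (nat_lit 11324) (nat_lit 6) (nat_lit 149) (nat_lit 3) (nat_lit 210) (nat_lit 139) (nat_lit 221)) (PT.lf (nat_lit 11400) (nat_lit 6) (nat_lit 150) (nat_lit 3) (nat_lit 211) (nat_lit 139) (nat_lit 220))) (PT.nd (nat_lit 78) (PT.lf (nat_lit 11476) (nat_lit 6) (nat_lit 151) (nat_lit 3) (nat_lit 212) (nat_lit 139) (nat_lit 219)) (PT.lf (nat_lit 11552) (nat_lit 6) (nat_lit 152) (nat_lit 3) (nat_lit 213) (nat_lit 139) (nat_lit 218)))))) (PT.nd (nat_lit 546) (PT.nd (nat_lit 234) (PT.nd (nat_lit 78) (PT.lf (nat_lit 11628) (nat_lit 6) (nat_lit 153) (nat_lit 3) (nat_lit 214) (nat_lit 139) (nat_lit 217)) (PT.nd (nat_lit 78) (PT.lf (nat_lit 11704) (nat_lit 6) (nat_lit 154) (nat_lit 3) (nat_lit 215) (nat_lit 139) (nat_lit 216)) (PT.lf (nat_lit 11704) (nat_lit 6) (nat_lit 154) (nat_lit 1) (nat_lit 216) (nat_lit 139) (nat_lit 215)))) (PT.nd (nat_lit 156) (PT.nd (nat_lit 78) (PT.lf (nat_lit 11628) (nat_lit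 6) (nat_lit 153) (nat_lit 1) (nat_lit 217) (nat_lit 139) (nat_lit 214)) (PT.lf (nat_lit 11552) (nat_lit 6) (nat_lit 152) (nat_lit 1) (nat_lit 218) (nat_lit 139) (nat_lit 213))) (PT.nd (nat_lit 78) (PT.lf (nat_lit 11476) (nat_lit 6) (nat_lit 151) (nat_lit 1) (nat_lit 219) (nat_lit 139) (nat_lit 212)) (PT.lf (nat_lit 11400) (nat_lit 6) (nat_lit 150) (nat_lit 1) (nat_lit 220) (nat_lit 139) (nat_lit 211))))) (PT.nd (nat_lit 58734) (PT.nd (nat_lit 58578) (PT.nd (nat_lit 58500) (PT.lf (nat_lit 11324) (nat_lit 6) (nat_lit 149) (nat_lit 1) (nat_lit 221) (nat_lit 139) (nat_lit 210)) (PT.lf (nat_lit 11780) (nat_lit 6) (nat_lit 155) (nat_lit 3) (nat_lit 210) (nat_lit 140) (nat_lit 220))) (PT.nd (nat_lit 78) (PT.lf (nat_lit 11856) (nat_lit 6) (nat_lit 156) (nat_lit 3) (nat_lit 211) (nat_lit 140) (nat_lit 219)) (PT.lf (nat_lit 11932) (nat_lit 6) (nat_lit 157) (nat_lit 3) (nat_lit 212) (nat_lit 140) (nat_lit 218)))) (PT.nd (nat_lit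 156) (PT.nd (nat_lit 78) (PT.lf (nat_lit 12008) (nat_lit 6) (nat_lit 158) (nat_lit 3) (nat_lit 213) (nat_lit 140) (nat_lit 217)) (PT.lf (nat_lit 12084) (nat_lit 6) (nat_lit 159) (nat_lit 3) (nat_lit 214) (nat_lit 140) (nat_lit 216))) (PT.nd (nat_lit 78) (PT.lf (nat_lit 12160) (nat_lit 3) (nat_lit 160) (nat_lit 1) (nat_lit 215) (nat_lit 140) (nat_lit 215)) (PT.lf (nat_lit 12084) (nat_lit 6) (nat_lit 159) (nat_lit 1) (nat_lit 216) (nat_lit 140) (nat_lit 214))))))) (PT.nd (nat_lit 59592) (PT.nd (nat_lit 58968) (PT.nd (nat_lit 234) (PT.nd (nat_lit 78) (PT.lf (nat_lit 12008) (nat_lit 6) (nat_lit 158) (nat_lit 1) (nat_lit 217) (nat_lit 140) (nat_lit 213)) (PT.nd (nat_lit 78) (PT.lf (nat_lit 11932) (nat_lit 6) (nat_lit 157) (nat_lit 1) (nat_lit 218) (nat_lit 140) (nat_lit 212)) (PT.lf (nat_lit 11856) (nat_lit 6) (nat_lit 156) (nat_lit 1) (nat_lit 219) (nat_lit 140) (nat_lit 211)))) (PT.nd (nat_lit 58578) (PT.nd (nat_lit 58500)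 (PT.lf (nat_lit 11780) (nat_lit 6) (nat_lit 155) (nat_lit 1) (nat_lit 220) (nat_lit 140) (nat_lit 210)) (PT.lf (nat_lit 12236) (nat_lit 6) (nat_lit 161) (nat_lit 3) (nat_lit 209) (nat_lit 141) (nat_lit 220))) (PT.nd (nat_lit 78) (PT.lf (nat_lit 12312) (nat_lit 6) (nat_lit 162) (nat_lit 3) (nat_lit 210) (nat_lit 141) (nat_lit 219)) (PT.lf (nat_lit 12388) (nat_lit 6) (nat_lit 163) (nat_lit 3) (nat_lit 211) (nat_lit 141) (nat_lit 218))))) (PT.nd (nat_lit 312) (PT.nd (nat_lit 156) (PT.nd (nat_lit 78) (PT.lf (nat_lit 12464) (nat_lit 6) (nat_lit 164) (nat_lit 3) (nat_lit 212) (nat_lit 141) (nat_lit 217)) (PT.lf (nat_lit 12540) (nat_lit 6) (nat_lit 165) (nat_lit 3) (nat_lit 213) (nat_lit 141) (nat_lit 216))) (PT.nd (nat_lit 78) (PT.lf (nat_lit 12616) (nat_lit 6) (nat_lit 166) (nat_lit 3) (nat_lit 214) (nat_lit 141) (nat_lit 215)) (PT.lf (nat_lit 12616) (nat_lit 6) (nat_lit 166) (nat_lit 1) (nat_lit 215) (nat_lit 141) (nat_lit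 214)))) (PT.nd (nat_lit 156) (PT.nd (nat_lit 78) (PT.lf (nat_lit 12540) (nat_lit 6) (nat_lit 165) (nat_lit 1) (nat_lit 216) (nat_lit 141) (nat_lit 213)) (PT.lf (nat_lit 12464) (nat_lit 6) (nat_lit 164) (nat_lit 1) (nat_lit 217) (nat_lit 141) (nat_lit 212))) (PT.nd (nat_lit 78) (PT.lf (nat_lit 12388) (nat_lit 6) (nat_lit 163) (nat_lit 1) (nat_lit 218) (nat_lit 141) (nat_lit 211)) (PT.lf (nat_lit 12312) (nat_lit 6) (nat_lit 162) (nat_lit 1) (nat_lit 219) (nat_lit 141) (nat_lit 210)))))) (PT.nd (nat_lit 58890) (PT.nd (nat_lit 58578) (PT.nd (nat_lit 58422) (PT.lf (nat_lit 12236) (nat_lit 6) (nat_lit 161) (nat_lit 1) (nat_lit 220) (nat_lit 141) (nat_lit 209)) (PT.nd (nat_lit 78) (PT.lf (nat_lit 12692) (nat_lit 6) (nat_lit 167) (nat_lit 3) (nat_lit 208) (nat_lit 142) (nat_lit 220)) (PT.lf (nat_lit 12768) (nat_lit 6) (nat_lit 168) (nat_lit 3) (nat_lit 209) (nat_lit 142) (nat_lit 219)))) (PT.nd (nat_lit 156) (PT.nd (nat_lit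 78) (PT.lf (nat_lit 12844) (nat_lit 6) (nat_lit 169) (nat_lit 3) (nat_lit 210) (nat_lit 142) (nat_lit 218)) (PT.lf (nat_lit 12920) (nat_lit 6) (nat_lit 170) (nat_lit 3) (nat_lit 211) (nat_lit 142) (nat_lit 217))) (PT.nd (nat_lit 78) (PT.lf (nat_lit 12996) (nat_lit 6) (nat_lit 171) (nat_lit 3) (nat_lit 212) (nat_lit 142) (nat_lit 216)) (PT.lf (nat_lit 13072) (nat_lit 6) (nat_lit 172) (nat_lit 3) (nat_lit 213) (nat_lit 142) (nat_lit 215))))) (PT.nd (nat_lit 312) (PT.nd (nat_lit 156) (PT.nd (nat_lit 78) (PT.lf (nat_lit 13148) (nat_lit 3) (nat_lit 173) (nat_lit 1) (nat_lit 214) (nat_lit 142) (nat_lit 214)) (PT.lf (nat_lit 13072) (nat_lit 6) (nat_lit 172) (nat_lit 1) (nat_lit 215) (nat_lit 142) (nat_lit 213))) (PT.nd (nat_lit 78) (PT.lf (nat_lit 12996) (nat_lit 6) (nat_lit 171) (nat_lit 1) (nat_lit 216) (nat_lit 142) (nat_lit 212)) (PT.lf (nat_lit 12920) (nat_lit 6) (nat_lit 170) (nat_lit 1) (nat_lit 217) (nat_lit 142) (nat_lit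 211)))) (PT.nd (nat_lit 156) (PT.nd (nat_lit 78) (PT.lf (nat_lit 12844) (nat_lit 6) (nat_lit 169) (nat_lit 1) (nat_lit 218) (nat_lit 142) (nat_lit 210)) (PT.lf (nat_lit 12768) (nat_lit 6) (nat_lit 168) (nat_lit 1) (nat_lit 219) (nat_lit 142) (nat_lit 209))) (PT.nd (nat_lit 58422) (PT.lf (nat_lit 12692) (nat_lit 6) (nat_lit 167) (nat_lit 1) (nat_lit 220) (nat_lit 142) (nat_lit 208)) (PT.lf (nat_lit 13224) (nat_lit 6) (nat_lit 174) (nat_lit 3) (nat_lit 208) (nat_lit 143) (nat_lit 219))))))))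
noncomputable def pc5 : PT := (PT.nd (nat_lit 118950) (PT.nd (nat_lit 59514) (PT.nd (nat_lit 546) (PT.nd (nat_lit 234) (PT.nd (nat_lit 78) (PT.lf (nat_lit 13300) (nat_lit 6) (nat_lit 175) (nat_lit 3) (nat_lit 209) (nat_lit 143) (nat_lit 218)) (PT.nd (nat_lit 78) (PT.lf (nat_lit 13376) (nat_lit 6) (nat_lit 176) (nat_lit 3) (nat_lit 210) (nat_lit 143) (nat_lit 217)) (PT.lf (nat_lit 13452) (nat_lit 6) (nat_lit 177) (nat_lit 3) (nat_lit 211) (nat_lit 143) (nat_lit 216)))) (PT.nd (nat_lit 156) (PT.nd (nat_lit 78) (PT.lf (nat_lit 13528) (nat_lit 6) (nat_lit 178) (nat_lit 3) (nat_lit 212) (nat_lit 143) (nat_lit 215)) (PT.lf (nat_lit 13604) (nat_lit 6) (nat_lit 179) (nat_lit 3) (nat_lit 213) (nat_lit 143) (nat_lit 214))) (PT.nd (nat_lit 78) (PT.lf (nat_lit 13604) (nat_lit 6) (nat_lit 179) (nat_lit 1) (nat_lit 214) (nat_lit 143) (nat_lit 213)) (PT.lf (nat_lit 13528) (nat_lit 6) (nat_lit 178) (nat_lit 1) (nat_lit 215) (nat_lit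 143) (nat_lit 212))))) (PT.nd (nat_lit 58656) (PT.nd (nat_lit 156) (PT.nd (nat_lit 78) (PT.lf (nat_lit 13452) (nat_lit 6) (nat_lit 177) (nat_lit 1) (nat_lit 216) (nat_lit 143) (nat_lit 211)) (PT.lf (nat_lit 13376) (nat_lit 6) (nat_lit 176) (nat_lit 1) (nat_lit 217) (nat_lit 143) (nat_lit 210))) (PT.nd (nat_lit 78) (PT.lf (nat_lit 13300) (nat_lit 6) (nat_lit 175) (nat_lit 1) (nat_lit 218) (nat_lit 143) (nat_lit 209)) (PT.lf (nat_lit 13224) (nat_lit 6) (nat_lit 174) (nat_lit 1) (nat_lit 219) (nat_lit 143) (nat_lit 208)))) (PT.nd (nat_lit 156) (PT.nd (nat_lit 78) (PT.lf (nat_lit 13680) (nat_lit 6) (nat_lit 180) (nat_lit 3) (nat_lit 207) (nat_lit 144) (nat_lit 219)) (PT.lf (nat_lit 13756) (nat_lit 6) (nat_lit 181) (nat_lit 3) (nat_lit 208) (nat_lit 144) (nat_lit 218))) (PT.nd (nat_lit 78) (PT.lf (nat_lit 13832) (nat_lit 6) (nat_lit 182) (nat_lit 3) (nat_lit 209) (nat_lit 144) (nat_lit 217)) (PT.lf (nat_lit 13908) (nat_lit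 6) (nat_lit 183) (nat_lit 3) (nat_lit 210) (nat_lit 144) (nat_lit 216)))))) (PT.nd (nat_lit 546) (PT.nd (nat_lit 234) (PT.nd (nat_lit 78) (PT.lf (nat_lit 13984) (nat_lit 6) (nat_lit 184) (nat_lit 3) (nat_lit 211) (nat_lit 144) (nat_lit 215)) (PT.nd (nat_lit 78) (PT.lf (nat_lit 14060) (nat_lit 6) (nat_lit 185) (nat_lit 3) (nat_lit 212) (nat_lit 144) (nat_lit 214)) (PT.lf (nat_lit 14136) (nat_lit 3) (nat_lit 186) (nat_lit 1) (nat_lit 213) (nat_lit 144) (nat_lit 213)))) (PT.nd (nat_lit 156) (PT.nd (nat_lit 78) (PT.lf (nat_lit 14060) (nat_lit 6) (nat_lit 185) (nat_lit 1) (nat_lit 214) (nat_lit 144) (nat_lit 212)) (PT.lf (nat_lit 13984) (nat_lit 6) (nat_lit 184) (nat_lit 1) (nat_lit 215) (nat_lit 144) (nat_lit 211))) (PT.nd (nat_lit 78) (PT.lf (nat_lit 13908) (nat_lit 6) (nat_lit 183) (nat_lit 1) (nat_lit 216) (nat_lit 144) (nat_lit 210)) (PT.lf (nat_lit 13832) (nat_lit 6) (nat_lit 182) (nat_lit 1) (nat_lit 217) (nat_lit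 144) (nat_lit 209))))) (PT.nd (nat_lit 58578) (PT.nd (nat_lit 58422) (PT.nd (nat_lit 78) (PT.lf (nat_lit 13756) (nat_lit 6) (nat_lit 181) (nat_lit 1) (nat_lit 218) (nat_lit 144) (nat_lit 208)) (PT.lf (nat_lit 13680) (nat_lit 6) (nat_lit 180) (nat_lit 1) (nat_lit 219) (nat_lit 144) (nat_lit 207))) (PT.nd (nat_lit 78) (PT.lf (nat_lit 14212) (nat_lit 6) (nat_lit 187) (nat_lit 3) (nat_lit 206) (nat_lit 145) (nat_lit 219)) (PT.lf (nat_lit 14288) (nat_lit 6) (nat_lit 188) (nat_lit 3) (nat_lit 207) (nat_lit 145) (nat_lit 218)))) (PT.nd (nat_lit 156) (PT.nd (nat_lit 78) (PT.lf (nat_lit 14364) (nat_lit 6) (nat_lit 189) (nat_lit 3) (nat_lit 208) (nat_lit 145) (nat_lit 217)) (PT.lf (nat_lit 14440) (nat_lit 6) (nat_lit 190) (nat_lit 3) (nat_lit 209) (nat_lit 145) (nat_lit 216))) (PT.nd (nat_lit 78) (PT.lf (nat_lit 14516) (nat_lit 6) (nat_lit 191) (nat_lit 3) (nat_lit 210) (nat_lit 145) (nat_lit 215)) (PT.lf (nat_lit 14592) (nat_lit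 6) (nat_lit 192) (nat_lit 3) (nat_lit 211) (nat_lit 145) (nat_lit 214))))))) (PT.nd (nat_lit 59436) (PT.nd (nat_lit 546) (PT.nd (nat_lit 234) (PT.nd (nat_lit 78) (PT.lf (nat_lit 14668) (nat_lit 6) (nat_lit 193) (nat_lit 3) (nat_lit 212) (nat_lit 145) (nat_lit 213)) (PT.nd (nat_lit 78) (PT.lf (nat_lit 14668) (nat_lit 6) (nat_lit 193) (nat_lit 1) (nat_lit 213) (nat_lit 145) (nat_lit 212)) (PT.lf (nat_lit 14592) (nat_lit 6) (nat_lit 192) (nat_lit 1) (nat_lit 214) (nat_lit 145) (nat_lit 211)))) (PT.nd (nat_lit 156) (PT.nd (nat_lit 78) (PT.lf (nat_lit 14516) (nat_lit 6) (nat_lit 191) (nat_lit 1) (nat_lit 215) (nat_lit 145) (nat_lit 210)) (PT.lf (nat_lit 14440) (nat_lit 6) (nat_lit 190) (nat_lit 1) (nat_lit 216) (nat_lit 145) (nat_lit 209))) (PT.nd (nat_lit 78) (PT.lf (nat_lit 14364) (nat_lit 6) (nat_lit 189) (nat_lit 1) (nat_lit 217) (nat_lit 145) (nat_lit 208)) (PT.lf (nat_lit 14288) (nat_lit 6) (nat_lit 188) (nat_lit 1)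 (nat_lit 218) (nat_lit 145) (nat_lit 207))))) (PT.nd (nat_lit 58578) (PT.nd (nat_lit 58422) (PT.nd (nat_lit 58344) (PT.lf (nat_lit 14212) (nat_lit 6) (nat_lit 187) (nat_lit 1) (nat_lit 219) (nat_lit 145) (nat_lit 206)) (PT.lf (nat_lit 14744) (nat_lit 6) (nat_lit 194) (nat_lit 3) (nat_lit 206) (nat_lit 146) (nat_lit 218))) (PT.nd (nat_lit 78) (PT.lf (nat_lit 14820) (nat_lit 6) (nat_lit 195) (nat_lit 3) (nat_lit 207) (nat_lit 146) (nat_lit 217)) (PT.lf (nat_lit 14896) (nat_lit 6) (nat_lit 196) (nat_lit 3) (nat_lit 208) (nat_lit 146) (nat_lit 216)))) (PT.nd (nat_lit 156) (PT.nd (nat_lit 78) (PT.lf (nat_lit 14972) (nat_lit 6) (nat_lit 197) (nat_lit 3) (nat_lit 209) (nat_lit 146) (nat_lit 215)) (PT.lf (nat_lit 15048) (nat_lit 6) (nat_lit 198) (nat_lit 3) (nat_lit 210) (nat_lit 146) (nat_lit 214))) (PT.nd (nat_lit 78) (PT.lf (nat_lit 15124) (nat_lit 6) (nat_lit 199) (nat_lit 3) (nat_lit 211) (nat_lit 146) (nat_lit 213)) (PT.lf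 (nat_lit 15200) (nat_lit 3) (nat_lit 200) (nat_lit 1) (nat_lit 212) (nat_lit 146) (nat_lit 212)))))) (PT.nd (nat_lit 58812) (PT.nd (nat_lit 234) (PT.nd (nat_lit 78) (PT.lf (nat_lit 15124) (nat_lit 6) (nat_lit 199) (nat_lit 1) (nat_lit 213) (nat_lit 146) (nat_lit 211)) (PT.nd (nat_lit 78) (PT.lf (nat_lit 15048) (nat_lit 6) (nat_lit 198) (nat_lit 1) (nat_lit 214) (nat_lit 146) (nat_lit 210)) (PT.lf (nat_lit 14972) (nat_lit 6) (nat_lit 197) (nat_lit 1) (nat_lit 215) (nat_lit 146) (nat_lit 209)))) (PT.nd (nat_lit 156) (PT.nd (nat_lit 78) (PT.lf (nat_lit 14896) (nat_lit 6) (nat_lit 196) (nat_lit 1) (nat_lit 216) (nat_lit 146) (nat_lit 208)) (PT.lf (nat_lit 14820) (nat_lit 6) (nat_lit 195) (nat_lit 1) (nat_lit 217) (nat_lit 146) (nat_lit 207))) (PT.nd (nat_lit 58344) (PT.lf (nat_lit 14744) (nat_lit 6) (nat_lit 194) (nat_lit 1) (nat_lit 218) (nat_lit 146) (nat_lit 206)) (PT.lf (nat_lit 15276) (nat_lit 6) (nat_lit 201) (nat_lit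 3) (nat_lit 205) (nat_lit 147) (nat_lit 218))))) (PT.nd (nat_lit 312) (PT.nd (nat_lit 156) (PT.nd (nat_lit 78) (PT.lf (nat_lit 15352) (nat_lit 6) (nat_lit 202) (nat_lit 3) (nat_lit 206) (nat_lit 147) (nat_lit 217)) (PT.lf (nat_lit 15428) (nat_lit 6) (nat_lit 203) (nat_lit 3) (nat_lit 207) (nat_lit 147) (nat_lit 216))) (PT.nd (nat_lit 78) (PT.lf (nat_lit 15504) (nat_lit 6) (nat_lit 204) (nat_lit 3) (nat_lit 208) (nat_lit 147) (nat_lit 215)) (PT.lf (nat_lit 15580) (nat_lit 6) (nat_lit 205) (nat_lit 3) (nat_lit 209) (nat_lit 147) (nat_lit 214)))) (PT.nd (nat_lit 156) (PT.nd (nat_lit 78) (PT.lf (nat_lit 15656) (nat_lit 6) (nat_lit 206) (nat_lit 3) (nat_lit 210) (nat_lit 147) (nat_lit 213)) (PT.lf (nat_lit 15732) (nat_lit 6) (nat_lit 207) (nat_lit 3) (nat_lit 211) (nat_lit 147) (nat_lit 212))) (PT.nd (nat_lit 78) (PT.lf (nat_lit 15732) (nat_lit 6) (nat_lit 207) (nat_lit 1) (nat_lit 212) (nat_lit 147) (nat_lit 211)) (PT.lf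 (nat_lit 15656) (nat_lit 6) (nat_lit 206) (nat_lit 1) (nat_lit 213) (nat_lit 147) (nat_lit 210))))))))
noncomputable def pc6 : PT := (PT.nd (nat_lit 118638) (PT.nd (nat_lit 59358) (PT.nd (nat_lit 58734) (PT.nd (nat_lit 234) (PT.nd (nat_lit 78) (PT.lf (nat_lit 15580) (nat_lit 6) (nat_lit 205) (nat_lit 1) (nat_lit 214) (nat_lit 147) (nat_lit 209)) (PT.nd (nat_lit 78) (PT.lf (nat_lit 15504) (nat_lit 6) (nat_lit 204) (nat_lit 1) (nat_lit 215) (nat_lit 147) (nat_lit 208)) (PT.lf (nat_lit 15428) (nat_lit 6) (nat_lit 203) (nat_lit 1) (nat_lit 216) (nat_lit 147) (nat_lit 207)))) (PT.nd (nat_lit 58344) (PT.nd (nat_lit 78) (PT.lf (nat_lit 15352) (nat_lit 6) (nat_lit 202) (nat_lit 1) (nat_lit 217) (nat_lit 147) (nat_lit 206)) (PT.lf (nat_lit 15276) (nat_lit 6) (nat_lit 201) (nat_lit 1) (nat_lit 218) (nat_lit 147) (nat_lit 205))) (PT.nd (nat_lit 78) (PT.lf (nat_lit 15808) (nat_lit 6) (nat_lit 208) (nat_lit 3) (nat_lit 204) (nat_lit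 148) (nat_lit 218)) (PT.lf (nat_lit 15884) (nat_lit 6) (nat_lit 209) (nat_lit 3) (nat_lit 205) (nat_lit 148) (nat_lit 217))))) (PT.nd (nat_lit 312) (PT.nd (nat_lit 156) (PT.nd (nat_lit 78) (PT.lf (nat_lit 15960) (nat_lit 6) (nat_lit 210) (nat_lit 3) (nat_lit 206) (nat_lit 148) (nat_lit 216)) (PT.lf (nat_lit 16036) (nat_lit 6) (nat_lit 211) (nat_lit 3) (nat_lit 207) (nat_lit 148) (nat_lit 215))) (PT.nd (nat_lit 78) (PT.lf (nat_lit 16112) (nat_lit 6) (nat_lit 212) (nat_lit 3) (nat_lit 208) (nat_lit 148) (nat_lit 214)) (PT.lf (nat_lit 16188) (nat_lit 6) (nat_lit 213) (nat_lit 3) (nat_lit 209) (nat_lit 148) (nat_lit 213)))) (PT.nd (nat_lit 156) (PT.nd (nat_lit 78) (PT.lf (nat_lit 16264) (nat_lit 6) (nat_lit 214) (nat_lit 3) (nat_lit 210) (nat_lit 148) (nat_lit 212)) (PT.lf (nat_lit 16340) (nat_lit 3) (nat_lit 215) (nat_lit 1) (nat_lit 211) (nat_lit 148) (nat_lit 211))) (PT.nd (nat_lit 78) (PT.lf (nat_lit 16264) (nat_lit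 6) (nat_lit 214) (nat_lit 1) (nat_lit 212) (nat_lit 148) (nat_lit 210)) (PT.lf (nat_lit 16188) (nat_lit 6) (nat_lit 213) (nat_lit 1) (nat_lit 213) (nat_lit 148) (nat_lit 209)))))) (PT.nd (nat_lit 58656) (PT.nd (nat_lit 234) (PT.nd (nat_lit 78) (PT.lf (nat_lit 16112) (nat_lit 6) (nat_lit 212) (nat_lit 1) (nat_lit 214) (nat_lit 148) (nat_lit 208)) (PT.nd (nat_lit 78) (PT.lf (nat_lit 16036) (nat_lit 6) (nat_lit 211) (nat_lit 1) (nat_lit 215) (nat_lit 148) (nat_lit 207)) (PT.lf (nat_lit 15960) (nat_lit 6) (nat_lit 210) (nat_lit 1) (nat_lit 216) (nat_lit 148) (nat_lit 206)))) (PT.nd (nat_lit 58266) (PT.nd (nat_lit 78) (PT.lf (nat_lit 15884) (nat_lit 6) (nat_lit 209) (nat_lit 1) (nat_lit 217) (nat_lit 148) (nat_lit 205)) (PT.lf (nat_lit 15808) (nat_lit 6) (nat_lit 208) (nat_lit 1) (nat_lit 218) (nat_lit 148) (nat_lit 204))) (PT.nd (nat_lit 78) (PT.lf (nat_lit 16416) (nat_lit 6) (nat_lit 216) (nat_lit 3) (nat_lit 203) (nat_lit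 149) (nat_lit 218)) (PT.lf (nat_lit 16492) (nat_lit 6) (nat_lit 217) (nat_lit 3) (nat_lit 204) (nat_lit 149) (nat_lit 217))))) (PT.nd (nat_lit 312) (PT.nd (nat_lit 156) (PT.nd (nat_lit 78) (PT.lf (nat_lit 16568) (nat_lit 6) (nat_lit 218) (nat_lit 3) (nat_lit 205) (nat_lit 149) (nat_lit 216)) (PT.lf (nat_lit 16644) (nat_lit 6) (nat_lit 219) (nat_lit 3) (nat_lit 206) (nat_lit 149) (nat_lit 215))) (PT.nd (nat_lit 78) (PT.lf (nat_lit 16720) (nat_lit 6) (nat_lit 220) (nat_lit 3) (nat_lit 207) (nat_lit 149) (nat_lit 214)) (PT.lf (nat_lit 16796) (nat_lit 6) (nat_lit 221) (nat_lit 3) (nat_lit 208) (nat_lit 149) (nat_lit 213)))) (PT.nd (nat_lit 156) (PT.nd (nat_lit 78) (PT.lf (nat_lit 16872) (nat_lit 6) (nat_lit 222) (nat_lit 3) (nat_lit 209) (nat_lit 149) (nat_lit 212)) (PT.lf (nat_lit 16948) (nat_lit 6) (nat_lit 223) (nat_lit 3) (nat_lit 210) (nat_lit 149) (nat_lit 211))) (PT.nd (nat_lit 78) (PT.lf (nat_lit 16948) (nat_lit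 6) (nat_lit 223) (nat_lit 1) (nat_lit 211) (nat_lit 149) (nat_lit 210)) (PT.lf (nat_lit 16872) (nat_lit 6) (nat_lit 222) (nat_lit 1) (nat_lit 212) (nat_lit 149) (nat_lit 209))))))) (PT.nd (nat_lit 59280) (PT.nd (nat_lit 58656) (PT.nd (nat_lit 234) (PT.nd (nat_lit 78) (PT.lf (nat_lit 16796) (nat_lit 6) (nat_lit 221) (nat_lit 1) (nat_lit 213) (nat_lit 149) (nat_lit 208)) (PT.nd (nat_lit 78) (PT.lf (nat_lit 16720) (nat_lit 6) (nat_lit 220) (nat_lit 1) (nat_lit 214) (nat_lit 149) (nat_lit 207)) (PT.lf (nat_lit 16644) (nat_lit 6) (nat_lit 219) (nat_lit 1) (nat_lit 215) (nat_lit 149) (nat_lit 206)))) (PT.nd (nat_lit 156) (PT.nd (nat_lit 78) (PT.lf (nat_lit 16568) (nat_lit 6) (nat_lit 218) (nat_lit 1) (nat_lit 216) (nat_lit 149) (nat_lit 205)) (PT.lf (nat_lit 16492) (nat_lit 6) (nat_lit 217) (nat_lit 1) (nat_lit 217) (nat_lit 149) (nat_lit 204))) (PT.nd (nat_lit 58188) (PT.lf (nat_lit 16416) (nat_lit 6) (nat_lit 216) (nat_lit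 1) (nat_lit 218) (nat_lit 149) (nat_lit 203)) (PT.lf (nat_lit 17024) (nat_lit 6) (nat_lit 224) (nat_lit 3) (nat_lit 203) (nat_lit 150) (nat_lit 217))))) (PT.nd (nat_lit 312) (PT.nd (nat_lit 156) (PT.nd (nat_lit 78) (PT.lf (nat_lit 17100) (nat_lit 6) (nat_lit 225) (nat_lit 3) (nat_lit 204) (nat_lit 150) (nat_lit 216)) (PT.lf (nat_lit 17176) (nat_lit 6) (nat_lit 226) (nat_lit 3) (nat_lit 205) (nat_lit 150) (nat_lit 215))) (PT.nd (nat_lit 78) (PT.lf (nat_lit 17252) (nat_lit 6) (nat_lit 227) (nat_lit 3) (nat_lit 206) (nat_lit 150) (nat_lit 214)) (PT.lf (nat_lit 17328) (nat_lit 6) (nat_lit 228) (nat_lit 3) (nat_lit 207) (nat_lit 150) (nat_lit 213)))) (PT.nd (nat_lit 156) (PT.nd (nat_lit 78) (PT.lf (nat_lit 17404) (nat_lit 6) (nat_lit 229) (nat_lit 3) (nat_lit 208) (nat_lit 150) (nat_lit 212)) (PT.lf (nat_lit 17480) (nat_lit 6) (nat_lit 230) (nat_lit 3) (nat_lit 209) (nat_lit 150) (nat_lit 211))) (PT.nd (nat_lit 78) (PT.lf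 (nat_lit 17556) (nat_lit 3) (nat_lit 231) (nat_lit 1) (nat_lit 210) (nat_lit 150) (nat_lit 210)) (PT.lf (nat_lit 17480) (nat_lit 6) (nat_lit 230) (nat_lit 1) (nat_lit 211) (nat_lit 150) (nat_lit 209)))))) (PT.nd (nat_lit 58656) (PT.nd (nat_lit 234) (PT.nd (nat_lit 78) (PT.lf (nat_lit 17404) (nat_lit 6) (nat_lit 229) (nat_lit 1) (nat_lit 212) (nat_lit 150) (nat_lit 208)) (PT.nd (nat_lit 78) (PT.lf (nat_lit 17328) (nat_lit 6) (nat_lit 228) (nat_lit 1) (nat_lit 213) (nat_lit 150) (nat_lit 207)) (PT.lf (nat_lit 17252) (nat_lit 6) (nat_lit 227) (nat_lit 1) (nat_lit 214) (nat_lit 150) (nat_lit 206)))) (PT.nd (nat_lit 156) (PT.nd (nat_lit 78) (PT.lf (nat_lit 17176) (nat_lit 6) (nat_lit 226) (nat_lit 1) (nat_lit 215) (nat_lit 150) (nat_lit 205)) (PT.lf (nat_lit 17100) (nat_lit 6) (nat_lit 225) (nat_lit 1) (nat_lit 216) (nat_lit 150) (nat_lit 204))) (PT.nd (nat_lit 58188) (PT.lf (nat_lit 17024) (nat_lit 6) (nat_lit 224) (nat_lit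 1) (nat_lit 217) (nat_lit 150) (nat_lit 203)) (PT.lf (nat_lit 17632) (nat_lit 6) (nat_lit 232) (nat_lit 3) (nat_lit 202) (nat_lit 151) (nat_lit 217))))) (PT.nd (nat_lit 312) (PT.nd (nat_lit 156) (PT.nd (nat_lit 78) (PT.lf (nat_lit 17708) (nat_lit 6) (nat_lit 233) (nat_lit 3) (nat_lit 203) (nat_lit 151) (nat_lit 216)) (PT.lf (nat_lit 17784) (nat_lit 6) (nat_lit 234) (nat_lit 3) (nat_lit 204) (nat_lit 151) (nat_lit 215))) (PT.nd (nat_lit 78) (PT.lf (nat_lit 17860) (nat_lit 6) (nat_lit 235) (nat_lit 3) (nat_lit 205) (nat_lit 151) (nat_lit 214)) (PT.lf (nat_lit 17936) (nat_lit 6) (nat_lit 236) (nat_lit 3) (nat_lit 206) (nat_lit 151) (nat_lit 213)))) (PT.nd (nat_lit 156) (PT.nd (nat_lit 78) (PT.lf (nat_lit 18012) (nat_lit 6) (nat_lit 237) (nat_lit 3) (nat_lit 207) (nat_lit 151) (nat_lit 212)) (PT.lf (nat_lit 18088) (nat_lit 6) (nat_lit 238) (nat_lit 3) (nat_lit 208) (nat_lit 151) (nat_lit 211))) (PT.nd (nat_lit 78) (PT.lf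 (nat_lit 18164) (nat_lit 6) (nat_lit 239) (nat_lit 3) (nat_lit 209) (nat_lit 151) (nat_lit 210)) (PT.lf (nat_lit 18164) (nat_lit 6) (nat_lit 239) (nat_lit 1) (nat_lit 210) (nat_lit 151) (nat_lit 209))))))))
noncomputable def pc7 : PT := (PT.nd (nat_lit 118404) (PT.nd (nat_lit 59202) (PT.nd (nat_lit 58578) (PT.nd (nat_lit 234) (PT.nd (nat_lit 78) (PT.lf (nat_lit 18088) (nat_lit 6) (nat_lit 238) (nat_lit 1) (nat_lit 211) (nat_lit 151) (nat_lit 208)) (PT.nd (nat_lit 78) (PT.lf (nat_lit 18012) (nat_lit 6) (nat_lit 237) (nat_lit 1) (nat_lit 212) (nat_lit 151) (nat_lit 207)) (PT.lf (nat_lit 17936) (nat_lit 6) (nat_lit 236) (nat_lit 1) (nat_lit 213) (nat_lit 151) (nat_lit 206)))) (PT.nd (nat_lit 156) (PT.nd (nat_lit 78) (PT.lf (nat_lit 17860) (nat_lit 6) (nat_lit 235) (nat_lit 1) (nat_lit 214) (nat_lit 151) (nat_lit 205)) (PT.lf (nat_lit 17784) (nat_lit 6) (nat_lit 234) (nat_lit 1) (nat_lit 215) (nat_lit 151) (nat_lit 204)))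 (PT.nd (nat_lit 78) (PT.lf (nat_lit 17708) (nat_lit 6) (nat_lit 233) (nat_lit 1) (nat_lit 216) (nat_lit 151) (nat_lit 203)) (PT.lf (nat_lit 17632) (nat_lit 6) (nat_lit 232) (nat_lit 1) (nat_lit 217) (nat_lit 151) (nat_lit 202))))) (PT.nd (nat_lit 312) (PT.nd (nat_lit 156) (PT.nd (nat_lit 78) (PT.lf (nat_lit 18240) (nat_lit 6) (nat_lit 240) (nat_lit 3) (nat_lit 201) (nat_lit 152) (nat_lit 217)) (PT.lf (nat_lit 18316) (nat_lit 6) (nat_lit 241) (nat_lit 3) (nat_lit 202) (nat_lit 152) (nat_lit 216))) (PT.nd (nat_lit 78) (PT.lf (nat_lit 18392) (nat_lit 6) (nat_lit 242) (nat_lit 3) (nat_lit 203) (nat_lit 152) (nat_lit 215)) (PT.lf (nat_lit 18468) (nat_lit 6) (nat_lit 243) (nat_lit 3) (nat_lit 204) (nat_lit 152) (nat_lit 214)))) (PT.nd (nat_lit 156) (PT.nd (nat_lit 78) (PT.lf (nat_lit 18544) (nat_lit 6) (nat_lit 244) (nat_lit 3) (nat_lit 205) (nat_lit 152) (nat_lit 213)) (PT.lf (nat_lit 18620) (nat_lit 6) (nat_lit 245) (nat_lit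 3) (nat_lit 206) (nat_lit 152) (nat_lit 212))) (PT.nd (nat_lit 78) (PT.lf (nat_lit 18696) (nat_lit 6) (nat_lit 246) (nat_lit 3) (nat_lit 207) (nat_lit 152) (nat_lit 211)) (PT.lf (nat_lit 18772) (nat_lit 6) (nat_lit 247) (nat_lit 3) (nat_lit 208) (nat_lit 152) (nat_lit 210)))))) (PT.nd (nat_lit 546) (PT.nd (nat_lit 234) (PT.nd (nat_lit 78) (PT.lf (nat_lit 18848) (nat_lit 3) (nat_lit 248) (nat_lit 1) (nat_lit 209) (nat_lit 152) (nat_lit 209)) (PT.nd (nat_lit 78) (PT.lf (nat_lit 18772) (nat_lit 6) (nat_lit 247) (nat_lit 1) (nat_lit 210) (nat_lit 152) (nat_lit 208)) (PT.lf (nat_lit 18696) (nat_lit 6) (nat_lit 246) (nat_lit 1) (nat_lit 211) (nat_lit 152) (nat_lit 207)))) (PT.nd (nat_lit 156) (PT.nd (nat_lit 78) (PT.lf (nat_lit 18620) (nat_lit 6) (nat_lit 245) (nat_lit 1) (nat_lit 212) (nat_lit 152) (nat_lit 206)) (PT.lf (nat_lit 18544) (nat_lit 6) (nat_lit 244) (nat_lit 1) (nat_lit 213) (nat_lit 152) (nat_lit 205))) (PT.nd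 (nat_lit 78) (PT.lf (nat_lit 18468) (nat_lit 6) (nat_lit 243) (nat_lit 1) (nat_lit 214) (nat_lit 152) (nat_lit 204)) (PT.lf (nat_lit 18392) (nat_lit 6) (nat_lit 242) (nat_lit 1) (nat_lit 215) (nat_lit 152) (nat_lit 203))))) (PT.nd (nat_lit 58344) (PT.nd (nat_lit 58188) (PT.nd (nat_lit 78) (PT.lf (nat_lit 18316) (nat_lit 6) (nat_lit 241) (nat_lit 1) (nat_lit 216) (nat_lit 152) (nat_lit 202)) (PT.lf (nat_lit 18240) (nat_lit 6) (nat_lit 240) (nat_lit 1) (nat_lit 217) (nat_lit 152) (nat_lit 201))) (PT.nd (nat_lit 78) (PT.lf (nat_lit 18924) (nat_lit 6) (nat_lit 249) (nat_lit 3) (nat_lit 201) (nat_lit 153) (nat_lit 216)) (PT.lf (nat_lit 19000) (nat_lit 6) (nat_lit 250) (nat_lit 3) (nat_lit 202) (nat_lit 153) (nat_lit 215)))) (PT.nd (nat_lit 156) (PT.nd (nat_lit 78) (PT.lf (nat_lit 19076) (nat_lit 6) (nat_lit 251) (nat_lit 3) (nat_lit 203) (nat_lit 153) (nat_lit 214)) (PT.lf (nat_lit 19152) (nat_lit 6) (nat_lit 252) (nat_lit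 3) (nat_lit 204) (nat_lit 153) (nat_lit 213))) (PT.nd (nat_lit 78) (PT.lf (nat_lit 19228) (nat_lit 6) (nat_lit 253) (nat_lit 3) (nat_lit 205) (nat_lit 153) (nat_lit 212)) (PT.lf (nat_lit 19304) (nat_lit 6) (nat_lit 254) (nat_lit 3) (nat_lit 206) (nat_lit 153) (nat_lit 211))))))) (PT.nd (nat_lit 59202) (PT.nd (nat_lit 546) (PT.nd (nat_lit 234) (PT.nd (nat_lit 78) (PT.lf (nat_lit 19380) (nat_lit 6) (nat_lit 255) (nat_lit 3) (nat_lit 207) (nat_lit 153) (nat_lit 210)) (PT.nd (nat_lit 78) (PT.lf (nat_lit 19456) (nat_lit 6) (nat_lit 256) (nat_lit 3) (nat_lit 208) (nat_lit 153) (nat_lit 209)) (PT.lf (nat_lit 19456) (nat_lit 6) (nat_lit 256) (nat_lit 1) (nat_lit 209) (nat_lit 153) (nat_lit 208)))) (PT.nd (nat_lit 156) (PT.nd (nat_lit 78) (PT.lf (nat_lit 19380) (nat_lit 6) (nat_lit 255) (nat_lit 1) (nat_lit 210) (nat_lit 153) (nat_lit 207)) (PT.lf (nat_lit 19304) (nat_lit 6) (nat_lit 254) (nat_lit 1) (nat_lit 211) (nat_lit 153)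 (nat_lit 206))) (PT.nd (nat_lit 78) (PT.lf (nat_lit 19228) (nat_lit 6) (nat_lit 253) (nat_lit 1) (nat_lit 212) (nat_lit 153) (nat_lit 205)) (PT.lf (nat_lit 19152) (nat_lit 6) (nat_lit 252) (nat_lit 1) (nat_lit 213) (nat_lit 153) (nat_lit 204))))) (PT.nd (nat_lit 58344) (PT.nd (nat_lit 156) (PT.nd (nat_lit 78) (PT.lf (nat_lit 19076) (nat_lit 6) (nat_lit 251) (nat_lit 1) (nat_lit 214) (nat_lit 153) (nat_lit 203)) (PT.lf (nat_lit 19000) (nat_lit 6) (nat_lit 250) (nat_lit 1) (nat_lit 215) (nat_lit 153) (nat_lit 202))) (PT.nd (nat_lit 58110) (PT.lf (nat_lit 18924) (nat_lit 6) (nat_lit 249) (nat_lit 1) (nat_lit 216) (nat_lit 153) (nat_lit 201)) (PT.lf (nat_lit 19532) (nat_lit 6) (nat_lit 257) (nat_lit 3) (nat_lit 200) (nat_lit 154) (nat_lit 216)))) (PT.nd (nat_lit 156) (PT.nd (nat_lit 78) (PT.lf (nat_lit 19608) (nat_lit 6) (nat_lit 258) (nat_lit 3) (nat_lit 201) (nat_lit 154) (nat_lit 215)) (PT.lf (nat_lit 19684) (nat_lit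 6) (nat_lit 259) (nat_lit 3) (nat_lit 202) (nat_lit 154) (nat_lit 214))) (PT.nd (nat_lit 78) (PT.lf (nat_lit 19760) (nat_lit 6) (nat_lit 260) (nat_lit 3) (nat_lit 203) (nat_lit 154) (nat_lit 213)) (PT.lf (nat_lit 19836) (nat_lit 6) (nat_lit 261) (nat_lit 3) (nat_lit 204) (nat_lit 154) (nat_lit 212)))))) (PT.nd (nat_lit 624) (PT.nd (nat_lit 312) (PT.nd (nat_lit 156) (PT.nd (nat_lit 78) (PT.lf (nat_lit 19912) (nat_lit 6) (nat_lit 262) (nat_lit 3) (nat_lit 205) (nat_lit 154) (nat_lit 211)) (PT.lf (nat_lit 19988) (nat_lit 6) (nat_lit 263) (nat_lit 3) (nat_lit 206) (nat_lit 154) (nat_lit 210))) (PT.nd (nat_lit 78) (PT.lf (nat_lit 20064) (nat_lit 6) (nat_lit 264) (nat_lit 3) (nat_lit 207) (nat_lit 154) (nat_lit 209)) (PT.lf (nat_lit 20140) (nat_lit 3) (nat_lit 265) (nat_lit 1) (nat_lit 208) (nat_lit 154) (nat_lit 208)))) (PT.nd (nat_lit 156) (PT.nd (nat_lit 78) (PT.lf (nat_lit 20064) (nat_lit 6) (nat_lit 264) (nat_lit 1) (nat_lit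 209) (nat_lit 154) (nat_lit 207)) (PT.lf (nat_lit 19988) (nat_lit 6) (nat_lit 263) (nat_lit 1) (nat_lit 210) (nat_lit 154) (nat_lit 206))) (PT.nd (nat_lit 78) (PT.lf (nat_lit 19912) (nat_lit 6) (nat_lit 262) (nat_lit 1) (nat_lit 211) (nat_lit 154) (nat_lit 205)) (PT.lf (nat_lit 19836) (nat_lit 6) (nat_lit 261) (nat_lit 1) (nat_lit 212) (nat_lit 154) (nat_lit 204))))) (PT.nd (nat_lit 58266) (PT.nd (nat_lit 156) (PT.nd (nat_lit 78) (PT.lf (nat_lit 19760) (nat_lit 6) (nat_lit 260) (nat_lit 1) (nat_lit 213) (nat_lit 154) (nat_lit 203)) (PT.lf (nat_lit 19684) (nat_lit 6) (nat_lit 259) (nat_lit 1) (nat_lit 214) (nat_lit 154) (nat_lit 202))) (PT.nd (nat_lit 78) (PT.lf (nat_lit 19608) (nat_lit 6) (nat_lit 258) (nat_lit 1) (nat_lit 215) (nat_lit 154) (nat_lit 201)) (PT.lf (nat_lit 19532) (nat_lit 6) (nat_lit 257) (nat_lit 1) (nat_lit 216) (nat_lit 154) (nat_lit 200)))) (PT.nd (nat_lit 156) (PT.nd (nat_lit 78) (PT.lf (nat_lit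 20216) (nat_lit 6) (nat_lit 266) (nat_lit 3) (nat_lit 199) (nat_lit 155) (nat_lit 216)) (PT.lf (nat_lit 20292) (nat_lit 6) (nat_lit 267) (nat_lit 3) (nat_lit 200) (nat_lit 155) (nat_lit 215))) (PT.nd (nat_lit 78) (PT.lf (nat_lit 20368) (nat_lit 6) (nat_lit 268) (nat_lit 3) (nat_lit 201) (nat_lit 155) (nat_lit 214)) (PT.lf (nat_lit 20444) (nat_lit 6) (nat_lit 269) (nat_lit 3) (nat_lit 202) (nat_lit 155) (nat_lit 213))))))))
noncomputable def pc8 : PT := (PT.nd (nat_lit 60216) (PT.nd (nat_lit 59046) (PT.nd (nat_lit 546) (PT.nd (nat_lit 234) (PT.nd (nat_lit 78) (PT.lf (nat_lit 20520) (nat_lit 6) (nat_lit 270) (nat_lit 3) (nat_lit 203) (nat_lit 155) (nat_lit 212)) (PT.nd (nat_lit 78) (PT.lf (nat_lit 20596) (nat_lit 6) (nat_lit 271) (nat_lit 3) (nat_lit 204) (nat_lit 155) (nat_lit 211)) (PT.lf (nat_lit 20672) (nat_lit 6) (nat_lit 272) (nat_lit 3) (nat_lit 205) (nat_lit 155) (nat_lit 210)))) (PT.nd (nat_lit 156) (PT.nd (nat_lit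 78) (PT.lf (nat_lit 20748) (nat_lit 6) (nat_lit 273) (nat_lit 3) (nat_lit 206) (nat_lit 155) (nat_lit 209)) (PT.lf (nat_lit 20824) (nat_lit 6) (nat_lit 274) (nat_lit 3) (nat_lit 207) (nat_lit 155) (nat_lit 208))) (PT.nd (nat_lit 78) (PT.lf (nat_lit 20824) (nat_lit 6) (nat_lit 274) (nat_lit 1) (nat_lit 208) (nat_lit 155) (nat_lit 207)) (PT.lf (nat_lit 20748) (nat_lit 6) (nat_lit 273) (nat_lit 1) (nat_lit 209) (nat_lit 155) (nat_lit 206))))) (PT.nd (nat_lit 312) (PT.nd (nat_lit 156) (PT.nd (nat_lit 78) (PT.lf (nat_lit 20672) (nat_lit 6) (nat_lit 272) (nat_lit 1) (nat_lit 210) (nat_lit 155) (nat_lit 205)) (PT.lf (nat_lit 20596) (nat_lit 6) (nat_lit 271) (nat_lit 1) (nat_lit 211) (nat_lit 155) (nat_lit 204))) (PT.nd (nat_lit 78) (PT.lf (nat_lit 20520) (nat_lit 6) (nat_lit 270) (nat_lit 1) (nat_lit 212) (nat_lit 155) (nat_lit 203)) (PT.lf (nat_lit 20444) (nat_lit 6) (nat_lit 269) (nat_lit 1) (nat_lit 213) (nat_lit 155) (nat_lit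 202)))) (PT.nd (nat_lit 156) (PT.nd (nat_lit 78) (PT.lf (nat_lit 20368) (nat_lit 6) (nat_lit 268) (nat_lit 1) (nat_lit 214) (nat_lit 155) (nat_lit 201)) (PT.lf (nat_lit 20292) (nat_lit 6) (nat_lit 267) (nat_lit 1) (nat_lit 215) (nat_lit 155) (nat_lit 200))) (PT.nd (nat_lit 57954) (PT.lf (nat_lit 20216) (nat_lit 6) (nat_lit 266) (nat_lit 1) (nat_lit 216) (nat_lit 155) (nat_lit 199)) (PT.lf (nat_lit 20900) (nat_lit 6) (nat_lit 275) (nat_lit 3) (nat_lit 198) (nat_lit 156) (nat_lit 216)))))) (PT.nd (nat_lit 546) (PT.nd (nat_lit 234) (PT.nd (nat_lit 78) (PT.lf (nat_lit 20976) (nat_lit 6) (nat_lit 276) (nat_lit 3) (nat_lit 199) (nat_lit 156) (nat_lit 215)) (PT.nd (nat_lit 78) (PT.lf (nat_lit 21052) (nat_lit 6) (nat_lit 277) (nat_lit 3) (nat_lit 200) (nat_lit 156) (nat_lit 214)) (PT.lf (nat_lit 21128) (nat_lit 6) (nat_lit 278) (nat_lit 3) (nat_lit 201) (nat_lit 156) (nat_lit 213)))) (PT.nd (nat_lit 156) (PT.nd (nat_lit 78)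 (PT.lf (nat_lit 21204) (nat_lit 6) (nat_lit 279) (nat_lit 3) (nat_lit 202) (nat_lit 156) (nat_lit 212)) (PT.lf (nat_lit 21280) (nat_lit 6) (nat_lit 280) (nat_lit 3) (nat_lit 203) (nat_lit 156) (nat_lit 211))) (PT.nd (nat_lit 78) (PT.lf (nat_lit 21356) (nat_lit 6) (nat_lit 281) (nat_lit 3) (nat_lit 204) (nat_lit 156) (nat_lit 210)) (PT.lf (nat_lit 21432) (nat_lit 6) (nat_lit 282) (nat_lit 3) (nat_lit 205) (nat_lit 156) (nat_lit 209))))) (PT.nd (nat_lit 312) (PT.nd (nat_lit 156) (PT.nd (nat_lit 78) (PT.lf (nat_lit 21508) (nat_lit 6) (nat_lit 283) (nat_lit 3) (nat_lit 206) (nat_lit 156) (nat_lit 208)) (PT.lf (nat_lit 21584) (nat_lit 3) (nat_lit 284) (nat_lit 1) (nat_lit 207) (nat_lit 156) (nat_lit 207))) (PT.nd (nat_lit 78) (PT.lf (nat_lit 21508) (nat_lit 6) (nat_lit 283) (nat_lit 1) (nat_lit 208) (nat_lit 156) (nat_lit 206)) (PT.lf (nat_lit 21432) (nat_lit 6) (nat_lit 282) (nat_lit 1) (nat_lit 209) (nat_lit 156) (nat_lit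 205)))) (PT.nd (nat_lit 156) (PT.nd (nat_lit 78) (PT.lf (nat_lit 21356) (nat_lit 6) (nat_lit 281) (nat_lit 1) (nat_lit 210) (nat_lit 156) (nat_lit 204)) (PT.lf (nat_lit 21280) (nat_lit 6) (nat_lit 280) (nat_lit 1) (nat_lit 211) (nat_lit 156) (nat_lit 203))) (PT.nd (nat_lit 78) (PT.lf (nat_lit 21204) (nat_lit 6) (nat_lit 279) (nat_lit 1) (nat_lit 212) (nat_lit 156) (nat_lit 202)) (PT.lf (nat_lit 21128) (nat_lit 6) (nat_lit 278) (nat_lit 1) (nat_lit 213) (nat_lit 156) (nat_lit 201))))))) (PT.nd (nat_lit 59046) (PT.nd (nat_lit 58422) (PT.nd (nat_lit 58110) (PT.nd (nat_lit 78) (PT.lf (nat_lit 21052) (nat_lit 6) (nat_lit 277) (nat_lit 1) (nat_lit 214) (nat_lit 156) (nat_lit 200)) (PT.nd (nat_lit 78) (PT.lf (nat_lit 20976) (nat_lit 6) (nat_lit 276) (nat_lit 1) (nat_lit 215) (nat_lit 156) (nat_lit 199)) (PT.lf (nat_lit 20900) (nat_lit 6) (nat_lit 275) (nat_lit 1) (nat_lit 216) (nat_lit 156) (nat_lit 198)))) (PT.nd (nat_lit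 156) (PT.nd (nat_lit 78) (PT.lf (nat_lit 21736) (nat_lit 6) (nat_lit 286) (nat_lit 3) (nat_lit 198) (nat_lit 157) (nat_lit 215)) (PT.lf (nat_lit 21812) (nat_lit 6) (nat_lit 287) (nat_lit 3) (nat_lit 199) (nat_lit 157) (nat_lit 214))) (PT.nd (nat_lit 78) (PT.lf (nat_lit 21888) (nat_lit 6) (nat_lit 288) (nat_lit 3) (nat_lit 200) (nat_lit 157) (nat_lit 213)) (PT.lf (nat_lit 21964) (nat_lit 6) (nat_lit 289) (nat_lit 3) (nat_lit 201) (nat_lit 157) (nat_lit 212))))) (PT.nd (nat_lit 312) (PT.nd (nat_lit 156) (PT.nd (nat_lit 78) (PT.lf (nat_lit 22040) (nat_lit 6) (nat_lit 290) (nat_lit 3) (nat_lit 202) (nat_lit 157) (nat_lit 211)) (PT.lf (nat_lit 22116) (nat_lit 6) (nat_lit 291) (nat_lit 3) (nat_lit 203) (nat_lit 157) (nat_lit 210))) (PT.nd (nat_lit 78) (PT.lf (nat_lit 22192) (nat_lit 6) (nat_lit 292) (nat_lit 3) (nat_lit 204) (nat_lit 157) (nat_lit 209)) (PT.lf (nat_lit 22268) (nat_lit 6) (nat_lit 293) (nat_lit 3) (nat_lit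 205) (nat_lit 157) (nat_lit 208)))) (PT.nd (nat_lit 156) (PT.nd (nat_lit 78) (PT.lf (nat_lit 22344) (nat_lit 6) (nat_lit 294) (nat_lit 3) (nat_lit 206) (nat_lit 157) (nat_lit 207)) (PT.lf (nat_lit 22344) (nat_lit 6) (nat_lit 294) (nat_lit 1) (nat_lit 207) (nat_lit 157) (nat_lit 206))) (PT.nd (nat_lit 78) (PT.lf (nat_lit 22268) (nat_lit 6) (nat_lit 293) (nat_lit 1) (nat_lit 208) (nat_lit 157) (nat_lit 205)) (PT.lf (nat_lit 22192) (nat_lit 6) (nat_lit 292) (nat_lit 1) (nat_lit 209) (nat_lit 157) (nat_lit 204)))))) (PT.nd (nat_lit 58422) (PT.nd (nat_lit 234) (PT.nd (nat_lit 78) (PT.lf (nat_lit 22116) (nat_lit 6) (nat_lit 291) (nat_lit 1) (nat_lit 210) (nat_lit 157) (nat_lit 203)) (PT.nd (nat_lit 78) (PT.lf (nat_lit 22040) (nat_lit 6) (nat_lit 290) (nat_lit 1) (nat_lit 211) (nat_lit 157) (nat_lit 202)) (PT.lf (nat_lit 21964) (nat_lit 6) (nat_lit 289) (nat_lit 1) (nat_lit 212) (nat_lit 157) (nat_lit 201)))) (PT.nd (nat_lit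 156) (PT.nd (nat_lit 78) (PT.lf (nat_lit 21888) (nat_lit 6) (nat_lit 288) (nat_lit 1) (nat_lit 213) (nat_lit 157) (nat_lit 200)) (PT.lf (nat_lit 21812) (nat_lit 6) (nat_lit 287) (nat_lit 1) (nat_lit 214) (nat_lit 157) (nat_lit 199))) (PT.nd (nat_lit 57954) (PT.lf (nat_lit 21736) (nat_lit 6) (nat_lit 286) (nat_lit 1) (nat_lit 215) (nat_lit 157) (nat_lit 198)) (PT.lf (nat_lit 22420) (nat_lit 6) (nat_lit 295) (nat_lit 3) (nat_lit 197) (nat_lit 158) (nat_lit 215))))) (PT.nd (nat_lit 312) (PT.nd (nat_lit 156) (PT.nd (nat_lit 78) (PT.lf (nat_lit 22496) (nat_lit 6) (nat_lit 296) (nat_lit 3) (nat_lit 198) (nat_lit 158) (nat_lit 214)) (PT.lf (nat_lit 22572) (nat_lit 6) (nat_lit 297) (nat_lit 3) (nat_lit 199) (nat_lit 158) (nat_lit 213))) (PT.nd (nat_lit 78) (PT.lf (nat_lit 22648) (nat_lit 6) (nat_lit 298) (nat_lit 3) (nat_lit 200) (nat_lit 158) (nat_lit 212)) (PT.lf (nat_lit 22724) (nat_lit 6) (nat_lit 299) (nat_lit 3) (nat_lit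 201) (nat_lit 158) (nat_lit 211)))) (PT.nd (nat_lit 156) (PT.nd (nat_lit 78) (PT.lf (nat_lit 22800) (nat_lit 6) (nat_lit 300) (nat_lit 3) (nat_lit 202) (nat_lit 158) (nat_lit 210)) (PT.lf (nat_lit 22876) (nat_lit 6) (nat_lit 301) (nat_lit 3) (nat_lit 203) (nat_lit 158) (nat_lit 209))) (PT.nd (nat_lit 78) (PT.lf (nat_lit 22952) (nat_lit 6) (nat_lit 302) (nat_lit 3) (nat_lit 204) (nat_lit 158) (nat_lit 208)) (PT.lf (nat_lit 23028) (nat_lit 6) (nat_lit 303) (nat_lit 3) (nat_lit 205) (nat_lit 158) (nat_lit 207))))))))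
noncomputable def pc9 : PT := (PT.nd (nat_lit 117858) (PT.nd (nat_lit 58968) (PT.nd (nat_lit 546) (PT.nd (nat_lit 234) (PT.nd (nat_lit 78) (PT.lf (nat_lit 23104) (nat_lit 3) (nat_lit 304) (nat_lit 1) (nat_lit 206) (nat_lit 158) (nat_lit 206)) (PT.nd (nat_lit 78) (PT.lf (nat_lit 23028) (nat_lit 6) (nat_lit 303) (nat_lit 1) (nat_lit 207) (nat_lit 158) (nat_lit 205)) (PT.lf (nat_lit 22952) (nat_lit 6) (nat_lit 302) (nat_lit 1) (nat_lit 208) (nat_lit 158) (nat_lit 204)))) (PT.nd (nat_lit 156) (PT.nd (nat_lit 78) (PT.lf (nat_lit 22876) (nat_lit 6) (nat_lit 301) (nat_lit 1) (nat_lit 209) (nat_lit 158) (nat_lit 203)) (PT.lf (nat_lit 22800) (nat_lit 6) (nat_lit 300) (nat_lit 1) (nat_lit 210) (nat_lit 158) (nat_lit 202))) (PT.nd (nat_lit 78) (PT.lf (nat_lit 22724) (nat_lit 6) (nat_lit 299) (nat_lit 1) (nat_lit 211) (nat_lit 158) (nat_lit 201)) (PT.lf (nat_lit 22648) (nat_lit 6) (nat_lit 298) (nat_lit 1) (nat_lit 212) (nat_lit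 158) (nat_lit 200))))) (PT.nd (nat_lit 58110) (PT.nd (nat_lit 156) (PT.nd (nat_lit 78) (PT.lf (nat_lit 22572) (nat_lit 6) (nat_lit 297) (nat_lit 1) (nat_lit 213) (nat_lit 158) (nat_lit 199)) (PT.lf (nat_lit 22496) (nat_lit 6) (nat_lit 296) (nat_lit 1) (nat_lit 214) (nat_lit 158) (nat_lit 198))) (PT.nd (nat_lit 57876) (PT.lf (nat_lit 22420) (nat_lit 6) (nat_lit 295) (nat_lit 1) (nat_lit 215) (nat_lit 158) (nat_lit 197)) (PT.lf (nat_lit 23180) (nat_lit 6) (nat_lit 305) (nat_lit 3) (nat_lit 196) (nat_lit 159) (nat_lit 215)))) (PT.nd (nat_lit 156) (PT.nd (nat_lit 78) (PT.lf (nat_lit 23256) (nat_lit 6) (nat_lit 306) (nat_lit 3) (nat_lit 197) (nat_lit 159) (nat_lit 214)) (PT.lf (nat_lit 23332) (nat_lit 6) (nat_lit 307) (nat_lit 3) (nat_lit 198) (nat_lit 159) (nat_lit 213))) (PT.nd (nat_lit 78) (PT.lf (nat_lit 23408) (nat_lit 6) (nat_lit 308) (nat_lit 3) (nat_lit 199) (nat_lit 159) (nat_lit 212)) (PT.lf (nat_lit 23484) (nat_lit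 6) (nat_lit 309) (nat_lit 3) (nat_lit 200) (nat_lit 159) (nat_lit 211)))))) (PT.nd (nat_lit 546) (PT.nd (nat_lit 234) (PT.nd (nat_lit 78) (PT.lf (nat_lit 23560) (nat_lit 6) (nat_lit 310) (nat_lit 3) (nat_lit 201) (nat_lit 159) (nat_lit 210)) (PT.nd (nat_lit 78) (PT.lf (nat_lit 23636) (nat_lit 6) (nat_lit 311) (nat_lit 3) (nat_lit 202) (nat_lit 159) (nat_lit 209)) (PT.lf (nat_lit 23712) (nat_lit 6) (nat_lit 312) (nat_lit 3) (nat_lit 203) (nat_lit 159) (nat_lit 208)))) (PT.nd (nat_lit 156) (PT.nd (nat_lit 78) (PT.lf (nat_lit 23788) (nat_lit 6) (nat_lit 313) (nat_lit 3) (nat_lit 204) (nat_lit 159) (nat_lit 207)) (PT.lf (nat_lit 23864) (nat_lit 6) (nat_lit 314) (nat_lit 3) (nat_lit 205) (nat_lit 159) (nat_lit 206))) (PT.nd (nat_lit 78) (PT.lf (nat_lit 23864) (nat_lit 6) (nat_lit 314) (nat_lit 1) (nat_lit 206) (nat_lit 159) (nat_lit 205)) (PT.lf (nat_lit 23788) (nat_lit 6) (nat_lit 313) (nat_lit 1) (nat_lit 207) (nat_lit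 159) (nat_lit 204))))) (PT.nd (nat_lit 312) (PT.nd (nat_lit 156) (PT.nd (nat_lit 78) (PT.lf (nat_lit 23712) (nat_lit 6) (nat_lit 312) (nat_lit 1) (nat_lit 208) (nat_lit 159) (nat_lit 203)) (PT.lf (nat_lit 23636) (nat_lit 6) (nat_lit 311) (nat_lit 1) (nat_lit 209) (nat_lit 159) (nat_lit 202))) (PT.nd (nat_lit 78) (PT.lf (nat_lit 23560) (nat_lit 6) (nat_lit 310) (nat_lit 1) (nat_lit 210) (nat_lit 159) (nat_lit 201)) (PT.lf (nat_lit 23484) (nat_lit 6) (nat_lit 309) (nat_lit 1) (nat_lit 211) (nat_lit 159) (nat_lit 200)))) (PT.nd (nat_lit 156) (PT.nd (nat_lit 78) (PT.lf (nat_lit 23408) (nat_lit 6) (nat_lit 308) (nat_lit 1) (nat_lit 212) (nat_lit 159) (nat_lit 199)) (PT.lf (nat_lit 23332) (nat_lit 6) (nat_lit 307) (nat_lit 1) (nat_lit 213) (nat_lit 159) (nat_lit 198))) (PT.nd (nat_lit 78) (PT.lf (nat_lit 23256) (nat_lit 6) (nat_lit 306) (nat_lit 1) (nat_lit 214) (nat_lit 159) (nat_lit 197)) (PT.lf (nat_lit 23180) (nat_lit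 6) (nat_lit 305) (nat_lit 1) (nat_lit 215) (nat_lit 159) (nat_lit 196))))))) (PT.nd (nat_lit 1170) (PT.nd (nat_lit 546) (PT.nd (nat_lit 234) (PT.nd (nat_lit 78) (PT.lf (nat_lit 23940) (nat_lit 6) (nat_lit 315) (nat_lit 3) (nat_lit 195) (nat_lit 160) (nat_lit 215)) (PT.nd (nat_lit 78) (PT.lf (nat_lit 24016) (nat_lit 6) (nat_lit 316) (nat_lit 3) (nat_lit 196) (nat_lit 160) (nat_lit 214)) (PT.lf (nat_lit 24092) (nat_lit 6) (nat_lit 317) (nat_lit 3) (nat_lit 197) (nat_lit 160) (nat_lit 213)))) (PT.nd (nat_lit 156) (PT.nd (nat_lit 78) (PT.lf (nat_lit 24168) (nat_lit 6) (nat_lit 318) (nat_lit 3) (nat_lit 198) (nat_lit 160) (nat_lit 212)) (PT.lf (nat_lit 24244) (nat_lit 6) (nat_lit 319) (nat_lit 3) (nat_lit 199) (nat_lit 160) (nat_lit 211))) (PT.nd (nat_lit 78) (PT.lf (nat_lit 24320) (nat_lit 6) (nat_lit 320) (nat_lit 3) (nat_lit 200) (nat_lit 160) (nat_lit 210)) (PT.lf (nat_lit 24396) (nat_lit 6) (nat_lit 321) (nat_lit 3)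 (nat_lit 201) (nat_lit 160) (nat_lit 209))))) (PT.nd (nat_lit 312) (PT.nd (nat_lit 156) (PT.nd (nat_lit 78) (PT.lf (nat_lit 24472) (nat_lit 6) (nat_lit 322) (nat_lit 3) (nat_lit 202) (nat_lit 160) (nat_lit 208)) (PT.lf (nat_lit 24548) (nat_lit 6) (nat_lit 323) (nat_lit 3) (nat_lit 203) (nat_lit 160) (nat_lit 207))) (PT.nd (nat_lit 78) (PT.lf (nat_lit 24624) (nat_lit 6) (nat_lit 324) (nat_lit 3) (nat_lit 204) (nat_lit 160) (nat_lit 206)) (PT.lf (nat_lit 24700) (nat_lit 3) (nat_lit 325) (nat_lit 1) (nat_lit 205) (nat_lit 160) (nat_lit 205)))) (PT.nd (nat_lit 156) (PT.nd (nat_lit 78) (PT.lf (nat_lit 24624) (nat_lit 6) (nat_lit 324) (nat_lit 1) (nat_lit 206) (nat_lit 160) (nat_lit 204)) (PT.lf (nat_lit 24548) (nat_lit 6) (nat_lit 323) (nat_lit 1) (nat_lit 207) (nat_lit 160) (nat_lit 203))) (PT.nd (nat_lit 78) (PT.lf (nat_lit 24472) (nat_lit 6) (nat_lit 322) (nat_lit 1) (nat_lit 208) (nat_lit 160) (nat_lit 202)) (PT.lf (nat_lit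 24396) (nat_lit 6) (nat_lit 321) (nat_lit 1) (nat_lit 209) (nat_lit 160) (nat_lit 201)))))) (PT.nd (nat_lit 58188) (PT.nd (nat_lit 234) (PT.nd (nat_lit 78) (PT.lf (nat_lit 24320) (nat_lit 6) (nat_lit 320) (nat_lit 1) (nat_lit 210) (nat_lit 160) (nat_lit 200)) (PT.nd (nat_lit 78) (PT.lf (nat_lit 24244) (nat_lit 6) (nat_lit 319) (nat_lit 1) (nat_lit 211) (nat_lit 160) (nat_lit 199)) (PT.lf (nat_lit 24168) (nat_lit 6) (nat_lit 318) (nat_lit 1) (nat_lit 212) (nat_lit 160) (nat_lit 198)))) (PT.nd (nat_lit 156) (PT.nd (nat_lit 78) (PT.lf (nat_lit 24092) (nat_lit 6) (nat_lit 317) (nat_lit 1) (nat_lit 213) (nat_lit 160) (nat_lit 197)) (PT.lf (nat_lit 24016) (nat_lit 6) (nat_lit 316) (nat_lit 1) (nat_lit 214) (nat_lit 160) (nat_lit 196))) (PT.nd (nat_lit 57720) (PT.lf (nat_lit 23940) (nat_lit 6) (nat_lit 315) (nat_lit 1) (nat_lit 215) (nat_lit 160) (nat_lit 195)) (PT.lf (nat_lit 24776) (nat_lit 6) (nat_lit 326) (nat_lit 3) (nat_lit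 194) (nat_lit 161) (nat_lit 215))))) (PT.nd (nat_lit 312) (PT.nd (nat_lit 156) (PT.nd (nat_lit 78) (PT.lf (nat_lit 24852) (nat_lit 6) (nat_lit 327) (nat_lit 3) (nat_lit 195) (nat_lit 161) (nat_lit 214)) (PT.lf (nat_lit 24928) (nat_lit 6) (nat_lit 328) (nat_lit 3) (nat_lit 196) (nat_lit 161) (nat_lit 213))) (PT.nd (nat_lit 78) (PT.lf (nat_lit 25004) (nat_lit 6) (nat_lit 329) (nat_lit 3) (nat_lit 197) (nat_lit 161) (nat_lit 212)) (PT.lf (nat_lit 25080) (nat_lit 6) (nat_lit 330) (nat_lit 3) (nat_lit 198) (nat_lit 161) (nat_lit 211)))) (PT.nd (nat_lit 156) (PT.nd (nat_lit 78) (PT.lf (nat_lit 25156) (nat_lit 6) (nat_lit 331) (nat_lit 3) (nat_lit 199) (nat_lit 161) (nat_lit 210)) (PT.lf (nat_lit 25232) (nat_lit 6) (nat_lit 332) (nat_lit 3) (nat_lit 200) (nat_lit 161) (nat_lit 209))) (PT.nd (nat_lit 78) (PT.lf (nat_lit 25308) (nat_lit 6) (nat_lit 333) (nat_lit 3) (nat_lit 201) (nat_lit 161) (nat_lit 208)) (PT.lf (nat_lit 25384)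 (nat_lit 6) (nat_lit 334) (nat_lit 3) (nat_lit 202) (nat_lit 161) (nat_lit 207))))))))
noncomputable def pc10 : PT := (PT.nd (nat_lit 59982) (PT.nd (nat_lit 58812) (PT.nd (nat_lit 546) (PT.nd (nat_lit 234) (PT.nd (nat_lit 78) (PT.lf (nat_lit 25460) (nat_lit 6) (nat_lit 335) (nat_lit 3) (nat_lit 203) (nat_lit 161) (nat_lit 206)) (PT.nd (nat_lit 78) (PT.lf (nat_lit 25536) (nat_lit 6) (nat_lit 336) (nat_lit 3) (nat_lit 204) (nat_lit 161) (nat_lit 205)) (PT.lf (nat_lit 25536) (nat_lit 6) (nat_lit 336) (nat_lit 1) (nat_lit 205) (nat_lit 161) (nat_lit 204)))) (PT.nd (nat_lit 156) (PT.nd (nat_lit 78) (PT.lf (nat_lit 25460) (nat_lit 6) (nat_lit 335) (nat_lit 1) (nat_lit 206) (nat_lit 161) (nat_lit 203)) (PT.lf (nat_lit 25384) (nat_lit 6) (nat_lit 334) (nat_lit 1) (nat_lit 207) (nat_lit 161) (nat_lit 202))) (PT.nd (nat_lit 78) (PT.lf (nat_lit 25308) (nat_lit 6) (nat_lit 333) (nat_lit 1) (nat_lit 208) (nat_lit 161) (nat_lit 201))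 (PT.lf (nat_lit 25232) (nat_lit 6) (nat_lit 332) (nat_lit 1) (nat_lit 209) (nat_lit 161) (nat_lit 200))))) (PT.nd (nat_lit 312) (PT.nd (nat_lit 156) (PT.nd (nat_lit 78) (PT.lf (nat_lit 25156) (nat_lit 6) (nat_lit 331) (nat_lit 1) (nat_lit 210) (nat_lit 161) (nat_lit 199)) (PT.lf (nat_lit 25080) (nat_lit 6) (nat_lit 330) (nat_lit 1) (nat_lit 211) (nat_lit 161) (nat_lit 198))) (PT.nd (nat_lit 78) (PT.lf (nat_lit 25004) (nat_lit 6) (nat_lit 329) (nat_lit 1) (nat_lit 212) (nat_lit 161) (nat_lit 197)) (PT.lf (nat_lit 24928) (nat_lit 6) (nat_lit 328) (nat_lit 1) (nat_lit 213) (nat_lit 161) (nat_lit 196)))) (PT.nd (nat_lit 57798) (PT.nd (nat_lit 78) (PT.lf (nat_lit 24852) (nat_lit 6) (nat_lit 327) (nat_lit 1) (nat_lit 214) (nat_lit 161) (nat_lit 195)) (PT.lf (nat_lit 24776) (nat_lit 6) (nat_lit 326) (nat_lit 1) (nat_lit 215) (nat_lit 161) (nat_lit 194))) (PT.nd (nat_lit 78) (PT.lf (nat_lit 25688) (nat_lit 6) (nat_lit 338) (nat_lit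 3) (nat_lit 194) (nat_lit 162) (nat_lit 214)) (PT.lf (nat_lit 25764) (nat_lit 6) (nat_lit 339) (nat_lit 3) (nat_lit 195) (nat_lit 162) (nat_lit 213)))))) (PT.nd (nat_lit 546) (PT.nd (nat_lit 234) (PT.nd (nat_lit 78) (PT.lf (nat_lit 25840) (nat_lit 6) (nat_lit 340) (nat_lit 3) (nat_lit 196) (nat_lit 162) (nat_lit 212)) (PT.nd (nat_lit 78) (PT.lf (nat_lit 25916) (nat_lit 6) (nat_lit 341) (nat_lit 3) (nat_lit 197) (nat_lit 162) (nat_lit 211)) (PT.lf (nat_lit 25992) (nat_lit 6) (nat_lit 342) (nat_lit 3) (nat_lit 198) (nat_lit 162) (nat_lit 210)))) (PT.nd (nat_lit 156) (PT.nd (nat_lit 78) (PT.lf (nat_lit 26068) (nat_lit 6) (nat_lit 343) (nat_lit 3) (nat_lit 199) (nat_lit 162) (nat_lit 209)) (PT.lf (nat_lit 26144) (nat_lit 6) (nat_lit 344) (nat_lit 3) (nat_lit 200) (nat_lit 162) (nat_lit 208))) (PT.nd (nat_lit 78) (PT.lf (nat_lit 26220) (nat_lit 6) (nat_lit 345) (nat_lit 3) (nat_lit 201) (nat_lit 162) (nat_lit 207)) (PT.lf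 (nat_lit 26296) (nat_lit 6) (nat_lit 346) (nat_lit 3) (nat_lit 202) (nat_lit 162) (nat_lit 206))))) (PT.nd (nat_lit 312) (PT.nd (nat_lit 156) (PT.nd (nat_lit 78) (PT.lf (nat_lit 26372) (nat_lit 6) (nat_lit 347) (nat_lit 3) (nat_lit 203) (nat_lit 162) (nat_lit 205)) (PT.lf (nat_lit 26448) (nat_lit 3) (nat_lit 348) (nat_lit 1) (nat_lit 204) (nat_lit 162) (nat_lit 204))) (PT.nd (nat_lit 78) (PT.lf (nat_lit 26372) (nat_lit 6) (nat_lit 347) (nat_lit 1) (nat_lit 205) (nat_lit 162) (nat_lit 203)) (PT.lf (nat_lit 26296) (nat_lit 6) (nat_lit 346) (nat_lit 1) (nat_lit 206) (nat_lit 162) (nat_lit 202)))) (PT.nd (nat_lit 156) (PT.nd (nat_lit 78) (PT.lf (nat_lit 26220) (nat_lit 6) (nat_lit 345) (nat_lit 1) (nat_lit 207) (nat_lit 162) (nat_lit 201)) (PT.lf (nat_lit 26144) (nat_lit 6) (nat_lit 344) (nat_lit 1) (nat_lit 208) (nat_lit 162) (nat_lit 200))) (PT.nd (nat_lit 78) (PT.lf (nat_lit 26068) (nat_lit 6) (nat_lit 343) (nat_lit 1)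 (nat_lit 209) (nat_lit 162) (nat_lit 199)) (PT.lf (nat_lit 25992) (nat_lit 6) (nat_lit 342) (nat_lit 1) (nat_lit 210) (nat_lit 162) (nat_lit 198))))))) (PT.nd (nat_lit 58812) (PT.nd (nat_lit 58188) (PT.nd (nat_lit 234) (PT.nd (nat_lit 78) (PT.lf (nat_lit 25916) (nat_lit 6) (nat_lit 341) (nat_lit 1) (nat_lit 211) (nat_lit 162) (nat_lit 197)) (PT.nd (nat_lit 78) (PT.lf (nat_lit 25840) (nat_lit 6) (nat_lit 340) (nat_lit 1) (nat_lit 212) (nat_lit 162) (nat_lit 196)) (PT.lf (nat_lit 25764) (nat_lit 6) (nat_lit 339) (nat_lit 1) (nat_lit 213) (nat_lit 162) (nat_lit 195)))) (PT.nd (nat_lit 57798) (PT.nd (nat_lit 57720) (PT.lf (nat_lit 25688) (nat_lit 6) (nat_lit 338) (nat_lit 1) (nat_lit 214) (nat_lit 162) (nat_lit 194)) (PT.lf (nat_lit 26524) (nat_lit 6) (nat_lit 349) (nat_lit 3) (nat_lit 193) (nat_lit 163) (nat_lit 214))) (PT.nd (nat_lit 78) (PT.lf (nat_lit 26600) (nat_lit 6) (nat_lit 350) (nat_lit 3) (nat_lit 194) (nat_lit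 163) (nat_lit 213)) (PT.lf (nat_lit 26676) (nat_lit 6) (nat_lit 351) (nat_lit 3) (nat_lit 195) (nat_lit 163) (nat_lit 212))))) (PT.nd (nat_lit 312) (PT.nd (nat_lit 156) (PT.nd (nat_lit 78) (PT.lf (nat_lit 26752) (nat_lit 6) (nat_lit 352) (nat_lit 3) (nat_lit 196) (nat_lit 163) (nat_lit 211)) (PT.lf (nat_lit 26828) (nat_lit 6) (nat_lit 353) (nat_lit 3) (nat_lit 197) (nat_lit 163) (nat_lit 210))) (PT.nd (nat_lit 78) (PT.lf (nat_lit 26904) (nat_lit 6) (nat_lit 354) (nat_lit 3) (nat_lit 198) (nat_lit 163) (nat_lit 209)) (PT.lf (nat_lit 26980) (nat_lit 6) (nat_lit 355) (nat_lit 3) (nat_lit 199) (nat_lit 163) (nat_lit 208)))) (PT.nd (nat_lit 156) (PT.nd (nat_lit 78) (PT.lf (nat_lit 27056) (nat_lit 6) (nat_lit 356) (nat_lit 3) (nat_lit 200) (nat_lit 163) (nat_lit 207)) (PT.lf (nat_lit 27132) (nat_lit 6) (nat_lit 357) (nat_lit 3) (nat_lit 201) (nat_lit 163) (nat_lit 206))) (PT.nd (nat_lit 78) (PT.lf (nat_lit 27208) (nat_lit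 6) (nat_lit 358) (nat_lit 3) (nat_lit 202) (nat_lit 163) (nat_lit 205)) (PT.lf (nat_lit 27284) (nat_lit 6) (nat_lit 359) (nat_lit 3) (nat_lit 203) (nat_lit 163) (nat_lit 204)))))) (PT.nd (nat_lit 546) (PT.nd (nat_lit 234) (PT.nd (nat_lit 78) (PT.lf (nat_lit 27284) (nat_lit 6) (nat_lit 359) (nat_lit 1) (nat_lit 204) (nat_lit 163) (nat_lit 203)) (PT.nd (nat_lit 78) (PT.lf (nat_lit 27208) (nat_lit 6) (nat_lit 358) (nat_lit 1) (nat_lit 205) (nat_lit 163) (nat_lit 202)) (PT.lf (nat_lit 27132) (nat_lit 6) (nat_lit 357) (nat_lit 1) (nat_lit 206) (nat_lit 163) (nat_lit 201)))) (PT.nd (nat_lit 156) (PT.nd (nat_lit 78) (PT.lf (nat_lit 27056) (nat_lit 6) (nat_lit 356) (nat_lit 1) (nat_lit 207) (nat_lit 163) (nat_lit 200)) (PT.lf (nat_lit 26980) (nat_lit 6) (nat_lit 355) (nat_lit 1) (nat_lit 208) (nat_lit 163) (nat_lit 199))) (PT.nd (nat_lit 78) (PT.lf (nat_lit 26904) (nat_lit 6) (nat_lit 354) (nat_lit 1) (nat_lit 209) (nat_lit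 163) (nat_lit 198)) (PT.lf (nat_lit 26828) (nat_lit 6) (nat_lit 353) (nat_lit 1) (nat_lit 210) (nat_lit 163) (nat_lit 197))))) (PT.nd (nat_lit 57876) (PT.nd (nat_lit 156) (PT.nd (nat_lit 78) (PT.lf (nat_lit 26752) (nat_lit 6) (nat_lit 352) (nat_lit 1) (nat_lit 211) (nat_lit 163) (nat_lit 196)) (PT.lf (nat_lit 26676) (nat_lit 6) (nat_lit 351) (nat_lit 1) (nat_lit 212) (nat_lit 163) (nat_lit 195))) (PT.nd (nat_lit 78) (PT.lf (nat_lit 26600) (nat_lit 6) (nat_lit 350) (nat_lit 1) (nat_lit 213) (nat_lit 163) (nat_lit 194)) (PT.lf (nat_lit 26524) (nat_lit 6) (nat_lit 349) (nat_lit 1) (nat_lit 214) (nat_lit 163) (nat_lit 193)))) (PT.nd (nat_lit 156) (PT.nd (nat_lit 78) (PT.lf (nat_lit 27360) (nat_lit 6) (nat_lit 360) (nat_lit 3) (nat_lit 192) (nat_lit 164) (nat_lit 214)) (PT.lf (nat_lit 27436) (nat_lit 6) (nat_lit 361) (nat_lit 3) (nat_lit 193) (nat_lit 164) (nat_lit 213))) (PT.nd (nat_lit 78) (PT.lf (nat_lit 27512) (nat_lit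 6) (nat_lit 362) (nat_lit 3) (nat_lit 194) (nat_lit 164) (nat_lit 212)) (PT.lf (nat_lit 27588) (nat_lit 6) (nat_lit 363) (nat_lit 3) (nat_lit 195) (nat_lit 164) (nat_lit 211))))))))
noncomputable def pc11 : PT := (PT.nd (nat_lit 59826) (PT.nd (nat_lit 1170) (PT.nd (nat_lit 546) (PT.nd (nat_lit 234) (PT.nd (nat_lit 78) (PT.lf (nat_lit 27664) (nat_lit 6) (nat_lit 364) (nat_lit 3) (nat_lit 196) (nat_lit 164) (nat_lit 210)) (PT.nd (nat_lit 78) (PT.lf (nat_lit 27740) (nat_lit 6) (nat_lit 365) (nat_lit 3) (nat_lit 197) (nat_lit 164) (nat_lit 209)) (PT.lf (nat_lit 27816) (nat_lit 6) (nat_lit 366) (nat_lit 3) (nat_lit 198) (nat_lit 164) (nat_lit 208)))) (PT.nd (nat_lit 156) (PT.nd (nat_lit 78) (PT.lf (nat_lit 27892) (nat_lit 6) (nat_lit 367) (nat_lit 3) (nat_lit 199) (nat_lit 164) (nat_lit 207)) (PT.lf (nat_lit 27968) (nat_lit 6) (nat_lit 368) (nat_lit 3) (nat_lit 200) (nat_lit 164) (nat_lit 206))) (PT.nd (nat_lit 78) (PT.lf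 (nat_lit 28044) (nat_lit 6) (nat_lit 369) (nat_lit 3) (nat_lit 201) (nat_lit 164) (nat_lit 205)) (PT.lf (nat_lit 28120) (nat_lit 6) (nat_lit 370) (nat_lit 3) (nat_lit 202) (nat_lit 164) (nat_lit 204))))) (PT.nd (nat_lit 312) (PT.nd (nat_lit 156) (PT.nd (nat_lit 78) (PT.lf (nat_lit 28196) (nat_lit 3) (nat_lit 371) (nat_lit 1) (nat_lit 203) (nat_lit 164) (nat_lit 203)) (PT.lf (nat_lit 28120) (nat_lit 6) (nat_lit 370) (nat_lit 1) (nat_lit 204) (nat_lit 164) (nat_lit 202))) (PT.nd (nat_lit 78) (PT.lf (nat_lit 28044) (nat_lit 6) (nat_lit 369) (nat_lit 1) (nat_lit 205) (nat_lit 164) (nat_lit 201)) (PT.lf (nat_lit 27968) (nat_lit 6) (nat_lit 368) (nat_lit 1) (nat_lit 206) (nat_lit 164) (nat_lit 200)))) (PT.nd (nat_lit 156) (PT.nd (nat_lit 78) (PT.lf (nat_lit 27892) (nat_lit 6) (nat_lit 367) (nat_lit 1) (nat_lit 207) (nat_lit 164) (nat_lit 199)) (PT.lf (nat_lit 27816) (nat_lit 6) (nat_lit 366) (nat_lit 1) (nat_lit 208) (nat_lit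 164) (nat_lit 198))) (PT.nd (nat_lit 78) (PT.lf (nat_lit 27740) (nat_lit 6) (nat_lit 365) (nat_lit 1) (nat_lit 209) (nat_lit 164) (nat_lit 197)) (PT.lf (nat_lit 27664) (nat_lit 6) (nat_lit 364) (nat_lit 1) (nat_lit 210) (nat_lit 164) (nat_lit 196)))))) (PT.nd (nat_lit 58032) (PT.nd (nat_lit 234) (PT.nd (nat_lit 78) (PT.lf (nat_lit 27588) (nat_lit 6) (nat_lit 363) (nat_lit 1) (nat_lit 211) (nat_lit 164) (nat_lit 195)) (PT.nd (nat_lit 78) (PT.lf (nat_lit 27512) (nat_lit 6) (nat_lit 362) (nat_lit 1) (nat_lit 212) (nat_lit 164) (nat_lit 194)) (PT.lf (nat_lit 27436) (nat_lit 6) (nat_lit 361) (nat_lit 1) (nat_lit 213) (nat_lit 164) (nat_lit 193)))) (PT.nd (nat_lit 57642) (PT.nd (nat_lit 57564) (PT.lf (nat_lit 27360) (nat_lit 6) (nat_lit 360) (nat_lit 1) (nat_lit 214) (nat_lit 164) (nat_lit 192)) (PT.lf (nat_lit 28272) (nat_lit 6) (nat_lit 372) (nat_lit 3) (nat_lit 191) (nat_lit 165) (nat_lit 214))) (PT.nd (nat_lit 78) (PT.lf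 (nat_lit 28348) (nat_lit 6) (nat_lit 373) (nat_lit 3) (nat_lit 192) (nat_lit 165) (nat_lit 213)) (PT.lf (nat_lit 28424) (nat_lit 6) (nat_lit 374) (nat_lit 3) (nat_lit 193) (nat_lit 165) (nat_lit 212))))) (PT.nd (nat_lit 312) (PT.nd (nat_lit 156) (PT.nd (nat_lit 78) (PT.lf (nat_lit 28500) (nat_lit 6) (nat_lit 375) (nat_lit 3) (nat_lit 194) (nat_lit 165) (nat_lit 211)) (PT.lf (nat_lit 28576) (nat_lit 6) (nat_lit 376) (nat_lit 3) (nat_lit 195) (nat_lit 165) (nat_lit 210))) (PT.nd (nat_lit 78) (PT.lf (nat_lit 28652) (nat_lit 6) (nat_lit 377) (nat_lit 3) (nat_lit 196) (nat_lit 165) (nat_lit 209)) (PT.lf (nat_lit 28728) (nat_lit 6) (nat_lit 378) (nat_lit 3) (nat_lit 197) (nat_lit 165) (nat_lit 208)))) (PT.nd (nat_lit 156) (PT.nd (nat_lit 78) (PT.lf (nat_lit 28804) (nat_lit 6) (nat_lit 379) (nat_lit 3) (nat_lit 198) (nat_lit 165) (nat_lit 207)) (PT.lf (nat_lit 28880) (nat_lit 6) (nat_lit 380) (nat_lit 3) (nat_lit 199) (nat_lit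 165) (nat_lit 206))) (PT.nd (nat_lit 78) (PT.lf (nat_lit 28956) (nat_lit 6) (nat_lit 381) (nat_lit 3) (nat_lit 200) (nat_lit 165) (nat_lit 205)) (PT.lf (nat_lit 29032) (nat_lit 6) (nat_lit 382) (nat_lit 3) (nat_lit 201) (nat_lit 165) (nat_lit 204))))))) (PT.nd (nat_lit 58578) (PT.nd (nat_lit 546) (PT.nd (nat_lit 234) (PT.nd (nat_lit 78) (PT.lf (nat_lit 29108) (nat_lit 6) (nat_lit 383) (nat_lit 3) (nat_lit 202) (nat_lit 165) (nat_lit 203)) (PT.nd (nat_lit 78) (PT.lf (nat_lit 29108) (nat_lit 6) (nat_lit 383) (nat_lit 1) (nat_lit 203) (nat_lit 165) (nat_lit 202)) (PT.lf (nat_lit 29032) (nat_lit 6) (nat_lit 382) (nat_lit 1) (nat_lit 204) (nat_lit 165) (nat_lit 201)))) (PT.nd (nat_lit 156) (PT.nd (nat_lit 78) (PT.lf (nat_lit 28956) (nat_lit 6) (nat_lit 381) (nat_lit 1) (nat_lit 205) (nat_lit 165) (nat_lit 200)) (PT.lf (nat_lit 28880) (nat_lit 6) (nat_lit 380) (nat_lit 1) (nat_lit 206) (nat_lit 165) (nat_lit 199))) (PT.nd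 (nat_lit 78) (PT.lf (nat_lit 28804) (nat_lit 6) (nat_lit 379) (nat_lit 1) (nat_lit 207) (nat_lit 165) (nat_lit 198)) (PT.lf (nat_lit 28728) (nat_lit 6) (nat_lit 378) (nat_lit 1) (nat_lit 208) (nat_lit 165) (nat_lit 197))))) (PT.nd (nat_lit 312) (PT.nd (nat_lit 156) (PT.nd (nat_lit 78) (PT.lf (nat_lit 28652) (nat_lit 6) (nat_lit 377) (nat_lit 1) (nat_lit 209) (nat_lit 165) (nat_lit 196)) (PT.lf (nat_lit 28576) (nat_lit 6) (nat_lit 376) (nat_lit 1) (nat_lit 210) (nat_lit 165) (nat_lit 195))) (PT.nd (nat_lit 78) (PT.lf (nat_lit 28500) (nat_lit 6) (nat_lit 375) (nat_lit 1) (nat_lit 211) (nat_lit 165) (nat_lit 194)) (PT.lf (nat_lit 28424) (nat_lit 6) (nat_lit 374) (nat_lit 1) (nat_lit 212) (nat_lit 165) (nat_lit 193)))) (PT.nd (nat_lit 57564) (PT.nd (nat_lit 78) (PT.lf (nat_lit 28348) (nat_lit 6) (nat_lit 373) (nat_lit 1) (nat_lit 213) (nat_lit 165) (nat_lit 192)) (PT.lf (nat_lit 28272) (nat_lit 6) (nat_lit 372) (nat_lit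 1) (nat_lit 214) (nat_lit 165) (nat_lit 191))) (PT.nd (nat_lit 78) (PT.lf (nat_lit 29336) (nat_lit 6) (nat_lit 386) (nat_lit 3) (nat_lit 190) (nat_lit 166) (nat_lit 214)) (PT.lf (nat_lit 29412) (nat_lit 6) (nat_lit 387) (nat_lit 3) (nat_lit 191) (nat_lit 166) (nat_lit 213)))))) (PT.nd (nat_lit 624) (PT.nd (nat_lit 312) (PT.nd (nat_lit 156) (PT.nd (nat_lit 78) (PT.lf (nat_lit 29488) (nat_lit 6) (nat_lit 388) (nat_lit 3) (nat_lit 192) (nat_lit 166) (nat_lit 212)) (PT.lf (nat_lit 29564) (nat_lit 6) (nat_lit 389) (nat_lit 3) (nat_lit 193) (nat_lit 166) (nat_lit 211))) (PT.nd (nat_lit 78) (PT.lf (nat_lit 29640) (nat_lit 6) (nat_lit 390) (nat_lit 3) (nat_lit 194) (nat_lit 166) (nat_lit 210)) (PT.lf (nat_lit 29716) (nat_lit 6) (nat_lit 391) (nat_lit 3) (nat_lit 195) (nat_lit 166) (nat_lit 209)))) (PT.nd (nat_lit 156) (PT.nd (nat_lit 78) (PT.lf (nat_lit 29792) (nat_lit 6) (nat_lit 392) (nat_lit 3) (nat_lit 196) (nat_lit 166)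 (nat_lit 208)) (PT.lf (nat_lit 29868) (nat_lit 6) (nat_lit 393) (nat_lit 3) (nat_lit 197) (nat_lit 166) (nat_lit 207))) (PT.nd (nat_lit 78) (PT.lf (nat_lit 29944) (nat_lit 6) (nat_lit 394) (nat_lit 3) (nat_lit 198) (nat_lit 166) (nat_lit 206)) (PT.lf (nat_lit 30020) (nat_lit 6) (nat_lit 395) (nat_lit 3) (nat_lit 199) (nat_lit 166) (nat_lit 205))))) (PT.nd (nat_lit 312) (PT.nd (nat_lit 156) (PT.nd (nat_lit 78) (PT.lf (nat_lit 30096) (nat_lit 6) (nat_lit 396) (nat_lit 3) (nat_lit 200) (nat_lit 166) (nat_lit 204)) (PT.lf (nat_lit 30172) (nat_lit 6) (nat_lit 397) (nat_lit 3) (nat_lit 201) (nat_lit 166) (nat_lit 203))) (PT.nd (nat_lit 78) (PT.lf (nat_lit 30248) (nat_lit 3) (nat_lit 398) (nat_lit 1) (nat_lit 202) (nat_lit 166) (nat_lit 202)) (PT.lf (nat_lit 30172) (nat_lit 6) (nat_lit 397) (nat_lit 1) (nat_lit 203) (nat_lit 166) (nat_lit 201)))) (PT.nd (nat_lit 156) (PT.nd (nat_lit 78) (PT.lf (nat_lit 30096) (nat_lit 6) (nat_lit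 396) (nat_lit 1) (nat_lit 204) (nat_lit 166) (nat_lit 200)) (PT.lf (nat_lit 30020) (nat_lit 6) (nat_lit 395) (nat_lit 1) (nat_lit 205) (nat_lit 166) (nat_lit 199))) (PT.nd (nat_lit 78) (PT.lf (nat_lit 29944) (nat_lit 6) (nat_lit 394) (nat_lit 1) (nat_lit 206) (nat_lit 166) (nat_lit 198)) (PT.lf (nat_lit 29868) (nat_lit 6) (nat_lit 393) (nat_lit 1) (nat_lit 207) (nat_lit 166) (nat_lit 197))))))))
noncomputable def pc12 : PT := (PT.nd (nat_lit 59670) (PT.nd (nat_lit 58500) (PT.nd (nat_lit 57876) (PT.nd (nat_lit 234) (PT.nd (nat_lit 78) (PT.lf (nat_lit 29792) (nat_lit 6) (nat_lit 392) (nat_lit 1) (nat_lit 208) (nat_lit 166) (nat_lit 196)) (PT.nd (nat_lit 78) (PT.lf (nat_lit 29716) (nat_lit 6) (nat_lit 391) (nat_lit 1) (nat_lit 209) (nat_lit 166) (nat_lit 195)) (PT.lf (nat_lit 29640) (nat_lit 6) (nat_lit 390) (nat_lit 1) (nat_lit 210) (nat_lit 166) (nat_lit 194)))) (PT.nd (nat_lit 156) (PT.nd (nat_lit 78) (PT.lf (nat_lit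 29564) (nat_lit 6) (nat_lit 389) (nat_lit 1) (nat_lit 211) (nat_lit 166) (nat_lit 193)) (PT.lf (nat_lit 29488) (nat_lit 6) (nat_lit 388) (nat_lit 1) (nat_lit 212) (nat_lit 166) (nat_lit 192))) (PT.nd (nat_lit 78) (PT.lf (nat_lit 29412) (nat_lit 6) (nat_lit 387) (nat_lit 1) (nat_lit 213) (nat_lit 166) (nat_lit 191)) (PT.lf (nat_lit 29336) (nat_lit 6) (nat_lit 386) (nat_lit 1) (nat_lit 214) (nat_lit 166) (nat_lit 190))))) (PT.nd (nat_lit 312) (PT.nd (nat_lit 156) (PT.nd (nat_lit 78) (PT.lf (nat_lit 29260) (nat_lit 6) (nat_lit 385) (nat_lit 3) (nat_lit 189) (nat_lit 167) (nat_lit 214)) (PT.lf (nat_lit 31160) (nat_lit 6) (nat_lit 410) (nat_lit 3) (nat_lit 190) (nat_lit 167) (nat_lit 213))) (PT.nd (nat_lit 78) (PT.lf (nat_lit 31236) (nat_lit 6) (nat_lit 411) (nat_lit 3) (nat_lit 191) (nat_lit 167) (nat_lit 212)) (PT.lf (nat_lit 31312) (nat_lit 6) (nat_lit 412) (nat_lit 3) (nat_lit 192) (nat_lit 167) (nat_lit 211)))) (PT.nd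 (nat_lit 156) (PT.nd (nat_lit 78) (PT.lf (nat_lit 31388) (nat_lit 6) (nat_lit 413) (nat_lit 3) (nat_lit 193) (nat_lit 167) (nat_lit 210)) (PT.lf (nat_lit 31464) (nat_lit 6) (nat_lit 414) (nat_lit 3) (nat_lit 194) (nat_lit 167) (nat_lit 209))) (PT.nd (nat_lit 78) (PT.lf (nat_lit 31540) (nat_lit 6) (nat_lit 415) (nat_lit 3) (nat_lit 195) (nat_lit 167) (nat_lit 208)) (PT.lf (nat_lit 31616) (nat_lit 6) (nat_lit 416) (nat_lit 3) (nat_lit 196) (nat_lit 167) (nat_lit 207)))))) (PT.nd (nat_lit 546) (PT.nd (nat_lit 234) (PT.nd (nat_lit 78) (PT.lf (nat_lit 31692) (nat_lit 6) (nat_lit 417) (nat_lit 3) (nat_lit 197) (nat_lit 167) (nat_lit 206)) (PT.nd (nat_lit 78) (PT.lf (nat_lit 31768) (nat_lit 6) (nat_lit 418) (nat_lit 3) (nat_lit 198) (nat_lit 167) (nat_lit 205)) (PT.lf (nat_lit 31844) (nat_lit 6) (nat_lit 419) (nat_lit 3) (nat_lit 199) (nat_lit 167) (nat_lit 204)))) (PT.nd (nat_lit 156) (PT.nd (nat_lit 78) (PT.lf (nat_lit 31920)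 (nat_lit 6) (nat_lit 420) (nat_lit 3) (nat_lit 200) (nat_lit 167) (nat_lit 203)) (PT.lf (nat_lit 31996) (nat_lit 6) (nat_lit 421) (nat_lit 3) (nat_lit 201) (nat_lit 167) (nat_lit 202))) (PT.nd (nat_lit 78) (PT.lf (nat_lit 31996) (nat_lit 6) (nat_lit 421) (nat_lit 1) (nat_lit 202) (nat_lit 167) (nat_lit 201)) (PT.lf (nat_lit 31920) (nat_lit 6) (nat_lit 420) (nat_lit 1) (nat_lit 203) (nat_lit 167) (nat_lit 200))))) (PT.nd (nat_lit 312) (PT.nd (nat_lit 156) (PT.nd (nat_lit 78) (PT.lf (nat_lit 31844) (nat_lit 6) (nat_lit 419) (nat_lit 1) (nat_lit 204) (nat_lit 167) (nat_lit 199)) (PT.lf (nat_lit 31768) (nat_lit 6) (nat_lit 418) (nat_lit 1) (nat_lit 205) (nat_lit 167) (nat_lit 198))) (PT.nd (nat_lit 78) (PT.lf (nat_lit 31692) (nat_lit 6) (nat_lit 417) (nat_lit 1) (nat_lit 206) (nat_lit 167) (nat_lit 197)) (PT.lf (nat_lit 31616) (nat_lit 6) (nat_lit 416) (nat_lit 1) (nat_lit 207) (nat_lit 167) (nat_lit 196)))) (PT.nd (nat_lit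 156) (PT.nd (nat_lit 78) (PT.lf (nat_lit 31540) (nat_lit 6) (nat_lit 415) (nat_lit 1) (nat_lit 208) (nat_lit 167) (nat_lit 195)) (PT.lf (nat_lit 31464) (nat_lit 6) (nat_lit 414) (nat_lit 1) (nat_lit 209) (nat_lit 167) (nat_lit 194))) (PT.nd (nat_lit 78) (PT.lf (nat_lit 31388) (nat_lit 6) (nat_lit 413) (nat_lit 1) (nat_lit 210) (nat_lit 167) (nat_lit 193)) (PT.lf (nat_lit 31312) (nat_lit 6) (nat_lit 412) (nat_lit 1) (nat_lit 211) (nat_lit 167) (nat_lit 192))))))) (PT.nd (nat_lit 58422) (PT.nd (nat_lit 57798) (PT.nd (nat_lit 57486) (PT.nd (nat_lit 78) (PT.lf (nat_lit 31236) (nat_lit 6) (nat_lit 411) (nat_lit 1) (nat_lit 212) (nat_lit 167) (nat_lit 191)) (PT.nd (nat_lit 78) (PT.lf (nat_lit 31160) (nat_lit 6) (nat_lit 410) (nat_lit 1) (nat_lit 213) (nat_lit 167) (nat_lit 190)) (PT.lf (nat_lit 29260) (nat_lit 6) (nat_lit 385) (nat_lit 1) (nat_lit 214) (nat_lit 167) (nat_lit 189)))) (PT.nd (nat_lit 156) (PT.nd (nat_lit 78)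 (PT.lf (nat_lit 29184) (nat_lit 6) (nat_lit 384) (nat_lit 3) (nat_lit 188) (nat_lit 168) (nat_lit 214)) (PT.lf (nat_lit 31084) (nat_lit 6) (nat_lit 409) (nat_lit 3) (nat_lit 189) (nat_lit 168) (nat_lit 213))) (PT.nd (nat_lit 78) (PT.lf (nat_lit 32908) (nat_lit 6) (nat_lit 433) (nat_lit 3) (nat_lit 190) (nat_lit 168) (nat_lit 212)) (PT.lf (nat_lit 32984) (nat_lit 6) (nat_lit 434) (nat_lit 3) (nat_lit 191) (nat_lit 168) (nat_lit 211))))) (PT.nd (nat_lit 312) (PT.nd (nat_lit 156) (PT.nd (nat_lit 78) (PT.lf (nat_lit 33060) (nat_lit 6) (nat_lit 435) (nat_lit 3) (nat_lit 192) (nat_lit 168) (nat_lit 210)) (PT.lf (nat_lit 33136) (nat_lit 6) (nat_lit 436) (nat_lit 3) (nat_lit 193) (nat_lit 168) (nat_lit 209))) (PT.nd (nat_lit 78) (PT.lf (nat_lit 33212) (nat_lit 6) (nat_lit 437) (nat_lit 3) (nat_lit 194) (nat_lit 168) (nat_lit 208)) (PT.lf (nat_lit 33288) (nat_lit 6) (nat_lit 438) (nat_lit 3) (nat_lit 195) (nat_lit 168) (nat_lit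 207)))) (PT.nd (nat_lit 156) (PT.nd (nat_lit 78) (PT.lf (nat_lit 33364) (nat_lit 6) (nat_lit 439) (nat_lit 3) (nat_lit 196) (nat_lit 168) (nat_lit 206)) (PT.lf (nat_lit 33440) (nat_lit 6) (nat_lit 440) (nat_lit 3) (nat_lit 197) (nat_lit 168) (nat_lit 205))) (PT.nd (nat_lit 78) (PT.lf (nat_lit 33516) (nat_lit 6) (nat_lit 441) (nat_lit 3) (nat_lit 198) (nat_lit 168) (nat_lit 204)) (PT.lf (nat_lit 33592) (nat_lit 6) (nat_lit 442) (nat_lit 3) (nat_lit 199) (nat_lit 168) (nat_lit 203)))))) (PT.nd (nat_lit 546) (PT.nd (nat_lit 234) (PT.nd (nat_lit 78) (PT.lf (nat_lit 33668) (nat_lit 6) (nat_lit 443) (nat_lit 3) (nat_lit 200) (nat_lit 168) (nat_lit 202)) (PT.nd (nat_lit 78) (PT.lf (nat_lit 33744) (nat_lit 3) (nat_lit 444) (nat_lit 1) (nat_lit 201) (nat_lit 168) (nat_lit 201)) (PT.lf (nat_lit 33668) (nat_lit 6) (nat_lit 443) (nat_lit 1) (nat_lit 202) (nat_lit 168) (nat_lit 200)))) (PT.nd (nat_lit 156) (PT.nd (nat_lit 78) (PT.lf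 (nat_lit 33592) (nat_lit 6) (nat_lit 442) (nat_lit 1) (nat_lit 203) (nat_lit 168) (nat_lit 199)) (PT.lf (nat_lit 33516) (nat_lit 6) (nat_lit 441) (nat_lit 1) (nat_lit 204) (nat_lit 168) (nat_lit 198))) (PT.nd (nat_lit 78) (PT.lf (nat_lit 33440) (nat_lit 6) (nat_lit 440) (nat_lit 1) (nat_lit 205) (nat_lit 168) (nat_lit 197)) (PT.lf (nat_lit 33364) (nat_lit 6) (nat_lit 439) (nat_lit 1) (nat_lit 206) (nat_lit 168) (nat_lit 196))))) (PT.nd (nat_lit 312) (PT.nd (nat_lit 156) (PT.nd (nat_lit 78) (PT.lf (nat_lit 33288) (nat_lit 6) (nat_lit 438) (nat_lit 1) (nat_lit 207) (nat_lit 168) (nat_lit 195)) (PT.lf (nat_lit 33212) (nat_lit 6) (nat_lit 437) (nat_lit 1) (nat_lit 208) (nat_lit 168) (nat_lit 194))) (PT.nd (nat_lit 78) (PT.lf (nat_lit 33136) (nat_lit 6) (nat_lit 436) (nat_lit 1) (nat_lit 209) (nat_lit 168) (nat_lit 193)) (PT.lf (nat_lit 33060) (nat_lit 6) (nat_lit 435) (nat_lit 1) (nat_lit 210) (nat_lit 168) (nat_lit 192))))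 (PT.nd (nat_lit 156) (PT.nd (nat_lit 78) (PT.lf (nat_lit 32984) (nat_lit 6) (nat_lit 434) (nat_lit 1) (nat_lit 211) (nat_lit 168) (nat_lit 191)) (PT.lf (nat_lit 32908) (nat_lit 6) (nat_lit 433) (nat_lit 1) (nat_lit 212) (nat_lit 168) (nat_lit 190))) (PT.nd (nat_lit 78) (PT.lf (nat_lit 31084) (nat_lit 6) (nat_lit 409) (nat_lit 1) (nat_lit 213) (nat_lit 168) (nat_lit 189)) (PT.lf (nat_lit 29184) (nat_lit 6) (nat_lit 384) (nat_lit 1) (nat_lit 214) (nat_lit 168) (nat_lit 188))))))))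
noncomputable def pc13 : PT := (PT.nd (nat_lit 59592) (PT.nd (nat_lit 1170) (PT.nd (nat_lit 546) (PT.nd (nat_lit 234) (PT.nd (nat_lit 78) (PT.lf (nat_lit 31008) (nat_lit 6) (nat_lit 408) (nat_lit 3) (nat_lit 188) (nat_lit 169) (nat_lit 213)) (PT.nd (nat_lit 78) (PT.lf (nat_lit 32832) (nat_lit 6) (nat_lit 432) (nat_lit 3) (nat_lit 189) (nat_lit 169) (nat_lit 212)) (PT.lf (nat_lit 34580) (nat_lit 6) (nat_lit 455) (nat_lit 3) (nat_lit 190) (nat_lit 169) (nat_lit 211)))) (PT.nd (nat_lit 156) (PT.nd (nat_lit 78) (PT.lf (nat_lit 34656) (nat_lit 6) (nat_lit 456) (nat_lit 3) (nat_lit 191) (nat_lit 169) (nat_lit 210)) (PT.lf (nat_lit 34732) (nat_lit 6) (nat_lit 457) (nat_lit 3) (nat_lit 192) (nat_lit 169) (nat_lit 209))) (PT.nd (nat_lit 78) (PT.lf (nat_lit 34808) (nat_lit 6) (nat_lit 458) (nat_lit 3) (nat_lit 193) (nat_lit 169) (nat_lit 208)) (PT.lf (nat_lit 34884) (nat_lit 6) (nat_lit 459) (nat_lit 3) (nat_lit 194) (nat_lit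 169) (nat_lit 207))))) (PT.nd (nat_lit 312) (PT.nd (nat_lit 156) (PT.nd (nat_lit 78) (PT.lf (nat_lit 34960) (nat_lit 6) (nat_lit 460) (nat_lit 3) (nat_lit 195) (nat_lit 169) (nat_lit 206)) (PT.lf (nat_lit 35036) (nat_lit 6) (nat_lit 461) (nat_lit 3) (nat_lit 196) (nat_lit 169) (nat_lit 205))) (PT.nd (nat_lit 78) (PT.lf (nat_lit 35112) (nat_lit 6) (nat_lit 462) (nat_lit 3) (nat_lit 197) (nat_lit 169) (nat_lit 204)) (PT.lf (nat_lit 35188) (nat_lit 6) (nat_lit 463) (nat_lit 3) (nat_lit 198) (nat_lit 169) (nat_lit 203)))) (PT.nd (nat_lit 156) (PT.nd (nat_lit 78) (PT.lf (nat_lit 35264) (nat_lit 6) (nat_lit 464) (nat_lit 3) (nat_lit 199) (nat_lit 169) (nat_lit 202)) (PT.lf (nat_lit 35340) (nat_lit 6) (nat_lit 465) (nat_lit 3) (nat_lit 200) (nat_lit 169) (nat_lit 201))) (PT.nd (nat_lit 78) (PT.lf (nat_lit 35340) (nat_lit 6) (nat_lit 465) (nat_lit 1) (nat_lit 201) (nat_lit 169) (nat_lit 200)) (PT.lf (nat_lit 35264) (nat_lit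 6) (nat_lit 464) (nat_lit 1) (nat_lit 202) (nat_lit 169) (nat_lit 199)))))) (PT.nd (nat_lit 546) (PT.nd (nat_lit 234) (PT.nd (nat_lit 78) (PT.lf (nat_lit 35188) (nat_lit 6) (nat_lit 463) (nat_lit 1) (nat_lit 203) (nat_lit 169) (nat_lit 198)) (PT.nd (nat_lit 78) (PT.lf (nat_lit 35112) (nat_lit 6) (nat_lit 462) (nat_lit 1) (nat_lit 204) (nat_lit 169) (nat_lit 197)) (PT.lf (nat_lit 35036) (nat_lit 6) (nat_lit 461) (nat_lit 1) (nat_lit 205) (nat_lit 169) (nat_lit 196)))) (PT.nd (nat_lit 156) (PT.nd (nat_lit 78) (PT.lf (nat_lit 34960) (nat_lit 6) (nat_lit 460) (nat_lit 1) (nat_lit 206) (nat_lit 169) (nat_lit 195)) (PT.lf (nat_lit 34884) (nat_lit 6) (nat_lit 459) (nat_lit 1) (nat_lit 207) (nat_lit 169) (nat_lit 194))) (PT.nd (nat_lit 78) (PT.lf (nat_lit 34808) (nat_lit 6) (nat_lit 458) (nat_lit 1) (nat_lit 208) (nat_lit 169) (nat_lit 193)) (PT.lf (nat_lit 34732) (nat_lit 6) (nat_lit 457) (nat_lit 1) (nat_lit 209) (nat_lit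 169) (nat_lit 192))))) (PT.nd (nat_lit 57564) (PT.nd (nat_lit 156) (PT.nd (nat_lit 78) (PT.lf (nat_lit 34656) (nat_lit 6) (nat_lit 456) (nat_lit 1) (nat_lit 210) (nat_lit 169) (nat_lit 191)) (PT.lf (nat_lit 34580) (nat_lit 6) (nat_lit 455) (nat_lit 1) (nat_lit 211) (nat_lit 169) (nat_lit 190))) (PT.nd (nat_lit 78) (PT.lf (nat_lit 32832) (nat_lit 6) (nat_lit 432) (nat_lit 1) (nat_lit 212) (nat_lit 169) (nat_lit 189)) (PT.lf (nat_lit 31008) (nat_lit 6) (nat_lit 408) (nat_lit 1) (nat_lit 213) (nat_lit 169) (nat_lit 188)))) (PT.nd (nat_lit 156) (PT.nd (nat_lit 78) (PT.lf (nat_lit 30932) (nat_lit 6) (nat_lit 407) (nat_lit 3) (nat_lit 187) (nat_lit 170) (nat_lit 213)) (PT.lf (nat_lit 32756) (nat_lit 6) (nat_lit 431) (nat_lit 3) (nat_lit 188) (nat_lit 170) (nat_lit 212))) (PT.nd (nat_lit 78) (PT.lf (nat_lit 34504) (nat_lit 6) (nat_lit 454) (nat_lit 3) (nat_lit 189) (nat_lit 170) (nat_lit 211)) (PT.lf (nat_lit 36176) (nat_lit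 6) (nat_lit 476) (nat_lit 3) (nat_lit 190) (nat_lit 170) (nat_lit 210))))))) (PT.nd (nat_lit 1170) (PT.nd (nat_lit 546) (PT.nd (nat_lit 234) (PT.nd (nat_lit 78) (PT.lf (nat_lit 36252) (nat_lit 6) (nat_lit 477) (nat_lit 3) (nat_lit 191) (nat_lit 170) (nat_lit 209)) (PT.nd (nat_lit 78) (PT.lf (nat_lit 36328) (nat_lit 6) (nat_lit 478) (nat_lit 3) (nat_lit 192) (nat_lit 170) (nat_lit 208)) (PT.lf (nat_lit 36404) (nat_lit 6) (nat_lit 479) (nat_lit 3) (nat_lit 193) (nat_lit 170) (nat_lit 207)))) (PT.nd (nat_lit 156) (PT.nd (nat_lit 78) (PT.lf (nat_lit 36480) (nat_lit 6) (nat_lit 480) (nat_lit 3) (nat_lit 194) (nat_lit 170) (nat_lit 206)) (PT.lf (nat_lit 36556) (nat_lit 6) (nat_lit 481) (nat_lit 3) (nat_lit 195) (nat_lit 170) (nat_lit 205))) (PT.nd (nat_lit 78) (PT.lf (nat_lit 36632) (nat_lit 6) (nat_lit 482) (nat_lit 3) (nat_lit 196) (nat_lit 170) (nat_lit 204)) (PT.lf (nat_lit 36708) (nat_lit 6) (nat_lit 483) (nat_lit 3)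 (nat_lit 197) (nat_lit 170) (nat_lit 203))))) (PT.nd (nat_lit 312) (PT.nd (nat_lit 156) (PT.nd (nat_lit 78) (PT.lf (nat_lit 36784) (nat_lit 6) (nat_lit 484) (nat_lit 3) (nat_lit 198) (nat_lit 170) (nat_lit 202)) (PT.lf (nat_lit 36860) (nat_lit 6) (nat_lit 485) (nat_lit 3) (nat_lit 199) (nat_lit 170) (nat_lit 201))) (PT.nd (nat_lit 78) (PT.lf (nat_lit 36936) (nat_lit 3) (nat_lit 486) (nat_lit 1) (nat_lit 200) (nat_lit 170) (nat_lit 200)) (PT.lf (nat_lit 36860) (nat_lit 6) (nat_lit 485) (nat_lit 1) (nat_lit 201) (nat_lit 170) (nat_lit 199)))) (PT.nd (nat_lit 156) (PT.nd (nat_lit 78) (PT.lf (nat_lit 36784) (nat_lit 6) (nat_lit 484) (nat_lit 1) (nat_lit 202) (nat_lit 170) (nat_lit 198)) (PT.lf (nat_lit 36708) (nat_lit 6) (nat_lit 483) (nat_lit 1) (nat_lit 203) (nat_lit 170) (nat_lit 197))) (PT.nd (nat_lit 78) (PT.lf (nat_lit 36632) (nat_lit 6) (nat_lit 482) (nat_lit 1) (nat_lit 204) (nat_lit 170) (nat_lit 196)) (PT.lf (nat_lit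 36556) (nat_lit 6) (nat_lit 481) (nat_lit 1) (nat_lit 205) (nat_lit 170) (nat_lit 195)))))) (PT.nd (nat_lit 546) (PT.nd (nat_lit 234) (PT.nd (nat_lit 78) (PT.lf (nat_lit 36480) (nat_lit 6) (nat_lit 480) (nat_lit 1) (nat_lit 206) (nat_lit 170) (nat_lit 194)) (PT.nd (nat_lit 78) (PT.lf (nat_lit 36404) (nat_lit 6) (nat_lit 479) (nat_lit 1) (nat_lit 207) (nat_lit 170) (nat_lit 193)) (PT.lf (nat_lit 36328) (nat_lit 6) (nat_lit 478) (nat_lit 1) (nat_lit 208) (nat_lit 170) (nat_lit 192)))) (PT.nd (nat_lit 156) (PT.nd (nat_lit 78) (PT.lf (nat_lit 36252) (nat_lit 6) (nat_lit 477) (nat_lit 1) (nat_lit 209) (nat_lit 170) (nat_lit 191)) (PT.lf (nat_lit 36176) (nat_lit 6) (nat_lit 476) (nat_lit 1) (nat_lit 210) (nat_lit 170) (nat_lit 190))) (PT.nd (nat_lit 78) (PT.lf (nat_lit 34504) (nat_lit 6) (nat_lit 454) (nat_lit 1) (nat_lit 211) (nat_lit 170) (nat_lit 189)) (PT.lf (nat_lit 32756) (nat_lit 6) (nat_lit 431) (nat_lit 1) (nat_lit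 212) (nat_lit 170) (nat_lit 188))))) (PT.nd (nat_lit 57486) (PT.nd (nat_lit 57330) (PT.nd (nat_lit 57252) (PT.lf (nat_lit 30932) (nat_lit 6) (nat_lit 407) (nat_lit 1) (nat_lit 213) (nat_lit 170) (nat_lit 187)) (PT.lf (nat_lit 30856) (nat_lit 6) (nat_lit 406) (nat_lit 3) (nat_lit 186) (nat_lit 171) (nat_lit 213))) (PT.nd (nat_lit 78) (PT.lf (nat_lit 32680) (nat_lit 6) (nat_lit 430) (nat_lit 3) (nat_lit 187) (nat_lit 171) (nat_lit 212)) (PT.lf (nat_lit 34428) (nat_lit 6) (nat_lit 453) (nat_lit 3) (nat_lit 188) (nat_lit 171) (nat_lit 211)))) (PT.nd (nat_lit 156) (PT.nd (nat_lit 78) (PT.lf (nat_lit 36100) (nat_lit 6) (nat_lit 475) (nat_lit 3) (nat_lit 189) (nat_lit 171) (nat_lit 210)) (PT.lf (nat_lit 37696) (nat_lit 6) (nat_lit 496) (nat_lit 3) (nat_lit 190) (nat_lit 171) (nat_lit 209))) (PT.nd (nat_lit 78) (PT.lf (nat_lit 37772) (nat_lit 6) (nat_lit 497) (nat_lit 3) (nat_lit 191) (nat_lit 171) (nat_lit 208)) (PT.lf (nat_lit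 37848) (nat_lit 6) (nat_lit 498) (nat_lit 3) (nat_lit 192) (nat_lit 171) (nat_lit 207))))))))
noncomputable def pc14 : PT := (PT.nd (nat_lit 59436) (PT.nd (nat_lit 1170) (PT.nd (nat_lit 546) (PT.nd (nat_lit 234) (PT.nd (nat_lit 78) (PT.lf (nat_lit 37924) (nat_lit 6) (nat_lit 499) (nat_lit 3) (nat_lit 193) (nat_lit 171) (nat_lit 206)) (PT.nd (nat_lit 78) (PT.lf (nat_lit 38000) (nat_lit 6) (nat_lit 500) (nat_lit 3) (nat_lit 194) (nat_lit 171) (nat_lit 205)) (PT.lf (nat_lit 38076) (nat_lit 6) (nat_lit 501) (nat_lit 3) (nat_lit 195) (nat_lit 171) (nat_lit 204)))) (PT.nd (nat_lit 156) (PT.nd (nat_lit 78) (PT.lf (nat_lit 38152) (nat_lit 6) (nat_lit 502) (nat_lit 3) (nat_lit 196) (nat_lit 171) (nat_lit 203)) (PT.lf (nat_lit 38228) (nat_lit 6) (nat_lit 503) (nat_lit 3) (nat_lit 197) (nat_lit 171) (nat_lit 202))) (PT.nd (nat_lit 78) (PT.lf (nat_lit 38304) (nat_lit 6) (nat_lit 504) (nat_lit 3) (nat_lit 198) (nat_lit 171) (nat_lit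 201)) (PT.lf (nat_lit 38380) (nat_lit 6) (nat_lit 505) (nat_lit 3) (nat_lit 199) (nat_lit 171) (nat_lit 200))))) (PT.nd (nat_lit 312) (PT.nd (nat_lit 156) (PT.nd (nat_lit 78) (PT.lf (nat_lit 38380) (nat_lit 6) (nat_lit 505) (nat_lit 1) (nat_lit 200) (nat_lit 171) (nat_lit 199)) (PT.lf (nat_lit 38304) (nat_lit 6) (nat_lit 504) (nat_lit 1) (nat_lit 201) (nat_lit 171) (nat_lit 198))) (PT.nd (nat_lit 78) (PT.lf (nat_lit 38228) (nat_lit 6) (nat_lit 503) (nat_lit 1) (nat_lit 202) (nat_lit 171) (nat_lit 197)) (PT.lf (nat_lit 38152) (nat_lit 6) (nat_lit 502) (nat_lit 1) (nat_lit 203) (nat_lit 171) (nat_lit 196)))) (PT.nd (nat_lit 156) (PT.nd (nat_lit 78) (PT.lf (nat_lit 38076) (nat_lit 6) (nat_lit 501) (nat_lit 1) (nat_lit 204) (nat_lit 171) (nat_lit 195)) (PT.lf (nat_lit 38000) (nat_lit 6) (nat_lit 500) (nat_lit 1) (nat_lit 205) (nat_lit 171) (nat_lit 194))) (PT.nd (nat_lit 78) (PT.lf (nat_lit 37924) (nat_lit 6) (nat_lit 499)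 (nat_lit 1) (nat_lit 206) (nat_lit 171) (nat_lit 193)) (PT.lf (nat_lit 37848) (nat_lit 6) (nat_lit 498) (nat_lit 1) (nat_lit 207) (nat_lit 171) (nat_lit 192)))))) (PT.nd (nat_lit 57642) (PT.nd (nat_lit 234) (PT.nd (nat_lit 78) (PT.lf (nat_lit 37772) (nat_lit 6) (nat_lit 497) (nat_lit 1) (nat_lit 208) (nat_lit 171) (nat_lit 191)) (PT.nd (nat_lit 78) (PT.lf (nat_lit 37696) (nat_lit 6) (nat_lit 496) (nat_lit 1) (nat_lit 209) (nat_lit 171) (nat_lit 190)) (PT.lf (nat_lit 36100) (nat_lit 6) (nat_lit 475) (nat_lit 1) (nat_lit 210) (nat_lit 171) (nat_lit 189)))) (PT.nd (nat_lit 156) (PT.nd (nat_lit 78) (PT.lf (nat_lit 34428) (nat_lit 6) (nat_lit 453) (nat_lit 1) (nat_lit 211) (nat_lit 171) (nat_lit 188)) (PT.lf (nat_lit 32680) (nat_lit 6) (nat_lit 430) (nat_lit 1) (nat_lit 212) (nat_lit 171) (nat_lit 187))) (PT.nd (nat_lit 57174) (PT.lf (nat_lit 30856) (nat_lit 6) (nat_lit 406) (nat_lit 1) (nat_lit 213) (nat_lit 171) (nat_lit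 186)) (PT.lf (nat_lit 30780) (nat_lit 6) (nat_lit 405) (nat_lit 3) (nat_lit 185) (nat_lit 172) (nat_lit 213))))) (PT.nd (nat_lit 312) (PT.nd (nat_lit 156) (PT.nd (nat_lit 78) (PT.lf (nat_lit 32604) (nat_lit 6) (nat_lit 429) (nat_lit 3) (nat_lit 186) (nat_lit 172) (nat_lit 212)) (PT.lf (nat_lit 34352) (nat_lit 6) (nat_lit 452) (nat_lit 3) (nat_lit 187) (nat_lit 172) (nat_lit 211))) (PT.nd (nat_lit 78) (PT.lf (nat_lit 36024) (nat_lit 6) (nat_lit 474) (nat_lit 3) (nat_lit 188) (nat_lit 172) (nat_lit 210)) (PT.lf (nat_lit 37620) (nat_lit 6) (nat_lit 495) (nat_lit 3) (nat_lit 189) (nat_lit 172) (nat_lit 209)))) (PT.nd (nat_lit 156) (PT.nd (nat_lit 78) (PT.lf (nat_lit 39140) (nat_lit 6) (nat_lit 515) (nat_lit 3) (nat_lit 190) (nat_lit 172) (nat_lit 208)) (PT.lf (nat_lit 39216) (nat_lit 6) (nat_lit 516) (nat_lit 3) (nat_lit 191) (nat_lit 172) (nat_lit 207))) (PT.nd (nat_lit 78) (PT.lf (nat_lit 39292) (nat_lit 6) (nat_lit 517)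 (nat_lit 3) (nat_lit 192) (nat_lit 172) (nat_lit 206)) (PT.lf (nat_lit 39368) (nat_lit 6) (nat_lit 518) (nat_lit 3) (nat_lit 193) (nat_lit 172) (nat_lit 205))))))) (PT.nd (nat_lit 1170) (PT.nd (nat_lit 546) (PT.nd (nat_lit 234) (PT.nd (nat_lit 78) (PT.lf (nat_lit 39444) (nat_lit 6) (nat_lit 519) (nat_lit 3) (nat_lit 194) (nat_lit 172) (nat_lit 204)) (PT.nd (nat_lit 78) (PT.lf (nat_lit 39520) (nat_lit 6) (nat_lit 520) (nat_lit 3) (nat_lit 195) (nat_lit 172) (nat_lit 203)) (PT.lf (nat_lit 39596) (nat_lit 6) (nat_lit 521) (nat_lit 3) (nat_lit 196) (nat_lit 172) (nat_lit 202)))) (PT.nd (nat_lit 156) (PT.nd (nat_lit 78) (PT.lf (nat_lit 39672) (nat_lit 6) (nat_lit 522) (nat_lit 3) (nat_lit 197) (nat_lit 172) (nat_lit 201)) (PT.lf (nat_lit 39748) (nat_lit 6) (nat_lit 523) (nat_lit 3) (nat_lit 198) (nat_lit 172) (nat_lit 200))) (PT.nd (nat_lit 78) (PT.lf (nat_lit 39824) (nat_lit 3) (nat_lit 524) (nat_lit 1) (nat_lit 199) (nat_lit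 172) (nat_lit 199)) (PT.lf (nat_lit 39748) (nat_lit 6) (nat_lit 523) (nat_lit 1) (nat_lit 200) (nat_lit 172) (nat_lit 198))))) (PT.nd (nat_lit 312) (PT.nd (nat_lit 156) (PT.nd (nat_lit 78) (PT.lf (nat_lit 39672) (nat_lit 6) (nat_lit 522) (nat_lit 1) (nat_lit 201) (nat_lit 172) (nat_lit 197)) (PT.lf (nat_lit 39596) (nat_lit 6) (nat_lit 521) (nat_lit 1) (nat_lit 202) (nat_lit 172) (nat_lit 196))) (PT.nd (nat_lit 78) (PT.lf (nat_lit 39520) (nat_lit 6) (nat_lit 520) (nat_lit 1) (nat_lit 203) (nat_lit 172) (nat_lit 195)) (PT.lf (nat_lit 39444) (nat_lit 6) (nat_lit 519) (nat_lit 1) (nat_lit 204) (nat_lit 172) (nat_lit 194)))) (PT.nd (nat_lit 156) (PT.nd (nat_lit 78) (PT.lf (nat_lit 39368) (nat_lit 6) (nat_lit 518) (nat_lit 1) (nat_lit 205) (nat_lit 172) (nat_lit 193)) (PT.lf (nat_lit 39292) (nat_lit 6) (nat_lit 517) (nat_lit 1) (nat_lit 206) (nat_lit 172) (nat_lit 192))) (PT.nd (nat_lit 78) (PT.lf (nat_lit 39216) (nat_lit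 6) (nat_lit 516) (nat_lit 1) (nat_lit 207) (nat_lit 172) (nat_lit 191)) (PT.lf (nat_lit 39140) (nat_lit 6) (nat_lit 515) (nat_lit 1) (nat_lit 208) (nat_lit 172) (nat_lit 190)))))) (PT.nd (nat_lit 57564) (PT.nd (nat_lit 234) (PT.nd (nat_lit 78) (PT.lf (nat_lit 37620) (nat_lit 6) (nat_lit 495) (nat_lit 1) (nat_lit 209) (nat_lit 172) (nat_lit 189)) (PT.nd (nat_lit 78) (PT.lf (nat_lit 36024) (nat_lit 6) (nat_lit 474) (nat_lit 1) (nat_lit 210) (nat_lit 172) (nat_lit 188)) (PT.lf (nat_lit 34352) (nat_lit 6) (nat_lit 452) (nat_lit 1) (nat_lit 211) (nat_lit 172) (nat_lit 187)))) (PT.nd (nat_lit 57174) (PT.nd (nat_lit 78) (PT.lf (nat_lit 32604) (nat_lit 6) (nat_lit 429) (nat_lit 1) (nat_lit 212) (nat_lit 172) (nat_lit 186)) (PT.lf (nat_lit 30780) (nat_lit 6) (nat_lit 405) (nat_lit 1) (nat_lit 213) (nat_lit 172) (nat_lit 185))) (PT.nd (nat_lit 78) (PT.lf (nat_lit 30704) (nat_lit 6) (nat_lit 404) (nat_lit 3) (nat_lit 184) (nat_lit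 173) (nat_lit 213)) (PT.lf (nat_lit 32528) (nat_lit 6) (nat_lit 428) (nat_lit 3) (nat_lit 185) (nat_lit 173) (nat_lit 212))))) (PT.nd (nat_lit 312) (PT.nd (nat_lit 156) (PT.nd (nat_lit 78) (PT.lf (nat_lit 34276) (nat_lit 6) (nat_lit 451) (nat_lit 3) (nat_lit 186) (nat_lit 173) (nat_lit 211)) (PT.lf (nat_lit 35948) (nat_lit 6) (nat_lit 473) (nat_lit 3) (nat_lit 187) (nat_lit 173) (nat_lit 210))) (PT.nd (nat_lit 78) (PT.lf (nat_lit 37544) (nat_lit 6) (nat_lit 494) (nat_lit 3) (nat_lit 188) (nat_lit 173) (nat_lit 209)) (PT.lf (nat_lit 39064) (nat_lit 6) (nat_lit 514) (nat_lit 3) (nat_lit 189) (nat_lit 173) (nat_lit 208)))) (PT.nd (nat_lit 156) (PT.nd (nat_lit 78) (PT.lf (nat_lit 40508) (nat_lit 6) (nat_lit 533) (nat_lit 3) (nat_lit 190) (nat_lit 173) (nat_lit 207)) (PT.lf (nat_lit 40584) (nat_lit 6) (nat_lit 534) (nat_lit 3) (nat_lit 191) (nat_lit 173) (nat_lit 206))) (PT.nd (nat_lit 78) (PT.lf (nat_lit 40660) (nat_lit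 6) (nat_lit 535) (nat_lit 3) (nat_lit 192) (nat_lit 173) (nat_lit 205)) (PT.lf (nat_lit 40736) (nat_lit 6) (nat_lit 536) (nat_lit 3) (nat_lit 193) (nat_lit 173) (nat_lit 204))))))))
noncomputable def pc15 : PT := (PT.nd (nat_lit 59280) (PT.nd (nat_lit 1170) (PT.nd (nat_lit 546) (PT.nd (nat_lit 234) (PT.nd (nat_lit 78) (PT.lf (nat_lit 40812) (nat_lit 6) (nat_lit 537) (nat_lit 3) (nat_lit 194) (nat_lit 173) (nat_lit 203)) (PT.nd (nat_lit 78) (PT.lf (nat_lit 40888) (nat_lit 6) (nat_lit 538) (nat_lit 3) (nat_lit 195) (nat_lit 173) (nat_lit 202)) (PT.lf (nat_lit 40964) (nat_lit 6) (nat_lit 539) (nat_lit 3) (nat_lit 196) (nat_lit 173) (nat_lit 201)))) (PT.nd (nat_lit 156) (PT.nd (nat_lit 78) (PT.lf (nat_lit 41040) (nat_lit 6) (nat_lit 540) (nat_lit 3) (nat_lit 197) (nat_lit 173) (nat_lit 200)) (PT.lf (nat_lit 41116) (nat_lit 6) (nat_lit 541) (nat_lit 3) (nat_lit 198) (nat_lit 173) (nat_lit 199))) (PT.nd (nat_lit 78) (PT.lf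 (nat_lit 41116) (nat_lit 6) (nat_lit 541) (nat_lit 1) (nat_lit 199) (nat_lit 173) (nat_lit 198)) (PT.lf (nat_lit 41040) (nat_lit 6) (nat_lit 540) (nat_lit 1) (nat_lit 200) (nat_lit 173) (nat_lit 197))))) (PT.nd (nat_lit 312) (PT.nd (nat_lit 156) (PT.nd (nat_lit 78) (PT.lf (nat_lit 40964) (nat_lit 6) (nat_lit 539) (nat_lit 1) (nat_lit 201) (nat_lit 173) (nat_lit 196)) (PT.lf (nat_lit 40888) (nat_lit 6) (nat_lit 538) (nat_lit 1) (nat_lit 202) (nat_lit 173) (nat_lit 195))) (PT.nd (nat_lit 78) (PT.lf (nat_lit 40812) (nat_lit 6) (nat_lit 537) (nat_lit 1) (nat_lit 203) (nat_lit 173) (nat_lit 194)) (PT.lf (nat_lit 40736) (nat_lit 6) (nat_lit 536) (nat_lit 1) (nat_lit 204) (nat_lit 173) (nat_lit 193)))) (PT.nd (nat_lit 156) (PT.nd (nat_lit 78) (PT.lf (nat_lit 40660) (nat_lit 6) (nat_lit 535) (nat_lit 1) (nat_lit 205) (nat_lit 173) (nat_lit 192)) (PT.lf (nat_lit 40584) (nat_lit 6) (nat_lit 534) (nat_lit 1) (nat_lit 206) (nat_lit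 173) (nat_lit 191))) (PT.nd (nat_lit 78) (PT.lf (nat_lit 40508) (nat_lit 6) (nat_lit 533) (nat_lit 1) (nat_lit 207) (nat_lit 173) (nat_lit 190)) (PT.lf (nat_lit 39064) (nat_lit 6) (nat_lit 514) (nat_lit 1) (nat_lit 208) (nat_lit 173) (nat_lit 189)))))) (PT.nd (nat_lit 57486) (PT.nd (nat_lit 234) (PT.nd (nat_lit 78) (PT.lf (nat_lit 37544) (nat_lit 6) (nat_lit 494) (nat_lit 1) (nat_lit 209) (nat_lit 173) (nat_lit 188)) (PT.nd (nat_lit 78) (PT.lf (nat_lit 35948) (nat_lit 6) (nat_lit 473) (nat_lit 1) (nat_lit 210) (nat_lit 173) (nat_lit 187)) (PT.lf (nat_lit 34276) (nat_lit 6) (nat_lit 451) (nat_lit 1) (nat_lit 211) (nat_lit 173) (nat_lit 186)))) (PT.nd (nat_lit 57096) (PT.nd (nat_lit 78) (PT.lf (nat_lit 32528) (nat_lit 6) (nat_lit 428) (nat_lit 1) (nat_lit 212) (nat_lit 173) (nat_lit 185)) (PT.lf (nat_lit 30704) (nat_lit 6) (nat_lit 404) (nat_lit 1) (nat_lit 213) (nat_lit 173) (nat_lit 184))) (PT.nd (nat_lit 78) (PT.lf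 (nat_lit 30628) (nat_lit 6) (nat_lit 403) (nat_lit 3) (nat_lit 183) (nat_lit 174) (nat_lit 213)) (PT.lf (nat_lit 32452) (nat_lit 6) (nat_lit 427) (nat_lit 3) (nat_lit 184) (nat_lit 174) (nat_lit 212))))) (PT.nd (nat_lit 312) (PT.nd (nat_lit 156) (PT.nd (nat_lit 78) (PT.lf (nat_lit 34200) (nat_lit 6) (nat_lit 450) (nat_lit 3) (nat_lit 185) (nat_lit 174) (nat_lit 211)) (PT.lf (nat_lit 35872) (nat_lit 6) (nat_lit 472) (nat_lit 3) (nat_lit 186) (nat_lit 174) (nat_lit 210))) (PT.nd (nat_lit 78) (PT.lf (nat_lit 37468) (nat_lit 6) (nat_lit 493) (nat_lit 3) (nat_lit 187) (nat_lit 174) (nat_lit 209)) (PT.lf (nat_lit 38988) (nat_lit 6) (nat_lit 513) (nat_lit 3) (nat_lit 188) (nat_lit 174) (nat_lit 208)))) (PT.nd (nat_lit 156) (PT.nd (nat_lit 78) (PT.lf (nat_lit 40432) (nat_lit 6) (nat_lit 532) (nat_lit 3) (nat_lit 189) (nat_lit 174) (nat_lit 207)) (PT.lf (nat_lit 41800) (nat_lit 6) (nat_lit 550) (nat_lit 3) (nat_lit 190) (nat_lit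 174) (nat_lit 206))) (PT.nd (nat_lit 78) (PT.lf (nat_lit 41876) (nat_lit 6) (nat_lit 551) (nat_lit 3) (nat_lit 191) (nat_lit 174) (nat_lit 205)) (PT.lf (nat_lit 41952) (nat_lit 6) (nat_lit 552) (nat_lit 3) (nat_lit 192) (nat_lit 174) (nat_lit 204))))))) (PT.nd (nat_lit 1170) (PT.nd (nat_lit 546) (PT.nd (nat_lit 234) (PT.nd (nat_lit 78) (PT.lf (nat_lit 42028) (nat_lit 6) (nat_lit 553) (nat_lit 3) (nat_lit 193) (nat_lit 174) (nat_lit 203)) (PT.nd (nat_lit 78) (PT.lf (nat_lit 42104) (nat_lit 6) (nat_lit 554) (nat_lit 3) (nat_lit 194) (nat_lit 174) (nat_lit 202)) (PT.lf (nat_lit 42180) (nat_lit 6) (nat_lit 555) (nat_lit 3) (nat_lit 195) (nat_lit 174) (nat_lit 201)))) (PT.nd (nat_lit 156) (PT.nd (nat_lit 78) (PT.lf (nat_lit 42256) (nat_lit 6) (nat_lit 556) (nat_lit 3) (nat_lit 196) (nat_lit 174) (nat_lit 200)) (PT.lf (nat_lit 42332) (nat_lit 6) (nat_lit 557) (nat_lit 3) (nat_lit 197) (nat_lit 174) (nat_lit 199))) (PT.nd (nat_lit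 78) (PT.lf (nat_lit 42408) (nat_lit 3) (nat_lit 558) (nat_lit 1) (nat_lit 198) (nat_lit 174) (nat_lit 198)) (PT.lf (nat_lit 42332) (nat_lit 6) (nat_lit 557) (nat_lit 1) (nat_lit 199) (nat_lit 174) (nat_lit 197))))) (PT.nd (nat_lit 312) (PT.nd (nat_lit 156) (PT.nd (nat_lit 78) (PT.lf (nat_lit 42256) (nat_lit 6) (nat_lit 556) (nat_lit 1) (nat_lit 200) (nat_lit 174) (nat_lit 196)) (PT.lf (nat_lit 42180) (nat_lit 6) (nat_lit 555) (nat_lit 1) (nat_lit 201) (nat_lit 174) (nat_lit 195))) (PT.nd (nat_lit 78) (PT.lf (nat_lit 42104) (nat_lit 6) (nat_lit 554) (nat_lit 1) (nat_lit 202) (nat_lit 174) (nat_lit 194)) (PT.lf (nat_lit 42028) (nat_lit 6) (nat_lit 553) (nat_lit 1) (nat_lit 203) (nat_lit 174) (nat_lit 193)))) (PT.nd (nat_lit 156) (PT.nd (nat_lit 78) (PT.lf (nat_lit 41952) (nat_lit 6) (nat_lit 552) (nat_lit 1) (nat_lit 204) (nat_lit 174) (nat_lit 192)) (PT.lf (nat_lit 41876) (nat_lit 6) (nat_lit 551) (nat_lit 1) (nat_lit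 205) (nat_lit 174) (nat_lit 191))) (PT.nd (nat_lit 78) (PT.lf (nat_lit 41800) (nat_lit 6) (nat_lit 550) (nat_lit 1) (nat_lit 206) (nat_lit 174) (nat_lit 190)) (PT.lf (nat_lit 40432) (nat_lit 6) (nat_lit 532) (nat_lit 1) (nat_lit 207) (nat_lit 174) (nat_lit 189)))))) (PT.nd (nat_lit 57486) (PT.nd (nat_lit 312) (PT.nd (nat_lit 156) (PT.nd (nat_lit 78) (PT.lf (nat_lit 38988) (nat_lit 6) (nat_lit 513) (nat_lit 1) (nat_lit 208) (nat_lit 174) (nat_lit 188)) (PT.lf (nat_lit 37468) (nat_lit 6) (nat_lit 493) (nat_lit 1) (nat_lit 209) (nat_lit 174) (nat_lit 187))) (PT.nd (nat_lit 78) (PT.lf (nat_lit 35872) (nat_lit 6) (nat_lit 472) (nat_lit 1) (nat_lit 210) (nat_lit 174) (nat_lit 186)) (PT.lf (nat_lit 34200) (nat_lit 6) (nat_lit 450) (nat_lit 1) (nat_lit 211) (nat_lit 174) (nat_lit 185)))) (PT.nd (nat_lit 57018) (PT.nd (nat_lit 78) (PT.lf (nat_lit 32452) (nat_lit 6) (nat_lit 427) (nat_lit 1) (nat_lit 212) (nat_lit 174) (nat_lit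 184)) (PT.lf (nat_lit 30628) (nat_lit 6) (nat_lit 403) (nat_lit 1) (nat_lit 213) (nat_lit 174) (nat_lit 183))) (PT.nd (nat_lit 78) (PT.lf (nat_lit 30552) (nat_lit 6) (nat_lit 402) (nat_lit 3) (nat_lit 182) (nat_lit 175) (nat_lit 213)) (PT.lf (nat_lit 32376) (nat_lit 6) (nat_lit 426) (nat_lit 3) (nat_lit 183) (nat_lit 175) (nat_lit 212))))) (PT.nd (nat_lit 312) (PT.nd (nat_lit 156) (PT.nd (nat_lit 78) (PT.lf (nat_lit 34124) (nat_lit 6) (nat_lit 449) (nat_lit 3) (nat_lit 184) (nat_lit 175) (nat_lit 211)) (PT.lf (nat_lit 35796) (nat_lit 6) (nat_lit 471) (nat_lit 3) (nat_lit 185) (nat_lit 175) (nat_lit 210))) (PT.nd (nat_lit 78) (PT.lf (nat_lit 37392) (nat_lit 6) (nat_lit 492) (nat_lit 3) (nat_lit 186) (nat_lit 175) (nat_lit 209)) (PT.lf (nat_lit 38912) (nat_lit 6) (nat_lit 512) (nat_lit 3) (nat_lit 187) (nat_lit 175) (nat_lit 208)))) (PT.nd (nat_lit 156) (PT.nd (nat_lit 78) (PT.lf (nat_lit 40356) (nat_lit 6) (nat_lit 531)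 (nat_lit 3) (nat_lit 188) (nat_lit 175) (nat_lit 207)) (PT.lf (nat_lit 41724) (nat_lit 6) (nat_lit 549) (nat_lit 3) (nat_lit 189) (nat_lit 175) (nat_lit 206))) (PT.nd (nat_lit 78) (PT.lf (nat_lit 43016) (nat_lit 6) (nat_lit 566) (nat_lit 3) (nat_lit 190) (nat_lit 175) (nat_lit 205)) (PT.lf (nat_lit 43092) (nat_lit 6) (nat_lit 567) (nat_lit 3) (nat_lit 191) (nat_lit 175) (nat_lit 204))))))))
noncomputable def pc16 : PT := (PT.nd (nat_lit 59124) (PT.nd (nat_lit 1170) (PT.nd (nat_lit 546) (PT.nd (nat_lit 234) (PT.nd (nat_lit 78) (PT.lf (nat_lit 43168) (nat_lit 6) (nat_lit 568) (nat_lit 3) (nat_lit 192) (nat_lit 175) (nat_lit 203)) (PT.nd (nat_lit 78) (PT.lf (nat_lit 43244) (nat_lit 6) (nat_lit 569) (nat_lit 3) (nat_lit 193) (nat_lit 175) (nat_lit 202)) (PT.lf (nat_lit 43320) (nat_lit 6) (nat_lit 570) (nat_lit 3) (nat_lit 194) (nat_lit 175) (nat_lit 201)))) (PT.nd (nat_lit 156) (PT.nd (nat_lit 78) (PT.lf (nat_lit 43396)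 (nat_lit 6) (nat_lit 571) (nat_lit 3) (nat_lit 195) (nat_lit 175) (nat_lit 200)) (PT.lf (nat_lit 43472) (nat_lit 6) (nat_lit 572) (nat_lit 3) (nat_lit 196) (nat_lit 175) (nat_lit 199))) (PT.nd (nat_lit 78) (PT.lf (nat_lit 43548) (nat_lit 6) (nat_lit 573) (nat_lit 3) (nat_lit 197) (nat_lit 175) (nat_lit 198)) (PT.lf (nat_lit 43548) (nat_lit 6) (nat_lit 573) (nat_lit 1) (nat_lit 198) (nat_lit 175) (nat_lit 197))))) (PT.nd (nat_lit 312) (PT.nd (nat_lit 156) (PT.nd (nat_lit 78) (PT.lf (nat_lit 43472) (nat_lit 6) (nat_lit 572) (nat_lit 1) (nat_lit 199) (nat_lit 175) (nat_lit 196)) (PT.lf (nat_lit 43396) (nat_lit 6) (nat_lit 571) (nat_lit 1) (nat_lit 200) (nat_lit 175) (nat_lit 195))) (PT.nd (nat_lit 78) (PT.lf (nat_lit 43320) (nat_lit 6) (nat_lit 570) (nat_lit 1) (nat_lit 201) (nat_lit 175) (nat_lit 194)) (PT.lf (nat_lit 43244) (nat_lit 6) (nat_lit 569) (nat_lit 1) (nat_lit 202) (nat_lit 175) (nat_lit 193)))) (PT.nd (nat_lit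 156) (PT.nd (nat_lit 78) (PT.lf (nat_lit 43168) (nat_lit 6) (nat_lit 568) (nat_lit 1) (nat_lit 203) (nat_lit 175) (nat_lit 192)) (PT.lf (nat_lit 43092) (nat_lit 6) (nat_lit 567) (nat_lit 1) (nat_lit 204) (nat_lit 175) (nat_lit 191))) (PT.nd (nat_lit 78) (PT.lf (nat_lit 43016) (nat_lit 6) (nat_lit 566) (nat_lit 1) (nat_lit 205) (nat_lit 175) (nat_lit 190)) (PT.lf (nat_lit 41724) (nat_lit 6) (nat_lit 549) (nat_lit 1) (nat_lit 206) (nat_lit 175) (nat_lit 189)))))) (PT.nd (nat_lit 57330) (PT.nd (nat_lit 234) (PT.nd (nat_lit 78) (PT.lf (nat_lit 40356) (nat_lit 6) (nat_lit 531) (nat_lit 1) (nat_lit 207) (nat_lit 175) (nat_lit 188)) (PT.nd (nat_lit 78) (PT.lf (nat_lit 38912) (nat_lit 6) (nat_lit 512) (nat_lit 1) (nat_lit 208) (nat_lit 175) (nat_lit 187)) (PT.lf (nat_lit 37392) (nat_lit 6) (nat_lit 492) (nat_lit 1) (nat_lit 209) (nat_lit 175) (nat_lit 186)))) (PT.nd (nat_lit 156) (PT.nd (nat_lit 78) (PT.lf (nat_lit 35796) (nat_lit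 6) (nat_lit 471) (nat_lit 1) (nat_lit 210) (nat_lit 175) (nat_lit 185)) (PT.lf (nat_lit 34124) (nat_lit 6) (nat_lit 449) (nat_lit 1) (nat_lit 211) (nat_lit 175) (nat_lit 184))) (PT.nd (nat_lit 78) (PT.lf (nat_lit 32376) (nat_lit 6) (nat_lit 426) (nat_lit 1) (nat_lit 212) (nat_lit 175) (nat_lit 183)) (PT.lf (nat_lit 30552) (nat_lit 6) (nat_lit 402) (nat_lit 1) (nat_lit 213) (nat_lit 175) (nat_lit 182))))) (PT.nd (nat_lit 312) (PT.nd (nat_lit 156) (PT.nd (nat_lit 78) (PT.lf (nat_lit 30476) (nat_lit 6) (nat_lit 401) (nat_lit 3) (nat_lit 181) (nat_lit 176) (nat_lit 213)) (PT.lf (nat_lit 32300) (nat_lit 6) (nat_lit 425) (nat_lit 3) (nat_lit 182) (nat_lit 176) (nat_lit 212))) (PT.nd (nat_lit 78) (PT.lf (nat_lit 34048) (nat_lit 6) (nat_lit 448) (nat_lit 3) (nat_lit 183) (nat_lit 176) (nat_lit 211)) (PT.lf (nat_lit 35720) (nat_lit 6) (nat_lit 470) (nat_lit 3) (nat_lit 184) (nat_lit 176) (nat_lit 210)))) (PT.nd (nat_lit 156)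 (PT.nd (nat_lit 78) (PT.lf (nat_lit 37316) (nat_lit 6) (nat_lit 491) (nat_lit 3) (nat_lit 185) (nat_lit 176) (nat_lit 209)) (PT.lf (nat_lit 38836) (nat_lit 6) (nat_lit 511) (nat_lit 3) (nat_lit 186) (nat_lit 176) (nat_lit 208))) (PT.nd (nat_lit 78) (PT.lf (nat_lit 40280) (nat_lit 6) (nat_lit 530) (nat_lit 3) (nat_lit 187) (nat_lit 176) (nat_lit 207)) (PT.lf (nat_lit 41648) (nat_lit 6) (nat_lit 548) (nat_lit 3) (nat_lit 188) (nat_lit 176) (nat_lit 206))))))) (PT.nd (nat_lit 1170) (PT.nd (nat_lit 546) (PT.nd (nat_lit 234) (PT.nd (nat_lit 78) (PT.lf (nat_lit 42940) (nat_lit 6) (nat_lit 565) (nat_lit 3) (nat_lit 189) (nat_lit 176) (nat_lit 205)) (PT.nd (nat_lit 78) (PT.lf (nat_lit 44156) (nat_lit 6) (nat_lit 581) (nat_lit 3) (nat_lit 190) (nat_lit 176) (nat_lit 204)) (PT.lf (nat_lit 44232) (nat_lit 6) (nat_lit 582) (nat_lit 3) (nat_lit 191) (nat_lit 176) (nat_lit 203)))) (PT.nd (nat_lit 156) (PT.nd (nat_lit 78) (PT.lf (nat_lit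 44308) (nat_lit 6) (nat_lit 583) (nat_lit 3) (nat_lit 192) (nat_lit 176) (nat_lit 202)) (PT.lf (nat_lit 44384) (nat_lit 6) (nat_lit 584) (nat_lit 3) (nat_lit 193) (nat_lit 176) (nat_lit 201))) (PT.nd (nat_lit 78) (PT.lf (nat_lit 44460) (nat_lit 6) (nat_lit 585) (nat_lit 3) (nat_lit 194) (nat_lit 176) (nat_lit 200)) (PT.lf (nat_lit 44536) (nat_lit 6) (nat_lit 586) (nat_lit 3) (nat_lit 195) (nat_lit 176) (nat_lit 199))))) (PT.nd (nat_lit 312) (PT.nd (nat_lit 156) (PT.nd (nat_lit 78) (PT.lf (nat_lit 44612) (nat_lit 6) (nat_lit 587) (nat_lit 3) (nat_lit 196) (nat_lit 176) (nat_lit 198)) (PT.lf (nat_lit 44688) (nat_lit 3) (nat_lit 588) (nat_lit 1) (nat_lit 197) (nat_lit 176) (nat_lit 197))) (PT.nd (nat_lit 78) (PT.lf (nat_lit 44612) (nat_lit 6) (nat_lit 587) (nat_lit 1) (nat_lit 198) (nat_lit 176) (nat_lit 196)) (PT.lf (nat_lit 44536) (nat_lit 6) (nat_lit 586) (nat_lit 1) (nat_lit 199) (nat_lit 176) (nat_lit 195)))) (PT.nd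 (nat_lit 156) (PT.nd (nat_lit 78) (PT.lf (nat_lit 44460) (nat_lit 6) (nat_lit 585) (nat_lit 1) (nat_lit 200) (nat_lit 176) (nat_lit 194)) (PT.lf (nat_lit 44384) (nat_lit 6) (nat_lit 584) (nat_lit 1) (nat_lit 201) (nat_lit 176) (nat_lit 193))) (PT.nd (nat_lit 78) (PT.lf (nat_lit 44308) (nat_lit 6) (nat_lit 583) (nat_lit 1) (nat_lit 202) (nat_lit 176) (nat_lit 192)) (PT.lf (nat_lit 44232) (nat_lit 6) (nat_lit 582) (nat_lit 1) (nat_lit 203) (nat_lit 176) (nat_lit 191)))))) (PT.nd (nat_lit 546) (PT.nd (nat_lit 234) (PT.nd (nat_lit 78) (PT.lf (nat_lit 44156) (nat_lit 6) (nat_lit 581) (nat_lit 1) (nat_lit 204) (nat_lit 176) (nat_lit 190)) (PT.nd (nat_lit 78) (PT.lf (nat_lit 42940) (nat_lit 6) (nat_lit 565) (nat_lit 1) (nat_lit 205) (nat_lit 176) (nat_lit 189)) (PT.lf (nat_lit 41648) (nat_lit 6) (nat_lit 548) (nat_lit 1) (nat_lit 206) (nat_lit 176) (nat_lit 188)))) (PT.nd (nat_lit 156) (PT.nd (nat_lit 78) (PT.lf (nat_lit 40280)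 (nat_lit 6) (nat_lit 530) (nat_lit 1) (nat_lit 207) (nat_lit 176) (nat_lit 187)) (PT.lf (nat_lit 38836) (nat_lit 6) (nat_lit 511) (nat_lit 1) (nat_lit 208) (nat_lit 176) (nat_lit 186))) (PT.nd (nat_lit 78) (PT.lf (nat_lit 37316) (nat_lit 6) (nat_lit 491) (nat_lit 1) (nat_lit 209) (nat_lit 176) (nat_lit 185)) (PT.lf (nat_lit 35720) (nat_lit 6) (nat_lit 470) (nat_lit 1) (nat_lit 210) (nat_lit 176) (nat_lit 184))))) (PT.nd (nat_lit 57018) (PT.nd (nat_lit 156) (PT.nd (nat_lit 78) (PT.lf (nat_lit 34048) (nat_lit 6) (nat_lit 448) (nat_lit 1) (nat_lit 211) (nat_lit 176) (nat_lit 183)) (PT.lf (nat_lit 32300) (nat_lit 6) (nat_lit 425) (nat_lit 1) (nat_lit 212) (nat_lit 176) (nat_lit 182))) (PT.nd (nat_lit 56784) (PT.lf (nat_lit 30476) (nat_lit 6) (nat_lit 401) (nat_lit 1) (nat_lit 213) (nat_lit 176) (nat_lit 181)) (PT.lf (nat_lit 30400) (nat_lit 6) (nat_lit 400) (nat_lit 3) (nat_lit 180) (nat_lit 177) (nat_lit 213)))) (PT.nd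 (nat_lit 156) (PT.nd (nat_lit 78) (PT.lf (nat_lit 32224) (nat_lit 6) (nat_lit 424) (nat_lit 3) (nat_lit 181) (nat_lit 177) (nat_lit 212)) (PT.lf (nat_lit 33972) (nat_lit 6) (nat_lit 447) (nat_lit 3) (nat_lit 182) (nat_lit 177) (nat_lit 211))) (PT.nd (nat_lit 78) (PT.lf (nat_lit 35644) (nat_lit 6) (nat_lit 469) (nat_lit 3) (nat_lit 183) (nat_lit 177) (nat_lit 210)) (PT.lf (nat_lit 37240) (nat_lit 6) (nat_lit 490) (nat_lit 3) (nat_lit 184) (nat_lit 177) (nat_lit 209))))))))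
noncomputable def pc17 : PT := (PT.nd (nat_lit 58968) (PT.nd (nat_lit 1170) (PT.nd (nat_lit 546) (PT.nd (nat_lit 234) (PT.nd (nat_lit 78) (PT.lf (nat_lit 38760) (nat_lit 6) (nat_lit 510) (nat_lit 3) (nat_lit 185) (nat_lit 177) (nat_lit 208)) (PT.nd (nat_lit 78) (PT.lf (nat_lit 40204) (nat_lit 6) (nat_lit 529) (nat_lit 3) (nat_lit 186) (nat_lit 177) (nat_lit 207)) (PT.lf (nat_lit 41572) (nat_lit 6) (nat_lit 547) (nat_lit 3) (nat_lit 187) (nat_lit 177) (nat_lit 206)))) (PT.nd (nat_lit 156) (PT.nd (nat_lit 78) (PT.lf (nat_lit 42864) (nat_lit 6) (nat_lit 564) (nat_lit 3) (nat_lit 188) (nat_lit 177) (nat_lit 205)) (PT.lf (nat_lit 44080) (nat_lit 6) (nat_lit 580) (nat_lit 3) (nat_lit 189) (nat_lit 177) (nat_lit 204))) (PT.nd (nat_lit 78) (PT.lf (nat_lit 45220) (nat_lit 6) (nat_lit 595) (nat_lit 3) (nat_lit 190) (nat_lit 177) (nat_lit 203)) (PT.lf (nat_lit 45296) (nat_lit 6) (nat_lit 596) (nat_lit 3) (nat_lit 191) (nat_lit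 177) (nat_lit 202))))) (PT.nd (nat_lit 312) (PT.nd (nat_lit 156) (PT.nd (nat_lit 78) (PT.lf (nat_lit 45372) (nat_lit 6) (nat_lit 597) (nat_lit 3) (nat_lit 192) (nat_lit 177) (nat_lit 201)) (PT.lf (nat_lit 45448) (nat_lit 6) (nat_lit 598) (nat_lit 3) (nat_lit 193) (nat_lit 177) (nat_lit 200))) (PT.nd (nat_lit 78) (PT.lf (nat_lit 45524) (nat_lit 6) (nat_lit 599) (nat_lit 3) (nat_lit 194) (nat_lit 177) (nat_lit 199)) (PT.lf (nat_lit 45600) (nat_lit 6) (nat_lit 600) (nat_lit 3) (nat_lit 195) (nat_lit 177) (nat_lit 198)))) (PT.nd (nat_lit 156) (PT.nd (nat_lit 78) (PT.lf (nat_lit 45676) (nat_lit 6) (nat_lit 601) (nat_lit 3) (nat_lit 196) (nat_lit 177) (nat_lit 197)) (PT.lf (nat_lit 45676) (nat_lit 6) (nat_lit 601) (nat_lit 1) (nat_lit 197) (nat_lit 177) (nat_lit 196))) (PT.nd (nat_lit 78) (PT.lf (nat_lit 45600) (nat_lit 6) (nat_lit 600) (nat_lit 1) (nat_lit 198) (nat_lit 177) (nat_lit 195)) (PT.lf (nat_lit 45524) (nat_lit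 6) (nat_lit 599) (nat_lit 1) (nat_lit 199) (nat_lit 177) (nat_lit 194)))))) (PT.nd (nat_lit 546) (PT.nd (nat_lit 234) (PT.nd (nat_lit 78) (PT.lf (nat_lit 45448) (nat_lit 6) (nat_lit 598) (nat_lit 1) (nat_lit 200) (nat_lit 177) (nat_lit 193)) (PT.nd (nat_lit 78) (PT.lf (nat_lit 45372) (nat_lit 6) (nat_lit 597) (nat_lit 1) (nat_lit 201) (nat_lit 177) (nat_lit 192)) (PT.lf (nat_lit 45296) (nat_lit 6) (nat_lit 596) (nat_lit 1) (nat_lit 202) (nat_lit 177) (nat_lit 191)))) (PT.nd (nat_lit 156) (PT.nd (nat_lit 78) (PT.lf (nat_lit 45220) (nat_lit 6) (nat_lit 595) (nat_lit 1) (nat_lit 203) (nat_lit 177) (nat_lit 190)) (PT.lf (nat_lit 44080) (nat_lit 6) (nat_lit 580) (nat_lit 1) (nat_lit 204) (nat_lit 177) (nat_lit 189))) (PT.nd (nat_lit 78) (PT.lf (nat_lit 42864) (nat_lit 6) (nat_lit 564) (nat_lit 1) (nat_lit 205) (nat_lit 177) (nat_lit 188)) (PT.lf (nat_lit 41572) (nat_lit 6) (nat_lit 547) (nat_lit 1) (nat_lit 206) (nat_lit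 177) (nat_lit 187))))) (PT.nd (nat_lit 312) (PT.nd (nat_lit 156) (PT.nd (nat_lit 78) (PT.lf (nat_lit 40204) (nat_lit 6) (nat_lit 529) (nat_lit 1) (nat_lit 207) (nat_lit 177) (nat_lit 186)) (PT.lf (nat_lit 38760) (nat_lit 6) (nat_lit 510) (nat_lit 1) (nat_lit 208) (nat_lit 177) (nat_lit 185))) (PT.nd (nat_lit 78) (PT.lf (nat_lit 37240) (nat_lit 6) (nat_lit 490) (nat_lit 1) (nat_lit 209) (nat_lit 177) (nat_lit 184)) (PT.lf (nat_lit 35644) (nat_lit 6) (nat_lit 469) (nat_lit 1) (nat_lit 210) (nat_lit 177) (nat_lit 183)))) (PT.nd (nat_lit 156) (PT.nd (nat_lit 78) (PT.lf (nat_lit 33972) (nat_lit 6) (nat_lit 447) (nat_lit 1) (nat_lit 211) (nat_lit 177) (nat_lit 182)) (PT.lf (nat_lit 32224) (nat_lit 6) (nat_lit 424) (nat_lit 1) (nat_lit 212) (nat_lit 177) (nat_lit 181))) (PT.nd (nat_lit 56706) (PT.lf (nat_lit 30400) (nat_lit 6) (nat_lit 400) (nat_lit 1) (nat_lit 213) (nat_lit 177) (nat_lit 180)) (PT.lf (nat_lit 30324) (nat_lit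 6) (nat_lit 399) (nat_lit 3) (nat_lit 179) (nat_lit 178) (nat_lit 213))))))) (PT.nd (nat_lit 1170) (PT.nd (nat_lit 546) (PT.nd (nat_lit 234) (PT.nd (nat_lit 78) (PT.lf (nat_lit 32148) (nat_lit 6) (nat_lit 423) (nat_lit 3) (nat_lit 180) (nat_lit 178) (nat_lit 212)) (PT.nd (nat_lit 78) (PT.lf (nat_lit 33896) (nat_lit 6) (nat_lit 446) (nat_lit 3) (nat_lit 181) (nat_lit 178) (nat_lit 211)) (PT.lf (nat_lit 35568) (nat_lit 6) (nat_lit 468) (nat_lit 3) (nat_lit 182) (nat_lit 178) (nat_lit 210)))) (PT.nd (nat_lit 156) (PT.nd (nat_lit 78) (PT.lf (nat_lit 37164) (nat_lit 6) (nat_lit 489) (nat_lit 3) (nat_lit 183) (nat_lit 178) (nat_lit 209)) (PT.lf (nat_lit 38684) (nat_lit 6) (nat_lit 509) (nat_lit 3) (nat_lit 184) (nat_lit 178) (nat_lit 208))) (PT.nd (nat_lit 78) (PT.lf (nat_lit 40128) (nat_lit 6) (nat_lit 528) (nat_lit 3) (nat_lit 185) (nat_lit 178) (nat_lit 207)) (PT.lf (nat_lit 41496) (nat_lit 6) (nat_lit 546) (nat_lit 3)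 (nat_lit 186) (nat_lit 178) (nat_lit 206))))) (PT.nd (nat_lit 312) (PT.nd (nat_lit 156) (PT.nd (nat_lit 78) (PT.lf (nat_lit 42788) (nat_lit 6) (nat_lit 563) (nat_lit 3) (nat_lit 187) (nat_lit 178) (nat_lit 205)) (PT.lf (nat_lit 44004) (nat_lit 6) (nat_lit 579) (nat_lit 3) (nat_lit 188) (nat_lit 178) (nat_lit 204))) (PT.nd (nat_lit 78) (PT.lf (nat_lit 45144) (nat_lit 6) (nat_lit 594) (nat_lit 3) (nat_lit 189) (nat_lit 178) (nat_lit 203)) (PT.lf (nat_lit 46208) (nat_lit 6) (nat_lit 608) (nat_lit 3) (nat_lit 190) (nat_lit 178) (nat_lit 202)))) (PT.nd (nat_lit 156) (PT.nd (nat_lit 78) (PT.lf (nat_lit 46284) (nat_lit 6) (nat_lit 609) (nat_lit 3) (nat_lit 191) (nat_lit 178) (nat_lit 201)) (PT.lf (nat_lit 46360) (nat_lit 6) (nat_lit 610) (nat_lit 3) (nat_lit 192) (nat_lit 178) (nat_lit 200))) (PT.nd (nat_lit 78) (PT.lf (nat_lit 46436) (nat_lit 6) (nat_lit 611) (nat_lit 3) (nat_lit 193) (nat_lit 178) (nat_lit 199)) (PT.lf (nat_lit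 46512) (nat_lit 6) (nat_lit 612) (nat_lit 3) (nat_lit 194) (nat_lit 178) (nat_lit 198)))))) (PT.nd (nat_lit 546) (PT.nd (nat_lit 234) (PT.nd (nat_lit 78) (PT.lf (nat_lit 46588) (nat_lit 6) (nat_lit 613) (nat_lit 3) (nat_lit 195) (nat_lit 178) (nat_lit 197)) (PT.nd (nat_lit 78) (PT.lf (nat_lit 46664) (nat_lit 3) (nat_lit 614) (nat_lit 1) (nat_lit 196) (nat_lit 178) (nat_lit 196)) (PT.lf (nat_lit 46588) (nat_lit 6) (nat_lit 613) (nat_lit 1) (nat_lit 197) (nat_lit 178) (nat_lit 195)))) (PT.nd (nat_lit 156) (PT.nd (nat_lit 78) (PT.lf (nat_lit 46512) (nat_lit 6) (nat_lit 612) (nat_lit 1) (nat_lit 198) (nat_lit 178) (nat_lit 194)) (PT.lf (nat_lit 46436) (nat_lit 6) (nat_lit 611) (nat_lit 1) (nat_lit 199) (nat_lit 178) (nat_lit 193))) (PT.nd (nat_lit 78) (PT.lf (nat_lit 46360) (nat_lit 6) (nat_lit 610) (nat_lit 1) (nat_lit 200) (nat_lit 178) (nat_lit 192)) (PT.lf (nat_lit 46284) (nat_lit 6) (nat_lit 609) (nat_lit 1) (nat_lit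 201) (nat_lit 178) (nat_lit 191))))) (PT.nd (nat_lit 312) (PT.nd (nat_lit 156) (PT.nd (nat_lit 78) (PT.lf (nat_lit 46208) (nat_lit 6) (nat_lit 608) (nat_lit 1) (nat_lit 202) (nat_lit 178) (nat_lit 190)) (PT.lf (nat_lit 45144) (nat_lit 6) (nat_lit 594) (nat_lit 1) (nat_lit 203) (nat_lit 178) (nat_lit 189))) (PT.nd (nat_lit 78) (PT.lf (nat_lit 44004) (nat_lit 6) (nat_lit 579) (nat_lit 1) (nat_lit 204) (nat_lit 178) (nat_lit 188)) (PT.lf (nat_lit 42788) (nat_lit 6) (nat_lit 563) (nat_lit 1) (nat_lit 205) (nat_lit 178) (nat_lit 187)))) (PT.nd (nat_lit 156) (PT.nd (nat_lit 78) (PT.lf (nat_lit 41496) (nat_lit 6) (nat_lit 546) (nat_lit 1) (nat_lit 206) (nat_lit 178) (nat_lit 186)) (PT.lf (nat_lit 40128) (nat_lit 6) (nat_lit 528) (nat_lit 1) (nat_lit 207) (nat_lit 178) (nat_lit 185))) (PT.nd (nat_lit 78) (PT.lf (nat_lit 38684) (nat_lit 6) (nat_lit 509) (nat_lit 1) (nat_lit 208) (nat_lit 178) (nat_lit 184)) (PT.lf (nat_lit 37164)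 (nat_lit 6) (nat_lit 489) (nat_lit 1) (nat_lit 209) (nat_lit 178) (nat_lit 183))))))))
noncomputable def pc18 : PT := (PT.nd (nat_lit 58890) (PT.nd (nat_lit 57720) (PT.nd (nat_lit 57096) (PT.nd (nat_lit 234) (PT.nd (nat_lit 78) (PT.lf (nat_lit 35568) (nat_lit 6) (nat_lit 468) (nat_lit 1) (nat_lit 210) (nat_lit 178) (nat_lit 182)) (PT.nd (nat_lit 78) (PT.lf (nat_lit 33896) (nat_lit 6) (nat_lit 446) (nat_lit 1) (nat_lit 211) (nat_lit 178) (nat_lit 181)) (PT.lf (nat_lit 32148) (nat_lit 6) (nat_lit 423) (nat_lit 1) (nat_lit 212) (nat_lit 178) (nat_lit 180)))) (PT.nd (nat_lit 56706) (PT.nd (nat_lit 56628) (PT.lf (nat_lit 30324) (nat_lit 6) (nat_lit 399) (nat_lit 1) (nat_lit 213) (nat_lit 178) (nat_lit 179)) (PT.lf (nat_lit 30324) (nat_lit 6) (nat_lit 399) (nat_lit 5) (nat_lit 178) (nat_lit 179) (nat_lit 213))) (PT.nd (nat_lit 78) (PT.lf (nat_lit 32072) (nat_lit 3) (nat_lit 422) (nat_lit 3) (nat_lit 179) (nat_lit 179) (nat_lit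 212)) (PT.lf (nat_lit 33820) (nat_lit 6) (nat_lit 445) (nat_lit 3) (nat_lit 180) (nat_lit 179) (nat_lit 211))))) (PT.nd (nat_lit 312) (PT.nd (nat_lit 156) (PT.nd (nat_lit 78) (PT.lf (nat_lit 35492) (nat_lit 6) (nat_lit 467) (nat_lit 3) (nat_lit 181) (nat_lit 179) (nat_lit 210)) (PT.lf (nat_lit 37088) (nat_lit 6) (nat_lit 488) (nat_lit 3) (nat_lit 182) (nat_lit 179) (nat_lit 209))) (PT.nd (nat_lit 78) (PT.lf (nat_lit 38608) (nat_lit 6) (nat_lit 508) (nat_lit 3) (nat_lit 183) (nat_lit 179) (nat_lit 208)) (PT.lf (nat_lit 40052) (nat_lit 6) (nat_lit 527) (nat_lit 3) (nat_lit 184) (nat_lit 179) (nat_lit 207)))) (PT.nd (nat_lit 156) (PT.nd (nat_lit 78) (PT.lf (nat_lit 41420) (nat_lit 6) (nat_lit 545) (nat_lit 3) (nat_lit 185) (nat_lit 179) (nat_lit 206)) (PT.lf (nat_lit 42712) (nat_lit 6) (nat_lit 562) (nat_lit 3) (nat_lit 186) (nat_lit 179) (nat_lit 205))) (PT.nd (nat_lit 78) (PT.lf (nat_lit 43928) (nat_lit 6) (nat_lit 578)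 (nat_lit 3) (nat_lit 187) (nat_lit 179) (nat_lit 204)) (PT.lf (nat_lit 45068) (nat_lit 6) (nat_lit 593) (nat_lit 3) (nat_lit 188) (nat_lit 179) (nat_lit 203)))))) (PT.nd (nat_lit 546) (PT.nd (nat_lit 234) (PT.nd (nat_lit 78) (PT.lf (nat_lit 46132) (nat_lit 6) (nat_lit 607) (nat_lit 3) (nat_lit 189) (nat_lit 179) (nat_lit 202)) (PT.nd (nat_lit 78) (PT.lf (nat_lit 47120) (nat_lit 6) (nat_lit 620) (nat_lit 3) (nat_lit 190) (nat_lit 179) (nat_lit 201)) (PT.lf (nat_lit 47196) (nat_lit 6) (nat_lit 621) (nat_lit 3) (nat_lit 191) (nat_lit 179) (nat_lit 200)))) (PT.nd (nat_lit 156) (PT.nd (nat_lit 78) (PT.lf (nat_lit 47272) (nat_lit 6) (nat_lit 622) (nat_lit 3) (nat_lit 192) (nat_lit 179) (nat_lit 199)) (PT.lf (nat_lit 47348) (nat_lit 6) (nat_lit 623) (nat_lit 3) (nat_lit 193) (nat_lit 179) (nat_lit 198))) (PT.nd (nat_lit 78) (PT.lf (nat_lit 47424) (nat_lit 6) (nat_lit 624) (nat_lit 3) (nat_lit 194) (nat_lit 179) (nat_lit 197))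 (PT.lf (nat_lit 47500) (nat_lit 6) (nat_lit 625) (nat_lit 3) (nat_lit 195) (nat_lit 179) (nat_lit 196))))) (PT.nd (nat_lit 312) (PT.nd (nat_lit 156) (PT.nd (nat_lit 78) (PT.lf (nat_lit 47500) (nat_lit 6) (nat_lit 625) (nat_lit 1) (nat_lit 196) (nat_lit 179) (nat_lit 195)) (PT.lf (nat_lit 47424) (nat_lit 6) (nat_lit 624) (nat_lit 1) (nat_lit 197) (nat_lit 179) (nat_lit 194))) (PT.nd (nat_lit 78) (PT.lf (nat_lit 47348) (nat_lit 6) (nat_lit 623) (nat_lit 1) (nat_lit 198) (nat_lit 179) (nat_lit 193)) (PT.lf (nat_lit 47272) (nat_lit 6) (nat_lit 622) (nat_lit 1) (nat_lit 199) (nat_lit 179) (nat_lit 192)))) (PT.nd (nat_lit 156) (PT.nd (nat_lit 78) (PT.lf (nat_lit 47196) (nat_lit 6) (nat_lit 621) (nat_lit 1) (nat_lit 200) (nat_lit 179) (nat_lit 191)) (PT.lf (nat_lit 47120) (nat_lit 6) (nat_lit 620) (nat_lit 1) (nat_lit 201) (nat_lit 179) (nat_lit 190))) (PT.nd (nat_lit 78) (PT.lf (nat_lit 46132) (nat_lit 6) (nat_lit 607) (nat_lit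 1) (nat_lit 202) (nat_lit 179) (nat_lit 189)) (PT.lf (nat_lit 45068) (nat_lit 6) (nat_lit 593) (nat_lit 1) (nat_lit 203) (nat_lit 179) (nat_lit 188))))))) (PT.nd (nat_lit 57642) (PT.nd (nat_lit 546) (PT.nd (nat_lit 234) (PT.nd (nat_lit 78) (PT.lf (nat_lit 43928) (nat_lit 6) (nat_lit 578) (nat_lit 1) (nat_lit 204) (nat_lit 179) (nat_lit 187)) (PT.nd (nat_lit 78) (PT.lf (nat_lit 42712) (nat_lit 6) (nat_lit 562) (nat_lit 1) (nat_lit 205) (nat_lit 179) (nat_lit 186)) (PT.lf (nat_lit 41420) (nat_lit 6) (nat_lit 545) (nat_lit 1) (nat_lit 206) (nat_lit 179) (nat_lit 185)))) (PT.nd (nat_lit 156) (PT.nd (nat_lit 78) (PT.lf (nat_lit 40052) (nat_lit 6) (nat_lit 527) (nat_lit 1) (nat_lit 207) (nat_lit 179) (nat_lit 184)) (PT.lf (nat_lit 38608) (nat_lit 6) (nat_lit 508) (nat_lit 1) (nat_lit 208) (nat_lit 179) (nat_lit 183))) (PT.nd (nat_lit 78) (PT.lf (nat_lit 37088) (nat_lit 6) (nat_lit 488) (nat_lit 1) (nat_lit 209) (nat_lit 179)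 (nat_lit 182)) (PT.lf (nat_lit 35492) (nat_lit 6) (nat_lit 467) (nat_lit 1) (nat_lit 210) (nat_lit 179) (nat_lit 181))))) (PT.nd (nat_lit 56784) (PT.nd (nat_lit 156) (PT.nd (nat_lit 78) (PT.lf (nat_lit 33820) (nat_lit 6) (nat_lit 445) (nat_lit 1) (nat_lit 211) (nat_lit 179) (nat_lit 180)) (PT.lf (nat_lit 32072) (nat_lit 3) (nat_lit 422) (nat_lit 0) (nat_lit 212) (nat_lit 179) (nat_lit 179))) (PT.nd (nat_lit 56550) (PT.lf (nat_lit 30324) (nat_lit 6) (nat_lit 399) (nat_lit 0) (nat_lit 213) (nat_lit 179) (nat_lit 178)) (PT.lf (nat_lit 30400) (nat_lit 6) (nat_lit 400) (nat_lit 5) (nat_lit 177) (nat_lit 180) (nat_lit 213)))) (PT.nd (nat_lit 156) (PT.nd (nat_lit 78) (PT.lf (nat_lit 32148) (nat_lit 6) (nat_lit 423) (nat_lit 5) (nat_lit 178) (nat_lit 180) (nat_lit 212)) (PT.lf (nat_lit 33820) (nat_lit 6) (nat_lit 445) (nat_lit 5) (nat_lit 179) (nat_lit 180) (nat_lit 211))) (PT.nd (nat_lit 78) (PT.lf (nat_lit 35416) (nat_lit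 3) (nat_lit 466) (nat_lit 3) (nat_lit 180) (nat_lit 180) (nat_lit 210)) (PT.lf (nat_lit 37012) (nat_lit 6) (nat_lit 487) (nat_lit 3) (nat_lit 181) (nat_lit 180) (nat_lit 209)))))) (PT.nd (nat_lit 546) (PT.nd (nat_lit 234) (PT.nd (nat_lit 78) (PT.lf (nat_lit 38532) (nat_lit 6) (nat_lit 507) (nat_lit 3) (nat_lit 182) (nat_lit 180) (nat_lit 208)) (PT.nd (nat_lit 78) (PT.lf (nat_lit 39976) (nat_lit 6) (nat_lit 526) (nat_lit 3) (nat_lit 183) (nat_lit 180) (nat_lit 207)) (PT.lf (nat_lit 41344) (nat_lit 6) (nat_lit 544) (nat_lit 3) (nat_lit 184) (nat_lit 180) (nat_lit 206)))) (PT.nd (nat_lit 156) (PT.nd (nat_lit 78) (PT.lf (nat_lit 42636) (nat_lit 6) (nat_lit 561) (nat_lit 3) (nat_lit 185) (nat_lit 180) (nat_lit 205)) (PT.lf (nat_lit 43852) (nat_lit 6) (nat_lit 577) (nat_lit 3) (nat_lit 186) (nat_lit 180) (nat_lit 204))) (PT.nd (nat_lit 78) (PT.lf (nat_lit 44992) (nat_lit 6) (nat_lit 592) (nat_lit 3) (nat_lit 187) (nat_lit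 180) (nat_lit 203)) (PT.lf (nat_lit 46056) (nat_lit 6) (nat_lit 606) (nat_lit 3) (nat_lit 188) (nat_lit 180) (nat_lit 202))))) (PT.nd (nat_lit 312) (PT.nd (nat_lit 156) (PT.nd (nat_lit 78) (PT.lf (nat_lit 47044) (nat_lit 6) (nat_lit 619) (nat_lit 3) (nat_lit 189) (nat_lit 180) (nat_lit 201)) (PT.lf (nat_lit 47956) (nat_lit 6) (nat_lit 631) (nat_lit 3) (nat_lit 190) (nat_lit 180) (nat_lit 200))) (PT.nd (nat_lit 78) (PT.lf (nat_lit 48032) (nat_lit 6) (nat_lit 632) (nat_lit 3) (nat_lit 191) (nat_lit 180) (nat_lit 199)) (PT.lf (nat_lit 48108) (nat_lit 6) (nat_lit 633) (nat_lit 3) (nat_lit 192) (nat_lit 180) (nat_lit 198)))) (PT.nd (nat_lit 156) (PT.nd (nat_lit 78) (PT.lf (nat_lit 48184) (nat_lit 6) (nat_lit 634) (nat_lit 3) (nat_lit 193) (nat_lit 180) (nat_lit 197)) (PT.lf (nat_lit 48260) (nat_lit 6) (nat_lit 635) (nat_lit 3) (nat_lit 194) (nat_lit 180) (nat_lit 196))) (PT.nd (nat_lit 78) (PT.lf (nat_lit 48336) (nat_lit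 3) (nat_lit 636) (nat_lit 1) (nat_lit 195) (nat_lit 180) (nat_lit 195)) (PT.lf (nat_lit 48260) (nat_lit 6) (nat_lit 635) (nat_lit 1) (nat_lit 196) (nat_lit 180) (nat_lit 194))))))))
noncomputable def pc19 : PT := (PT.nd (nat_lit 58734) (PT.nd (nat_lit 1170) (PT.nd (nat_lit 546) (PT.nd (nat_lit 234) (PT.nd (nat_lit 78) (PT.lf (nat_lit 48184) (nat_lit 6) (nat_lit 634) (nat_lit 1) (nat_lit 197) (nat_lit 180) (nat_lit 193)) (PT.nd (nat_lit 78) (PT.lf (nat_lit 48108) (nat_lit 6) (nat_lit 633) (nat_lit 1) (nat_lit 198) (nat_lit 180) (nat_lit 192)) (PT.lf (nat_lit 48032) (nat_lit 6) (nat_lit 632) (nat_lit 1) (nat_lit 199) (nat_lit 180) (nat_lit 191)))) (PT.nd (nat_lit 156) (PT.nd (nat_lit 78) (PT.lf (nat_lit 47956) (nat_lit 6) (nat_lit 631) (nat_lit 1) (nat_lit 200) (nat_lit 180) (nat_lit 190)) (PT.lf (nat_lit 47044) (nat_lit 6) (nat_lit 619) (nat_lit 1) (nat_lit 201) (nat_lit 180) (nat_lit 189))) (PT.nd (nat_lit 78) (PT.lf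 (nat_lit 46056) (nat_lit 6) (nat_lit 606) (nat_lit 1) (nat_lit 202) (nat_lit 180) (nat_lit 188)) (PT.lf (nat_lit 44992) (nat_lit 6) (nat_lit 592) (nat_lit 1) (nat_lit 203) (nat_lit 180) (nat_lit 187))))) (PT.nd (nat_lit 312) (PT.nd (nat_lit 156) (PT.nd (nat_lit 78) (PT.lf (nat_lit 43852) (nat_lit 6) (nat_lit 577) (nat_lit 1) (nat_lit 204) (nat_lit 180) (nat_lit 186)) (PT.lf (nat_lit 42636) (nat_lit 6) (nat_lit 561) (nat_lit 1) (nat_lit 205) (nat_lit 180) (nat_lit 185))) (PT.nd (nat_lit 78) (PT.lf (nat_lit 41344) (nat_lit 6) (nat_lit 544) (nat_lit 1) (nat_lit 206) (nat_lit 180) (nat_lit 184)) (PT.lf (nat_lit 39976) (nat_lit 6) (nat_lit 526) (nat_lit 1) (nat_lit 207) (nat_lit 180) (nat_lit 183)))) (PT.nd (nat_lit 156) (PT.nd (nat_lit 78) (PT.lf (nat_lit 38532) (nat_lit 6) (nat_lit 507) (nat_lit 1) (nat_lit 208) (nat_lit 180) (nat_lit 182)) (PT.lf (nat_lit 37012) (nat_lit 6) (nat_lit 487) (nat_lit 1) (nat_lit 209) (nat_lit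 180) (nat_lit 181))) (PT.nd (nat_lit 78) (PT.lf (nat_lit 35416) (nat_lit 3) (nat_lit 466) (nat_lit 0) (nat_lit 210) (nat_lit 180) (nat_lit 180)) (PT.lf (nat_lit 33820) (nat_lit 6) (nat_lit 445) (nat_lit 0) (nat_lit 211) (nat_lit 180) (nat_lit 179)))))) (PT.nd (nat_lit 56940) (PT.nd (nat_lit 56628) (PT.nd (nat_lit 78) (PT.lf (nat_lit 32148) (nat_lit 6) (nat_lit 423) (nat_lit 0) (nat_lit 212) (nat_lit 180) (nat_lit 178)) (PT.nd (nat_lit 56472) (PT.lf (nat_lit 30400) (nat_lit 6) (nat_lit 400) (nat_lit 0) (nat_lit 213) (nat_lit 180) (nat_lit 177)) (PT.lf (nat_lit 30476) (nat_lit 6) (nat_lit 401) (nat_lit 5) (nat_lit 176) (nat_lit 181) (nat_lit 213)))) (PT.nd (nat_lit 156) (PT.nd (nat_lit 78) (PT.lf (nat_lit 32224) (nat_lit 6) (nat_lit 424) (nat_lit 5) (nat_lit 177) (nat_lit 181) (nat_lit 212)) (PT.lf (nat_lit 33896) (nat_lit 6) (nat_lit 446) (nat_lit 5) (nat_lit 178) (nat_lit 181) (nat_lit 211))) (PT.nd (nat_lit 78) (PT.lf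 (nat_lit 35492) (nat_lit 6) (nat_lit 467) (nat_lit 5) (nat_lit 179) (nat_lit 181) (nat_lit 210)) (PT.lf (nat_lit 37012) (nat_lit 6) (nat_lit 487) (nat_lit 5) (nat_lit 180) (nat_lit 181) (nat_lit 209))))) (PT.nd (nat_lit 312) (PT.nd (nat_lit 156) (PT.nd (nat_lit 78) (PT.lf (nat_lit 38456) (nat_lit 3) (nat_lit 506) (nat_lit 3) (nat_lit 181) (nat_lit 181) (nat_lit 208)) (PT.lf (nat_lit 39900) (nat_lit 6) (nat_lit 525) (nat_lit 3) (nat_lit 182) (nat_lit 181) (nat_lit 207))) (PT.nd (nat_lit 78) (PT.lf (nat_lit 41268) (nat_lit 6) (nat_lit 543) (nat_lit 3) (nat_lit 183) (nat_lit 181) (nat_lit 206)) (PT.lf (nat_lit 42560) (nat_lit 6) (nat_lit 560) (nat_lit 3) (nat_lit 184) (nat_lit 181) (nat_lit 205)))) (PT.nd (nat_lit 156) (PT.nd (nat_lit 78) (PT.lf (nat_lit 43776) (nat_lit 6) (nat_lit 576) (nat_lit 3) (nat_lit 185) (nat_lit 181) (nat_lit 204)) (PT.lf (nat_lit 44916) (nat_lit 6) (nat_lit 591) (nat_lit 3) (nat_lit 186) (nat_lit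 181) (nat_lit 203))) (PT.nd (nat_lit 78) (PT.lf (nat_lit 45980) (nat_lit 6) (nat_lit 605) (nat_lit 3) (nat_lit 187) (nat_lit 181) (nat_lit 202)) (PT.lf (nat_lit 46968) (nat_lit 6) (nat_lit 618) (nat_lit 3) (nat_lit 188) (nat_lit 181) (nat_lit 201))))))) (PT.nd (nat_lit 1170) (PT.nd (nat_lit 546) (PT.nd (nat_lit 234) (PT.nd (nat_lit 78) (PT.lf (nat_lit 47880) (nat_lit 6) (nat_lit 630) (nat_lit 3) (nat_lit 189) (nat_lit 181) (nat_lit 200)) (PT.nd (nat_lit 78) (PT.lf (nat_lit 48716) (nat_lit 6) (nat_lit 641) (nat_lit 3) (nat_lit 190) (nat_lit 181) (nat_lit 199)) (PT.lf (nat_lit 48792) (nat_lit 6) (nat_lit 642) (nat_lit 3) (nat_lit 191) (nat_lit 181) (nat_lit 198)))) (PT.nd (nat_lit 156) (PT.nd (nat_lit 78) (PT.lf (nat_lit 48868) (nat_lit 6) (nat_lit 643) (nat_lit 3) (nat_lit 192) (nat_lit 181) (nat_lit 197)) (PT.lf (nat_lit 48944) (nat_lit 6) (nat_lit 644) (nat_lit 3) (nat_lit 193) (nat_lit 181) (nat_lit 196))) (PT.nd (nat_lit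 78) (PT.lf (nat_lit 49020) (nat_lit 6) (nat_lit 645) (nat_lit 3) (nat_lit 194) (nat_lit 181) (nat_lit 195)) (PT.lf (nat_lit 49020) (nat_lit 6) (nat_lit 645) (nat_lit 1) (nat_lit 195) (nat_lit 181) (nat_lit 194))))) (PT.nd (nat_lit 312) (PT.nd (nat_lit 156) (PT.nd (nat_lit 78) (PT.lf (nat_lit 48944) (nat_lit 6) (nat_lit 644) (nat_lit 1) (nat_lit 196) (nat_lit 181) (nat_lit 193)) (PT.lf (nat_lit 48868) (nat_lit 6) (nat_lit 643) (nat_lit 1) (nat_lit 197) (nat_lit 181) (nat_lit 192))) (PT.nd (nat_lit 78) (PT.lf (nat_lit 48792) (nat_lit 6) (nat_lit 642) (nat_lit 1) (nat_lit 198) (nat_lit 181) (nat_lit 191)) (PT.lf (nat_lit 48716) (nat_lit 6) (nat_lit 641) (nat_lit 1) (nat_lit 199) (nat_lit 181) (nat_lit 190)))) (PT.nd (nat_lit 156) (PT.nd (nat_lit 78) (PT.lf (nat_lit 47880) (nat_lit 6) (nat_lit 630) (nat_lit 1) (nat_lit 200) (nat_lit 181) (nat_lit 189)) (PT.lf (nat_lit 46968) (nat_lit 6) (nat_lit 618) (nat_lit 1) (nat_lit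 201) (nat_lit 181) (nat_lit 188))) (PT.nd (nat_lit 78) (PT.lf (nat_lit 45980) (nat_lit 6) (nat_lit 605) (nat_lit 1) (nat_lit 202) (nat_lit 181) (nat_lit 187)) (PT.lf (nat_lit 44916) (nat_lit 6) (nat_lit 591) (nat_lit 1) (nat_lit 203) (nat_lit 181) (nat_lit 186)))))) (PT.nd (nat_lit 624) (PT.nd (nat_lit 312) (PT.nd (nat_lit 156) (PT.nd (nat_lit 78) (PT.lf (nat_lit 43776) (nat_lit 6) (nat_lit 576) (nat_lit 1) (nat_lit 204) (nat_lit 181) (nat_lit 185)) (PT.lf (nat_lit 42560) (nat_lit 6) (nat_lit 560) (nat_lit 1) (nat_lit 205) (nat_lit 181) (nat_lit 184))) (PT.nd (nat_lit 78) (PT.lf (nat_lit 41268) (nat_lit 6) (nat_lit 543) (nat_lit 1) (nat_lit 206) (nat_lit 181) (nat_lit 183)) (PT.lf (nat_lit 39900) (nat_lit 6) (nat_lit 525) (nat_lit 1) (nat_lit 207) (nat_lit 181) (nat_lit 182)))) (PT.nd (nat_lit 156) (PT.nd (nat_lit 78) (PT.lf (nat_lit 38456) (nat_lit 3) (nat_lit 506) (nat_lit 0) (nat_lit 208) (nat_lit 181) (nat_lit 181))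 (PT.lf (nat_lit 37012) (nat_lit 6) (nat_lit 487) (nat_lit 0) (nat_lit 209) (nat_lit 181) (nat_lit 180))) (PT.nd (nat_lit 78) (PT.lf (nat_lit 35492) (nat_lit 6) (nat_lit 467) (nat_lit 0) (nat_lit 210) (nat_lit 181) (nat_lit 179)) (PT.lf (nat_lit 33896) (nat_lit 6) (nat_lit 446) (nat_lit 0) (nat_lit 211) (nat_lit 181) (nat_lit 178))))) (PT.nd (nat_lit 56628) (PT.nd (nat_lit 56472) (PT.nd (nat_lit 78) (PT.lf (nat_lit 32224) (nat_lit 6) (nat_lit 424) (nat_lit 0) (nat_lit 212) (nat_lit 181) (nat_lit 177)) (PT.lf (nat_lit 30476) (nat_lit 6) (nat_lit 401) (nat_lit 0) (nat_lit 213) (nat_lit 181) (nat_lit 176))) (PT.nd (nat_lit 78) (PT.lf (nat_lit 30552) (nat_lit 6) (nat_lit 402) (nat_lit 5) (nat_lit 175) (nat_lit 182) (nat_lit 213)) (PT.lf (nat_lit 32300) (nat_lit 6) (nat_lit 425) (nat_lit 5) (nat_lit 176) (nat_lit 182) (nat_lit 212)))) (PT.nd (nat_lit 156) (PT.nd (nat_lit 78) (PT.lf (nat_lit 33972) (nat_lit 6) (nat_lit 447)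 (nat_lit 5) (nat_lit 177) (nat_lit 182) (nat_lit 211)) (PT.lf (nat_lit 35568) (nat_lit 6) (nat_lit 468) (nat_lit 5) (nat_lit 178) (nat_lit 182) (nat_lit 210))) (PT.nd (nat_lit 78) (PT.lf (nat_lit 37088) (nat_lit 6) (nat_lit 488) (nat_lit 5) (nat_lit 179) (nat_lit 182) (nat_lit 209)) (PT.lf (nat_lit 38532) (nat_lit 6) (nat_lit 507) (nat_lit 5) (nat_lit 180) (nat_lit 182) (nat_lit 208))))))))
noncomputable def pc20 : PT := (PT.nd (nat_lit 2340) (PT.nd (nat_lit 1170) (PT.nd (nat_lit 546) (PT.nd (nat_lit 234) (PT.nd (nat_lit 78) (PT.lf (nat_lit 39900) (nat_lit 6) (nat_lit 525) (nat_lit 5) (nat_lit 181) (nat_lit 182) (nat_lit 207)) (PT.nd (nat_lit 78) (PT.lf (nat_lit 41192) (nat_lit 3) (nat_lit 542) (nat_lit 3) (nat_lit 182) (nat_lit 182) (nat_lit 206)) (PT.lf (nat_lit 42484) (nat_lit 6) (nat_lit 559) (nat_lit 3) (nat_lit 183) (nat_lit 182) (nat_lit 205)))) (PT.nd (nat_lit 156) (PT.nd (nat_lit 78) (PT.lf (nat_lit 43700) (nat_lit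 6) (nat_lit 575) (nat_lit 3) (nat_lit 184) (nat_lit 182) (nat_lit 204)) (PT.lf (nat_lit 44840) (nat_lit 6) (nat_lit 590) (nat_lit 3) (nat_lit 185) (nat_lit 182) (nat_lit 203))) (PT.nd (nat_lit 78) (PT.lf (nat_lit 45904) (nat_lit 6) (nat_lit 604) (nat_lit 3) (nat_lit 186) (nat_lit 182) (nat_lit 202)) (PT.lf (nat_lit 46892) (nat_lit 6) (nat_lit 617) (nat_lit 3) (nat_lit 187) (nat_lit 182) (nat_lit 201))))) (PT.nd (nat_lit 312) (PT.nd (nat_lit 156) (PT.nd (nat_lit 78) (PT.lf (nat_lit 47804) (nat_lit 6) (nat_lit 629) (nat_lit 3) (nat_lit 188) (nat_lit 182) (nat_lit 200)) (PT.lf (nat_lit 48640) (nat_lit 6) (nat_lit 640) (nat_lit 3) (nat_lit 189) (nat_lit 182) (nat_lit 199))) (PT.nd (nat_lit 78) (PT.lf (nat_lit 49400) (nat_lit 6) (nat_lit 650) (nat_lit 3) (nat_lit 190) (nat_lit 182) (nat_lit 198)) (PT.lf (nat_lit 49476) (nat_lit 6) (nat_lit 651) (nat_lit 3) (nat_lit 191) (nat_lit 182) (nat_lit 197)))) (PT.nd (nat_lit 156)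 (PT.nd (nat_lit 78) (PT.lf (nat_lit 49552) (nat_lit 6) (nat_lit 652) (nat_lit 3) (nat_lit 192) (nat_lit 182) (nat_lit 196)) (PT.lf (nat_lit 49628) (nat_lit 6) (nat_lit 653) (nat_lit 3) (nat_lit 193) (nat_lit 182) (nat_lit 195))) (PT.nd (nat_lit 78) (PT.lf (nat_lit 49704) (nat_lit 3) (nat_lit 654) (nat_lit 1) (nat_lit 194) (nat_lit 182) (nat_lit 194)) (PT.lf (nat_lit 49628) (nat_lit 6) (nat_lit 653) (nat_lit 1) (nat_lit 195) (nat_lit 182) (nat_lit 193)))))) (PT.nd (nat_lit 546) (PT.nd (nat_lit 234) (PT.nd (nat_lit 78) (PT.lf (nat_lit 49552) (nat_lit 6) (nat_lit 652) (nat_lit 1) (nat_lit 196) (nat_lit 182) (nat_lit 192)) (PT.nd (nat_lit 78) (PT.lf (nat_lit 49476) (nat_lit 6) (nat_lit 651) (nat_lit 1) (nat_lit 197) (nat_lit 182) (nat_lit 191)) (PT.lf (nat_lit 49400) (nat_lit 6) (nat_lit 650) (nat_lit 1) (nat_lit 198) (nat_lit 182) (nat_lit 190)))) (PT.nd (nat_lit 156) (PT.nd (nat_lit 78) (PT.lf (nat_lit 48640) (nat_lit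 6) (nat_lit 640) (nat_lit 1) (nat_lit 199) (nat_lit 182) (nat_lit 189)) (PT.lf (nat_lit 47804) (nat_lit 6) (nat_lit 629) (nat_lit 1) (nat_lit 200) (nat_lit 182) (nat_lit 188))) (PT.nd (nat_lit 78) (PT.lf (nat_lit 46892) (nat_lit 6) (nat_lit 617) (nat_lit 1) (nat_lit 201) (nat_lit 182) (nat_lit 187)) (PT.lf (nat_lit 45904) (nat_lit 6) (nat_lit 604) (nat_lit 1) (nat_lit 202) (nat_lit 182) (nat_lit 186))))) (PT.nd (nat_lit 312) (PT.nd (nat_lit 156) (PT.nd (nat_lit 78) (PT.lf (nat_lit 44840) (nat_lit 6) (nat_lit 590) (nat_lit 1) (nat_lit 203) (nat_lit 182) (nat_lit 185)) (PT.lf (nat_lit 43700) (nat_lit 6) (nat_lit 575) (nat_lit 1) (nat_lit 204) (nat_lit 182) (nat_lit 184))) (PT.nd (nat_lit 78) (PT.lf (nat_lit 42484) (nat_lit 6) (nat_lit 559) (nat_lit 1) (nat_lit 205) (nat_lit 182) (nat_lit 183)) (PT.lf (nat_lit 41192) (nat_lit 3) (nat_lit 542) (nat_lit 0) (nat_lit 206) (nat_lit 182) (nat_lit 182)))) (PT.nd (nat_lit 156)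 (PT.nd (nat_lit 78) (PT.lf (nat_lit 39900) (nat_lit 6) (nat_lit 525) (nat_lit 0) (nat_lit 207) (nat_lit 182) (nat_lit 181)) (PT.lf (nat_lit 38532) (nat_lit 6) (nat_lit 507) (nat_lit 0) (nat_lit 208) (nat_lit 182) (nat_lit 180))) (PT.nd (nat_lit 78) (PT.lf (nat_lit 37088) (nat_lit 6) (nat_lit 488) (nat_lit 0) (nat_lit 209) (nat_lit 182) (nat_lit 179)) (PT.lf (nat_lit 35568) (nat_lit 6) (nat_lit 468) (nat_lit 0) (nat_lit 210) (nat_lit 182) (nat_lit 178))))))) (PT.nd (nat_lit 57408) (PT.nd (nat_lit 56784) (PT.nd (nat_lit 56472) (PT.nd (nat_lit 78) (PT.lf (nat_lit 33972) (nat_lit 6) (nat_lit 447) (nat_lit 0) (nat_lit 211) (nat_lit 182) (nat_lit 177)) (PT.nd (nat_lit 78) (PT.lf (nat_lit 32300) (nat_lit 6) (nat_lit 425) (nat_lit 0) (nat_lit 212) (nat_lit 182) (nat_lit 176)) (PT.lf (nat_lit 30552) (nat_lit 6) (nat_lit 402) (nat_lit 0) (nat_lit 213) (nat_lit 182) (nat_lit 175)))) (PT.nd (nat_lit 156) (PT.nd (nat_lit 78) (PT.lf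 (nat_lit 30628) (nat_lit 6) (nat_lit 403) (nat_lit 5) (nat_lit 174) (nat_lit 183) (nat_lit 213)) (PT.lf (nat_lit 32376) (nat_lit 6) (nat_lit 426) (nat_lit 5) (nat_lit 175) (nat_lit 183) (nat_lit 212))) (PT.nd (nat_lit 78) (PT.lf (nat_lit 34048) (nat_lit 6) (nat_lit 448) (nat_lit 5) (nat_lit 176) (nat_lit 183) (nat_lit 211)) (PT.lf (nat_lit 35644) (nat_lit 6) (nat_lit 469) (nat_lit 5) (nat_lit 177) (nat_lit 183) (nat_lit 210))))) (PT.nd (nat_lit 312) (PT.nd (nat_lit 156) (PT.nd (nat_lit 78) (PT.lf (nat_lit 37164) (nat_lit 6) (nat_lit 489) (nat_lit 5) (nat_lit 178) (nat_lit 183) (nat_lit 209)) (PT.lf (nat_lit 38608) (nat_lit 6) (nat_lit 508) (nat_lit 5) (nat_lit 179) (nat_lit 183) (nat_lit 208))) (PT.nd (nat_lit 78) (PT.lf (nat_lit 39976) (nat_lit 6) (nat_lit 526) (nat_lit 5) (nat_lit 180) (nat_lit 183) (nat_lit 207)) (PT.lf (nat_lit 41268) (nat_lit 6) (nat_lit 543) (nat_lit 5) (nat_lit 181) (nat_lit 183) (nat_lit 206))))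 (PT.nd (nat_lit 156) (PT.nd (nat_lit 78) (PT.lf (nat_lit 42484) (nat_lit 6) (nat_lit 559) (nat_lit 5) (nat_lit 182) (nat_lit 183) (nat_lit 205)) (PT.lf (nat_lit 43624) (nat_lit 3) (nat_lit 574) (nat_lit 3) (nat_lit 183) (nat_lit 183) (nat_lit 204))) (PT.nd (nat_lit 78) (PT.lf (nat_lit 44764) (nat_lit 6) (nat_lit 589) (nat_lit 3) (nat_lit 184) (nat_lit 183) (nat_lit 203)) (PT.lf (nat_lit 45828) (nat_lit 6) (nat_lit 603) (nat_lit 3) (nat_lit 185) (nat_lit 183) (nat_lit 202)))))) (PT.nd (nat_lit 546) (PT.nd (nat_lit 234) (PT.nd (nat_lit 78) (PT.lf (nat_lit 46816) (nat_lit 6) (nat_lit 616) (nat_lit 3) (nat_lit 186) (nat_lit 183) (nat_lit 201)) (PT.nd (nat_lit 78) (PT.lf (nat_lit 47728) (nat_lit 6) (nat_lit 628) (nat_lit 3) (nat_lit 187) (nat_lit 183) (nat_lit 200)) (PT.lf (nat_lit 48564) (nat_lit 6) (nat_lit 639) (nat_lit 3) (nat_lit 188) (nat_lit 183) (nat_lit 199)))) (PT.nd (nat_lit 156) (PT.nd (nat_lit 78) (PT.lf (nat_lit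 49324) (nat_lit 6) (nat_lit 649) (nat_lit 3) (nat_lit 189) (nat_lit 183) (nat_lit 198)) (PT.lf (nat_lit 50008) (nat_lit 6) (nat_lit 658) (nat_lit 3) (nat_lit 190) (nat_lit 183) (nat_lit 197))) (PT.nd (nat_lit 78) (PT.lf (nat_lit 50084) (nat_lit 6) (nat_lit 659) (nat_lit 3) (nat_lit 191) (nat_lit 183) (nat_lit 196)) (PT.lf (nat_lit 50160) (nat_lit 6) (nat_lit 660) (nat_lit 3) (nat_lit 192) (nat_lit 183) (nat_lit 195))))) (PT.nd (nat_lit 312) (PT.nd (nat_lit 156) (PT.nd (nat_lit 78) (PT.lf (nat_lit 50236) (nat_lit 6) (nat_lit 661) (nat_lit 3) (nat_lit 193) (nat_lit 183) (nat_lit 194)) (PT.lf (nat_lit 50236) (nat_lit 6) (nat_lit 661) (nat_lit 1) (nat_lit 194) (nat_lit 183) (nat_lit 193))) (PT.nd (nat_lit 78) (PT.lf (nat_lit 50160) (nat_lit 6) (nat_lit 660) (nat_lit 1) (nat_lit 195) (nat_lit 183) (nat_lit 192)) (PT.lf (nat_lit 50084) (nat_lit 6) (nat_lit 659) (nat_lit 1) (nat_lit 196) (nat_lit 183) (nat_lit 191)))) (PT.nd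 (nat_lit 156) (PT.nd (nat_lit 78) (PT.lf (nat_lit 50008) (nat_lit 6) (nat_lit 658) (nat_lit 1) (nat_lit 197) (nat_lit 183) (nat_lit 190)) (PT.lf (nat_lit 49324) (nat_lit 6) (nat_lit 649) (nat_lit 1) (nat_lit 198) (nat_lit 183) (nat_lit 189))) (PT.nd (nat_lit 78) (PT.lf (nat_lit 48564) (nat_lit 6) (nat_lit 639) (nat_lit 1) (nat_lit 199) (nat_lit 183) (nat_lit 188)) (PT.lf (nat_lit 47728) (nat_lit 6) (nat_lit 628) (nat_lit 1) (nat_lit 200) (nat_lit 183) (nat_lit 187))))))))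
noncomputable def pc21 : PT := (PT.nd (nat_lit 58500) (PT.nd (nat_lit 57330) (PT.nd (nat_lit 546) (PT.nd (nat_lit 234) (PT.nd (nat_lit 78) (PT.lf (nat_lit 46816) (nat_lit 6) (nat_lit 616) (nat_lit 1) (nat_lit 201) (nat_lit 183) (nat_lit 186)) (PT.nd (nat_lit 78) (PT.lf (nat_lit 45828) (nat_lit 6) (nat_lit 603) (nat_lit 1) (nat_lit 202) (nat_lit 183) (nat_lit 185)) (PT.lf (nat_lit 44764) (nat_lit 6) (nat_lit 589) (nat_lit 1) (nat_lit 203) (nat_lit 183) (nat_lit 184)))) (PT.nd (nat_lit 156) (PT.nd (nat_lit 78) (PT.lf (nat_lit 43624) (nat_lit 3) (nat_lit 574) (nat_lit 0) (nat_lit 204) (nat_lit 183) (nat_lit 183)) (PT.lf (nat_lit 42484) (nat_lit 6) (nat_lit 559) (nat_lit 0) (nat_lit 205) (nat_lit 183) (nat_lit 182))) (PT.nd (nat_lit 78) (PT.lf (nat_lit 41268) (nat_lit 6) (nat_lit 543) (nat_lit 0) (nat_lit 206) (nat_lit 183) (nat_lit 181)) (PT.lf (nat_lit 39976) (nat_lit 6) (nat_lit 526) (nat_lit 0) (nat_lit 207) (nat_lit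 183) (nat_lit 180))))) (PT.nd (nat_lit 312) (PT.nd (nat_lit 156) (PT.nd (nat_lit 78) (PT.lf (nat_lit 38608) (nat_lit 6) (nat_lit 508) (nat_lit 0) (nat_lit 208) (nat_lit 183) (nat_lit 179)) (PT.lf (nat_lit 37164) (nat_lit 6) (nat_lit 489) (nat_lit 0) (nat_lit 209) (nat_lit 183) (nat_lit 178))) (PT.nd (nat_lit 78) (PT.lf (nat_lit 35644) (nat_lit 6) (nat_lit 469) (nat_lit 0) (nat_lit 210) (nat_lit 183) (nat_lit 177)) (PT.lf (nat_lit 34048) (nat_lit 6) (nat_lit 448) (nat_lit 0) (nat_lit 211) (nat_lit 183) (nat_lit 176)))) (PT.nd (nat_lit 56316) (PT.nd (nat_lit 78) (PT.lf (nat_lit 32376) (nat_lit 6) (nat_lit 426) (nat_lit 0) (nat_lit 212) (nat_lit 183) (nat_lit 175)) (PT.lf (nat_lit 30628) (nat_lit 6) (nat_lit 403) (nat_lit 0) (nat_lit 213) (nat_lit 183) (nat_lit 174))) (PT.nd (nat_lit 78) (PT.lf (nat_lit 30704) (nat_lit 6) (nat_lit 404) (nat_lit 5) (nat_lit 173) (nat_lit 184) (nat_lit 213)) (PT.lf (nat_lit 32452) (nat_lit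 6) (nat_lit 427) (nat_lit 5) (nat_lit 174) (nat_lit 184) (nat_lit 212)))))) (PT.nd (nat_lit 546) (PT.nd (nat_lit 234) (PT.nd (nat_lit 78) (PT.lf (nat_lit 34124) (nat_lit 6) (nat_lit 449) (nat_lit 5) (nat_lit 175) (nat_lit 184) (nat_lit 211)) (PT.nd (nat_lit 78) (PT.lf (nat_lit 35720) (nat_lit 6) (nat_lit 470) (nat_lit 5) (nat_lit 176) (nat_lit 184) (nat_lit 210)) (PT.lf (nat_lit 37240) (nat_lit 6) (nat_lit 490) (nat_lit 5) (nat_lit 177) (nat_lit 184) (nat_lit 209)))) (PT.nd (nat_lit 156) (PT.nd (nat_lit 78) (PT.lf (nat_lit 38684) (nat_lit 6) (nat_lit 509) (nat_lit 5) (nat_lit 178) (nat_lit 184) (nat_lit 208)) (PT.lf (nat_lit 40052) (nat_lit 6) (nat_lit 527) (nat_lit 5) (nat_lit 179) (nat_lit 184) (nat_lit 207))) (PT.nd (nat_lit 78) (PT.lf (nat_lit 41344) (nat_lit 6) (nat_lit 544) (nat_lit 5) (nat_lit 180) (nat_lit 184) (nat_lit 206)) (PT.lf (nat_lit 42560) (nat_lit 6) (nat_lit 560) (nat_lit 5) (nat_lit 181) (nat_lit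 184) (nat_lit 205))))) (PT.nd (nat_lit 312) (PT.nd (nat_lit 156) (PT.nd (nat_lit 78) (PT.lf (nat_lit 43700) (nat_lit 6) (nat_lit 575) (nat_lit 5) (nat_lit 182) (nat_lit 184) (nat_lit 204)) (PT.lf (nat_lit 44764) (nat_lit 6) (nat_lit 589) (nat_lit 5) (nat_lit 183) (nat_lit 184) (nat_lit 203))) (PT.nd (nat_lit 78) (PT.lf (nat_lit 45752) (nat_lit 3) (nat_lit 602) (nat_lit 3) (nat_lit 184) (nat_lit 184) (nat_lit 202)) (PT.lf (nat_lit 46740) (nat_lit 6) (nat_lit 615) (nat_lit 3) (nat_lit 185) (nat_lit 184) (nat_lit 201)))) (PT.nd (nat_lit 156) (PT.nd (nat_lit 78) (PT.lf (nat_lit 47652) (nat_lit 6) (nat_lit 627) (nat_lit 3) (nat_lit 186) (nat_lit 184) (nat_lit 200)) (PT.lf (nat_lit 48488) (nat_lit 6) (nat_lit 638) (nat_lit 3) (nat_lit 187) (nat_lit 184) (nat_lit 199))) (PT.nd (nat_lit 78) (PT.lf (nat_lit 49248) (nat_lit 6) (nat_lit 648) (nat_lit 3) (nat_lit 188) (nat_lit 184) (nat_lit 198)) (PT.lf (nat_lit 49932) (nat_lit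 6) (nat_lit 657) (nat_lit 3) (nat_lit 189) (nat_lit 184) (nat_lit 197))))))) (PT.nd (nat_lit 1170) (PT.nd (nat_lit 546) (PT.nd (nat_lit 234) (PT.nd (nat_lit 78) (PT.lf (nat_lit 50540) (nat_lit 6) (nat_lit 665) (nat_lit 3) (nat_lit 190) (nat_lit 184) (nat_lit 196)) (PT.nd (nat_lit 78) (PT.lf (nat_lit 50616) (nat_lit 6) (nat_lit 666) (nat_lit 3) (nat_lit 191) (nat_lit 184) (nat_lit 195)) (PT.lf (nat_lit 50692) (nat_lit 6) (nat_lit 667) (nat_lit 3) (nat_lit 192) (nat_lit 184) (nat_lit 194)))) (PT.nd (nat_lit 156) (PT.nd (nat_lit 78) (PT.lf (nat_lit 50768) (nat_lit 3) (nat_lit 668) (nat_lit 1) (nat_lit 193) (nat_lit 184) (nat_lit 193)) (PT.lf (nat_lit 50692) (nat_lit 6) (nat_lit 667) (nat_lit 1) (nat_lit 194) (nat_lit 184) (nat_lit 192))) (PT.nd (nat_lit 78) (PT.lf (nat_lit 50616) (nat_lit 6) (nat_lit 666) (nat_lit 1) (nat_lit 195) (nat_lit 184) (nat_lit 191)) (PT.lf (nat_lit 50540) (nat_lit 6) (nat_lit 665) (nat_lit 1)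 (nat_lit 196) (nat_lit 184) (nat_lit 190))))) (PT.nd (nat_lit 312) (PT.nd (nat_lit 156) (PT.nd (nat_lit 78) (PT.lf (nat_lit 49932) (nat_lit 6) (nat_lit 657) (nat_lit 1) (nat_lit 197) (nat_lit 184) (nat_lit 189)) (PT.lf (nat_lit 49248) (nat_lit 6) (nat_lit 648) (nat_lit 1) (nat_lit 198) (nat_lit 184) (nat_lit 188))) (PT.nd (nat_lit 78) (PT.lf (nat_lit 48488) (nat_lit 6) (nat_lit 638) (nat_lit 1) (nat_lit 199) (nat_lit 184) (nat_lit 187)) (PT.lf (nat_lit 47652) (nat_lit 6) (nat_lit 627) (nat_lit 1) (nat_lit 200) (nat_lit 184) (nat_lit 186)))) (PT.nd (nat_lit 156) (PT.nd (nat_lit 78) (PT.lf (nat_lit 46740) (nat_lit 6) (nat_lit 615) (nat_lit 1) (nat_lit 201) (nat_lit 184) (nat_lit 185)) (PT.lf (nat_lit 45752) (nat_lit 3) (nat_lit 602) (nat_lit 0) (nat_lit 202) (nat_lit 184) (nat_lit 184))) (PT.nd (nat_lit 78) (PT.lf (nat_lit 44764) (nat_lit 6) (nat_lit 589) (nat_lit 0) (nat_lit 203) (nat_lit 184) (nat_lit 183)) (PT.lf (nat_lit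 43700) (nat_lit 6) (nat_lit 575) (nat_lit 0) (nat_lit 204) (nat_lit 184) (nat_lit 182)))))) (PT.nd (nat_lit 546) (PT.nd (nat_lit 234) (PT.nd (nat_lit 78) (PT.lf (nat_lit 42560) (nat_lit 6) (nat_lit 560) (nat_lit 0) (nat_lit 205) (nat_lit 184) (nat_lit 181)) (PT.nd (nat_lit 78) (PT.lf (nat_lit 41344) (nat_lit 6) (nat_lit 544) (nat_lit 0) (nat_lit 206) (nat_lit 184) (nat_lit 180)) (PT.lf (nat_lit 40052) (nat_lit 6) (nat_lit 527) (nat_lit 0) (nat_lit 207) (nat_lit 184) (nat_lit 179)))) (PT.nd (nat_lit 156) (PT.nd (nat_lit 78) (PT.lf (nat_lit 38684) (nat_lit 6) (nat_lit 509) (nat_lit 0) (nat_lit 208) (nat_lit 184) (nat_lit 178)) (PT.lf (nat_lit 37240) (nat_lit 6) (nat_lit 490) (nat_lit 0) (nat_lit 209) (nat_lit 184) (nat_lit 177))) (PT.nd (nat_lit 78) (PT.lf (nat_lit 35720) (nat_lit 6) (nat_lit 470) (nat_lit 0) (nat_lit 210) (nat_lit 184) (nat_lit 176)) (PT.lf (nat_lit 34124) (nat_lit 6) (nat_lit 449) (nat_lit 0) (nat_lit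 211) (nat_lit 184) (nat_lit 175))))) (PT.nd (nat_lit 56394) (PT.nd (nat_lit 56238) (PT.nd (nat_lit 78) (PT.lf (nat_lit 32452) (nat_lit 6) (nat_lit 427) (nat_lit 0) (nat_lit 212) (nat_lit 184) (nat_lit 174)) (PT.lf (nat_lit 30704) (nat_lit 6) (nat_lit 404) (nat_lit 0) (nat_lit 213) (nat_lit 184) (nat_lit 173))) (PT.nd (nat_lit 78) (PT.lf (nat_lit 30780) (nat_lit 6) (nat_lit 405) (nat_lit 5) (nat_lit 172) (nat_lit 185) (nat_lit 213)) (PT.lf (nat_lit 32528) (nat_lit 6) (nat_lit 428) (nat_lit 5) (nat_lit 173) (nat_lit 185) (nat_lit 212)))) (PT.nd (nat_lit 156) (PT.nd (nat_lit 78) (PT.lf (nat_lit 34200) (nat_lit 6) (nat_lit 450) (nat_lit 5) (nat_lit 174) (nat_lit 185) (nat_lit 211)) (PT.lf (nat_lit 35796) (nat_lit 6) (nat_lit 471) (nat_lit 5) (nat_lit 175) (nat_lit 185) (nat_lit 210))) (PT.nd (nat_lit 78) (PT.lf (nat_lit 37316) (nat_lit 6) (nat_lit 491) (nat_lit 5) (nat_lit 176) (nat_lit 185) (nat_lit 209)) (PT.lf (nat_lit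 38760) (nat_lit 6) (nat_lit 510) (nat_lit 5) (nat_lit 177) (nat_lit 185) (nat_lit 208))))))))
noncomputable def pc22 : PT := (PT.nd (nat_lit 2340) (PT.nd (nat_lit 1170) (PT.nd (nat_lit 546) (PT.nd (nat_lit 234) (PT.nd (nat_lit 78) (PT.lf (nat_lit 40128) (nat_lit 6) (nat_lit 528) (nat_lit 5) (nat_lit 178) (nat_lit 185) (nat_lit 207)) (PT.nd (nat_lit 78) (PT.lf (nat_lit 41420) (nat_lit 6) (nat_lit 545) (nat_lit 5) (nat_lit 179) (nat_lit 185) (nat_lit 206)) (PT.lf (nat_lit 42636) (nat_lit 6) (nat_lit 561) (nat_lit 5) (nat_lit 180) (nat_lit 185) (nat_lit 205)))) (PT.nd (nat_lit 156) (PT.nd (nat_lit 78) (PT.lf (nat_lit 43776) (nat_lit 6) (nat_lit 576) (nat_lit 5) (nat_lit 181) (nat_lit 185) (nat_lit 204)) (PT.lf (nat_lit 44840) (nat_lit 6) (nat_lit 590) (nat_lit 5) (nat_lit 182) (nat_lit 185) (nat_lit 203))) (PT.nd (nat_lit 78) (PT.lf (nat_lit 45828) (nat_lit 6) (nat_lit 603) (nat_lit 5) (nat_lit 183) (nat_lit 185) (nat_lit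 202)) (PT.lf (nat_lit 46740) (nat_lit 6) (nat_lit 615) (nat_lit 5) (nat_lit 184) (nat_lit 185) (nat_lit 201))))) (PT.nd (nat_lit 312) (PT.nd (nat_lit 156) (PT.nd (nat_lit 78) (PT.lf (nat_lit 47576) (nat_lit 3) (nat_lit 626) (nat_lit 3) (nat_lit 185) (nat_lit 185) (nat_lit 200)) (PT.lf (nat_lit 48412) (nat_lit 6) (nat_lit 637) (nat_lit 3) (nat_lit 186) (nat_lit 185) (nat_lit 199))) (PT.nd (nat_lit 78) (PT.lf (nat_lit 49172) (nat_lit 6) (nat_lit 647) (nat_lit 3) (nat_lit 187) (nat_lit 185) (nat_lit 198)) (PT.lf (nat_lit 49856) (nat_lit 6) (nat_lit 656) (nat_lit 3) (nat_lit 188) (nat_lit 185) (nat_lit 197)))) (PT.nd (nat_lit 156) (PT.nd (nat_lit 78) (PT.lf (nat_lit 50464) (nat_lit 6) (nat_lit 664) (nat_lit 3) (nat_lit 189) (nat_lit 185) (nat_lit 196)) (PT.lf (nat_lit 50996) (nat_lit 6) (nat_lit 671) (nat_lit 3) (nat_lit 190) (nat_lit 185) (nat_lit 195))) (PT.nd (nat_lit 78) (PT.lf (nat_lit 51072) (nat_lit 6) (nat_lit 672)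 (nat_lit 3) (nat_lit 191) (nat_lit 185) (nat_lit 194)) (PT.lf (nat_lit 51148) (nat_lit 6) (nat_lit 673) (nat_lit 3) (nat_lit 192) (nat_lit 185) (nat_lit 193)))))) (PT.nd (nat_lit 546) (PT.nd (nat_lit 234) (PT.nd (nat_lit 78) (PT.lf (nat_lit 51148) (nat_lit 6) (nat_lit 673) (nat_lit 1) (nat_lit 193) (nat_lit 185) (nat_lit 192)) (PT.nd (nat_lit 78) (PT.lf (nat_lit 51072) (nat_lit 6) (nat_lit 672) (nat_lit 1) (nat_lit 194) (nat_lit 185) (nat_lit 191)) (PT.lf (nat_lit 50996) (nat_lit 6) (nat_lit 671) (nat_lit 1) (nat_lit 195) (nat_lit 185) (nat_lit 190)))) (PT.nd (nat_lit 156) (PT.nd (nat_lit 78) (PT.lf (nat_lit 50464) (nat_lit 6) (nat_lit 664) (nat_lit 1) (nat_lit 196) (nat_lit 185) (nat_lit 189)) (PT.lf (nat_lit 49856) (nat_lit 6) (nat_lit 656) (nat_lit 1) (nat_lit 197) (nat_lit 185) (nat_lit 188))) (PT.nd (nat_lit 78) (PT.lf (nat_lit 49172) (nat_lit 6) (nat_lit 647) (nat_lit 1) (nat_lit 198) (nat_lit 185) (nat_lit 187))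 (PT.lf (nat_lit 48412) (nat_lit 6) (nat_lit 637) (nat_lit 1) (nat_lit 199) (nat_lit 185) (nat_lit 186))))) (PT.nd (nat_lit 312) (PT.nd (nat_lit 156) (PT.nd (nat_lit 78) (PT.lf (nat_lit 47576) (nat_lit 3) (nat_lit 626) (nat_lit 0) (nat_lit 200) (nat_lit 185) (nat_lit 185)) (PT.lf (nat_lit 46740) (nat_lit 6) (nat_lit 615) (nat_lit 0) (nat_lit 201) (nat_lit 185) (nat_lit 184))) (PT.nd (nat_lit 78) (PT.lf (nat_lit 45828) (nat_lit 6) (nat_lit 603) (nat_lit 0) (nat_lit 202) (nat_lit 185) (nat_lit 183)) (PT.lf (nat_lit 44840) (nat_lit 6) (nat_lit 590) (nat_lit 0) (nat_lit 203) (nat_lit 185) (nat_lit 182)))) (PT.nd (nat_lit 156) (PT.nd (nat_lit 78) (PT.lf (nat_lit 43776) (nat_lit 6) (nat_lit 576) (nat_lit 0) (nat_lit 204) (nat_lit 185) (nat_lit 181)) (PT.lf (nat_lit 42636) (nat_lit 6) (nat_lit 561) (nat_lit 0) (nat_lit 205) (nat_lit 185) (nat_lit 180))) (PT.nd (nat_lit 78) (PT.lf (nat_lit 41420) (nat_lit 6) (nat_lit 545) (nat_lit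 0) (nat_lit 206) (nat_lit 185) (nat_lit 179)) (PT.lf (nat_lit 40128) (nat_lit 6) (nat_lit 528) (nat_lit 0) (nat_lit 207) (nat_lit 185) (nat_lit 178))))))) (PT.nd (nat_lit 57174) (PT.nd (nat_lit 56550) (PT.nd (nat_lit 234) (PT.nd (nat_lit 78) (PT.lf (nat_lit 38760) (nat_lit 6) (nat_lit 510) (nat_lit 0) (nat_lit 208) (nat_lit 185) (nat_lit 177)) (PT.nd (nat_lit 78) (PT.lf (nat_lit 37316) (nat_lit 6) (nat_lit 491) (nat_lit 0) (nat_lit 209) (nat_lit 185) (nat_lit 176)) (PT.lf (nat_lit 35796) (nat_lit 6) (nat_lit 471) (nat_lit 0) (nat_lit 210) (nat_lit 185) (nat_lit 175)))) (PT.nd (nat_lit 156) (PT.nd (nat_lit 78) (PT.lf (nat_lit 34200) (nat_lit 6) (nat_lit 450) (nat_lit 0) (nat_lit 211) (nat_lit 185) (nat_lit 174)) (PT.lf (nat_lit 32528) (nat_lit 6) (nat_lit 428) (nat_lit 0) (nat_lit 212) (nat_lit 185) (nat_lit 173))) (PT.nd (nat_lit 56082) (PT.lf (nat_lit 30780) (nat_lit 6) (nat_lit 405) (nat_lit 0) (nat_lit 213) (nat_lit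 185) (nat_lit 172)) (PT.lf (nat_lit 30856) (nat_lit 6) (nat_lit 406) (nat_lit 5) (nat_lit 171) (nat_lit 186) (nat_lit 213))))) (PT.nd (nat_lit 312) (PT.nd (nat_lit 156) (PT.nd (nat_lit 78) (PT.lf (nat_lit 32604) (nat_lit 6) (nat_lit 429) (nat_lit 5) (nat_lit 172) (nat_lit 186) (nat_lit 212)) (PT.lf (nat_lit 34276) (nat_lit 6) (nat_lit 451) (nat_lit 5) (nat_lit 173) (nat_lit 186) (nat_lit 211))) (PT.nd (nat_lit 78) (PT.lf (nat_lit 35872) (nat_lit 6) (nat_lit 472) (nat_lit 5) (nat_lit 174) (nat_lit 186) (nat_lit 210)) (PT.lf (nat_lit 37392) (nat_lit 6) (nat_lit 492) (nat_lit 5) (nat_lit 175) (nat_lit 186) (nat_lit 209)))) (PT.nd (nat_lit 156) (PT.nd (nat_lit 78) (PT.lf (nat_lit 38836) (nat_lit 6) (nat_lit 511) (nat_lit 5) (nat_lit 176) (nat_lit 186) (nat_lit 208)) (PT.lf (nat_lit 40204) (nat_lit 6) (nat_lit 529) (nat_lit 5) (nat_lit 177) (nat_lit 186) (nat_lit 207))) (PT.nd (nat_lit 78) (PT.lf (nat_lit 41496) (nat_lit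 6) (nat_lit 546) (nat_lit 5) (nat_lit 178) (nat_lit 186) (nat_lit 206)) (PT.lf (nat_lit 42712) (nat_lit 6) (nat_lit 562) (nat_lit 5) (nat_lit 179) (nat_lit 186) (nat_lit 205)))))) (PT.nd (nat_lit 546) (PT.nd (nat_lit 234) (PT.nd (nat_lit 78) (PT.lf (nat_lit 43852) (nat_lit 6) (nat_lit 577) (nat_lit 5) (nat_lit 180) (nat_lit 186) (nat_lit 204)) (PT.nd (nat_lit 78) (PT.lf (nat_lit 44916) (nat_lit 6) (nat_lit 591) (nat_lit 5) (nat_lit 181) (nat_lit 186) (nat_lit 203)) (PT.lf (nat_lit 45904) (nat_lit 6) (nat_lit 604) (nat_lit 5) (nat_lit 182) (nat_lit 186) (nat_lit 202)))) (PT.nd (nat_lit 156) (PT.nd (nat_lit 78) (PT.lf (nat_lit 46816) (nat_lit 6) (nat_lit 616) (nat_lit 5) (nat_lit 183) (nat_lit 186) (nat_lit 201)) (PT.lf (nat_lit 47652) (nat_lit 6) (nat_lit 627) (nat_lit 5) (nat_lit 184) (nat_lit 186) (nat_lit 200))) (PT.nd (nat_lit 78) (PT.lf (nat_lit 48412) (nat_lit 6) (nat_lit 637) (nat_lit 5) (nat_lit 185) (nat_lit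 186) (nat_lit 199)) (PT.lf (nat_lit 49096) (nat_lit 3) (nat_lit 646) (nat_lit 3) (nat_lit 186) (nat_lit 186) (nat_lit 198))))) (PT.nd (nat_lit 312) (PT.nd (nat_lit 156) (PT.nd (nat_lit 78) (PT.lf (nat_lit 49780) (nat_lit 6) (nat_lit 655) (nat_lit 3) (nat_lit 187) (nat_lit 186) (nat_lit 197)) (PT.lf (nat_lit 50388) (nat_lit 6) (nat_lit 663) (nat_lit 3) (nat_lit 188) (nat_lit 186) (nat_lit 196))) (PT.nd (nat_lit 78) (PT.lf (nat_lit 50920) (nat_lit 6) (nat_lit 670) (nat_lit 3) (nat_lit 189) (nat_lit 186) (nat_lit 195)) (PT.lf (nat_lit 51376) (nat_lit 6) (nat_lit 676) (nat_lit 3) (nat_lit 190) (nat_lit 186) (nat_lit 194)))) (PT.nd (nat_lit 156) (PT.nd (nat_lit 78) (PT.lf (nat_lit 51452) (nat_lit 6) (nat_lit 677) (nat_lit 3) (nat_lit 191) (nat_lit 186) (nat_lit 193)) (PT.lf (nat_lit 51528) (nat_lit 3) (nat_lit 678) (nat_lit 1) (nat_lit 192) (nat_lit 186) (nat_lit 192))) (PT.nd (nat_lit 78) (PT.lf (nat_lit 51452) (nat_lit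 6) (nat_lit 677) (nat_lit 1) (nat_lit 193) (nat_lit 186) (nat_lit 191)) (PT.lf (nat_lit 51376) (nat_lit 6) (nat_lit 676) (nat_lit 1) (nat_lit 194) (nat_lit 186) (nat_lit 190))))))))
noncomputable def pc23 : PT := (PT.nd (nat_lit 58266) (PT.nd (nat_lit 1170) (PT.nd (nat_lit 546) (PT.nd (nat_lit 234) (PT.nd (nat_lit 78) (PT.lf (nat_lit 50920) (nat_lit 6) (nat_lit 670) (nat_lit 1) (nat_lit 195) (nat_lit 186) (nat_lit 189)) (PT.nd (nat_lit 78) (PT.lf (nat_lit 50388) (nat_lit 6) (nat_lit 663) (nat_lit 1) (nat_lit 196) (nat_lit 186) (nat_lit 188)) (PT.lf (nat_lit 49780) (nat_lit 6) (nat_lit 655) (nat_lit 1) (nat_lit 197) (nat_lit 186) (nat_lit 187)))) (PT.nd (nat_lit 156) (PT.nd (nat_lit 78) (PT.lf (nat_lit 49096) (nat_lit 3) (nat_lit 646) (nat_lit 0) (nat_lit 198) (nat_lit 186) (nat_lit 186)) (PT.lf (nat_lit 48412) (nat_lit 6) (nat_lit 637) (nat_lit 0) (nat_lit 199) (nat_lit 186) (nat_lit 185))) (PT.nd (nat_lit 78) (PT.lf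 (nat_lit 47652) (nat_lit 6) (nat_lit 627) (nat_lit 0) (nat_lit 200) (nat_lit 186) (nat_lit 184)) (PT.lf (nat_lit 46816) (nat_lit 6) (nat_lit 616) (nat_lit 0) (nat_lit 201) (nat_lit 186) (nat_lit 183))))) (PT.nd (nat_lit 312) (PT.nd (nat_lit 156) (PT.nd (nat_lit 78) (PT.lf (nat_lit 45904) (nat_lit 6) (nat_lit 604) (nat_lit 0) (nat_lit 202) (nat_lit 186) (nat_lit 182)) (PT.lf (nat_lit 44916) (nat_lit 6) (nat_lit 591) (nat_lit 0) (nat_lit 203) (nat_lit 186) (nat_lit 181))) (PT.nd (nat_lit 78) (PT.lf (nat_lit 43852) (nat_lit 6) (nat_lit 577) (nat_lit 0) (nat_lit 204) (nat_lit 186) (nat_lit 180)) (PT.lf (nat_lit 42712) (nat_lit 6) (nat_lit 562) (nat_lit 0) (nat_lit 205) (nat_lit 186) (nat_lit 179)))) (PT.nd (nat_lit 156) (PT.nd (nat_lit 78) (PT.lf (nat_lit 41496) (nat_lit 6) (nat_lit 546) (nat_lit 0) (nat_lit 206) (nat_lit 186) (nat_lit 178)) (PT.lf (nat_lit 40204) (nat_lit 6) (nat_lit 529) (nat_lit 0) (nat_lit 207) (nat_lit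 186) (nat_lit 177))) (PT.nd (nat_lit 78) (PT.lf (nat_lit 38836) (nat_lit 6) (nat_lit 511) (nat_lit 0) (nat_lit 208) (nat_lit 186) (nat_lit 176)) (PT.lf (nat_lit 37392) (nat_lit 6) (nat_lit 492) (nat_lit 0) (nat_lit 209) (nat_lit 186) (nat_lit 175)))))) (PT.nd (nat_lit 56472) (PT.nd (nat_lit 234) (PT.nd (nat_lit 78) (PT.lf (nat_lit 35872) (nat_lit 6) (nat_lit 472) (nat_lit 0) (nat_lit 210) (nat_lit 186) (nat_lit 174)) (PT.nd (nat_lit 78) (PT.lf (nat_lit 34276) (nat_lit 6) (nat_lit 451) (nat_lit 0) (nat_lit 211) (nat_lit 186) (nat_lit 173)) (PT.lf (nat_lit 32604) (nat_lit 6) (nat_lit 429) (nat_lit 0) (nat_lit 212) (nat_lit 186) (nat_lit 172)))) (PT.nd (nat_lit 56082) (PT.nd (nat_lit 56004) (PT.lf (nat_lit 30856) (nat_lit 6) (nat_lit 406) (nat_lit 0) (nat_lit 213) (nat_lit 186) (nat_lit 171)) (PT.lf (nat_lit 30932) (nat_lit 6) (nat_lit 407) (nat_lit 5) (nat_lit 170) (nat_lit 187) (nat_lit 213))) (PT.nd (nat_lit 78) (PT.lf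 (nat_lit 32680) (nat_lit 6) (nat_lit 430) (nat_lit 5) (nat_lit 171) (nat_lit 187) (nat_lit 212)) (PT.lf (nat_lit 34352) (nat_lit 6) (nat_lit 452) (nat_lit 5) (nat_lit 172) (nat_lit 187) (nat_lit 211))))) (PT.nd (nat_lit 312) (PT.nd (nat_lit 156) (PT.nd (nat_lit 78) (PT.lf (nat_lit 35948) (nat_lit 6) (nat_lit 473) (nat_lit 5) (nat_lit 173) (nat_lit 187) (nat_lit 210)) (PT.lf (nat_lit 37468) (nat_lit 6) (nat_lit 493) (nat_lit 5) (nat_lit 174) (nat_lit 187) (nat_lit 209))) (PT.nd (nat_lit 78) (PT.lf (nat_lit 38912) (nat_lit 6) (nat_lit 512) (nat_lit 5) (nat_lit 175) (nat_lit 187) (nat_lit 208)) (PT.lf (nat_lit 40280) (nat_lit 6) (nat_lit 530) (nat_lit 5) (nat_lit 176) (nat_lit 187) (nat_lit 207)))) (PT.nd (nat_lit 156) (PT.nd (nat_lit 78) (PT.lf (nat_lit 41572) (nat_lit 6) (nat_lit 547) (nat_lit 5) (nat_lit 177) (nat_lit 187) (nat_lit 206)) (PT.lf (nat_lit 42788) (nat_lit 6) (nat_lit 563) (nat_lit 5) (nat_lit 178) (nat_lit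 187) (nat_lit 205))) (PT.nd (nat_lit 78) (PT.lf (nat_lit 43928) (nat_lit 6) (nat_lit 578) (nat_lit 5) (nat_lit 179) (nat_lit 187) (nat_lit 204)) (PT.lf (nat_lit 44992) (nat_lit 6) (nat_lit 592) (nat_lit 5) (nat_lit 180) (nat_lit 187) (nat_lit 203))))))) (PT.nd (nat_lit 1170) (PT.nd (nat_lit 546) (PT.nd (nat_lit 234) (PT.nd (nat_lit 78) (PT.lf (nat_lit 45980) (nat_lit 6) (nat_lit 605) (nat_lit 5) (nat_lit 181) (nat_lit 187) (nat_lit 202)) (PT.nd (nat_lit 78) (PT.lf (nat_lit 46892) (nat_lit 6) (nat_lit 617) (nat_lit 5) (nat_lit 182) (nat_lit 187) (nat_lit 201)) (PT.lf (nat_lit 47728) (nat_lit 6) (nat_lit 628) (nat_lit 5) (nat_lit 183) (nat_lit 187) (nat_lit 200)))) (PT.nd (nat_lit 156) (PT.nd (nat_lit 78) (PT.lf (nat_lit 48488) (nat_lit 6) (nat_lit 638) (nat_lit 5) (nat_lit 184) (nat_lit 187) (nat_lit 199)) (PT.lf (nat_lit 49172) (nat_lit 6) (nat_lit 647) (nat_lit 5) (nat_lit 185) (nat_lit 187) (nat_lit 198))) (PT.nd (nat_lit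 78) (PT.lf (nat_lit 49780) (nat_lit 6) (nat_lit 655) (nat_lit 5) (nat_lit 186) (nat_lit 187) (nat_lit 197)) (PT.lf (nat_lit 50312) (nat_lit 3) (nat_lit 662) (nat_lit 3) (nat_lit 187) (nat_lit 187) (nat_lit 196))))) (PT.nd (nat_lit 312) (PT.nd (nat_lit 156) (PT.nd (nat_lit 78) (PT.lf (nat_lit 50844) (nat_lit 6) (nat_lit 669) (nat_lit 3) (nat_lit 188) (nat_lit 187) (nat_lit 195)) (PT.lf (nat_lit 51300) (nat_lit 6) (nat_lit 675) (nat_lit 3) (nat_lit 189) (nat_lit 187) (nat_lit 194))) (PT.nd (nat_lit 78) (PT.lf (nat_lit 51680) (nat_lit 6) (nat_lit 680) (nat_lit 3) (nat_lit 190) (nat_lit 187) (nat_lit 193)) (PT.lf (nat_lit 51756) (nat_lit 6) (nat_lit 681) (nat_lit 3) (nat_lit 191) (nat_lit 187) (nat_lit 192)))) (PT.nd (nat_lit 156) (PT.nd (nat_lit 78) (PT.lf (nat_lit 51756) (nat_lit 6) (nat_lit 681) (nat_lit 1) (nat_lit 192) (nat_lit 187) (nat_lit 191)) (PT.lf (nat_lit 51680) (nat_lit 6) (nat_lit 680) (nat_lit 1) (nat_lit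 193) (nat_lit 187) (nat_lit 190))) (PT.nd (nat_lit 78) (PT.lf (nat_lit 51300) (nat_lit 6) (nat_lit 675) (nat_lit 1) (nat_lit 194) (nat_lit 187) (nat_lit 189)) (PT.lf (nat_lit 50844) (nat_lit 6) (nat_lit 669) (nat_lit 1) (nat_lit 195) (nat_lit 187) (nat_lit 188)))))) (PT.nd (nat_lit 624) (PT.nd (nat_lit 312) (PT.nd (nat_lit 156) (PT.nd (nat_lit 78) (PT.lf (nat_lit 50312) (nat_lit 3) (nat_lit 662) (nat_lit 0) (nat_lit 196) (nat_lit 187) (nat_lit 187)) (PT.lf (nat_lit 49780) (nat_lit 6) (nat_lit 655) (nat_lit 0) (nat_lit 197) (nat_lit 187) (nat_lit 186))) (PT.nd (nat_lit 78) (PT.lf (nat_lit 49172) (nat_lit 6) (nat_lit 647) (nat_lit 0) (nat_lit 198) (nat_lit 187) (nat_lit 185)) (PT.lf (nat_lit 48488) (nat_lit 6) (nat_lit 638) (nat_lit 0) (nat_lit 199) (nat_lit 187) (nat_lit 184)))) (PT.nd (nat_lit 156) (PT.nd (nat_lit 78) (PT.lf (nat_lit 47728) (nat_lit 6) (nat_lit 628) (nat_lit 0) (nat_lit 200) (nat_lit 187) (nat_lit 183))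 (PT.lf (nat_lit 46892) (nat_lit 6) (nat_lit 617) (nat_lit 0) (nat_lit 201) (nat_lit 187) (nat_lit 182))) (PT.nd (nat_lit 78) (PT.lf (nat_lit 45980) (nat_lit 6) (nat_lit 605) (nat_lit 0) (nat_lit 202) (nat_lit 187) (nat_lit 181)) (PT.lf (nat_lit 44992) (nat_lit 6) (nat_lit 592) (nat_lit 0) (nat_lit 203) (nat_lit 187) (nat_lit 180))))) (PT.nd (nat_lit 312) (PT.nd (nat_lit 156) (PT.nd (nat_lit 78) (PT.lf (nat_lit 43928) (nat_lit 6) (nat_lit 578) (nat_lit 0) (nat_lit 204) (nat_lit 187) (nat_lit 179)) (PT.lf (nat_lit 42788) (nat_lit 6) (nat_lit 563) (nat_lit 0) (nat_lit 205) (nat_lit 187) (nat_lit 178))) (PT.nd (nat_lit 78) (PT.lf (nat_lit 41572) (nat_lit 6) (nat_lit 547) (nat_lit 0) (nat_lit 206) (nat_lit 187) (nat_lit 177)) (PT.lf (nat_lit 40280) (nat_lit 6) (nat_lit 530) (nat_lit 0) (nat_lit 207) (nat_lit 187) (nat_lit 176)))) (PT.nd (nat_lit 156) (PT.nd (nat_lit 78) (PT.lf (nat_lit 38912) (nat_lit 6) (nat_lit 512) (nat_lit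 0) (nat_lit 208) (nat_lit 187) (nat_lit 175)) (PT.lf (nat_lit 37468) (nat_lit 6) (nat_lit 493) (nat_lit 0) (nat_lit 209) (nat_lit 187) (nat_lit 174))) (PT.nd (nat_lit 78) (PT.lf (nat_lit 35948) (nat_lit 6) (nat_lit 473) (nat_lit 0) (nat_lit 210) (nat_lit 187) (nat_lit 173)) (PT.lf (nat_lit 34352) (nat_lit 6) (nat_lit 452) (nat_lit 0) (nat_lit 211) (nat_lit 187) (nat_lit 172))))))))
noncomputable def pc24 : PT := (PT.nd (nat_lit 58110) (PT.nd (nat_lit 56940) (PT.nd (nat_lit 56316) (PT.nd (nat_lit 56004) (PT.nd (nat_lit 78) (PT.lf (nat_lit 32680) (nat_lit 6) (nat_lit 430) (nat_lit 0) (nat_lit 212) (nat_lit 187) (nat_lit 171)) (PT.nd (nat_lit 55848) (PT.lf (nat_lit 30932) (nat_lit 6) (nat_lit 407) (nat_lit 0) (nat_lit 213) (nat_lit 187) (nat_lit 170)) (PT.lf (nat_lit 29184) (nat_lit 6) (nat_lit 384) (nat_lit 5) (nat_lit 168) (nat_lit 188) (nat_lit 214)))) (PT.nd (nat_lit 156) (PT.nd (nat_lit 78) (PT.lf (nat_lit 31008) (nat_lit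 6) (nat_lit 408) (nat_lit 5) (nat_lit 169) (nat_lit 188) (nat_lit 213)) (PT.lf (nat_lit 32756) (nat_lit 6) (nat_lit 431) (nat_lit 5) (nat_lit 170) (nat_lit 188) (nat_lit 212))) (PT.nd (nat_lit 78) (PT.lf (nat_lit 34428) (nat_lit 6) (nat_lit 453) (nat_lit 5) (nat_lit 171) (nat_lit 188) (nat_lit 211)) (PT.lf (nat_lit 36024) (nat_lit 6) (nat_lit 474) (nat_lit 5) (nat_lit 172) (nat_lit 188) (nat_lit 210))))) (PT.nd (nat_lit 312) (PT.nd (nat_lit 156) (PT.nd (nat_lit 78) (PT.lf (nat_lit 37544) (nat_lit 6) (nat_lit 494) (nat_lit 5) (nat_lit 173) (nat_lit 188) (nat_lit 209)) (PT.lf (nat_lit 38988) (nat_lit 6) (nat_lit 513) (nat_lit 5) (nat_lit 174) (nat_lit 188) (nat_lit 208))) (PT.nd (nat_lit 78) (PT.lf (nat_lit 40356) (nat_lit 6) (nat_lit 531) (nat_lit 5) (nat_lit 175) (nat_lit 188) (nat_lit 207)) (PT.lf (nat_lit 41648) (nat_lit 6) (nat_lit 548) (nat_lit 5) (nat_lit 176) (nat_lit 188) (nat_lit 206)))) (PT.nd (nat_lit 156)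 (PT.nd (nat_lit 78) (PT.lf (nat_lit 42864) (nat_lit 6) (nat_lit 564) (nat_lit 5) (nat_lit 177) (nat_lit 188) (nat_lit 205)) (PT.lf (nat_lit 44004) (nat_lit 6) (nat_lit 579) (nat_lit 5) (nat_lit 178) (nat_lit 188) (nat_lit 204))) (PT.nd (nat_lit 78) (PT.lf (nat_lit 45068) (nat_lit 6) (nat_lit 593) (nat_lit 5) (nat_lit 179) (nat_lit 188) (nat_lit 203)) (PT.lf (nat_lit 46056) (nat_lit 6) (nat_lit 606) (nat_lit 5) (nat_lit 180) (nat_lit 188) (nat_lit 202)))))) (PT.nd (nat_lit 546) (PT.nd (nat_lit 234) (PT.nd (nat_lit 78) (PT.lf (nat_lit 46968) (nat_lit 6) (nat_lit 618) (nat_lit 5) (nat_lit 181) (nat_lit 188) (nat_lit 201)) (PT.nd (nat_lit 78) (PT.lf (nat_lit 47804) (nat_lit 6) (nat_lit 629) (nat_lit 5) (nat_lit 182) (nat_lit 188) (nat_lit 200)) (PT.lf (nat_lit 48564) (nat_lit 6) (nat_lit 639) (nat_lit 5) (nat_lit 183) (nat_lit 188) (nat_lit 199)))) (PT.nd (nat_lit 156) (PT.nd (nat_lit 78) (PT.lf (nat_lit 49248) (nat_lit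 6) (nat_lit 648) (nat_lit 5) (nat_lit 184) (nat_lit 188) (nat_lit 198)) (PT.lf (nat_lit 49856) (nat_lit 6) (nat_lit 656) (nat_lit 5) (nat_lit 185) (nat_lit 188) (nat_lit 197))) (PT.nd (nat_lit 78) (PT.lf (nat_lit 50388) (nat_lit 6) (nat_lit 663) (nat_lit 5) (nat_lit 186) (nat_lit 188) (nat_lit 196)) (PT.lf (nat_lit 50844) (nat_lit 6) (nat_lit 669) (nat_lit 5) (nat_lit 187) (nat_lit 188) (nat_lit 195))))) (PT.nd (nat_lit 312) (PT.nd (nat_lit 156) (PT.nd (nat_lit 78) (PT.lf (nat_lit 51224) (nat_lit 3) (nat_lit 674) (nat_lit 3) (nat_lit 188) (nat_lit 188) (nat_lit 194)) (PT.lf (nat_lit 51604) (nat_lit 6) (nat_lit 679) (nat_lit 3) (nat_lit 189) (nat_lit 188) (nat_lit 193))) (PT.nd (nat_lit 78) (PT.lf (nat_lit 51908) (nat_lit 6) (nat_lit 683) (nat_lit 3) (nat_lit 190) (nat_lit 188) (nat_lit 192)) (PT.lf (nat_lit 51984) (nat_lit 3) (nat_lit 684) (nat_lit 1) (nat_lit 191) (nat_lit 188) (nat_lit 191)))) (PT.nd (nat_lit 156)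 (PT.nd (nat_lit 78) (PT.lf (nat_lit 51908) (nat_lit 6) (nat_lit 683) (nat_lit 1) (nat_lit 192) (nat_lit 188) (nat_lit 190)) (PT.lf (nat_lit 51604) (nat_lit 6) (nat_lit 679) (nat_lit 1) (nat_lit 193) (nat_lit 188) (nat_lit 189))) (PT.nd (nat_lit 78) (PT.lf (nat_lit 51224) (nat_lit 3) (nat_lit 674) (nat_lit 0) (nat_lit 194) (nat_lit 188) (nat_lit 188)) (PT.lf (nat_lit 50844) (nat_lit 6) (nat_lit 669) (nat_lit 0) (nat_lit 195) (nat_lit 188) (nat_lit 187))))))) (PT.nd (nat_lit 1170) (PT.nd (nat_lit 546) (PT.nd (nat_lit 234) (PT.nd (nat_lit 78) (PT.lf (nat_lit 50388) (nat_lit 6) (nat_lit 663) (nat_lit 0) (nat_lit 196) (nat_lit 188) (nat_lit 186)) (PT.nd (nat_lit 78) (PT.lf (nat_lit 49856) (nat_lit 6) (nat_lit 656) (nat_lit 0) (nat_lit 197) (nat_lit 188) (nat_lit 185)) (PT.lf (nat_lit 49248) (nat_lit 6) (nat_lit 648) (nat_lit 0) (nat_lit 198) (nat_lit 188) (nat_lit 184)))) (PT.nd (nat_lit 156) (PT.nd (nat_lit 78) (PT.lf (nat_lit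 48564) (nat_lit 6) (nat_lit 639) (nat_lit 0) (nat_lit 199) (nat_lit 188) (nat_lit 183)) (PT.lf (nat_lit 47804) (nat_lit 6) (nat_lit 629) (nat_lit 0) (nat_lit 200) (nat_lit 188) (nat_lit 182))) (PT.nd (nat_lit 78) (PT.lf (nat_lit 46968) (nat_lit 6) (nat_lit 618) (nat_lit 0) (nat_lit 201) (nat_lit 188) (nat_lit 181)) (PT.lf (nat_lit 46056) (nat_lit 6) (nat_lit 606) (nat_lit 0) (nat_lit 202) (nat_lit 188) (nat_lit 180))))) (PT.nd (nat_lit 312) (PT.nd (nat_lit 156) (PT.nd (nat_lit 78) (PT.lf (nat_lit 45068) (nat_lit 6) (nat_lit 593) (nat_lit 0) (nat_lit 203) (nat_lit 188) (nat_lit 179)) (PT.lf (nat_lit 44004) (nat_lit 6) (nat_lit 579) (nat_lit 0) (nat_lit 204) (nat_lit 188) (nat_lit 178))) (PT.nd (nat_lit 78) (PT.lf (nat_lit 42864) (nat_lit 6) (nat_lit 564) (nat_lit 0) (nat_lit 205) (nat_lit 188) (nat_lit 177)) (PT.lf (nat_lit 41648) (nat_lit 6) (nat_lit 548) (nat_lit 0) (nat_lit 206) (nat_lit 188) (nat_lit 176)))) (PT.nd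 (nat_lit 156) (PT.nd (nat_lit 78) (PT.lf (nat_lit 40356) (nat_lit 6) (nat_lit 531) (nat_lit 0) (nat_lit 207) (nat_lit 188) (nat_lit 175)) (PT.lf (nat_lit 38988) (nat_lit 6) (nat_lit 513) (nat_lit 0) (nat_lit 208) (nat_lit 188) (nat_lit 174))) (PT.nd (nat_lit 78) (PT.lf (nat_lit 37544) (nat_lit 6) (nat_lit 494) (nat_lit 0) (nat_lit 209) (nat_lit 188) (nat_lit 173)) (PT.lf (nat_lit 36024) (nat_lit 6) (nat_lit 474) (nat_lit 0) (nat_lit 210) (nat_lit 188) (nat_lit 172)))))) (PT.nd (nat_lit 56160) (PT.nd (nat_lit 234) (PT.nd (nat_lit 78) (PT.lf (nat_lit 34428) (nat_lit 6) (nat_lit 453) (nat_lit 0) (nat_lit 211) (nat_lit 188) (nat_lit 171)) (PT.nd (nat_lit 78) (PT.lf (nat_lit 32756) (nat_lit 6) (nat_lit 431) (nat_lit 0) (nat_lit 212) (nat_lit 188) (nat_lit 170)) (PT.lf (nat_lit 31008) (nat_lit 6) (nat_lit 408) (nat_lit 0) (nat_lit 213) (nat_lit 188) (nat_lit 169)))) (PT.nd (nat_lit 55770) (PT.nd (nat_lit 55692) (PT.lf (nat_lit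 29184) (nat_lit 6) (nat_lit 384) (nat_lit 0) (nat_lit 214) (nat_lit 188) (nat_lit 168)) (PT.lf (nat_lit 29260) (nat_lit 6) (nat_lit 385) (nat_lit 5) (nat_lit 167) (nat_lit 189) (nat_lit 214))) (PT.nd (nat_lit 78) (PT.lf (nat_lit 31084) (nat_lit 6) (nat_lit 409) (nat_lit 5) (nat_lit 168) (nat_lit 189) (nat_lit 213)) (PT.lf (nat_lit 32832) (nat_lit 6) (nat_lit 432) (nat_lit 5) (nat_lit 169) (nat_lit 189) (nat_lit 212))))) (PT.nd (nat_lit 312) (PT.nd (nat_lit 156) (PT.nd (nat_lit 78) (PT.lf (nat_lit 34504) (nat_lit 6) (nat_lit 454) (nat_lit 5) (nat_lit 170) (nat_lit 189) (nat_lit 211)) (PT.lf (nat_lit 36100) (nat_lit 6) (nat_lit 475) (nat_lit 5) (nat_lit 171) (nat_lit 189) (nat_lit 210))) (PT.nd (nat_lit 78) (PT.lf (nat_lit 37620) (nat_lit 6) (nat_lit 495) (nat_lit 5) (nat_lit 172) (nat_lit 189) (nat_lit 209)) (PT.lf (nat_lit 39064) (nat_lit 6) (nat_lit 514) (nat_lit 5) (nat_lit 173) (nat_lit 189) (nat_lit 208)))) (PT.nd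 (nat_lit 156) (PT.nd (nat_lit 78) (PT.lf (nat_lit 40432) (nat_lit 6) (nat_lit 532) (nat_lit 5) (nat_lit 174) (nat_lit 189) (nat_lit 207)) (PT.lf (nat_lit 41724) (nat_lit 6) (nat_lit 549) (nat_lit 5) (nat_lit 175) (nat_lit 189) (nat_lit 206))) (PT.nd (nat_lit 78) (PT.lf (nat_lit 42940) (nat_lit 6) (nat_lit 565) (nat_lit 5) (nat_lit 176) (nat_lit 189) (nat_lit 205)) (PT.lf (nat_lit 44080) (nat_lit 6) (nat_lit 580) (nat_lit 5) (nat_lit 177) (nat_lit 189) (nat_lit 204))))))))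
noncomputable def pc25 : PT := (PT.nd (nat_lit 2340) (PT.nd (nat_lit 1170) (PT.nd (nat_lit 546) (PT.nd (nat_lit 234) (PT.nd (nat_lit 78) (PT.lf (nat_lit 45144) (nat_lit 6) (nat_lit 594) (nat_lit 5) (nat_lit 178) (nat_lit 189) (nat_lit 203)) (PT.nd (nat_lit 78) (PT.lf (nat_lit 46132) (nat_lit 6) (nat_lit 607) (nat_lit 5) (nat_lit 179) (nat_lit 189) (nat_lit 202)) (PT.lf (nat_lit 47044) (nat_lit 6) (nat_lit 619) (nat_lit 5) (nat_lit 180) (nat_lit 189) (nat_lit 201)))) (PT.nd (nat_lit 156) (PT.nd (nat_lit 78) (PT.lf (nat_lit 47880) (nat_lit 6) (nat_lit 630) (nat_lit 5) (nat_lit 181) (nat_lit 189) (nat_lit 200)) (PT.lf (nat_lit 48640) (nat_lit 6) (nat_lit 640) (nat_lit 5) (nat_lit 182) (nat_lit 189) (nat_lit 199))) (PT.nd (nat_lit 78) (PT.lf (nat_lit 49324) (nat_lit 6) (nat_lit 649) (nat_lit 5) (nat_lit 183) (nat_lit 189) (nat_lit 198)) (PT.lf (nat_lit 49932) (nat_lit 6) (nat_lit 657) (nat_lit 5) (nat_lit 184) (nat_lit 189)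 (nat_lit 197))))) (PT.nd (nat_lit 312) (PT.nd (nat_lit 156) (PT.nd (nat_lit 78) (PT.lf (nat_lit 50464) (nat_lit 6) (nat_lit 664) (nat_lit 5) (nat_lit 185) (nat_lit 189) (nat_lit 196)) (PT.lf (nat_lit 50920) (nat_lit 6) (nat_lit 670) (nat_lit 5) (nat_lit 186) (nat_lit 189) (nat_lit 195))) (PT.nd (nat_lit 78) (PT.lf (nat_lit 51300) (nat_lit 6) (nat_lit 675) (nat_lit 5) (nat_lit 187) (nat_lit 189) (nat_lit 194)) (PT.lf (nat_lit 51604) (nat_lit 6) (nat_lit 679) (nat_lit 5) (nat_lit 188) (nat_lit 189) (nat_lit 193)))) (PT.nd (nat_lit 156) (PT.nd (nat_lit 78) (PT.lf (nat_lit 51832) (nat_lit 3) (nat_lit 682) (nat_lit 3) (nat_lit 189) (nat_lit 189) (nat_lit 192)) (PT.lf (nat_lit 52060) (nat_lit 6) (nat_lit 685) (nat_lit 3) (nat_lit 190) (nat_lit 189) (nat_lit 191))) (PT.nd (nat_lit 78) (PT.lf (nat_lit 52060) (nat_lit 6) (nat_lit 685) (nat_lit 1) (nat_lit 191) (nat_lit 189) (nat_lit 190)) (PT.lf (nat_lit 51832) (nat_lit 3) (nat_lit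 682) (nat_lit 0) (nat_lit 192) (nat_lit 189) (nat_lit 189)))))) (PT.nd (nat_lit 546) (PT.nd (nat_lit 234) (PT.nd (nat_lit 78) (PT.lf (nat_lit 51604) (nat_lit 6) (nat_lit 679) (nat_lit 0) (nat_lit 193) (nat_lit 189) (nat_lit 188)) (PT.nd (nat_lit 78) (PT.lf (nat_lit 51300) (nat_lit 6) (nat_lit 675) (nat_lit 0) (nat_lit 194) (nat_lit 189) (nat_lit 187)) (PT.lf (nat_lit 50920) (nat_lit 6) (nat_lit 670) (nat_lit 0) (nat_lit 195) (nat_lit 189) (nat_lit 186)))) (PT.nd (nat_lit 156) (PT.nd (nat_lit 78) (PT.lf (nat_lit 50464) (nat_lit 6) (nat_lit 664) (nat_lit 0) (nat_lit 196) (nat_lit 189) (nat_lit 185)) (PT.lf (nat_lit 49932) (nat_lit 6) (nat_lit 657) (nat_lit 0) (nat_lit 197) (nat_lit 189) (nat_lit 184))) (PT.nd (nat_lit 78) (PT.lf (nat_lit 49324) (nat_lit 6) (nat_lit 649) (nat_lit 0) (nat_lit 198) (nat_lit 189) (nat_lit 183)) (PT.lf (nat_lit 48640) (nat_lit 6) (nat_lit 640) (nat_lit 0) (nat_lit 199) (nat_lit 189) (nat_lit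 182))))) (PT.nd (nat_lit 312) (PT.nd (nat_lit 156) (PT.nd (nat_lit 78) (PT.lf (nat_lit 47880) (nat_lit 6) (nat_lit 630) (nat_lit 0) (nat_lit 200) (nat_lit 189) (nat_lit 181)) (PT.lf (nat_lit 47044) (nat_lit 6) (nat_lit 619) (nat_lit 0) (nat_lit 201) (nat_lit 189) (nat_lit 180))) (PT.nd (nat_lit 78) (PT.lf (nat_lit 46132) (nat_lit 6) (nat_lit 607) (nat_lit 0) (nat_lit 202) (nat_lit 189) (nat_lit 179)) (PT.lf (nat_lit 45144) (nat_lit 6) (nat_lit 594) (nat_lit 0) (nat_lit 203) (nat_lit 189) (nat_lit 178)))) (PT.nd (nat_lit 156) (PT.nd (nat_lit 78) (PT.lf (nat_lit 44080) (nat_lit 6) (nat_lit 580) (nat_lit 0) (nat_lit 204) (nat_lit 189) (nat_lit 177)) (PT.lf (nat_lit 42940) (nat_lit 6) (nat_lit 565) (nat_lit 0) (nat_lit 205) (nat_lit 189) (nat_lit 176))) (PT.nd (nat_lit 78) (PT.lf (nat_lit 41724) (nat_lit 6) (nat_lit 549) (nat_lit 0) (nat_lit 206) (nat_lit 189) (nat_lit 175)) (PT.lf (nat_lit 40432) (nat_lit 6) (nat_lit 532)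 (nat_lit 0) (nat_lit 207) (nat_lit 189) (nat_lit 174))))))) (PT.nd (nat_lit 56706) (PT.nd (nat_lit 56082) (PT.nd (nat_lit 234) (PT.nd (nat_lit 78) (PT.lf (nat_lit 39064) (nat_lit 6) (nat_lit 514) (nat_lit 0) (nat_lit 208) (nat_lit 189) (nat_lit 173)) (PT.nd (nat_lit 78) (PT.lf (nat_lit 37620) (nat_lit 6) (nat_lit 495) (nat_lit 0) (nat_lit 209) (nat_lit 189) (nat_lit 172)) (PT.lf (nat_lit 36100) (nat_lit 6) (nat_lit 475) (nat_lit 0) (nat_lit 210) (nat_lit 189) (nat_lit 171)))) (PT.nd (nat_lit 156) (PT.nd (nat_lit 78) (PT.lf (nat_lit 34504) (nat_lit 6) (nat_lit 454) (nat_lit 0) (nat_lit 211) (nat_lit 189) (nat_lit 170)) (PT.lf (nat_lit 32832) (nat_lit 6) (nat_lit 432) (nat_lit 0) (nat_lit 212) (nat_lit 189) (nat_lit 169))) (PT.nd (nat_lit 78) (PT.lf (nat_lit 31084) (nat_lit 6) (nat_lit 409) (nat_lit 0) (nat_lit 213) (nat_lit 189) (nat_lit 168)) (PT.lf (nat_lit 29260) (nat_lit 6) (nat_lit 385) (nat_lit 0) (nat_lit 214)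 (nat_lit 189) (nat_lit 167))))) (PT.nd (nat_lit 312) (PT.nd (nat_lit 156) (PT.nd (nat_lit 78) (PT.lf (nat_lit 29336) (nat_lit 6) (nat_lit 386) (nat_lit 5) (nat_lit 166) (nat_lit 190) (nat_lit 214)) (PT.lf (nat_lit 31160) (nat_lit 6) (nat_lit 410) (nat_lit 5) (nat_lit 167) (nat_lit 190) (nat_lit 213))) (PT.nd (nat_lit 78) (PT.lf (nat_lit 32908) (nat_lit 6) (nat_lit 433) (nat_lit 5) (nat_lit 168) (nat_lit 190) (nat_lit 212)) (PT.lf (nat_lit 34580) (nat_lit 6) (nat_lit 455) (nat_lit 5) (nat_lit 169) (nat_lit 190) (nat_lit 211)))) (PT.nd (nat_lit 156) (PT.nd (nat_lit 78) (PT.lf (nat_lit 36176) (nat_lit 6) (nat_lit 476) (nat_lit 5) (nat_lit 170) (nat_lit 190) (nat_lit 210)) (PT.lf (nat_lit 37696) (nat_lit 6) (nat_lit 496) (nat_lit 5) (nat_lit 171) (nat_lit 190) (nat_lit 209))) (PT.nd (nat_lit 78) (PT.lf (nat_lit 39140) (nat_lit 6) (nat_lit 515) (nat_lit 5) (nat_lit 172) (nat_lit 190) (nat_lit 208)) (PT.lf (nat_lit 40508)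 (nat_lit 6) (nat_lit 533) (nat_lit 5) (nat_lit 173) (nat_lit 190) (nat_lit 207)))))) (PT.nd (nat_lit 546) (PT.nd (nat_lit 234) (PT.nd (nat_lit 78) (PT.lf (nat_lit 41800) (nat_lit 6) (nat_lit 550) (nat_lit 5) (nat_lit 174) (nat_lit 190) (nat_lit 206)) (PT.nd (nat_lit 78) (PT.lf (nat_lit 43016) (nat_lit 6) (nat_lit 566) (nat_lit 5) (nat_lit 175) (nat_lit 190) (nat_lit 205)) (PT.lf (nat_lit 44156) (nat_lit 6) (nat_lit 581) (nat_lit 5) (nat_lit 176) (nat_lit 190) (nat_lit 204)))) (PT.nd (nat_lit 156) (PT.nd (nat_lit 78) (PT.lf (nat_lit 45220) (nat_lit 6) (nat_lit 595) (nat_lit 5) (nat_lit 177) (nat_lit 190) (nat_lit 203)) (PT.lf (nat_lit 46208) (nat_lit 6) (nat_lit 608) (nat_lit 5) (nat_lit 178) (nat_lit 190) (nat_lit 202))) (PT.nd (nat_lit 78) (PT.lf (nat_lit 47120) (nat_lit 6) (nat_lit 620) (nat_lit 5) (nat_lit 179) (nat_lit 190) (nat_lit 201)) (PT.lf (nat_lit 47956) (nat_lit 6) (nat_lit 631) (nat_lit 5) (nat_lit 180)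 (nat_lit 190) (nat_lit 200))))) (PT.nd (nat_lit 312) (PT.nd (nat_lit 156) (PT.nd (nat_lit 78) (PT.lf (nat_lit 48716) (nat_lit 6) (nat_lit 641) (nat_lit 5) (nat_lit 181) (nat_lit 190) (nat_lit 199)) (PT.lf (nat_lit 49400) (nat_lit 6) (nat_lit 650) (nat_lit 5) (nat_lit 182) (nat_lit 190) (nat_lit 198))) (PT.nd (nat_lit 78) (PT.lf (nat_lit 50008) (nat_lit 6) (nat_lit 658) (nat_lit 5) (nat_lit 183) (nat_lit 190) (nat_lit 197)) (PT.lf (nat_lit 50540) (nat_lit 6) (nat_lit 665) (nat_lit 5) (nat_lit 184) (nat_lit 190) (nat_lit 196)))) (PT.nd (nat_lit 156) (PT.nd (nat_lit 78) (PT.lf (nat_lit 50996) (nat_lit 6) (nat_lit 671) (nat_lit 5) (nat_lit 185) (nat_lit 190) (nat_lit 195)) (PT.lf (nat_lit 51376) (nat_lit 6) (nat_lit 676) (nat_lit 5) (nat_lit 186) (nat_lit 190) (nat_lit 194))) (PT.nd (nat_lit 78) (PT.lf (nat_lit 51680) (nat_lit 6) (nat_lit 680) (nat_lit 5) (nat_lit 187) (nat_lit 190) (nat_lit 193)) (PT.lf (nat_lit 51908)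 (nat_lit 6) (nat_lit 683) (nat_lit 5) (nat_lit 188) (nat_lit 190) (nat_lit 192))))))))
noncomputable def pc26 : PT := (PT.nd (nat_lit 57798) (PT.nd (nat_lit 1170) (PT.nd (nat_lit 546) (PT.nd (nat_lit 234) (PT.nd (nat_lit 78) (PT.lf (nat_lit 52060) (nat_lit 6) (nat_lit 685) (nat_lit 5) (nat_lit 189) (nat_lit 190) (nat_lit 191)) (PT.nd (nat_lit 78) (PT.lf (nat_lit 52136) (nat_lit 1) (nat_lit 686) (nat_lit 0) (nat_lit 190) (nat_lit 190) (nat_lit 190)) (PT.lf (nat_lit 52060) (nat_lit 6) (nat_lit 685) (nat_lit 0) (nat_lit 191) (nat_lit 190) (nat_lit 189)))) (PT.nd (nat_lit 156) (PT.nd (nat_lit 78) (PT.lf (nat_lit 51908) (nat_lit 6) (nat_lit 683) (nat_lit 0) (nat_lit 192) (nat_lit 190) (nat_lit 188)) (PT.lf (nat_lit 51680) (nat_lit 6) (nat_lit 680) (nat_lit 0) (nat_lit 193) (nat_lit 190) (nat_lit 187))) (PT.nd (nat_lit 78) (PT.lf (nat_lit 51376) (nat_lit 6) (nat_lit 676) (nat_lit 0) (nat_lit 194) (nat_lit 190) (nat_lit 186))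 (PT.lf (nat_lit 50996) (nat_lit 6) (nat_lit 671) (nat_lit 0) (nat_lit 195) (nat_lit 190) (nat_lit 185))))) (PT.nd (nat_lit 312) (PT.nd (nat_lit 156) (PT.nd (nat_lit 78) (PT.lf (nat_lit 50540) (nat_lit 6) (nat_lit 665) (nat_lit 0) (nat_lit 196) (nat_lit 190) (nat_lit 184)) (PT.lf (nat_lit 50008) (nat_lit 6) (nat_lit 658) (nat_lit 0) (nat_lit 197) (nat_lit 190) (nat_lit 183))) (PT.nd (nat_lit 78) (PT.lf (nat_lit 49400) (nat_lit 6) (nat_lit 650) (nat_lit 0) (nat_lit 198) (nat_lit 190) (nat_lit 182)) (PT.lf (nat_lit 48716) (nat_lit 6) (nat_lit 641) (nat_lit 0) (nat_lit 199) (nat_lit 190) (nat_lit 181)))) (PT.nd (nat_lit 156) (PT.nd (nat_lit 78) (PT.lf (nat_lit 47956) (nat_lit 6) (nat_lit 631) (nat_lit 0) (nat_lit 200) (nat_lit 190) (nat_lit 180)) (PT.lf (nat_lit 47120) (nat_lit 6) (nat_lit 620) (nat_lit 0) (nat_lit 201) (nat_lit 190) (nat_lit 179))) (PT.nd (nat_lit 78) (PT.lf (nat_lit 46208) (nat_lit 6) (nat_lit 608) (nat_lit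 0) (nat_lit 202) (nat_lit 190) (nat_lit 178)) (PT.lf (nat_lit 45220) (nat_lit 6) (nat_lit 595) (nat_lit 0) (nat_lit 203) (nat_lit 190) (nat_lit 177)))))) (PT.nd (nat_lit 546) (PT.nd (nat_lit 234) (PT.nd (nat_lit 78) (PT.lf (nat_lit 44156) (nat_lit 6) (nat_lit 581) (nat_lit 0) (nat_lit 204) (nat_lit 190) (nat_lit 176)) (PT.nd (nat_lit 78) (PT.lf (nat_lit 43016) (nat_lit 6) (nat_lit 566) (nat_lit 0) (nat_lit 205) (nat_lit 190) (nat_lit 175)) (PT.lf (nat_lit 41800) (nat_lit 6) (nat_lit 550) (nat_lit 0) (nat_lit 206) (nat_lit 190) (nat_lit 174)))) (PT.nd (nat_lit 156) (PT.nd (nat_lit 78) (PT.lf (nat_lit 40508) (nat_lit 6) (nat_lit 533) (nat_lit 0) (nat_lit 207) (nat_lit 190) (nat_lit 173)) (PT.lf (nat_lit 39140) (nat_lit 6) (nat_lit 515) (nat_lit 0) (nat_lit 208) (nat_lit 190) (nat_lit 172))) (PT.nd (nat_lit 78) (PT.lf (nat_lit 37696) (nat_lit 6) (nat_lit 496) (nat_lit 0) (nat_lit 209) (nat_lit 190) (nat_lit 171)) (PT.lf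 (nat_lit 36176) (nat_lit 6) (nat_lit 476) (nat_lit 0) (nat_lit 210) (nat_lit 190) (nat_lit 170))))) (PT.nd (nat_lit 55770) (PT.nd (nat_lit 156) (PT.nd (nat_lit 78) (PT.lf (nat_lit 34580) (nat_lit 6) (nat_lit 455) (nat_lit 0) (nat_lit 211) (nat_lit 190) (nat_lit 169)) (PT.lf (nat_lit 32908) (nat_lit 6) (nat_lit 433) (nat_lit 0) (nat_lit 212) (nat_lit 190) (nat_lit 168))) (PT.nd (nat_lit 78) (PT.lf (nat_lit 31160) (nat_lit 6) (nat_lit 410) (nat_lit 0) (nat_lit 213) (nat_lit 190) (nat_lit 167)) (PT.lf (nat_lit 29336) (nat_lit 6) (nat_lit 386) (nat_lit 0) (nat_lit 214) (nat_lit 190) (nat_lit 166)))) (PT.nd (nat_lit 156) (PT.nd (nat_lit 78) (PT.lf (nat_lit 28272) (nat_lit 6) (nat_lit 372) (nat_lit 5) (nat_lit 165) (nat_lit 191) (nat_lit 214)) (PT.lf (nat_lit 29412) (nat_lit 6) (nat_lit 387) (nat_lit 5) (nat_lit 166) (nat_lit 191) (nat_lit 213))) (PT.nd (nat_lit 78) (PT.lf (nat_lit 31236) (nat_lit 6) (nat_lit 411) (nat_lit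 5) (nat_lit 167) (nat_lit 191) (nat_lit 212)) (PT.lf (nat_lit 32984) (nat_lit 6) (nat_lit 434) (nat_lit 5) (nat_lit 168) (nat_lit 191) (nat_lit 211))))))) (PT.nd (nat_lit 1170) (PT.nd (nat_lit 546) (PT.nd (nat_lit 234) (PT.nd (nat_lit 78) (PT.lf (nat_lit 34656) (nat_lit 6) (nat_lit 456) (nat_lit 5) (nat_lit 169) (nat_lit 191) (nat_lit 210)) (PT.nd (nat_lit 78) (PT.lf (nat_lit 36252) (nat_lit 6) (nat_lit 477) (nat_lit 5) (nat_lit 170) (nat_lit 191) (nat_lit 209)) (PT.lf (nat_lit 37772) (nat_lit 6) (nat_lit 497) (nat_lit 5) (nat_lit 171) (nat_lit 191) (nat_lit 208)))) (PT.nd (nat_lit 156) (PT.nd (nat_lit 78) (PT.lf (nat_lit 39216) (nat_lit 6) (nat_lit 516) (nat_lit 5) (nat_lit 172) (nat_lit 191) (nat_lit 207)) (PT.lf (nat_lit 40584) (nat_lit 6) (nat_lit 534) (nat_lit 5) (nat_lit 173) (nat_lit 191) (nat_lit 206))) (PT.nd (nat_lit 78) (PT.lf (nat_lit 41876) (nat_lit 6) (nat_lit 551) (nat_lit 5) (nat_lit 174) (nat_lit 191)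 (nat_lit 205)) (PT.lf (nat_lit 43092) (nat_lit 6) (nat_lit 567) (nat_lit 5) (nat_lit 175) (nat_lit 191) (nat_lit 204))))) (PT.nd (nat_lit 312) (PT.nd (nat_lit 156) (PT.nd (nat_lit 78) (PT.lf (nat_lit 44232) (nat_lit 6) (nat_lit 582) (nat_lit 5) (nat_lit 176) (nat_lit 191) (nat_lit 203)) (PT.lf (nat_lit 45296) (nat_lit 6) (nat_lit 596) (nat_lit 5) (nat_lit 177) (nat_lit 191) (nat_lit 202))) (PT.nd (nat_lit 78) (PT.lf (nat_lit 46284) (nat_lit 6) (nat_lit 609) (nat_lit 5) (nat_lit 178) (nat_lit 191) (nat_lit 201)) (PT.lf (nat_lit 47196) (nat_lit 6) (nat_lit 621) (nat_lit 5) (nat_lit 179) (nat_lit 191) (nat_lit 200)))) (PT.nd (nat_lit 156) (PT.nd (nat_lit 78) (PT.lf (nat_lit 48032) (nat_lit 6) (nat_lit 632) (nat_lit 5) (nat_lit 180) (nat_lit 191) (nat_lit 199)) (PT.lf (nat_lit 48792) (nat_lit 6) (nat_lit 642) (nat_lit 5) (nat_lit 181) (nat_lit 191) (nat_lit 198))) (PT.nd (nat_lit 78) (PT.lf (nat_lit 49476) (nat_lit 6) (nat_lit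 651) (nat_lit 5) (nat_lit 182) (nat_lit 191) (nat_lit 197)) (PT.lf (nat_lit 50084) (nat_lit 6) (nat_lit 659) (nat_lit 5) (nat_lit 183) (nat_lit 191) (nat_lit 196)))))) (PT.nd (nat_lit 546) (PT.nd (nat_lit 234) (PT.nd (nat_lit 78) (PT.lf (nat_lit 50616) (nat_lit 6) (nat_lit 666) (nat_lit 5) (nat_lit 184) (nat_lit 191) (nat_lit 195)) (PT.nd (nat_lit 78) (PT.lf (nat_lit 51072) (nat_lit 6) (nat_lit 672) (nat_lit 5) (nat_lit 185) (nat_lit 191) (nat_lit 194)) (PT.lf (nat_lit 51452) (nat_lit 6) (nat_lit 677) (nat_lit 5) (nat_lit 186) (nat_lit 191) (nat_lit 193)))) (PT.nd (nat_lit 156) (PT.nd (nat_lit 78) (PT.lf (nat_lit 51756) (nat_lit 6) (nat_lit 681) (nat_lit 5) (nat_lit 187) (nat_lit 191) (nat_lit 192)) (PT.lf (nat_lit 51984) (nat_lit 3) (nat_lit 684) (nat_lit 4) (nat_lit 188) (nat_lit 191) (nat_lit 191))) (PT.nd (nat_lit 78) (PT.lf (nat_lit 52060) (nat_lit 6) (nat_lit 685) (nat_lit 4) (nat_lit 189) (nat_lit 191) (nat_lit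 190)) (PT.lf (nat_lit 52060) (nat_lit 6) (nat_lit 685) (nat_lit 2) (nat_lit 190) (nat_lit 191) (nat_lit 189))))) (PT.nd (nat_lit 312) (PT.nd (nat_lit 156) (PT.nd (nat_lit 78) (PT.lf (nat_lit 51984) (nat_lit 3) (nat_lit 684) (nat_lit 0) (nat_lit 191) (nat_lit 191) (nat_lit 188)) (PT.lf (nat_lit 51756) (nat_lit 6) (nat_lit 681) (nat_lit 0) (nat_lit 192) (nat_lit 191) (nat_lit 187))) (PT.nd (nat_lit 78) (PT.lf (nat_lit 51452) (nat_lit 6) (nat_lit 677) (nat_lit 0) (nat_lit 193) (nat_lit 191) (nat_lit 186)) (PT.lf (nat_lit 51072) (nat_lit 6) (nat_lit 672) (nat_lit 0) (nat_lit 194) (nat_lit 191) (nat_lit 185)))) (PT.nd (nat_lit 156) (PT.nd (nat_lit 78) (PT.lf (nat_lit 50616) (nat_lit 6) (nat_lit 666) (nat_lit 0) (nat_lit 195) (nat_lit 191) (nat_lit 184)) (PT.lf (nat_lit 50084) (nat_lit 6) (nat_lit 659) (nat_lit 0) (nat_lit 196) (nat_lit 191) (nat_lit 183))) (PT.nd (nat_lit 78) (PT.lf (nat_lit 49476) (nat_lit 6) (nat_lit 651)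 (nat_lit 0) (nat_lit 197) (nat_lit 191) (nat_lit 182)) (PT.lf (nat_lit 48792) (nat_lit 6) (nat_lit 642) (nat_lit 0) (nat_lit 198) (nat_lit 191) (nat_lit 181))))))))
noncomputable def pc27 : PT := (PT.nd (nat_lit 57720) (PT.nd (nat_lit 1170) (PT.nd (nat_lit 546) (PT.nd (nat_lit 234) (PT.nd (nat_lit 78) (PT.lf (nat_lit 48032) (nat_lit 6) (nat_lit 632) (nat_lit 0) (nat_lit 199) (nat_lit 191) (nat_lit 180)) (PT.nd (nat_lit 78) (PT.lf (nat_lit 47196) (nat_lit 6) (nat_lit 621) (nat_lit 0) (nat_lit 200) (nat_lit 191) (nat_lit 179)) (PT.lf (nat_lit 46284) (nat_lit 6) (nat_lit 609) (nat_lit 0) (nat_lit 201) (nat_lit 191) (nat_lit 178)))) (PT.nd (nat_lit 156) (PT.nd (nat_lit 78) (PT.lf (nat_lit 45296) (nat_lit 6) (nat_lit 596) (nat_lit 0) (nat_lit 202) (nat_lit 191) (nat_lit 177)) (PT.lf (nat_lit 44232) (nat_lit 6) (nat_lit 582) (nat_lit 0) (nat_lit 203) (nat_lit 191) (nat_lit 176))) (PT.nd (nat_lit 78) (PT.lf (nat_lit 43092)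 (nat_lit 6) (nat_lit 567) (nat_lit 0) (nat_lit 204) (nat_lit 191) (nat_lit 175)) (PT.lf (nat_lit 41876) (nat_lit 6) (nat_lit 551) (nat_lit 0) (nat_lit 205) (nat_lit 191) (nat_lit 174))))) (PT.nd (nat_lit 312) (PT.nd (nat_lit 156) (PT.nd (nat_lit 78) (PT.lf (nat_lit 40584) (nat_lit 6) (nat_lit 534) (nat_lit 0) (nat_lit 206) (nat_lit 191) (nat_lit 173)) (PT.lf (nat_lit 39216) (nat_lit 6) (nat_lit 516) (nat_lit 0) (nat_lit 207) (nat_lit 191) (nat_lit 172))) (PT.nd (nat_lit 78) (PT.lf (nat_lit 37772) (nat_lit 6) (nat_lit 497) (nat_lit 0) (nat_lit 208) (nat_lit 191) (nat_lit 171)) (PT.lf (nat_lit 36252) (nat_lit 6) (nat_lit 477) (nat_lit 0) (nat_lit 209) (nat_lit 191) (nat_lit 170)))) (PT.nd (nat_lit 156) (PT.nd (nat_lit 78) (PT.lf (nat_lit 34656) (nat_lit 6) (nat_lit 456) (nat_lit 0) (nat_lit 210) (nat_lit 191) (nat_lit 169)) (PT.lf (nat_lit 32984) (nat_lit 6) (nat_lit 434) (nat_lit 0) (nat_lit 211) (nat_lit 191) (nat_lit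 168))) (PT.nd (nat_lit 78) (PT.lf (nat_lit 31236) (nat_lit 6) (nat_lit 411) (nat_lit 0) (nat_lit 212) (nat_lit 191) (nat_lit 167)) (PT.lf (nat_lit 29412) (nat_lit 6) (nat_lit 387) (nat_lit 0) (nat_lit 213) (nat_lit 191) (nat_lit 166)))))) (PT.nd (nat_lit 55926) (PT.nd (nat_lit 55614) (PT.nd (nat_lit 55458) (PT.lf (nat_lit 28272) (nat_lit 6) (nat_lit 372) (nat_lit 0) (nat_lit 214) (nat_lit 191) (nat_lit 165)) (PT.nd (nat_lit 78) (PT.lf (nat_lit 27360) (nat_lit 6) (nat_lit 360) (nat_lit 5) (nat_lit 164) (nat_lit 192) (nat_lit 214)) (PT.lf (nat_lit 28348) (nat_lit 6) (nat_lit 373) (nat_lit 5) (nat_lit 165) (nat_lit 192) (nat_lit 213)))) (PT.nd (nat_lit 156) (PT.nd (nat_lit 78) (PT.lf (nat_lit 29488) (nat_lit 6) (nat_lit 388) (nat_lit 5) (nat_lit 166) (nat_lit 192) (nat_lit 212)) (PT.lf (nat_lit 31312) (nat_lit 6) (nat_lit 412) (nat_lit 5) (nat_lit 167) (nat_lit 192) (nat_lit 211))) (PT.nd (nat_lit 78) (PT.lf (nat_lit 33060)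 (nat_lit 6) (nat_lit 435) (nat_lit 5) (nat_lit 168) (nat_lit 192) (nat_lit 210)) (PT.lf (nat_lit 34732) (nat_lit 6) (nat_lit 457) (nat_lit 5) (nat_lit 169) (nat_lit 192) (nat_lit 209))))) (PT.nd (nat_lit 312) (PT.nd (nat_lit 156) (PT.nd (nat_lit 78) (PT.lf (nat_lit 36328) (nat_lit 6) (nat_lit 478) (nat_lit 5) (nat_lit 170) (nat_lit 192) (nat_lit 208)) (PT.lf (nat_lit 37848) (nat_lit 6) (nat_lit 498) (nat_lit 5) (nat_lit 171) (nat_lit 192) (nat_lit 207))) (PT.nd (nat_lit 78) (PT.lf (nat_lit 39292) (nat_lit 6) (nat_lit 517) (nat_lit 5) (nat_lit 172) (nat_lit 192) (nat_lit 206)) (PT.lf (nat_lit 40660) (nat_lit 6) (nat_lit 535) (nat_lit 5) (nat_lit 173) (nat_lit 192) (nat_lit 205)))) (PT.nd (nat_lit 156) (PT.nd (nat_lit 78) (PT.lf (nat_lit 41952) (nat_lit 6) (nat_lit 552) (nat_lit 5) (nat_lit 174) (nat_lit 192) (nat_lit 204)) (PT.lf (nat_lit 43168) (nat_lit 6) (nat_lit 568) (nat_lit 5) (nat_lit 175) (nat_lit 192) (nat_lit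 203))) (PT.nd (nat_lit 78) (PT.lf (nat_lit 44308) (nat_lit 6) (nat_lit 583) (nat_lit 5) (nat_lit 176) (nat_lit 192) (nat_lit 202)) (PT.lf (nat_lit 45372) (nat_lit 6) (nat_lit 597) (nat_lit 5) (nat_lit 177) (nat_lit 192) (nat_lit 201))))))) (PT.nd (nat_lit 1170) (PT.nd (nat_lit 546) (PT.nd (nat_lit 234) (PT.nd (nat_lit 78) (PT.lf (nat_lit 46360) (nat_lit 6) (nat_lit 610) (nat_lit 5) (nat_lit 178) (nat_lit 192) (nat_lit 200)) (PT.nd (nat_lit 78) (PT.lf (nat_lit 47272) (nat_lit 6) (nat_lit 622) (nat_lit 5) (nat_lit 179) (nat_lit 192) (nat_lit 199)) (PT.lf (nat_lit 48108) (nat_lit 6) (nat_lit 633) (nat_lit 5) (nat_lit 180) (nat_lit 192) (nat_lit 198)))) (PT.nd (nat_lit 156) (PT.nd (nat_lit 78) (PT.lf (nat_lit 48868) (nat_lit 6) (nat_lit 643) (nat_lit 5) (nat_lit 181) (nat_lit 192) (nat_lit 197)) (PT.lf (nat_lit 49552) (nat_lit 6) (nat_lit 652) (nat_lit 5) (nat_lit 182) (nat_lit 192) (nat_lit 196))) (PT.nd (nat_lit 78) (PT.lf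 (nat_lit 50160) (nat_lit 6) (nat_lit 660) (nat_lit 5) (nat_lit 183) (nat_lit 192) (nat_lit 195)) (PT.lf (nat_lit 50692) (nat_lit 6) (nat_lit 667) (nat_lit 5) (nat_lit 184) (nat_lit 192) (nat_lit 194))))) (PT.nd (nat_lit 312) (PT.nd (nat_lit 156) (PT.nd (nat_lit 78) (PT.lf (nat_lit 51148) (nat_lit 6) (nat_lit 673) (nat_lit 5) (nat_lit 185) (nat_lit 192) (nat_lit 193)) (PT.lf (nat_lit 51528) (nat_lit 3) (nat_lit 678) (nat_lit 4) (nat_lit 186) (nat_lit 192) (nat_lit 192))) (PT.nd (nat_lit 78) (PT.lf (nat_lit 51756) (nat_lit 6) (nat_lit 681) (nat_lit 4) (nat_lit 187) (nat_lit 192) (nat_lit 191)) (PT.lf (nat_lit 51908) (nat_lit 6) (nat_lit 683) (nat_lit 4) (nat_lit 188) (nat_lit 192) (nat_lit 190)))) (PT.nd (nat_lit 156) (PT.nd (nat_lit 78) (PT.lf (nat_lit 51832) (nat_lit 3) (nat_lit 682) (nat_lit 2) (nat_lit 189) (nat_lit 192) (nat_lit 189)) (PT.lf (nat_lit 51908) (nat_lit 6) (nat_lit 683) (nat_lit 2) (nat_lit 190) (nat_lit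 192) (nat_lit 188))) (PT.nd (nat_lit 78) (PT.lf (nat_lit 51756) (nat_lit 6) (nat_lit 681) (nat_lit 2) (nat_lit 191) (nat_lit 192) (nat_lit 187)) (PT.lf (nat_lit 51528) (nat_lit 3) (nat_lit 678) (nat_lit 0) (nat_lit 192) (nat_lit 192) (nat_lit 186)))))) (PT.nd (nat_lit 624) (PT.nd (nat_lit 312) (PT.nd (nat_lit 156) (PT.nd (nat_lit 78) (PT.lf (nat_lit 51148) (nat_lit 6) (nat_lit 673) (nat_lit 0) (nat_lit 193) (nat_lit 192) (nat_lit 185)) (PT.lf (nat_lit 50692) (nat_lit 6) (nat_lit 667) (nat_lit 0) (nat_lit 194) (nat_lit 192) (nat_lit 184))) (PT.nd (nat_lit 78) (PT.lf (nat_lit 50160) (nat_lit 6) (nat_lit 660) (nat_lit 0) (nat_lit 195) (nat_lit 192) (nat_lit 183)) (PT.lf (nat_lit 49552) (nat_lit 6) (nat_lit 652) (nat_lit 0) (nat_lit 196) (nat_lit 192) (nat_lit 182)))) (PT.nd (nat_lit 156) (PT.nd (nat_lit 78) (PT.lf (nat_lit 48868) (nat_lit 6) (nat_lit 643) (nat_lit 0) (nat_lit 197) (nat_lit 192) (nat_lit 181)) (PT.lf (nat_lit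 48108) (nat_lit 6) (nat_lit 633) (nat_lit 0) (nat_lit 198) (nat_lit 192) (nat_lit 180))) (PT.nd (nat_lit 78) (PT.lf (nat_lit 47272) (nat_lit 6) (nat_lit 622) (nat_lit 0) (nat_lit 199) (nat_lit 192) (nat_lit 179)) (PT.lf (nat_lit 46360) (nat_lit 6) (nat_lit 610) (nat_lit 0) (nat_lit 200) (nat_lit 192) (nat_lit 178))))) (PT.nd (nat_lit 312) (PT.nd (nat_lit 156) (PT.nd (nat_lit 78) (PT.lf (nat_lit 45372) (nat_lit 6) (nat_lit 597) (nat_lit 0) (nat_lit 201) (nat_lit 192) (nat_lit 177)) (PT.lf (nat_lit 44308) (nat_lit 6) (nat_lit 583) (nat_lit 0) (nat_lit 202) (nat_lit 192) (nat_lit 176))) (PT.nd (nat_lit 78) (PT.lf (nat_lit 43168) (nat_lit 6) (nat_lit 568) (nat_lit 0) (nat_lit 203) (nat_lit 192) (nat_lit 175)) (PT.lf (nat_lit 41952) (nat_lit 6) (nat_lit 552) (nat_lit 0) (nat_lit 204) (nat_lit 192) (nat_lit 174)))) (PT.nd (nat_lit 156) (PT.nd (nat_lit 78) (PT.lf (nat_lit 40660) (nat_lit 6) (nat_lit 535) (nat_lit 0) (nat_lit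 205) (nat_lit 192) (nat_lit 173)) (PT.lf (nat_lit 39292) (nat_lit 6) (nat_lit 517) (nat_lit 0) (nat_lit 206) (nat_lit 192) (nat_lit 172))) (PT.nd (nat_lit 78) (PT.lf (nat_lit 37848) (nat_lit 6) (nat_lit 498) (nat_lit 0) (nat_lit 207) (nat_lit 192) (nat_lit 171)) (PT.lf (nat_lit 36328) (nat_lit 6) (nat_lit 478) (nat_lit 0) (nat_lit 208) (nat_lit 192) (nat_lit 170))))))))
noncomputable def pc28 : PT := (PT.nd (nat_lit 57642) (PT.nd (nat_lit 56472) (PT.nd (nat_lit 55848) (PT.nd (nat_lit 234) (PT.nd (nat_lit 78) (PT.lf (nat_lit 34732) (nat_lit 6) (nat_lit 457) (nat_lit 0) (nat_lit 209) (nat_lit 192) (nat_lit 169)) (PT.nd (nat_lit 78) (PT.lf (nat_lit 33060) (nat_lit 6) (nat_lit 435) (nat_lit 0) (nat_lit 210) (nat_lit 192) (nat_lit 168)) (PT.lf (nat_lit 31312) (nat_lit 6) (nat_lit 412) (nat_lit 0) (nat_lit 211) (nat_lit 192) (nat_lit 167)))) (PT.nd (nat_lit 156) (PT.nd (nat_lit 78) (PT.lf (nat_lit 29488) (nat_lit 6) (nat_lit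 388) (nat_lit 0) (nat_lit 212) (nat_lit 192) (nat_lit 166)) (PT.lf (nat_lit 28348) (nat_lit 6) (nat_lit 373) (nat_lit 0) (nat_lit 213) (nat_lit 192) (nat_lit 165))) (PT.nd (nat_lit 55380) (PT.lf (nat_lit 27360) (nat_lit 6) (nat_lit 360) (nat_lit 0) (nat_lit 214) (nat_lit 192) (nat_lit 164)) (PT.lf (nat_lit 26524) (nat_lit 6) (nat_lit 349) (nat_lit 5) (nat_lit 163) (nat_lit 193) (nat_lit 214))))) (PT.nd (nat_lit 312) (PT.nd (nat_lit 156) (PT.nd (nat_lit 78) (PT.lf (nat_lit 27436) (nat_lit 6) (nat_lit 361) (nat_lit 5) (nat_lit 164) (nat_lit 193) (nat_lit 213)) (PT.lf (nat_lit 28424) (nat_lit 6) (nat_lit 374) (nat_lit 5) (nat_lit 165) (nat_lit 193) (nat_lit 212))) (PT.nd (nat_lit 78) (PT.lf (nat_lit 29564) (nat_lit 6) (nat_lit 389) (nat_lit 5) (nat_lit 166) (nat_lit 193) (nat_lit 211)) (PT.lf (nat_lit 31388) (nat_lit 6) (nat_lit 413) (nat_lit 5) (nat_lit 167) (nat_lit 193) (nat_lit 210)))) (PT.nd (nat_lit 156) (PT.nd (nat_lit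 78) (PT.lf (nat_lit 33136) (nat_lit 6) (nat_lit 436) (nat_lit 5) (nat_lit 168) (nat_lit 193) (nat_lit 209)) (PT.lf (nat_lit 34808) (nat_lit 6) (nat_lit 458) (nat_lit 5) (nat_lit 169) (nat_lit 193) (nat_lit 208))) (PT.nd (nat_lit 78) (PT.lf (nat_lit 36404) (nat_lit 6) (nat_lit 479) (nat_lit 5) (nat_lit 170) (nat_lit 193) (nat_lit 207)) (PT.lf (nat_lit 37924) (nat_lit 6) (nat_lit 499) (nat_lit 5) (nat_lit 171) (nat_lit 193) (nat_lit 206)))))) (PT.nd (nat_lit 546) (PT.nd (nat_lit 234) (PT.nd (nat_lit 78) (PT.lf (nat_lit 39368) (nat_lit 6) (nat_lit 518) (nat_lit 5) (nat_lit 172) (nat_lit 193) (nat_lit 205)) (PT.nd (nat_lit 78) (PT.lf (nat_lit 40736) (nat_lit 6) (nat_lit 536) (nat_lit 5) (nat_lit 173) (nat_lit 193) (nat_lit 204)) (PT.lf (nat_lit 42028) (nat_lit 6) (nat_lit 553) (nat_lit 5) (nat_lit 174) (nat_lit 193) (nat_lit 203)))) (PT.nd (nat_lit 156) (PT.nd (nat_lit 78) (PT.lf (nat_lit 43244) (nat_lit 6) (nat_lit 569)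 (nat_lit 5) (nat_lit 175) (nat_lit 193) (nat_lit 202)) (PT.lf (nat_lit 44384) (nat_lit 6) (nat_lit 584) (nat_lit 5) (nat_lit 176) (nat_lit 193) (nat_lit 201))) (PT.nd (nat_lit 78) (PT.lf (nat_lit 45448) (nat_lit 6) (nat_lit 598) (nat_lit 5) (nat_lit 177) (nat_lit 193) (nat_lit 200)) (PT.lf (nat_lit 46436) (nat_lit 6) (nat_lit 611) (nat_lit 5) (nat_lit 178) (nat_lit 193) (nat_lit 199))))) (PT.nd (nat_lit 312) (PT.nd (nat_lit 156) (PT.nd (nat_lit 78) (PT.lf (nat_lit 47348) (nat_lit 6) (nat_lit 623) (nat_lit 5) (nat_lit 179) (nat_lit 193) (nat_lit 198)) (PT.lf (nat_lit 48184) (nat_lit 6) (nat_lit 634) (nat_lit 5) (nat_lit 180) (nat_lit 193) (nat_lit 197))) (PT.nd (nat_lit 78) (PT.lf (nat_lit 48944) (nat_lit 6) (nat_lit 644) (nat_lit 5) (nat_lit 181) (nat_lit 193) (nat_lit 196)) (PT.lf (nat_lit 49628) (nat_lit 6) (nat_lit 653) (nat_lit 5) (nat_lit 182) (nat_lit 193) (nat_lit 195)))) (PT.nd (nat_lit 156) (PT.nd (nat_lit 78)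 (PT.lf (nat_lit 50236) (nat_lit 6) (nat_lit 661) (nat_lit 5) (nat_lit 183) (nat_lit 193) (nat_lit 194)) (PT.lf (nat_lit 50768) (nat_lit 3) (nat_lit 668) (nat_lit 4) (nat_lit 184) (nat_lit 193) (nat_lit 193))) (PT.nd (nat_lit 78) (PT.lf (nat_lit 51148) (nat_lit 6) (nat_lit 673) (nat_lit 4) (nat_lit 185) (nat_lit 193) (nat_lit 192)) (PT.lf (nat_lit 51452) (nat_lit 6) (nat_lit 677) (nat_lit 4) (nat_lit 186) (nat_lit 193) (nat_lit 191))))))) (PT.nd (nat_lit 1170) (PT.nd (nat_lit 546) (PT.nd (nat_lit 234) (PT.nd (nat_lit 78) (PT.lf (nat_lit 51680) (nat_lit 6) (nat_lit 680) (nat_lit 4) (nat_lit 187) (nat_lit 193) (nat_lit 190)) (PT.nd (nat_lit 78) (PT.lf (nat_lit 51604) (nat_lit 6) (nat_lit 679) (nat_lit 4) (nat_lit 188) (nat_lit 193) (nat_lit 189)) (PT.lf (nat_lit 51604) (nat_lit 6) (nat_lit 679) (nat_lit 2) (nat_lit 189) (nat_lit 193) (nat_lit 188)))) (PT.nd (nat_lit 156) (PT.nd (nat_lit 78) (PT.lf (nat_lit 51680) (nat_lit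 6) (nat_lit 680) (nat_lit 2) (nat_lit 190) (nat_lit 193) (nat_lit 187)) (PT.lf (nat_lit 51452) (nat_lit 6) (nat_lit 677) (nat_lit 2) (nat_lit 191) (nat_lit 193) (nat_lit 186))) (PT.nd (nat_lit 78) (PT.lf (nat_lit 51148) (nat_lit 6) (nat_lit 673) (nat_lit 2) (nat_lit 192) (nat_lit 193) (nat_lit 185)) (PT.lf (nat_lit 50768) (nat_lit 3) (nat_lit 668) (nat_lit 0) (nat_lit 193) (nat_lit 193) (nat_lit 184))))) (PT.nd (nat_lit 312) (PT.nd (nat_lit 156) (PT.nd (nat_lit 78) (PT.lf (nat_lit 50236) (nat_lit 6) (nat_lit 661) (nat_lit 0) (nat_lit 194) (nat_lit 193) (nat_lit 183)) (PT.lf (nat_lit 49628) (nat_lit 6) (nat_lit 653) (nat_lit 0) (nat_lit 195) (nat_lit 193) (nat_lit 182))) (PT.nd (nat_lit 78) (PT.lf (nat_lit 48944) (nat_lit 6) (nat_lit 644) (nat_lit 0) (nat_lit 196) (nat_lit 193) (nat_lit 181)) (PT.lf (nat_lit 48184) (nat_lit 6) (nat_lit 634) (nat_lit 0) (nat_lit 197) (nat_lit 193) (nat_lit 180)))) (PT.nd (nat_lit 156)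 (PT.nd (nat_lit 78) (PT.lf (nat_lit 47348) (nat_lit 6) (nat_lit 623) (nat_lit 0) (nat_lit 198) (nat_lit 193) (nat_lit 179)) (PT.lf (nat_lit 46436) (nat_lit 6) (nat_lit 611) (nat_lit 0) (nat_lit 199) (nat_lit 193) (nat_lit 178))) (PT.nd (nat_lit 78) (PT.lf (nat_lit 45448) (nat_lit 6) (nat_lit 598) (nat_lit 0) (nat_lit 200) (nat_lit 193) (nat_lit 177)) (PT.lf (nat_lit 44384) (nat_lit 6) (nat_lit 584) (nat_lit 0) (nat_lit 201) (nat_lit 193) (nat_lit 176)))))) (PT.nd (nat_lit 546) (PT.nd (nat_lit 234) (PT.nd (nat_lit 78) (PT.lf (nat_lit 43244) (nat_lit 6) (nat_lit 569) (nat_lit 0) (nat_lit 202) (nat_lit 193) (nat_lit 175)) (PT.nd (nat_lit 78) (PT.lf (nat_lit 42028) (nat_lit 6) (nat_lit 553) (nat_lit 0) (nat_lit 203) (nat_lit 193) (nat_lit 174)) (PT.lf (nat_lit 40736) (nat_lit 6) (nat_lit 536) (nat_lit 0) (nat_lit 204) (nat_lit 193) (nat_lit 173)))) (PT.nd (nat_lit 156) (PT.nd (nat_lit 78) (PT.lf (nat_lit 39368) (nat_lit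 6) (nat_lit 518) (nat_lit 0) (nat_lit 205) (nat_lit 193) (nat_lit 172)) (PT.lf (nat_lit 37924) (nat_lit 6) (nat_lit 499) (nat_lit 0) (nat_lit 206) (nat_lit 193) (nat_lit 171))) (PT.nd (nat_lit 78) (PT.lf (nat_lit 36404) (nat_lit 6) (nat_lit 479) (nat_lit 0) (nat_lit 207) (nat_lit 193) (nat_lit 170)) (PT.lf (nat_lit 34808) (nat_lit 6) (nat_lit 458) (nat_lit 0) (nat_lit 208) (nat_lit 193) (nat_lit 169))))) (PT.nd (nat_lit 312) (PT.nd (nat_lit 156) (PT.nd (nat_lit 78) (PT.lf (nat_lit 33136) (nat_lit 6) (nat_lit 436) (nat_lit 0) (nat_lit 209) (nat_lit 193) (nat_lit 168)) (PT.lf (nat_lit 31388) (nat_lit 6) (nat_lit 413) (nat_lit 0) (nat_lit 210) (nat_lit 193) (nat_lit 167))) (PT.nd (nat_lit 78) (PT.lf (nat_lit 29564) (nat_lit 6) (nat_lit 389) (nat_lit 0) (nat_lit 211) (nat_lit 193) (nat_lit 166)) (PT.lf (nat_lit 28424) (nat_lit 6) (nat_lit 374) (nat_lit 0) (nat_lit 212) (nat_lit 193) (nat_lit 165)))) (PT.nd (nat_lit 55302)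 (PT.nd (nat_lit 78) (PT.lf (nat_lit 27436) (nat_lit 6) (nat_lit 361) (nat_lit 0) (nat_lit 213) (nat_lit 193) (nat_lit 164)) (PT.lf (nat_lit 26524) (nat_lit 6) (nat_lit 349) (nat_lit 0) (nat_lit 214) (nat_lit 193) (nat_lit 163))) (PT.nd (nat_lit 78) (PT.lf (nat_lit 24776) (nat_lit 6) (nat_lit 326) (nat_lit 5) (nat_lit 161) (nat_lit 194) (nat_lit 215)) (PT.lf (nat_lit 25688) (nat_lit 6) (nat_lit 338) (nat_lit 5) (nat_lit 162) (nat_lit 194) (nat_lit 214))))))))
noncomputable def pc29 : PT := (PT.nd (nat_lit 2340) (PT.nd (nat_lit 1170) (PT.nd (nat_lit 546) (PT.nd (nat_lit 234) (PT.nd (nat_lit 78) (PT.lf (nat_lit 26600) (nat_lit 6) (nat_lit 350) (nat_lit 5) (nat_lit 163) (nat_lit 194) (nat_lit 213)) (PT.nd (nat_lit 78) (PT.lf (nat_lit 27512) (nat_lit 6) (nat_lit 362) (nat_lit 5) (nat_lit 164) (nat_lit 194) (nat_lit 212)) (PT.lf (nat_lit 28500) (nat_lit 6) (nat_lit 375) (nat_lit 5) (nat_lit 165) (nat_lit 194) (nat_lit 211))))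 (PT.nd (nat_lit 156) (PT.nd (nat_lit 78) (PT.lf (nat_lit 29640) (nat_lit 6) (nat_lit 390) (nat_lit 5) (nat_lit 166) (nat_lit 194) (nat_lit 210)) (PT.lf (nat_lit 31464) (nat_lit 6) (nat_lit 414) (nat_lit 5) (nat_lit 167) (nat_lit 194) (nat_lit 209))) (PT.nd (nat_lit 78) (PT.lf (nat_lit 33212) (nat_lit 6) (nat_lit 437) (nat_lit 5) (nat_lit 168) (nat_lit 194) (nat_lit 208)) (PT.lf (nat_lit 34884) (nat_lit 6) (nat_lit 459) (nat_lit 5) (nat_lit 169) (nat_lit 194) (nat_lit 207))))) (PT.nd (nat_lit 312) (PT.nd (nat_lit 156) (PT.nd (nat_lit 78) (PT.lf (nat_lit 36480) (nat_lit 6) (nat_lit 480) (nat_lit 5) (nat_lit 170) (nat_lit 194) (nat_lit 206)) (PT.lf (nat_lit 38000) (nat_lit 6) (nat_lit 500) (nat_lit 5) (nat_lit 171) (nat_lit 194) (nat_lit 205))) (PT.nd (nat_lit 78) (PT.lf (nat_lit 39444) (nat_lit 6) (nat_lit 519) (nat_lit 5) (nat_lit 172) (nat_lit 194) (nat_lit 204)) (PT.lf (nat_lit 40812) (nat_lit 6) (nat_lit 537) (nat_lit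 5) (nat_lit 173) (nat_lit 194) (nat_lit 203)))) (PT.nd (nat_lit 156) (PT.nd (nat_lit 78) (PT.lf (nat_lit 42104) (nat_lit 6) (nat_lit 554) (nat_lit 5) (nat_lit 174) (nat_lit 194) (nat_lit 202)) (PT.lf (nat_lit 43320) (nat_lit 6) (nat_lit 570) (nat_lit 5) (nat_lit 175) (nat_lit 194) (nat_lit 201))) (PT.nd (nat_lit 78) (PT.lf (nat_lit 44460) (nat_lit 6) (nat_lit 585) (nat_lit 5) (nat_lit 176) (nat_lit 194) (nat_lit 200)) (PT.lf (nat_lit 45524) (nat_lit 6) (nat_lit 599) (nat_lit 5) (nat_lit 177) (nat_lit 194) (nat_lit 199)))))) (PT.nd (nat_lit 546) (PT.nd (nat_lit 234) (PT.nd (nat_lit 78) (PT.lf (nat_lit 46512) (nat_lit 6) (nat_lit 612) (nat_lit 5) (nat_lit 178) (nat_lit 194) (nat_lit 198)) (PT.nd (nat_lit 78) (PT.lf (nat_lit 47424) (nat_lit 6) (nat_lit 624) (nat_lit 5) (nat_lit 179) (nat_lit 194) (nat_lit 197)) (PT.lf (nat_lit 48260) (nat_lit 6) (nat_lit 635) (nat_lit 5) (nat_lit 180) (nat_lit 194) (nat_lit 196)))) (PT.nd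 (nat_lit 156) (PT.nd (nat_lit 78) (PT.lf (nat_lit 49020) (nat_lit 6) (nat_lit 645) (nat_lit 5) (nat_lit 181) (nat_lit 194) (nat_lit 195)) (PT.lf (nat_lit 49704) (nat_lit 3) (nat_lit 654) (nat_lit 4) (nat_lit 182) (nat_lit 194) (nat_lit 194))) (PT.nd (nat_lit 78) (PT.lf (nat_lit 50236) (nat_lit 6) (nat_lit 661) (nat_lit 4) (nat_lit 183) (nat_lit 194) (nat_lit 193)) (PT.lf (nat_lit 50692) (nat_lit 6) (nat_lit 667) (nat_lit 4) (nat_lit 184) (nat_lit 194) (nat_lit 192))))) (PT.nd (nat_lit 312) (PT.nd (nat_lit 156) (PT.nd (nat_lit 78) (PT.lf (nat_lit 51072) (nat_lit 6) (nat_lit 672) (nat_lit 4) (nat_lit 185) (nat_lit 194) (nat_lit 191)) (PT.lf (nat_lit 51376) (nat_lit 6) (nat_lit 676) (nat_lit 4) (nat_lit 186) (nat_lit 194) (nat_lit 190))) (PT.nd (nat_lit 78) (PT.lf (nat_lit 51300) (nat_lit 6) (nat_lit 675) (nat_lit 4) (nat_lit 187) (nat_lit 194) (nat_lit 189)) (PT.lf (nat_lit 51224) (nat_lit 3) (nat_lit 674) (nat_lit 2)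 (nat_lit 188) (nat_lit 194) (nat_lit 188)))) (PT.nd (nat_lit 156) (PT.nd (nat_lit 78) (PT.lf (nat_lit 51300) (nat_lit 6) (nat_lit 675) (nat_lit 2) (nat_lit 189) (nat_lit 194) (nat_lit 187)) (PT.lf (nat_lit 51376) (nat_lit 6) (nat_lit 676) (nat_lit 2) (nat_lit 190) (nat_lit 194) (nat_lit 186))) (PT.nd (nat_lit 78) (PT.lf (nat_lit 51072) (nat_lit 6) (nat_lit 672) (nat_lit 2) (nat_lit 191) (nat_lit 194) (nat_lit 185)) (PT.lf (nat_lit 50692) (nat_lit 6) (nat_lit 667) (nat_lit 2) (nat_lit 192) (nat_lit 194) (nat_lit 184))))))) (PT.nd (nat_lit 1170) (PT.nd (nat_lit 546) (PT.nd (nat_lit 234) (PT.nd (nat_lit 78) (PT.lf (nat_lit 50236) (nat_lit 6) (nat_lit 661) (nat_lit 2) (nat_lit 193) (nat_lit 194) (nat_lit 183)) (PT.nd (nat_lit 78) (PT.lf (nat_lit 49704) (nat_lit 3) (nat_lit 654) (nat_lit 0) (nat_lit 194) (nat_lit 194) (nat_lit 182)) (PT.lf (nat_lit 49020) (nat_lit 6) (nat_lit 645) (nat_lit 0) (nat_lit 195) (nat_lit 194) (nat_lit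 181)))) (PT.nd (nat_lit 156) (PT.nd (nat_lit 78) (PT.lf (nat_lit 48260) (nat_lit 6) (nat_lit 635) (nat_lit 0) (nat_lit 196) (nat_lit 194) (nat_lit 180)) (PT.lf (nat_lit 47424) (nat_lit 6) (nat_lit 624) (nat_lit 0) (nat_lit 197) (nat_lit 194) (nat_lit 179))) (PT.nd (nat_lit 78) (PT.lf (nat_lit 46512) (nat_lit 6) (nat_lit 612) (nat_lit 0) (nat_lit 198) (nat_lit 194) (nat_lit 178)) (PT.lf (nat_lit 45524) (nat_lit 6) (nat_lit 599) (nat_lit 0) (nat_lit 199) (nat_lit 194) (nat_lit 177))))) (PT.nd (nat_lit 312) (PT.nd (nat_lit 156) (PT.nd (nat_lit 78) (PT.lf (nat_lit 44460) (nat_lit 6) (nat_lit 585) (nat_lit 0) (nat_lit 200) (nat_lit 194) (nat_lit 176)) (PT.lf (nat_lit 43320) (nat_lit 6) (nat_lit 570) (nat_lit 0) (nat_lit 201) (nat_lit 194) (nat_lit 175))) (PT.nd (nat_lit 78) (PT.lf (nat_lit 42104) (nat_lit 6) (nat_lit 554) (nat_lit 0) (nat_lit 202) (nat_lit 194) (nat_lit 174)) (PT.lf (nat_lit 40812) (nat_lit 6) (nat_lit 537)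 (nat_lit 0) (nat_lit 203) (nat_lit 194) (nat_lit 173)))) (PT.nd (nat_lit 156) (PT.nd (nat_lit 78) (PT.lf (nat_lit 39444) (nat_lit 6) (nat_lit 519) (nat_lit 0) (nat_lit 204) (nat_lit 194) (nat_lit 172)) (PT.lf (nat_lit 38000) (nat_lit 6) (nat_lit 500) (nat_lit 0) (nat_lit 205) (nat_lit 194) (nat_lit 171))) (PT.nd (nat_lit 78) (PT.lf (nat_lit 36480) (nat_lit 6) (nat_lit 480) (nat_lit 0) (nat_lit 206) (nat_lit 194) (nat_lit 170)) (PT.lf (nat_lit 34884) (nat_lit 6) (nat_lit 459) (nat_lit 0) (nat_lit 207) (nat_lit 194) (nat_lit 169)))))) (PT.nd (nat_lit 55614) (PT.nd (nat_lit 312) (PT.nd (nat_lit 156) (PT.nd (nat_lit 78) (PT.lf (nat_lit 33212) (nat_lit 6) (nat_lit 437) (nat_lit 0) (nat_lit 208) (nat_lit 194) (nat_lit 168)) (PT.lf (nat_lit 31464) (nat_lit 6) (nat_lit 414) (nat_lit 0) (nat_lit 209) (nat_lit 194) (nat_lit 167))) (PT.nd (nat_lit 78) (PT.lf (nat_lit 29640) (nat_lit 6) (nat_lit 390) (nat_lit 0) (nat_lit 210) (nat_lit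 194) (nat_lit 166)) (PT.lf (nat_lit 28500) (nat_lit 6) (nat_lit 375) (nat_lit 0) (nat_lit 211) (nat_lit 194) (nat_lit 165)))) (PT.nd (nat_lit 156) (PT.nd (nat_lit 78) (PT.lf (nat_lit 27512) (nat_lit 6) (nat_lit 362) (nat_lit 0) (nat_lit 212) (nat_lit 194) (nat_lit 164)) (PT.lf (nat_lit 26600) (nat_lit 6) (nat_lit 350) (nat_lit 0) (nat_lit 213) (nat_lit 194) (nat_lit 163))) (PT.nd (nat_lit 78) (PT.lf (nat_lit 25688) (nat_lit 6) (nat_lit 338) (nat_lit 0) (nat_lit 214) (nat_lit 194) (nat_lit 162)) (PT.lf (nat_lit 24776) (nat_lit 6) (nat_lit 326) (nat_lit 0) (nat_lit 215) (nat_lit 194) (nat_lit 161))))) (PT.nd (nat_lit 312) (PT.nd (nat_lit 156) (PT.nd (nat_lit 78) (PT.lf (nat_lit 23940) (nat_lit 6) (nat_lit 315) (nat_lit 5) (nat_lit 160) (nat_lit 195) (nat_lit 215)) (PT.lf (nat_lit 24852) (nat_lit 6) (nat_lit 327) (nat_lit 5) (nat_lit 161) (nat_lit 195) (nat_lit 214))) (PT.nd (nat_lit 78) (PT.lf (nat_lit 25764) (nat_lit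 6) (nat_lit 339) (nat_lit 5) (nat_lit 162) (nat_lit 195) (nat_lit 213)) (PT.lf (nat_lit 26676) (nat_lit 6) (nat_lit 351) (nat_lit 5) (nat_lit 163) (nat_lit 195) (nat_lit 212)))) (PT.nd (nat_lit 156) (PT.nd (nat_lit 78) (PT.lf (nat_lit 27588) (nat_lit 6) (nat_lit 363) (nat_lit 5) (nat_lit 164) (nat_lit 195) (nat_lit 211)) (PT.lf (nat_lit 28576) (nat_lit 6) (nat_lit 376) (nat_lit 5) (nat_lit 165) (nat_lit 195) (nat_lit 210))) (PT.nd (nat_lit 78) (PT.lf (nat_lit 29716) (nat_lit 6) (nat_lit 391) (nat_lit 5) (nat_lit 166) (nat_lit 195) (nat_lit 209)) (PT.lf (nat_lit 31540) (nat_lit 6) (nat_lit 415) (nat_lit 5) (nat_lit 167) (nat_lit 195) (nat_lit 208))))))))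
noncomputable def pc30 : PT := (PT.nd (nat_lit 2340) (PT.nd (nat_lit 1170) (PT.nd (nat_lit 546) (PT.nd (nat_lit 234) (PT.nd (nat_lit 78) (PT.lf (nat_lit 33288) (nat_lit 6) (nat_lit 438) (nat_lit 5) (nat_lit 168) (nat_lit 195) (nat_lit 207)) (PT.nd (nat_lit 78) (PT.lf (nat_lit 34960) (nat_lit 6) (nat_lit 460) (nat_lit 5) (nat_lit 169) (nat_lit 195) (nat_lit 206)) (PT.lf (nat_lit 36556) (nat_lit 6) (nat_lit 481) (nat_lit 5) (nat_lit 170) (nat_lit 195) (nat_lit 205)))) (PT.nd (nat_lit 156) (PT.nd (nat_lit 78) (PT.lf (nat_lit 38076) (nat_lit 6) (nat_lit 501) (nat_lit 5) (nat_lit 171) (nat_lit 195) (nat_lit 204)) (PT.lf (nat_lit 39520) (nat_lit 6) (nat_lit 520) (nat_lit 5) (nat_lit 172) (nat_lit 195) (nat_lit 203))) (PT.nd (nat_lit 78) (PT.lf (nat_lit 40888) (nat_lit 6) (nat_lit 538) (nat_lit 5) (nat_lit 173) (nat_lit 195) (nat_lit 202)) (PT.lf (nat_lit 42180) (nat_lit 6) (nat_lit 555) (nat_lit 5) (nat_lit 174) (nat_lit 195)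 (nat_lit 201))))) (PT.nd (nat_lit 312) (PT.nd (nat_lit 156) (PT.nd (nat_lit 78) (PT.lf (nat_lit 43396) (nat_lit 6) (nat_lit 571) (nat_lit 5) (nat_lit 175) (nat_lit 195) (nat_lit 200)) (PT.lf (nat_lit 44536) (nat_lit 6) (nat_lit 586) (nat_lit 5) (nat_lit 176) (nat_lit 195) (nat_lit 199))) (PT.nd (nat_lit 78) (PT.lf (nat_lit 45600) (nat_lit 6) (nat_lit 600) (nat_lit 5) (nat_lit 177) (nat_lit 195) (nat_lit 198)) (PT.lf (nat_lit 46588) (nat_lit 6) (nat_lit 613) (nat_lit 5) (nat_lit 178) (nat_lit 195) (nat_lit 197)))) (PT.nd (nat_lit 156) (PT.nd (nat_lit 78) (PT.lf (nat_lit 47500) (nat_lit 6) (nat_lit 625) (nat_lit 5) (nat_lit 179) (nat_lit 195) (nat_lit 196)) (PT.lf (nat_lit 48336) (nat_lit 3) (nat_lit 636) (nat_lit 4) (nat_lit 180) (nat_lit 195) (nat_lit 195))) (PT.nd (nat_lit 78) (PT.lf (nat_lit 49020) (nat_lit 6) (nat_lit 645) (nat_lit 4) (nat_lit 181) (nat_lit 195) (nat_lit 194)) (PT.lf (nat_lit 49628) (nat_lit 6) (nat_lit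 653) (nat_lit 4) (nat_lit 182) (nat_lit 195) (nat_lit 193)))))) (PT.nd (nat_lit 546) (PT.nd (nat_lit 234) (PT.nd (nat_lit 78) (PT.lf (nat_lit 50160) (nat_lit 6) (nat_lit 660) (nat_lit 4) (nat_lit 183) (nat_lit 195) (nat_lit 192)) (PT.nd (nat_lit 78) (PT.lf (nat_lit 50616) (nat_lit 6) (nat_lit 666) (nat_lit 4) (nat_lit 184) (nat_lit 195) (nat_lit 191)) (PT.lf (nat_lit 50996) (nat_lit 6) (nat_lit 671) (nat_lit 4) (nat_lit 185) (nat_lit 195) (nat_lit 190)))) (PT.nd (nat_lit 156) (PT.nd (nat_lit 78) (PT.lf (nat_lit 50920) (nat_lit 6) (nat_lit 670) (nat_lit 4) (nat_lit 186) (nat_lit 195) (nat_lit 189)) (PT.lf (nat_lit 50844) (nat_lit 6) (nat_lit 669) (nat_lit 4) (nat_lit 187) (nat_lit 195) (nat_lit 188))) (PT.nd (nat_lit 78) (PT.lf (nat_lit 50844) (nat_lit 6) (nat_lit 669) (nat_lit 2) (nat_lit 188) (nat_lit 195) (nat_lit 187)) (PT.lf (nat_lit 50920) (nat_lit 6) (nat_lit 670) (nat_lit 2) (nat_lit 189) (nat_lit 195) (nat_lit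 186))))) (PT.nd (nat_lit 312) (PT.nd (nat_lit 156) (PT.nd (nat_lit 78) (PT.lf (nat_lit 50996) (nat_lit 6) (nat_lit 671) (nat_lit 2) (nat_lit 190) (nat_lit 195) (nat_lit 185)) (PT.lf (nat_lit 50616) (nat_lit 6) (nat_lit 666) (nat_lit 2) (nat_lit 191) (nat_lit 195) (nat_lit 184))) (PT.nd (nat_lit 78) (PT.lf (nat_lit 50160) (nat_lit 6) (nat_lit 660) (nat_lit 2) (nat_lit 192) (nat_lit 195) (nat_lit 183)) (PT.lf (nat_lit 49628) (nat_lit 6) (nat_lit 653) (nat_lit 2) (nat_lit 193) (nat_lit 195) (nat_lit 182)))) (PT.nd (nat_lit 156) (PT.nd (nat_lit 78) (PT.lf (nat_lit 49020) (nat_lit 6) (nat_lit 645) (nat_lit 2) (nat_lit 194) (nat_lit 195) (nat_lit 181)) (PT.lf (nat_lit 48336) (nat_lit 3) (nat_lit 636) (nat_lit 0) (nat_lit 195) (nat_lit 195) (nat_lit 180))) (PT.nd (nat_lit 78) (PT.lf (nat_lit 47500) (nat_lit 6) (nat_lit 625) (nat_lit 0) (nat_lit 196) (nat_lit 195) (nat_lit 179)) (PT.lf (nat_lit 46588) (nat_lit 6) (nat_lit 613)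 (nat_lit 0) (nat_lit 197) (nat_lit 195) (nat_lit 178))))))) (PT.nd (nat_lit 1170) (PT.nd (nat_lit 546) (PT.nd (nat_lit 234) (PT.nd (nat_lit 78) (PT.lf (nat_lit 45600) (nat_lit 6) (nat_lit 600) (nat_lit 0) (nat_lit 198) (nat_lit 195) (nat_lit 177)) (PT.nd (nat_lit 78) (PT.lf (nat_lit 44536) (nat_lit 6) (nat_lit 586) (nat_lit 0) (nat_lit 199) (nat_lit 195) (nat_lit 176)) (PT.lf (nat_lit 43396) (nat_lit 6) (nat_lit 571) (nat_lit 0) (nat_lit 200) (nat_lit 195) (nat_lit 175)))) (PT.nd (nat_lit 156) (PT.nd (nat_lit 78) (PT.lf (nat_lit 42180) (nat_lit 6) (nat_lit 555) (nat_lit 0) (nat_lit 201) (nat_lit 195) (nat_lit 174)) (PT.lf (nat_lit 40888) (nat_lit 6) (nat_lit 538) (nat_lit 0) (nat_lit 202) (nat_lit 195) (nat_lit 173))) (PT.nd (nat_lit 78) (PT.lf (nat_lit 39520) (nat_lit 6) (nat_lit 520) (nat_lit 0) (nat_lit 203) (nat_lit 195) (nat_lit 172)) (PT.lf (nat_lit 38076) (nat_lit 6) (nat_lit 501) (nat_lit 0) (nat_lit 204) (nat_lit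 195) (nat_lit 171))))) (PT.nd (nat_lit 312) (PT.nd (nat_lit 156) (PT.nd (nat_lit 78) (PT.lf (nat_lit 36556) (nat_lit 6) (nat_lit 481) (nat_lit 0) (nat_lit 205) (nat_lit 195) (nat_lit 170)) (PT.lf (nat_lit 34960) (nat_lit 6) (nat_lit 460) (nat_lit 0) (nat_lit 206) (nat_lit 195) (nat_lit 169))) (PT.nd (nat_lit 78) (PT.lf (nat_lit 33288) (nat_lit 6) (nat_lit 438) (nat_lit 0) (nat_lit 207) (nat_lit 195) (nat_lit 168)) (PT.lf (nat_lit 31540) (nat_lit 6) (nat_lit 415) (nat_lit 0) (nat_lit 208) (nat_lit 195) (nat_lit 167)))) (PT.nd (nat_lit 156) (PT.nd (nat_lit 78) (PT.lf (nat_lit 29716) (nat_lit 6) (nat_lit 391) (nat_lit 0) (nat_lit 209) (nat_lit 195) (nat_lit 166)) (PT.lf (nat_lit 28576) (nat_lit 6) (nat_lit 376) (nat_lit 0) (nat_lit 210) (nat_lit 195) (nat_lit 165))) (PT.nd (nat_lit 78) (PT.lf (nat_lit 27588) (nat_lit 6) (nat_lit 363) (nat_lit 0) (nat_lit 211) (nat_lit 195) (nat_lit 164)) (PT.lf (nat_lit 26676) (nat_lit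 6) (nat_lit 351) (nat_lit 0) (nat_lit 212) (nat_lit 195) (nat_lit 163)))))) (PT.nd (nat_lit 55458) (PT.nd (nat_lit 55146) (PT.nd (nat_lit 78) (PT.lf (nat_lit 25764) (nat_lit 6) (nat_lit 339) (nat_lit 0) (nat_lit 213) (nat_lit 195) (nat_lit 162)) (PT.nd (nat_lit 78) (PT.lf (nat_lit 24852) (nat_lit 6) (nat_lit 327) (nat_lit 0) (nat_lit 214) (nat_lit 195) (nat_lit 161)) (PT.lf (nat_lit 23940) (nat_lit 6) (nat_lit 315) (nat_lit 0) (nat_lit 215) (nat_lit 195) (nat_lit 160)))) (PT.nd (nat_lit 156) (PT.nd (nat_lit 78) (PT.lf (nat_lit 23180) (nat_lit 6) (nat_lit 305) (nat_lit 5) (nat_lit 159) (nat_lit 196) (nat_lit 215)) (PT.lf (nat_lit 24016) (nat_lit 6) (nat_lit 316) (nat_lit 5) (nat_lit 160) (nat_lit 196) (nat_lit 214))) (PT.nd (nat_lit 78) (PT.lf (nat_lit 24928) (nat_lit 6) (nat_lit 328) (nat_lit 5) (nat_lit 161) (nat_lit 196) (nat_lit 213)) (PT.lf (nat_lit 25840) (nat_lit 6) (nat_lit 340) (nat_lit 5) (nat_lit 162) (nat_lit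 196) (nat_lit 212))))) (PT.nd (nat_lit 312) (PT.nd (nat_lit 156) (PT.nd (nat_lit 78) (PT.lf (nat_lit 26752) (nat_lit 6) (nat_lit 352) (nat_lit 5) (nat_lit 163) (nat_lit 196) (nat_lit 211)) (PT.lf (nat_lit 27664) (nat_lit 6) (nat_lit 364) (nat_lit 5) (nat_lit 164) (nat_lit 196) (nat_lit 210))) (PT.nd (nat_lit 78) (PT.lf (nat_lit 28652) (nat_lit 6) (nat_lit 377) (nat_lit 5) (nat_lit 165) (nat_lit 196) (nat_lit 209)) (PT.lf (nat_lit 29792) (nat_lit 6) (nat_lit 392) (nat_lit 5) (nat_lit 166) (nat_lit 196) (nat_lit 208)))) (PT.nd (nat_lit 156) (PT.nd (nat_lit 78) (PT.lf (nat_lit 31616) (nat_lit 6) (nat_lit 416) (nat_lit 5) (nat_lit 167) (nat_lit 196) (nat_lit 207)) (PT.lf (nat_lit 33364) (nat_lit 6) (nat_lit 439) (nat_lit 5) (nat_lit 168) (nat_lit 196) (nat_lit 206))) (PT.nd (nat_lit 78) (PT.lf (nat_lit 35036) (nat_lit 6) (nat_lit 461) (nat_lit 5) (nat_lit 169) (nat_lit 196) (nat_lit 205)) (PT.lf (nat_lit 36632) (nat_lit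 6) (nat_lit 482) (nat_lit 5) (nat_lit 170) (nat_lit 196) (nat_lit 204))))))))
noncomputable def pc31 : PT := (PT.nd (nat_lit 2340) (PT.nd (nat_lit 1170) (PT.nd (nat_lit 546) (PT.nd (nat_lit 234) (PT.nd (nat_lit 78) (PT.lf (nat_lit 38152) (nat_lit 6) (nat_lit 502) (nat_lit 5) (nat_lit 171) (nat_lit 196) (nat_lit 203)) (PT.nd (nat_lit 78) (PT.lf (nat_lit 39596) (nat_lit 6) (nat_lit 521) (nat_lit 5) (nat_lit 172) (nat_lit 196) (nat_lit 202)) (PT.lf (nat_lit 40964) (nat_lit 6) (nat_lit 539) (nat_lit 5) (nat_lit 173) (nat_lit 196) (nat_lit 201)))) (PT.nd (nat_lit 156) (PT.nd (nat_lit 78) (PT.lf (nat_lit 42256) (nat_lit 6) (nat_lit 556) (nat_lit 5) (nat_lit 174) (nat_lit 196) (nat_lit 200)) (PT.lf (nat_lit 43472) (nat_lit 6) (nat_lit 572) (nat_lit 5) (nat_lit 175) (nat_lit 196) (nat_lit 199))) (PT.nd (nat_lit 78) (PT.lf (nat_lit 44612) (nat_lit 6) (nat_lit 587) (nat_lit 5) (nat_lit 176) (nat_lit 196) (nat_lit 198)) (PT.lf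 (nat_lit 45676) (nat_lit 6) (nat_lit 601) (nat_lit 5) (nat_lit 177) (nat_lit 196) (nat_lit 197))))) (PT.nd (nat_lit 312) (PT.nd (nat_lit 156) (PT.nd (nat_lit 78) (PT.lf (nat_lit 46664) (nat_lit 3) (nat_lit 614) (nat_lit 4) (nat_lit 178) (nat_lit 196) (nat_lit 196)) (PT.lf (nat_lit 47500) (nat_lit 6) (nat_lit 625) (nat_lit 4) (nat_lit 179) (nat_lit 196) (nat_lit 195))) (PT.nd (nat_lit 78) (PT.lf (nat_lit 48260) (nat_lit 6) (nat_lit 635) (nat_lit 4) (nat_lit 180) (nat_lit 196) (nat_lit 194)) (PT.lf (nat_lit 48944) (nat_lit 6) (nat_lit 644) (nat_lit 4) (nat_lit 181) (nat_lit 196) (nat_lit 193)))) (PT.nd (nat_lit 156) (PT.nd (nat_lit 78) (PT.lf (nat_lit 49552) (nat_lit 6) (nat_lit 652) (nat_lit 4) (nat_lit 182) (nat_lit 196) (nat_lit 192)) (PT.lf (nat_lit 50084) (nat_lit 6) (nat_lit 659) (nat_lit 4) (nat_lit 183) (nat_lit 196) (nat_lit 191))) (PT.nd (nat_lit 78) (PT.lf (nat_lit 50540) (nat_lit 6) (nat_lit 665) (nat_lit 4)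 (nat_lit 184) (nat_lit 196) (nat_lit 190)) (PT.lf (nat_lit 50464) (nat_lit 6) (nat_lit 664) (nat_lit 4) (nat_lit 185) (nat_lit 196) (nat_lit 189)))))) (PT.nd (nat_lit 546) (PT.nd (nat_lit 234) (PT.nd (nat_lit 78) (PT.lf (nat_lit 50388) (nat_lit 6) (nat_lit 663) (nat_lit 4) (nat_lit 186) (nat_lit 196) (nat_lit 188)) (PT.nd (nat_lit 78) (PT.lf (nat_lit 50312) (nat_lit 3) (nat_lit 662) (nat_lit 2) (nat_lit 187) (nat_lit 196) (nat_lit 187)) (PT.lf (nat_lit 50388) (nat_lit 6) (nat_lit 663) (nat_lit 2) (nat_lit 188) (nat_lit 196) (nat_lit 186)))) (PT.nd (nat_lit 156) (PT.nd (nat_lit 78) (PT.lf (nat_lit 50464) (nat_lit 6) (nat_lit 664) (nat_lit 2) (nat_lit 189) (nat_lit 196) (nat_lit 185)) (PT.lf (nat_lit 50540) (nat_lit 6) (nat_lit 665) (nat_lit 2) (nat_lit 190) (nat_lit 196) (nat_lit 184))) (PT.nd (nat_lit 78) (PT.lf (nat_lit 50084) (nat_lit 6) (nat_lit 659) (nat_lit 2) (nat_lit 191) (nat_lit 196) (nat_lit 183)) (PT.lf (nat_lit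 49552) (nat_lit 6) (nat_lit 652) (nat_lit 2) (nat_lit 192) (nat_lit 196) (nat_lit 182))))) (PT.nd (nat_lit 312) (PT.nd (nat_lit 156) (PT.nd (nat_lit 78) (PT.lf (nat_lit 48944) (nat_lit 6) (nat_lit 644) (nat_lit 2) (nat_lit 193) (nat_lit 196) (nat_lit 181)) (PT.lf (nat_lit 48260) (nat_lit 6) (nat_lit 635) (nat_lit 2) (nat_lit 194) (nat_lit 196) (nat_lit 180))) (PT.nd (nat_lit 78) (PT.lf (nat_lit 47500) (nat_lit 6) (nat_lit 625) (nat_lit 2) (nat_lit 195) (nat_lit 196) (nat_lit 179)) (PT.lf (nat_lit 46664) (nat_lit 3) (nat_lit 614) (nat_lit 0) (nat_lit 196) (nat_lit 196) (nat_lit 178)))) (PT.nd (nat_lit 156) (PT.nd (nat_lit 78) (PT.lf (nat_lit 45676) (nat_lit 6) (nat_lit 601) (nat_lit 0) (nat_lit 197) (nat_lit 196) (nat_lit 177)) (PT.lf (nat_lit 44612) (nat_lit 6) (nat_lit 587) (nat_lit 0) (nat_lit 198) (nat_lit 196) (nat_lit 176))) (PT.nd (nat_lit 78) (PT.lf (nat_lit 43472) (nat_lit 6) (nat_lit 572) (nat_lit 0) (nat_lit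 199) (nat_lit 196) (nat_lit 175)) (PT.lf (nat_lit 42256) (nat_lit 6) (nat_lit 556) (nat_lit 0) (nat_lit 200) (nat_lit 196) (nat_lit 174))))))) (PT.nd (nat_lit 56004) (PT.nd (nat_lit 546) (PT.nd (nat_lit 234) (PT.nd (nat_lit 78) (PT.lf (nat_lit 40964) (nat_lit 6) (nat_lit 539) (nat_lit 0) (nat_lit 201) (nat_lit 196) (nat_lit 173)) (PT.nd (nat_lit 78) (PT.lf (nat_lit 39596) (nat_lit 6) (nat_lit 521) (nat_lit 0) (nat_lit 202) (nat_lit 196) (nat_lit 172)) (PT.lf (nat_lit 38152) (nat_lit 6) (nat_lit 502) (nat_lit 0) (nat_lit 203) (nat_lit 196) (nat_lit 171)))) (PT.nd (nat_lit 156) (PT.nd (nat_lit 78) (PT.lf (nat_lit 36632) (nat_lit 6) (nat_lit 482) (nat_lit 0) (nat_lit 204) (nat_lit 196) (nat_lit 170)) (PT.lf (nat_lit 35036) (nat_lit 6) (nat_lit 461) (nat_lit 0) (nat_lit 205) (nat_lit 196) (nat_lit 169))) (PT.nd (nat_lit 78) (PT.lf (nat_lit 33364) (nat_lit 6) (nat_lit 439) (nat_lit 0) (nat_lit 206) (nat_lit 196) (nat_lit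 168)) (PT.lf (nat_lit 31616) (nat_lit 6) (nat_lit 416) (nat_lit 0) (nat_lit 207) (nat_lit 196) (nat_lit 167))))) (PT.nd (nat_lit 312) (PT.nd (nat_lit 156) (PT.nd (nat_lit 78) (PT.lf (nat_lit 29792) (nat_lit 6) (nat_lit 392) (nat_lit 0) (nat_lit 208) (nat_lit 196) (nat_lit 166)) (PT.lf (nat_lit 28652) (nat_lit 6) (nat_lit 377) (nat_lit 0) (nat_lit 209) (nat_lit 196) (nat_lit 165))) (PT.nd (nat_lit 78) (PT.lf (nat_lit 27664) (nat_lit 6) (nat_lit 364) (nat_lit 0) (nat_lit 210) (nat_lit 196) (nat_lit 164)) (PT.lf (nat_lit 26752) (nat_lit 6) (nat_lit 352) (nat_lit 0) (nat_lit 211) (nat_lit 196) (nat_lit 163)))) (PT.nd (nat_lit 156) (PT.nd (nat_lit 78) (PT.lf (nat_lit 25840) (nat_lit 6) (nat_lit 340) (nat_lit 0) (nat_lit 212) (nat_lit 196) (nat_lit 162)) (PT.lf (nat_lit 24928) (nat_lit 6) (nat_lit 328) (nat_lit 0) (nat_lit 213) (nat_lit 196) (nat_lit 161))) (PT.nd (nat_lit 78) (PT.lf (nat_lit 24016) (nat_lit 6) (nat_lit 316)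 (nat_lit 0) (nat_lit 214) (nat_lit 196) (nat_lit 160)) (PT.lf (nat_lit 23180) (nat_lit 6) (nat_lit 305) (nat_lit 0) (nat_lit 215) (nat_lit 196) (nat_lit 159)))))) (PT.nd (nat_lit 624) (PT.nd (nat_lit 312) (PT.nd (nat_lit 156) (PT.nd (nat_lit 78) (PT.lf (nat_lit 22420) (nat_lit 6) (nat_lit 295) (nat_lit 5) (nat_lit 158) (nat_lit 197) (nat_lit 215)) (PT.lf (nat_lit 23256) (nat_lit 6) (nat_lit 306) (nat_lit 5) (nat_lit 159) (nat_lit 197) (nat_lit 214))) (PT.nd (nat_lit 78) (PT.lf (nat_lit 24092) (nat_lit 6) (nat_lit 317) (nat_lit 5) (nat_lit 160) (nat_lit 197) (nat_lit 213)) (PT.lf (nat_lit 25004) (nat_lit 6) (nat_lit 329) (nat_lit 5) (nat_lit 161) (nat_lit 197) (nat_lit 212)))) (PT.nd (nat_lit 156) (PT.nd (nat_lit 78) (PT.lf (nat_lit 25916) (nat_lit 6) (nat_lit 341) (nat_lit 5) (nat_lit 162) (nat_lit 197) (nat_lit 211)) (PT.lf (nat_lit 26828) (nat_lit 6) (nat_lit 353) (nat_lit 5) (nat_lit 163) (nat_lit 197) (nat_lit 210)))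 (PT.nd (nat_lit 78) (PT.lf (nat_lit 27740) (nat_lit 6) (nat_lit 365) (nat_lit 5) (nat_lit 164) (nat_lit 197) (nat_lit 209)) (PT.lf (nat_lit 28728) (nat_lit 6) (nat_lit 378) (nat_lit 5) (nat_lit 165) (nat_lit 197) (nat_lit 208))))) (PT.nd (nat_lit 312) (PT.nd (nat_lit 156) (PT.nd (nat_lit 78) (PT.lf (nat_lit 29868) (nat_lit 6) (nat_lit 393) (nat_lit 5) (nat_lit 166) (nat_lit 197) (nat_lit 207)) (PT.lf (nat_lit 31692) (nat_lit 6) (nat_lit 417) (nat_lit 5) (nat_lit 167) (nat_lit 197) (nat_lit 206))) (PT.nd (nat_lit 78) (PT.lf (nat_lit 33440) (nat_lit 6) (nat_lit 440) (nat_lit 5) (nat_lit 168) (nat_lit 197) (nat_lit 205)) (PT.lf (nat_lit 35112) (nat_lit 6) (nat_lit 462) (nat_lit 5) (nat_lit 169) (nat_lit 197) (nat_lit 204)))) (PT.nd (nat_lit 156) (PT.nd (nat_lit 78) (PT.lf (nat_lit 36708) (nat_lit 6) (nat_lit 483) (nat_lit 5) (nat_lit 170) (nat_lit 197) (nat_lit 203)) (PT.lf (nat_lit 38228) (nat_lit 6) (nat_lit 503) (nat_lit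 5) (nat_lit 171) (nat_lit 197) (nat_lit 202))) (PT.nd (nat_lit 78) (PT.lf (nat_lit 39672) (nat_lit 6) (nat_lit 522) (nat_lit 5) (nat_lit 172) (nat_lit 197) (nat_lit 201)) (PT.lf (nat_lit 41040) (nat_lit 6) (nat_lit 540) (nat_lit 5) (nat_lit 173) (nat_lit 197) (nat_lit 200))))))))
noncomputable def pc32 : PT := (PT.nd (nat_lit 2340) (PT.nd (nat_lit 1170) (PT.nd (nat_lit 546) (PT.nd (nat_lit 234) (PT.nd (nat_lit 78) (PT.lf (nat_lit 42332) (nat_lit 6) (nat_lit 557) (nat_lit 5) (nat_lit 174) (nat_lit 197) (nat_lit 199)) (PT.nd (nat_lit 78) (PT.lf (nat_lit 43548) (nat_lit 6) (nat_lit 573) (nat_lit 5) (nat_lit 175) (nat_lit 197) (nat_lit 198)) (PT.lf (nat_lit 44688) (nat_lit 3) (nat_lit 588) (nat_lit 4) (nat_lit 176) (nat_lit 197) (nat_lit 197)))) (PT.nd (nat_lit 156) (PT.nd (nat_lit 78) (PT.lf (nat_lit 45676) (nat_lit 6) (nat_lit 601) (nat_lit 4) (nat_lit 177) (nat_lit 197) (nat_lit 196)) (PT.lf (nat_lit 46588) (nat_lit 6)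 (nat_lit 613) (nat_lit 4) (nat_lit 178) (nat_lit 197) (nat_lit 195))) (PT.nd (nat_lit 78) (PT.lf (nat_lit 47424) (nat_lit 6) (nat_lit 624) (nat_lit 4) (nat_lit 179) (nat_lit 197) (nat_lit 194)) (PT.lf (nat_lit 48184) (nat_lit 6) (nat_lit 634) (nat_lit 4) (nat_lit 180) (nat_lit 197) (nat_lit 193))))) (PT.nd (nat_lit 312) (PT.nd (nat_lit 156) (PT.nd (nat_lit 78) (PT.lf (nat_lit 48868) (nat_lit 6) (nat_lit 643) (nat_lit 4) (nat_lit 181) (nat_lit 197) (nat_lit 192)) (PT.lf (nat_lit 49476) (nat_lit 6) (nat_lit 651) (nat_lit 4) (nat_lit 182) (nat_lit 197) (nat_lit 191))) (PT.nd (nat_lit 78) (PT.lf (nat_lit 50008) (nat_lit 6) (nat_lit 658) (nat_lit 4) (nat_lit 183) (nat_lit 197) (nat_lit 190)) (PT.lf (nat_lit 49932) (nat_lit 6) (nat_lit 657) (nat_lit 4) (nat_lit 184) (nat_lit 197) (nat_lit 189)))) (PT.nd (nat_lit 156) (PT.nd (nat_lit 78) (PT.lf (nat_lit 49856) (nat_lit 6) (nat_lit 656) (nat_lit 4) (nat_lit 185) (nat_lit 197)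 (nat_lit 188)) (PT.lf (nat_lit 49780) (nat_lit 6) (nat_lit 655) (nat_lit 4) (nat_lit 186) (nat_lit 197) (nat_lit 187))) (PT.nd (nat_lit 78) (PT.lf (nat_lit 49780) (nat_lit 6) (nat_lit 655) (nat_lit 2) (nat_lit 187) (nat_lit 197) (nat_lit 186)) (PT.lf (nat_lit 49856) (nat_lit 6) (nat_lit 656) (nat_lit 2) (nat_lit 188) (nat_lit 197) (nat_lit 185)))))) (PT.nd (nat_lit 546) (PT.nd (nat_lit 234) (PT.nd (nat_lit 78) (PT.lf (nat_lit 49932) (nat_lit 6) (nat_lit 657) (nat_lit 2) (nat_lit 189) (nat_lit 197) (nat_lit 184)) (PT.nd (nat_lit 78) (PT.lf (nat_lit 50008) (nat_lit 6) (nat_lit 658) (nat_lit 2) (nat_lit 190) (nat_lit 197) (nat_lit 183)) (PT.lf (nat_lit 49476) (nat_lit 6) (nat_lit 651) (nat_lit 2) (nat_lit 191) (nat_lit 197) (nat_lit 182)))) (PT.nd (nat_lit 156) (PT.nd (nat_lit 78) (PT.lf (nat_lit 48868) (nat_lit 6) (nat_lit 643) (nat_lit 2) (nat_lit 192) (nat_lit 197) (nat_lit 181)) (PT.lf (nat_lit 48184) (nat_lit 6) (nat_lit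 634) (nat_lit 2) (nat_lit 193) (nat_lit 197) (nat_lit 180))) (PT.nd (nat_lit 78) (PT.lf (nat_lit 47424) (nat_lit 6) (nat_lit 624) (nat_lit 2) (nat_lit 194) (nat_lit 197) (nat_lit 179)) (PT.lf (nat_lit 46588) (nat_lit 6) (nat_lit 613) (nat_lit 2) (nat_lit 195) (nat_lit 197) (nat_lit 178))))) (PT.nd (nat_lit 312) (PT.nd (nat_lit 156) (PT.nd (nat_lit 78) (PT.lf (nat_lit 45676) (nat_lit 6) (nat_lit 601) (nat_lit 2) (nat_lit 196) (nat_lit 197) (nat_lit 177)) (PT.lf (nat_lit 44688) (nat_lit 3) (nat_lit 588) (nat_lit 0) (nat_lit 197) (nat_lit 197) (nat_lit 176))) (PT.nd (nat_lit 78) (PT.lf (nat_lit 43548) (nat_lit 6) (nat_lit 573) (nat_lit 0) (nat_lit 198) (nat_lit 197) (nat_lit 175)) (PT.lf (nat_lit 42332) (nat_lit 6) (nat_lit 557) (nat_lit 0) (nat_lit 199) (nat_lit 197) (nat_lit 174)))) (PT.nd (nat_lit 156) (PT.nd (nat_lit 78) (PT.lf (nat_lit 41040) (nat_lit 6) (nat_lit 540) (nat_lit 0) (nat_lit 200) (nat_lit 197) (nat_lit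 173)) (PT.lf (nat_lit 39672) (nat_lit 6) (nat_lit 522) (nat_lit 0) (nat_lit 201) (nat_lit 197) (nat_lit 172))) (PT.nd (nat_lit 78) (PT.lf (nat_lit 38228) (nat_lit 6) (nat_lit 503) (nat_lit 0) (nat_lit 202) (nat_lit 197) (nat_lit 171)) (PT.lf (nat_lit 36708) (nat_lit 6) (nat_lit 483) (nat_lit 0) (nat_lit 203) (nat_lit 197) (nat_lit 170))))))) (PT.nd (nat_lit 55848) (PT.nd (nat_lit 546) (PT.nd (nat_lit 234) (PT.nd (nat_lit 78) (PT.lf (nat_lit 35112) (nat_lit 6) (nat_lit 462) (nat_lit 0) (nat_lit 204) (nat_lit 197) (nat_lit 169)) (PT.nd (nat_lit 78) (PT.lf (nat_lit 33440) (nat_lit 6) (nat_lit 440) (nat_lit 0) (nat_lit 205) (nat_lit 197) (nat_lit 168)) (PT.lf (nat_lit 31692) (nat_lit 6) (nat_lit 417) (nat_lit 0) (nat_lit 206) (nat_lit 197) (nat_lit 167)))) (PT.nd (nat_lit 156) (PT.nd (nat_lit 78) (PT.lf (nat_lit 29868) (nat_lit 6) (nat_lit 393) (nat_lit 0) (nat_lit 207) (nat_lit 197) (nat_lit 166)) (PT.lf (nat_lit 28728)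 (nat_lit 6) (nat_lit 378) (nat_lit 0) (nat_lit 208) (nat_lit 197) (nat_lit 165))) (PT.nd (nat_lit 78) (PT.lf (nat_lit 27740) (nat_lit 6) (nat_lit 365) (nat_lit 0) (nat_lit 209) (nat_lit 197) (nat_lit 164)) (PT.lf (nat_lit 26828) (nat_lit 6) (nat_lit 353) (nat_lit 0) (nat_lit 210) (nat_lit 197) (nat_lit 163))))) (PT.nd (nat_lit 312) (PT.nd (nat_lit 156) (PT.nd (nat_lit 78) (PT.lf (nat_lit 25916) (nat_lit 6) (nat_lit 341) (nat_lit 0) (nat_lit 211) (nat_lit 197) (nat_lit 162)) (PT.lf (nat_lit 25004) (nat_lit 6) (nat_lit 329) (nat_lit 0) (nat_lit 212) (nat_lit 197) (nat_lit 161))) (PT.nd (nat_lit 78) (PT.lf (nat_lit 24092) (nat_lit 6) (nat_lit 317) (nat_lit 0) (nat_lit 213) (nat_lit 197) (nat_lit 160)) (PT.lf (nat_lit 23256) (nat_lit 6) (nat_lit 306) (nat_lit 0) (nat_lit 214) (nat_lit 197) (nat_lit 159)))) (PT.nd (nat_lit 54834) (PT.nd (nat_lit 54756) (PT.lf (nat_lit 22420) (nat_lit 6) (nat_lit 295) (nat_lit 0) (nat_lit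 215) (nat_lit 197) (nat_lit 158)) (PT.lf (nat_lit 20900) (nat_lit 6) (nat_lit 275) (nat_lit 5) (nat_lit 156) (nat_lit 198) (nat_lit 216))) (PT.nd (nat_lit 78) (PT.lf (nat_lit 21736) (nat_lit 6) (nat_lit 286) (nat_lit 5) (nat_lit 157) (nat_lit 198) (nat_lit 215)) (PT.lf (nat_lit 22496) (nat_lit 6) (nat_lit 296) (nat_lit 5) (nat_lit 158) (nat_lit 198) (nat_lit 214)))))) (PT.nd (nat_lit 546) (PT.nd (nat_lit 234) (PT.nd (nat_lit 78) (PT.lf (nat_lit 23332) (nat_lit 6) (nat_lit 307) (nat_lit 5) (nat_lit 159) (nat_lit 198) (nat_lit 213)) (PT.nd (nat_lit 78) (PT.lf (nat_lit 24168) (nat_lit 6) (nat_lit 318) (nat_lit 5) (nat_lit 160) (nat_lit 198) (nat_lit 212)) (PT.lf (nat_lit 25080) (nat_lit 6) (nat_lit 330) (nat_lit 5) (nat_lit 161) (nat_lit 198) (nat_lit 211)))) (PT.nd (nat_lit 156) (PT.nd (nat_lit 78) (PT.lf (nat_lit 25992) (nat_lit 6) (nat_lit 342) (nat_lit 5) (nat_lit 162) (nat_lit 198) (nat_lit 210)) (PT.lf (nat_lit 26904)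 (nat_lit 6) (nat_lit 354) (nat_lit 5) (nat_lit 163) (nat_lit 198) (nat_lit 209))) (PT.nd (nat_lit 78) (PT.lf (nat_lit 27816) (nat_lit 6) (nat_lit 366) (nat_lit 5) (nat_lit 164) (nat_lit 198) (nat_lit 208)) (PT.lf (nat_lit 28804) (nat_lit 6) (nat_lit 379) (nat_lit 5) (nat_lit 165) (nat_lit 198) (nat_lit 207))))) (PT.nd (nat_lit 312) (PT.nd (nat_lit 156) (PT.nd (nat_lit 78) (PT.lf (nat_lit 29944) (nat_lit 6) (nat_lit 394) (nat_lit 5) (nat_lit 166) (nat_lit 198) (nat_lit 206)) (PT.lf (nat_lit 31768) (nat_lit 6) (nat_lit 418) (nat_lit 5) (nat_lit 167) (nat_lit 198) (nat_lit 205))) (PT.nd (nat_lit 78) (PT.lf (nat_lit 33516) (nat_lit 6) (nat_lit 441) (nat_lit 5) (nat_lit 168) (nat_lit 198) (nat_lit 204)) (PT.lf (nat_lit 35188) (nat_lit 6) (nat_lit 463) (nat_lit 5) (nat_lit 169) (nat_lit 198) (nat_lit 203)))) (PT.nd (nat_lit 156) (PT.nd (nat_lit 78) (PT.lf (nat_lit 36784) (nat_lit 6) (nat_lit 484) (nat_lit 5) (nat_lit 170)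 (nat_lit 198) (nat_lit 202)) (PT.lf (nat_lit 38304) (nat_lit 6) (nat_lit 504) (nat_lit 5) (nat_lit 171) (nat_lit 198) (nat_lit 201))) (PT.nd (nat_lit 78) (PT.lf (nat_lit 39748) (nat_lit 6) (nat_lit 523) (nat_lit 5) (nat_lit 172) (nat_lit 198) (nat_lit 200)) (PT.lf (nat_lit 41116) (nat_lit 6) (nat_lit 541) (nat_lit 5) (nat_lit 173) (nat_lit 198) (nat_lit 199))))))))
noncomputable def pc33 : PT := (PT.nd (nat_lit 2340) (PT.nd (nat_lit 1170) (PT.nd (nat_lit 546) (PT.nd (nat_lit 234) (PT.nd (nat_lit 78) (PT.lf (nat_lit 42408) (nat_lit 3) (nat_lit 558) (nat_lit 4) (nat_lit 174) (nat_lit 198) (nat_lit 198)) (PT.nd (nat_lit 78) (PT.lf (nat_lit 43548) (nat_lit 6) (nat_lit 573) (nat_lit 4) (nat_lit 175) (nat_lit 198) (nat_lit 197)) (PT.lf (nat_lit 44612) (nat_lit 6) (nat_lit 587) (nat_lit 4) (nat_lit 176) (nat_lit 198) (nat_lit 196)))) (PT.nd (nat_lit 156) (PT.nd (nat_lit 78) (PT.lf (nat_lit 45600) (nat_lit 6) (nat_lit 600) (nat_lit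 4) (nat_lit 177) (nat_lit 198) (nat_lit 195)) (PT.lf (nat_lit 46512) (nat_lit 6) (nat_lit 612) (nat_lit 4) (nat_lit 178) (nat_lit 198) (nat_lit 194))) (PT.nd (nat_lit 78) (PT.lf (nat_lit 47348) (nat_lit 6) (nat_lit 623) (nat_lit 4) (nat_lit 179) (nat_lit 198) (nat_lit 193)) (PT.lf (nat_lit 48108) (nat_lit 6) (nat_lit 633) (nat_lit 4) (nat_lit 180) (nat_lit 198) (nat_lit 192))))) (PT.nd (nat_lit 312) (PT.nd (nat_lit 156) (PT.nd (nat_lit 78) (PT.lf (nat_lit 48792) (nat_lit 6) (nat_lit 642) (nat_lit 4) (nat_lit 181) (nat_lit 198) (nat_lit 191)) (PT.lf (nat_lit 49400) (nat_lit 6) (nat_lit 650) (nat_lit 4) (nat_lit 182) (nat_lit 198) (nat_lit 190))) (PT.nd (nat_lit 78) (PT.lf (nat_lit 49324) (nat_lit 6) (nat_lit 649) (nat_lit 4) (nat_lit 183) (nat_lit 198) (nat_lit 189)) (PT.lf (nat_lit 49248) (nat_lit 6) (nat_lit 648) (nat_lit 4) (nat_lit 184) (nat_lit 198) (nat_lit 188)))) (PT.nd (nat_lit 156) (PT.nd (nat_lit 78) (PT.lf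 (nat_lit 49172) (nat_lit 6) (nat_lit 647) (nat_lit 4) (nat_lit 185) (nat_lit 198) (nat_lit 187)) (PT.lf (nat_lit 49096) (nat_lit 3) (nat_lit 646) (nat_lit 2) (nat_lit 186) (nat_lit 198) (nat_lit 186))) (PT.nd (nat_lit 78) (PT.lf (nat_lit 49172) (nat_lit 6) (nat_lit 647) (nat_lit 2) (nat_lit 187) (nat_lit 198) (nat_lit 185)) (PT.lf (nat_lit 49248) (nat_lit 6) (nat_lit 648) (nat_lit 2) (nat_lit 188) (nat_lit 198) (nat_lit 184)))))) (PT.nd (nat_lit 546) (PT.nd (nat_lit 234) (PT.nd (nat_lit 78) (PT.lf (nat_lit 49324) (nat_lit 6) (nat_lit 649) (nat_lit 2) (nat_lit 189) (nat_lit 198) (nat_lit 183)) (PT.nd (nat_lit 78) (PT.lf (nat_lit 49400) (nat_lit 6) (nat_lit 650) (nat_lit 2) (nat_lit 190) (nat_lit 198) (nat_lit 182)) (PT.lf (nat_lit 48792) (nat_lit 6) (nat_lit 642) (nat_lit 2) (nat_lit 191) (nat_lit 198) (nat_lit 181)))) (PT.nd (nat_lit 156) (PT.nd (nat_lit 78) (PT.lf (nat_lit 48108) (nat_lit 6) (nat_lit 633) (nat_lit 2)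 (nat_lit 192) (nat_lit 198) (nat_lit 180)) (PT.lf (nat_lit 47348) (nat_lit 6) (nat_lit 623) (nat_lit 2) (nat_lit 193) (nat_lit 198) (nat_lit 179))) (PT.nd (nat_lit 78) (PT.lf (nat_lit 46512) (nat_lit 6) (nat_lit 612) (nat_lit 2) (nat_lit 194) (nat_lit 198) (nat_lit 178)) (PT.lf (nat_lit 45600) (nat_lit 6) (nat_lit 600) (nat_lit 2) (nat_lit 195) (nat_lit 198) (nat_lit 177))))) (PT.nd (nat_lit 312) (PT.nd (nat_lit 156) (PT.nd (nat_lit 78) (PT.lf (nat_lit 44612) (nat_lit 6) (nat_lit 587) (nat_lit 2) (nat_lit 196) (nat_lit 198) (nat_lit 176)) (PT.lf (nat_lit 43548) (nat_lit 6) (nat_lit 573) (nat_lit 2) (nat_lit 197) (nat_lit 198) (nat_lit 175))) (PT.nd (nat_lit 78) (PT.lf (nat_lit 42408) (nat_lit 3) (nat_lit 558) (nat_lit 0) (nat_lit 198) (nat_lit 198) (nat_lit 174)) (PT.lf (nat_lit 41116) (nat_lit 6) (nat_lit 541) (nat_lit 0) (nat_lit 199) (nat_lit 198) (nat_lit 173)))) (PT.nd (nat_lit 156) (PT.nd (nat_lit 78) (PT.lf (nat_lit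 39748) (nat_lit 6) (nat_lit 523) (nat_lit 0) (nat_lit 200) (nat_lit 198) (nat_lit 172)) (PT.lf (nat_lit 38304) (nat_lit 6) (nat_lit 504) (nat_lit 0) (nat_lit 201) (nat_lit 198) (nat_lit 171))) (PT.nd (nat_lit 78) (PT.lf (nat_lit 36784) (nat_lit 6) (nat_lit 484) (nat_lit 0) (nat_lit 202) (nat_lit 198) (nat_lit 170)) (PT.lf (nat_lit 35188) (nat_lit 6) (nat_lit 463) (nat_lit 0) (nat_lit 203) (nat_lit 198) (nat_lit 169))))))) (PT.nd (nat_lit 55692) (PT.nd (nat_lit 546) (PT.nd (nat_lit 234) (PT.nd (nat_lit 78) (PT.lf (nat_lit 33516) (nat_lit 6) (nat_lit 441) (nat_lit 0) (nat_lit 204) (nat_lit 198) (nat_lit 168)) (PT.nd (nat_lit 78) (PT.lf (nat_lit 31768) (nat_lit 6) (nat_lit 418) (nat_lit 0) (nat_lit 205) (nat_lit 198) (nat_lit 167)) (PT.lf (nat_lit 29944) (nat_lit 6) (nat_lit 394) (nat_lit 0) (nat_lit 206) (nat_lit 198) (nat_lit 166)))) (PT.nd (nat_lit 156) (PT.nd (nat_lit 78) (PT.lf (nat_lit 28804) (nat_lit 6) (nat_lit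 379) (nat_lit 0) (nat_lit 207) (nat_lit 198) (nat_lit 165)) (PT.lf (nat_lit 27816) (nat_lit 6) (nat_lit 366) (nat_lit 0) (nat_lit 208) (nat_lit 198) (nat_lit 164))) (PT.nd (nat_lit 78) (PT.lf (nat_lit 26904) (nat_lit 6) (nat_lit 354) (nat_lit 0) (nat_lit 209) (nat_lit 198) (nat_lit 163)) (PT.lf (nat_lit 25992) (nat_lit 6) (nat_lit 342) (nat_lit 0) (nat_lit 210) (nat_lit 198) (nat_lit 162))))) (PT.nd (nat_lit 312) (PT.nd (nat_lit 156) (PT.nd (nat_lit 78) (PT.lf (nat_lit 25080) (nat_lit 6) (nat_lit 330) (nat_lit 0) (nat_lit 211) (nat_lit 198) (nat_lit 161)) (PT.lf (nat_lit 24168) (nat_lit 6) (nat_lit 318) (nat_lit 0) (nat_lit 212) (nat_lit 198) (nat_lit 160))) (PT.nd (nat_lit 78) (PT.lf (nat_lit 23332) (nat_lit 6) (nat_lit 307) (nat_lit 0) (nat_lit 213) (nat_lit 198) (nat_lit 159)) (PT.lf (nat_lit 22496) (nat_lit 6) (nat_lit 296) (nat_lit 0) (nat_lit 214) (nat_lit 198) (nat_lit 158)))) (PT.nd (nat_lit 54678) (PT.nd (nat_lit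 78) (PT.lf (nat_lit 21736) (nat_lit 6) (nat_lit 286) (nat_lit 0) (nat_lit 215) (nat_lit 198) (nat_lit 157)) (PT.lf (nat_lit 20900) (nat_lit 6) (nat_lit 275) (nat_lit 0) (nat_lit 216) (nat_lit 198) (nat_lit 156))) (PT.nd (nat_lit 78) (PT.lf (nat_lit 20216) (nat_lit 6) (nat_lit 266) (nat_lit 5) (nat_lit 155) (nat_lit 199) (nat_lit 216)) (PT.lf (nat_lit 20976) (nat_lit 6) (nat_lit 276) (nat_lit 5) (nat_lit 156) (nat_lit 199) (nat_lit 215)))))) (PT.nd (nat_lit 546) (PT.nd (nat_lit 234) (PT.nd (nat_lit 78) (PT.lf (nat_lit 21812) (nat_lit 6) (nat_lit 287) (nat_lit 5) (nat_lit 157) (nat_lit 199) (nat_lit 214)) (PT.nd (nat_lit 78) (PT.lf (nat_lit 22572) (nat_lit 6) (nat_lit 297) (nat_lit 5) (nat_lit 158) (nat_lit 199) (nat_lit 213)) (PT.lf (nat_lit 23408) (nat_lit 6) (nat_lit 308) (nat_lit 5) (nat_lit 159) (nat_lit 199) (nat_lit 212)))) (PT.nd (nat_lit 156) (PT.nd (nat_lit 78) (PT.lf (nat_lit 24244) (nat_lit 6) (nat_lit 319)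 (nat_lit 5) (nat_lit 160) (nat_lit 199) (nat_lit 211)) (PT.lf (nat_lit 25156) (nat_lit 6) (nat_lit 331) (nat_lit 5) (nat_lit 161) (nat_lit 199) (nat_lit 210))) (PT.nd (nat_lit 78) (PT.lf (nat_lit 26068) (nat_lit 6) (nat_lit 343) (nat_lit 5) (nat_lit 162) (nat_lit 199) (nat_lit 209)) (PT.lf (nat_lit 26980) (nat_lit 6) (nat_lit 355) (nat_lit 5) (nat_lit 163) (nat_lit 199) (nat_lit 208))))) (PT.nd (nat_lit 312) (PT.nd (nat_lit 156) (PT.nd (nat_lit 78) (PT.lf (nat_lit 27892) (nat_lit 6) (nat_lit 367) (nat_lit 5) (nat_lit 164) (nat_lit 199) (nat_lit 207)) (PT.lf (nat_lit 28880) (nat_lit 6) (nat_lit 380) (nat_lit 5) (nat_lit 165) (nat_lit 199) (nat_lit 206))) (PT.nd (nat_lit 78) (PT.lf (nat_lit 30020) (nat_lit 6) (nat_lit 395) (nat_lit 5) (nat_lit 166) (nat_lit 199) (nat_lit 205)) (PT.lf (nat_lit 31844) (nat_lit 6) (nat_lit 419) (nat_lit 5) (nat_lit 167) (nat_lit 199) (nat_lit 204)))) (PT.nd (nat_lit 156) (PT.nd (nat_lit 78)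 (PT.lf (nat_lit 33592) (nat_lit 6) (nat_lit 442) (nat_lit 5) (nat_lit 168) (nat_lit 199) (nat_lit 203)) (PT.lf (nat_lit 35264) (nat_lit 6) (nat_lit 464) (nat_lit 5) (nat_lit 169) (nat_lit 199) (nat_lit 202))) (PT.nd (nat_lit 78) (PT.lf (nat_lit 36860) (nat_lit 6) (nat_lit 485) (nat_lit 5) (nat_lit 170) (nat_lit 199) (nat_lit 201)) (PT.lf (nat_lit 38380) (nat_lit 6) (nat_lit 505) (nat_lit 5) (nat_lit 171) (nat_lit 199) (nat_lit 200))))))))
noncomputable def pc34 : PT := (PT.nd (nat_lit 2340) (PT.nd (nat_lit 1170) (PT.nd (nat_lit 546) (PT.nd (nat_lit 234) (PT.nd (nat_lit 78) (PT.lf (nat_lit 39824) (nat_lit 3) (nat_lit 524) (nat_lit 4) (nat_lit 172) (nat_lit 199) (nat_lit 199)) (PT.nd (nat_lit 78) (PT.lf (nat_lit 41116) (nat_lit 6) (nat_lit 541) (nat_lit 4) (nat_lit 173) (nat_lit 199) (nat_lit 198)) (PT.lf (nat_lit 42332) (nat_lit 6) (nat_lit 557) (nat_lit 4) (nat_lit 174) (nat_lit 199) (nat_lit 197)))) (PT.nd (nat_lit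 156) (PT.nd (nat_lit 78) (PT.lf (nat_lit 43472) (nat_lit 6) (nat_lit 572) (nat_lit 4) (nat_lit 175) (nat_lit 199) (nat_lit 196)) (PT.lf (nat_lit 44536) (nat_lit 6) (nat_lit 586) (nat_lit 4) (nat_lit 176) (nat_lit 199) (nat_lit 195))) (PT.nd (nat_lit 78) (PT.lf (nat_lit 45524) (nat_lit 6) (nat_lit 599) (nat_lit 4) (nat_lit 177) (nat_lit 199) (nat_lit 194)) (PT.lf (nat_lit 46436) (nat_lit 6) (nat_lit 611) (nat_lit 4) (nat_lit 178) (nat_lit 199) (nat_lit 193))))) (PT.nd (nat_lit 312) (PT.nd (nat_lit 156) (PT.nd (nat_lit 78) (PT.lf (nat_lit 47272) (nat_lit 6) (nat_lit 622) (nat_lit 4) (nat_lit 179) (nat_lit 199) (nat_lit 192)) (PT.lf (nat_lit 48032) (nat_lit 6) (nat_lit 632) (nat_lit 4) (nat_lit 180) (nat_lit 199) (nat_lit 191))) (PT.nd (nat_lit 78) (PT.lf (nat_lit 48716) (nat_lit 6) (nat_lit 641) (nat_lit 4) (nat_lit 181) (nat_lit 199) (nat_lit 190)) (PT.lf (nat_lit 48640) (nat_lit 6) (nat_lit 640) (nat_lit 4) (nat_lit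 182) (nat_lit 199) (nat_lit 189)))) (PT.nd (nat_lit 156) (PT.nd (nat_lit 78) (PT.lf (nat_lit 48564) (nat_lit 6) (nat_lit 639) (nat_lit 4) (nat_lit 183) (nat_lit 199) (nat_lit 188)) (PT.lf (nat_lit 48488) (nat_lit 6) (nat_lit 638) (nat_lit 4) (nat_lit 184) (nat_lit 199) (nat_lit 187))) (PT.nd (nat_lit 78) (PT.lf (nat_lit 48412) (nat_lit 6) (nat_lit 637) (nat_lit 4) (nat_lit 185) (nat_lit 199) (nat_lit 186)) (PT.lf (nat_lit 48412) (nat_lit 6) (nat_lit 637) (nat_lit 2) (nat_lit 186) (nat_lit 199) (nat_lit 185)))))) (PT.nd (nat_lit 546) (PT.nd (nat_lit 234) (PT.nd (nat_lit 78) (PT.lf (nat_lit 48488) (nat_lit 6) (nat_lit 638) (nat_lit 2) (nat_lit 187) (nat_lit 199) (nat_lit 184)) (PT.nd (nat_lit 78) (PT.lf (nat_lit 48564) (nat_lit 6) (nat_lit 639) (nat_lit 2) (nat_lit 188) (nat_lit 199) (nat_lit 183)) (PT.lf (nat_lit 48640) (nat_lit 6) (nat_lit 640) (nat_lit 2) (nat_lit 189) (nat_lit 199) (nat_lit 182)))) (PT.nd (nat_lit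 156) (PT.nd (nat_lit 78) (PT.lf (nat_lit 48716) (nat_lit 6) (nat_lit 641) (nat_lit 2) (nat_lit 190) (nat_lit 199) (nat_lit 181)) (PT.lf (nat_lit 48032) (nat_lit 6) (nat_lit 632) (nat_lit 2) (nat_lit 191) (nat_lit 199) (nat_lit 180))) (PT.nd (nat_lit 78) (PT.lf (nat_lit 47272) (nat_lit 6) (nat_lit 622) (nat_lit 2) (nat_lit 192) (nat_lit 199) (nat_lit 179)) (PT.lf (nat_lit 46436) (nat_lit 6) (nat_lit 611) (nat_lit 2) (nat_lit 193) (nat_lit 199) (nat_lit 178))))) (PT.nd (nat_lit 312) (PT.nd (nat_lit 156) (PT.nd (nat_lit 78) (PT.lf (nat_lit 45524) (nat_lit 6) (nat_lit 599) (nat_lit 2) (nat_lit 194) (nat_lit 199) (nat_lit 177)) (PT.lf (nat_lit 44536) (nat_lit 6) (nat_lit 586) (nat_lit 2) (nat_lit 195) (nat_lit 199) (nat_lit 176))) (PT.nd (nat_lit 78) (PT.lf (nat_lit 43472) (nat_lit 6) (nat_lit 572) (nat_lit 2) (nat_lit 196) (nat_lit 199) (nat_lit 175)) (PT.lf (nat_lit 42332) (nat_lit 6) (nat_lit 557) (nat_lit 2) (nat_lit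 197) (nat_lit 199) (nat_lit 174)))) (PT.nd (nat_lit 156) (PT.nd (nat_lit 78) (PT.lf (nat_lit 41116) (nat_lit 6) (nat_lit 541) (nat_lit 2) (nat_lit 198) (nat_lit 199) (nat_lit 173)) (PT.lf (nat_lit 39824) (nat_lit 3) (nat_lit 524) (nat_lit 0) (nat_lit 199) (nat_lit 199) (nat_lit 172))) (PT.nd (nat_lit 78) (PT.lf (nat_lit 38380) (nat_lit 6) (nat_lit 505) (nat_lit 0) (nat_lit 200) (nat_lit 199) (nat_lit 171)) (PT.lf (nat_lit 36860) (nat_lit 6) (nat_lit 485) (nat_lit 0) (nat_lit 201) (nat_lit 199) (nat_lit 170))))))) (PT.nd (nat_lit 55614) (PT.nd (nat_lit 546) (PT.nd (nat_lit 234) (PT.nd (nat_lit 78) (PT.lf (nat_lit 35264) (nat_lit 6) (nat_lit 464) (nat_lit 0) (nat_lit 202) (nat_lit 199) (nat_lit 169)) (PT.nd (nat_lit 78) (PT.lf (nat_lit 33592) (nat_lit 6) (nat_lit 442) (nat_lit 0) (nat_lit 203) (nat_lit 199) (nat_lit 168)) (PT.lf (nat_lit 31844) (nat_lit 6) (nat_lit 419) (nat_lit 0) (nat_lit 204) (nat_lit 199) (nat_lit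 167)))) (PT.nd (nat_lit 156) (PT.nd (nat_lit 78) (PT.lf (nat_lit 30020) (nat_lit 6) (nat_lit 395) (nat_lit 0) (nat_lit 205) (nat_lit 199) (nat_lit 166)) (PT.lf (nat_lit 28880) (nat_lit 6) (nat_lit 380) (nat_lit 0) (nat_lit 206) (nat_lit 199) (nat_lit 165))) (PT.nd (nat_lit 78) (PT.lf (nat_lit 27892) (nat_lit 6) (nat_lit 367) (nat_lit 0) (nat_lit 207) (nat_lit 199) (nat_lit 164)) (PT.lf (nat_lit 26980) (nat_lit 6) (nat_lit 355) (nat_lit 0) (nat_lit 208) (nat_lit 199) (nat_lit 163))))) (PT.nd (nat_lit 312) (PT.nd (nat_lit 156) (PT.nd (nat_lit 78) (PT.lf (nat_lit 26068) (nat_lit 6) (nat_lit 343) (nat_lit 0) (nat_lit 209) (nat_lit 199) (nat_lit 162)) (PT.lf (nat_lit 25156) (nat_lit 6) (nat_lit 331) (nat_lit 0) (nat_lit 210) (nat_lit 199) (nat_lit 161))) (PT.nd (nat_lit 78) (PT.lf (nat_lit 24244) (nat_lit 6) (nat_lit 319) (nat_lit 0) (nat_lit 211) (nat_lit 199) (nat_lit 160)) (PT.lf (nat_lit 23408) (nat_lit 6) (nat_lit 308)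 (nat_lit 0) (nat_lit 212) (nat_lit 199) (nat_lit 159)))) (PT.nd (nat_lit 156) (PT.nd (nat_lit 78) (PT.lf (nat_lit 22572) (nat_lit 6) (nat_lit 297) (nat_lit 0) (nat_lit 213) (nat_lit 199) (nat_lit 158)) (PT.lf (nat_lit 21812) (nat_lit 6) (nat_lit 287) (nat_lit 0) (nat_lit 214) (nat_lit 199) (nat_lit 157))) (PT.nd (nat_lit 78) (PT.lf (nat_lit 20976) (nat_lit 6) (nat_lit 276) (nat_lit 0) (nat_lit 215) (nat_lit 199) (nat_lit 156)) (PT.lf (nat_lit 20216) (nat_lit 6) (nat_lit 266) (nat_lit 0) (nat_lit 216) (nat_lit 199) (nat_lit 155)))))) (PT.nd (nat_lit 546) (PT.nd (nat_lit 234) (PT.nd (nat_lit 78) (PT.lf (nat_lit 19532) (nat_lit 6) (nat_lit 257) (nat_lit 5) (nat_lit 154) (nat_lit 200) (nat_lit 216)) (PT.nd (nat_lit 78) (PT.lf (nat_lit 20292) (nat_lit 6) (nat_lit 267) (nat_lit 5) (nat_lit 155) (nat_lit 200) (nat_lit 215)) (PT.lf (nat_lit 21052) (nat_lit 6) (nat_lit 277) (nat_lit 5) (nat_lit 156) (nat_lit 200) (nat_lit 214))))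 (PT.nd (nat_lit 156) (PT.nd (nat_lit 78) (PT.lf (nat_lit 21888) (nat_lit 6) (nat_lit 288) (nat_lit 5) (nat_lit 157) (nat_lit 200) (nat_lit 213)) (PT.lf (nat_lit 22648) (nat_lit 6) (nat_lit 298) (nat_lit 5) (nat_lit 158) (nat_lit 200) (nat_lit 212))) (PT.nd (nat_lit 78) (PT.lf (nat_lit 23484) (nat_lit 6) (nat_lit 309) (nat_lit 5) (nat_lit 159) (nat_lit 200) (nat_lit 211)) (PT.lf (nat_lit 24320) (nat_lit 6) (nat_lit 320) (nat_lit 5) (nat_lit 160) (nat_lit 200) (nat_lit 210))))) (PT.nd (nat_lit 312) (PT.nd (nat_lit 156) (PT.nd (nat_lit 78) (PT.lf (nat_lit 25232) (nat_lit 6) (nat_lit 332) (nat_lit 5) (nat_lit 161) (nat_lit 200) (nat_lit 209)) (PT.lf (nat_lit 26144) (nat_lit 6) (nat_lit 344) (nat_lit 5) (nat_lit 162) (nat_lit 200) (nat_lit 208))) (PT.nd (nat_lit 78) (PT.lf (nat_lit 27056) (nat_lit 6) (nat_lit 356) (nat_lit 5) (nat_lit 163) (nat_lit 200) (nat_lit 207)) (PT.lf (nat_lit 27968) (nat_lit 6) (nat_lit 368) (nat_lit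 5) (nat_lit 164) (nat_lit 200) (nat_lit 206)))) (PT.nd (nat_lit 156) (PT.nd (nat_lit 78) (PT.lf (nat_lit 28956) (nat_lit 6) (nat_lit 381) (nat_lit 5) (nat_lit 165) (nat_lit 200) (nat_lit 205)) (PT.lf (nat_lit 30096) (nat_lit 6) (nat_lit 396) (nat_lit 5) (nat_lit 166) (nat_lit 200) (nat_lit 204))) (PT.nd (nat_lit 78) (PT.lf (nat_lit 31920) (nat_lit 6) (nat_lit 420) (nat_lit 5) (nat_lit 167) (nat_lit 200) (nat_lit 203)) (PT.lf (nat_lit 33668) (nat_lit 6) (nat_lit 443) (nat_lit 5) (nat_lit 168) (nat_lit 200) (nat_lit 202))))))))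
noncomputable def pc35 : PT := (PT.nd (nat_lit 2340) (PT.nd (nat_lit 1170) (PT.nd (nat_lit 546) (PT.nd (nat_lit 234) (PT.nd (nat_lit 78) (PT.lf (nat_lit 35340) (nat_lit 6) (nat_lit 465) (nat_lit 5) (nat_lit 169) (nat_lit 200) (nat_lit 201)) (PT.nd (nat_lit 78) (PT.lf (nat_lit 36936) (nat_lit 3) (nat_lit 486) (nat_lit 4) (nat_lit 170) (nat_lit 200) (nat_lit 200)) (PT.lf (nat_lit 38380) (nat_lit 6) (nat_lit 505) (nat_lit 4) (nat_lit 171) (nat_lit 200) (nat_lit 199)))) (PT.nd (nat_lit 156) (PT.nd (nat_lit 78) (PT.lf (nat_lit 39748) (nat_lit 6) (nat_lit 523) (nat_lit 4) (nat_lit 172) (nat_lit 200) (nat_lit 198)) (PT.lf (nat_lit 41040) (nat_lit 6) (nat_lit 540) (nat_lit 4) (nat_lit 173) (nat_lit 200) (nat_lit 197))) (PT.nd (nat_lit 78) (PT.lf (nat_lit 42256) (nat_lit 6) (nat_lit 556) (nat_lit 4) (nat_lit 174) (nat_lit 200) (nat_lit 196)) (PT.lf (nat_lit 43396) (nat_lit 6) (nat_lit 571) (nat_lit 4) (nat_lit 175) (nat_lit 200)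 (nat_lit 195))))) (PT.nd (nat_lit 312) (PT.nd (nat_lit 156) (PT.nd (nat_lit 78) (PT.lf (nat_lit 44460) (nat_lit 6) (nat_lit 585) (nat_lit 4) (nat_lit 176) (nat_lit 200) (nat_lit 194)) (PT.lf (nat_lit 45448) (nat_lit 6) (nat_lit 598) (nat_lit 4) (nat_lit 177) (nat_lit 200) (nat_lit 193))) (PT.nd (nat_lit 78) (PT.lf (nat_lit 46360) (nat_lit 6) (nat_lit 610) (nat_lit 4) (nat_lit 178) (nat_lit 200) (nat_lit 192)) (PT.lf (nat_lit 47196) (nat_lit 6) (nat_lit 621) (nat_lit 4) (nat_lit 179) (nat_lit 200) (nat_lit 191)))) (PT.nd (nat_lit 156) (PT.nd (nat_lit 78) (PT.lf (nat_lit 47956) (nat_lit 6) (nat_lit 631) (nat_lit 4) (nat_lit 180) (nat_lit 200) (nat_lit 190)) (PT.lf (nat_lit 47880) (nat_lit 6) (nat_lit 630) (nat_lit 4) (nat_lit 181) (nat_lit 200) (nat_lit 189))) (PT.nd (nat_lit 78) (PT.lf (nat_lit 47804) (nat_lit 6) (nat_lit 629) (nat_lit 4) (nat_lit 182) (nat_lit 200) (nat_lit 188)) (PT.lf (nat_lit 47728) (nat_lit 6) (nat_lit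 628) (nat_lit 4) (nat_lit 183) (nat_lit 200) (nat_lit 187)))))) (PT.nd (nat_lit 546) (PT.nd (nat_lit 234) (PT.nd (nat_lit 78) (PT.lf (nat_lit 47652) (nat_lit 6) (nat_lit 627) (nat_lit 4) (nat_lit 184) (nat_lit 200) (nat_lit 186)) (PT.nd (nat_lit 78) (PT.lf (nat_lit 47576) (nat_lit 3) (nat_lit 626) (nat_lit 2) (nat_lit 185) (nat_lit 200) (nat_lit 185)) (PT.lf (nat_lit 47652) (nat_lit 6) (nat_lit 627) (nat_lit 2) (nat_lit 186) (nat_lit 200) (nat_lit 184)))) (PT.nd (nat_lit 156) (PT.nd (nat_lit 78) (PT.lf (nat_lit 47728) (nat_lit 6) (nat_lit 628) (nat_lit 2) (nat_lit 187) (nat_lit 200) (nat_lit 183)) (PT.lf (nat_lit 47804) (nat_lit 6) (nat_lit 629) (nat_lit 2) (nat_lit 188) (nat_lit 200) (nat_lit 182))) (PT.nd (nat_lit 78) (PT.lf (nat_lit 47880) (nat_lit 6) (nat_lit 630) (nat_lit 2) (nat_lit 189) (nat_lit 200) (nat_lit 181)) (PT.lf (nat_lit 47956) (nat_lit 6) (nat_lit 631) (nat_lit 2) (nat_lit 190) (nat_lit 200) (nat_lit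 180))))) (PT.nd (nat_lit 312) (PT.nd (nat_lit 156) (PT.nd (nat_lit 78) (PT.lf (nat_lit 47196) (nat_lit 6) (nat_lit 621) (nat_lit 2) (nat_lit 191) (nat_lit 200) (nat_lit 179)) (PT.lf (nat_lit 46360) (nat_lit 6) (nat_lit 610) (nat_lit 2) (nat_lit 192) (nat_lit 200) (nat_lit 178))) (PT.nd (nat_lit 78) (PT.lf (nat_lit 45448) (nat_lit 6) (nat_lit 598) (nat_lit 2) (nat_lit 193) (nat_lit 200) (nat_lit 177)) (PT.lf (nat_lit 44460) (nat_lit 6) (nat_lit 585) (nat_lit 2) (nat_lit 194) (nat_lit 200) (nat_lit 176)))) (PT.nd (nat_lit 156) (PT.nd (nat_lit 78) (PT.lf (nat_lit 43396) (nat_lit 6) (nat_lit 571) (nat_lit 2) (nat_lit 195) (nat_lit 200) (nat_lit 175)) (PT.lf (nat_lit 42256) (nat_lit 6) (nat_lit 556) (nat_lit 2) (nat_lit 196) (nat_lit 200) (nat_lit 174))) (PT.nd (nat_lit 78) (PT.lf (nat_lit 41040) (nat_lit 6) (nat_lit 540) (nat_lit 2) (nat_lit 197) (nat_lit 200) (nat_lit 173)) (PT.lf (nat_lit 39748) (nat_lit 6) (nat_lit 523)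 (nat_lit 2) (nat_lit 198) (nat_lit 200) (nat_lit 172))))))) (PT.nd (nat_lit 1170) (PT.nd (nat_lit 546) (PT.nd (nat_lit 234) (PT.nd (nat_lit 78) (PT.lf (nat_lit 38380) (nat_lit 6) (nat_lit 505) (nat_lit 2) (nat_lit 199) (nat_lit 200) (nat_lit 171)) (PT.nd (nat_lit 78) (PT.lf (nat_lit 36936) (nat_lit 3) (nat_lit 486) (nat_lit 0) (nat_lit 200) (nat_lit 200) (nat_lit 170)) (PT.lf (nat_lit 35340) (nat_lit 6) (nat_lit 465) (nat_lit 0) (nat_lit 201) (nat_lit 200) (nat_lit 169)))) (PT.nd (nat_lit 156) (PT.nd (nat_lit 78) (PT.lf (nat_lit 33668) (nat_lit 6) (nat_lit 443) (nat_lit 0) (nat_lit 202) (nat_lit 200) (nat_lit 168)) (PT.lf (nat_lit 31920) (nat_lit 6) (nat_lit 420) (nat_lit 0) (nat_lit 203) (nat_lit 200) (nat_lit 167))) (PT.nd (nat_lit 78) (PT.lf (nat_lit 30096) (nat_lit 6) (nat_lit 396) (nat_lit 0) (nat_lit 204) (nat_lit 200) (nat_lit 166)) (PT.lf (nat_lit 28956) (nat_lit 6) (nat_lit 381) (nat_lit 0) (nat_lit 205) (nat_lit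 200) (nat_lit 165))))) (PT.nd (nat_lit 312) (PT.nd (nat_lit 156) (PT.nd (nat_lit 78) (PT.lf (nat_lit 27968) (nat_lit 6) (nat_lit 368) (nat_lit 0) (nat_lit 206) (nat_lit 200) (nat_lit 164)) (PT.lf (nat_lit 27056) (nat_lit 6) (nat_lit 356) (nat_lit 0) (nat_lit 207) (nat_lit 200) (nat_lit 163))) (PT.nd (nat_lit 78) (PT.lf (nat_lit 26144) (nat_lit 6) (nat_lit 344) (nat_lit 0) (nat_lit 208) (nat_lit 200) (nat_lit 162)) (PT.lf (nat_lit 25232) (nat_lit 6) (nat_lit 332) (nat_lit 0) (nat_lit 209) (nat_lit 200) (nat_lit 161)))) (PT.nd (nat_lit 156) (PT.nd (nat_lit 78) (PT.lf (nat_lit 24320) (nat_lit 6) (nat_lit 320) (nat_lit 0) (nat_lit 210) (nat_lit 200) (nat_lit 160)) (PT.lf (nat_lit 23484) (nat_lit 6) (nat_lit 309) (nat_lit 0) (nat_lit 211) (nat_lit 200) (nat_lit 159))) (PT.nd (nat_lit 78) (PT.lf (nat_lit 22648) (nat_lit 6) (nat_lit 298) (nat_lit 0) (nat_lit 212) (nat_lit 200) (nat_lit 158)) (PT.lf (nat_lit 21888) (nat_lit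 6) (nat_lit 288) (nat_lit 0) (nat_lit 213) (nat_lit 200) (nat_lit 157)))))) (PT.nd (nat_lit 54912) (PT.nd (nat_lit 54600) (PT.nd (nat_lit 156) (PT.nd (nat_lit 78) (PT.lf (nat_lit 21052) (nat_lit 6) (nat_lit 277) (nat_lit 0) (nat_lit 214) (nat_lit 200) (nat_lit 156)) (PT.lf (nat_lit 20292) (nat_lit 6) (nat_lit 267) (nat_lit 0) (nat_lit 215) (nat_lit 200) (nat_lit 155))) (PT.nd (nat_lit 54366) (PT.lf (nat_lit 19532) (nat_lit 6) (nat_lit 257) (nat_lit 0) (nat_lit 216) (nat_lit 200) (nat_lit 154)) (PT.lf (nat_lit 18240) (nat_lit 6) (nat_lit 240) (nat_lit 5) (nat_lit 152) (nat_lit 201) (nat_lit 217)))) (PT.nd (nat_lit 156) (PT.nd (nat_lit 78) (PT.lf (nat_lit 18924) (nat_lit 6) (nat_lit 249) (nat_lit 5) (nat_lit 153) (nat_lit 201) (nat_lit 216)) (PT.lf (nat_lit 19608) (nat_lit 6) (nat_lit 258) (nat_lit 5) (nat_lit 154) (nat_lit 201) (nat_lit 215))) (PT.nd (nat_lit 78) (PT.lf (nat_lit 20368) (nat_lit 6) (nat_lit 268) (nat_lit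 5) (nat_lit 155) (nat_lit 201) (nat_lit 214)) (PT.lf (nat_lit 21128) (nat_lit 6) (nat_lit 278) (nat_lit 5) (nat_lit 156) (nat_lit 201) (nat_lit 213))))) (PT.nd (nat_lit 312) (PT.nd (nat_lit 156) (PT.nd (nat_lit 78) (PT.lf (nat_lit 21964) (nat_lit 6) (nat_lit 289) (nat_lit 5) (nat_lit 157) (nat_lit 201) (nat_lit 212)) (PT.lf (nat_lit 22724) (nat_lit 6) (nat_lit 299) (nat_lit 5) (nat_lit 158) (nat_lit 201) (nat_lit 211))) (PT.nd (nat_lit 78) (PT.lf (nat_lit 23560) (nat_lit 6) (nat_lit 310) (nat_lit 5) (nat_lit 159) (nat_lit 201) (nat_lit 210)) (PT.lf (nat_lit 24396) (nat_lit 6) (nat_lit 321) (nat_lit 5) (nat_lit 160) (nat_lit 201) (nat_lit 209)))) (PT.nd (nat_lit 156) (PT.nd (nat_lit 78) (PT.lf (nat_lit 25308) (nat_lit 6) (nat_lit 333) (nat_lit 5) (nat_lit 161) (nat_lit 201) (nat_lit 208)) (PT.lf (nat_lit 26220) (nat_lit 6) (nat_lit 345) (nat_lit 5) (nat_lit 162) (nat_lit 201) (nat_lit 207))) (PT.nd (nat_lit 78) (PT.lf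 (nat_lit 27132) (nat_lit 6) (nat_lit 357) (nat_lit 5) (nat_lit 163) (nat_lit 201) (nat_lit 206)) (PT.lf (nat_lit 28044) (nat_lit 6) (nat_lit 369) (nat_lit 5) (nat_lit 164) (nat_lit 201) (nat_lit 205))))))))
noncomputable def pc36 : PT := (PT.nd (nat_lit 2340) (PT.nd (nat_lit 1170) (PT.nd (nat_lit 546) (PT.nd (nat_lit 234) (PT.nd (nat_lit 78) (PT.lf (nat_lit 29032) (nat_lit 6) (nat_lit 382) (nat_lit 5) (nat_lit 165) (nat_lit 201) (nat_lit 204)) (PT.nd (nat_lit 78) (PT.lf (nat_lit 30172) (nat_lit 6) (nat_lit 397) (nat_lit 5) (nat_lit 166) (nat_lit 201) (nat_lit 203)) (PT.lf (nat_lit 31996) (nat_lit 6) (nat_lit 421) (nat_lit 5) (nat_lit 167) (nat_lit 201) (nat_lit 202)))) (PT.nd (nat_lit 156) (PT.nd (nat_lit 78) (PT.lf (nat_lit 33744) (nat_lit 3) (nat_lit 444) (nat_lit 4) (nat_lit 168) (nat_lit 201) (nat_lit 201)) (PT.lf (nat_lit 35340) (nat_lit 6) (nat_lit 465) (nat_lit 4) (nat_lit 169) (nat_lit 201) (nat_lit 200))) (PT.nd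 (nat_lit 78) (PT.lf (nat_lit 36860) (nat_lit 6) (nat_lit 485) (nat_lit 4) (nat_lit 170) (nat_lit 201) (nat_lit 199)) (PT.lf (nat_lit 38304) (nat_lit 6) (nat_lit 504) (nat_lit 4) (nat_lit 171) (nat_lit 201) (nat_lit 198))))) (PT.nd (nat_lit 312) (PT.nd (nat_lit 156) (PT.nd (nat_lit 78) (PT.lf (nat_lit 39672) (nat_lit 6) (nat_lit 522) (nat_lit 4) (nat_lit 172) (nat_lit 201) (nat_lit 197)) (PT.lf (nat_lit 40964) (nat_lit 6) (nat_lit 539) (nat_lit 4) (nat_lit 173) (nat_lit 201) (nat_lit 196))) (PT.nd (nat_lit 78) (PT.lf (nat_lit 42180) (nat_lit 6) (nat_lit 555) (nat_lit 4) (nat_lit 174) (nat_lit 201) (nat_lit 195)) (PT.lf (nat_lit 43320) (nat_lit 6) (nat_lit 570) (nat_lit 4) (nat_lit 175) (nat_lit 201) (nat_lit 194)))) (PT.nd (nat_lit 156) (PT.nd (nat_lit 78) (PT.lf (nat_lit 44384) (nat_lit 6) (nat_lit 584) (nat_lit 4) (nat_lit 176) (nat_lit 201) (nat_lit 193)) (PT.lf (nat_lit 45372) (nat_lit 6) (nat_lit 597) (nat_lit 4)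 (nat_lit 177) (nat_lit 201) (nat_lit 192))) (PT.nd (nat_lit 78) (PT.lf (nat_lit 46284) (nat_lit 6) (nat_lit 609) (nat_lit 4) (nat_lit 178) (nat_lit 201) (nat_lit 191)) (PT.lf (nat_lit 47120) (nat_lit 6) (nat_lit 620) (nat_lit 4) (nat_lit 179) (nat_lit 201) (nat_lit 190)))))) (PT.nd (nat_lit 546) (PT.nd (nat_lit 234) (PT.nd (nat_lit 78) (PT.lf (nat_lit 47044) (nat_lit 6) (nat_lit 619) (nat_lit 4) (nat_lit 180) (nat_lit 201) (nat_lit 189)) (PT.nd (nat_lit 78) (PT.lf (nat_lit 46968) (nat_lit 6) (nat_lit 618) (nat_lit 4) (nat_lit 181) (nat_lit 201) (nat_lit 188)) (PT.lf (nat_lit 46892) (nat_lit 6) (nat_lit 617) (nat_lit 4) (nat_lit 182) (nat_lit 201) (nat_lit 187)))) (PT.nd (nat_lit 156) (PT.nd (nat_lit 78) (PT.lf (nat_lit 46816) (nat_lit 6) (nat_lit 616) (nat_lit 4) (nat_lit 183) (nat_lit 201) (nat_lit 186)) (PT.lf (nat_lit 46740) (nat_lit 6) (nat_lit 615) (nat_lit 4) (nat_lit 184) (nat_lit 201) (nat_lit 185))) (PT.nd (nat_lit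 78) (PT.lf (nat_lit 46740) (nat_lit 6) (nat_lit 615) (nat_lit 2) (nat_lit 185) (nat_lit 201) (nat_lit 184)) (PT.lf (nat_lit 46816) (nat_lit 6) (nat_lit 616) (nat_lit 2) (nat_lit 186) (nat_lit 201) (nat_lit 183))))) (PT.nd (nat_lit 312) (PT.nd (nat_lit 156) (PT.nd (nat_lit 78) (PT.lf (nat_lit 46892) (nat_lit 6) (nat_lit 617) (nat_lit 2) (nat_lit 187) (nat_lit 201) (nat_lit 182)) (PT.lf (nat_lit 46968) (nat_lit 6) (nat_lit 618) (nat_lit 2) (nat_lit 188) (nat_lit 201) (nat_lit 181))) (PT.nd (nat_lit 78) (PT.lf (nat_lit 47044) (nat_lit 6) (nat_lit 619) (nat_lit 2) (nat_lit 189) (nat_lit 201) (nat_lit 180)) (PT.lf (nat_lit 47120) (nat_lit 6) (nat_lit 620) (nat_lit 2) (nat_lit 190) (nat_lit 201) (nat_lit 179)))) (PT.nd (nat_lit 156) (PT.nd (nat_lit 78) (PT.lf (nat_lit 46284) (nat_lit 6) (nat_lit 609) (nat_lit 2) (nat_lit 191) (nat_lit 201) (nat_lit 178)) (PT.lf (nat_lit 45372) (nat_lit 6) (nat_lit 597) (nat_lit 2) (nat_lit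 192) (nat_lit 201) (nat_lit 177))) (PT.nd (nat_lit 78) (PT.lf (nat_lit 44384) (nat_lit 6) (nat_lit 584) (nat_lit 2) (nat_lit 193) (nat_lit 201) (nat_lit 176)) (PT.lf (nat_lit 43320) (nat_lit 6) (nat_lit 570) (nat_lit 2) (nat_lit 194) (nat_lit 201) (nat_lit 175))))))) (PT.nd (nat_lit 1170) (PT.nd (nat_lit 546) (PT.nd (nat_lit 234) (PT.nd (nat_lit 78) (PT.lf (nat_lit 42180) (nat_lit 6) (nat_lit 555) (nat_lit 2) (nat_lit 195) (nat_lit 201) (nat_lit 174)) (PT.nd (nat_lit 78) (PT.lf (nat_lit 40964) (nat_lit 6) (nat_lit 539) (nat_lit 2) (nat_lit 196) (nat_lit 201) (nat_lit 173)) (PT.lf (nat_lit 39672) (nat_lit 6) (nat_lit 522) (nat_lit 2) (nat_lit 197) (nat_lit 201) (nat_lit 172)))) (PT.nd (nat_lit 156) (PT.nd (nat_lit 78) (PT.lf (nat_lit 38304) (nat_lit 6) (nat_lit 504) (nat_lit 2) (nat_lit 198) (nat_lit 201) (nat_lit 171)) (PT.lf (nat_lit 36860) (nat_lit 6) (nat_lit 485) (nat_lit 2) (nat_lit 199) (nat_lit 201) (nat_lit 170)))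 (PT.nd (nat_lit 78) (PT.lf (nat_lit 35340) (nat_lit 6) (nat_lit 465) (nat_lit 2) (nat_lit 200) (nat_lit 201) (nat_lit 169)) (PT.lf (nat_lit 33744) (nat_lit 3) (nat_lit 444) (nat_lit 0) (nat_lit 201) (nat_lit 201) (nat_lit 168))))) (PT.nd (nat_lit 312) (PT.nd (nat_lit 156) (PT.nd (nat_lit 78) (PT.lf (nat_lit 31996) (nat_lit 6) (nat_lit 421) (nat_lit 0) (nat_lit 202) (nat_lit 201) (nat_lit 167)) (PT.lf (nat_lit 30172) (nat_lit 6) (nat_lit 397) (nat_lit 0) (nat_lit 203) (nat_lit 201) (nat_lit 166))) (PT.nd (nat_lit 78) (PT.lf (nat_lit 29032) (nat_lit 6) (nat_lit 382) (nat_lit 0) (nat_lit 204) (nat_lit 201) (nat_lit 165)) (PT.lf (nat_lit 28044) (nat_lit 6) (nat_lit 369) (nat_lit 0) (nat_lit 205) (nat_lit 201) (nat_lit 164)))) (PT.nd (nat_lit 156) (PT.nd (nat_lit 78) (PT.lf (nat_lit 27132) (nat_lit 6) (nat_lit 357) (nat_lit 0) (nat_lit 206) (nat_lit 201) (nat_lit 163)) (PT.lf (nat_lit 26220) (nat_lit 6) (nat_lit 345) (nat_lit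 0) (nat_lit 207) (nat_lit 201) (nat_lit 162))) (PT.nd (nat_lit 78) (PT.lf (nat_lit 25308) (nat_lit 6) (nat_lit 333) (nat_lit 0) (nat_lit 208) (nat_lit 201) (nat_lit 161)) (PT.lf (nat_lit 24396) (nat_lit 6) (nat_lit 321) (nat_lit 0) (nat_lit 209) (nat_lit 201) (nat_lit 160)))))) (PT.nd (nat_lit 546) (PT.nd (nat_lit 234) (PT.nd (nat_lit 78) (PT.lf (nat_lit 23560) (nat_lit 6) (nat_lit 310) (nat_lit 0) (nat_lit 210) (nat_lit 201) (nat_lit 159)) (PT.nd (nat_lit 78) (PT.lf (nat_lit 22724) (nat_lit 6) (nat_lit 299) (nat_lit 0) (nat_lit 211) (nat_lit 201) (nat_lit 158)) (PT.lf (nat_lit 21964) (nat_lit 6) (nat_lit 289) (nat_lit 0) (nat_lit 212) (nat_lit 201) (nat_lit 157)))) (PT.nd (nat_lit 156) (PT.nd (nat_lit 78) (PT.lf (nat_lit 21128) (nat_lit 6) (nat_lit 278) (nat_lit 0) (nat_lit 213) (nat_lit 201) (nat_lit 156)) (PT.lf (nat_lit 20368) (nat_lit 6) (nat_lit 268) (nat_lit 0) (nat_lit 214) (nat_lit 201) (nat_lit 155))) (PT.nd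 (nat_lit 78) (PT.lf (nat_lit 19608) (nat_lit 6) (nat_lit 258) (nat_lit 0) (nat_lit 215) (nat_lit 201) (nat_lit 154)) (PT.lf (nat_lit 18924) (nat_lit 6) (nat_lit 249) (nat_lit 0) (nat_lit 216) (nat_lit 201) (nat_lit 153))))) (PT.nd (nat_lit 54444) (PT.nd (nat_lit 54288) (PT.nd (nat_lit 54210) (PT.lf (nat_lit 18240) (nat_lit 6) (nat_lit 240) (nat_lit 0) (nat_lit 217) (nat_lit 201) (nat_lit 152)) (PT.lf (nat_lit 17632) (nat_lit 6) (nat_lit 232) (nat_lit 5) (nat_lit 151) (nat_lit 202) (nat_lit 217))) (PT.nd (nat_lit 78) (PT.lf (nat_lit 18316) (nat_lit 6) (nat_lit 241) (nat_lit 5) (nat_lit 152) (nat_lit 202) (nat_lit 216)) (PT.lf (nat_lit 19000) (nat_lit 6) (nat_lit 250) (nat_lit 5) (nat_lit 153) (nat_lit 202) (nat_lit 215)))) (PT.nd (nat_lit 156) (PT.nd (nat_lit 78) (PT.lf (nat_lit 19684) (nat_lit 6) (nat_lit 259) (nat_lit 5) (nat_lit 154) (nat_lit 202) (nat_lit 214)) (PT.lf (nat_lit 20444) (nat_lit 6) (nat_lit 269) (nat_lit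 5) (nat_lit 155) (nat_lit 202) (nat_lit 213))) (PT.nd (nat_lit 78) (PT.lf (nat_lit 21204) (nat_lit 6) (nat_lit 279) (nat_lit 5) (nat_lit 156) (nat_lit 202) (nat_lit 212)) (PT.lf (nat_lit 22040) (nat_lit 6) (nat_lit 290) (nat_lit 5) (nat_lit 157) (nat_lit 202) (nat_lit 211))))))))
noncomputable def pc37 : PT := (PT.nd (nat_lit 2340) (PT.nd (nat_lit 1170) (PT.nd (nat_lit 546) (PT.nd (nat_lit 234) (PT.nd (nat_lit 78) (PT.lf (nat_lit 22800) (nat_lit 6) (nat_lit 300) (nat_lit 5) (nat_lit 158) (nat_lit 202) (nat_lit 210)) (PT.nd (nat_lit 78) (PT.lf (nat_lit 23636) (nat_lit 6) (nat_lit 311) (nat_lit 5) (nat_lit 159) (nat_lit 202) (nat_lit 209)) (PT.lf (nat_lit 24472) (nat_lit 6) (nat_lit 322) (nat_lit 5) (nat_lit 160) (nat_lit 202) (nat_lit 208)))) (PT.nd (nat_lit 156) (PT.nd (nat_lit 78) (PT.lf (nat_lit 25384) (nat_lit 6) (nat_lit 334) (nat_lit 5) (nat_lit 161) (nat_lit 202) (nat_lit 207)) (PT.lf (nat_lit 26296) (nat_lit 6)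 (nat_lit 346) (nat_lit 5) (nat_lit 162) (nat_lit 202) (nat_lit 206))) (PT.nd (nat_lit 78) (PT.lf (nat_lit 27208) (nat_lit 6) (nat_lit 358) (nat_lit 5) (nat_lit 163) (nat_lit 202) (nat_lit 205)) (PT.lf (nat_lit 28120) (nat_lit 6) (nat_lit 370) (nat_lit 5) (nat_lit 164) (nat_lit 202) (nat_lit 204))))) (PT.nd (nat_lit 312) (PT.nd (nat_lit 156) (PT.nd (nat_lit 78) (PT.lf (nat_lit 29108) (nat_lit 6) (nat_lit 383) (nat_lit 5) (nat_lit 165) (nat_lit 202) (nat_lit 203)) (PT.lf (nat_lit 30248) (nat_lit 3) (nat_lit 398) (nat_lit 4) (nat_lit 166) (nat_lit 202) (nat_lit 202))) (PT.nd (nat_lit 78) (PT.lf (nat_lit 31996) (nat_lit 6) (nat_lit 421) (nat_lit 4) (nat_lit 167) (nat_lit 202) (nat_lit 201)) (PT.lf (nat_lit 33668) (nat_lit 6) (nat_lit 443) (nat_lit 4) (nat_lit 168) (nat_lit 202) (nat_lit 200)))) (PT.nd (nat_lit 156) (PT.nd (nat_lit 78) (PT.lf (nat_lit 35264) (nat_lit 6) (nat_lit 464) (nat_lit 4) (nat_lit 169) (nat_lit 202)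 (nat_lit 199)) (PT.lf (nat_lit 36784) (nat_lit 6) (nat_lit 484) (nat_lit 4) (nat_lit 170) (nat_lit 202) (nat_lit 198))) (PT.nd (nat_lit 78) (PT.lf (nat_lit 38228) (nat_lit 6) (nat_lit 503) (nat_lit 4) (nat_lit 171) (nat_lit 202) (nat_lit 197)) (PT.lf (nat_lit 39596) (nat_lit 6) (nat_lit 521) (nat_lit 4) (nat_lit 172) (nat_lit 202) (nat_lit 196)))))) (PT.nd (nat_lit 546) (PT.nd (nat_lit 234) (PT.nd (nat_lit 78) (PT.lf (nat_lit 40888) (nat_lit 6) (nat_lit 538) (nat_lit 4) (nat_lit 173) (nat_lit 202) (nat_lit 195)) (PT.nd (nat_lit 78) (PT.lf (nat_lit 42104) (nat_lit 6) (nat_lit 554) (nat_lit 4) (nat_lit 174) (nat_lit 202) (nat_lit 194)) (PT.lf (nat_lit 43244) (nat_lit 6) (nat_lit 569) (nat_lit 4) (nat_lit 175) (nat_lit 202) (nat_lit 193)))) (PT.nd (nat_lit 156) (PT.nd (nat_lit 78) (PT.lf (nat_lit 44308) (nat_lit 6) (nat_lit 583) (nat_lit 4) (nat_lit 176) (nat_lit 202) (nat_lit 192)) (PT.lf (nat_lit 45296) (nat_lit 6) (nat_lit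 596) (nat_lit 4) (nat_lit 177) (nat_lit 202) (nat_lit 191))) (PT.nd (nat_lit 78) (PT.lf (nat_lit 46208) (nat_lit 6) (nat_lit 608) (nat_lit 4) (nat_lit 178) (nat_lit 202) (nat_lit 190)) (PT.lf (nat_lit 46132) (nat_lit 6) (nat_lit 607) (nat_lit 4) (nat_lit 179) (nat_lit 202) (nat_lit 189))))) (PT.nd (nat_lit 312) (PT.nd (nat_lit 156) (PT.nd (nat_lit 78) (PT.lf (nat_lit 46056) (nat_lit 6) (nat_lit 606) (nat_lit 4) (nat_lit 180) (nat_lit 202) (nat_lit 188)) (PT.lf (nat_lit 45980) (nat_lit 6) (nat_lit 605) (nat_lit 4) (nat_lit 181) (nat_lit 202) (nat_lit 187))) (PT.nd (nat_lit 78) (PT.lf (nat_lit 45904) (nat_lit 6) (nat_lit 604) (nat_lit 4) (nat_lit 182) (nat_lit 202) (nat_lit 186)) (PT.lf (nat_lit 45828) (nat_lit 6) (nat_lit 603) (nat_lit 4) (nat_lit 183) (nat_lit 202) (nat_lit 185)))) (PT.nd (nat_lit 156) (PT.nd (nat_lit 78) (PT.lf (nat_lit 45752) (nat_lit 3) (nat_lit 602) (nat_lit 2) (nat_lit 184) (nat_lit 202) (nat_lit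 184)) (PT.lf (nat_lit 45828) (nat_lit 6) (nat_lit 603) (nat_lit 2) (nat_lit 185) (nat_lit 202) (nat_lit 183))) (PT.nd (nat_lit 78) (PT.lf (nat_lit 45904) (nat_lit 6) (nat_lit 604) (nat_lit 2) (nat_lit 186) (nat_lit 202) (nat_lit 182)) (PT.lf (nat_lit 45980) (nat_lit 6) (nat_lit 605) (nat_lit 2) (nat_lit 187) (nat_lit 202) (nat_lit 181))))))) (PT.nd (nat_lit 1170) (PT.nd (nat_lit 546) (PT.nd (nat_lit 234) (PT.nd (nat_lit 78) (PT.lf (nat_lit 46056) (nat_lit 6) (nat_lit 606) (nat_lit 2) (nat_lit 188) (nat_lit 202) (nat_lit 180)) (PT.nd (nat_lit 78) (PT.lf (nat_lit 46132) (nat_lit 6) (nat_lit 607) (nat_lit 2) (nat_lit 189) (nat_lit 202) (nat_lit 179)) (PT.lf (nat_lit 46208) (nat_lit 6) (nat_lit 608) (nat_lit 2) (nat_lit 190) (nat_lit 202) (nat_lit 178)))) (PT.nd (nat_lit 156) (PT.nd (nat_lit 78) (PT.lf (nat_lit 45296) (nat_lit 6) (nat_lit 596) (nat_lit 2) (nat_lit 191) (nat_lit 202) (nat_lit 177)) (PT.lf (nat_lit 44308)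 (nat_lit 6) (nat_lit 583) (nat_lit 2) (nat_lit 192) (nat_lit 202) (nat_lit 176))) (PT.nd (nat_lit 78) (PT.lf (nat_lit 43244) (nat_lit 6) (nat_lit 569) (nat_lit 2) (nat_lit 193) (nat_lit 202) (nat_lit 175)) (PT.lf (nat_lit 42104) (nat_lit 6) (nat_lit 554) (nat_lit 2) (nat_lit 194) (nat_lit 202) (nat_lit 174))))) (PT.nd (nat_lit 312) (PT.nd (nat_lit 156) (PT.nd (nat_lit 78) (PT.lf (nat_lit 40888) (nat_lit 6) (nat_lit 538) (nat_lit 2) (nat_lit 195) (nat_lit 202) (nat_lit 173)) (PT.lf (nat_lit 39596) (nat_lit 6) (nat_lit 521) (nat_lit 2) (nat_lit 196) (nat_lit 202) (nat_lit 172))) (PT.nd (nat_lit 78) (PT.lf (nat_lit 38228) (nat_lit 6) (nat_lit 503) (nat_lit 2) (nat_lit 197) (nat_lit 202) (nat_lit 171)) (PT.lf (nat_lit 36784) (nat_lit 6) (nat_lit 484) (nat_lit 2) (nat_lit 198) (nat_lit 202) (nat_lit 170)))) (PT.nd (nat_lit 156) (PT.nd (nat_lit 78) (PT.lf (nat_lit 35264) (nat_lit 6) (nat_lit 464) (nat_lit 2) (nat_lit 199)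 (nat_lit 202) (nat_lit 169)) (PT.lf (nat_lit 33668) (nat_lit 6) (nat_lit 443) (nat_lit 2) (nat_lit 200) (nat_lit 202) (nat_lit 168))) (PT.nd (nat_lit 78) (PT.lf (nat_lit 31996) (nat_lit 6) (nat_lit 421) (nat_lit 2) (nat_lit 201) (nat_lit 202) (nat_lit 167)) (PT.lf (nat_lit 30248) (nat_lit 3) (nat_lit 398) (nat_lit 0) (nat_lit 202) (nat_lit 202) (nat_lit 166)))))) (PT.nd (nat_lit 546) (PT.nd (nat_lit 234) (PT.nd (nat_lit 78) (PT.lf (nat_lit 29108) (nat_lit 6) (nat_lit 383) (nat_lit 0) (nat_lit 203) (nat_lit 202) (nat_lit 165)) (PT.nd (nat_lit 78) (PT.lf (nat_lit 28120) (nat_lit 6) (nat_lit 370) (nat_lit 0) (nat_lit 204) (nat_lit 202) (nat_lit 164)) (PT.lf (nat_lit 27208) (nat_lit 6) (nat_lit 358) (nat_lit 0) (nat_lit 205) (nat_lit 202) (nat_lit 163)))) (PT.nd (nat_lit 156) (PT.nd (nat_lit 78) (PT.lf (nat_lit 26296) (nat_lit 6) (nat_lit 346) (nat_lit 0) (nat_lit 206) (nat_lit 202) (nat_lit 162)) (PT.lf (nat_lit 25384)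 (nat_lit 6) (nat_lit 334) (nat_lit 0) (nat_lit 207) (nat_lit 202) (nat_lit 161))) (PT.nd (nat_lit 78) (PT.lf (nat_lit 24472) (nat_lit 6) (nat_lit 322) (nat_lit 0) (nat_lit 208) (nat_lit 202) (nat_lit 160)) (PT.lf (nat_lit 23636) (nat_lit 6) (nat_lit 311) (nat_lit 0) (nat_lit 209) (nat_lit 202) (nat_lit 159))))) (PT.nd (nat_lit 312) (PT.nd (nat_lit 156) (PT.nd (nat_lit 78) (PT.lf (nat_lit 22800) (nat_lit 6) (nat_lit 300) (nat_lit 0) (nat_lit 210) (nat_lit 202) (nat_lit 158)) (PT.lf (nat_lit 22040) (nat_lit 6) (nat_lit 290) (nat_lit 0) (nat_lit 211) (nat_lit 202) (nat_lit 157))) (PT.nd (nat_lit 78) (PT.lf (nat_lit 21204) (nat_lit 6) (nat_lit 279) (nat_lit 0) (nat_lit 212) (nat_lit 202) (nat_lit 156)) (PT.lf (nat_lit 20444) (nat_lit 6) (nat_lit 269) (nat_lit 0) (nat_lit 213) (nat_lit 202) (nat_lit 155)))) (PT.nd (nat_lit 156) (PT.nd (nat_lit 78) (PT.lf (nat_lit 19684) (nat_lit 6) (nat_lit 259) (nat_lit 0) (nat_lit 214)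 (nat_lit 202) (nat_lit 154)) (PT.lf (nat_lit 19000) (nat_lit 6) (nat_lit 250) (nat_lit 0) (nat_lit 215) (nat_lit 202) (nat_lit 153))) (PT.nd (nat_lit 78) (PT.lf (nat_lit 18316) (nat_lit 6) (nat_lit 241) (nat_lit 0) (nat_lit 216) (nat_lit 202) (nat_lit 152)) (PT.lf (nat_lit 17632) (nat_lit 6) (nat_lit 232) (nat_lit 0) (nat_lit 217) (nat_lit 202) (nat_lit 151))))))))
noncomputable def pc38 : PT := (PT.nd (nat_lit 2340) (PT.nd (nat_lit 1170) (PT.nd (nat_lit 546) (PT.nd (nat_lit 234) (PT.nd (nat_lit 78) (PT.lf (nat_lit 16416) (nat_lit 6) (nat_lit 216) (nat_lit 5) (nat_lit 149) (nat_lit 203) (nat_lit 218)) (PT.nd (nat_lit 78) (PT.lf (nat_lit 17024) (nat_lit 6) (nat_lit 224) (nat_lit 5) (nat_lit 150) (nat_lit 203) (nat_lit 217)) (PT.lf (nat_lit 17708) (nat_lit 6) (nat_lit 233) (nat_lit 5) (nat_lit 151) (nat_lit 203) (nat_lit 216)))) (PT.nd (nat_lit 156) (PT.nd (nat_lit 78) (PT.lf (nat_lit 18392) (nat_lit 6) (nat_lit 242) (nat_lit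 5) (nat_lit 152) (nat_lit 203) (nat_lit 215)) (PT.lf (nat_lit 19076) (nat_lit 6) (nat_lit 251) (nat_lit 5) (nat_lit 153) (nat_lit 203) (nat_lit 214))) (PT.nd (nat_lit 78) (PT.lf (nat_lit 19760) (nat_lit 6) (nat_lit 260) (nat_lit 5) (nat_lit 154) (nat_lit 203) (nat_lit 213)) (PT.lf (nat_lit 20520) (nat_lit 6) (nat_lit 270) (nat_lit 5) (nat_lit 155) (nat_lit 203) (nat_lit 212))))) (PT.nd (nat_lit 312) (PT.nd (nat_lit 156) (PT.nd (nat_lit 78) (PT.lf (nat_lit 21280) (nat_lit 6) (nat_lit 280) (nat_lit 5) (nat_lit 156) (nat_lit 203) (nat_lit 211)) (PT.lf (nat_lit 22116) (nat_lit 6) (nat_lit 291) (nat_lit 5) (nat_lit 157) (nat_lit 203) (nat_lit 210))) (PT.nd (nat_lit 78) (PT.lf (nat_lit 22876) (nat_lit 6) (nat_lit 301) (nat_lit 5) (nat_lit 158) (nat_lit 203) (nat_lit 209)) (PT.lf (nat_lit 23712) (nat_lit 6) (nat_lit 312) (nat_lit 5) (nat_lit 159) (nat_lit 203) (nat_lit 208)))) (PT.nd (nat_lit 156) (PT.nd (nat_lit 78) (PT.lf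 (nat_lit 24548) (nat_lit 6) (nat_lit 323) (nat_lit 5) (nat_lit 160) (nat_lit 203) (nat_lit 207)) (PT.lf (nat_lit 25460) (nat_lit 6) (nat_lit 335) (nat_lit 5) (nat_lit 161) (nat_lit 203) (nat_lit 206))) (PT.nd (nat_lit 78) (PT.lf (nat_lit 26372) (nat_lit 6) (nat_lit 347) (nat_lit 5) (nat_lit 162) (nat_lit 203) (nat_lit 205)) (PT.lf (nat_lit 27284) (nat_lit 6) (nat_lit 359) (nat_lit 5) (nat_lit 163) (nat_lit 203) (nat_lit 204)))))) (PT.nd (nat_lit 546) (PT.nd (nat_lit 234) (PT.nd (nat_lit 78) (PT.lf (nat_lit 28196) (nat_lit 3) (nat_lit 371) (nat_lit 4) (nat_lit 164) (nat_lit 203) (nat_lit 203)) (PT.nd (nat_lit 78) (PT.lf (nat_lit 29108) (nat_lit 6) (nat_lit 383) (nat_lit 4) (nat_lit 165) (nat_lit 203) (nat_lit 202)) (PT.lf (nat_lit 30172) (nat_lit 6) (nat_lit 397) (nat_lit 4) (nat_lit 166) (nat_lit 203) (nat_lit 201)))) (PT.nd (nat_lit 156) (PT.nd (nat_lit 78) (PT.lf (nat_lit 31920) (nat_lit 6) (nat_lit 420) (nat_lit 4)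 (nat_lit 167) (nat_lit 203) (nat_lit 200)) (PT.lf (nat_lit 33592) (nat_lit 6) (nat_lit 442) (nat_lit 4) (nat_lit 168) (nat_lit 203) (nat_lit 199))) (PT.nd (nat_lit 78) (PT.lf (nat_lit 35188) (nat_lit 6) (nat_lit 463) (nat_lit 4) (nat_lit 169) (nat_lit 203) (nat_lit 198)) (PT.lf (nat_lit 36708) (nat_lit 6) (nat_lit 483) (nat_lit 4) (nat_lit 170) (nat_lit 203) (nat_lit 197))))) (PT.nd (nat_lit 312) (PT.nd (nat_lit 156) (PT.nd (nat_lit 78) (PT.lf (nat_lit 38152) (nat_lit 6) (nat_lit 502) (nat_lit 4) (nat_lit 171) (nat_lit 203) (nat_lit 196)) (PT.lf (nat_lit 39520) (nat_lit 6) (nat_lit 520) (nat_lit 4) (nat_lit 172) (nat_lit 203) (nat_lit 195))) (PT.nd (nat_lit 78) (PT.lf (nat_lit 40812) (nat_lit 6) (nat_lit 537) (nat_lit 4) (nat_lit 173) (nat_lit 203) (nat_lit 194)) (PT.lf (nat_lit 42028) (nat_lit 6) (nat_lit 553) (nat_lit 4) (nat_lit 174) (nat_lit 203) (nat_lit 193)))) (PT.nd (nat_lit 156) (PT.nd (nat_lit 78) (PT.lf (nat_lit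 43168) (nat_lit 6) (nat_lit 568) (nat_lit 4) (nat_lit 175) (nat_lit 203) (nat_lit 192)) (PT.lf (nat_lit 44232) (nat_lit 6) (nat_lit 582) (nat_lit 4) (nat_lit 176) (nat_lit 203) (nat_lit 191))) (PT.nd (nat_lit 78) (PT.lf (nat_lit 45220) (nat_lit 6) (nat_lit 595) (nat_lit 4) (nat_lit 177) (nat_lit 203) (nat_lit 190)) (PT.lf (nat_lit 45144) (nat_lit 6) (nat_lit 594) (nat_lit 4) (nat_lit 178) (nat_lit 203) (nat_lit 189))))))) (PT.nd (nat_lit 1170) (PT.nd (nat_lit 546) (PT.nd (nat_lit 234) (PT.nd (nat_lit 78) (PT.lf (nat_lit 45068) (nat_lit 6) (nat_lit 593) (nat_lit 4) (nat_lit 179) (nat_lit 203) (nat_lit 188)) (PT.nd (nat_lit 78) (PT.lf (nat_lit 44992) (nat_lit 6) (nat_lit 592) (nat_lit 4) (nat_lit 180) (nat_lit 203) (nat_lit 187)) (PT.lf (nat_lit 44916) (nat_lit 6) (nat_lit 591) (nat_lit 4) (nat_lit 181) (nat_lit 203) (nat_lit 186)))) (PT.nd (nat_lit 156) (PT.nd (nat_lit 78) (PT.lf (nat_lit 44840) (nat_lit 6) (nat_lit 590)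 (nat_lit 4) (nat_lit 182) (nat_lit 203) (nat_lit 185)) (PT.lf (nat_lit 44764) (nat_lit 6) (nat_lit 589) (nat_lit 4) (nat_lit 183) (nat_lit 203) (nat_lit 184))) (PT.nd (nat_lit 78) (PT.lf (nat_lit 44764) (nat_lit 6) (nat_lit 589) (nat_lit 2) (nat_lit 184) (nat_lit 203) (nat_lit 183)) (PT.lf (nat_lit 44840) (nat_lit 6) (nat_lit 590) (nat_lit 2) (nat_lit 185) (nat_lit 203) (nat_lit 182))))) (PT.nd (nat_lit 312) (PT.nd (nat_lit 156) (PT.nd (nat_lit 78) (PT.lf (nat_lit 44916) (nat_lit 6) (nat_lit 591) (nat_lit 2) (nat_lit 186) (nat_lit 203) (nat_lit 181)) (PT.lf (nat_lit 44992) (nat_lit 6) (nat_lit 592) (nat_lit 2) (nat_lit 187) (nat_lit 203) (nat_lit 180))) (PT.nd (nat_lit 78) (PT.lf (nat_lit 45068) (nat_lit 6) (nat_lit 593) (nat_lit 2) (nat_lit 188) (nat_lit 203) (nat_lit 179)) (PT.lf (nat_lit 45144) (nat_lit 6) (nat_lit 594) (nat_lit 2) (nat_lit 189) (nat_lit 203) (nat_lit 178)))) (PT.nd (nat_lit 156) (PT.nd (nat_lit 78)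 (PT.lf (nat_lit 45220) (nat_lit 6) (nat_lit 595) (nat_lit 2) (nat_lit 190) (nat_lit 203) (nat_lit 177)) (PT.lf (nat_lit 44232) (nat_lit 6) (nat_lit 582) (nat_lit 2) (nat_lit 191) (nat_lit 203) (nat_lit 176))) (PT.nd (nat_lit 78) (PT.lf (nat_lit 43168) (nat_lit 6) (nat_lit 568) (nat_lit 2) (nat_lit 192) (nat_lit 203) (nat_lit 175)) (PT.lf (nat_lit 42028) (nat_lit 6) (nat_lit 553) (nat_lit 2) (nat_lit 193) (nat_lit 203) (nat_lit 174)))))) (PT.nd (nat_lit 546) (PT.nd (nat_lit 234) (PT.nd (nat_lit 78) (PT.lf (nat_lit 40812) (nat_lit 6) (nat_lit 537) (nat_lit 2) (nat_lit 194) (nat_lit 203) (nat_lit 173)) (PT.nd (nat_lit 78) (PT.lf (nat_lit 39520) (nat_lit 6) (nat_lit 520) (nat_lit 2) (nat_lit 195) (nat_lit 203) (nat_lit 172)) (PT.lf (nat_lit 38152) (nat_lit 6) (nat_lit 502) (nat_lit 2) (nat_lit 196) (nat_lit 203) (nat_lit 171)))) (PT.nd (nat_lit 156) (PT.nd (nat_lit 78) (PT.lf (nat_lit 36708) (nat_lit 6) (nat_lit 483) (nat_lit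 2) (nat_lit 197) (nat_lit 203) (nat_lit 170)) (PT.lf (nat_lit 35188) (nat_lit 6) (nat_lit 463) (nat_lit 2) (nat_lit 198) (nat_lit 203) (nat_lit 169))) (PT.nd (nat_lit 78) (PT.lf (nat_lit 33592) (nat_lit 6) (nat_lit 442) (nat_lit 2) (nat_lit 199) (nat_lit 203) (nat_lit 168)) (PT.lf (nat_lit 31920) (nat_lit 6) (nat_lit 420) (nat_lit 2) (nat_lit 200) (nat_lit 203) (nat_lit 167))))) (PT.nd (nat_lit 312) (PT.nd (nat_lit 156) (PT.nd (nat_lit 78) (PT.lf (nat_lit 30172) (nat_lit 6) (nat_lit 397) (nat_lit 2) (nat_lit 201) (nat_lit 203) (nat_lit 166)) (PT.lf (nat_lit 29108) (nat_lit 6) (nat_lit 383) (nat_lit 2) (nat_lit 202) (nat_lit 203) (nat_lit 165))) (PT.nd (nat_lit 78) (PT.lf (nat_lit 28196) (nat_lit 3) (nat_lit 371) (nat_lit 0) (nat_lit 203) (nat_lit 203) (nat_lit 164)) (PT.lf (nat_lit 27284) (nat_lit 6) (nat_lit 359) (nat_lit 0) (nat_lit 204) (nat_lit 203) (nat_lit 163)))) (PT.nd (nat_lit 156) (PT.nd (nat_lit 78) (PT.lf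 (nat_lit 26372) (nat_lit 6) (nat_lit 347) (nat_lit 0) (nat_lit 205) (nat_lit 203) (nat_lit 162)) (PT.lf (nat_lit 25460) (nat_lit 6) (nat_lit 335) (nat_lit 0) (nat_lit 206) (nat_lit 203) (nat_lit 161))) (PT.nd (nat_lit 78) (PT.lf (nat_lit 24548) (nat_lit 6) (nat_lit 323) (nat_lit 0) (nat_lit 207) (nat_lit 203) (nat_lit 160)) (PT.lf (nat_lit 23712) (nat_lit 6) (nat_lit 312) (nat_lit 0) (nat_lit 208) (nat_lit 203) (nat_lit 159))))))))
noncomputable def pc39 : PT := (PT.nd (nat_lit 56160) (PT.nd (nat_lit 54990) (PT.nd (nat_lit 546) (PT.nd (nat_lit 234) (PT.nd (nat_lit 78) (PT.lf (nat_lit 22876) (nat_lit 6) (nat_lit 301) (nat_lit 0) (nat_lit 209) (nat_lit 203) (nat_lit 158)) (PT.nd (nat_lit 78) (PT.lf (nat_lit 22116) (nat_lit 6) (nat_lit 291) (nat_lit 0) (nat_lit 210) (nat_lit 203) (nat_lit 157)) (PT.lf (nat_lit 21280) (nat_lit 6) (nat_lit 280) (nat_lit 0) (nat_lit 211) (nat_lit 203) (nat_lit 156)))) (PT.nd (nat_lit 156)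 (PT.nd (nat_lit 78) (PT.lf (nat_lit 20520) (nat_lit 6) (nat_lit 270) (nat_lit 0) (nat_lit 212) (nat_lit 203) (nat_lit 155)) (PT.lf (nat_lit 19760) (nat_lit 6) (nat_lit 260) (nat_lit 0) (nat_lit 213) (nat_lit 203) (nat_lit 154))) (PT.nd (nat_lit 78) (PT.lf (nat_lit 19076) (nat_lit 6) (nat_lit 251) (nat_lit 0) (nat_lit 214) (nat_lit 203) (nat_lit 153)) (PT.lf (nat_lit 18392) (nat_lit 6) (nat_lit 242) (nat_lit 0) (nat_lit 215) (nat_lit 203) (nat_lit 152))))) (PT.nd (nat_lit 54132) (PT.nd (nat_lit 156) (PT.nd (nat_lit 78) (PT.lf (nat_lit 17708) (nat_lit 6) (nat_lit 233) (nat_lit 0) (nat_lit 216) (nat_lit 203) (nat_lit 151)) (PT.lf (nat_lit 17024) (nat_lit 6) (nat_lit 224) (nat_lit 0) (nat_lit 217) (nat_lit 203) (nat_lit 150))) (PT.nd (nat_lit 53898) (PT.lf (nat_lit 16416) (nat_lit 6) (nat_lit 216) (nat_lit 0) (nat_lit 218) (nat_lit 203) (nat_lit 149)) (PT.lf (nat_lit 15808) (nat_lit 6) (nat_lit 208) (nat_lit 5) (nat_lit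 148) (nat_lit 204) (nat_lit 218)))) (PT.nd (nat_lit 156) (PT.nd (nat_lit 78) (PT.lf (nat_lit 16492) (nat_lit 6) (nat_lit 217) (nat_lit 5) (nat_lit 149) (nat_lit 204) (nat_lit 217)) (PT.lf (nat_lit 17100) (nat_lit 6) (nat_lit 225) (nat_lit 5) (nat_lit 150) (nat_lit 204) (nat_lit 216))) (PT.nd (nat_lit 78) (PT.lf (nat_lit 17784) (nat_lit 6) (nat_lit 234) (nat_lit 5) (nat_lit 151) (nat_lit 204) (nat_lit 215)) (PT.lf (nat_lit 18468) (nat_lit 6) (nat_lit 243) (nat_lit 5) (nat_lit 152) (nat_lit 204) (nat_lit 214)))))) (PT.nd (nat_lit 546) (PT.nd (nat_lit 234) (PT.nd (nat_lit 78) (PT.lf (nat_lit 19152) (nat_lit 6) (nat_lit 252) (nat_lit 5) (nat_lit 153) (nat_lit 204) (nat_lit 213)) (PT.nd (nat_lit 78) (PT.lf (nat_lit 19836) (nat_lit 6) (nat_lit 261) (nat_lit 5) (nat_lit 154) (nat_lit 204) (nat_lit 212)) (PT.lf (nat_lit 20596) (nat_lit 6) (nat_lit 271) (nat_lit 5) (nat_lit 155) (nat_lit 204) (nat_lit 211)))) (PT.nd (nat_lit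 156) (PT.nd (nat_lit 78) (PT.lf (nat_lit 21356) (nat_lit 6) (nat_lit 281) (nat_lit 5) (nat_lit 156) (nat_lit 204) (nat_lit 210)) (PT.lf (nat_lit 22192) (nat_lit 6) (nat_lit 292) (nat_lit 5) (nat_lit 157) (nat_lit 204) (nat_lit 209))) (PT.nd (nat_lit 78) (PT.lf (nat_lit 22952) (nat_lit 6) (nat_lit 302) (nat_lit 5) (nat_lit 158) (nat_lit 204) (nat_lit 208)) (PT.lf (nat_lit 23788) (nat_lit 6) (nat_lit 313) (nat_lit 5) (nat_lit 159) (nat_lit 204) (nat_lit 207))))) (PT.nd (nat_lit 312) (PT.nd (nat_lit 156) (PT.nd (nat_lit 78) (PT.lf (nat_lit 24624) (nat_lit 6) (nat_lit 324) (nat_lit 5) (nat_lit 160) (nat_lit 204) (nat_lit 206)) (PT.lf (nat_lit 25536) (nat_lit 6) (nat_lit 336) (nat_lit 5) (nat_lit 161) (nat_lit 204) (nat_lit 205))) (PT.nd (nat_lit 78) (PT.lf (nat_lit 26448) (nat_lit 3) (nat_lit 348) (nat_lit 4) (nat_lit 162) (nat_lit 204) (nat_lit 204)) (PT.lf (nat_lit 27284) (nat_lit 6) (nat_lit 359) (nat_lit 4) (nat_lit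 163) (nat_lit 204) (nat_lit 203)))) (PT.nd (nat_lit 156) (PT.nd (nat_lit 78) (PT.lf (nat_lit 28120) (nat_lit 6) (nat_lit 370) (nat_lit 4) (nat_lit 164) (nat_lit 204) (nat_lit 202)) (PT.lf (nat_lit 29032) (nat_lit 6) (nat_lit 382) (nat_lit 4) (nat_lit 165) (nat_lit 204) (nat_lit 201))) (PT.nd (nat_lit 78) (PT.lf (nat_lit 30096) (nat_lit 6) (nat_lit 396) (nat_lit 4) (nat_lit 166) (nat_lit 204) (nat_lit 200)) (PT.lf (nat_lit 31844) (nat_lit 6) (nat_lit 419) (nat_lit 4) (nat_lit 167) (nat_lit 204) (nat_lit 199))))))) (PT.nd (nat_lit 1170) (PT.nd (nat_lit 546) (PT.nd (nat_lit 234) (PT.nd (nat_lit 78) (PT.lf (nat_lit 33516) (nat_lit 6) (nat_lit 441) (nat_lit 4) (nat_lit 168) (nat_lit 204) (nat_lit 198)) (PT.nd (nat_lit 78) (PT.lf (nat_lit 35112) (nat_lit 6) (nat_lit 462) (nat_lit 4) (nat_lit 169) (nat_lit 204) (nat_lit 197)) (PT.lf (nat_lit 36632) (nat_lit 6) (nat_lit 482) (nat_lit 4) (nat_lit 170) (nat_lit 204) (nat_lit 196))))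 (PT.nd (nat_lit 156) (PT.nd (nat_lit 78) (PT.lf (nat_lit 38076) (nat_lit 6) (nat_lit 501) (nat_lit 4) (nat_lit 171) (nat_lit 204) (nat_lit 195)) (PT.lf (nat_lit 39444) (nat_lit 6) (nat_lit 519) (nat_lit 4) (nat_lit 172) (nat_lit 204) (nat_lit 194))) (PT.nd (nat_lit 78) (PT.lf (nat_lit 40736) (nat_lit 6) (nat_lit 536) (nat_lit 4) (nat_lit 173) (nat_lit 204) (nat_lit 193)) (PT.lf (nat_lit 41952) (nat_lit 6) (nat_lit 552) (nat_lit 4) (nat_lit 174) (nat_lit 204) (nat_lit 192))))) (PT.nd (nat_lit 312) (PT.nd (nat_lit 156) (PT.nd (nat_lit 78) (PT.lf (nat_lit 43092) (nat_lit 6) (nat_lit 567) (nat_lit 4) (nat_lit 175) (nat_lit 204) (nat_lit 191)) (PT.lf (nat_lit 44156) (nat_lit 6) (nat_lit 581) (nat_lit 4) (nat_lit 176) (nat_lit 204) (nat_lit 190))) (PT.nd (nat_lit 78) (PT.lf (nat_lit 44080) (nat_lit 6) (nat_lit 580) (nat_lit 4) (nat_lit 177) (nat_lit 204) (nat_lit 189)) (PT.lf (nat_lit 44004) (nat_lit 6) (nat_lit 579) (nat_lit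 4) (nat_lit 178) (nat_lit 204) (nat_lit 188)))) (PT.nd (nat_lit 156) (PT.nd (nat_lit 78) (PT.lf (nat_lit 43928) (nat_lit 6) (nat_lit 578) (nat_lit 4) (nat_lit 179) (nat_lit 204) (nat_lit 187)) (PT.lf (nat_lit 43852) (nat_lit 6) (nat_lit 577) (nat_lit 4) (nat_lit 180) (nat_lit 204) (nat_lit 186))) (PT.nd (nat_lit 78) (PT.lf (nat_lit 43776) (nat_lit 6) (nat_lit 576) (nat_lit 4) (nat_lit 181) (nat_lit 204) (nat_lit 185)) (PT.lf (nat_lit 43700) (nat_lit 6) (nat_lit 575) (nat_lit 4) (nat_lit 182) (nat_lit 204) (nat_lit 184)))))) (PT.nd (nat_lit 624) (PT.nd (nat_lit 312) (PT.nd (nat_lit 156) (PT.nd (nat_lit 78) (PT.lf (nat_lit 43624) (nat_lit 3) (nat_lit 574) (nat_lit 2) (nat_lit 183) (nat_lit 204) (nat_lit 183)) (PT.lf (nat_lit 43700) (nat_lit 6) (nat_lit 575) (nat_lit 2) (nat_lit 184) (nat_lit 204) (nat_lit 182))) (PT.nd (nat_lit 78) (PT.lf (nat_lit 43776) (nat_lit 6) (nat_lit 576) (nat_lit 2) (nat_lit 185) (nat_lit 204)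 (nat_lit 181)) (PT.lf (nat_lit 43852) (nat_lit 6) (nat_lit 577) (nat_lit 2) (nat_lit 186) (nat_lit 204) (nat_lit 180)))) (PT.nd (nat_lit 156) (PT.nd (nat_lit 78) (PT.lf (nat_lit 43928) (nat_lit 6) (nat_lit 578) (nat_lit 2) (nat_lit 187) (nat_lit 204) (nat_lit 179)) (PT.lf (nat_lit 44004) (nat_lit 6) (nat_lit 579) (nat_lit 2) (nat_lit 188) (nat_lit 204) (nat_lit 178))) (PT.nd (nat_lit 78) (PT.lf (nat_lit 44080) (nat_lit 6) (nat_lit 580) (nat_lit 2) (nat_lit 189) (nat_lit 204) (nat_lit 177)) (PT.lf (nat_lit 44156) (nat_lit 6) (nat_lit 581) (nat_lit 2) (nat_lit 190) (nat_lit 204) (nat_lit 176))))) (PT.nd (nat_lit 312) (PT.nd (nat_lit 156) (PT.nd (nat_lit 78) (PT.lf (nat_lit 43092) (nat_lit 6) (nat_lit 567) (nat_lit 2) (nat_lit 191) (nat_lit 204) (nat_lit 175)) (PT.lf (nat_lit 41952) (nat_lit 6) (nat_lit 552) (nat_lit 2) (nat_lit 192) (nat_lit 204) (nat_lit 174))) (PT.nd (nat_lit 78) (PT.lf (nat_lit 40736) (nat_lit 6) (nat_lit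 536) (nat_lit 2) (nat_lit 193) (nat_lit 204) (nat_lit 173)) (PT.lf (nat_lit 39444) (nat_lit 6) (nat_lit 519) (nat_lit 2) (nat_lit 194) (nat_lit 204) (nat_lit 172)))) (PT.nd (nat_lit 156) (PT.nd (nat_lit 78) (PT.lf (nat_lit 38076) (nat_lit 6) (nat_lit 501) (nat_lit 2) (nat_lit 195) (nat_lit 204) (nat_lit 171)) (PT.lf (nat_lit 36632) (nat_lit 6) (nat_lit 482) (nat_lit 2) (nat_lit 196) (nat_lit 204) (nat_lit 170))) (PT.nd (nat_lit 78) (PT.lf (nat_lit 35112) (nat_lit 6) (nat_lit 462) (nat_lit 2) (nat_lit 197) (nat_lit 204) (nat_lit 169)) (PT.lf (nat_lit 33516) (nat_lit 6) (nat_lit 441) (nat_lit 2) (nat_lit 198) (nat_lit 204) (nat_lit 168))))))))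
noncomputable def pc40 : PT := (PT.nd (nat_lit 56082) (PT.nd (nat_lit 1170) (PT.nd (nat_lit 546) (PT.nd (nat_lit 234) (PT.nd (nat_lit 78) (PT.lf (nat_lit 31844) (nat_lit 6) (nat_lit 419) (nat_lit 2) (nat_lit 199) (nat_lit 204) (nat_lit 167)) (PT.nd (nat_lit 78) (PT.lf (nat_lit 30096) (nat_lit 6) (nat_lit 396) (nat_lit 2) (nat_lit 200) (nat_lit 204) (nat_lit 166)) (PT.lf (nat_lit 29032) (nat_lit 6) (nat_lit 382) (nat_lit 2) (nat_lit 201) (nat_lit 204) (nat_lit 165)))) (PT.nd (nat_lit 156) (PT.nd (nat_lit 78) (PT.lf (nat_lit 28120) (nat_lit 6) (nat_lit 370) (nat_lit 2) (nat_lit 202) (nat_lit 204) (nat_lit 164)) (PT.lf (nat_lit 27284) (nat_lit 6) (nat_lit 359) (nat_lit 2) (nat_lit 203) (nat_lit 204) (nat_lit 163))) (PT.nd (nat_lit 78) (PT.lf (nat_lit 26448) (nat_lit 3) (nat_lit 348) (nat_lit 0) (nat_lit 204) (nat_lit 204) (nat_lit 162)) (PT.lf (nat_lit 25536) (nat_lit 6) (nat_lit 336) (nat_lit 0) (nat_lit 205) (nat_lit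 204) (nat_lit 161))))) (PT.nd (nat_lit 312) (PT.nd (nat_lit 156) (PT.nd (nat_lit 78) (PT.lf (nat_lit 24624) (nat_lit 6) (nat_lit 324) (nat_lit 0) (nat_lit 206) (nat_lit 204) (nat_lit 160)) (PT.lf (nat_lit 23788) (nat_lit 6) (nat_lit 313) (nat_lit 0) (nat_lit 207) (nat_lit 204) (nat_lit 159))) (PT.nd (nat_lit 78) (PT.lf (nat_lit 22952) (nat_lit 6) (nat_lit 302) (nat_lit 0) (nat_lit 208) (nat_lit 204) (nat_lit 158)) (PT.lf (nat_lit 22192) (nat_lit 6) (nat_lit 292) (nat_lit 0) (nat_lit 209) (nat_lit 204) (nat_lit 157)))) (PT.nd (nat_lit 156) (PT.nd (nat_lit 78) (PT.lf (nat_lit 21356) (nat_lit 6) (nat_lit 281) (nat_lit 0) (nat_lit 210) (nat_lit 204) (nat_lit 156)) (PT.lf (nat_lit 20596) (nat_lit 6) (nat_lit 271) (nat_lit 0) (nat_lit 211) (nat_lit 204) (nat_lit 155))) (PT.nd (nat_lit 78) (PT.lf (nat_lit 19836) (nat_lit 6) (nat_lit 261) (nat_lit 0) (nat_lit 212) (nat_lit 204) (nat_lit 154)) (PT.lf (nat_lit 19152) (nat_lit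 6) (nat_lit 252) (nat_lit 0) (nat_lit 213) (nat_lit 204) (nat_lit 153)))))) (PT.nd (nat_lit 54288) (PT.nd (nat_lit 234) (PT.nd (nat_lit 78) (PT.lf (nat_lit 18468) (nat_lit 6) (nat_lit 243) (nat_lit 0) (nat_lit 214) (nat_lit 204) (nat_lit 152)) (PT.nd (nat_lit 78) (PT.lf (nat_lit 17784) (nat_lit 6) (nat_lit 234) (nat_lit 0) (nat_lit 215) (nat_lit 204) (nat_lit 151)) (PT.lf (nat_lit 17100) (nat_lit 6) (nat_lit 225) (nat_lit 0) (nat_lit 216) (nat_lit 204) (nat_lit 150)))) (PT.nd (nat_lit 53898) (PT.nd (nat_lit 78) (PT.lf (nat_lit 16492) (nat_lit 6) (nat_lit 217) (nat_lit 0) (nat_lit 217) (nat_lit 204) (nat_lit 149)) (PT.lf (nat_lit 15808) (nat_lit 6) (nat_lit 208) (nat_lit 0) (nat_lit 218) (nat_lit 204) (nat_lit 148))) (PT.nd (nat_lit 78) (PT.lf (nat_lit 15276) (nat_lit 6) (nat_lit 201) (nat_lit 5) (nat_lit 147) (nat_lit 205) (nat_lit 218)) (PT.lf (nat_lit 15884) (nat_lit 6) (nat_lit 209) (nat_lit 5) (nat_lit 148) (nat_lit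 205) (nat_lit 217))))) (PT.nd (nat_lit 312) (PT.nd (nat_lit 156) (PT.nd (nat_lit 78) (PT.lf (nat_lit 16568) (nat_lit 6) (nat_lit 218) (nat_lit 5) (nat_lit 149) (nat_lit 205) (nat_lit 216)) (PT.lf (nat_lit 17176) (nat_lit 6) (nat_lit 226) (nat_lit 5) (nat_lit 150) (nat_lit 205) (nat_lit 215))) (PT.nd (nat_lit 78) (PT.lf (nat_lit 17860) (nat_lit 6) (nat_lit 235) (nat_lit 5) (nat_lit 151) (nat_lit 205) (nat_lit 214)) (PT.lf (nat_lit 18544) (nat_lit 6) (nat_lit 244) (nat_lit 5) (nat_lit 152) (nat_lit 205) (nat_lit 213)))) (PT.nd (nat_lit 156) (PT.nd (nat_lit 78) (PT.lf (nat_lit 19228) (nat_lit 6) (nat_lit 253) (nat_lit 5) (nat_lit 153) (nat_lit 205) (nat_lit 212)) (PT.lf (nat_lit 19912) (nat_lit 6) (nat_lit 262) (nat_lit 5) (nat_lit 154) (nat_lit 205) (nat_lit 211))) (PT.nd (nat_lit 78) (PT.lf (nat_lit 20672) (nat_lit 6) (nat_lit 272) (nat_lit 5) (nat_lit 155) (nat_lit 205) (nat_lit 210)) (PT.lf (nat_lit 21432) (nat_lit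 6) (nat_lit 282) (nat_lit 5) (nat_lit 156) (nat_lit 205) (nat_lit 209))))))) (PT.nd (nat_lit 1170) (PT.nd (nat_lit 546) (PT.nd (nat_lit 234) (PT.nd (nat_lit 78) (PT.lf (nat_lit 22268) (nat_lit 6) (nat_lit 293) (nat_lit 5) (nat_lit 157) (nat_lit 205) (nat_lit 208)) (PT.nd (nat_lit 78) (PT.lf (nat_lit 23028) (nat_lit 6) (nat_lit 303) (nat_lit 5) (nat_lit 158) (nat_lit 205) (nat_lit 207)) (PT.lf (nat_lit 23864) (nat_lit 6) (nat_lit 314) (nat_lit 5) (nat_lit 159) (nat_lit 205) (nat_lit 206)))) (PT.nd (nat_lit 156) (PT.nd (nat_lit 78) (PT.lf (nat_lit 24700) (nat_lit 3) (nat_lit 325) (nat_lit 4) (nat_lit 160) (nat_lit 205) (nat_lit 205)) (PT.lf (nat_lit 25536) (nat_lit 6) (nat_lit 336) (nat_lit 4) (nat_lit 161) (nat_lit 205) (nat_lit 204))) (PT.nd (nat_lit 78) (PT.lf (nat_lit 26372) (nat_lit 6) (nat_lit 347) (nat_lit 4) (nat_lit 162) (nat_lit 205) (nat_lit 203)) (PT.lf (nat_lit 27208) (nat_lit 6) (nat_lit 358) (nat_lit 4)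 (nat_lit 163) (nat_lit 205) (nat_lit 202))))) (PT.nd (nat_lit 312) (PT.nd (nat_lit 156) (PT.nd (nat_lit 78) (PT.lf (nat_lit 28044) (nat_lit 6) (nat_lit 369) (nat_lit 4) (nat_lit 164) (nat_lit 205) (nat_lit 201)) (PT.lf (nat_lit 28956) (nat_lit 6) (nat_lit 381) (nat_lit 4) (nat_lit 165) (nat_lit 205) (nat_lit 200))) (PT.nd (nat_lit 78) (PT.lf (nat_lit 30020) (nat_lit 6) (nat_lit 395) (nat_lit 4) (nat_lit 166) (nat_lit 205) (nat_lit 199)) (PT.lf (nat_lit 31768) (nat_lit 6) (nat_lit 418) (nat_lit 4) (nat_lit 167) (nat_lit 205) (nat_lit 198)))) (PT.nd (nat_lit 156) (PT.nd (nat_lit 78) (PT.lf (nat_lit 33440) (nat_lit 6) (nat_lit 440) (nat_lit 4) (nat_lit 168) (nat_lit 205) (nat_lit 197)) (PT.lf (nat_lit 35036) (nat_lit 6) (nat_lit 461) (nat_lit 4) (nat_lit 169) (nat_lit 205) (nat_lit 196))) (PT.nd (nat_lit 78) (PT.lf (nat_lit 36556) (nat_lit 6) (nat_lit 481) (nat_lit 4) (nat_lit 170) (nat_lit 205) (nat_lit 195)) (PT.lf (nat_lit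 38000) (nat_lit 6) (nat_lit 500) (nat_lit 4) (nat_lit 171) (nat_lit 205) (nat_lit 194)))))) (PT.nd (nat_lit 546) (PT.nd (nat_lit 234) (PT.nd (nat_lit 78) (PT.lf (nat_lit 39368) (nat_lit 6) (nat_lit 518) (nat_lit 4) (nat_lit 172) (nat_lit 205) (nat_lit 193)) (PT.nd (nat_lit 78) (PT.lf (nat_lit 40660) (nat_lit 6) (nat_lit 535) (nat_lit 4) (nat_lit 173) (nat_lit 205) (nat_lit 192)) (PT.lf (nat_lit 41876) (nat_lit 6) (nat_lit 551) (nat_lit 4) (nat_lit 174) (nat_lit 205) (nat_lit 191)))) (PT.nd (nat_lit 156) (PT.nd (nat_lit 78) (PT.lf (nat_lit 43016) (nat_lit 6) (nat_lit 566) (nat_lit 4) (nat_lit 175) (nat_lit 205) (nat_lit 190)) (PT.lf (nat_lit 42940) (nat_lit 6) (nat_lit 565) (nat_lit 4) (nat_lit 176) (nat_lit 205) (nat_lit 189))) (PT.nd (nat_lit 78) (PT.lf (nat_lit 42864) (nat_lit 6) (nat_lit 564) (nat_lit 4) (nat_lit 177) (nat_lit 205) (nat_lit 188)) (PT.lf (nat_lit 42788) (nat_lit 6) (nat_lit 563) (nat_lit 4) (nat_lit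 178) (nat_lit 205) (nat_lit 187))))) (PT.nd (nat_lit 312) (PT.nd (nat_lit 156) (PT.nd (nat_lit 78) (PT.lf (nat_lit 42712) (nat_lit 6) (nat_lit 562) (nat_lit 4) (nat_lit 179) (nat_lit 205) (nat_lit 186)) (PT.lf (nat_lit 42636) (nat_lit 6) (nat_lit 561) (nat_lit 4) (nat_lit 180) (nat_lit 205) (nat_lit 185))) (PT.nd (nat_lit 78) (PT.lf (nat_lit 42560) (nat_lit 6) (nat_lit 560) (nat_lit 4) (nat_lit 181) (nat_lit 205) (nat_lit 184)) (PT.lf (nat_lit 42484) (nat_lit 6) (nat_lit 559) (nat_lit 4) (nat_lit 182) (nat_lit 205) (nat_lit 183)))) (PT.nd (nat_lit 156) (PT.nd (nat_lit 78) (PT.lf (nat_lit 42484) (nat_lit 6) (nat_lit 559) (nat_lit 2) (nat_lit 183) (nat_lit 205) (nat_lit 182)) (PT.lf (nat_lit 42560) (nat_lit 6) (nat_lit 560) (nat_lit 2) (nat_lit 184) (nat_lit 205) (nat_lit 181))) (PT.nd (nat_lit 78) (PT.lf (nat_lit 42636) (nat_lit 6) (nat_lit 561) (nat_lit 2) (nat_lit 185) (nat_lit 205) (nat_lit 180)) (PT.lf (nat_lit 42712)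 (nat_lit 6) (nat_lit 562) (nat_lit 2) (nat_lit 186) (nat_lit 205) (nat_lit 179))))))))
noncomputable def pc41 : PT := (PT.nd (nat_lit 2340) (PT.nd (nat_lit 1170) (PT.nd (nat_lit 546) (PT.nd (nat_lit 234) (PT.nd (nat_lit 78) (PT.lf (nat_lit 42788) (nat_lit 6) (nat_lit 563) (nat_lit 2) (nat_lit 187) (nat_lit 205) (nat_lit 178)) (PT.nd (nat_lit 78) (PT.lf (nat_lit 42864) (nat_lit 6) (nat_lit 564) (nat_lit 2) (nat_lit 188) (nat_lit 205) (nat_lit 177)) (PT.lf (nat_lit 42940) (nat_lit 6) (nat_lit 565) (nat_lit 2) (nat_lit 189) (nat_lit 205) (nat_lit 176)))) (PT.nd (nat_lit 156) (PT.nd (nat_lit 78) (PT.lf (nat_lit 43016) (nat_lit 6) (nat_lit 566) (nat_lit 2) (nat_lit 190) (nat_lit 205) (nat_lit 175)) (PT.lf (nat_lit 41876) (nat_lit 6) (nat_lit 551) (nat_lit 2) (nat_lit 191) (nat_lit 205) (nat_lit 174))) (PT.nd (nat_lit 78) (PT.lf (nat_lit 40660) (nat_lit 6) (nat_lit 535) (nat_lit 2) (nat_lit 192) (nat_lit 205) (nat_lit 173))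 (PT.lf (nat_lit 39368) (nat_lit 6) (nat_lit 518) (nat_lit 2) (nat_lit 193) (nat_lit 205) (nat_lit 172))))) (PT.nd (nat_lit 312) (PT.nd (nat_lit 156) (PT.nd (nat_lit 78) (PT.lf (nat_lit 38000) (nat_lit 6) (nat_lit 500) (nat_lit 2) (nat_lit 194) (nat_lit 205) (nat_lit 171)) (PT.lf (nat_lit 36556) (nat_lit 6) (nat_lit 481) (nat_lit 2) (nat_lit 195) (nat_lit 205) (nat_lit 170))) (PT.nd (nat_lit 78) (PT.lf (nat_lit 35036) (nat_lit 6) (nat_lit 461) (nat_lit 2) (nat_lit 196) (nat_lit 205) (nat_lit 169)) (PT.lf (nat_lit 33440) (nat_lit 6) (nat_lit 440) (nat_lit 2) (nat_lit 197) (nat_lit 205) (nat_lit 168)))) (PT.nd (nat_lit 156) (PT.nd (nat_lit 78) (PT.lf (nat_lit 31768) (nat_lit 6) (nat_lit 418) (nat_lit 2) (nat_lit 198) (nat_lit 205) (nat_lit 167)) (PT.lf (nat_lit 30020) (nat_lit 6) (nat_lit 395) (nat_lit 2) (nat_lit 199) (nat_lit 205) (nat_lit 166))) (PT.nd (nat_lit 78) (PT.lf (nat_lit 28956) (nat_lit 6) (nat_lit 381) (nat_lit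 2) (nat_lit 200) (nat_lit 205) (nat_lit 165)) (PT.lf (nat_lit 28044) (nat_lit 6) (nat_lit 369) (nat_lit 2) (nat_lit 201) (nat_lit 205) (nat_lit 164)))))) (PT.nd (nat_lit 546) (PT.nd (nat_lit 234) (PT.nd (nat_lit 78) (PT.lf (nat_lit 27208) (nat_lit 6) (nat_lit 358) (nat_lit 2) (nat_lit 202) (nat_lit 205) (nat_lit 163)) (PT.nd (nat_lit 78) (PT.lf (nat_lit 26372) (nat_lit 6) (nat_lit 347) (nat_lit 2) (nat_lit 203) (nat_lit 205) (nat_lit 162)) (PT.lf (nat_lit 25536) (nat_lit 6) (nat_lit 336) (nat_lit 2) (nat_lit 204) (nat_lit 205) (nat_lit 161)))) (PT.nd (nat_lit 156) (PT.nd (nat_lit 78) (PT.lf (nat_lit 24700) (nat_lit 3) (nat_lit 325) (nat_lit 0) (nat_lit 205) (nat_lit 205) (nat_lit 160)) (PT.lf (nat_lit 23864) (nat_lit 6) (nat_lit 314) (nat_lit 0) (nat_lit 206) (nat_lit 205) (nat_lit 159))) (PT.nd (nat_lit 78) (PT.lf (nat_lit 23028) (nat_lit 6) (nat_lit 303) (nat_lit 0) (nat_lit 207) (nat_lit 205) (nat_lit 158)) (PT.lf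 (nat_lit 22268) (nat_lit 6) (nat_lit 293) (nat_lit 0) (nat_lit 208) (nat_lit 205) (nat_lit 157))))) (PT.nd (nat_lit 312) (PT.nd (nat_lit 156) (PT.nd (nat_lit 78) (PT.lf (nat_lit 21432) (nat_lit 6) (nat_lit 282) (nat_lit 0) (nat_lit 209) (nat_lit 205) (nat_lit 156)) (PT.lf (nat_lit 20672) (nat_lit 6) (nat_lit 272) (nat_lit 0) (nat_lit 210) (nat_lit 205) (nat_lit 155))) (PT.nd (nat_lit 78) (PT.lf (nat_lit 19912) (nat_lit 6) (nat_lit 262) (nat_lit 0) (nat_lit 211) (nat_lit 205) (nat_lit 154)) (PT.lf (nat_lit 19228) (nat_lit 6) (nat_lit 253) (nat_lit 0) (nat_lit 212) (nat_lit 205) (nat_lit 153)))) (PT.nd (nat_lit 156) (PT.nd (nat_lit 78) (PT.lf (nat_lit 18544) (nat_lit 6) (nat_lit 244) (nat_lit 0) (nat_lit 213) (nat_lit 205) (nat_lit 152)) (PT.lf (nat_lit 17860) (nat_lit 6) (nat_lit 235) (nat_lit 0) (nat_lit 214) (nat_lit 205) (nat_lit 151))) (PT.nd (nat_lit 78) (PT.lf (nat_lit 17176) (nat_lit 6) (nat_lit 226) (nat_lit 0)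 (nat_lit 215) (nat_lit 205) (nat_lit 150)) (PT.lf (nat_lit 16568) (nat_lit 6) (nat_lit 218) (nat_lit 0) (nat_lit 216) (nat_lit 205) (nat_lit 149))))))) (PT.nd (nat_lit 54756) (PT.nd (nat_lit 54132) (PT.nd (nat_lit 53820) (PT.nd (nat_lit 78) (PT.lf (nat_lit 15884) (nat_lit 6) (nat_lit 209) (nat_lit 0) (nat_lit 217) (nat_lit 205) (nat_lit 148)) (PT.nd (nat_lit 53664) (PT.lf (nat_lit 15276) (nat_lit 6) (nat_lit 201) (nat_lit 0) (nat_lit 218) (nat_lit 205) (nat_lit 147)) (PT.lf (nat_lit 14212) (nat_lit 6) (nat_lit 187) (nat_lit 5) (nat_lit 145) (nat_lit 206) (nat_lit 219)))) (PT.nd (nat_lit 156) (PT.nd (nat_lit 78) (PT.lf (nat_lit 14744) (nat_lit 6) (nat_lit 194) (nat_lit 5) (nat_lit 146) (nat_lit 206) (nat_lit 218)) (PT.lf (nat_lit 15352) (nat_lit 6) (nat_lit 202) (nat_lit 5) (nat_lit 147) (nat_lit 206) (nat_lit 217))) (PT.nd (nat_lit 78) (PT.lf (nat_lit 15960) (nat_lit 6) (nat_lit 210) (nat_lit 5) (nat_lit 148) (nat_lit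 206) (nat_lit 216)) (PT.lf (nat_lit 16644) (nat_lit 6) (nat_lit 219) (nat_lit 5) (nat_lit 149) (nat_lit 206) (nat_lit 215))))) (PT.nd (nat_lit 312) (PT.nd (nat_lit 156) (PT.nd (nat_lit 78) (PT.lf (nat_lit 17252) (nat_lit 6) (nat_lit 227) (nat_lit 5) (nat_lit 150) (nat_lit 206) (nat_lit 214)) (PT.lf (nat_lit 17936) (nat_lit 6) (nat_lit 236) (nat_lit 5) (nat_lit 151) (nat_lit 206) (nat_lit 213))) (PT.nd (nat_lit 78) (PT.lf (nat_lit 18620) (nat_lit 6) (nat_lit 245) (nat_lit 5) (nat_lit 152) (nat_lit 206) (nat_lit 212)) (PT.lf (nat_lit 19304) (nat_lit 6) (nat_lit 254) (nat_lit 5) (nat_lit 153) (nat_lit 206) (nat_lit 211)))) (PT.nd (nat_lit 156) (PT.nd (nat_lit 78) (PT.lf (nat_lit 19988) (nat_lit 6) (nat_lit 263) (nat_lit 5) (nat_lit 154) (nat_lit 206) (nat_lit 210)) (PT.lf (nat_lit 20748) (nat_lit 6) (nat_lit 273) (nat_lit 5) (nat_lit 155) (nat_lit 206) (nat_lit 209))) (PT.nd (nat_lit 78) (PT.lf (nat_lit 21508) (nat_lit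 6) (nat_lit 283) (nat_lit 5) (nat_lit 156) (nat_lit 206) (nat_lit 208)) (PT.lf (nat_lit 22344) (nat_lit 6) (nat_lit 294) (nat_lit 5) (nat_lit 157) (nat_lit 206) (nat_lit 207)))))) (PT.nd (nat_lit 546) (PT.nd (nat_lit 234) (PT.nd (nat_lit 78) (PT.lf (nat_lit 23104) (nat_lit 3) (nat_lit 304) (nat_lit 4) (nat_lit 158) (nat_lit 206) (nat_lit 206)) (PT.nd (nat_lit 78) (PT.lf (nat_lit 23864) (nat_lit 6) (nat_lit 314) (nat_lit 4) (nat_lit 159) (nat_lit 206) (nat_lit 205)) (PT.lf (nat_lit 24624) (nat_lit 6) (nat_lit 324) (nat_lit 4) (nat_lit 160) (nat_lit 206) (nat_lit 204)))) (PT.nd (nat_lit 156) (PT.nd (nat_lit 78) (PT.lf (nat_lit 25460) (nat_lit 6) (nat_lit 335) (nat_lit 4) (nat_lit 161) (nat_lit 206) (nat_lit 203)) (PT.lf (nat_lit 26296) (nat_lit 6) (nat_lit 346) (nat_lit 4) (nat_lit 162) (nat_lit 206) (nat_lit 202))) (PT.nd (nat_lit 78) (PT.lf (nat_lit 27132) (nat_lit 6) (nat_lit 357) (nat_lit 4) (nat_lit 163) (nat_lit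 206) (nat_lit 201)) (PT.lf (nat_lit 27968) (nat_lit 6) (nat_lit 368) (nat_lit 4) (nat_lit 164) (nat_lit 206) (nat_lit 200))))) (PT.nd (nat_lit 312) (PT.nd (nat_lit 156) (PT.nd (nat_lit 78) (PT.lf (nat_lit 28880) (nat_lit 6) (nat_lit 380) (nat_lit 4) (nat_lit 165) (nat_lit 206) (nat_lit 199)) (PT.lf (nat_lit 29944) (nat_lit 6) (nat_lit 394) (nat_lit 4) (nat_lit 166) (nat_lit 206) (nat_lit 198))) (PT.nd (nat_lit 78) (PT.lf (nat_lit 31692) (nat_lit 6) (nat_lit 417) (nat_lit 4) (nat_lit 167) (nat_lit 206) (nat_lit 197)) (PT.lf (nat_lit 33364) (nat_lit 6) (nat_lit 439) (nat_lit 4) (nat_lit 168) (nat_lit 206) (nat_lit 196)))) (PT.nd (nat_lit 156) (PT.nd (nat_lit 78) (PT.lf (nat_lit 34960) (nat_lit 6) (nat_lit 460) (nat_lit 4) (nat_lit 169) (nat_lit 206) (nat_lit 195)) (PT.lf (nat_lit 36480) (nat_lit 6) (nat_lit 480) (nat_lit 4) (nat_lit 170) (nat_lit 206) (nat_lit 194))) (PT.nd (nat_lit 78) (PT.lf (nat_lit 37924) (nat_lit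 6) (nat_lit 499) (nat_lit 4) (nat_lit 171) (nat_lit 206) (nat_lit 193)) (PT.lf (nat_lit 39292) (nat_lit 6) (nat_lit 517) (nat_lit 4) (nat_lit 172) (nat_lit 206) (nat_lit 192))))))))
noncomputable def pc42 : PT := (PT.nd (nat_lit 2340) (PT.nd (nat_lit 1170) (PT.nd (nat_lit 546) (PT.nd (nat_lit 234) (PT.nd (nat_lit 78) (PT.lf (nat_lit 40584) (nat_lit 6) (nat_lit 534) (nat_lit 4) (nat_lit 173) (nat_lit 206) (nat_lit 191)) (PT.nd (nat_lit 78) (PT.lf (nat_lit 41800) (nat_lit 6) (nat_lit 550) (nat_lit 4) (nat_lit 174) (nat_lit 206) (nat_lit 190)) (PT.lf (nat_lit 41724) (nat_lit 6) (nat_lit 549) (nat_lit 4) (nat_lit 175) (nat_lit 206) (nat_lit 189)))) (PT.nd (nat_lit 156) (PT.nd (nat_lit 78) (PT.lf (nat_lit 41648) (nat_lit 6) (nat_lit 548) (nat_lit 4) (nat_lit 176) (nat_lit 206) (nat_lit 188)) (PT.lf (nat_lit 41572) (nat_lit 6) (nat_lit 547) (nat_lit 4) (nat_lit 177) (nat_lit 206) (nat_lit 187))) (PT.nd (nat_lit 78) (PT.lf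 (nat_lit 41496) (nat_lit 6) (nat_lit 546) (nat_lit 4) (nat_lit 178) (nat_lit 206) (nat_lit 186)) (PT.lf (nat_lit 41420) (nat_lit 6) (nat_lit 545) (nat_lit 4) (nat_lit 179) (nat_lit 206) (nat_lit 185))))) (PT.nd (nat_lit 312) (PT.nd (nat_lit 156) (PT.nd (nat_lit 78) (PT.lf (nat_lit 41344) (nat_lit 6) (nat_lit 544) (nat_lit 4) (nat_lit 180) (nat_lit 206) (nat_lit 184)) (PT.lf (nat_lit 41268) (nat_lit 6) (nat_lit 543) (nat_lit 4) (nat_lit 181) (nat_lit 206) (nat_lit 183))) (PT.nd (nat_lit 78) (PT.lf (nat_lit 41192) (nat_lit 3) (nat_lit 542) (nat_lit 2) (nat_lit 182) (nat_lit 206) (nat_lit 182)) (PT.lf (nat_lit 41268) (nat_lit 6) (nat_lit 543) (nat_lit 2) (nat_lit 183) (nat_lit 206) (nat_lit 181)))) (PT.nd (nat_lit 156) (PT.nd (nat_lit 78) (PT.lf (nat_lit 41344) (nat_lit 6) (nat_lit 544) (nat_lit 2) (nat_lit 184) (nat_lit 206) (nat_lit 180)) (PT.lf (nat_lit 41420) (nat_lit 6) (nat_lit 545) (nat_lit 2) (nat_lit 185) (nat_lit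 206) (nat_lit 179))) (PT.nd (nat_lit 78) (PT.lf (nat_lit 41496) (nat_lit 6) (nat_lit 546) (nat_lit 2) (nat_lit 186) (nat_lit 206) (nat_lit 178)) (PT.lf (nat_lit 41572) (nat_lit 6) (nat_lit 547) (nat_lit 2) (nat_lit 187) (nat_lit 206) (nat_lit 177)))))) (PT.nd (nat_lit 546) (PT.nd (nat_lit 234) (PT.nd (nat_lit 78) (PT.lf (nat_lit 41648) (nat_lit 6) (nat_lit 548) (nat_lit 2) (nat_lit 188) (nat_lit 206) (nat_lit 176)) (PT.nd (nat_lit 78) (PT.lf (nat_lit 41724) (nat_lit 6) (nat_lit 549) (nat_lit 2) (nat_lit 189) (nat_lit 206) (nat_lit 175)) (PT.lf (nat_lit 41800) (nat_lit 6) (nat_lit 550) (nat_lit 2) (nat_lit 190) (nat_lit 206) (nat_lit 174)))) (PT.nd (nat_lit 156) (PT.nd (nat_lit 78) (PT.lf (nat_lit 40584) (nat_lit 6) (nat_lit 534) (nat_lit 2) (nat_lit 191) (nat_lit 206) (nat_lit 173)) (PT.lf (nat_lit 39292) (nat_lit 6) (nat_lit 517) (nat_lit 2) (nat_lit 192) (nat_lit 206) (nat_lit 172))) (PT.nd (nat_lit 78) (PT.lf (nat_lit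 37924) (nat_lit 6) (nat_lit 499) (nat_lit 2) (nat_lit 193) (nat_lit 206) (nat_lit 171)) (PT.lf (nat_lit 36480) (nat_lit 6) (nat_lit 480) (nat_lit 2) (nat_lit 194) (nat_lit 206) (nat_lit 170))))) (PT.nd (nat_lit 312) (PT.nd (nat_lit 156) (PT.nd (nat_lit 78) (PT.lf (nat_lit 34960) (nat_lit 6) (nat_lit 460) (nat_lit 2) (nat_lit 195) (nat_lit 206) (nat_lit 169)) (PT.lf (nat_lit 33364) (nat_lit 6) (nat_lit 439) (nat_lit 2) (nat_lit 196) (nat_lit 206) (nat_lit 168))) (PT.nd (nat_lit 78) (PT.lf (nat_lit 31692) (nat_lit 6) (nat_lit 417) (nat_lit 2) (nat_lit 197) (nat_lit 206) (nat_lit 167)) (PT.lf (nat_lit 29944) (nat_lit 6) (nat_lit 394) (nat_lit 2) (nat_lit 198) (nat_lit 206) (nat_lit 166)))) (PT.nd (nat_lit 156) (PT.nd (nat_lit 78) (PT.lf (nat_lit 28880) (nat_lit 6) (nat_lit 380) (nat_lit 2) (nat_lit 199) (nat_lit 206) (nat_lit 165)) (PT.lf (nat_lit 27968) (nat_lit 6) (nat_lit 368) (nat_lit 2) (nat_lit 200) (nat_lit 206)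 (nat_lit 164))) (PT.nd (nat_lit 78) (PT.lf (nat_lit 27132) (nat_lit 6) (nat_lit 357) (nat_lit 2) (nat_lit 201) (nat_lit 206) (nat_lit 163)) (PT.lf (nat_lit 26296) (nat_lit 6) (nat_lit 346) (nat_lit 2) (nat_lit 202) (nat_lit 206) (nat_lit 162))))))) (PT.nd (nat_lit 1170) (PT.nd (nat_lit 546) (PT.nd (nat_lit 234) (PT.nd (nat_lit 78) (PT.lf (nat_lit 25460) (nat_lit 6) (nat_lit 335) (nat_lit 2) (nat_lit 203) (nat_lit 206) (nat_lit 161)) (PT.nd (nat_lit 78) (PT.lf (nat_lit 24624) (nat_lit 6) (nat_lit 324) (nat_lit 2) (nat_lit 204) (nat_lit 206) (nat_lit 160)) (PT.lf (nat_lit 23864) (nat_lit 6) (nat_lit 314) (nat_lit 2) (nat_lit 205) (nat_lit 206) (nat_lit 159)))) (PT.nd (nat_lit 156) (PT.nd (nat_lit 78) (PT.lf (nat_lit 23104) (nat_lit 3) (nat_lit 304) (nat_lit 0) (nat_lit 206) (nat_lit 206) (nat_lit 158)) (PT.lf (nat_lit 22344) (nat_lit 6) (nat_lit 294) (nat_lit 0) (nat_lit 207) (nat_lit 206) (nat_lit 157))) (PT.nd (nat_lit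 78) (PT.lf (nat_lit 21508) (nat_lit 6) (nat_lit 283) (nat_lit 0) (nat_lit 208) (nat_lit 206) (nat_lit 156)) (PT.lf (nat_lit 20748) (nat_lit 6) (nat_lit 273) (nat_lit 0) (nat_lit 209) (nat_lit 206) (nat_lit 155))))) (PT.nd (nat_lit 312) (PT.nd (nat_lit 156) (PT.nd (nat_lit 78) (PT.lf (nat_lit 19988) (nat_lit 6) (nat_lit 263) (nat_lit 0) (nat_lit 210) (nat_lit 206) (nat_lit 154)) (PT.lf (nat_lit 19304) (nat_lit 6) (nat_lit 254) (nat_lit 0) (nat_lit 211) (nat_lit 206) (nat_lit 153))) (PT.nd (nat_lit 78) (PT.lf (nat_lit 18620) (nat_lit 6) (nat_lit 245) (nat_lit 0) (nat_lit 212) (nat_lit 206) (nat_lit 152)) (PT.lf (nat_lit 17936) (nat_lit 6) (nat_lit 236) (nat_lit 0) (nat_lit 213) (nat_lit 206) (nat_lit 151)))) (PT.nd (nat_lit 156) (PT.nd (nat_lit 78) (PT.lf (nat_lit 17252) (nat_lit 6) (nat_lit 227) (nat_lit 0) (nat_lit 214) (nat_lit 206) (nat_lit 150)) (PT.lf (nat_lit 16644) (nat_lit 6) (nat_lit 219) (nat_lit 0) (nat_lit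 215) (nat_lit 206) (nat_lit 149))) (PT.nd (nat_lit 78) (PT.lf (nat_lit 15960) (nat_lit 6) (nat_lit 210) (nat_lit 0) (nat_lit 216) (nat_lit 206) (nat_lit 148)) (PT.lf (nat_lit 15352) (nat_lit 6) (nat_lit 202) (nat_lit 0) (nat_lit 217) (nat_lit 206) (nat_lit 147)))))) (PT.nd (nat_lit 53976) (PT.nd (nat_lit 53664) (PT.nd (nat_lit 78) (PT.lf (nat_lit 14744) (nat_lit 6) (nat_lit 194) (nat_lit 0) (nat_lit 218) (nat_lit 206) (nat_lit 146)) (PT.nd (nat_lit 53508) (PT.lf (nat_lit 14212) (nat_lit 6) (nat_lit 187) (nat_lit 0) (nat_lit 219) (nat_lit 206) (nat_lit 145)) (PT.lf (nat_lit 13680) (nat_lit 6) (nat_lit 180) (nat_lit 5) (nat_lit 144) (nat_lit 207) (nat_lit 219)))) (PT.nd (nat_lit 156) (PT.nd (nat_lit 78) (PT.lf (nat_lit 14288) (nat_lit 6) (nat_lit 188) (nat_lit 5) (nat_lit 145) (nat_lit 207) (nat_lit 218)) (PT.lf (nat_lit 14820) (nat_lit 6) (nat_lit 195) (nat_lit 5) (nat_lit 146) (nat_lit 207) (nat_lit 217))) (PT.nd (nat_lit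 78) (PT.lf (nat_lit 15428) (nat_lit 6) (nat_lit 203) (nat_lit 5) (nat_lit 147) (nat_lit 207) (nat_lit 216)) (PT.lf (nat_lit 16036) (nat_lit 6) (nat_lit 211) (nat_lit 5) (nat_lit 148) (nat_lit 207) (nat_lit 215))))) (PT.nd (nat_lit 312) (PT.nd (nat_lit 156) (PT.nd (nat_lit 78) (PT.lf (nat_lit 16720) (nat_lit 6) (nat_lit 220) (nat_lit 5) (nat_lit 149) (nat_lit 207) (nat_lit 214)) (PT.lf (nat_lit 17328) (nat_lit 6) (nat_lit 228) (nat_lit 5) (nat_lit 150) (nat_lit 207) (nat_lit 213))) (PT.nd (nat_lit 78) (PT.lf (nat_lit 18012) (nat_lit 6) (nat_lit 237) (nat_lit 5) (nat_lit 151) (nat_lit 207) (nat_lit 212)) (PT.lf (nat_lit 18696) (nat_lit 6) (nat_lit 246) (nat_lit 5) (nat_lit 152) (nat_lit 207) (nat_lit 211)))) (PT.nd (nat_lit 156) (PT.nd (nat_lit 78) (PT.lf (nat_lit 19380) (nat_lit 6) (nat_lit 255) (nat_lit 5) (nat_lit 153) (nat_lit 207) (nat_lit 210)) (PT.lf (nat_lit 20064) (nat_lit 6) (nat_lit 264) (nat_lit 5) (nat_lit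 154) (nat_lit 207) (nat_lit 209))) (PT.nd (nat_lit 78) (PT.lf (nat_lit 20824) (nat_lit 6) (nat_lit 274) (nat_lit 5) (nat_lit 155) (nat_lit 207) (nat_lit 208)) (PT.lf (nat_lit 21584) (nat_lit 3) (nat_lit 284) (nat_lit 4) (nat_lit 156) (nat_lit 207) (nat_lit 207))))))))
noncomputable def pc43 : PT := (PT.nd (nat_lit 2340) (PT.nd (nat_lit 1170) (PT.nd (nat_lit 546) (PT.nd (nat_lit 234) (PT.nd (nat_lit 78) (PT.lf (nat_lit 22344) (nat_lit 6) (nat_lit 294) (nat_lit 4) (nat_lit 157) (nat_lit 207) (nat_lit 206)) (PT.nd (nat_lit 78) (PT.lf (nat_lit 23028) (nat_lit 6) (nat_lit 303) (nat_lit 4) (nat_lit 158) (nat_lit 207) (nat_lit 205)) (PT.lf (nat_lit 23788) (nat_lit 6) (nat_lit 313) (nat_lit 4) (nat_lit 159) (nat_lit 207) (nat_lit 204)))) (PT.nd (nat_lit 156) (PT.nd (nat_lit 78) (PT.lf (nat_lit 24548) (nat_lit 6) (nat_lit 323) (nat_lit 4) (nat_lit 160) (nat_lit 207) (nat_lit 203)) (PT.lf (nat_lit 25384) (nat_lit 6) (nat_lit 334)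 (nat_lit 4) (nat_lit 161) (nat_lit 207) (nat_lit 202))) (PT.nd (nat_lit 78) (PT.lf (nat_lit 26220) (nat_lit 6) (nat_lit 345) (nat_lit 4) (nat_lit 162) (nat_lit 207) (nat_lit 201)) (PT.lf (nat_lit 27056) (nat_lit 6) (nat_lit 356) (nat_lit 4) (nat_lit 163) (nat_lit 207) (nat_lit 200))))) (PT.nd (nat_lit 312) (PT.nd (nat_lit 156) (PT.nd (nat_lit 78) (PT.lf (nat_lit 27892) (nat_lit 6) (nat_lit 367) (nat_lit 4) (nat_lit 164) (nat_lit 207) (nat_lit 199)) (PT.lf (nat_lit 28804) (nat_lit 6) (nat_lit 379) (nat_lit 4) (nat_lit 165) (nat_lit 207) (nat_lit 198))) (PT.nd (nat_lit 78) (PT.lf (nat_lit 29868) (nat_lit 6) (nat_lit 393) (nat_lit 4) (nat_lit 166) (nat_lit 207) (nat_lit 197)) (PT.lf (nat_lit 31616) (nat_lit 6) (nat_lit 416) (nat_lit 4) (nat_lit 167) (nat_lit 207) (nat_lit 196)))) (PT.nd (nat_lit 156) (PT.nd (nat_lit 78) (PT.lf (nat_lit 33288) (nat_lit 6) (nat_lit 438) (nat_lit 4) (nat_lit 168) (nat_lit 207) (nat_lit 195))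 (PT.lf (nat_lit 34884) (nat_lit 6) (nat_lit 459) (nat_lit 4) (nat_lit 169) (nat_lit 207) (nat_lit 194))) (PT.nd (nat_lit 78) (PT.lf (nat_lit 36404) (nat_lit 6) (nat_lit 479) (nat_lit 4) (nat_lit 170) (nat_lit 207) (nat_lit 193)) (PT.lf (nat_lit 37848) (nat_lit 6) (nat_lit 498) (nat_lit 4) (nat_lit 171) (nat_lit 207) (nat_lit 192)))))) (PT.nd (nat_lit 546) (PT.nd (nat_lit 234) (PT.nd (nat_lit 78) (PT.lf (nat_lit 39216) (nat_lit 6) (nat_lit 516) (nat_lit 4) (nat_lit 172) (nat_lit 207) (nat_lit 191)) (PT.nd (nat_lit 78) (PT.lf (nat_lit 40508) (nat_lit 6) (nat_lit 533) (nat_lit 4) (nat_lit 173) (nat_lit 207) (nat_lit 190)) (PT.lf (nat_lit 40432) (nat_lit 6) (nat_lit 532) (nat_lit 4) (nat_lit 174) (nat_lit 207) (nat_lit 189)))) (PT.nd (nat_lit 156) (PT.nd (nat_lit 78) (PT.lf (nat_lit 40356) (nat_lit 6) (nat_lit 531) (nat_lit 4) (nat_lit 175) (nat_lit 207) (nat_lit 188)) (PT.lf (nat_lit 40280) (nat_lit 6) (nat_lit 530) (nat_lit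 4) (nat_lit 176) (nat_lit 207) (nat_lit 187))) (PT.nd (nat_lit 78) (PT.lf (nat_lit 40204) (nat_lit 6) (nat_lit 529) (nat_lit 4) (nat_lit 177) (nat_lit 207) (nat_lit 186)) (PT.lf (nat_lit 40128) (nat_lit 6) (nat_lit 528) (nat_lit 4) (nat_lit 178) (nat_lit 207) (nat_lit 185))))) (PT.nd (nat_lit 312) (PT.nd (nat_lit 156) (PT.nd (nat_lit 78) (PT.lf (nat_lit 40052) (nat_lit 6) (nat_lit 527) (nat_lit 4) (nat_lit 179) (nat_lit 207) (nat_lit 184)) (PT.lf (nat_lit 39976) (nat_lit 6) (nat_lit 526) (nat_lit 4) (nat_lit 180) (nat_lit 207) (nat_lit 183))) (PT.nd (nat_lit 78) (PT.lf (nat_lit 39900) (nat_lit 6) (nat_lit 525) (nat_lit 4) (nat_lit 181) (nat_lit 207) (nat_lit 182)) (PT.lf (nat_lit 39900) (nat_lit 6) (nat_lit 525) (nat_lit 2) (nat_lit 182) (nat_lit 207) (nat_lit 181)))) (PT.nd (nat_lit 156) (PT.nd (nat_lit 78) (PT.lf (nat_lit 39976) (nat_lit 6) (nat_lit 526) (nat_lit 2) (nat_lit 183) (nat_lit 207) (nat_lit 180)) (PT.lf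 (nat_lit 40052) (nat_lit 6) (nat_lit 527) (nat_lit 2) (nat_lit 184) (nat_lit 207) (nat_lit 179))) (PT.nd (nat_lit 78) (PT.lf (nat_lit 40128) (nat_lit 6) (nat_lit 528) (nat_lit 2) (nat_lit 185) (nat_lit 207) (nat_lit 178)) (PT.lf (nat_lit 40204) (nat_lit 6) (nat_lit 529) (nat_lit 2) (nat_lit 186) (nat_lit 207) (nat_lit 177))))))) (PT.nd (nat_lit 1170) (PT.nd (nat_lit 546) (PT.nd (nat_lit 234) (PT.nd (nat_lit 78) (PT.lf (nat_lit 40280) (nat_lit 6) (nat_lit 530) (nat_lit 2) (nat_lit 187) (nat_lit 207) (nat_lit 176)) (PT.nd (nat_lit 78) (PT.lf (nat_lit 40356) (nat_lit 6) (nat_lit 531) (nat_lit 2) (nat_lit 188) (nat_lit 207) (nat_lit 175)) (PT.lf (nat_lit 40432) (nat_lit 6) (nat_lit 532) (nat_lit 2) (nat_lit 189) (nat_lit 207) (nat_lit 174)))) (PT.nd (nat_lit 156) (PT.nd (nat_lit 78) (PT.lf (nat_lit 40508) (nat_lit 6) (nat_lit 533) (nat_lit 2) (nat_lit 190) (nat_lit 207) (nat_lit 173)) (PT.lf (nat_lit 39216) (nat_lit 6) (nat_lit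 516) (nat_lit 2) (nat_lit 191) (nat_lit 207) (nat_lit 172))) (PT.nd (nat_lit 78) (PT.lf (nat_lit 37848) (nat_lit 6) (nat_lit 498) (nat_lit 2) (nat_lit 192) (nat_lit 207) (nat_lit 171)) (PT.lf (nat_lit 36404) (nat_lit 6) (nat_lit 479) (nat_lit 2) (nat_lit 193) (nat_lit 207) (nat_lit 170))))) (PT.nd (nat_lit 312) (PT.nd (nat_lit 156) (PT.nd (nat_lit 78) (PT.lf (nat_lit 34884) (nat_lit 6) (nat_lit 459) (nat_lit 2) (nat_lit 194) (nat_lit 207) (nat_lit 169)) (PT.lf (nat_lit 33288) (nat_lit 6) (nat_lit 438) (nat_lit 2) (nat_lit 195) (nat_lit 207) (nat_lit 168))) (PT.nd (nat_lit 78) (PT.lf (nat_lit 31616) (nat_lit 6) (nat_lit 416) (nat_lit 2) (nat_lit 196) (nat_lit 207) (nat_lit 167)) (PT.lf (nat_lit 29868) (nat_lit 6) (nat_lit 393) (nat_lit 2) (nat_lit 197) (nat_lit 207) (nat_lit 166)))) (PT.nd (nat_lit 156) (PT.nd (nat_lit 78) (PT.lf (nat_lit 28804) (nat_lit 6) (nat_lit 379) (nat_lit 2) (nat_lit 198) (nat_lit 207) (nat_lit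 165)) (PT.lf (nat_lit 27892) (nat_lit 6) (nat_lit 367) (nat_lit 2) (nat_lit 199) (nat_lit 207) (nat_lit 164))) (PT.nd (nat_lit 78) (PT.lf (nat_lit 27056) (nat_lit 6) (nat_lit 356) (nat_lit 2) (nat_lit 200) (nat_lit 207) (nat_lit 163)) (PT.lf (nat_lit 26220) (nat_lit 6) (nat_lit 345) (nat_lit 2) (nat_lit 201) (nat_lit 207) (nat_lit 162)))))) (PT.nd (nat_lit 624) (PT.nd (nat_lit 312) (PT.nd (nat_lit 156) (PT.nd (nat_lit 78) (PT.lf (nat_lit 25384) (nat_lit 6) (nat_lit 334) (nat_lit 2) (nat_lit 202) (nat_lit 207) (nat_lit 161)) (PT.lf (nat_lit 24548) (nat_lit 6) (nat_lit 323) (nat_lit 2) (nat_lit 203) (nat_lit 207) (nat_lit 160))) (PT.nd (nat_lit 78) (PT.lf (nat_lit 23788) (nat_lit 6) (nat_lit 313) (nat_lit 2) (nat_lit 204) (nat_lit 207) (nat_lit 159)) (PT.lf (nat_lit 23028) (nat_lit 6) (nat_lit 303) (nat_lit 2) (nat_lit 205) (nat_lit 207) (nat_lit 158)))) (PT.nd (nat_lit 156) (PT.nd (nat_lit 78) (PT.lf (nat_lit 22344) (nat_lit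 6) (nat_lit 294) (nat_lit 2) (nat_lit 206) (nat_lit 207) (nat_lit 157)) (PT.lf (nat_lit 21584) (nat_lit 3) (nat_lit 284) (nat_lit 0) (nat_lit 207) (nat_lit 207) (nat_lit 156))) (PT.nd (nat_lit 78) (PT.lf (nat_lit 20824) (nat_lit 6) (nat_lit 274) (nat_lit 0) (nat_lit 208) (nat_lit 207) (nat_lit 155)) (PT.lf (nat_lit 20064) (nat_lit 6) (nat_lit 264) (nat_lit 0) (nat_lit 209) (nat_lit 207) (nat_lit 154))))) (PT.nd (nat_lit 312) (PT.nd (nat_lit 156) (PT.nd (nat_lit 78) (PT.lf (nat_lit 19380) (nat_lit 6) (nat_lit 255) (nat_lit 0) (nat_lit 210) (nat_lit 207) (nat_lit 153)) (PT.lf (nat_lit 18696) (nat_lit 6) (nat_lit 246) (nat_lit 0) (nat_lit 211) (nat_lit 207) (nat_lit 152))) (PT.nd (nat_lit 78) (PT.lf (nat_lit 18012) (nat_lit 6) (nat_lit 237) (nat_lit 0) (nat_lit 212) (nat_lit 207) (nat_lit 151)) (PT.lf (nat_lit 17328) (nat_lit 6) (nat_lit 228) (nat_lit 0) (nat_lit 213) (nat_lit 207) (nat_lit 150)))) (PT.nd (nat_lit 156)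 (PT.nd (nat_lit 78) (PT.lf (nat_lit 16720) (nat_lit 6) (nat_lit 220) (nat_lit 0) (nat_lit 214) (nat_lit 207) (nat_lit 149)) (PT.lf (nat_lit 16036) (nat_lit 6) (nat_lit 211) (nat_lit 0) (nat_lit 215) (nat_lit 207) (nat_lit 148))) (PT.nd (nat_lit 78) (PT.lf (nat_lit 15428) (nat_lit 6) (nat_lit 203) (nat_lit 0) (nat_lit 216) (nat_lit 207) (nat_lit 147)) (PT.lf (nat_lit 14820) (nat_lit 6) (nat_lit 195) (nat_lit 0) (nat_lit 217) (nat_lit 207) (nat_lit 146))))))))
noncomputable def pc44 : PT := (PT.nd (nat_lit 55614) (PT.nd (nat_lit 54444) (PT.nd (nat_lit 53820) (PT.nd (nat_lit 53508) (PT.nd (nat_lit 78) (PT.lf (nat_lit 14288) (nat_lit 6) (nat_lit 188) (nat_lit 0) (nat_lit 218) (nat_lit 207) (nat_lit 145)) (PT.nd (nat_lit 53352) (PT.lf (nat_lit 13680) (nat_lit 6) (nat_lit 180) (nat_lit 0) (nat_lit 219) (nat_lit 207) (nat_lit 144)) (PT.lf (nat_lit 12692) (nat_lit 6) (nat_lit 167) (nat_lit 5) (nat_lit 142) (nat_lit 208) (nat_lit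 220)))) (PT.nd (nat_lit 156) (PT.nd (nat_lit 78) (PT.lf (nat_lit 13224) (nat_lit 6) (nat_lit 174) (nat_lit 5) (nat_lit 143) (nat_lit 208) (nat_lit 219)) (PT.lf (nat_lit 13756) (nat_lit 6) (nat_lit 181) (nat_lit 5) (nat_lit 144) (nat_lit 208) (nat_lit 218))) (PT.nd (nat_lit 78) (PT.lf (nat_lit 14364) (nat_lit 6) (nat_lit 189) (nat_lit 5) (nat_lit 145) (nat_lit 208) (nat_lit 217)) (PT.lf (nat_lit 14896) (nat_lit 6) (nat_lit 196) (nat_lit 5) (nat_lit 146) (nat_lit 208) (nat_lit 216))))) (PT.nd (nat_lit 312) (PT.nd (nat_lit 156) (PT.nd (nat_lit 78) (PT.lf (nat_lit 15504) (nat_lit 6) (nat_lit 204) (nat_lit 5) (nat_lit 147) (nat_lit 208) (nat_lit 215)) (PT.lf (nat_lit 16112) (nat_lit 6) (nat_lit 212) (nat_lit 5) (nat_lit 148) (nat_lit 208) (nat_lit 214))) (PT.nd (nat_lit 78) (PT.lf (nat_lit 16796) (nat_lit 6) (nat_lit 221) (nat_lit 5) (nat_lit 149) (nat_lit 208) (nat_lit 213)) (PT.lf (nat_lit 17404) (nat_lit 6) (nat_lit 229)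 (nat_lit 5) (nat_lit 150) (nat_lit 208) (nat_lit 212)))) (PT.nd (nat_lit 156) (PT.nd (nat_lit 78) (PT.lf (nat_lit 18088) (nat_lit 6) (nat_lit 238) (nat_lit 5) (nat_lit 151) (nat_lit 208) (nat_lit 211)) (PT.lf (nat_lit 18772) (nat_lit 6) (nat_lit 247) (nat_lit 5) (nat_lit 152) (nat_lit 208) (nat_lit 210))) (PT.nd (nat_lit 78) (PT.lf (nat_lit 19456) (nat_lit 6) (nat_lit 256) (nat_lit 5) (nat_lit 153) (nat_lit 208) (nat_lit 209)) (PT.lf (nat_lit 20140) (nat_lit 3) (nat_lit 265) (nat_lit 4) (nat_lit 154) (nat_lit 208) (nat_lit 208)))))) (PT.nd (nat_lit 546) (PT.nd (nat_lit 234) (PT.nd (nat_lit 78) (PT.lf (nat_lit 20824) (nat_lit 6) (nat_lit 274) (nat_lit 4) (nat_lit 155) (nat_lit 208) (nat_lit 207)) (PT.nd (nat_lit 78) (PT.lf (nat_lit 21508) (nat_lit 6) (nat_lit 283) (nat_lit 4) (nat_lit 156) (nat_lit 208) (nat_lit 206)) (PT.lf (nat_lit 22268) (nat_lit 6) (nat_lit 293) (nat_lit 4) (nat_lit 157) (nat_lit 208) (nat_lit 205))))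 (PT.nd (nat_lit 156) (PT.nd (nat_lit 78) (PT.lf (nat_lit 22952) (nat_lit 6) (nat_lit 302) (nat_lit 4) (nat_lit 158) (nat_lit 208) (nat_lit 204)) (PT.lf (nat_lit 23712) (nat_lit 6) (nat_lit 312) (nat_lit 4) (nat_lit 159) (nat_lit 208) (nat_lit 203))) (PT.nd (nat_lit 78) (PT.lf (nat_lit 24472) (nat_lit 6) (nat_lit 322) (nat_lit 4) (nat_lit 160) (nat_lit 208) (nat_lit 202)) (PT.lf (nat_lit 25308) (nat_lit 6) (nat_lit 333) (nat_lit 4) (nat_lit 161) (nat_lit 208) (nat_lit 201))))) (PT.nd (nat_lit 312) (PT.nd (nat_lit 156) (PT.nd (nat_lit 78) (PT.lf (nat_lit 26144) (nat_lit 6) (nat_lit 344) (nat_lit 4) (nat_lit 162) (nat_lit 208) (nat_lit 200)) (PT.lf (nat_lit 26980) (nat_lit 6) (nat_lit 355) (nat_lit 4) (nat_lit 163) (nat_lit 208) (nat_lit 199))) (PT.nd (nat_lit 78) (PT.lf (nat_lit 27816) (nat_lit 6) (nat_lit 366) (nat_lit 4) (nat_lit 164) (nat_lit 208) (nat_lit 198)) (PT.lf (nat_lit 28728) (nat_lit 6) (nat_lit 378) (nat_lit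 4) (nat_lit 165) (nat_lit 208) (nat_lit 197)))) (PT.nd (nat_lit 156) (PT.nd (nat_lit 78) (PT.lf (nat_lit 29792) (nat_lit 6) (nat_lit 392) (nat_lit 4) (nat_lit 166) (nat_lit 208) (nat_lit 196)) (PT.lf (nat_lit 31540) (nat_lit 6) (nat_lit 415) (nat_lit 4) (nat_lit 167) (nat_lit 208) (nat_lit 195))) (PT.nd (nat_lit 78) (PT.lf (nat_lit 33212) (nat_lit 6) (nat_lit 437) (nat_lit 4) (nat_lit 168) (nat_lit 208) (nat_lit 194)) (PT.lf (nat_lit 34808) (nat_lit 6) (nat_lit 458) (nat_lit 4) (nat_lit 169) (nat_lit 208) (nat_lit 193))))))) (PT.nd (nat_lit 1170) (PT.nd (nat_lit 546) (PT.nd (nat_lit 234) (PT.nd (nat_lit 78) (PT.lf (nat_lit 36328) (nat_lit 6) (nat_lit 478) (nat_lit 4) (nat_lit 170) (nat_lit 208) (nat_lit 192)) (PT.nd (nat_lit 78) (PT.lf (nat_lit 37772) (nat_lit 6) (nat_lit 497) (nat_lit 4) (nat_lit 171) (nat_lit 208) (nat_lit 191)) (PT.lf (nat_lit 39140) (nat_lit 6) (nat_lit 515) (nat_lit 4) (nat_lit 172) (nat_lit 208)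 (nat_lit 190)))) (PT.nd (nat_lit 156) (PT.nd (nat_lit 78) (PT.lf (nat_lit 39064) (nat_lit 6) (nat_lit 514) (nat_lit 4) (nat_lit 173) (nat_lit 208) (nat_lit 189)) (PT.lf (nat_lit 38988) (nat_lit 6) (nat_lit 513) (nat_lit 4) (nat_lit 174) (nat_lit 208) (nat_lit 188))) (PT.nd (nat_lit 78) (PT.lf (nat_lit 38912) (nat_lit 6) (nat_lit 512) (nat_lit 4) (nat_lit 175) (nat_lit 208) (nat_lit 187)) (PT.lf (nat_lit 38836) (nat_lit 6) (nat_lit 511) (nat_lit 4) (nat_lit 176) (nat_lit 208) (nat_lit 186))))) (PT.nd (nat_lit 312) (PT.nd (nat_lit 156) (PT.nd (nat_lit 78) (PT.lf (nat_lit 38760) (nat_lit 6) (nat_lit 510) (nat_lit 4) (nat_lit 177) (nat_lit 208) (nat_lit 185)) (PT.lf (nat_lit 38684) (nat_lit 6) (nat_lit 509) (nat_lit 4) (nat_lit 178) (nat_lit 208) (nat_lit 184))) (PT.nd (nat_lit 78) (PT.lf (nat_lit 38608) (nat_lit 6) (nat_lit 508) (nat_lit 4) (nat_lit 179) (nat_lit 208) (nat_lit 183)) (PT.lf (nat_lit 38532) (nat_lit 6) (nat_lit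 507) (nat_lit 4) (nat_lit 180) (nat_lit 208) (nat_lit 182)))) (PT.nd (nat_lit 156) (PT.nd (nat_lit 78) (PT.lf (nat_lit 38456) (nat_lit 3) (nat_lit 506) (nat_lit 2) (nat_lit 181) (nat_lit 208) (nat_lit 181)) (PT.lf (nat_lit 38532) (nat_lit 6) (nat_lit 507) (nat_lit 2) (nat_lit 182) (nat_lit 208) (nat_lit 180))) (PT.nd (nat_lit 78) (PT.lf (nat_lit 38608) (nat_lit 6) (nat_lit 508) (nat_lit 2) (nat_lit 183) (nat_lit 208) (nat_lit 179)) (PT.lf (nat_lit 38684) (nat_lit 6) (nat_lit 509) (nat_lit 2) (nat_lit 184) (nat_lit 208) (nat_lit 178)))))) (PT.nd (nat_lit 546) (PT.nd (nat_lit 234) (PT.nd (nat_lit 78) (PT.lf (nat_lit 38760) (nat_lit 6) (nat_lit 510) (nat_lit 2) (nat_lit 185) (nat_lit 208) (nat_lit 177)) (PT.nd (nat_lit 78) (PT.lf (nat_lit 38836) (nat_lit 6) (nat_lit 511) (nat_lit 2) (nat_lit 186) (nat_lit 208) (nat_lit 176)) (PT.lf (nat_lit 38912) (nat_lit 6) (nat_lit 512) (nat_lit 2) (nat_lit 187) (nat_lit 208) (nat_lit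 175)))) (PT.nd (nat_lit 156) (PT.nd (nat_lit 78) (PT.lf (nat_lit 38988) (nat_lit 6) (nat_lit 513) (nat_lit 2) (nat_lit 188) (nat_lit 208) (nat_lit 174)) (PT.lf (nat_lit 39064) (nat_lit 6) (nat_lit 514) (nat_lit 2) (nat_lit 189) (nat_lit 208) (nat_lit 173))) (PT.nd (nat_lit 78) (PT.lf (nat_lit 39140) (nat_lit 6) (nat_lit 515) (nat_lit 2) (nat_lit 190) (nat_lit 208) (nat_lit 172)) (PT.lf (nat_lit 37772) (nat_lit 6) (nat_lit 497) (nat_lit 2) (nat_lit 191) (nat_lit 208) (nat_lit 171))))) (PT.nd (nat_lit 312) (PT.nd (nat_lit 156) (PT.nd (nat_lit 78) (PT.lf (nat_lit 36328) (nat_lit 6) (nat_lit 478) (nat_lit 2) (nat_lit 192) (nat_lit 208) (nat_lit 170)) (PT.lf (nat_lit 34808) (nat_lit 6) (nat_lit 458) (nat_lit 2) (nat_lit 193) (nat_lit 208) (nat_lit 169))) (PT.nd (nat_lit 78) (PT.lf (nat_lit 33212) (nat_lit 6) (nat_lit 437) (nat_lit 2) (nat_lit 194) (nat_lit 208) (nat_lit 168)) (PT.lf (nat_lit 31540) (nat_lit 6) (nat_lit 415)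 (nat_lit 2) (nat_lit 195) (nat_lit 208) (nat_lit 167)))) (PT.nd (nat_lit 156) (PT.nd (nat_lit 78) (PT.lf (nat_lit 29792) (nat_lit 6) (nat_lit 392) (nat_lit 2) (nat_lit 196) (nat_lit 208) (nat_lit 166)) (PT.lf (nat_lit 28728) (nat_lit 6) (nat_lit 378) (nat_lit 2) (nat_lit 197) (nat_lit 208) (nat_lit 165))) (PT.nd (nat_lit 78) (PT.lf (nat_lit 27816) (nat_lit 6) (nat_lit 366) (nat_lit 2) (nat_lit 198) (nat_lit 208) (nat_lit 164)) (PT.lf (nat_lit 26980) (nat_lit 6) (nat_lit 355) (nat_lit 2) (nat_lit 199) (nat_lit 208) (nat_lit 163))))))))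
noncomputable def pc45 : PT := (PT.nd (nat_lit 55458) (PT.nd (nat_lit 1170) (PT.nd (nat_lit 546) (PT.nd (nat_lit 234) (PT.nd (nat_lit 78) (PT.lf (nat_lit 26144) (nat_lit 6) (nat_lit 344) (nat_lit 2) (nat_lit 200) (nat_lit 208) (nat_lit 162)) (PT.nd (nat_lit 78) (PT.lf (nat_lit 25308) (nat_lit 6) (nat_lit 333) (nat_lit 2) (nat_lit 201) (nat_lit 208) (nat_lit 161)) (PT.lf (nat_lit 24472) (nat_lit 6) (nat_lit 322) (nat_lit 2) (nat_lit 202) (nat_lit 208) (nat_lit 160)))) (PT.nd (nat_lit 156) (PT.nd (nat_lit 78) (PT.lf (nat_lit 23712) (nat_lit 6) (nat_lit 312) (nat_lit 2) (nat_lit 203) (nat_lit 208) (nat_lit 159)) (PT.lf (nat_lit 22952) (nat_lit 6) (nat_lit 302) (nat_lit 2) (nat_lit 204) (nat_lit 208) (nat_lit 158))) (PT.nd (nat_lit 78) (PT.lf (nat_lit 22268) (nat_lit 6) (nat_lit 293) (nat_lit 2) (nat_lit 205) (nat_lit 208) (nat_lit 157)) (PT.lf (nat_lit 21508) (nat_lit 6) (nat_lit 283) (nat_lit 2) (nat_lit 206) (nat_lit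 208) (nat_lit 156))))) (PT.nd (nat_lit 312) (PT.nd (nat_lit 156) (PT.nd (nat_lit 78) (PT.lf (nat_lit 20824) (nat_lit 6) (nat_lit 274) (nat_lit 2) (nat_lit 207) (nat_lit 208) (nat_lit 155)) (PT.lf (nat_lit 20140) (nat_lit 3) (nat_lit 265) (nat_lit 0) (nat_lit 208) (nat_lit 208) (nat_lit 154))) (PT.nd (nat_lit 78) (PT.lf (nat_lit 19456) (nat_lit 6) (nat_lit 256) (nat_lit 0) (nat_lit 209) (nat_lit 208) (nat_lit 153)) (PT.lf (nat_lit 18772) (nat_lit 6) (nat_lit 247) (nat_lit 0) (nat_lit 210) (nat_lit 208) (nat_lit 152)))) (PT.nd (nat_lit 156) (PT.nd (nat_lit 78) (PT.lf (nat_lit 18088) (nat_lit 6) (nat_lit 238) (nat_lit 0) (nat_lit 211) (nat_lit 208) (nat_lit 151)) (PT.lf (nat_lit 17404) (nat_lit 6) (nat_lit 229) (nat_lit 0) (nat_lit 212) (nat_lit 208) (nat_lit 150))) (PT.nd (nat_lit 78) (PT.lf (nat_lit 16796) (nat_lit 6) (nat_lit 221) (nat_lit 0) (nat_lit 213) (nat_lit 208) (nat_lit 149)) (PT.lf (nat_lit 16112) (nat_lit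 6) (nat_lit 212) (nat_lit 0) (nat_lit 214) (nat_lit 208) (nat_lit 148)))))) (PT.nd (nat_lit 53664) (PT.nd (nat_lit 234) (PT.nd (nat_lit 78) (PT.lf (nat_lit 15504) (nat_lit 6) (nat_lit 204) (nat_lit 0) (nat_lit 215) (nat_lit 208) (nat_lit 147)) (PT.nd (nat_lit 78) (PT.lf (nat_lit 14896) (nat_lit 6) (nat_lit 196) (nat_lit 0) (nat_lit 216) (nat_lit 208) (nat_lit 146)) (PT.lf (nat_lit 14364) (nat_lit 6) (nat_lit 189) (nat_lit 0) (nat_lit 217) (nat_lit 208) (nat_lit 145)))) (PT.nd (nat_lit 156) (PT.nd (nat_lit 78) (PT.lf (nat_lit 13756) (nat_lit 6) (nat_lit 181) (nat_lit 0) (nat_lit 218) (nat_lit 208) (nat_lit 144)) (PT.lf (nat_lit 13224) (nat_lit 6) (nat_lit 174) (nat_lit 0) (nat_lit 219) (nat_lit 208) (nat_lit 143))) (PT.nd (nat_lit 53196) (PT.lf (nat_lit 12692) (nat_lit 6) (nat_lit 167) (nat_lit 0) (nat_lit 220) (nat_lit 208) (nat_lit 142)) (PT.lf (nat_lit 12236) (nat_lit 6) (nat_lit 161) (nat_lit 5) (nat_lit 141) (nat_lit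 209) (nat_lit 220))))) (PT.nd (nat_lit 312) (PT.nd (nat_lit 156) (PT.nd (nat_lit 78) (PT.lf (nat_lit 12768) (nat_lit 6) (nat_lit 168) (nat_lit 5) (nat_lit 142) (nat_lit 209) (nat_lit 219)) (PT.lf (nat_lit 13300) (nat_lit 6) (nat_lit 175) (nat_lit 5) (nat_lit 143) (nat_lit 209) (nat_lit 218))) (PT.nd (nat_lit 78) (PT.lf (nat_lit 13832) (nat_lit 6) (nat_lit 182) (nat_lit 5) (nat_lit 144) (nat_lit 209) (nat_lit 217)) (PT.lf (nat_lit 14440) (nat_lit 6) (nat_lit 190) (nat_lit 5) (nat_lit 145) (nat_lit 209) (nat_lit 216)))) (PT.nd (nat_lit 156) (PT.nd (nat_lit 78) (PT.lf (nat_lit 14972) (nat_lit 6) (nat_lit 197) (nat_lit 5) (nat_lit 146) (nat_lit 209) (nat_lit 215)) (PT.lf (nat_lit 15580) (nat_lit 6) (nat_lit 205) (nat_lit 5) (nat_lit 147) (nat_lit 209) (nat_lit 214))) (PT.nd (nat_lit 78) (PT.lf (nat_lit 16188) (nat_lit 6) (nat_lit 213) (nat_lit 5) (nat_lit 148) (nat_lit 209) (nat_lit 213)) (PT.lf (nat_lit 16872) (nat_lit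 6) (nat_lit 222) (nat_lit 5) (nat_lit 149) (nat_lit 209) (nat_lit 212))))))) (PT.nd (nat_lit 1170) (PT.nd (nat_lit 546) (PT.nd (nat_lit 234) (PT.nd (nat_lit 78) (PT.lf (nat_lit 17480) (nat_lit 6) (nat_lit 230) (nat_lit 5) (nat_lit 150) (nat_lit 209) (nat_lit 211)) (PT.nd (nat_lit 78) (PT.lf (nat_lit 18164) (nat_lit 6) (nat_lit 239) (nat_lit 5) (nat_lit 151) (nat_lit 209) (nat_lit 210)) (PT.lf (nat_lit 18848) (nat_lit 3) (nat_lit 248) (nat_lit 4) (nat_lit 152) (nat_lit 209) (nat_lit 209)))) (PT.nd (nat_lit 156) (PT.nd (nat_lit 78) (PT.lf (nat_lit 19456) (nat_lit 6) (nat_lit 256) (nat_lit 4) (nat_lit 153) (nat_lit 209) (nat_lit 208)) (PT.lf (nat_lit 20064) (nat_lit 6) (nat_lit 264) (nat_lit 4) (nat_lit 154) (nat_lit 209) (nat_lit 207))) (PT.nd (nat_lit 78) (PT.lf (nat_lit 20748) (nat_lit 6) (nat_lit 273) (nat_lit 4) (nat_lit 155) (nat_lit 209) (nat_lit 206)) (PT.lf (nat_lit 21432) (nat_lit 6) (nat_lit 282) (nat_lit 4)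 (nat_lit 156) (nat_lit 209) (nat_lit 205))))) (PT.nd (nat_lit 312) (PT.nd (nat_lit 156) (PT.nd (nat_lit 78) (PT.lf (nat_lit 22192) (nat_lit 6) (nat_lit 292) (nat_lit 4) (nat_lit 157) (nat_lit 209) (nat_lit 204)) (PT.lf (nat_lit 22876) (nat_lit 6) (nat_lit 301) (nat_lit 4) (nat_lit 158) (nat_lit 209) (nat_lit 203))) (PT.nd (nat_lit 78) (PT.lf (nat_lit 23636) (nat_lit 6) (nat_lit 311) (nat_lit 4) (nat_lit 159) (nat_lit 209) (nat_lit 202)) (PT.lf (nat_lit 24396) (nat_lit 6) (nat_lit 321) (nat_lit 4) (nat_lit 160) (nat_lit 209) (nat_lit 201)))) (PT.nd (nat_lit 156) (PT.nd (nat_lit 78) (PT.lf (nat_lit 25232) (nat_lit 6) (nat_lit 332) (nat_lit 4) (nat_lit 161) (nat_lit 209) (nat_lit 200)) (PT.lf (nat_lit 26068) (nat_lit 6) (nat_lit 343) (nat_lit 4) (nat_lit 162) (nat_lit 209) (nat_lit 199))) (PT.nd (nat_lit 78) (PT.lf (nat_lit 26904) (nat_lit 6) (nat_lit 354) (nat_lit 4) (nat_lit 163) (nat_lit 209) (nat_lit 198)) (PT.lf (nat_lit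 27740) (nat_lit 6) (nat_lit 365) (nat_lit 4) (nat_lit 164) (nat_lit 209) (nat_lit 197)))))) (PT.nd (nat_lit 624) (PT.nd (nat_lit 312) (PT.nd (nat_lit 156) (PT.nd (nat_lit 78) (PT.lf (nat_lit 28652) (nat_lit 6) (nat_lit 377) (nat_lit 4) (nat_lit 165) (nat_lit 209) (nat_lit 196)) (PT.lf (nat_lit 29716) (nat_lit 6) (nat_lit 391) (nat_lit 4) (nat_lit 166) (nat_lit 209) (nat_lit 195))) (PT.nd (nat_lit 78) (PT.lf (nat_lit 31464) (nat_lit 6) (nat_lit 414) (nat_lit 4) (nat_lit 167) (nat_lit 209) (nat_lit 194)) (PT.lf (nat_lit 33136) (nat_lit 6) (nat_lit 436) (nat_lit 4) (nat_lit 168) (nat_lit 209) (nat_lit 193)))) (PT.nd (nat_lit 156) (PT.nd (nat_lit 78) (PT.lf (nat_lit 34732) (nat_lit 6) (nat_lit 457) (nat_lit 4) (nat_lit 169) (nat_lit 209) (nat_lit 192)) (PT.lf (nat_lit 36252) (nat_lit 6) (nat_lit 477) (nat_lit 4) (nat_lit 170) (nat_lit 209) (nat_lit 191))) (PT.nd (nat_lit 78) (PT.lf (nat_lit 37696) (nat_lit 6) (nat_lit 496)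 (nat_lit 4) (nat_lit 171) (nat_lit 209) (nat_lit 190)) (PT.lf (nat_lit 37620) (nat_lit 6) (nat_lit 495) (nat_lit 4) (nat_lit 172) (nat_lit 209) (nat_lit 189))))) (PT.nd (nat_lit 312) (PT.nd (nat_lit 156) (PT.nd (nat_lit 78) (PT.lf (nat_lit 37544) (nat_lit 6) (nat_lit 494) (nat_lit 4) (nat_lit 173) (nat_lit 209) (nat_lit 188)) (PT.lf (nat_lit 37468) (nat_lit 6) (nat_lit 493) (nat_lit 4) (nat_lit 174) (nat_lit 209) (nat_lit 187))) (PT.nd (nat_lit 78) (PT.lf (nat_lit 37392) (nat_lit 6) (nat_lit 492) (nat_lit 4) (nat_lit 175) (nat_lit 209) (nat_lit 186)) (PT.lf (nat_lit 37316) (nat_lit 6) (nat_lit 491) (nat_lit 4) (nat_lit 176) (nat_lit 209) (nat_lit 185)))) (PT.nd (nat_lit 156) (PT.nd (nat_lit 78) (PT.lf (nat_lit 37240) (nat_lit 6) (nat_lit 490) (nat_lit 4) (nat_lit 177) (nat_lit 209) (nat_lit 184)) (PT.lf (nat_lit 37164) (nat_lit 6) (nat_lit 489) (nat_lit 4) (nat_lit 178) (nat_lit 209) (nat_lit 183))) (PT.nd (nat_lit 78)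 (PT.lf (nat_lit 37088) (nat_lit 6) (nat_lit 488) (nat_lit 4) (nat_lit 179) (nat_lit 209) (nat_lit 182)) (PT.lf (nat_lit 37012) (nat_lit 6) (nat_lit 487) (nat_lit 4) (nat_lit 180) (nat_lit 209) (nat_lit 181))))))))
noncomputable def pc46 : PT := (PT.nd (nat_lit 2340) (PT.nd (nat_lit 1170) (PT.nd (nat_lit 546) (PT.nd (nat_lit 234) (PT.nd (nat_lit 78) (PT.lf (nat_lit 37012) (nat_lit 6) (nat_lit 487) (nat_lit 2) (nat_lit 181) (nat_lit 209) (nat_lit 180)) (PT.nd (nat_lit 78) (PT.lf (nat_lit 37088) (nat_lit 6) (nat_lit 488) (nat_lit 2) (nat_lit 182) (nat_lit 209) (nat_lit 179)) (PT.lf (nat_lit 37164) (nat_lit 6) (nat_lit 489) (nat_lit 2) (nat_lit 183) (nat_lit 209) (nat_lit 178)))) (PT.nd (nat_lit 156) (PT.nd (nat_lit 78) (PT.lf (nat_lit 37240) (nat_lit 6) (nat_lit 490) (nat_lit 2) (nat_lit 184) (nat_lit 209) (nat_lit 177)) (PT.lf (nat_lit 37316) (nat_lit 6) (nat_lit 491) (nat_lit 2) (nat_lit 185) (nat_lit 209) (nat_lit 176)))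 (PT.nd (nat_lit 78) (PT.lf (nat_lit 37392) (nat_lit 6) (nat_lit 492) (nat_lit 2) (nat_lit 186) (nat_lit 209) (nat_lit 175)) (PT.lf (nat_lit 37468) (nat_lit 6) (nat_lit 493) (nat_lit 2) (nat_lit 187) (nat_lit 209) (nat_lit 174))))) (PT.nd (nat_lit 312) (PT.nd (nat_lit 156) (PT.nd (nat_lit 78) (PT.lf (nat_lit 37544) (nat_lit 6) (nat_lit 494) (nat_lit 2) (nat_lit 188) (nat_lit 209) (nat_lit 173)) (PT.lf (nat_lit 37620) (nat_lit 6) (nat_lit 495) (nat_lit 2) (nat_lit 189) (nat_lit 209) (nat_lit 172))) (PT.nd (nat_lit 78) (PT.lf (nat_lit 37696) (nat_lit 6) (nat_lit 496) (nat_lit 2) (nat_lit 190) (nat_lit 209) (nat_lit 171)) (PT.lf (nat_lit 36252) (nat_lit 6) (nat_lit 477) (nat_lit 2) (nat_lit 191) (nat_lit 209) (nat_lit 170)))) (PT.nd (nat_lit 156) (PT.nd (nat_lit 78) (PT.lf (nat_lit 34732) (nat_lit 6) (nat_lit 457) (nat_lit 2) (nat_lit 192) (nat_lit 209) (nat_lit 169)) (PT.lf (nat_lit 33136) (nat_lit 6) (nat_lit 436) (nat_lit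 2) (nat_lit 193) (nat_lit 209) (nat_lit 168))) (PT.nd (nat_lit 78) (PT.lf (nat_lit 31464) (nat_lit 6) (nat_lit 414) (nat_lit 2) (nat_lit 194) (nat_lit 209) (nat_lit 167)) (PT.lf (nat_lit 29716) (nat_lit 6) (nat_lit 391) (nat_lit 2) (nat_lit 195) (nat_lit 209) (nat_lit 166)))))) (PT.nd (nat_lit 546) (PT.nd (nat_lit 234) (PT.nd (nat_lit 78) (PT.lf (nat_lit 28652) (nat_lit 6) (nat_lit 377) (nat_lit 2) (nat_lit 196) (nat_lit 209) (nat_lit 165)) (PT.nd (nat_lit 78) (PT.lf (nat_lit 27740) (nat_lit 6) (nat_lit 365) (nat_lit 2) (nat_lit 197) (nat_lit 209) (nat_lit 164)) (PT.lf (nat_lit 26904) (nat_lit 6) (nat_lit 354) (nat_lit 2) (nat_lit 198) (nat_lit 209) (nat_lit 163)))) (PT.nd (nat_lit 156) (PT.nd (nat_lit 78) (PT.lf (nat_lit 26068) (nat_lit 6) (nat_lit 343) (nat_lit 2) (nat_lit 199) (nat_lit 209) (nat_lit 162)) (PT.lf (nat_lit 25232) (nat_lit 6) (nat_lit 332) (nat_lit 2) (nat_lit 200) (nat_lit 209) (nat_lit 161))) (PT.nd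 (nat_lit 78) (PT.lf (nat_lit 24396) (nat_lit 6) (nat_lit 321) (nat_lit 2) (nat_lit 201) (nat_lit 209) (nat_lit 160)) (PT.lf (nat_lit 23636) (nat_lit 6) (nat_lit 311) (nat_lit 2) (nat_lit 202) (nat_lit 209) (nat_lit 159))))) (PT.nd (nat_lit 312) (PT.nd (nat_lit 156) (PT.nd (nat_lit 78) (PT.lf (nat_lit 22876) (nat_lit 6) (nat_lit 301) (nat_lit 2) (nat_lit 203) (nat_lit 209) (nat_lit 158)) (PT.lf (nat_lit 22192) (nat_lit 6) (nat_lit 292) (nat_lit 2) (nat_lit 204) (nat_lit 209) (nat_lit 157))) (PT.nd (nat_lit 78) (PT.lf (nat_lit 21432) (nat_lit 6) (nat_lit 282) (nat_lit 2) (nat_lit 205) (nat_lit 209) (nat_lit 156)) (PT.lf (nat_lit 20748) (nat_lit 6) (nat_lit 273) (nat_lit 2) (nat_lit 206) (nat_lit 209) (nat_lit 155)))) (PT.nd (nat_lit 156) (PT.nd (nat_lit 78) (PT.lf (nat_lit 20064) (nat_lit 6) (nat_lit 264) (nat_lit 2) (nat_lit 207) (nat_lit 209) (nat_lit 154)) (PT.lf (nat_lit 19456) (nat_lit 6) (nat_lit 256) (nat_lit 2)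 (nat_lit 208) (nat_lit 209) (nat_lit 153))) (PT.nd (nat_lit 78) (PT.lf (nat_lit 18848) (nat_lit 3) (nat_lit 248) (nat_lit 0) (nat_lit 209) (nat_lit 209) (nat_lit 152)) (PT.lf (nat_lit 18164) (nat_lit 6) (nat_lit 239) (nat_lit 0) (nat_lit 210) (nat_lit 209) (nat_lit 151))))))) (PT.nd (nat_lit 54132) (PT.nd (nat_lit 546) (PT.nd (nat_lit 234) (PT.nd (nat_lit 78) (PT.lf (nat_lit 17480) (nat_lit 6) (nat_lit 230) (nat_lit 0) (nat_lit 211) (nat_lit 209) (nat_lit 150)) (PT.nd (nat_lit 78) (PT.lf (nat_lit 16872) (nat_lit 6) (nat_lit 222) (nat_lit 0) (nat_lit 212) (nat_lit 209) (nat_lit 149)) (PT.lf (nat_lit 16188) (nat_lit 6) (nat_lit 213) (nat_lit 0) (nat_lit 213) (nat_lit 209) (nat_lit 148)))) (PT.nd (nat_lit 156) (PT.nd (nat_lit 78) (PT.lf (nat_lit 15580) (nat_lit 6) (nat_lit 205) (nat_lit 0) (nat_lit 214) (nat_lit 209) (nat_lit 147)) (PT.lf (nat_lit 14972) (nat_lit 6) (nat_lit 197) (nat_lit 0) (nat_lit 215) (nat_lit 209)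 (nat_lit 146))) (PT.nd (nat_lit 78) (PT.lf (nat_lit 14440) (nat_lit 6) (nat_lit 190) (nat_lit 0) (nat_lit 216) (nat_lit 209) (nat_lit 145)) (PT.lf (nat_lit 13832) (nat_lit 6) (nat_lit 182) (nat_lit 0) (nat_lit 217) (nat_lit 209) (nat_lit 144))))) (PT.nd (nat_lit 53274) (PT.nd (nat_lit 156) (PT.nd (nat_lit 78) (PT.lf (nat_lit 13300) (nat_lit 6) (nat_lit 175) (nat_lit 0) (nat_lit 218) (nat_lit 209) (nat_lit 143)) (PT.lf (nat_lit 12768) (nat_lit 6) (nat_lit 168) (nat_lit 0) (nat_lit 219) (nat_lit 209) (nat_lit 142))) (PT.nd (nat_lit 53040) (PT.lf (nat_lit 12236) (nat_lit 6) (nat_lit 161) (nat_lit 0) (nat_lit 220) (nat_lit 209) (nat_lit 141)) (PT.lf (nat_lit 11324) (nat_lit 6) (nat_lit 149) (nat_lit 5) (nat_lit 139) (nat_lit 210) (nat_lit 221)))) (PT.nd (nat_lit 156) (PT.nd (nat_lit 78) (PT.lf (nat_lit 11780) (nat_lit 6) (nat_lit 155) (nat_lit 5) (nat_lit 140) (nat_lit 210) (nat_lit 220)) (PT.lf (nat_lit 12312) (nat_lit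 6) (nat_lit 162) (nat_lit 5) (nat_lit 141) (nat_lit 210) (nat_lit 219))) (PT.nd (nat_lit 78) (PT.lf (nat_lit 12844) (nat_lit 6) (nat_lit 169) (nat_lit 5) (nat_lit 142) (nat_lit 210) (nat_lit 218)) (PT.lf (nat_lit 13376) (nat_lit 6) (nat_lit 176) (nat_lit 5) (nat_lit 143) (nat_lit 210) (nat_lit 217)))))) (PT.nd (nat_lit 546) (PT.nd (nat_lit 234) (PT.nd (nat_lit 78) (PT.lf (nat_lit 13908) (nat_lit 6) (nat_lit 183) (nat_lit 5) (nat_lit 144) (nat_lit 210) (nat_lit 216)) (PT.nd (nat_lit 78) (PT.lf (nat_lit 14516) (nat_lit 6) (nat_lit 191) (nat_lit 5) (nat_lit 145) (nat_lit 210) (nat_lit 215)) (PT.lf (nat_lit 15048) (nat_lit 6) (nat_lit 198) (nat_lit 5) (nat_lit 146) (nat_lit 210) (nat_lit 214)))) (PT.nd (nat_lit 156) (PT.nd (nat_lit 78) (PT.lf (nat_lit 15656) (nat_lit 6) (nat_lit 206) (nat_lit 5) (nat_lit 147) (nat_lit 210) (nat_lit 213)) (PT.lf (nat_lit 16264) (nat_lit 6) (nat_lit 214) (nat_lit 5) (nat_lit 148) (nat_lit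 210) (nat_lit 212))) (PT.nd (nat_lit 78) (PT.lf (nat_lit 16948) (nat_lit 6) (nat_lit 223) (nat_lit 5) (nat_lit 149) (nat_lit 210) (nat_lit 211)) (PT.lf (nat_lit 17556) (nat_lit 3) (nat_lit 231) (nat_lit 4) (nat_lit 150) (nat_lit 210) (nat_lit 210))))) (PT.nd (nat_lit 312) (PT.nd (nat_lit 156) (PT.nd (nat_lit 78) (PT.lf (nat_lit 18164) (nat_lit 6) (nat_lit 239) (nat_lit 4) (nat_lit 151) (nat_lit 210) (nat_lit 209)) (PT.lf (nat_lit 18772) (nat_lit 6) (nat_lit 247) (nat_lit 4) (nat_lit 152) (nat_lit 210) (nat_lit 208))) (PT.nd (nat_lit 78) (PT.lf (nat_lit 19380) (nat_lit 6) (nat_lit 255) (nat_lit 4) (nat_lit 153) (nat_lit 210) (nat_lit 207)) (PT.lf (nat_lit 19988) (nat_lit 6) (nat_lit 263) (nat_lit 4) (nat_lit 154) (nat_lit 210) (nat_lit 206)))) (PT.nd (nat_lit 156) (PT.nd (nat_lit 78) (PT.lf (nat_lit 20672) (nat_lit 6) (nat_lit 272) (nat_lit 4) (nat_lit 155) (nat_lit 210) (nat_lit 205)) (PT.lf (nat_lit 21356) (nat_lit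 6) (nat_lit 281) (nat_lit 4) (nat_lit 156) (nat_lit 210) (nat_lit 204))) (PT.nd (nat_lit 78) (PT.lf (nat_lit 22116) (nat_lit 6) (nat_lit 291) (nat_lit 4) (nat_lit 157) (nat_lit 210) (nat_lit 203)) (PT.lf (nat_lit 22800) (nat_lit 6) (nat_lit 300) (nat_lit 4) (nat_lit 158) (nat_lit 210) (nat_lit 202))))))))
noncomputable def pc47 : PT := (PT.nd (nat_lit 2340) (PT.nd (nat_lit 1170) (PT.nd (nat_lit 546) (PT.nd (nat_lit 234) (PT.nd (nat_lit 78) (PT.lf (nat_lit 23560) (nat_lit 6) (nat_lit 310) (nat_lit 4) (nat_lit 159) (nat_lit 210) (nat_lit 201)) (PT.nd (nat_lit 78) (PT.lf (nat_lit 24320) (nat_lit 6) (nat_lit 320) (nat_lit 4) (nat_lit 160) (nat_lit 210) (nat_lit 200)) (PT.lf (nat_lit 25156) (nat_lit 6) (nat_lit 331) (nat_lit 4) (nat_lit 161) (nat_lit 210) (nat_lit 199)))) (PT.nd (nat_lit 156) (PT.nd (nat_lit 78) (PT.lf (nat_lit 25992) (nat_lit 6) (nat_lit 342) (nat_lit 4) (nat_lit 162) (nat_lit 210) (nat_lit 198)) (PT.lf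 (nat_lit 26828) (nat_lit 6) (nat_lit 353) (nat_lit 4) (nat_lit 163) (nat_lit 210) (nat_lit 197))) (PT.nd (nat_lit 78) (PT.lf (nat_lit 27664) (nat_lit 6) (nat_lit 364) (nat_lit 4) (nat_lit 164) (nat_lit 210) (nat_lit 196)) (PT.lf (nat_lit 28576) (nat_lit 6) (nat_lit 376) (nat_lit 4) (nat_lit 165) (nat_lit 210) (nat_lit 195))))) (PT.nd (nat_lit 312) (PT.nd (nat_lit 156) (PT.nd (nat_lit 78) (PT.lf (nat_lit 29640) (nat_lit 6) (nat_lit 390) (nat_lit 4) (nat_lit 166) (nat_lit 210) (nat_lit 194)) (PT.lf (nat_lit 31388) (nat_lit 6) (nat_lit 413) (nat_lit 4) (nat_lit 167) (nat_lit 210) (nat_lit 193))) (PT.nd (nat_lit 78) (PT.lf (nat_lit 33060) (nat_lit 6) (nat_lit 435) (nat_lit 4) (nat_lit 168) (nat_lit 210) (nat_lit 192)) (PT.lf (nat_lit 34656) (nat_lit 6) (nat_lit 456) (nat_lit 4) (nat_lit 169) (nat_lit 210) (nat_lit 191)))) (PT.nd (nat_lit 156) (PT.nd (nat_lit 78) (PT.lf (nat_lit 36176) (nat_lit 6) (nat_lit 476) (nat_lit 4)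 (nat_lit 170) (nat_lit 210) (nat_lit 190)) (PT.lf (nat_lit 36100) (nat_lit 6) (nat_lit 475) (nat_lit 4) (nat_lit 171) (nat_lit 210) (nat_lit 189))) (PT.nd (nat_lit 78) (PT.lf (nat_lit 36024) (nat_lit 6) (nat_lit 474) (nat_lit 4) (nat_lit 172) (nat_lit 210) (nat_lit 188)) (PT.lf (nat_lit 35948) (nat_lit 6) (nat_lit 473) (nat_lit 4) (nat_lit 173) (nat_lit 210) (nat_lit 187)))))) (PT.nd (nat_lit 546) (PT.nd (nat_lit 234) (PT.nd (nat_lit 78) (PT.lf (nat_lit 35872) (nat_lit 6) (nat_lit 472) (nat_lit 4) (nat_lit 174) (nat_lit 210) (nat_lit 186)) (PT.nd (nat_lit 78) (PT.lf (nat_lit 35796) (nat_lit 6) (nat_lit 471) (nat_lit 4) (nat_lit 175) (nat_lit 210) (nat_lit 185)) (PT.lf (nat_lit 35720) (nat_lit 6) (nat_lit 470) (nat_lit 4) (nat_lit 176) (nat_lit 210) (nat_lit 184)))) (PT.nd (nat_lit 156) (PT.nd (nat_lit 78) (PT.lf (nat_lit 35644) (nat_lit 6) (nat_lit 469) (nat_lit 4) (nat_lit 177) (nat_lit 210) (nat_lit 183)) (PT.lf (nat_lit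 35568) (nat_lit 6) (nat_lit 468) (nat_lit 4) (nat_lit 178) (nat_lit 210) (nat_lit 182))) (PT.nd (nat_lit 78) (PT.lf (nat_lit 35492) (nat_lit 6) (nat_lit 467) (nat_lit 4) (nat_lit 179) (nat_lit 210) (nat_lit 181)) (PT.lf (nat_lit 35416) (nat_lit 3) (nat_lit 466) (nat_lit 2) (nat_lit 180) (nat_lit 210) (nat_lit 180))))) (PT.nd (nat_lit 312) (PT.nd (nat_lit 156) (PT.nd (nat_lit 78) (PT.lf (nat_lit 35492) (nat_lit 6) (nat_lit 467) (nat_lit 2) (nat_lit 181) (nat_lit 210) (nat_lit 179)) (PT.lf (nat_lit 35568) (nat_lit 6) (nat_lit 468) (nat_lit 2) (nat_lit 182) (nat_lit 210) (nat_lit 178))) (PT.nd (nat_lit 78) (PT.lf (nat_lit 35644) (nat_lit 6) (nat_lit 469) (nat_lit 2) (nat_lit 183) (nat_lit 210) (nat_lit 177)) (PT.lf (nat_lit 35720) (nat_lit 6) (nat_lit 470) (nat_lit 2) (nat_lit 184) (nat_lit 210) (nat_lit 176)))) (PT.nd (nat_lit 156) (PT.nd (nat_lit 78) (PT.lf (nat_lit 35796) (nat_lit 6) (nat_lit 471) (nat_lit 2) (nat_lit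 185) (nat_lit 210) (nat_lit 175)) (PT.lf (nat_lit 35872) (nat_lit 6) (nat_lit 472) (nat_lit 2) (nat_lit 186) (nat_lit 210) (nat_lit 174))) (PT.nd (nat_lit 78) (PT.lf (nat_lit 35948) (nat_lit 6) (nat_lit 473) (nat_lit 2) (nat_lit 187) (nat_lit 210) (nat_lit 173)) (PT.lf (nat_lit 36024) (nat_lit 6) (nat_lit 474) (nat_lit 2) (nat_lit 188) (nat_lit 210) (nat_lit 172))))))) (PT.nd (nat_lit 1170) (PT.nd (nat_lit 546) (PT.nd (nat_lit 234) (PT.nd (nat_lit 78) (PT.lf (nat_lit 36100) (nat_lit 6) (nat_lit 475) (nat_lit 2) (nat_lit 189) (nat_lit 210) (nat_lit 171)) (PT.nd (nat_lit 78) (PT.lf (nat_lit 36176) (nat_lit 6) (nat_lit 476) (nat_lit 2) (nat_lit 190) (nat_lit 210) (nat_lit 170)) (PT.lf (nat_lit 34656) (nat_lit 6) (nat_lit 456) (nat_lit 2) (nat_lit 191) (nat_lit 210) (nat_lit 169)))) (PT.nd (nat_lit 156) (PT.nd (nat_lit 78) (PT.lf (nat_lit 33060) (nat_lit 6) (nat_lit 435) (nat_lit 2) (nat_lit 192) (nat_lit 210) (nat_lit 168))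 (PT.lf (nat_lit 31388) (nat_lit 6) (nat_lit 413) (nat_lit 2) (nat_lit 193) (nat_lit 210) (nat_lit 167))) (PT.nd (nat_lit 78) (PT.lf (nat_lit 29640) (nat_lit 6) (nat_lit 390) (nat_lit 2) (nat_lit 194) (nat_lit 210) (nat_lit 166)) (PT.lf (nat_lit 28576) (nat_lit 6) (nat_lit 376) (nat_lit 2) (nat_lit 195) (nat_lit 210) (nat_lit 165))))) (PT.nd (nat_lit 312) (PT.nd (nat_lit 156) (PT.nd (nat_lit 78) (PT.lf (nat_lit 27664) (nat_lit 6) (nat_lit 364) (nat_lit 2) (nat_lit 196) (nat_lit 210) (nat_lit 164)) (PT.lf (nat_lit 26828) (nat_lit 6) (nat_lit 353) (nat_lit 2) (nat_lit 197) (nat_lit 210) (nat_lit 163))) (PT.nd (nat_lit 78) (PT.lf (nat_lit 25992) (nat_lit 6) (nat_lit 342) (nat_lit 2) (nat_lit 198) (nat_lit 210) (nat_lit 162)) (PT.lf (nat_lit 25156) (nat_lit 6) (nat_lit 331) (nat_lit 2) (nat_lit 199) (nat_lit 210) (nat_lit 161)))) (PT.nd (nat_lit 156) (PT.nd (nat_lit 78) (PT.lf (nat_lit 24320) (nat_lit 6) (nat_lit 320) (nat_lit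 2) (nat_lit 200) (nat_lit 210) (nat_lit 160)) (PT.lf (nat_lit 23560) (nat_lit 6) (nat_lit 310) (nat_lit 2) (nat_lit 201) (nat_lit 210) (nat_lit 159))) (PT.nd (nat_lit 78) (PT.lf (nat_lit 22800) (nat_lit 6) (nat_lit 300) (nat_lit 2) (nat_lit 202) (nat_lit 210) (nat_lit 158)) (PT.lf (nat_lit 22116) (nat_lit 6) (nat_lit 291) (nat_lit 2) (nat_lit 203) (nat_lit 210) (nat_lit 157)))))) (PT.nd (nat_lit 624) (PT.nd (nat_lit 312) (PT.nd (nat_lit 156) (PT.nd (nat_lit 78) (PT.lf (nat_lit 21356) (nat_lit 6) (nat_lit 281) (nat_lit 2) (nat_lit 204) (nat_lit 210) (nat_lit 156)) (PT.lf (nat_lit 20672) (nat_lit 6) (nat_lit 272) (nat_lit 2) (nat_lit 205) (nat_lit 210) (nat_lit 155))) (PT.nd (nat_lit 78) (PT.lf (nat_lit 19988) (nat_lit 6) (nat_lit 263) (nat_lit 2) (nat_lit 206) (nat_lit 210) (nat_lit 154)) (PT.lf (nat_lit 19380) (nat_lit 6) (nat_lit 255) (nat_lit 2) (nat_lit 207) (nat_lit 210) (nat_lit 153)))) (PT.nd (nat_lit 156) (PT.nd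 (nat_lit 78) (PT.lf (nat_lit 18772) (nat_lit 6) (nat_lit 247) (nat_lit 2) (nat_lit 208) (nat_lit 210) (nat_lit 152)) (PT.lf (nat_lit 18164) (nat_lit 6) (nat_lit 239) (nat_lit 2) (nat_lit 209) (nat_lit 210) (nat_lit 151))) (PT.nd (nat_lit 78) (PT.lf (nat_lit 17556) (nat_lit 3) (nat_lit 231) (nat_lit 0) (nat_lit 210) (nat_lit 210) (nat_lit 150)) (PT.lf (nat_lit 16948) (nat_lit 6) (nat_lit 223) (nat_lit 0) (nat_lit 211) (nat_lit 210) (nat_lit 149))))) (PT.nd (nat_lit 312) (PT.nd (nat_lit 156) (PT.nd (nat_lit 78) (PT.lf (nat_lit 16264) (nat_lit 6) (nat_lit 214) (nat_lit 0) (nat_lit 212) (nat_lit 210) (nat_lit 148)) (PT.lf (nat_lit 15656) (nat_lit 6) (nat_lit 206) (nat_lit 0) (nat_lit 213) (nat_lit 210) (nat_lit 147))) (PT.nd (nat_lit 78) (PT.lf (nat_lit 15048) (nat_lit 6) (nat_lit 198) (nat_lit 0) (nat_lit 214) (nat_lit 210) (nat_lit 146)) (PT.lf (nat_lit 14516) (nat_lit 6) (nat_lit 191) (nat_lit 0) (nat_lit 215) (nat_lit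 210) (nat_lit 145)))) (PT.nd (nat_lit 156) (PT.nd (nat_lit 78) (PT.lf (nat_lit 13908) (nat_lit 6) (nat_lit 183) (nat_lit 0) (nat_lit 216) (nat_lit 210) (nat_lit 144)) (PT.lf (nat_lit 13376) (nat_lit 6) (nat_lit 176) (nat_lit 0) (nat_lit 217) (nat_lit 210) (nat_lit 143))) (PT.nd (nat_lit 78) (PT.lf (nat_lit 12844) (nat_lit 6) (nat_lit 169) (nat_lit 0) (nat_lit 218) (nat_lit 210) (nat_lit 142)) (PT.lf (nat_lit 12312) (nat_lit 6) (nat_lit 162) (nat_lit 0) (nat_lit 219) (nat_lit 210) (nat_lit 141))))))))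
noncomputable def pc48 : PT := (PT.nd (nat_lit 55146) (PT.nd (nat_lit 53976) (PT.nd (nat_lit 53352) (PT.nd (nat_lit 53040) (PT.nd (nat_lit 78) (PT.lf (nat_lit 11780) (nat_lit 6) (nat_lit 155) (nat_lit 0) (nat_lit 220) (nat_lit 210) (nat_lit 140)) (PT.nd (nat_lit 52884) (PT.lf (nat_lit 11324) (nat_lit 6) (nat_lit 149) (nat_lit 0) (nat_lit 221) (nat_lit 210) (nat_lit 139)) (PT.lf (nat_lit 10868) (nat_lit 6) (nat_lit 143) (nat_lit 5) (nat_lit 138) (nat_lit 211) (nat_lit 221)))) (PT.nd (nat_lit 156) (PT.nd (nat_lit 78) (PT.lf (nat_lit 11400) (nat_lit 6) (nat_lit 150) (nat_lit 5) (nat_lit 139) (nat_lit 211) (nat_lit 220)) (PT.lf (nat_lit 11856) (nat_lit 6) (nat_lit 156) (nat_lit 5) (nat_lit 140) (nat_lit 211) (nat_lit 219))) (PT.nd (nat_lit 78) (PT.lf (nat_lit 12388) (nat_lit 6) (nat_lit 163) (nat_lit 5) (nat_lit 141) (nat_lit 211) (nat_lit 218)) (PT.lf (nat_lit 12920) (nat_lit 6) (nat_lit 170) (nat_lit 5) (nat_lit 142) (nat_lit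 211) (nat_lit 217))))) (PT.nd (nat_lit 312) (PT.nd (nat_lit 156) (PT.nd (nat_lit 78) (PT.lf (nat_lit 13452) (nat_lit 6) (nat_lit 177) (nat_lit 5) (nat_lit 143) (nat_lit 211) (nat_lit 216)) (PT.lf (nat_lit 13984) (nat_lit 6) (nat_lit 184) (nat_lit 5) (nat_lit 144) (nat_lit 211) (nat_lit 215))) (PT.nd (nat_lit 78) (PT.lf (nat_lit 14592) (nat_lit 6) (nat_lit 192) (nat_lit 5) (nat_lit 145) (nat_lit 211) (nat_lit 214)) (PT.lf (nat_lit 15124) (nat_lit 6) (nat_lit 199) (nat_lit 5) (nat_lit 146) (nat_lit 211) (nat_lit 213)))) (PT.nd (nat_lit 156) (PT.nd (nat_lit 78) (PT.lf (nat_lit 15732) (nat_lit 6) (nat_lit 207) (nat_lit 5) (nat_lit 147) (nat_lit 211) (nat_lit 212)) (PT.lf (nat_lit 16340) (nat_lit 3) (nat_lit 215) (nat_lit 4) (nat_lit 148) (nat_lit 211) (nat_lit 211))) (PT.nd (nat_lit 78) (PT.lf (nat_lit 16948) (nat_lit 6) (nat_lit 223) (nat_lit 4) (nat_lit 149) (nat_lit 211) (nat_lit 210)) (PT.lf (nat_lit 17480) (nat_lit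 6) (nat_lit 230) (nat_lit 4) (nat_lit 150) (nat_lit 211) (nat_lit 209)))))) (PT.nd (nat_lit 546) (PT.nd (nat_lit 234) (PT.nd (nat_lit 78) (PT.lf (nat_lit 18088) (nat_lit 6) (nat_lit 238) (nat_lit 4) (nat_lit 151) (nat_lit 211) (nat_lit 208)) (PT.nd (nat_lit 78) (PT.lf (nat_lit 18696) (nat_lit 6) (nat_lit 246) (nat_lit 4) (nat_lit 152) (nat_lit 211) (nat_lit 207)) (PT.lf (nat_lit 19304) (nat_lit 6) (nat_lit 254) (nat_lit 4) (nat_lit 153) (nat_lit 211) (nat_lit 206)))) (PT.nd (nat_lit 156) (PT.nd (nat_lit 78) (PT.lf (nat_lit 19912) (nat_lit 6) (nat_lit 262) (nat_lit 4) (nat_lit 154) (nat_lit 211) (nat_lit 205)) (PT.lf (nat_lit 20596) (nat_lit 6) (nat_lit 271) (nat_lit 4) (nat_lit 155) (nat_lit 211) (nat_lit 204))) (PT.nd (nat_lit 78) (PT.lf (nat_lit 21280) (nat_lit 6) (nat_lit 280) (nat_lit 4) (nat_lit 156) (nat_lit 211) (nat_lit 203)) (PT.lf (nat_lit 22040) (nat_lit 6) (nat_lit 290) (nat_lit 4) (nat_lit 157) (nat_lit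 211) (nat_lit 202))))) (PT.nd (nat_lit 312) (PT.nd (nat_lit 156) (PT.nd (nat_lit 78) (PT.lf (nat_lit 22724) (nat_lit 6) (nat_lit 299) (nat_lit 4) (nat_lit 158) (nat_lit 211) (nat_lit 201)) (PT.lf (nat_lit 23484) (nat_lit 6) (nat_lit 309) (nat_lit 4) (nat_lit 159) (nat_lit 211) (nat_lit 200))) (PT.nd (nat_lit 78) (PT.lf (nat_lit 24244) (nat_lit 6) (nat_lit 319) (nat_lit 4) (nat_lit 160) (nat_lit 211) (nat_lit 199)) (PT.lf (nat_lit 25080) (nat_lit 6) (nat_lit 330) (nat_lit 4) (nat_lit 161) (nat_lit 211) (nat_lit 198)))) (PT.nd (nat_lit 156) (PT.nd (nat_lit 78) (PT.lf (nat_lit 25916) (nat_lit 6) (nat_lit 341) (nat_lit 4) (nat_lit 162) (nat_lit 211) (nat_lit 197)) (PT.lf (nat_lit 26752) (nat_lit 6) (nat_lit 352) (nat_lit 4) (nat_lit 163) (nat_lit 211) (nat_lit 196))) (PT.nd (nat_lit 78) (PT.lf (nat_lit 27588) (nat_lit 6) (nat_lit 363) (nat_lit 4) (nat_lit 164) (nat_lit 211) (nat_lit 195)) (PT.lf (nat_lit 28500) (nat_lit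 6) (nat_lit 375) (nat_lit 4) (nat_lit 165) (nat_lit 211) (nat_lit 194))))))) (PT.nd (nat_lit 1170) (PT.nd (nat_lit 546) (PT.nd (nat_lit 234) (PT.nd (nat_lit 78) (PT.lf (nat_lit 29564) (nat_lit 6) (nat_lit 389) (nat_lit 4) (nat_lit 166) (nat_lit 211) (nat_lit 193)) (PT.nd (nat_lit 78) (PT.lf (nat_lit 31312) (nat_lit 6) (nat_lit 412) (nat_lit 4) (nat_lit 167) (nat_lit 211) (nat_lit 192)) (PT.lf (nat_lit 32984) (nat_lit 6) (nat_lit 434) (nat_lit 4) (nat_lit 168) (nat_lit 211) (nat_lit 191)))) (PT.nd (nat_lit 156) (PT.nd (nat_lit 78) (PT.lf (nat_lit 34580) (nat_lit 6) (nat_lit 455) (nat_lit 4) (nat_lit 169) (nat_lit 211) (nat_lit 190)) (PT.lf (nat_lit 34504) (nat_lit 6) (nat_lit 454) (nat_lit 4) (nat_lit 170) (nat_lit 211) (nat_lit 189))) (PT.nd (nat_lit 78) (PT.lf (nat_lit 34428) (nat_lit 6) (nat_lit 453) (nat_lit 4) (nat_lit 171) (nat_lit 211) (nat_lit 188)) (PT.lf (nat_lit 34352) (nat_lit 6) (nat_lit 452) (nat_lit 4)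 (nat_lit 172) (nat_lit 211) (nat_lit 187))))) (PT.nd (nat_lit 312) (PT.nd (nat_lit 156) (PT.nd (nat_lit 78) (PT.lf (nat_lit 34276) (nat_lit 6) (nat_lit 451) (nat_lit 4) (nat_lit 173) (nat_lit 211) (nat_lit 186)) (PT.lf (nat_lit 34200) (nat_lit 6) (nat_lit 450) (nat_lit 4) (nat_lit 174) (nat_lit 211) (nat_lit 185))) (PT.nd (nat_lit 78) (PT.lf (nat_lit 34124) (nat_lit 6) (nat_lit 449) (nat_lit 4) (nat_lit 175) (nat_lit 211) (nat_lit 184)) (PT.lf (nat_lit 34048) (nat_lit 6) (nat_lit 448) (nat_lit 4) (nat_lit 176) (nat_lit 211) (nat_lit 183)))) (PT.nd (nat_lit 156) (PT.nd (nat_lit 78) (PT.lf (nat_lit 33972) (nat_lit 6) (nat_lit 447) (nat_lit 4) (nat_lit 177) (nat_lit 211) (nat_lit 182)) (PT.lf (nat_lit 33896) (nat_lit 6) (nat_lit 446) (nat_lit 4) (nat_lit 178) (nat_lit 211) (nat_lit 181))) (PT.nd (nat_lit 78) (PT.lf (nat_lit 33820) (nat_lit 6) (nat_lit 445) (nat_lit 4) (nat_lit 179) (nat_lit 211) (nat_lit 180)) (PT.lf (nat_lit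 33820) (nat_lit 6) (nat_lit 445) (nat_lit 2) (nat_lit 180) (nat_lit 211) (nat_lit 179)))))) (PT.nd (nat_lit 546) (PT.nd (nat_lit 234) (PT.nd (nat_lit 78) (PT.lf (nat_lit 33896) (nat_lit 6) (nat_lit 446) (nat_lit 2) (nat_lit 181) (nat_lit 211) (nat_lit 178)) (PT.nd (nat_lit 78) (PT.lf (nat_lit 33972) (nat_lit 6) (nat_lit 447) (nat_lit 2) (nat_lit 182) (nat_lit 211) (nat_lit 177)) (PT.lf (nat_lit 34048) (nat_lit 6) (nat_lit 448) (nat_lit 2) (nat_lit 183) (nat_lit 211) (nat_lit 176)))) (PT.nd (nat_lit 156) (PT.nd (nat_lit 78) (PT.lf (nat_lit 34124) (nat_lit 6) (nat_lit 449) (nat_lit 2) (nat_lit 184) (nat_lit 211) (nat_lit 175)) (PT.lf (nat_lit 34200) (nat_lit 6) (nat_lit 450) (nat_lit 2) (nat_lit 185) (nat_lit 211) (nat_lit 174))) (PT.nd (nat_lit 78) (PT.lf (nat_lit 34276) (nat_lit 6) (nat_lit 451) (nat_lit 2) (nat_lit 186) (nat_lit 211) (nat_lit 173)) (PT.lf (nat_lit 34352) (nat_lit 6) (nat_lit 452) (nat_lit 2) (nat_lit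 187) (nat_lit 211) (nat_lit 172))))) (PT.nd (nat_lit 312) (PT.nd (nat_lit 156) (PT.nd (nat_lit 78) (PT.lf (nat_lit 34428) (nat_lit 6) (nat_lit 453) (nat_lit 2) (nat_lit 188) (nat_lit 211) (nat_lit 171)) (PT.lf (nat_lit 34504) (nat_lit 6) (nat_lit 454) (nat_lit 2) (nat_lit 189) (nat_lit 211) (nat_lit 170))) (PT.nd (nat_lit 78) (PT.lf (nat_lit 34580) (nat_lit 6) (nat_lit 455) (nat_lit 2) (nat_lit 190) (nat_lit 211) (nat_lit 169)) (PT.lf (nat_lit 32984) (nat_lit 6) (nat_lit 434) (nat_lit 2) (nat_lit 191) (nat_lit 211) (nat_lit 168)))) (PT.nd (nat_lit 156) (PT.nd (nat_lit 78) (PT.lf (nat_lit 31312) (nat_lit 6) (nat_lit 412) (nat_lit 2) (nat_lit 192) (nat_lit 211) (nat_lit 167)) (PT.lf (nat_lit 29564) (nat_lit 6) (nat_lit 389) (nat_lit 2) (nat_lit 193) (nat_lit 211) (nat_lit 166))) (PT.nd (nat_lit 78) (PT.lf (nat_lit 28500) (nat_lit 6) (nat_lit 375) (nat_lit 2) (nat_lit 194) (nat_lit 211) (nat_lit 165)) (PT.lf (nat_lit 27588)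 (nat_lit 6) (nat_lit 363) (nat_lit 2) (nat_lit 195) (nat_lit 211) (nat_lit 164))))))))
noncomputable def pc49 : PT := (PT.nd (nat_lit 54990) (PT.nd (nat_lit 1170) (PT.nd (nat_lit 546) (PT.nd (nat_lit 234) (PT.nd (nat_lit 78) (PT.lf (nat_lit 26752) (nat_lit 6) (nat_lit 352) (nat_lit 2) (nat_lit 196) (nat_lit 211) (nat_lit 163)) (PT.nd (nat_lit 78) (PT.lf (nat_lit 25916) (nat_lit 6) (nat_lit 341) (nat_lit 2) (nat_lit 197) (nat_lit 211) (nat_lit 162)) (PT.lf (nat_lit 25080) (nat_lit 6) (nat_lit 330) (nat_lit 2) (nat_lit 198) (nat_lit 211) (nat_lit 161)))) (PT.nd (nat_lit 156) (PT.nd (nat_lit 78) (PT.lf (nat_lit 24244) (nat_lit 6) (nat_lit 319) (nat_lit 2) (nat_lit 199) (nat_lit 211) (nat_lit 160)) (PT.lf (nat_lit 23484) (nat_lit 6) (nat_lit 309) (nat_lit 2) (nat_lit 200) (nat_lit 211) (nat_lit 159))) (PT.nd (nat_lit 78) (PT.lf (nat_lit 22724) (nat_lit 6) (nat_lit 299) (nat_lit 2) (nat_lit 201) (nat_lit 211) (nat_lit 158))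 (PT.lf (nat_lit 22040) (nat_lit 6) (nat_lit 290) (nat_lit 2) (nat_lit 202) (nat_lit 211) (nat_lit 157))))) (PT.nd (nat_lit 312) (PT.nd (nat_lit 156) (PT.nd (nat_lit 78) (PT.lf (nat_lit 21280) (nat_lit 6) (nat_lit 280) (nat_lit 2) (nat_lit 203) (nat_lit 211) (nat_lit 156)) (PT.lf (nat_lit 20596) (nat_lit 6) (nat_lit 271) (nat_lit 2) (nat_lit 204) (nat_lit 211) (nat_lit 155))) (PT.nd (nat_lit 78) (PT.lf (nat_lit 19912) (nat_lit 6) (nat_lit 262) (nat_lit 2) (nat_lit 205) (nat_lit 211) (nat_lit 154)) (PT.lf (nat_lit 19304) (nat_lit 6) (nat_lit 254) (nat_lit 2) (nat_lit 206) (nat_lit 211) (nat_lit 153)))) (PT.nd (nat_lit 156) (PT.nd (nat_lit 78) (PT.lf (nat_lit 18696) (nat_lit 6) (nat_lit 246) (nat_lit 2) (nat_lit 207) (nat_lit 211) (nat_lit 152)) (PT.lf (nat_lit 18088) (nat_lit 6) (nat_lit 238) (nat_lit 2) (nat_lit 208) (nat_lit 211) (nat_lit 151))) (PT.nd (nat_lit 78) (PT.lf (nat_lit 17480) (nat_lit 6) (nat_lit 230) (nat_lit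 2) (nat_lit 209) (nat_lit 211) (nat_lit 150)) (PT.lf (nat_lit 16948) (nat_lit 6) (nat_lit 223) (nat_lit 2) (nat_lit 210) (nat_lit 211) (nat_lit 149)))))) (PT.nd (nat_lit 546) (PT.nd (nat_lit 234) (PT.nd (nat_lit 78) (PT.lf (nat_lit 16340) (nat_lit 3) (nat_lit 215) (nat_lit 0) (nat_lit 211) (nat_lit 211) (nat_lit 148)) (PT.nd (nat_lit 78) (PT.lf (nat_lit 15732) (nat_lit 6) (nat_lit 207) (nat_lit 0) (nat_lit 212) (nat_lit 211) (nat_lit 147)) (PT.lf (nat_lit 15124) (nat_lit 6) (nat_lit 199) (nat_lit 0) (nat_lit 213) (nat_lit 211) (nat_lit 146)))) (PT.nd (nat_lit 156) (PT.nd (nat_lit 78) (PT.lf (nat_lit 14592) (nat_lit 6) (nat_lit 192) (nat_lit 0) (nat_lit 214) (nat_lit 211) (nat_lit 145)) (PT.lf (nat_lit 13984) (nat_lit 6) (nat_lit 184) (nat_lit 0) (nat_lit 215) (nat_lit 211) (nat_lit 144))) (PT.nd (nat_lit 78) (PT.lf (nat_lit 13452) (nat_lit 6) (nat_lit 177) (nat_lit 0) (nat_lit 216) (nat_lit 211) (nat_lit 143)) (PT.lf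 (nat_lit 12920) (nat_lit 6) (nat_lit 170) (nat_lit 0) (nat_lit 217) (nat_lit 211) (nat_lit 142))))) (PT.nd (nat_lit 52962) (PT.nd (nat_lit 156) (PT.nd (nat_lit 78) (PT.lf (nat_lit 12388) (nat_lit 6) (nat_lit 163) (nat_lit 0) (nat_lit 218) (nat_lit 211) (nat_lit 141)) (PT.lf (nat_lit 11856) (nat_lit 6) (nat_lit 156) (nat_lit 0) (nat_lit 219) (nat_lit 211) (nat_lit 140))) (PT.nd (nat_lit 78) (PT.lf (nat_lit 11400) (nat_lit 6) (nat_lit 150) (nat_lit 0) (nat_lit 220) (nat_lit 211) (nat_lit 139)) (PT.lf (nat_lit 10868) (nat_lit 6) (nat_lit 143) (nat_lit 0) (nat_lit 221) (nat_lit 211) (nat_lit 138)))) (PT.nd (nat_lit 156) (PT.nd (nat_lit 78) (PT.lf (nat_lit 10032) (nat_lit 6) (nat_lit 132) (nat_lit 5) (nat_lit 136) (nat_lit 212) (nat_lit 222)) (PT.lf (nat_lit 10488) (nat_lit 6) (nat_lit 138) (nat_lit 5) (nat_lit 137) (nat_lit 212) (nat_lit 221))) (PT.nd (nat_lit 78) (PT.lf (nat_lit 10944) (nat_lit 6) (nat_lit 144) (nat_lit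 5) (nat_lit 138) (nat_lit 212) (nat_lit 220)) (PT.lf (nat_lit 11476) (nat_lit 6) (nat_lit 151) (nat_lit 5) (nat_lit 139) (nat_lit 212) (nat_lit 219))))))) (PT.nd (nat_lit 1170) (PT.nd (nat_lit 546) (PT.nd (nat_lit 234) (PT.nd (nat_lit 78) (PT.lf (nat_lit 11932) (nat_lit 6) (nat_lit 157) (nat_lit 5) (nat_lit 140) (nat_lit 212) (nat_lit 218)) (PT.nd (nat_lit 78) (PT.lf (nat_lit 12464) (nat_lit 6) (nat_lit 164) (nat_lit 5) (nat_lit 141) (nat_lit 212) (nat_lit 217)) (PT.lf (nat_lit 12996) (nat_lit 6) (nat_lit 171) (nat_lit 5) (nat_lit 142) (nat_lit 212) (nat_lit 216)))) (PT.nd (nat_lit 156) (PT.nd (nat_lit 78) (PT.lf (nat_lit 13528) (nat_lit 6) (nat_lit 178) (nat_lit 5) (nat_lit 143) (nat_lit 212) (nat_lit 215)) (PT.lf (nat_lit 14060) (nat_lit 6) (nat_lit 185) (nat_lit 5) (nat_lit 144) (nat_lit 212) (nat_lit 214))) (PT.nd (nat_lit 78) (PT.lf (nat_lit 14668) (nat_lit 6) (nat_lit 193) (nat_lit 5) (nat_lit 145) (nat_lit 212)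 (nat_lit 213)) (PT.lf (nat_lit 15200) (nat_lit 3) (nat_lit 200) (nat_lit 4) (nat_lit 146) (nat_lit 212) (nat_lit 212))))) (PT.nd (nat_lit 312) (PT.nd (nat_lit 156) (PT.nd (nat_lit 78) (PT.lf (nat_lit 15732) (nat_lit 6) (nat_lit 207) (nat_lit 4) (nat_lit 147) (nat_lit 212) (nat_lit 211)) (PT.lf (nat_lit 16264) (nat_lit 6) (nat_lit 214) (nat_lit 4) (nat_lit 148) (nat_lit 212) (nat_lit 210))) (PT.nd (nat_lit 78) (PT.lf (nat_lit 16872) (nat_lit 6) (nat_lit 222) (nat_lit 4) (nat_lit 149) (nat_lit 212) (nat_lit 209)) (PT.lf (nat_lit 17404) (nat_lit 6) (nat_lit 229) (nat_lit 4) (nat_lit 150) (nat_lit 212) (nat_lit 208)))) (PT.nd (nat_lit 156) (PT.nd (nat_lit 78) (PT.lf (nat_lit 18012) (nat_lit 6) (nat_lit 237) (nat_lit 4) (nat_lit 151) (nat_lit 212) (nat_lit 207)) (PT.lf (nat_lit 18620) (nat_lit 6) (nat_lit 245) (nat_lit 4) (nat_lit 152) (nat_lit 212) (nat_lit 206))) (PT.nd (nat_lit 78) (PT.lf (nat_lit 19228) (nat_lit 6) (nat_lit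 253) (nat_lit 4) (nat_lit 153) (nat_lit 212) (nat_lit 205)) (PT.lf (nat_lit 19836) (nat_lit 6) (nat_lit 261) (nat_lit 4) (nat_lit 154) (nat_lit 212) (nat_lit 204)))))) (PT.nd (nat_lit 546) (PT.nd (nat_lit 234) (PT.nd (nat_lit 78) (PT.lf (nat_lit 20520) (nat_lit 6) (nat_lit 270) (nat_lit 4) (nat_lit 155) (nat_lit 212) (nat_lit 203)) (PT.nd (nat_lit 78) (PT.lf (nat_lit 21204) (nat_lit 6) (nat_lit 279) (nat_lit 4) (nat_lit 156) (nat_lit 212) (nat_lit 202)) (PT.lf (nat_lit 21964) (nat_lit 6) (nat_lit 289) (nat_lit 4) (nat_lit 157) (nat_lit 212) (nat_lit 201)))) (PT.nd (nat_lit 156) (PT.nd (nat_lit 78) (PT.lf (nat_lit 22648) (nat_lit 6) (nat_lit 298) (nat_lit 4) (nat_lit 158) (nat_lit 212) (nat_lit 200)) (PT.lf (nat_lit 23408) (nat_lit 6) (nat_lit 308) (nat_lit 4) (nat_lit 159) (nat_lit 212) (nat_lit 199))) (PT.nd (nat_lit 78) (PT.lf (nat_lit 24168) (nat_lit 6) (nat_lit 318) (nat_lit 4) (nat_lit 160) (nat_lit 212) (nat_lit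 198)) (PT.lf (nat_lit 25004) (nat_lit 6) (nat_lit 329) (nat_lit 4) (nat_lit 161) (nat_lit 212) (nat_lit 197))))) (PT.nd (nat_lit 312) (PT.nd (nat_lit 156) (PT.nd (nat_lit 78) (PT.lf (nat_lit 25840) (nat_lit 6) (nat_lit 340) (nat_lit 4) (nat_lit 162) (nat_lit 212) (nat_lit 196)) (PT.lf (nat_lit 26676) (nat_lit 6) (nat_lit 351) (nat_lit 4) (nat_lit 163) (nat_lit 212) (nat_lit 195))) (PT.nd (nat_lit 78) (PT.lf (nat_lit 27512) (nat_lit 6) (nat_lit 362) (nat_lit 4) (nat_lit 164) (nat_lit 212) (nat_lit 194)) (PT.lf (nat_lit 28424) (nat_lit 6) (nat_lit 374) (nat_lit 4) (nat_lit 165) (nat_lit 212) (nat_lit 193)))) (PT.nd (nat_lit 156) (PT.nd (nat_lit 78) (PT.lf (nat_lit 29488) (nat_lit 6) (nat_lit 388) (nat_lit 4) (nat_lit 166) (nat_lit 212) (nat_lit 192)) (PT.lf (nat_lit 31236) (nat_lit 6) (nat_lit 411) (nat_lit 4) (nat_lit 167) (nat_lit 212) (nat_lit 191))) (PT.nd (nat_lit 78) (PT.lf (nat_lit 32908) (nat_lit 6) (nat_lit 433)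 (nat_lit 4) (nat_lit 168) (nat_lit 212) (nat_lit 190)) (PT.lf (nat_lit 32832) (nat_lit 6) (nat_lit 432) (nat_lit 4) (nat_lit 169) (nat_lit 212) (nat_lit 189))))))))
noncomputable def pc50 : PT := (PT.nd (nat_lit 2340) (PT.nd (nat_lit 1170) (PT.nd (nat_lit 546) (PT.nd (nat_lit 234) (PT.nd (nat_lit 78) (PT.lf (nat_lit 32756) (nat_lit 6) (nat_lit 431) (nat_lit 4) (nat_lit 170) (nat_lit 212) (nat_lit 188)) (PT.nd (nat_lit 78) (PT.lf (nat_lit 32680) (nat_lit 6) (nat_lit 430) (nat_lit 4) (nat_lit 171) (nat_lit 212) (nat_lit 187)) (PT.lf (nat_lit 32604) (nat_lit 6) (nat_lit 429) (nat_lit 4) (nat_lit 172) (nat_lit 212) (nat_lit 186)))) (PT.nd (nat_lit 156) (PT.nd (nat_lit 78) (PT.lf (nat_lit 32528) (nat_lit 6) (nat_lit 428) (nat_lit 4) (nat_lit 173) (nat_lit 212) (nat_lit 185)) (PT.lf (nat_lit 32452) (nat_lit 6) (nat_lit 427) (nat_lit 4) (nat_lit 174) (nat_lit 212) (nat_lit 184))) (PT.nd (nat_lit 78) (PT.lf (nat_lit 32376) (nat_lit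 6) (nat_lit 426) (nat_lit 4) (nat_lit 175) (nat_lit 212) (nat_lit 183)) (PT.lf (nat_lit 32300) (nat_lit 6) (nat_lit 425) (nat_lit 4) (nat_lit 176) (nat_lit 212) (nat_lit 182))))) (PT.nd (nat_lit 312) (PT.nd (nat_lit 156) (PT.nd (nat_lit 78) (PT.lf (nat_lit 32224) (nat_lit 6) (nat_lit 424) (nat_lit 4) (nat_lit 177) (nat_lit 212) (nat_lit 181)) (PT.lf (nat_lit 32148) (nat_lit 6) (nat_lit 423) (nat_lit 4) (nat_lit 178) (nat_lit 212) (nat_lit 180))) (PT.nd (nat_lit 78) (PT.lf (nat_lit 32072) (nat_lit 3) (nat_lit 422) (nat_lit 2) (nat_lit 179) (nat_lit 212) (nat_lit 179)) (PT.lf (nat_lit 32148) (nat_lit 6) (nat_lit 423) (nat_lit 2) (nat_lit 180) (nat_lit 212) (nat_lit 178)))) (PT.nd (nat_lit 156) (PT.nd (nat_lit 78) (PT.lf (nat_lit 32224) (nat_lit 6) (nat_lit 424) (nat_lit 2) (nat_lit 181) (nat_lit 212) (nat_lit 177)) (PT.lf (nat_lit 32300) (nat_lit 6) (nat_lit 425) (nat_lit 2) (nat_lit 182) (nat_lit 212) (nat_lit 176)))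 (PT.nd (nat_lit 78) (PT.lf (nat_lit 32376) (nat_lit 6) (nat_lit 426) (nat_lit 2) (nat_lit 183) (nat_lit 212) (nat_lit 175)) (PT.lf (nat_lit 32452) (nat_lit 6) (nat_lit 427) (nat_lit 2) (nat_lit 184) (nat_lit 212) (nat_lit 174)))))) (PT.nd (nat_lit 546) (PT.nd (nat_lit 234) (PT.nd (nat_lit 78) (PT.lf (nat_lit 32528) (nat_lit 6) (nat_lit 428) (nat_lit 2) (nat_lit 185) (nat_lit 212) (nat_lit 173)) (PT.nd (nat_lit 78) (PT.lf (nat_lit 32604) (nat_lit 6) (nat_lit 429) (nat_lit 2) (nat_lit 186) (nat_lit 212) (nat_lit 172)) (PT.lf (nat_lit 32680) (nat_lit 6) (nat_lit 430) (nat_lit 2) (nat_lit 187) (nat_lit 212) (nat_lit 171)))) (PT.nd (nat_lit 156) (PT.nd (nat_lit 78) (PT.lf (nat_lit 32756) (nat_lit 6) (nat_lit 431) (nat_lit 2) (nat_lit 188) (nat_lit 212) (nat_lit 170)) (PT.lf (nat_lit 32832) (nat_lit 6) (nat_lit 432) (nat_lit 2) (nat_lit 189) (nat_lit 212) (nat_lit 169))) (PT.nd (nat_lit 78) (PT.lf (nat_lit 32908) (nat_lit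 6) (nat_lit 433) (nat_lit 2) (nat_lit 190) (nat_lit 212) (nat_lit 168)) (PT.lf (nat_lit 31236) (nat_lit 6) (nat_lit 411) (nat_lit 2) (nat_lit 191) (nat_lit 212) (nat_lit 167))))) (PT.nd (nat_lit 312) (PT.nd (nat_lit 156) (PT.nd (nat_lit 78) (PT.lf (nat_lit 29488) (nat_lit 6) (nat_lit 388) (nat_lit 2) (nat_lit 192) (nat_lit 212) (nat_lit 166)) (PT.lf (nat_lit 28424) (nat_lit 6) (nat_lit 374) (nat_lit 2) (nat_lit 193) (nat_lit 212) (nat_lit 165))) (PT.nd (nat_lit 78) (PT.lf (nat_lit 27512) (nat_lit 6) (nat_lit 362) (nat_lit 2) (nat_lit 194) (nat_lit 212) (nat_lit 164)) (PT.lf (nat_lit 26676) (nat_lit 6) (nat_lit 351) (nat_lit 2) (nat_lit 195) (nat_lit 212) (nat_lit 163)))) (PT.nd (nat_lit 156) (PT.nd (nat_lit 78) (PT.lf (nat_lit 25840) (nat_lit 6) (nat_lit 340) (nat_lit 2) (nat_lit 196) (nat_lit 212) (nat_lit 162)) (PT.lf (nat_lit 25004) (nat_lit 6) (nat_lit 329) (nat_lit 2) (nat_lit 197) (nat_lit 212) (nat_lit 161)))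 (PT.nd (nat_lit 78) (PT.lf (nat_lit 24168) (nat_lit 6) (nat_lit 318) (nat_lit 2) (nat_lit 198) (nat_lit 212) (nat_lit 160)) (PT.lf (nat_lit 23408) (nat_lit 6) (nat_lit 308) (nat_lit 2) (nat_lit 199) (nat_lit 212) (nat_lit 159))))))) (PT.nd (nat_lit 1170) (PT.nd (nat_lit 546) (PT.nd (nat_lit 234) (PT.nd (nat_lit 78) (PT.lf (nat_lit 22648) (nat_lit 6) (nat_lit 298) (nat_lit 2) (nat_lit 200) (nat_lit 212) (nat_lit 158)) (PT.nd (nat_lit 78) (PT.lf (nat_lit 21964) (nat_lit 6) (nat_lit 289) (nat_lit 2) (nat_lit 201) (nat_lit 212) (nat_lit 157)) (PT.lf (nat_lit 21204) (nat_lit 6) (nat_lit 279) (nat_lit 2) (nat_lit 202) (nat_lit 212) (nat_lit 156)))) (PT.nd (nat_lit 156) (PT.nd (nat_lit 78) (PT.lf (nat_lit 20520) (nat_lit 6) (nat_lit 270) (nat_lit 2) (nat_lit 203) (nat_lit 212) (nat_lit 155)) (PT.lf (nat_lit 19836) (nat_lit 6) (nat_lit 261) (nat_lit 2) (nat_lit 204) (nat_lit 212) (nat_lit 154))) (PT.nd (nat_lit 78) (PT.lf (nat_lit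 19228) (nat_lit 6) (nat_lit 253) (nat_lit 2) (nat_lit 205) (nat_lit 212) (nat_lit 153)) (PT.lf (nat_lit 18620) (nat_lit 6) (nat_lit 245) (nat_lit 2) (nat_lit 206) (nat_lit 212) (nat_lit 152))))) (PT.nd (nat_lit 312) (PT.nd (nat_lit 156) (PT.nd (nat_lit 78) (PT.lf (nat_lit 18012) (nat_lit 6) (nat_lit 237) (nat_lit 2) (nat_lit 207) (nat_lit 212) (nat_lit 151)) (PT.lf (nat_lit 17404) (nat_lit 6) (nat_lit 229) (nat_lit 2) (nat_lit 208) (nat_lit 212) (nat_lit 150))) (PT.nd (nat_lit 78) (PT.lf (nat_lit 16872) (nat_lit 6) (nat_lit 222) (nat_lit 2) (nat_lit 209) (nat_lit 212) (nat_lit 149)) (PT.lf (nat_lit 16264) (nat_lit 6) (nat_lit 214) (nat_lit 2) (nat_lit 210) (nat_lit 212) (nat_lit 148)))) (PT.nd (nat_lit 156) (PT.nd (nat_lit 78) (PT.lf (nat_lit 15732) (nat_lit 6) (nat_lit 207) (nat_lit 2) (nat_lit 211) (nat_lit 212) (nat_lit 147)) (PT.lf (nat_lit 15200) (nat_lit 3) (nat_lit 200) (nat_lit 0) (nat_lit 212) (nat_lit 212)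 (nat_lit 146))) (PT.nd (nat_lit 78) (PT.lf (nat_lit 14668) (nat_lit 6) (nat_lit 193) (nat_lit 0) (nat_lit 213) (nat_lit 212) (nat_lit 145)) (PT.lf (nat_lit 14060) (nat_lit 6) (nat_lit 185) (nat_lit 0) (nat_lit 214) (nat_lit 212) (nat_lit 144)))))) (PT.nd (nat_lit 546) (PT.nd (nat_lit 234) (PT.nd (nat_lit 78) (PT.lf (nat_lit 13528) (nat_lit 6) (nat_lit 178) (nat_lit 0) (nat_lit 215) (nat_lit 212) (nat_lit 143)) (PT.nd (nat_lit 78) (PT.lf (nat_lit 12996) (nat_lit 6) (nat_lit 171) (nat_lit 0) (nat_lit 216) (nat_lit 212) (nat_lit 142)) (PT.lf (nat_lit 12464) (nat_lit 6) (nat_lit 164) (nat_lit 0) (nat_lit 217) (nat_lit 212) (nat_lit 141)))) (PT.nd (nat_lit 156) (PT.nd (nat_lit 78) (PT.lf (nat_lit 11932) (nat_lit 6) (nat_lit 157) (nat_lit 0) (nat_lit 218) (nat_lit 212) (nat_lit 140)) (PT.lf (nat_lit 11476) (nat_lit 6) (nat_lit 151) (nat_lit 0) (nat_lit 219) (nat_lit 212) (nat_lit 139))) (PT.nd (nat_lit 78) (PT.lf (nat_lit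 10944) (nat_lit 6) (nat_lit 144) (nat_lit 0) (nat_lit 220) (nat_lit 212) (nat_lit 138)) (PT.lf (nat_lit 10488) (nat_lit 6) (nat_lit 138) (nat_lit 0) (nat_lit 221) (nat_lit 212) (nat_lit 137))))) (PT.nd (nat_lit 52806) (PT.nd (nat_lit 52650) (PT.nd (nat_lit 52572) (PT.lf (nat_lit 10032) (nat_lit 6) (nat_lit 132) (nat_lit 0) (nat_lit 222) (nat_lit 212) (nat_lit 136)) (PT.lf (nat_lit 9652) (nat_lit 6) (nat_lit 127) (nat_lit 5) (nat_lit 135) (nat_lit 213) (nat_lit 222))) (PT.nd (nat_lit 78) (PT.lf (nat_lit 10108) (nat_lit 6) (nat_lit 133) (nat_lit 5) (nat_lit 136) (nat_lit 213) (nat_lit 221)) (PT.lf (nat_lit 10564) (nat_lit 6) (nat_lit 139) (nat_lit 5) (nat_lit 137) (nat_lit 213) (nat_lit 220)))) (PT.nd (nat_lit 156) (PT.nd (nat_lit 78) (PT.lf (nat_lit 11020) (nat_lit 6) (nat_lit 145) (nat_lit 5) (nat_lit 138) (nat_lit 213) (nat_lit 219)) (PT.lf (nat_lit 11552) (nat_lit 6) (nat_lit 152) (nat_lit 5) (nat_lit 139) (nat_lit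 213) (nat_lit 218))) (PT.nd (nat_lit 78) (PT.lf (nat_lit 12008) (nat_lit 6) (nat_lit 158) (nat_lit 5) (nat_lit 140) (nat_lit 213) (nat_lit 217)) (PT.lf (nat_lit 12540) (nat_lit 6) (nat_lit 165) (nat_lit 5) (nat_lit 141) (nat_lit 213) (nat_lit 216))))))))
noncomputable def pc51 : PT := (PT.nd (nat_lit 2340) (PT.nd (nat_lit 1170) (PT.nd (nat_lit 546) (PT.nd (nat_lit 234) (PT.nd (nat_lit 78) (PT.lf (nat_lit 13072) (nat_lit 6) (nat_lit 172) (nat_lit 5) (nat_lit 142) (nat_lit 213) (nat_lit 215)) (PT.nd (nat_lit 78) (PT.lf (nat_lit 13604) (nat_lit 6) (nat_lit 179) (nat_lit 5) (nat_lit 143) (nat_lit 213) (nat_lit 214)) (PT.lf (nat_lit 14136) (nat_lit 3) (nat_lit 186) (nat_lit 4) (nat_lit 144) (nat_lit 213) (nat_lit 213)))) (PT.nd (nat_lit 156) (PT.nd (nat_lit 78) (PT.lf (nat_lit 14668) (nat_lit 6) (nat_lit 193) (nat_lit 4) (nat_lit 145) (nat_lit 213) (nat_lit 212)) (PT.lf (nat_lit 15124) (nat_lit 6) (nat_lit 199) (nat_lit 4)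 (nat_lit 146) (nat_lit 213) (nat_lit 211))) (PT.nd (nat_lit 78) (PT.lf (nat_lit 15656) (nat_lit 6) (nat_lit 206) (nat_lit 4) (nat_lit 147) (nat_lit 213) (nat_lit 210)) (PT.lf (nat_lit 16188) (nat_lit 6) (nat_lit 213) (nat_lit 4) (nat_lit 148) (nat_lit 213) (nat_lit 209))))) (PT.nd (nat_lit 312) (PT.nd (nat_lit 156) (PT.nd (nat_lit 78) (PT.lf (nat_lit 16796) (nat_lit 6) (nat_lit 221) (nat_lit 4) (nat_lit 149) (nat_lit 213) (nat_lit 208)) (PT.lf (nat_lit 17328) (nat_lit 6) (nat_lit 228) (nat_lit 4) (nat_lit 150) (nat_lit 213) (nat_lit 207))) (PT.nd (nat_lit 78) (PT.lf (nat_lit 17936) (nat_lit 6) (nat_lit 236) (nat_lit 4) (nat_lit 151) (nat_lit 213) (nat_lit 206)) (PT.lf (nat_lit 18544) (nat_lit 6) (nat_lit 244) (nat_lit 4) (nat_lit 152) (nat_lit 213) (nat_lit 205)))) (PT.nd (nat_lit 156) (PT.nd (nat_lit 78) (PT.lf (nat_lit 19152) (nat_lit 6) (nat_lit 252) (nat_lit 4) (nat_lit 153) (nat_lit 213) (nat_lit 204)) (PT.lf (nat_lit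 19760) (nat_lit 6) (nat_lit 260) (nat_lit 4) (nat_lit 154) (nat_lit 213) (nat_lit 203))) (PT.nd (nat_lit 78) (PT.lf (nat_lit 20444) (nat_lit 6) (nat_lit 269) (nat_lit 4) (nat_lit 155) (nat_lit 213) (nat_lit 202)) (PT.lf (nat_lit 21128) (nat_lit 6) (nat_lit 278) (nat_lit 4) (nat_lit 156) (nat_lit 213) (nat_lit 201)))))) (PT.nd (nat_lit 546) (PT.nd (nat_lit 234) (PT.nd (nat_lit 78) (PT.lf (nat_lit 21888) (nat_lit 6) (nat_lit 288) (nat_lit 4) (nat_lit 157) (nat_lit 213) (nat_lit 200)) (PT.nd (nat_lit 78) (PT.lf (nat_lit 22572) (nat_lit 6) (nat_lit 297) (nat_lit 4) (nat_lit 158) (nat_lit 213) (nat_lit 199)) (PT.lf (nat_lit 23332) (nat_lit 6) (nat_lit 307) (nat_lit 4) (nat_lit 159) (nat_lit 213) (nat_lit 198)))) (PT.nd (nat_lit 156) (PT.nd (nat_lit 78) (PT.lf (nat_lit 24092) (nat_lit 6) (nat_lit 317) (nat_lit 4) (nat_lit 160) (nat_lit 213) (nat_lit 197)) (PT.lf (nat_lit 24928) (nat_lit 6) (nat_lit 328) (nat_lit 4) (nat_lit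 161) (nat_lit 213) (nat_lit 196))) (PT.nd (nat_lit 78) (PT.lf (nat_lit 25764) (nat_lit 6) (nat_lit 339) (nat_lit 4) (nat_lit 162) (nat_lit 213) (nat_lit 195)) (PT.lf (nat_lit 26600) (nat_lit 6) (nat_lit 350) (nat_lit 4) (nat_lit 163) (nat_lit 213) (nat_lit 194))))) (PT.nd (nat_lit 312) (PT.nd (nat_lit 156) (PT.nd (nat_lit 78) (PT.lf (nat_lit 27436) (nat_lit 6) (nat_lit 361) (nat_lit 4) (nat_lit 164) (nat_lit 213) (nat_lit 193)) (PT.lf (nat_lit 28348) (nat_lit 6) (nat_lit 373) (nat_lit 4) (nat_lit 165) (nat_lit 213) (nat_lit 192))) (PT.nd (nat_lit 78) (PT.lf (nat_lit 29412) (nat_lit 6) (nat_lit 387) (nat_lit 4) (nat_lit 166) (nat_lit 213) (nat_lit 191)) (PT.lf (nat_lit 31160) (nat_lit 6) (nat_lit 410) (nat_lit 4) (nat_lit 167) (nat_lit 213) (nat_lit 190)))) (PT.nd (nat_lit 156) (PT.nd (nat_lit 78) (PT.lf (nat_lit 31084) (nat_lit 6) (nat_lit 409) (nat_lit 4) (nat_lit 168) (nat_lit 213) (nat_lit 189)) (PT.lf (nat_lit 31008)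 (nat_lit 6) (nat_lit 408) (nat_lit 4) (nat_lit 169) (nat_lit 213) (nat_lit 188))) (PT.nd (nat_lit 78) (PT.lf (nat_lit 30932) (nat_lit 6) (nat_lit 407) (nat_lit 4) (nat_lit 170) (nat_lit 213) (nat_lit 187)) (PT.lf (nat_lit 30856) (nat_lit 6) (nat_lit 406) (nat_lit 4) (nat_lit 171) (nat_lit 213) (nat_lit 186))))))) (PT.nd (nat_lit 1170) (PT.nd (nat_lit 546) (PT.nd (nat_lit 234) (PT.nd (nat_lit 78) (PT.lf (nat_lit 30780) (nat_lit 6) (nat_lit 405) (nat_lit 4) (nat_lit 172) (nat_lit 213) (nat_lit 185)) (PT.nd (nat_lit 78) (PT.lf (nat_lit 30704) (nat_lit 6) (nat_lit 404) (nat_lit 4) (nat_lit 173) (nat_lit 213) (nat_lit 184)) (PT.lf (nat_lit 30628) (nat_lit 6) (nat_lit 403) (nat_lit 4) (nat_lit 174) (nat_lit 213) (nat_lit 183)))) (PT.nd (nat_lit 156) (PT.nd (nat_lit 78) (PT.lf (nat_lit 30552) (nat_lit 6) (nat_lit 402) (nat_lit 4) (nat_lit 175) (nat_lit 213) (nat_lit 182)) (PT.lf (nat_lit 30476) (nat_lit 6) (nat_lit 401) (nat_lit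 4) (nat_lit 176) (nat_lit 213) (nat_lit 181))) (PT.nd (nat_lit 78) (PT.lf (nat_lit 30400) (nat_lit 6) (nat_lit 400) (nat_lit 4) (nat_lit 177) (nat_lit 213) (nat_lit 180)) (PT.lf (nat_lit 30324) (nat_lit 6) (nat_lit 399) (nat_lit 4) (nat_lit 178) (nat_lit 213) (nat_lit 179))))) (PT.nd (nat_lit 312) (PT.nd (nat_lit 156) (PT.nd (nat_lit 78) (PT.lf (nat_lit 30324) (nat_lit 6) (nat_lit 399) (nat_lit 2) (nat_lit 179) (nat_lit 213) (nat_lit 178)) (PT.lf (nat_lit 30400) (nat_lit 6) (nat_lit 400) (nat_lit 2) (nat_lit 180) (nat_lit 213) (nat_lit 177))) (PT.nd (nat_lit 78) (PT.lf (nat_lit 30476) (nat_lit 6) (nat_lit 401) (nat_lit 2) (nat_lit 181) (nat_lit 213) (nat_lit 176)) (PT.lf (nat_lit 30552) (nat_lit 6) (nat_lit 402) (nat_lit 2) (nat_lit 182) (nat_lit 213) (nat_lit 175)))) (PT.nd (nat_lit 156) (PT.nd (nat_lit 78) (PT.lf (nat_lit 30628) (nat_lit 6) (nat_lit 403) (nat_lit 2) (nat_lit 183) (nat_lit 213) (nat_lit 174)) (PT.lf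 (nat_lit 30704) (nat_lit 6) (nat_lit 404) (nat_lit 2) (nat_lit 184) (nat_lit 213) (nat_lit 173))) (PT.nd (nat_lit 78) (PT.lf (nat_lit 30780) (nat_lit 6) (nat_lit 405) (nat_lit 2) (nat_lit 185) (nat_lit 213) (nat_lit 172)) (PT.lf (nat_lit 30856) (nat_lit 6) (nat_lit 406) (nat_lit 2) (nat_lit 186) (nat_lit 213) (nat_lit 171)))))) (PT.nd (nat_lit 624) (PT.nd (nat_lit 312) (PT.nd (nat_lit 156) (PT.nd (nat_lit 78) (PT.lf (nat_lit 30932) (nat_lit 6) (nat_lit 407) (nat_lit 2) (nat_lit 187) (nat_lit 213) (nat_lit 170)) (PT.lf (nat_lit 31008) (nat_lit 6) (nat_lit 408) (nat_lit 2) (nat_lit 188) (nat_lit 213) (nat_lit 169))) (PT.nd (nat_lit 78) (PT.lf (nat_lit 31084) (nat_lit 6) (nat_lit 409) (nat_lit 2) (nat_lit 189) (nat_lit 213) (nat_lit 168)) (PT.lf (nat_lit 31160) (nat_lit 6) (nat_lit 410) (nat_lit 2) (nat_lit 190) (nat_lit 213) (nat_lit 167)))) (PT.nd (nat_lit 156) (PT.nd (nat_lit 78) (PT.lf (nat_lit 29412) (nat_lit 6) (nat_lit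 387) (nat_lit 2) (nat_lit 191) (nat_lit 213) (nat_lit 166)) (PT.lf (nat_lit 28348) (nat_lit 6) (nat_lit 373) (nat_lit 2) (nat_lit 192) (nat_lit 213) (nat_lit 165))) (PT.nd (nat_lit 78) (PT.lf (nat_lit 27436) (nat_lit 6) (nat_lit 361) (nat_lit 2) (nat_lit 193) (nat_lit 213) (nat_lit 164)) (PT.lf (nat_lit 26600) (nat_lit 6) (nat_lit 350) (nat_lit 2) (nat_lit 194) (nat_lit 213) (nat_lit 163))))) (PT.nd (nat_lit 312) (PT.nd (nat_lit 156) (PT.nd (nat_lit 78) (PT.lf (nat_lit 25764) (nat_lit 6) (nat_lit 339) (nat_lit 2) (nat_lit 195) (nat_lit 213) (nat_lit 162)) (PT.lf (nat_lit 24928) (nat_lit 6) (nat_lit 328) (nat_lit 2) (nat_lit 196) (nat_lit 213) (nat_lit 161))) (PT.nd (nat_lit 78) (PT.lf (nat_lit 24092) (nat_lit 6) (nat_lit 317) (nat_lit 2) (nat_lit 197) (nat_lit 213) (nat_lit 160)) (PT.lf (nat_lit 23332) (nat_lit 6) (nat_lit 307) (nat_lit 2) (nat_lit 198) (nat_lit 213) (nat_lit 159)))) (PT.nd (nat_lit 156) (PT.nd (nat_lit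 78) (PT.lf (nat_lit 22572) (nat_lit 6) (nat_lit 297) (nat_lit 2) (nat_lit 199) (nat_lit 213) (nat_lit 158)) (PT.lf (nat_lit 21888) (nat_lit 6) (nat_lit 288) (nat_lit 2) (nat_lit 200) (nat_lit 213) (nat_lit 157))) (PT.nd (nat_lit 78) (PT.lf (nat_lit 21128) (nat_lit 6) (nat_lit 278) (nat_lit 2) (nat_lit 201) (nat_lit 213) (nat_lit 156)) (PT.lf (nat_lit 20444) (nat_lit 6) (nat_lit 269) (nat_lit 2) (nat_lit 202) (nat_lit 213) (nat_lit 155))))))))
noncomputable def pc52 : PT := (PT.nd (nat_lit 54678) (PT.nd (nat_lit 1170) (PT.nd (nat_lit 546) (PT.nd (nat_lit 234) (PT.nd (nat_lit 78) (PT.lf (nat_lit 19760) (nat_lit 6) (nat_lit 260) (nat_lit 2) (nat_lit 203) (nat_lit 213) (nat_lit 154)) (PT.nd (nat_lit 78) (PT.lf (nat_lit 19152) (nat_lit 6) (nat_lit 252) (nat_lit 2) (nat_lit 204) (nat_lit 213) (nat_lit 153)) (PT.lf (nat_lit 18544) (nat_lit 6) (nat_lit 244) (nat_lit 2) (nat_lit 205) (nat_lit 213) (nat_lit 152)))) (PT.nd (nat_lit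 156) (PT.nd (nat_lit 78) (PT.lf (nat_lit 17936) (nat_lit 6) (nat_lit 236) (nat_lit 2) (nat_lit 206) (nat_lit 213) (nat_lit 151)) (PT.lf (nat_lit 17328) (nat_lit 6) (nat_lit 228) (nat_lit 2) (nat_lit 207) (nat_lit 213) (nat_lit 150))) (PT.nd (nat_lit 78) (PT.lf (nat_lit 16796) (nat_lit 6) (nat_lit 221) (nat_lit 2) (nat_lit 208) (nat_lit 213) (nat_lit 149)) (PT.lf (nat_lit 16188) (nat_lit 6) (nat_lit 213) (nat_lit 2) (nat_lit 209) (nat_lit 213) (nat_lit 148))))) (PT.nd (nat_lit 312) (PT.nd (nat_lit 156) (PT.nd (nat_lit 78) (PT.lf (nat_lit 15656) (nat_lit 6) (nat_lit 206) (nat_lit 2) (nat_lit 210) (nat_lit 213) (nat_lit 147)) (PT.lf (nat_lit 15124) (nat_lit 6) (nat_lit 199) (nat_lit 2) (nat_lit 211) (nat_lit 213) (nat_lit 146))) (PT.nd (nat_lit 78) (PT.lf (nat_lit 14668) (nat_lit 6) (nat_lit 193) (nat_lit 2) (nat_lit 212) (nat_lit 213) (nat_lit 145)) (PT.lf (nat_lit 14136) (nat_lit 3) (nat_lit 186) (nat_lit 0) (nat_lit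 213) (nat_lit 213) (nat_lit 144)))) (PT.nd (nat_lit 156) (PT.nd (nat_lit 78) (PT.lf (nat_lit 13604) (nat_lit 6) (nat_lit 179) (nat_lit 0) (nat_lit 214) (nat_lit 213) (nat_lit 143)) (PT.lf (nat_lit 13072) (nat_lit 6) (nat_lit 172) (nat_lit 0) (nat_lit 215) (nat_lit 213) (nat_lit 142))) (PT.nd (nat_lit 78) (PT.lf (nat_lit 12540) (nat_lit 6) (nat_lit 165) (nat_lit 0) (nat_lit 216) (nat_lit 213) (nat_lit 141)) (PT.lf (nat_lit 12008) (nat_lit 6) (nat_lit 158) (nat_lit 0) (nat_lit 217) (nat_lit 213) (nat_lit 140)))))) (PT.nd (nat_lit 52884) (PT.nd (nat_lit 234) (PT.nd (nat_lit 78) (PT.lf (nat_lit 11552) (nat_lit 6) (nat_lit 152) (nat_lit 0) (nat_lit 218) (nat_lit 213) (nat_lit 139)) (PT.nd (nat_lit 78) (PT.lf (nat_lit 11020) (nat_lit 6) (nat_lit 145) (nat_lit 0) (nat_lit 219) (nat_lit 213) (nat_lit 138)) (PT.lf (nat_lit 10564) (nat_lit 6) (nat_lit 139) (nat_lit 0) (nat_lit 220) (nat_lit 213) (nat_lit 137)))) (PT.nd (nat_lit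 52494) (PT.nd (nat_lit 78) (PT.lf (nat_lit 10108) (nat_lit 6) (nat_lit 133) (nat_lit 0) (nat_lit 221) (nat_lit 213) (nat_lit 136)) (PT.lf (nat_lit 9652) (nat_lit 6) (nat_lit 127) (nat_lit 0) (nat_lit 222) (nat_lit 213) (nat_lit 135))) (PT.nd (nat_lit 78) (PT.lf (nat_lit 8892) (nat_lit 6) (nat_lit 117) (nat_lit 5) (nat_lit 133) (nat_lit 214) (nat_lit 223)) (PT.lf (nat_lit 9272) (nat_lit 6) (nat_lit 122) (nat_lit 5) (nat_lit 134) (nat_lit 214) (nat_lit 222))))) (PT.nd (nat_lit 312) (PT.nd (nat_lit 156) (PT.nd (nat_lit 78) (PT.lf (nat_lit 9728) (nat_lit 6) (nat_lit 128) (nat_lit 5) (nat_lit 135) (nat_lit 214) (nat_lit 221)) (PT.lf (nat_lit 10184) (nat_lit 6) (nat_lit 134) (nat_lit 5) (nat_lit 136) (nat_lit 214) (nat_lit 220))) (PT.nd (nat_lit 78) (PT.lf (nat_lit 10640) (nat_lit 6) (nat_lit 140) (nat_lit 5) (nat_lit 137) (nat_lit 214) (nat_lit 219)) (PT.lf (nat_lit 11096) (nat_lit 6) (nat_lit 146) (nat_lit 5) (nat_lit 138)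 (nat_lit 214) (nat_lit 218)))) (PT.nd (nat_lit 156) (PT.nd (nat_lit 78) (PT.lf (nat_lit 11628) (nat_lit 6) (nat_lit 153) (nat_lit 5) (nat_lit 139) (nat_lit 214) (nat_lit 217)) (PT.lf (nat_lit 12084) (nat_lit 6) (nat_lit 159) (nat_lit 5) (nat_lit 140) (nat_lit 214) (nat_lit 216))) (PT.nd (nat_lit 78) (PT.lf (nat_lit 12616) (nat_lit 6) (nat_lit 166) (nat_lit 5) (nat_lit 141) (nat_lit 214) (nat_lit 215)) (PT.lf (nat_lit 13148) (nat_lit 3) (nat_lit 173) (nat_lit 4) (nat_lit 142) (nat_lit 214) (nat_lit 214))))))) (PT.nd (nat_lit 1170) (PT.nd (nat_lit 546) (PT.nd (nat_lit 234) (PT.nd (nat_lit 78) (PT.lf (nat_lit 13604) (nat_lit 6) (nat_lit 179) (nat_lit 4) (nat_lit 143) (nat_lit 214) (nat_lit 213)) (PT.nd (nat_lit 78) (PT.lf (nat_lit 14060) (nat_lit 6) (nat_lit 185) (nat_lit 4) (nat_lit 144) (nat_lit 214) (nat_lit 212)) (PT.lf (nat_lit 14592) (nat_lit 6) (nat_lit 192) (nat_lit 4) (nat_lit 145) (nat_lit 214) (nat_lit 211))))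 (PT.nd (nat_lit 156) (PT.nd (nat_lit 78) (PT.lf (nat_lit 15048) (nat_lit 6) (nat_lit 198) (nat_lit 4) (nat_lit 146) (nat_lit 214) (nat_lit 210)) (PT.lf (nat_lit 15580) (nat_lit 6) (nat_lit 205) (nat_lit 4) (nat_lit 147) (nat_lit 214) (nat_lit 209))) (PT.nd (nat_lit 78) (PT.lf (nat_lit 16112) (nat_lit 6) (nat_lit 212) (nat_lit 4) (nat_lit 148) (nat_lit 214) (nat_lit 208)) (PT.lf (nat_lit 16720) (nat_lit 6) (nat_lit 220) (nat_lit 4) (nat_lit 149) (nat_lit 214) (nat_lit 207))))) (PT.nd (nat_lit 312) (PT.nd (nat_lit 156) (PT.nd (nat_lit 78) (PT.lf (nat_lit 17252) (nat_lit 6) (nat_lit 227) (nat_lit 4) (nat_lit 150) (nat_lit 214) (nat_lit 206)) (PT.lf (nat_lit 17860) (nat_lit 6) (nat_lit 235) (nat_lit 4) (nat_lit 151) (nat_lit 214) (nat_lit 205))) (PT.nd (nat_lit 78) (PT.lf (nat_lit 18468) (nat_lit 6) (nat_lit 243) (nat_lit 4) (nat_lit 152) (nat_lit 214) (nat_lit 204)) (PT.lf (nat_lit 19076) (nat_lit 6) (nat_lit 251) (nat_lit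 4) (nat_lit 153) (nat_lit 214) (nat_lit 203)))) (PT.nd (nat_lit 156) (PT.nd (nat_lit 78) (PT.lf (nat_lit 19684) (nat_lit 6) (nat_lit 259) (nat_lit 4) (nat_lit 154) (nat_lit 214) (nat_lit 202)) (PT.lf (nat_lit 20368) (nat_lit 6) (nat_lit 268) (nat_lit 4) (nat_lit 155) (nat_lit 214) (nat_lit 201))) (PT.nd (nat_lit 78) (PT.lf (nat_lit 21052) (nat_lit 6) (nat_lit 277) (nat_lit 4) (nat_lit 156) (nat_lit 214) (nat_lit 200)) (PT.lf (nat_lit 21812) (nat_lit 6) (nat_lit 287) (nat_lit 4) (nat_lit 157) (nat_lit 214) (nat_lit 199)))))) (PT.nd (nat_lit 546) (PT.nd (nat_lit 234) (PT.nd (nat_lit 78) (PT.lf (nat_lit 22496) (nat_lit 6) (nat_lit 296) (nat_lit 4) (nat_lit 158) (nat_lit 214) (nat_lit 198)) (PT.nd (nat_lit 78) (PT.lf (nat_lit 23256) (nat_lit 6) (nat_lit 306) (nat_lit 4) (nat_lit 159) (nat_lit 214) (nat_lit 197)) (PT.lf (nat_lit 24016) (nat_lit 6) (nat_lit 316) (nat_lit 4) (nat_lit 160) (nat_lit 214) (nat_lit 196)))) (PT.nd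 (nat_lit 156) (PT.nd (nat_lit 78) (PT.lf (nat_lit 24852) (nat_lit 6) (nat_lit 327) (nat_lit 4) (nat_lit 161) (nat_lit 214) (nat_lit 195)) (PT.lf (nat_lit 25688) (nat_lit 6) (nat_lit 338) (nat_lit 4) (nat_lit 162) (nat_lit 214) (nat_lit 194))) (PT.nd (nat_lit 78) (PT.lf (nat_lit 26524) (nat_lit 6) (nat_lit 349) (nat_lit 4) (nat_lit 163) (nat_lit 214) (nat_lit 193)) (PT.lf (nat_lit 27360) (nat_lit 6) (nat_lit 360) (nat_lit 4) (nat_lit 164) (nat_lit 214) (nat_lit 192))))) (PT.nd (nat_lit 1794) (PT.nd (nat_lit 156) (PT.nd (nat_lit 78) (PT.lf (nat_lit 28272) (nat_lit 6) (nat_lit 372) (nat_lit 4) (nat_lit 165) (nat_lit 214) (nat_lit 191)) (PT.lf (nat_lit 29336) (nat_lit 6) (nat_lit 386) (nat_lit 4) (nat_lit 166) (nat_lit 214) (nat_lit 190))) (PT.nd (nat_lit 78) (PT.lf (nat_lit 29260) (nat_lit 6) (nat_lit 385) (nat_lit 4) (nat_lit 167) (nat_lit 214) (nat_lit 189)) (PT.lf (nat_lit 29184) (nat_lit 6) (nat_lit 384) (nat_lit 4)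 (nat_lit 168) (nat_lit 214) (nat_lit 188)))) (PT.nd (nat_lit 156) (PT.nd (nat_lit 78) (PT.lf (nat_lit 29184) (nat_lit 6) (nat_lit 384) (nat_lit 2) (nat_lit 188) (nat_lit 214) (nat_lit 168)) (PT.lf (nat_lit 29260) (nat_lit 6) (nat_lit 385) (nat_lit 2) (nat_lit 189) (nat_lit 214) (nat_lit 167))) (PT.nd (nat_lit 78) (PT.lf (nat_lit 29336) (nat_lit 6) (nat_lit 386) (nat_lit 2) (nat_lit 190) (nat_lit 214) (nat_lit 166)) (PT.lf (nat_lit 28272) (nat_lit 6) (nat_lit 372) (nat_lit 2) (nat_lit 191) (nat_lit 214) (nat_lit 165))))))))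
noncomputable def pc53 : PT := (PT.nd (nat_lit 2340) (PT.nd (nat_lit 1170) (PT.nd (nat_lit 546) (PT.nd (nat_lit 234) (PT.nd (nat_lit 78) (PT.lf (nat_lit 27360) (nat_lit 6) (nat_lit 360) (nat_lit 2) (nat_lit 192) (nat_lit 214) (nat_lit 164)) (PT.nd (nat_lit 78) (PT.lf (nat_lit 26524) (nat_lit 6) (nat_lit 349) (nat_lit 2) (nat_lit 193) (nat_lit 214) (nat_lit 163)) (PT.lf (nat_lit 25688) (nat_lit 6) (nat_lit 338) (nat_lit 2) (nat_lit 194) (nat_lit 214) (nat_lit 162)))) (PT.nd (nat_lit 156) (PT.nd (nat_lit 78) (PT.lf (nat_lit 24852) (nat_lit 6) (nat_lit 327) (nat_lit 2) (nat_lit 195) (nat_lit 214) (nat_lit 161)) (PT.lf (nat_lit 24016) (nat_lit 6) (nat_lit 316) (nat_lit 2) (nat_lit 196) (nat_lit 214) (nat_lit 160))) (PT.nd (nat_lit 78) (PT.lf (nat_lit 23256) (nat_lit 6) (nat_lit 306) (nat_lit 2) (nat_lit 197) (nat_lit 214) (nat_lit 159)) (PT.lf (nat_lit 22496) (nat_lit 6) (nat_lit 296) (nat_lit 2) (nat_lit 198) (nat_lit 214)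 (nat_lit 158))))) (PT.nd (nat_lit 312) (PT.nd (nat_lit 156) (PT.nd (nat_lit 78) (PT.lf (nat_lit 21812) (nat_lit 6) (nat_lit 287) (nat_lit 2) (nat_lit 199) (nat_lit 214) (nat_lit 157)) (PT.lf (nat_lit 21052) (nat_lit 6) (nat_lit 277) (nat_lit 2) (nat_lit 200) (nat_lit 214) (nat_lit 156))) (PT.nd (nat_lit 78) (PT.lf (nat_lit 20368) (nat_lit 6) (nat_lit 268) (nat_lit 2) (nat_lit 201) (nat_lit 214) (nat_lit 155)) (PT.lf (nat_lit 19684) (nat_lit 6) (nat_lit 259) (nat_lit 2) (nat_lit 202) (nat_lit 214) (nat_lit 154)))) (PT.nd (nat_lit 156) (PT.nd (nat_lit 78) (PT.lf (nat_lit 19076) (nat_lit 6) (nat_lit 251) (nat_lit 2) (nat_lit 203) (nat_lit 214) (nat_lit 153)) (PT.lf (nat_lit 18468) (nat_lit 6) (nat_lit 243) (nat_lit 2) (nat_lit 204) (nat_lit 214) (nat_lit 152))) (PT.nd (nat_lit 78) (PT.lf (nat_lit 17860) (nat_lit 6) (nat_lit 235) (nat_lit 2) (nat_lit 205) (nat_lit 214) (nat_lit 151)) (PT.lf (nat_lit 17252) (nat_lit 6) (nat_lit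 227) (nat_lit 2) (nat_lit 206) (nat_lit 214) (nat_lit 150)))))) (PT.nd (nat_lit 546) (PT.nd (nat_lit 234) (PT.nd (nat_lit 78) (PT.lf (nat_lit 16720) (nat_lit 6) (nat_lit 220) (nat_lit 2) (nat_lit 207) (nat_lit 214) (nat_lit 149)) (PT.nd (nat_lit 78) (PT.lf (nat_lit 16112) (nat_lit 6) (nat_lit 212) (nat_lit 2) (nat_lit 208) (nat_lit 214) (nat_lit 148)) (PT.lf (nat_lit 15580) (nat_lit 6) (nat_lit 205) (nat_lit 2) (nat_lit 209) (nat_lit 214) (nat_lit 147)))) (PT.nd (nat_lit 156) (PT.nd (nat_lit 78) (PT.lf (nat_lit 15048) (nat_lit 6) (nat_lit 198) (nat_lit 2) (nat_lit 210) (nat_lit 214) (nat_lit 146)) (PT.lf (nat_lit 14592) (nat_lit 6) (nat_lit 192) (nat_lit 2) (nat_lit 211) (nat_lit 214) (nat_lit 145))) (PT.nd (nat_lit 78) (PT.lf (nat_lit 14060) (nat_lit 6) (nat_lit 185) (nat_lit 2) (nat_lit 212) (nat_lit 214) (nat_lit 144)) (PT.lf (nat_lit 13604) (nat_lit 6) (nat_lit 179) (nat_lit 2) (nat_lit 213) (nat_lit 214) (nat_lit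 143))))) (PT.nd (nat_lit 312) (PT.nd (nat_lit 156) (PT.nd (nat_lit 78) (PT.lf (nat_lit 13148) (nat_lit 3) (nat_lit 173) (nat_lit 0) (nat_lit 214) (nat_lit 214) (nat_lit 142)) (PT.lf (nat_lit 12616) (nat_lit 6) (nat_lit 166) (nat_lit 0) (nat_lit 215) (nat_lit 214) (nat_lit 141))) (PT.nd (nat_lit 78) (PT.lf (nat_lit 12084) (nat_lit 6) (nat_lit 159) (nat_lit 0) (nat_lit 216) (nat_lit 214) (nat_lit 140)) (PT.lf (nat_lit 11628) (nat_lit 6) (nat_lit 153) (nat_lit 0) (nat_lit 217) (nat_lit 214) (nat_lit 139)))) (PT.nd (nat_lit 156) (PT.nd (nat_lit 78) (PT.lf (nat_lit 11096) (nat_lit 6) (nat_lit 146) (nat_lit 0) (nat_lit 218) (nat_lit 214) (nat_lit 138)) (PT.lf (nat_lit 10640) (nat_lit 6) (nat_lit 140) (nat_lit 0) (nat_lit 219) (nat_lit 214) (nat_lit 137))) (PT.nd (nat_lit 78) (PT.lf (nat_lit 10184) (nat_lit 6) (nat_lit 134) (nat_lit 0) (nat_lit 220) (nat_lit 214) (nat_lit 136)) (PT.lf (nat_lit 9728) (nat_lit 6) (nat_lit 128)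 (nat_lit 0) (nat_lit 221) (nat_lit 214) (nat_lit 135))))))) (PT.nd (nat_lit 53352) (PT.nd (nat_lit 52728) (PT.nd (nat_lit 52416) (PT.nd (nat_lit 78) (PT.lf (nat_lit 9272) (nat_lit 6) (nat_lit 122) (nat_lit 0) (nat_lit 222) (nat_lit 214) (nat_lit 134)) (PT.nd (nat_lit 52260) (PT.lf (nat_lit 8892) (nat_lit 6) (nat_lit 117) (nat_lit 0) (nat_lit 223) (nat_lit 214) (nat_lit 133)) (PT.lf (nat_lit 8512) (nat_lit 6) (nat_lit 112) (nat_lit 5) (nat_lit 132) (nat_lit 215) (nat_lit 223)))) (PT.nd (nat_lit 156) (PT.nd (nat_lit 78) (PT.lf (nat_lit 8968) (nat_lit 6) (nat_lit 118) (nat_lit 5) (nat_lit 133) (nat_lit 215) (nat_lit 222)) (PT.lf (nat_lit 9348) (nat_lit 6) (nat_lit 123) (nat_lit 5) (nat_lit 134) (nat_lit 215) (nat_lit 221))) (PT.nd (nat_lit 78) (PT.lf (nat_lit 9804) (nat_lit 6) (nat_lit 129) (nat_lit 5) (nat_lit 135) (nat_lit 215) (nat_lit 220)) (PT.lf (nat_lit 10260) (nat_lit 6) (nat_lit 135) (nat_lit 5) (nat_lit 136) (nat_lit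 215) (nat_lit 219))))) (PT.nd (nat_lit 312) (PT.nd (nat_lit 156) (PT.nd (nat_lit 78) (PT.lf (nat_lit 10716) (nat_lit 6) (nat_lit 141) (nat_lit 5) (nat_lit 137) (nat_lit 215) (nat_lit 218)) (PT.lf (nat_lit 11172) (nat_lit 6) (nat_lit 147) (nat_lit 5) (nat_lit 138) (nat_lit 215) (nat_lit 217))) (PT.nd (nat_lit 78) (PT.lf (nat_lit 11704) (nat_lit 6) (nat_lit 154) (nat_lit 5) (nat_lit 139) (nat_lit 215) (nat_lit 216)) (PT.lf (nat_lit 12160) (nat_lit 3) (nat_lit 160) (nat_lit 4) (nat_lit 140) (nat_lit 215) (nat_lit 215)))) (PT.nd (nat_lit 156) (PT.nd (nat_lit 78) (PT.lf (nat_lit 12616) (nat_lit 6) (nat_lit 166) (nat_lit 4) (nat_lit 141) (nat_lit 215) (nat_lit 214)) (PT.lf (nat_lit 13072) (nat_lit 6) (nat_lit 172) (nat_lit 4) (nat_lit 142) (nat_lit 215) (nat_lit 213))) (PT.nd (nat_lit 78) (PT.lf (nat_lit 13528) (nat_lit 6) (nat_lit 178) (nat_lit 4) (nat_lit 143) (nat_lit 215) (nat_lit 212)) (PT.lf (nat_lit 13984) (nat_lit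 6) (nat_lit 184) (nat_lit 4) (nat_lit 144) (nat_lit 215) (nat_lit 211)))))) (PT.nd (nat_lit 546) (PT.nd (nat_lit 234) (PT.nd (nat_lit 78) (PT.lf (nat_lit 14516) (nat_lit 6) (nat_lit 191) (nat_lit 4) (nat_lit 145) (nat_lit 215) (nat_lit 210)) (PT.nd (nat_lit 78) (PT.lf (nat_lit 14972) (nat_lit 6) (nat_lit 197) (nat_lit 4) (nat_lit 146) (nat_lit 215) (nat_lit 209)) (PT.lf (nat_lit 15504) (nat_lit 6) (nat_lit 204) (nat_lit 4) (nat_lit 147) (nat_lit 215) (nat_lit 208)))) (PT.nd (nat_lit 156) (PT.nd (nat_lit 78) (PT.lf (nat_lit 16036) (nat_lit 6) (nat_lit 211) (nat_lit 4) (nat_lit 148) (nat_lit 215) (nat_lit 207)) (PT.lf (nat_lit 16644) (nat_lit 6) (nat_lit 219) (nat_lit 4) (nat_lit 149) (nat_lit 215) (nat_lit 206))) (PT.nd (nat_lit 78) (PT.lf (nat_lit 17176) (nat_lit 6) (nat_lit 226) (nat_lit 4) (nat_lit 150) (nat_lit 215) (nat_lit 205)) (PT.lf (nat_lit 17784) (nat_lit 6) (nat_lit 234) (nat_lit 4) (nat_lit 151) (nat_lit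 215) (nat_lit 204))))) (PT.nd (nat_lit 312) (PT.nd (nat_lit 156) (PT.nd (nat_lit 78) (PT.lf (nat_lit 18392) (nat_lit 6) (nat_lit 242) (nat_lit 4) (nat_lit 152) (nat_lit 215) (nat_lit 203)) (PT.lf (nat_lit 19000) (nat_lit 6) (nat_lit 250) (nat_lit 4) (nat_lit 153) (nat_lit 215) (nat_lit 202))) (PT.nd (nat_lit 78) (PT.lf (nat_lit 19608) (nat_lit 6) (nat_lit 258) (nat_lit 4) (nat_lit 154) (nat_lit 215) (nat_lit 201)) (PT.lf (nat_lit 20292) (nat_lit 6) (nat_lit 267) (nat_lit 4) (nat_lit 155) (nat_lit 215) (nat_lit 200)))) (PT.nd (nat_lit 156) (PT.nd (nat_lit 78) (PT.lf (nat_lit 20976) (nat_lit 6) (nat_lit 276) (nat_lit 4) (nat_lit 156) (nat_lit 215) (nat_lit 199)) (PT.lf (nat_lit 21736) (nat_lit 6) (nat_lit 286) (nat_lit 4) (nat_lit 157) (nat_lit 215) (nat_lit 198))) (PT.nd (nat_lit 78) (PT.lf (nat_lit 22420) (nat_lit 6) (nat_lit 295) (nat_lit 4) (nat_lit 158) (nat_lit 215) (nat_lit 197)) (PT.lf (nat_lit 23180) (nat_lit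 6) (nat_lit 305) (nat_lit 4) (nat_lit 159) (nat_lit 215) (nat_lit 196))))))))
noncomputable def pc54 : PT := (PT.nd (nat_lit 4836) (PT.nd (nat_lit 3666) (PT.nd (nat_lit 3042) (PT.nd (nat_lit 2730) (PT.nd (nat_lit 78) (PT.lf (nat_lit 23940) (nat_lit 6) (nat_lit 315) (nat_lit 4) (nat_lit 160) (nat_lit 215) (nat_lit 195)) (PT.nd (nat_lit 2574) (PT.lf (nat_lit 24776) (nat_lit 6) (nat_lit 326) (nat_lit 4) (nat_lit 161) (nat_lit 215) (nat_lit 194)) (PT.lf (nat_lit 24776) (nat_lit 6) (nat_lit 326) (nat_lit 2) (nat_lit 194) (nat_lit 215) (nat_lit 161)))) (PT.nd (nat_lit 156) (PT.nd (nat_lit 78) (PT.lf (nat_lit 23940) (nat_lit 6) (nat_lit 315) (nat_lit 2) (nat_lit 195) (nat_lit 215) (nat_lit 160)) (PT.lf (nat_lit 23180) (nat_lit 6) (nat_lit 305) (nat_lit 2) (nat_lit 196) (nat_lit 215) (nat_lit 159))) (PT.nd (nat_lit 78) (PT.lf (nat_lit 22420) (nat_lit 6) (nat_lit 295) (nat_lit 2) (nat_lit 197) (nat_lit 215) (nat_lit 158)) (PT.lf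 (nat_lit 21736) (nat_lit 6) (nat_lit 286) (nat_lit 2) (nat_lit 198) (nat_lit 215) (nat_lit 157))))) (PT.nd (nat_lit 312) (PT.nd (nat_lit 156) (PT.nd (nat_lit 78) (PT.lf (nat_lit 20976) (nat_lit 6) (nat_lit 276) (nat_lit 2) (nat_lit 199) (nat_lit 215) (nat_lit 156)) (PT.lf (nat_lit 20292) (nat_lit 6) (nat_lit 267) (nat_lit 2) (nat_lit 200) (nat_lit 215) (nat_lit 155))) (PT.nd (nat_lit 78) (PT.lf (nat_lit 19608) (nat_lit 6) (nat_lit 258) (nat_lit 2) (nat_lit 201) (nat_lit 215) (nat_lit 154)) (PT.lf (nat_lit 19000) (nat_lit 6) (nat_lit 250) (nat_lit 2) (nat_lit 202) (nat_lit 215) (nat_lit 153)))) (PT.nd (nat_lit 156) (PT.nd (nat_lit 78) (PT.lf (nat_lit 18392) (nat_lit 6) (nat_lit 242) (nat_lit 2) (nat_lit 203) (nat_lit 215) (nat_lit 152)) (PT.lf (nat_lit 17784) (nat_lit 6) (nat_lit 234) (nat_lit 2) (nat_lit 204) (nat_lit 215) (nat_lit 151))) (PT.nd (nat_lit 78) (PT.lf (nat_lit 17176) (nat_lit 6) (nat_lit 226) (nat_lit 2)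 (nat_lit 205) (nat_lit 215) (nat_lit 150)) (PT.lf (nat_lit 16644) (nat_lit 6) (nat_lit 219) (nat_lit 2) (nat_lit 206) (nat_lit 215) (nat_lit 149)))))) (PT.nd (nat_lit 546) (PT.nd (nat_lit 234) (PT.nd (nat_lit 78) (PT.lf (nat_lit 16036) (nat_lit 6) (nat_lit 211) (nat_lit 2) (nat_lit 207) (nat_lit 215) (nat_lit 148)) (PT.nd (nat_lit 78) (PT.lf (nat_lit 15504) (nat_lit 6) (nat_lit 204) (nat_lit 2) (nat_lit 208) (nat_lit 215) (nat_lit 147)) (PT.lf (nat_lit 14972) (nat_lit 6) (nat_lit 197) (nat_lit 2) (nat_lit 209) (nat_lit 215) (nat_lit 146)))) (PT.nd (nat_lit 156) (PT.nd (nat_lit 78) (PT.lf (nat_lit 14516) (nat_lit 6) (nat_lit 191) (nat_lit 2) (nat_lit 210) (nat_lit 215) (nat_lit 145)) (PT.lf (nat_lit 13984) (nat_lit 6) (nat_lit 184) (nat_lit 2) (nat_lit 211) (nat_lit 215) (nat_lit 144))) (PT.nd (nat_lit 78) (PT.lf (nat_lit 13528) (nat_lit 6) (nat_lit 178) (nat_lit 2) (nat_lit 212) (nat_lit 215) (nat_lit 143)) (PT.lf (nat_lit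 13072) (nat_lit 6) (nat_lit 172) (nat_lit 2) (nat_lit 213) (nat_lit 215) (nat_lit 142))))) (PT.nd (nat_lit 312) (PT.nd (nat_lit 156) (PT.nd (nat_lit 78) (PT.lf (nat_lit 12616) (nat_lit 6) (nat_lit 166) (nat_lit 2) (nat_lit 214) (nat_lit 215) (nat_lit 141)) (PT.lf (nat_lit 12160) (nat_lit 3) (nat_lit 160) (nat_lit 0) (nat_lit 215) (nat_lit 215) (nat_lit 140))) (PT.nd (nat_lit 78) (PT.lf (nat_lit 11704) (nat_lit 6) (nat_lit 154) (nat_lit 0) (nat_lit 216) (nat_lit 215) (nat_lit 139)) (PT.lf (nat_lit 11172) (nat_lit 6) (nat_lit 147) (nat_lit 0) (nat_lit 217) (nat_lit 215) (nat_lit 138)))) (PT.nd (nat_lit 156) (PT.nd (nat_lit 78) (PT.lf (nat_lit 10716) (nat_lit 6) (nat_lit 141) (nat_lit 0) (nat_lit 218) (nat_lit 215) (nat_lit 137)) (PT.lf (nat_lit 10260) (nat_lit 6) (nat_lit 135) (nat_lit 0) (nat_lit 219) (nat_lit 215) (nat_lit 136))) (PT.nd (nat_lit 78) (PT.lf (nat_lit 9804) (nat_lit 6) (nat_lit 129) (nat_lit 0) (nat_lit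 220) (nat_lit 215) (nat_lit 135)) (PT.lf (nat_lit 9348) (nat_lit 6) (nat_lit 123) (nat_lit 0) (nat_lit 221) (nat_lit 215) (nat_lit 134))))))) (PT.nd (nat_lit 53196) (PT.nd (nat_lit 52572) (PT.nd (nat_lit 52260) (PT.nd (nat_lit 78) (PT.lf (nat_lit 8968) (nat_lit 6) (nat_lit 118) (nat_lit 0) (nat_lit 222) (nat_lit 215) (nat_lit 133)) (PT.nd (nat_lit 52104) (PT.lf (nat_lit 8512) (nat_lit 6) (nat_lit 112) (nat_lit 0) (nat_lit 223) (nat_lit 215) (nat_lit 132)) (PT.lf (nat_lit 7828) (nat_lit 6) (nat_lit 103) (nat_lit 5) (nat_lit 130) (nat_lit 216) (nat_lit 224)))) (PT.nd (nat_lit 156) (PT.nd (nat_lit 78) (PT.lf (nat_lit 8208) (nat_lit 6) (nat_lit 108) (nat_lit 5) (nat_lit 131) (nat_lit 216) (nat_lit 223)) (PT.lf (nat_lit 8588) (nat_lit 6) (nat_lit 113) (nat_lit 5) (nat_lit 132) (nat_lit 216) (nat_lit 222))) (PT.nd (nat_lit 78) (PT.lf (nat_lit 9044) (nat_lit 6) (nat_lit 119) (nat_lit 5) (nat_lit 133) (nat_lit 216) (nat_lit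 221)) (PT.lf (nat_lit 9424) (nat_lit 6) (nat_lit 124) (nat_lit 5) (nat_lit 134) (nat_lit 216) (nat_lit 220))))) (PT.nd (nat_lit 312) (PT.nd (nat_lit 156) (PT.nd (nat_lit 78) (PT.lf (nat_lit 9880) (nat_lit 6) (nat_lit 130) (nat_lit 5) (nat_lit 135) (nat_lit 216) (nat_lit 219)) (PT.lf (nat_lit 10336) (nat_lit 6) (nat_lit 136) (nat_lit 5) (nat_lit 136) (nat_lit 216) (nat_lit 218))) (PT.nd (nat_lit 78) (PT.lf (nat_lit 10792) (nat_lit 6) (nat_lit 142) (nat_lit 5) (nat_lit 137) (nat_lit 216) (nat_lit 217)) (PT.lf (nat_lit 11248) (nat_lit 3) (nat_lit 148) (nat_lit 4) (nat_lit 138) (nat_lit 216) (nat_lit 216)))) (PT.nd (nat_lit 156) (PT.nd (nat_lit 78) (PT.lf (nat_lit 11704) (nat_lit 6) (nat_lit 154) (nat_lit 4) (nat_lit 139) (nat_lit 216) (nat_lit 215)) (PT.lf (nat_lit 12084) (nat_lit 6) (nat_lit 159) (nat_lit 4) (nat_lit 140) (nat_lit 216) (nat_lit 214))) (PT.nd (nat_lit 78) (PT.lf (nat_lit 12540) (nat_lit 6) (nat_lit 165)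 (nat_lit 4) (nat_lit 141) (nat_lit 216) (nat_lit 213)) (PT.lf (nat_lit 12996) (nat_lit 6) (nat_lit 171) (nat_lit 4) (nat_lit 142) (nat_lit 216) (nat_lit 212)))))) (PT.nd (nat_lit 546) (PT.nd (nat_lit 234) (PT.nd (nat_lit 78) (PT.lf (nat_lit 13452) (nat_lit 6) (nat_lit 177) (nat_lit 4) (nat_lit 143) (nat_lit 216) (nat_lit 211)) (PT.nd (nat_lit 78) (PT.lf (nat_lit 13908) (nat_lit 6) (nat_lit 183) (nat_lit 4) (nat_lit 144) (nat_lit 216) (nat_lit 210)) (PT.lf (nat_lit 14440) (nat_lit 6) (nat_lit 190) (nat_lit 4) (nat_lit 145) (nat_lit 216) (nat_lit 209)))) (PT.nd (nat_lit 156) (PT.nd (nat_lit 78) (PT.lf (nat_lit 14896) (nat_lit 6) (nat_lit 196) (nat_lit 4) (nat_lit 146) (nat_lit 216) (nat_lit 208)) (PT.lf (nat_lit 15428) (nat_lit 6) (nat_lit 203) (nat_lit 4) (nat_lit 147) (nat_lit 216) (nat_lit 207))) (PT.nd (nat_lit 78) (PT.lf (nat_lit 15960) (nat_lit 6) (nat_lit 210) (nat_lit 4) (nat_lit 148) (nat_lit 216) (nat_lit 206))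 (PT.lf (nat_lit 16568) (nat_lit 6) (nat_lit 218) (nat_lit 4) (nat_lit 149) (nat_lit 216) (nat_lit 205))))) (PT.nd (nat_lit 312) (PT.nd (nat_lit 156) (PT.nd (nat_lit 78) (PT.lf (nat_lit 17100) (nat_lit 6) (nat_lit 225) (nat_lit 4) (nat_lit 150) (nat_lit 216) (nat_lit 204)) (PT.lf (nat_lit 17708) (nat_lit 6) (nat_lit 233) (nat_lit 4) (nat_lit 151) (nat_lit 216) (nat_lit 203))) (PT.nd (nat_lit 78) (PT.lf (nat_lit 18316) (nat_lit 6) (nat_lit 241) (nat_lit 4) (nat_lit 152) (nat_lit 216) (nat_lit 202)) (PT.lf (nat_lit 18924) (nat_lit 6) (nat_lit 249) (nat_lit 4) (nat_lit 153) (nat_lit 216) (nat_lit 201)))) (PT.nd (nat_lit 156) (PT.nd (nat_lit 78) (PT.lf (nat_lit 19532) (nat_lit 6) (nat_lit 257) (nat_lit 4) (nat_lit 154) (nat_lit 216) (nat_lit 200)) (PT.lf (nat_lit 20216) (nat_lit 6) (nat_lit 266) (nat_lit 4) (nat_lit 155) (nat_lit 216) (nat_lit 199))) (PT.nd (nat_lit 3276) (PT.lf (nat_lit 20900) (nat_lit 6) (nat_lit 275) (nat_lit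 4) (nat_lit 156) (nat_lit 216) (nat_lit 198)) (PT.lf (nat_lit 20900) (nat_lit 6) (nat_lit 275) (nat_lit 2) (nat_lit 198) (nat_lit 216) (nat_lit 156))))))))
noncomputable def pc55 : PT := (PT.nd (nat_lit 54132) (PT.nd (nat_lit 1170) (PT.nd (nat_lit 546) (PT.nd (nat_lit 234) (PT.nd (nat_lit 78) (PT.lf (nat_lit 20216) (nat_lit 6) (nat_lit 266) (nat_lit 2) (nat_lit 199) (nat_lit 216) (nat_lit 155)) (PT.nd (nat_lit 78) (PT.lf (nat_lit 19532) (nat_lit 6) (nat_lit 257) (nat_lit 2) (nat_lit 200) (nat_lit 216) (nat_lit 154)) (PT.lf (nat_lit 18924) (nat_lit 6) (nat_lit 249) (nat_lit 2) (nat_lit 201) (nat_lit 216) (nat_lit 153)))) (PT.nd (nat_lit 156) (PT.nd (nat_lit 78) (PT.lf (nat_lit 18316) (nat_lit 6) (nat_lit 241) (nat_lit 2) (nat_lit 202) (nat_lit 216) (nat_lit 152)) (PT.lf (nat_lit 17708) (nat_lit 6) (nat_lit 233) (nat_lit 2) (nat_lit 203) (nat_lit 216) (nat_lit 151))) (PT.nd (nat_lit 78) (PT.lf (nat_lit 17100) (nat_lit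 6) (nat_lit 225) (nat_lit 2) (nat_lit 204) (nat_lit 216) (nat_lit 150)) (PT.lf (nat_lit 16568) (nat_lit 6) (nat_lit 218) (nat_lit 2) (nat_lit 205) (nat_lit 216) (nat_lit 149))))) (PT.nd (nat_lit 312) (PT.nd (nat_lit 156) (PT.nd (nat_lit 78) (PT.lf (nat_lit 15960) (nat_lit 6) (nat_lit 210) (nat_lit 2) (nat_lit 206) (nat_lit 216) (nat_lit 148)) (PT.lf (nat_lit 15428) (nat_lit 6) (nat_lit 203) (nat_lit 2) (nat_lit 207) (nat_lit 216) (nat_lit 147))) (PT.nd (nat_lit 78) (PT.lf (nat_lit 14896) (nat_lit 6) (nat_lit 196) (nat_lit 2) (nat_lit 208) (nat_lit 216) (nat_lit 146)) (PT.lf (nat_lit 14440) (nat_lit 6) (nat_lit 190) (nat_lit 2) (nat_lit 209) (nat_lit 216) (nat_lit 145)))) (PT.nd (nat_lit 156) (PT.nd (nat_lit 78) (PT.lf (nat_lit 13908) (nat_lit 6) (nat_lit 183) (nat_lit 2) (nat_lit 210) (nat_lit 216) (nat_lit 144)) (PT.lf (nat_lit 13452) (nat_lit 6) (nat_lit 177) (nat_lit 2) (nat_lit 211) (nat_lit 216) (nat_lit 143)))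 (PT.nd (nat_lit 78) (PT.lf (nat_lit 12996) (nat_lit 6) (nat_lit 171) (nat_lit 2) (nat_lit 212) (nat_lit 216) (nat_lit 142)) (PT.lf (nat_lit 12540) (nat_lit 6) (nat_lit 165) (nat_lit 2) (nat_lit 213) (nat_lit 216) (nat_lit 141)))))) (PT.nd (nat_lit 546) (PT.nd (nat_lit 234) (PT.nd (nat_lit 78) (PT.lf (nat_lit 12084) (nat_lit 6) (nat_lit 159) (nat_lit 2) (nat_lit 214) (nat_lit 216) (nat_lit 140)) (PT.nd (nat_lit 78) (PT.lf (nat_lit 11704) (nat_lit 6) (nat_lit 154) (nat_lit 2) (nat_lit 215) (nat_lit 216) (nat_lit 139)) (PT.lf (nat_lit 11248) (nat_lit 3) (nat_lit 148) (nat_lit 0) (nat_lit 216) (nat_lit 216) (nat_lit 138)))) (PT.nd (nat_lit 156) (PT.nd (nat_lit 78) (PT.lf (nat_lit 10792) (nat_lit 6) (nat_lit 142) (nat_lit 0) (nat_lit 217) (nat_lit 216) (nat_lit 137)) (PT.lf (nat_lit 10336) (nat_lit 6) (nat_lit 136) (nat_lit 0) (nat_lit 218) (nat_lit 216) (nat_lit 136))) (PT.nd (nat_lit 78) (PT.lf (nat_lit 9880) (nat_lit 6)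 (nat_lit 130) (nat_lit 0) (nat_lit 219) (nat_lit 216) (nat_lit 135)) (PT.lf (nat_lit 9424) (nat_lit 6) (nat_lit 124) (nat_lit 0) (nat_lit 220) (nat_lit 216) (nat_lit 134))))) (PT.nd (nat_lit 52104) (PT.nd (nat_lit 156) (PT.nd (nat_lit 78) (PT.lf (nat_lit 9044) (nat_lit 6) (nat_lit 119) (nat_lit 0) (nat_lit 221) (nat_lit 216) (nat_lit 133)) (PT.lf (nat_lit 8588) (nat_lit 6) (nat_lit 113) (nat_lit 0) (nat_lit 222) (nat_lit 216) (nat_lit 132))) (PT.nd (nat_lit 78) (PT.lf (nat_lit 8208) (nat_lit 6) (nat_lit 108) (nat_lit 0) (nat_lit 223) (nat_lit 216) (nat_lit 131)) (PT.lf (nat_lit 7828) (nat_lit 6) (nat_lit 103) (nat_lit 0) (nat_lit 224) (nat_lit 216) (nat_lit 130)))) (PT.nd (nat_lit 156) (PT.nd (nat_lit 78) (PT.lf (nat_lit 7144) (nat_lit 6) (nat_lit 94) (nat_lit 5) (nat_lit 128) (nat_lit 217) (nat_lit 225)) (PT.lf (nat_lit 7524) (nat_lit 6) (nat_lit 99) (nat_lit 5) (nat_lit 129) (nat_lit 217) (nat_lit 224))) (PT.nd (nat_lit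 78) (PT.lf (nat_lit 7904) (nat_lit 6) (nat_lit 104) (nat_lit 5) (nat_lit 130) (nat_lit 217) (nat_lit 223)) (PT.lf (nat_lit 8284) (nat_lit 6) (nat_lit 109) (nat_lit 5) (nat_lit 131) (nat_lit 217) (nat_lit 222))))))) (PT.nd (nat_lit 1170) (PT.nd (nat_lit 546) (PT.nd (nat_lit 234) (PT.nd (nat_lit 78) (PT.lf (nat_lit 8664) (nat_lit 6) (nat_lit 114) (nat_lit 5) (nat_lit 132) (nat_lit 217) (nat_lit 221)) (PT.nd (nat_lit 78) (PT.lf (nat_lit 9120) (nat_lit 6) (nat_lit 120) (nat_lit 5) (nat_lit 133) (nat_lit 217) (nat_lit 220)) (PT.lf (nat_lit 9500) (nat_lit 6) (nat_lit 125) (nat_lit 5) (nat_lit 134) (nat_lit 217) (nat_lit 219)))) (PT.nd (nat_lit 156) (PT.nd (nat_lit 78) (PT.lf (nat_lit 9956) (nat_lit 6) (nat_lit 131) (nat_lit 5) (nat_lit 135) (nat_lit 217) (nat_lit 218)) (PT.lf (nat_lit 10412) (nat_lit 3) (nat_lit 137) (nat_lit 4) (nat_lit 136) (nat_lit 217) (nat_lit 217))) (PT.nd (nat_lit 78) (PT.lf (nat_lit 10792) (nat_lit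 6) (nat_lit 142) (nat_lit 4) (nat_lit 137) (nat_lit 217) (nat_lit 216)) (PT.lf (nat_lit 11172) (nat_lit 6) (nat_lit 147) (nat_lit 4) (nat_lit 138) (nat_lit 217) (nat_lit 215))))) (PT.nd (nat_lit 312) (PT.nd (nat_lit 156) (PT.nd (nat_lit 78) (PT.lf (nat_lit 11628) (nat_lit 6) (nat_lit 153) (nat_lit 4) (nat_lit 139) (nat_lit 217) (nat_lit 214)) (PT.lf (nat_lit 12008) (nat_lit 6) (nat_lit 158) (nat_lit 4) (nat_lit 140) (nat_lit 217) (nat_lit 213))) (PT.nd (nat_lit 78) (PT.lf (nat_lit 12464) (nat_lit 6) (nat_lit 164) (nat_lit 4) (nat_lit 141) (nat_lit 217) (nat_lit 212)) (PT.lf (nat_lit 12920) (nat_lit 6) (nat_lit 170) (nat_lit 4) (nat_lit 142) (nat_lit 217) (nat_lit 211)))) (PT.nd (nat_lit 156) (PT.nd (nat_lit 78) (PT.lf (nat_lit 13376) (nat_lit 6) (nat_lit 176) (nat_lit 4) (nat_lit 143) (nat_lit 217) (nat_lit 210)) (PT.lf (nat_lit 13832) (nat_lit 6) (nat_lit 182) (nat_lit 4) (nat_lit 144) (nat_lit 217) (nat_lit 209)))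 (PT.nd (nat_lit 78) (PT.lf (nat_lit 14364) (nat_lit 6) (nat_lit 189) (nat_lit 4) (nat_lit 145) (nat_lit 217) (nat_lit 208)) (PT.lf (nat_lit 14820) (nat_lit 6) (nat_lit 195) (nat_lit 4) (nat_lit 146) (nat_lit 217) (nat_lit 207)))))) (PT.nd (nat_lit 4368) (PT.nd (nat_lit 312) (PT.nd (nat_lit 156) (PT.nd (nat_lit 78) (PT.lf (nat_lit 15352) (nat_lit 6) (nat_lit 202) (nat_lit 4) (nat_lit 147) (nat_lit 217) (nat_lit 206)) (PT.lf (nat_lit 15884) (nat_lit 6) (nat_lit 209) (nat_lit 4) (nat_lit 148) (nat_lit 217) (nat_lit 205))) (PT.nd (nat_lit 78) (PT.lf (nat_lit 16492) (nat_lit 6) (nat_lit 217) (nat_lit 4) (nat_lit 149) (nat_lit 217) (nat_lit 204)) (PT.lf (nat_lit 17024) (nat_lit 6) (nat_lit 224) (nat_lit 4) (nat_lit 150) (nat_lit 217) (nat_lit 203)))) (PT.nd (nat_lit 3900) (PT.nd (nat_lit 78) (PT.lf (nat_lit 17632) (nat_lit 6) (nat_lit 232) (nat_lit 4) (nat_lit 151) (nat_lit 217) (nat_lit 202)) (PT.lf (nat_lit 18240) (nat_lit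 6) (nat_lit 240) (nat_lit 4) (nat_lit 152) (nat_lit 217) (nat_lit 201))) (PT.nd (nat_lit 78) (PT.lf (nat_lit 18240) (nat_lit 6) (nat_lit 240) (nat_lit 2) (nat_lit 201) (nat_lit 217) (nat_lit 152)) (PT.lf (nat_lit 17632) (nat_lit 6) (nat_lit 232) (nat_lit 2) (nat_lit 202) (nat_lit 217) (nat_lit 151))))) (PT.nd (nat_lit 312) (PT.nd (nat_lit 156) (PT.nd (nat_lit 78) (PT.lf (nat_lit 17024) (nat_lit 6) (nat_lit 224) (nat_lit 2) (nat_lit 203) (nat_lit 217) (nat_lit 150)) (PT.lf (nat_lit 16492) (nat_lit 6) (nat_lit 217) (nat_lit 2) (nat_lit 204) (nat_lit 217) (nat_lit 149))) (PT.nd (nat_lit 78) (PT.lf (nat_lit 15884) (nat_lit 6) (nat_lit 209) (nat_lit 2) (nat_lit 205) (nat_lit 217) (nat_lit 148)) (PT.lf (nat_lit 15352) (nat_lit 6) (nat_lit 202) (nat_lit 2) (nat_lit 206) (nat_lit 217) (nat_lit 147)))) (PT.nd (nat_lit 156) (PT.nd (nat_lit 78) (PT.lf (nat_lit 14820) (nat_lit 6) (nat_lit 195) (nat_lit 2) (nat_lit 207) (nat_lit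 217) (nat_lit 146)) (PT.lf (nat_lit 14364) (nat_lit 6) (nat_lit 189) (nat_lit 2) (nat_lit 208) (nat_lit 217) (nat_lit 145))) (PT.nd (nat_lit 78) (PT.lf (nat_lit 13832) (nat_lit 6) (nat_lit 182) (nat_lit 2) (nat_lit 209) (nat_lit 217) (nat_lit 144)) (PT.lf (nat_lit 13376) (nat_lit 6) (nat_lit 176) (nat_lit 2) (nat_lit 210) (nat_lit 217) (nat_lit 143))))))))
noncomputable def pc56 : PT := (PT.nd (nat_lit 53976) (PT.nd (nat_lit 52806) (PT.nd (nat_lit 546) (PT.nd (nat_lit 234) (PT.nd (nat_lit 78) (PT.lf (nat_lit 12920) (nat_lit 6) (nat_lit 170) (nat_lit 2) (nat_lit 211) (nat_lit 217) (nat_lit 142)) (PT.nd (nat_lit 78) (PT.lf (nat_lit 12464) (nat_lit 6) (nat_lit 164) (nat_lit 2) (nat_lit 212) (nat_lit 217) (nat_lit 141)) (PT.lf (nat_lit 12008) (nat_lit 6) (nat_lit 158) (nat_lit 2) (nat_lit 213) (nat_lit 217) (nat_lit 140)))) (PT.nd (nat_lit 156) (PT.nd (nat_lit 78) (PT.lf (nat_lit 11628) (nat_lit 6) (nat_lit 153) (nat_lit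 2) (nat_lit 214) (nat_lit 217) (nat_lit 139)) (PT.lf (nat_lit 11172) (nat_lit 6) (nat_lit 147) (nat_lit 2) (nat_lit 215) (nat_lit 217) (nat_lit 138))) (PT.nd (nat_lit 78) (PT.lf (nat_lit 10792) (nat_lit 6) (nat_lit 142) (nat_lit 2) (nat_lit 216) (nat_lit 217) (nat_lit 137)) (PT.lf (nat_lit 10412) (nat_lit 3) (nat_lit 137) (nat_lit 0) (nat_lit 217) (nat_lit 217) (nat_lit 136))))) (PT.nd (nat_lit 312) (PT.nd (nat_lit 156) (PT.nd (nat_lit 78) (PT.lf (nat_lit 9956) (nat_lit 6) (nat_lit 131) (nat_lit 0) (nat_lit 218) (nat_lit 217) (nat_lit 135)) (PT.lf (nat_lit 9500) (nat_lit 6) (nat_lit 125) (nat_lit 0) (nat_lit 219) (nat_lit 217) (nat_lit 134))) (PT.nd (nat_lit 78) (PT.lf (nat_lit 9120) (nat_lit 6) (nat_lit 120) (nat_lit 0) (nat_lit 220) (nat_lit 217) (nat_lit 133)) (PT.lf (nat_lit 8664) (nat_lit 6) (nat_lit 114) (nat_lit 0) (nat_lit 221) (nat_lit 217) (nat_lit 132)))) (PT.nd (nat_lit 156) (PT.nd (nat_lit 78) (PT.lf (nat_lit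 8284) (nat_lit 6) (nat_lit 109) (nat_lit 0) (nat_lit 222) (nat_lit 217) (nat_lit 131)) (PT.lf (nat_lit 7904) (nat_lit 6) (nat_lit 104) (nat_lit 0) (nat_lit 223) (nat_lit 217) (nat_lit 130))) (PT.nd (nat_lit 78) (PT.lf (nat_lit 7524) (nat_lit 6) (nat_lit 99) (nat_lit 0) (nat_lit 224) (nat_lit 217) (nat_lit 129)) (PT.lf (nat_lit 7144) (nat_lit 6) (nat_lit 94) (nat_lit 0) (nat_lit 225) (nat_lit 217) (nat_lit 128)))))) (PT.nd (nat_lit 546) (PT.nd (nat_lit 234) (PT.nd (nat_lit 78) (PT.lf (nat_lit 6840) (nat_lit 6) (nat_lit 90) (nat_lit 5) (nat_lit 127) (nat_lit 218) (nat_lit 225)) (PT.nd (nat_lit 78) (PT.lf (nat_lit 7220) (nat_lit 6) (nat_lit 95) (nat_lit 5) (nat_lit 128) (nat_lit 218) (nat_lit 224)) (PT.lf (nat_lit 7600) (nat_lit 6) (nat_lit 100) (nat_lit 5) (nat_lit 129) (nat_lit 218) (nat_lit 223)))) (PT.nd (nat_lit 156) (PT.nd (nat_lit 78) (PT.lf (nat_lit 7980) (nat_lit 6) (nat_lit 105) (nat_lit 5) (nat_lit 130) (nat_lit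 218) (nat_lit 222)) (PT.lf (nat_lit 8360) (nat_lit 6) (nat_lit 110) (nat_lit 5) (nat_lit 131) (nat_lit 218) (nat_lit 221))) (PT.nd (nat_lit 78) (PT.lf (nat_lit 8740) (nat_lit 6) (nat_lit 115) (nat_lit 5) (nat_lit 132) (nat_lit 218) (nat_lit 220)) (PT.lf (nat_lit 9196) (nat_lit 6) (nat_lit 121) (nat_lit 5) (nat_lit 133) (nat_lit 218) (nat_lit 219))))) (PT.nd (nat_lit 312) (PT.nd (nat_lit 156) (PT.nd (nat_lit 78) (PT.lf (nat_lit 9576) (nat_lit 3) (nat_lit 126) (nat_lit 4) (nat_lit 134) (nat_lit 218) (nat_lit 218)) (PT.lf (nat_lit 9956) (nat_lit 6) (nat_lit 131) (nat_lit 4) (nat_lit 135) (nat_lit 218) (nat_lit 217))) (PT.nd (nat_lit 78) (PT.lf (nat_lit 10336) (nat_lit 6) (nat_lit 136) (nat_lit 4) (nat_lit 136) (nat_lit 218) (nat_lit 216)) (PT.lf (nat_lit 10716) (nat_lit 6) (nat_lit 141) (nat_lit 4) (nat_lit 137) (nat_lit 218) (nat_lit 215)))) (PT.nd (nat_lit 156) (PT.nd (nat_lit 78) (PT.lf (nat_lit 11096) (nat_lit 6) (nat_lit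 146) (nat_lit 4) (nat_lit 138) (nat_lit 218) (nat_lit 214)) (PT.lf (nat_lit 11552) (nat_lit 6) (nat_lit 152) (nat_lit 4) (nat_lit 139) (nat_lit 218) (nat_lit 213))) (PT.nd (nat_lit 78) (PT.lf (nat_lit 11932) (nat_lit 6) (nat_lit 157) (nat_lit 4) (nat_lit 140) (nat_lit 218) (nat_lit 212)) (PT.lf (nat_lit 12388) (nat_lit 6) (nat_lit 163) (nat_lit 4) (nat_lit 141) (nat_lit 218) (nat_lit 211))))))) (PT.nd (nat_lit 5304) (PT.nd (nat_lit 546) (PT.nd (nat_lit 234) (PT.nd (nat_lit 78) (PT.lf (nat_lit 12844) (nat_lit 6) (nat_lit 169) (nat_lit 4) (nat_lit 142) (nat_lit 218) (nat_lit 210)) (PT.nd (nat_lit 78) (PT.lf (nat_lit 13300) (nat_lit 6) (nat_lit 175) (nat_lit 4) (nat_lit 143) (nat_lit 218) (nat_lit 209)) (PT.lf (nat_lit 13756) (nat_lit 6) (nat_lit 181) (nat_lit 4) (nat_lit 144) (nat_lit 218) (nat_lit 208)))) (PT.nd (nat_lit 156) (PT.nd (nat_lit 78) (PT.lf (nat_lit 14288) (nat_lit 6) (nat_lit 188) (nat_lit 4) (nat_lit 145)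 (nat_lit 218) (nat_lit 207)) (PT.lf (nat_lit 14744) (nat_lit 6) (nat_lit 194) (nat_lit 4) (nat_lit 146) (nat_lit 218) (nat_lit 206))) (PT.nd (nat_lit 78) (PT.lf (nat_lit 15276) (nat_lit 6) (nat_lit 201) (nat_lit 4) (nat_lit 147) (nat_lit 218) (nat_lit 205)) (PT.lf (nat_lit 15808) (nat_lit 6) (nat_lit 208) (nat_lit 4) (nat_lit 148) (nat_lit 218) (nat_lit 204))))) (PT.nd (nat_lit 4446) (PT.nd (nat_lit 4290) (PT.nd (nat_lit 4212) (PT.lf (nat_lit 16416) (nat_lit 6) (nat_lit 216) (nat_lit 4) (nat_lit 149) (nat_lit 218) (nat_lit 203)) (PT.lf (nat_lit 16416) (nat_lit 6) (nat_lit 216) (nat_lit 2) (nat_lit 203) (nat_lit 218) (nat_lit 149))) (PT.nd (nat_lit 78) (PT.lf (nat_lit 15808) (nat_lit 6) (nat_lit 208) (nat_lit 2) (nat_lit 204) (nat_lit 218) (nat_lit 148)) (PT.lf (nat_lit 15276) (nat_lit 6) (nat_lit 201) (nat_lit 2) (nat_lit 205) (nat_lit 218) (nat_lit 147)))) (PT.nd (nat_lit 156) (PT.nd (nat_lit 78) (PT.lf (nat_lit 14744)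 (nat_lit 6) (nat_lit 194) (nat_lit 2) (nat_lit 206) (nat_lit 218) (nat_lit 146)) (PT.lf (nat_lit 14288) (nat_lit 6) (nat_lit 188) (nat_lit 2) (nat_lit 207) (nat_lit 218) (nat_lit 145))) (PT.nd (nat_lit 78) (PT.lf (nat_lit 13756) (nat_lit 6) (nat_lit 181) (nat_lit 2) (nat_lit 208) (nat_lit 218) (nat_lit 144)) (PT.lf (nat_lit 13300) (nat_lit 6) (nat_lit 175) (nat_lit 2) (nat_lit 209) (nat_lit 218) (nat_lit 143)))))) (PT.nd (nat_lit 546) (PT.nd (nat_lit 234) (PT.nd (nat_lit 78) (PT.lf (nat_lit 12844) (nat_lit 6) (nat_lit 169) (nat_lit 2) (nat_lit 210) (nat_lit 218) (nat_lit 142)) (PT.nd (nat_lit 78) (PT.lf (nat_lit 12388) (nat_lit 6) (nat_lit 163) (nat_lit 2) (nat_lit 211) (nat_lit 218) (nat_lit 141)) (PT.lf (nat_lit 11932) (nat_lit 6) (nat_lit 157) (nat_lit 2) (nat_lit 212) (nat_lit 218) (nat_lit 140)))) (PT.nd (nat_lit 156) (PT.nd (nat_lit 78) (PT.lf (nat_lit 11552) (nat_lit 6) (nat_lit 152) (nat_lit 2) (nat_lit 213)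 (nat_lit 218) (nat_lit 139)) (PT.lf (nat_lit 11096) (nat_lit 6) (nat_lit 146) (nat_lit 2) (nat_lit 214) (nat_lit 218) (nat_lit 138))) (PT.nd (nat_lit 78) (PT.lf (nat_lit 10716) (nat_lit 6) (nat_lit 141) (nat_lit 2) (nat_lit 215) (nat_lit 218) (nat_lit 137)) (PT.lf (nat_lit 10336) (nat_lit 6) (nat_lit 136) (nat_lit 2) (nat_lit 216) (nat_lit 218) (nat_lit 136))))) (PT.nd (nat_lit 312) (PT.nd (nat_lit 156) (PT.nd (nat_lit 78) (PT.lf (nat_lit 9956) (nat_lit 6) (nat_lit 131) (nat_lit 2) (nat_lit 217) (nat_lit 218) (nat_lit 135)) (PT.lf (nat_lit 9576) (nat_lit 3) (nat_lit 126) (nat_lit 0) (nat_lit 218) (nat_lit 218) (nat_lit 134))) (PT.nd (nat_lit 78) (PT.lf (nat_lit 9196) (nat_lit 6) (nat_lit 121) (nat_lit 0) (nat_lit 219) (nat_lit 218) (nat_lit 133)) (PT.lf (nat_lit 8740) (nat_lit 6) (nat_lit 115) (nat_lit 0) (nat_lit 220) (nat_lit 218) (nat_lit 132)))) (PT.nd (nat_lit 156) (PT.nd (nat_lit 78) (PT.lf (nat_lit 8360) (nat_lit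 6) (nat_lit 110) (nat_lit 0) (nat_lit 221) (nat_lit 218) (nat_lit 131)) (PT.lf (nat_lit 7980) (nat_lit 6) (nat_lit 105) (nat_lit 0) (nat_lit 222) (nat_lit 218) (nat_lit 130))) (PT.nd (nat_lit 78) (PT.lf (nat_lit 7600) (nat_lit 6) (nat_lit 100) (nat_lit 0) (nat_lit 223) (nat_lit 218) (nat_lit 129)) (PT.lf (nat_lit 7220) (nat_lit 6) (nat_lit 95) (nat_lit 0) (nat_lit 224) (nat_lit 218) (nat_lit 128))))))))
noncomputable def pc57 : PT := (PT.nd (nat_lit 58500) (PT.nd (nat_lit 52650) (PT.nd (nat_lit 52026) (PT.nd (nat_lit 51714) (PT.nd (nat_lit 51558) (PT.lf (nat_lit 6840) (nat_lit 6) (nat_lit 90) (nat_lit 0) (nat_lit 225) (nat_lit 218) (nat_lit 127)) (PT.nd (nat_lit 78) (PT.lf (nat_lit 6232) (nat_lit 6) (nat_lit 82) (nat_lit 5) (nat_lit 125) (nat_lit 219) (nat_lit 226)) (PT.lf (nat_lit 6536) (nat_lit 6) (nat_lit 86) (nat_lit 5) (nat_lit 126) (nat_lit 219) (nat_lit 225)))) (PT.nd (nat_lit 156) (PT.nd (nat_lit 78) (PT.lf (nat_lit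 6916) (nat_lit 6) (nat_lit 91) (nat_lit 5) (nat_lit 127) (nat_lit 219) (nat_lit 224)) (PT.lf (nat_lit 7296) (nat_lit 6) (nat_lit 96) (nat_lit 5) (nat_lit 128) (nat_lit 219) (nat_lit 223))) (PT.nd (nat_lit 78) (PT.lf (nat_lit 7676) (nat_lit 6) (nat_lit 101) (nat_lit 5) (nat_lit 129) (nat_lit 219) (nat_lit 222)) (PT.lf (nat_lit 8056) (nat_lit 6) (nat_lit 106) (nat_lit 5) (nat_lit 130) (nat_lit 219) (nat_lit 221))))) (PT.nd (nat_lit 312) (PT.nd (nat_lit 156) (PT.nd (nat_lit 78) (PT.lf (nat_lit 8436) (nat_lit 6) (nat_lit 111) (nat_lit 5) (nat_lit 131) (nat_lit 219) (nat_lit 220)) (PT.lf (nat_lit 8816) (nat_lit 3) (nat_lit 116) (nat_lit 4) (nat_lit 132) (nat_lit 219) (nat_lit 219))) (PT.nd (nat_lit 78) (PT.lf (nat_lit 9196) (nat_lit 6) (nat_lit 121) (nat_lit 4) (nat_lit 133) (nat_lit 219) (nat_lit 218)) (PT.lf (nat_lit 9500) (nat_lit 6) (nat_lit 125) (nat_lit 4) (nat_lit 134) (nat_lit 219) (nat_lit 217)))) (PT.nd (nat_lit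 156) (PT.nd (nat_lit 78) (PT.lf (nat_lit 9880) (nat_lit 6) (nat_lit 130) (nat_lit 4) (nat_lit 135) (nat_lit 219) (nat_lit 216)) (PT.lf (nat_lit 10260) (nat_lit 6) (nat_lit 135) (nat_lit 4) (nat_lit 136) (nat_lit 219) (nat_lit 215))) (PT.nd (nat_lit 78) (PT.lf (nat_lit 10640) (nat_lit 6) (nat_lit 140) (nat_lit 4) (nat_lit 137) (nat_lit 219) (nat_lit 214)) (PT.lf (nat_lit 11020) (nat_lit 6) (nat_lit 145) (nat_lit 4) (nat_lit 138) (nat_lit 219) (nat_lit 213)))))) (PT.nd (nat_lit 5226) (PT.nd (nat_lit 234) (PT.nd (nat_lit 78) (PT.lf (nat_lit 11476) (nat_lit 6) (nat_lit 151) (nat_lit 4) (nat_lit 139) (nat_lit 219) (nat_lit 212)) (PT.nd (nat_lit 78) (PT.lf (nat_lit 11856) (nat_lit 6) (nat_lit 156) (nat_lit 4) (nat_lit 140) (nat_lit 219) (nat_lit 211)) (PT.lf (nat_lit 12312) (nat_lit 6) (nat_lit 162) (nat_lit 4) (nat_lit 141) (nat_lit 219) (nat_lit 210)))) (PT.nd (nat_lit 156) (PT.nd (nat_lit 78) (PT.lf (nat_lit 12768) (nat_lit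 6) (nat_lit 168) (nat_lit 4) (nat_lit 142) (nat_lit 219) (nat_lit 209)) (PT.lf (nat_lit 13224) (nat_lit 6) (nat_lit 174) (nat_lit 4) (nat_lit 143) (nat_lit 219) (nat_lit 208))) (PT.nd (nat_lit 78) (PT.lf (nat_lit 13680) (nat_lit 6) (nat_lit 180) (nat_lit 4) (nat_lit 144) (nat_lit 219) (nat_lit 207)) (PT.lf (nat_lit 14212) (nat_lit 6) (nat_lit 187) (nat_lit 4) (nat_lit 145) (nat_lit 219) (nat_lit 206))))) (PT.nd (nat_lit 312) (PT.nd (nat_lit 156) (PT.nd (nat_lit 78) (PT.lf (nat_lit 14212) (nat_lit 6) (nat_lit 187) (nat_lit 2) (nat_lit 206) (nat_lit 219) (nat_lit 145)) (PT.lf (nat_lit 13680) (nat_lit 6) (nat_lit 180) (nat_lit 2) (nat_lit 207) (nat_lit 219) (nat_lit 144))) (PT.nd (nat_lit 78) (PT.lf (nat_lit 13224) (nat_lit 6) (nat_lit 174) (nat_lit 2) (nat_lit 208) (nat_lit 219) (nat_lit 143)) (PT.lf (nat_lit 12768) (nat_lit 6) (nat_lit 168) (nat_lit 2) (nat_lit 209) (nat_lit 219) (nat_lit 142)))) (PT.nd (nat_lit 156)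 (PT.nd (nat_lit 78) (PT.lf (nat_lit 12312) (nat_lit 6) (nat_lit 162) (nat_lit 2) (nat_lit 210) (nat_lit 219) (nat_lit 141)) (PT.lf (nat_lit 11856) (nat_lit 6) (nat_lit 156) (nat_lit 2) (nat_lit 211) (nat_lit 219) (nat_lit 140))) (PT.nd (nat_lit 78) (PT.lf (nat_lit 11476) (nat_lit 6) (nat_lit 151) (nat_lit 2) (nat_lit 212) (nat_lit 219) (nat_lit 139)) (PT.lf (nat_lit 11020) (nat_lit 6) (nat_lit 145) (nat_lit 2) (nat_lit 213) (nat_lit 219) (nat_lit 138))))))) (PT.nd (nat_lit 52494) (PT.nd (nat_lit 546) (PT.nd (nat_lit 234) (PT.nd (nat_lit 78) (PT.lf (nat_lit 10640) (nat_lit 6) (nat_lit 140) (nat_lit 2) (nat_lit 214) (nat_lit 219) (nat_lit 137)) (PT.nd (nat_lit 78) (PT.lf (nat_lit 10260) (nat_lit 6) (nat_lit 135) (nat_lit 2) (nat_lit 215) (nat_lit 219) (nat_lit 136)) (PT.lf (nat_lit 9880) (nat_lit 6) (nat_lit 130) (nat_lit 2) (nat_lit 216) (nat_lit 219) (nat_lit 135)))) (PT.nd (nat_lit 156) (PT.nd (nat_lit 78) (PT.lf (nat_lit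 9500) (nat_lit 6) (nat_lit 125) (nat_lit 2) (nat_lit 217) (nat_lit 219) (nat_lit 134)) (PT.lf (nat_lit 9196) (nat_lit 6) (nat_lit 121) (nat_lit 2) (nat_lit 218) (nat_lit 219) (nat_lit 133))) (PT.nd (nat_lit 78) (PT.lf (nat_lit 8816) (nat_lit 3) (nat_lit 116) (nat_lit 0) (nat_lit 219) (nat_lit 219) (nat_lit 132)) (PT.lf (nat_lit 8436) (nat_lit 6) (nat_lit 111) (nat_lit 0) (nat_lit 220) (nat_lit 219) (nat_lit 131))))) (PT.nd (nat_lit 312) (PT.nd (nat_lit 156) (PT.nd (nat_lit 78) (PT.lf (nat_lit 8056) (nat_lit 6) (nat_lit 106) (nat_lit 0) (nat_lit 221) (nat_lit 219) (nat_lit 130)) (PT.lf (nat_lit 7676) (nat_lit 6) (nat_lit 101) (nat_lit 0) (nat_lit 222) (nat_lit 219) (nat_lit 129))) (PT.nd (nat_lit 78) (PT.lf (nat_lit 7296) (nat_lit 6) (nat_lit 96) (nat_lit 0) (nat_lit 223) (nat_lit 219) (nat_lit 128)) (PT.lf (nat_lit 6916) (nat_lit 6) (nat_lit 91) (nat_lit 0) (nat_lit 224) (nat_lit 219) (nat_lit 127)))) (PT.nd (nat_lit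 51480) (PT.nd (nat_lit 78) (PT.lf (nat_lit 6536) (nat_lit 6) (nat_lit 86) (nat_lit 0) (nat_lit 225) (nat_lit 219) (nat_lit 126)) (PT.lf (nat_lit 6232) (nat_lit 6) (nat_lit 82) (nat_lit 0) (nat_lit 226) (nat_lit 219) (nat_lit 125))) (PT.nd (nat_lit 78) (PT.lf (nat_lit 5928) (nat_lit 6) (nat_lit 78) (nat_lit 5) (nat_lit 124) (nat_lit 220) (nat_lit 226)) (PT.lf (nat_lit 6308) (nat_lit 6) (nat_lit 83) (nat_lit 5) (nat_lit 125) (nat_lit 220) (nat_lit 225)))))) (PT.nd (nat_lit 546) (PT.nd (nat_lit 234) (PT.nd (nat_lit 78) (PT.lf (nat_lit 6612) (nat_lit 6) (nat_lit 87) (nat_lit 5) (nat_lit 126) (nat_lit 220) (nat_lit 224)) (PT.nd (nat_lit 78) (PT.lf (nat_lit 6992) (nat_lit 6) (nat_lit 92) (nat_lit 5) (nat_lit 127) (nat_lit 220) (nat_lit 223)) (PT.lf (nat_lit 7372) (nat_lit 6) (nat_lit 97) (nat_lit 5) (nat_lit 128) (nat_lit 220) (nat_lit 222)))) (PT.nd (nat_lit 156) (PT.nd (nat_lit 78) (PT.lf (nat_lit 7752) (nat_lit 6) (nat_lit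 102) (nat_lit 5) (nat_lit 129) (nat_lit 220) (nat_lit 221)) (PT.lf (nat_lit 8132) (nat_lit 3) (nat_lit 107) (nat_lit 4) (nat_lit 130) (nat_lit 220) (nat_lit 220))) (PT.nd (nat_lit 78) (PT.lf (nat_lit 8436) (nat_lit 6) (nat_lit 111) (nat_lit 4) (nat_lit 131) (nat_lit 220) (nat_lit 219)) (PT.lf (nat_lit 8740) (nat_lit 6) (nat_lit 115) (nat_lit 4) (nat_lit 132) (nat_lit 220) (nat_lit 218))))) (PT.nd (nat_lit 312) (PT.nd (nat_lit 156) (PT.nd (nat_lit 78) (PT.lf (nat_lit 9120) (nat_lit 6) (nat_lit 120) (nat_lit 4) (nat_lit 133) (nat_lit 220) (nat_lit 217)) (PT.lf (nat_lit 9424) (nat_lit 6) (nat_lit 124) (nat_lit 4) (nat_lit 134) (nat_lit 220) (nat_lit 216))) (PT.nd (nat_lit 78) (PT.lf (nat_lit 9804) (nat_lit 6) (nat_lit 129) (nat_lit 4) (nat_lit 135) (nat_lit 220) (nat_lit 215)) (PT.lf (nat_lit 10184) (nat_lit 6) (nat_lit 134) (nat_lit 4) (nat_lit 136) (nat_lit 220) (nat_lit 214)))) (PT.nd (nat_lit 156) (PT.nd (nat_lit 78)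 (PT.lf (nat_lit 10564) (nat_lit 6) (nat_lit 139) (nat_lit 4) (nat_lit 137) (nat_lit 220) (nat_lit 213)) (PT.lf (nat_lit 10944) (nat_lit 6) (nat_lit 144) (nat_lit 4) (nat_lit 138) (nat_lit 220) (nat_lit 212))) (PT.nd (nat_lit 78) (PT.lf (nat_lit 11400) (nat_lit 6) (nat_lit 150) (nat_lit 4) (nat_lit 139) (nat_lit 220) (nat_lit 211)) (PT.lf (nat_lit 11780) (nat_lit 6) (nat_lit 155) (nat_lit 4) (nat_lit 140) (nat_lit 220) (nat_lit 210))))))))
noncomputable def pc58 : PT := (PT.nd (nat_lit 58578) (PT.nd (nat_lit 6240) (PT.nd (nat_lit 5616) (PT.nd (nat_lit 5304) (PT.nd (nat_lit 78) (PT.lf (nat_lit 12236) (nat_lit 6) (nat_lit 161) (nat_lit 4) (nat_lit 141) (nat_lit 220) (nat_lit 209)) (PT.nd (nat_lit 5148) (PT.lf (nat_lit 12692) (nat_lit 6) (nat_lit 167) (nat_lit 4) (nat_lit 142) (nat_lit 220) (nat_lit 208)) (PT.lf (nat_lit 12692) (nat_lit 6) (nat_lit 167) (nat_lit 2) (nat_lit 208) (nat_lit 220) (nat_lit 142)))) (PT.nd (nat_lit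 156) (PT.nd (nat_lit 78) (PT.lf (nat_lit 12236) (nat_lit 6) (nat_lit 161) (nat_lit 2) (nat_lit 209) (nat_lit 220) (nat_lit 141)) (PT.lf (nat_lit 11780) (nat_lit 6) (nat_lit 155) (nat_lit 2) (nat_lit 210) (nat_lit 220) (nat_lit 140))) (PT.nd (nat_lit 78) (PT.lf (nat_lit 11400) (nat_lit 6) (nat_lit 150) (nat_lit 2) (nat_lit 211) (nat_lit 220) (nat_lit 139)) (PT.lf (nat_lit 10944) (nat_lit 6) (nat_lit 144) (nat_lit 2) (nat_lit 212) (nat_lit 220) (nat_lit 138))))) (PT.nd (nat_lit 312) (PT.nd (nat_lit 156) (PT.nd (nat_lit 78) (PT.lf (nat_lit 10564) (nat_lit 6) (nat_lit 139) (nat_lit 2) (nat_lit 213) (nat_lit 220) (nat_lit 137)) (PT.lf (nat_lit 10184) (nat_lit 6) (nat_lit 134) (nat_lit 2) (nat_lit 214) (nat_lit 220) (nat_lit 136))) (PT.nd (nat_lit 78) (PT.lf (nat_lit 9804) (nat_lit 6) (nat_lit 129) (nat_lit 2) (nat_lit 215) (nat_lit 220) (nat_lit 135)) (PT.lf (nat_lit 9424) (nat_lit 6) (nat_lit 124) (nat_lit 2) (nat_lit 216)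 (nat_lit 220) (nat_lit 134)))) (PT.nd (nat_lit 156) (PT.nd (nat_lit 78) (PT.lf (nat_lit 9120) (nat_lit 6) (nat_lit 120) (nat_lit 2) (nat_lit 217) (nat_lit 220) (nat_lit 133)) (PT.lf (nat_lit 8740) (nat_lit 6) (nat_lit 115) (nat_lit 2) (nat_lit 218) (nat_lit 220) (nat_lit 132))) (PT.nd (nat_lit 78) (PT.lf (nat_lit 8436) (nat_lit 6) (nat_lit 111) (nat_lit 2) (nat_lit 219) (nat_lit 220) (nat_lit 131)) (PT.lf (nat_lit 8132) (nat_lit 3) (nat_lit 107) (nat_lit 0) (nat_lit 220) (nat_lit 220) (nat_lit 130)))))) (PT.nd (nat_lit 51714) (PT.nd (nat_lit 234) (PT.nd (nat_lit 78) (PT.lf (nat_lit 7752) (nat_lit 6) (nat_lit 102) (nat_lit 0) (nat_lit 221) (nat_lit 220) (nat_lit 129)) (PT.nd (nat_lit 78) (PT.lf (nat_lit 7372) (nat_lit 6) (nat_lit 97) (nat_lit 0) (nat_lit 222) (nat_lit 220) (nat_lit 128)) (PT.lf (nat_lit 6992) (nat_lit 6) (nat_lit 92) (nat_lit 0) (nat_lit 223) (nat_lit 220) (nat_lit 127)))) (PT.nd (nat_lit 156) (PT.nd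 (nat_lit 78) (PT.lf (nat_lit 6612) (nat_lit 6) (nat_lit 87) (nat_lit 0) (nat_lit 224) (nat_lit 220) (nat_lit 126)) (PT.lf (nat_lit 6308) (nat_lit 6) (nat_lit 83) (nat_lit 0) (nat_lit 225) (nat_lit 220) (nat_lit 125))) (PT.nd (nat_lit 51246) (PT.lf (nat_lit 5928) (nat_lit 6) (nat_lit 78) (nat_lit 0) (nat_lit 226) (nat_lit 220) (nat_lit 124)) (PT.lf (nat_lit 5320) (nat_lit 6) (nat_lit 70) (nat_lit 5) (nat_lit 122) (nat_lit 221) (nat_lit 227))))) (PT.nd (nat_lit 312) (PT.nd (nat_lit 156) (PT.nd (nat_lit 78) (PT.lf (nat_lit 5700) (nat_lit 6) (nat_lit 75) (nat_lit 5) (nat_lit 123) (nat_lit 221) (nat_lit 226)) (PT.lf (nat_lit 6004) (nat_lit 6) (nat_lit 79) (nat_lit 5) (nat_lit 124) (nat_lit 221) (nat_lit 225))) (PT.nd (nat_lit 78) (PT.lf (nat_lit 6384) (nat_lit 6) (nat_lit 84) (nat_lit 5) (nat_lit 125) (nat_lit 221) (nat_lit 224)) (PT.lf (nat_lit 6688) (nat_lit 6) (nat_lit 88) (nat_lit 5) (nat_lit 126) (nat_lit 221) (nat_lit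 223)))) (PT.nd (nat_lit 156) (PT.nd (nat_lit 78) (PT.lf (nat_lit 7068) (nat_lit 6) (nat_lit 93) (nat_lit 5) (nat_lit 127) (nat_lit 221) (nat_lit 222)) (PT.lf (nat_lit 7448) (nat_lit 3) (nat_lit 98) (nat_lit 4) (nat_lit 128) (nat_lit 221) (nat_lit 221))) (PT.nd (nat_lit 78) (PT.lf (nat_lit 7752) (nat_lit 6) (nat_lit 102) (nat_lit 4) (nat_lit 129) (nat_lit 221) (nat_lit 220)) (PT.lf (nat_lit 8056) (nat_lit 6) (nat_lit 106) (nat_lit 4) (nat_lit 130) (nat_lit 221) (nat_lit 219))))))) (PT.nd (nat_lit 6630) (PT.nd (nat_lit 546) (PT.nd (nat_lit 234) (PT.nd (nat_lit 78) (PT.lf (nat_lit 8360) (nat_lit 6) (nat_lit 110) (nat_lit 4) (nat_lit 131) (nat_lit 221) (nat_lit 218)) (PT.nd (nat_lit 78) (PT.lf (nat_lit 8664) (nat_lit 6) (nat_lit 114) (nat_lit 4) (nat_lit 132) (nat_lit 221) (nat_lit 217)) (PT.lf (nat_lit 9044) (nat_lit 6) (nat_lit 119) (nat_lit 4) (nat_lit 133) (nat_lit 221) (nat_lit 216)))) (PT.nd (nat_lit 156) (PT.nd (nat_lit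 78) (PT.lf (nat_lit 9348) (nat_lit 6) (nat_lit 123) (nat_lit 4) (nat_lit 134) (nat_lit 221) (nat_lit 215)) (PT.lf (nat_lit 9728) (nat_lit 6) (nat_lit 128) (nat_lit 4) (nat_lit 135) (nat_lit 221) (nat_lit 214))) (PT.nd (nat_lit 78) (PT.lf (nat_lit 10108) (nat_lit 6) (nat_lit 133) (nat_lit 4) (nat_lit 136) (nat_lit 221) (nat_lit 213)) (PT.lf (nat_lit 10488) (nat_lit 6) (nat_lit 138) (nat_lit 4) (nat_lit 137) (nat_lit 221) (nat_lit 212))))) (PT.nd (nat_lit 5772) (PT.nd (nat_lit 5616) (PT.nd (nat_lit 78) (PT.lf (nat_lit 10868) (nat_lit 6) (nat_lit 143) (nat_lit 4) (nat_lit 138) (nat_lit 221) (nat_lit 211)) (PT.lf (nat_lit 11324) (nat_lit 6) (nat_lit 149) (nat_lit 4) (nat_lit 139) (nat_lit 221) (nat_lit 210))) (PT.nd (nat_lit 78) (PT.lf (nat_lit 11324) (nat_lit 6) (nat_lit 149) (nat_lit 2) (nat_lit 210) (nat_lit 221) (nat_lit 139)) (PT.lf (nat_lit 10868) (nat_lit 6) (nat_lit 143) (nat_lit 2) (nat_lit 211) (nat_lit 221) (nat_lit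 138)))) (PT.nd (nat_lit 156) (PT.nd (nat_lit 78) (PT.lf (nat_lit 10488) (nat_lit 6) (nat_lit 138) (nat_lit 2) (nat_lit 212) (nat_lit 221) (nat_lit 137)) (PT.lf (nat_lit 10108) (nat_lit 6) (nat_lit 133) (nat_lit 2) (nat_lit 213) (nat_lit 221) (nat_lit 136))) (PT.nd (nat_lit 78) (PT.lf (nat_lit 9728) (nat_lit 6) (nat_lit 128) (nat_lit 2) (nat_lit 214) (nat_lit 221) (nat_lit 135)) (PT.lf (nat_lit 9348) (nat_lit 6) (nat_lit 123) (nat_lit 2) (nat_lit 215) (nat_lit 221) (nat_lit 134)))))) (PT.nd (nat_lit 546) (PT.nd (nat_lit 234) (PT.nd (nat_lit 78) (PT.lf (nat_lit 9044) (nat_lit 6) (nat_lit 119) (nat_lit 2) (nat_lit 216) (nat_lit 221) (nat_lit 133)) (PT.nd (nat_lit 78) (PT.lf (nat_lit 8664) (nat_lit 6) (nat_lit 114) (nat_lit 2) (nat_lit 217) (nat_lit 221) (nat_lit 132)) (PT.lf (nat_lit 8360) (nat_lit 6) (nat_lit 110) (nat_lit 2) (nat_lit 218) (nat_lit 221) (nat_lit 131)))) (PT.nd (nat_lit 156) (PT.nd (nat_lit 78) (PT.lf (nat_lit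 8056) (nat_lit 6) (nat_lit 106) (nat_lit 2) (nat_lit 219) (nat_lit 221) (nat_lit 130)) (PT.lf (nat_lit 7752) (nat_lit 6) (nat_lit 102) (nat_lit 2) (nat_lit 220) (nat_lit 221) (nat_lit 129))) (PT.nd (nat_lit 78) (PT.lf (nat_lit 7448) (nat_lit 3) (nat_lit 98) (nat_lit 0) (nat_lit 221) (nat_lit 221) (nat_lit 128)) (PT.lf (nat_lit 7068) (nat_lit 6) (nat_lit 93) (nat_lit 0) (nat_lit 222) (nat_lit 221) (nat_lit 127))))) (PT.nd (nat_lit 312) (PT.nd (nat_lit 156) (PT.nd (nat_lit 78) (PT.lf (nat_lit 6688) (nat_lit 6) (nat_lit 88) (nat_lit 0) (nat_lit 223) (nat_lit 221) (nat_lit 126)) (PT.lf (nat_lit 6384) (nat_lit 6) (nat_lit 84) (nat_lit 0) (nat_lit 224) (nat_lit 221) (nat_lit 125))) (PT.nd (nat_lit 78) (PT.lf (nat_lit 6004) (nat_lit 6) (nat_lit 79) (nat_lit 0) (nat_lit 225) (nat_lit 221) (nat_lit 124)) (PT.lf (nat_lit 5700) (nat_lit 6) (nat_lit 75) (nat_lit 0) (nat_lit 226) (nat_lit 221) (nat_lit 123)))) (PT.nd (nat_lit 51090)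 (PT.nd (nat_lit 51012) (PT.lf (nat_lit 5320) (nat_lit 6) (nat_lit 70) (nat_lit 0) (nat_lit 227) (nat_lit 221) (nat_lit 122)) (PT.lf (nat_lit 4788) (nat_lit 6) (nat_lit 63) (nat_lit 5) (nat_lit 120) (nat_lit 222) (nat_lit 228))) (PT.nd (nat_lit 78) (PT.lf (nat_lit 5092) (nat_lit 6) (nat_lit 67) (nat_lit 5) (nat_lit 121) (nat_lit 222) (nat_lit 227)) (PT.lf (nat_lit 5396) (nat_lit 6) (nat_lit 71) (nat_lit 5) (nat_lit 122) (nat_lit 222) (nat_lit 226))))))))
noncomputable def pc59 : PT := (PT.nd (nat_lit 8190) (PT.nd (nat_lit 7020) (PT.nd (nat_lit 546) (PT.nd (nat_lit 234) (PT.nd (nat_lit 78) (PT.lf (nat_lit 5776) (nat_lit 6) (nat_lit 76) (nat_lit 5) (nat_lit 123) (nat_lit 222) (nat_lit 225)) (PT.nd (nat_lit 78) (PT.lf (nat_lit 6080) (nat_lit 6) (nat_lit 80) (nat_lit 5) (nat_lit 124) (nat_lit 222) (nat_lit 224)) (PT.lf (nat_lit 6460) (nat_lit 6) (nat_lit 85) (nat_lit 5) (nat_lit 125) (nat_lit 222) (nat_lit 223)))) (PT.nd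 (nat_lit 156) (PT.nd (nat_lit 78) (PT.lf (nat_lit 6764) (nat_lit 3) (nat_lit 89) (nat_lit 4) (nat_lit 126) (nat_lit 222) (nat_lit 222)) (PT.lf (nat_lit 7068) (nat_lit 6) (nat_lit 93) (nat_lit 4) (nat_lit 127) (nat_lit 222) (nat_lit 221))) (PT.nd (nat_lit 78) (PT.lf (nat_lit 7372) (nat_lit 6) (nat_lit 97) (nat_lit 4) (nat_lit 128) (nat_lit 222) (nat_lit 220)) (PT.lf (nat_lit 7676) (nat_lit 6) (nat_lit 101) (nat_lit 4) (nat_lit 129) (nat_lit 222) (nat_lit 219))))) (PT.nd (nat_lit 312) (PT.nd (nat_lit 156) (PT.nd (nat_lit 78) (PT.lf (nat_lit 7980) (nat_lit 6) (nat_lit 105) (nat_lit 4) (nat_lit 130) (nat_lit 222) (nat_lit 218)) (PT.lf (nat_lit 8284) (nat_lit 6) (nat_lit 109) (nat_lit 4) (nat_lit 131) (nat_lit 222) (nat_lit 217))) (PT.nd (nat_lit 78) (PT.lf (nat_lit 8588) (nat_lit 6) (nat_lit 113) (nat_lit 4) (nat_lit 132) (nat_lit 222) (nat_lit 216)) (PT.lf (nat_lit 8968) (nat_lit 6) (nat_lit 118) (nat_lit 4) (nat_lit 133)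 (nat_lit 222) (nat_lit 215)))) (PT.nd (nat_lit 156) (PT.nd (nat_lit 78) (PT.lf (nat_lit 9272) (nat_lit 6) (nat_lit 122) (nat_lit 4) (nat_lit 134) (nat_lit 222) (nat_lit 214)) (PT.lf (nat_lit 9652) (nat_lit 6) (nat_lit 127) (nat_lit 4) (nat_lit 135) (nat_lit 222) (nat_lit 213))) (PT.nd (nat_lit 5928) (PT.lf (nat_lit 10032) (nat_lit 6) (nat_lit 132) (nat_lit 4) (nat_lit 136) (nat_lit 222) (nat_lit 212)) (PT.lf (nat_lit 10032) (nat_lit 6) (nat_lit 132) (nat_lit 2) (nat_lit 212) (nat_lit 222) (nat_lit 136)))))) (PT.nd (nat_lit 546) (PT.nd (nat_lit 234) (PT.nd (nat_lit 78) (PT.lf (nat_lit 9652) (nat_lit 6) (nat_lit 127) (nat_lit 2) (nat_lit 213) (nat_lit 222) (nat_lit 135)) (PT.nd (nat_lit 78) (PT.lf (nat_lit 9272) (nat_lit 6) (nat_lit 122) (nat_lit 2) (nat_lit 214) (nat_lit 222) (nat_lit 134)) (PT.lf (nat_lit 8968) (nat_lit 6) (nat_lit 118) (nat_lit 2) (nat_lit 215) (nat_lit 222) (nat_lit 133)))) (PT.nd (nat_lit 156) (PT.nd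 (nat_lit 78) (PT.lf (nat_lit 8588) (nat_lit 6) (nat_lit 113) (nat_lit 2) (nat_lit 216) (nat_lit 222) (nat_lit 132)) (PT.lf (nat_lit 8284) (nat_lit 6) (nat_lit 109) (nat_lit 2) (nat_lit 217) (nat_lit 222) (nat_lit 131))) (PT.nd (nat_lit 78) (PT.lf (nat_lit 7980) (nat_lit 6) (nat_lit 105) (nat_lit 2) (nat_lit 218) (nat_lit 222) (nat_lit 130)) (PT.lf (nat_lit 7676) (nat_lit 6) (nat_lit 101) (nat_lit 2) (nat_lit 219) (nat_lit 222) (nat_lit 129))))) (PT.nd (nat_lit 312) (PT.nd (nat_lit 156) (PT.nd (nat_lit 78) (PT.lf (nat_lit 7372) (nat_lit 6) (nat_lit 97) (nat_lit 2) (nat_lit 220) (nat_lit 222) (nat_lit 128)) (PT.lf (nat_lit 7068) (nat_lit 6) (nat_lit 93) (nat_lit 2) (nat_lit 221) (nat_lit 222) (nat_lit 127))) (PT.nd (nat_lit 78) (PT.lf (nat_lit 6764) (nat_lit 3) (nat_lit 89) (nat_lit 0) (nat_lit 222) (nat_lit 222) (nat_lit 126)) (PT.lf (nat_lit 6460) (nat_lit 6) (nat_lit 85) (nat_lit 0) (nat_lit 223) (nat_lit 222) (nat_lit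 125)))) (PT.nd (nat_lit 156) (PT.nd (nat_lit 78) (PT.lf (nat_lit 6080) (nat_lit 6) (nat_lit 80) (nat_lit 0) (nat_lit 224) (nat_lit 222) (nat_lit 124)) (PT.lf (nat_lit 5776) (nat_lit 6) (nat_lit 76) (nat_lit 0) (nat_lit 225) (nat_lit 222) (nat_lit 123))) (PT.nd (nat_lit 78) (PT.lf (nat_lit 5396) (nat_lit 6) (nat_lit 71) (nat_lit 0) (nat_lit 226) (nat_lit 222) (nat_lit 122)) (PT.lf (nat_lit 5092) (nat_lit 6) (nat_lit 67) (nat_lit 0) (nat_lit 227) (nat_lit 222) (nat_lit 121))))))) (PT.nd (nat_lit 51948) (PT.nd (nat_lit 51324) (PT.nd (nat_lit 51012) (PT.nd (nat_lit 50856) (PT.lf (nat_lit 4788) (nat_lit 6) (nat_lit 63) (nat_lit 0) (nat_lit 228) (nat_lit 222) (nat_lit 120)) (PT.nd (nat_lit 78) (PT.lf (nat_lit 4560) (nat_lit 6) (nat_lit 60) (nat_lit 5) (nat_lit 119) (nat_lit 223) (nat_lit 228)) (PT.lf (nat_lit 4864) (nat_lit 6) (nat_lit 64) (nat_lit 5) (nat_lit 120) (nat_lit 223) (nat_lit 227)))) (PT.nd (nat_lit 156) (PT.nd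 (nat_lit 78) (PT.lf (nat_lit 5168) (nat_lit 6) (nat_lit 68) (nat_lit 5) (nat_lit 121) (nat_lit 223) (nat_lit 226)) (PT.lf (nat_lit 5472) (nat_lit 6) (nat_lit 72) (nat_lit 5) (nat_lit 122) (nat_lit 223) (nat_lit 225))) (PT.nd (nat_lit 78) (PT.lf (nat_lit 5852) (nat_lit 6) (nat_lit 77) (nat_lit 5) (nat_lit 123) (nat_lit 223) (nat_lit 224)) (PT.lf (nat_lit 6156) (nat_lit 3) (nat_lit 81) (nat_lit 4) (nat_lit 124) (nat_lit 223) (nat_lit 223))))) (PT.nd (nat_lit 312) (PT.nd (nat_lit 156) (PT.nd (nat_lit 78) (PT.lf (nat_lit 6460) (nat_lit 6) (nat_lit 85) (nat_lit 4) (nat_lit 125) (nat_lit 223) (nat_lit 222)) (PT.lf (nat_lit 6688) (nat_lit 6) (nat_lit 88) (nat_lit 4) (nat_lit 126) (nat_lit 223) (nat_lit 221))) (PT.nd (nat_lit 78) (PT.lf (nat_lit 6992) (nat_lit 6) (nat_lit 92) (nat_lit 4) (nat_lit 127) (nat_lit 223) (nat_lit 220)) (PT.lf (nat_lit 7296) (nat_lit 6) (nat_lit 96) (nat_lit 4) (nat_lit 128) (nat_lit 223) (nat_lit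 219)))) (PT.nd (nat_lit 156) (PT.nd (nat_lit 78) (PT.lf (nat_lit 7600) (nat_lit 6) (nat_lit 100) (nat_lit 4) (nat_lit 129) (nat_lit 223) (nat_lit 218)) (PT.lf (nat_lit 7904) (nat_lit 6) (nat_lit 104) (nat_lit 4) (nat_lit 130) (nat_lit 223) (nat_lit 217))) (PT.nd (nat_lit 78) (PT.lf (nat_lit 8208) (nat_lit 6) (nat_lit 108) (nat_lit 4) (nat_lit 131) (nat_lit 223) (nat_lit 216)) (PT.lf (nat_lit 8512) (nat_lit 6) (nat_lit 112) (nat_lit 4) (nat_lit 132) (nat_lit 223) (nat_lit 215)))))) (PT.nd (nat_lit 6864) (PT.nd (nat_lit 6552) (PT.nd (nat_lit 6396) (PT.nd (nat_lit 6318) (PT.lf (nat_lit 8892) (nat_lit 6) (nat_lit 117) (nat_lit 4) (nat_lit 133) (nat_lit 223) (nat_lit 214)) (PT.lf (nat_lit 8892) (nat_lit 6) (nat_lit 117) (nat_lit 2) (nat_lit 214) (nat_lit 223) (nat_lit 133))) (PT.nd (nat_lit 78) (PT.lf (nat_lit 8512) (nat_lit 6) (nat_lit 112) (nat_lit 2) (nat_lit 215) (nat_lit 223) (nat_lit 132)) (PT.lf (nat_lit 8208) (nat_lit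 6) (nat_lit 108) (nat_lit 2) (nat_lit 216) (nat_lit 223) (nat_lit 131)))) (PT.nd (nat_lit 156) (PT.nd (nat_lit 78) (PT.lf (nat_lit 7904) (nat_lit 6) (nat_lit 104) (nat_lit 2) (nat_lit 217) (nat_lit 223) (nat_lit 130)) (PT.lf (nat_lit 7600) (nat_lit 6) (nat_lit 100) (nat_lit 2) (nat_lit 218) (nat_lit 223) (nat_lit 129))) (PT.nd (nat_lit 78) (PT.lf (nat_lit 7296) (nat_lit 6) (nat_lit 96) (nat_lit 2) (nat_lit 219) (nat_lit 223) (nat_lit 128)) (PT.lf (nat_lit 6992) (nat_lit 6) (nat_lit 92) (nat_lit 2) (nat_lit 220) (nat_lit 223) (nat_lit 127))))) (PT.nd (nat_lit 312) (PT.nd (nat_lit 156) (PT.nd (nat_lit 78) (PT.lf (nat_lit 6688) (nat_lit 6) (nat_lit 88) (nat_lit 2) (nat_lit 221) (nat_lit 223) (nat_lit 126)) (PT.lf (nat_lit 6460) (nat_lit 6) (nat_lit 85) (nat_lit 2) (nat_lit 222) (nat_lit 223) (nat_lit 125))) (PT.nd (nat_lit 78) (PT.lf (nat_lit 6156) (nat_lit 3) (nat_lit 81) (nat_lit 0) (nat_lit 223) (nat_lit 223) (nat_lit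 124)) (PT.lf (nat_lit 5852) (nat_lit 6) (nat_lit 77) (nat_lit 0) (nat_lit 224) (nat_lit 223) (nat_lit 123)))) (PT.nd (nat_lit 156) (PT.nd (nat_lit 78) (PT.lf (nat_lit 5472) (nat_lit 6) (nat_lit 72) (nat_lit 0) (nat_lit 225) (nat_lit 223) (nat_lit 122)) (PT.lf (nat_lit 5168) (nat_lit 6) (nat_lit 68) (nat_lit 0) (nat_lit 226) (nat_lit 223) (nat_lit 121))) (PT.nd (nat_lit 78) (PT.lf (nat_lit 4864) (nat_lit 6) (nat_lit 64) (nat_lit 0) (nat_lit 227) (nat_lit 223) (nat_lit 120)) (PT.lf (nat_lit 4560) (nat_lit 6) (nat_lit 60) (nat_lit 0) (nat_lit 228) (nat_lit 223) (nat_lit 119))))))))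
noncomputable def pc60 : PT := (PT.nd (nat_lit 59358) (PT.nd (nat_lit 7800) (PT.nd (nat_lit 546) (PT.nd (nat_lit 234) (PT.nd (nat_lit 78) (PT.lf (nat_lit 4028) (nat_lit 6) (nat_lit 53) (nat_lit 5) (nat_lit 117) (nat_lit 224) (nat_lit 229)) (PT.nd (nat_lit 78) (PT.lf (nat_lit 4332) (nat_lit 6) (nat_lit 57) (nat_lit 5) (nat_lit 118) (nat_lit 224) (nat_lit 228)) (PT.lf (nat_lit 4636) (nat_lit 6) (nat_lit 61) (nat_lit 5) (nat_lit 119) (nat_lit 224) (nat_lit 227)))) (PT.nd (nat_lit 156) (PT.nd (nat_lit 78) (PT.lf (nat_lit 4940) (nat_lit 6) (nat_lit 65) (nat_lit 5) (nat_lit 120) (nat_lit 224) (nat_lit 226)) (PT.lf (nat_lit 5244) (nat_lit 6) (nat_lit 69) (nat_lit 5) (nat_lit 121) (nat_lit 224) (nat_lit 225))) (PT.nd (nat_lit 78) (PT.lf (nat_lit 5548) (nat_lit 3) (nat_lit 73) (nat_lit 4) (nat_lit 122) (nat_lit 224) (nat_lit 224)) (PT.lf (nat_lit 5852) (nat_lit 6) (nat_lit 77) (nat_lit 4) (nat_lit 123) (nat_lit 224) (nat_lit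 223))))) (PT.nd (nat_lit 312) (PT.nd (nat_lit 156) (PT.nd (nat_lit 78) (PT.lf (nat_lit 6080) (nat_lit 6) (nat_lit 80) (nat_lit 4) (nat_lit 124) (nat_lit 224) (nat_lit 222)) (PT.lf (nat_lit 6384) (nat_lit 6) (nat_lit 84) (nat_lit 4) (nat_lit 125) (nat_lit 224) (nat_lit 221))) (PT.nd (nat_lit 78) (PT.lf (nat_lit 6612) (nat_lit 6) (nat_lit 87) (nat_lit 4) (nat_lit 126) (nat_lit 224) (nat_lit 220)) (PT.lf (nat_lit 6916) (nat_lit 6) (nat_lit 91) (nat_lit 4) (nat_lit 127) (nat_lit 224) (nat_lit 219)))) (PT.nd (nat_lit 156) (PT.nd (nat_lit 78) (PT.lf (nat_lit 7220) (nat_lit 6) (nat_lit 95) (nat_lit 4) (nat_lit 128) (nat_lit 224) (nat_lit 218)) (PT.lf (nat_lit 7524) (nat_lit 6) (nat_lit 99) (nat_lit 4) (nat_lit 129) (nat_lit 224) (nat_lit 217))) (PT.nd (nat_lit 6708) (PT.lf (nat_lit 7828) (nat_lit 6) (nat_lit 103) (nat_lit 4) (nat_lit 130) (nat_lit 224) (nat_lit 216)) (PT.lf (nat_lit 7828) (nat_lit 6) (nat_lit 103) (nat_lit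 2) (nat_lit 216) (nat_lit 224) (nat_lit 130)))))) (PT.nd (nat_lit 546) (PT.nd (nat_lit 234) (PT.nd (nat_lit 78) (PT.lf (nat_lit 7524) (nat_lit 6) (nat_lit 99) (nat_lit 2) (nat_lit 217) (nat_lit 224) (nat_lit 129)) (PT.nd (nat_lit 78) (PT.lf (nat_lit 7220) (nat_lit 6) (nat_lit 95) (nat_lit 2) (nat_lit 218) (nat_lit 224) (nat_lit 128)) (PT.lf (nat_lit 6916) (nat_lit 6) (nat_lit 91) (nat_lit 2) (nat_lit 219) (nat_lit 224) (nat_lit 127)))) (PT.nd (nat_lit 156) (PT.nd (nat_lit 78) (PT.lf (nat_lit 6612) (nat_lit 6) (nat_lit 87) (nat_lit 2) (nat_lit 220) (nat_lit 224) (nat_lit 126)) (PT.lf (nat_lit 6384) (nat_lit 6) (nat_lit 84) (nat_lit 2) (nat_lit 221) (nat_lit 224) (nat_lit 125))) (PT.nd (nat_lit 78) (PT.lf (nat_lit 6080) (nat_lit 6) (nat_lit 80) (nat_lit 2) (nat_lit 222) (nat_lit 224) (nat_lit 124)) (PT.lf (nat_lit 5852) (nat_lit 6) (nat_lit 77) (nat_lit 2) (nat_lit 223) (nat_lit 224) (nat_lit 123))))) (PT.nd (nat_lit 312)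 (PT.nd (nat_lit 156) (PT.nd (nat_lit 78) (PT.lf (nat_lit 5548) (nat_lit 3) (nat_lit 73) (nat_lit 0) (nat_lit 224) (nat_lit 224) (nat_lit 122)) (PT.lf (nat_lit 5244) (nat_lit 6) (nat_lit 69) (nat_lit 0) (nat_lit 225) (nat_lit 224) (nat_lit 121))) (PT.nd (nat_lit 78) (PT.lf (nat_lit 4940) (nat_lit 6) (nat_lit 65) (nat_lit 0) (nat_lit 226) (nat_lit 224) (nat_lit 120)) (PT.lf (nat_lit 4636) (nat_lit 6) (nat_lit 61) (nat_lit 0) (nat_lit 227) (nat_lit 224) (nat_lit 119)))) (PT.nd (nat_lit 50544) (PT.nd (nat_lit 78) (PT.lf (nat_lit 4332) (nat_lit 6) (nat_lit 57) (nat_lit 0) (nat_lit 228) (nat_lit 224) (nat_lit 118)) (PT.lf (nat_lit 4028) (nat_lit 6) (nat_lit 53) (nat_lit 0) (nat_lit 229) (nat_lit 224) (nat_lit 117))) (PT.nd (nat_lit 78) (PT.lf (nat_lit 3572) (nat_lit 6) (nat_lit 47) (nat_lit 5) (nat_lit 115) (nat_lit 225) (nat_lit 230)) (PT.lf (nat_lit 3800) (nat_lit 6) (nat_lit 50) (nat_lit 5) (nat_lit 116) (nat_lit 225) (nat_lit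 229))))))) (PT.nd (nat_lit 8034) (PT.nd (nat_lit 546) (PT.nd (nat_lit 234) (PT.nd (nat_lit 78) (PT.lf (nat_lit 4104) (nat_lit 6) (nat_lit 54) (nat_lit 5) (nat_lit 117) (nat_lit 225) (nat_lit 228)) (PT.nd (nat_lit 78) (PT.lf (nat_lit 4408) (nat_lit 6) (nat_lit 58) (nat_lit 5) (nat_lit 118) (nat_lit 225) (nat_lit 227)) (PT.lf (nat_lit 4712) (nat_lit 6) (nat_lit 62) (nat_lit 5) (nat_lit 119) (nat_lit 225) (nat_lit 226)))) (PT.nd (nat_lit 156) (PT.nd (nat_lit 78) (PT.lf (nat_lit 5016) (nat_lit 3) (nat_lit 66) (nat_lit 4) (nat_lit 120) (nat_lit 225) (nat_lit 225)) (PT.lf (nat_lit 5244) (nat_lit 6) (nat_lit 69) (nat_lit 4) (nat_lit 121) (nat_lit 225) (nat_lit 224))) (PT.nd (nat_lit 78) (PT.lf (nat_lit 5472) (nat_lit 6) (nat_lit 72) (nat_lit 4) (nat_lit 122) (nat_lit 225) (nat_lit 223)) (PT.lf (nat_lit 5776) (nat_lit 6) (nat_lit 76) (nat_lit 4) (nat_lit 123) (nat_lit 225) (nat_lit 222))))) (PT.nd (nat_lit 312) (PT.nd (nat_lit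 156) (PT.nd (nat_lit 78) (PT.lf (nat_lit 6004) (nat_lit 6) (nat_lit 79) (nat_lit 4) (nat_lit 124) (nat_lit 225) (nat_lit 221)) (PT.lf (nat_lit 6308) (nat_lit 6) (nat_lit 83) (nat_lit 4) (nat_lit 125) (nat_lit 225) (nat_lit 220))) (PT.nd (nat_lit 78) (PT.lf (nat_lit 6536) (nat_lit 6) (nat_lit 86) (nat_lit 4) (nat_lit 126) (nat_lit 225) (nat_lit 219)) (PT.lf (nat_lit 6840) (nat_lit 6) (nat_lit 90) (nat_lit 4) (nat_lit 127) (nat_lit 225) (nat_lit 218)))) (PT.nd (nat_lit 7020) (PT.nd (nat_lit 6942) (PT.lf (nat_lit 7144) (nat_lit 6) (nat_lit 94) (nat_lit 4) (nat_lit 128) (nat_lit 225) (nat_lit 217)) (PT.lf (nat_lit 7144) (nat_lit 6) (nat_lit 94) (nat_lit 2) (nat_lit 217) (nat_lit 225) (nat_lit 128))) (PT.nd (nat_lit 78) (PT.lf (nat_lit 6840) (nat_lit 6) (nat_lit 90) (nat_lit 2) (nat_lit 218) (nat_lit 225) (nat_lit 127)) (PT.lf (nat_lit 6536) (nat_lit 6) (nat_lit 86) (nat_lit 2) (nat_lit 219) (nat_lit 225) (nat_lit 126))))))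 (PT.nd (nat_lit 546) (PT.nd (nat_lit 234) (PT.nd (nat_lit 78) (PT.lf (nat_lit 6308) (nat_lit 6) (nat_lit 83) (nat_lit 2) (nat_lit 220) (nat_lit 225) (nat_lit 125)) (PT.nd (nat_lit 78) (PT.lf (nat_lit 6004) (nat_lit 6) (nat_lit 79) (nat_lit 2) (nat_lit 221) (nat_lit 225) (nat_lit 124)) (PT.lf (nat_lit 5776) (nat_lit 6) (nat_lit 76) (nat_lit 2) (nat_lit 222) (nat_lit 225) (nat_lit 123)))) (PT.nd (nat_lit 156) (PT.nd (nat_lit 78) (PT.lf (nat_lit 5472) (nat_lit 6) (nat_lit 72) (nat_lit 2) (nat_lit 223) (nat_lit 225) (nat_lit 122)) (PT.lf (nat_lit 5244) (nat_lit 6) (nat_lit 69) (nat_lit 2) (nat_lit 224) (nat_lit 225) (nat_lit 121))) (PT.nd (nat_lit 78) (PT.lf (nat_lit 5016) (nat_lit 3) (nat_lit 66) (nat_lit 0) (nat_lit 225) (nat_lit 225) (nat_lit 120)) (PT.lf (nat_lit 4712) (nat_lit 6) (nat_lit 62) (nat_lit 0) (nat_lit 226) (nat_lit 225) (nat_lit 119))))) (PT.nd (nat_lit 50544) (PT.nd (nat_lit 156) (PT.nd (nat_lit 78) (PT.lf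 (nat_lit 4408) (nat_lit 6) (nat_lit 58) (nat_lit 0) (nat_lit 227) (nat_lit 225) (nat_lit 118)) (PT.lf (nat_lit 4104) (nat_lit 6) (nat_lit 54) (nat_lit 0) (nat_lit 228) (nat_lit 225) (nat_lit 117))) (PT.nd (nat_lit 78) (PT.lf (nat_lit 3800) (nat_lit 6) (nat_lit 50) (nat_lit 0) (nat_lit 229) (nat_lit 225) (nat_lit 116)) (PT.lf (nat_lit 3572) (nat_lit 6) (nat_lit 47) (nat_lit 0) (nat_lit 230) (nat_lit 225) (nat_lit 115)))) (PT.nd (nat_lit 156) (PT.nd (nat_lit 78) (PT.lf (nat_lit 3344) (nat_lit 6) (nat_lit 44) (nat_lit 5) (nat_lit 114) (nat_lit 226) (nat_lit 230)) (PT.lf (nat_lit 3648) (nat_lit 6) (nat_lit 48) (nat_lit 5) (nat_lit 115) (nat_lit 226) (nat_lit 229))) (PT.nd (nat_lit 78) (PT.lf (nat_lit 3876) (nat_lit 6) (nat_lit 51) (nat_lit 5) (nat_lit 116) (nat_lit 226) (nat_lit 228)) (PT.lf (nat_lit 4180) (nat_lit 6) (nat_lit 55) (nat_lit 5) (nat_lit 117) (nat_lit 226) (nat_lit 227))))))))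
noncomputable def pc61 : PT := (PT.nd (nat_lit 59670) (PT.nd (nat_lit 8424) (PT.nd (nat_lit 546) (PT.nd (nat_lit 234) (PT.nd (nat_lit 78) (PT.lf (nat_lit 4484) (nat_lit 3) (nat_lit 59) (nat_lit 4) (nat_lit 118) (nat_lit 226) (nat_lit 226)) (PT.nd (nat_lit 78) (PT.lf (nat_lit 4712) (nat_lit 6) (nat_lit 62) (nat_lit 4) (nat_lit 119) (nat_lit 226) (nat_lit 225)) (PT.lf (nat_lit 4940) (nat_lit 6) (nat_lit 65) (nat_lit 4) (nat_lit 120) (nat_lit 226) (nat_lit 224)))) (PT.nd (nat_lit 156) (PT.nd (nat_lit 78) (PT.lf (nat_lit 5168) (nat_lit 6) (nat_lit 68) (nat_lit 4) (nat_lit 121) (nat_lit 226) (nat_lit 223)) (PT.lf (nat_lit 5396) (nat_lit 6) (nat_lit 71) (nat_lit 4) (nat_lit 122) (nat_lit 226) (nat_lit 222))) (PT.nd (nat_lit 78) (PT.lf (nat_lit 5700) (nat_lit 6) (nat_lit 75) (nat_lit 4) (nat_lit 123) (nat_lit 226) (nat_lit 221)) (PT.lf (nat_lit 5928) (nat_lit 6) (nat_lit 78) (nat_lit 4) (nat_lit 124) (nat_lit 226) (nat_lit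 220))))) (PT.nd (nat_lit 7566) (PT.nd (nat_lit 7410) (PT.nd (nat_lit 7332) (PT.lf (nat_lit 6232) (nat_lit 6) (nat_lit 82) (nat_lit 4) (nat_lit 125) (nat_lit 226) (nat_lit 219)) (PT.lf (nat_lit 6232) (nat_lit 6) (nat_lit 82) (nat_lit 2) (nat_lit 219) (nat_lit 226) (nat_lit 125))) (PT.nd (nat_lit 78) (PT.lf (nat_lit 5928) (nat_lit 6) (nat_lit 78) (nat_lit 2) (nat_lit 220) (nat_lit 226) (nat_lit 124)) (PT.lf (nat_lit 5700) (nat_lit 6) (nat_lit 75) (nat_lit 2) (nat_lit 221) (nat_lit 226) (nat_lit 123)))) (PT.nd (nat_lit 156) (PT.nd (nat_lit 78) (PT.lf (nat_lit 5396) (nat_lit 6) (nat_lit 71) (nat_lit 2) (nat_lit 222) (nat_lit 226) (nat_lit 122)) (PT.lf (nat_lit 5168) (nat_lit 6) (nat_lit 68) (nat_lit 2) (nat_lit 223) (nat_lit 226) (nat_lit 121))) (PT.nd (nat_lit 78) (PT.lf (nat_lit 4940) (nat_lit 6) (nat_lit 65) (nat_lit 2) (nat_lit 224) (nat_lit 226) (nat_lit 120)) (PT.lf (nat_lit 4712) (nat_lit 6) (nat_lit 62) (nat_lit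 2) (nat_lit 225) (nat_lit 226) (nat_lit 119)))))) (PT.nd (nat_lit 50622) (PT.nd (nat_lit 234) (PT.nd (nat_lit 78) (PT.lf (nat_lit 4484) (nat_lit 3) (nat_lit 59) (nat_lit 0) (nat_lit 226) (nat_lit 226) (nat_lit 118)) (PT.nd (nat_lit 78) (PT.lf (nat_lit 4180) (nat_lit 6) (nat_lit 55) (nat_lit 0) (nat_lit 227) (nat_lit 226) (nat_lit 117)) (PT.lf (nat_lit 3876) (nat_lit 6) (nat_lit 51) (nat_lit 0) (nat_lit 228) (nat_lit 226) (nat_lit 116)))) (PT.nd (nat_lit 50232) (PT.nd (nat_lit 78) (PT.lf (nat_lit 3648) (nat_lit 6) (nat_lit 48) (nat_lit 0) (nat_lit 229) (nat_lit 226) (nat_lit 115)) (PT.lf (nat_lit 3344) (nat_lit 6) (nat_lit 44) (nat_lit 0) (nat_lit 230) (nat_lit 226) (nat_lit 114))) (PT.nd (nat_lit 78) (PT.lf (nat_lit 2888) (nat_lit 6) (nat_lit 38) (nat_lit 5) (nat_lit 112) (nat_lit 227) (nat_lit 231)) (PT.lf (nat_lit 3192) (nat_lit 6) (nat_lit 42) (nat_lit 5) (nat_lit 113) (nat_lit 227) (nat_lit 230))))) (PT.nd (nat_lit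 312) (PT.nd (nat_lit 156) (PT.nd (nat_lit 78) (PT.lf (nat_lit 3420) (nat_lit 6) (nat_lit 45) (nat_lit 5) (nat_lit 114) (nat_lit 227) (nat_lit 229)) (PT.lf (nat_lit 3724) (nat_lit 6) (nat_lit 49) (nat_lit 5) (nat_lit 115) (nat_lit 227) (nat_lit 228))) (PT.nd (nat_lit 78) (PT.lf (nat_lit 3952) (nat_lit 3) (nat_lit 52) (nat_lit 4) (nat_lit 116) (nat_lit 227) (nat_lit 227)) (PT.lf (nat_lit 4180) (nat_lit 6) (nat_lit 55) (nat_lit 4) (nat_lit 117) (nat_lit 227) (nat_lit 226)))) (PT.nd (nat_lit 156) (PT.nd (nat_lit 78) (PT.lf (nat_lit 4408) (nat_lit 6) (nat_lit 58) (nat_lit 4) (nat_lit 118) (nat_lit 227) (nat_lit 225)) (PT.lf (nat_lit 4636) (nat_lit 6) (nat_lit 61) (nat_lit 4) (nat_lit 119) (nat_lit 227) (nat_lit 224))) (PT.nd (nat_lit 78) (PT.lf (nat_lit 4864) (nat_lit 6) (nat_lit 64) (nat_lit 4) (nat_lit 120) (nat_lit 227) (nat_lit 223)) (PT.lf (nat_lit 5092) (nat_lit 6) (nat_lit 67) (nat_lit 4) (nat_lit 121) (nat_lit 227)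 (nat_lit 222))))))) (PT.nd (nat_lit 58656) (PT.nd (nat_lit 8190) (PT.nd (nat_lit 7878) (PT.nd (nat_lit 7722) (PT.lf (nat_lit 5320) (nat_lit 6) (nat_lit 70) (nat_lit 4) (nat_lit 122) (nat_lit 227) (nat_lit 221)) (PT.nd (nat_lit 78) (PT.lf (nat_lit 5320) (nat_lit 6) (nat_lit 70) (nat_lit 2) (nat_lit 221) (nat_lit 227) (nat_lit 122)) (PT.lf (nat_lit 5092) (nat_lit 6) (nat_lit 67) (nat_lit 2) (nat_lit 222) (nat_lit 227) (nat_lit 121)))) (PT.nd (nat_lit 156) (PT.nd (nat_lit 78) (PT.lf (nat_lit 4864) (nat_lit 6) (nat_lit 64) (nat_lit 2) (nat_lit 223) (nat_lit 227) (nat_lit 120)) (PT.lf (nat_lit 4636) (nat_lit 6) (nat_lit 61) (nat_lit 2) (nat_lit 224) (nat_lit 227) (nat_lit 119))) (PT.nd (nat_lit 78) (PT.lf (nat_lit 4408) (nat_lit 6) (nat_lit 58) (nat_lit 2) (nat_lit 225) (nat_lit 227) (nat_lit 118)) (PT.lf (nat_lit 4180) (nat_lit 6) (nat_lit 55) (nat_lit 2) (nat_lit 226) (nat_lit 227) (nat_lit 117))))) (PT.nd (nat_lit 312)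 (PT.nd (nat_lit 156) (PT.nd (nat_lit 78) (PT.lf (nat_lit 3952) (nat_lit 3) (nat_lit 52) (nat_lit 0) (nat_lit 227) (nat_lit 227) (nat_lit 116)) (PT.lf (nat_lit 3724) (nat_lit 6) (nat_lit 49) (nat_lit 0) (nat_lit 228) (nat_lit 227) (nat_lit 115))) (PT.nd (nat_lit 78) (PT.lf (nat_lit 3420) (nat_lit 6) (nat_lit 45) (nat_lit 0) (nat_lit 229) (nat_lit 227) (nat_lit 114)) (PT.lf (nat_lit 3192) (nat_lit 6) (nat_lit 42) (nat_lit 0) (nat_lit 230) (nat_lit 227) (nat_lit 113)))) (PT.nd (nat_lit 49998) (PT.nd (nat_lit 49920) (PT.lf (nat_lit 2888) (nat_lit 6) (nat_lit 38) (nat_lit 0) (nat_lit 231) (nat_lit 227) (nat_lit 112)) (PT.lf (nat_lit 2508) (nat_lit 6) (nat_lit 33) (nat_lit 5) (nat_lit 110) (nat_lit 228) (nat_lit 232))) (PT.nd (nat_lit 78) (PT.lf (nat_lit 2736) (nat_lit 6) (nat_lit 36) (nat_lit 5) (nat_lit 111) (nat_lit 228) (nat_lit 231)) (PT.lf (nat_lit 2964) (nat_lit 6) (nat_lit 39) (nat_lit 5) (nat_lit 112) (nat_lit 228)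 (nat_lit 230)))))) (PT.nd (nat_lit 8502) (PT.nd (nat_lit 312) (PT.nd (nat_lit 156) (PT.nd (nat_lit 78) (PT.lf (nat_lit 3268) (nat_lit 6) (nat_lit 43) (nat_lit 5) (nat_lit 113) (nat_lit 228) (nat_lit 229)) (PT.lf (nat_lit 3496) (nat_lit 3) (nat_lit 46) (nat_lit 4) (nat_lit 114) (nat_lit 228) (nat_lit 228))) (PT.nd (nat_lit 78) (PT.lf (nat_lit 3724) (nat_lit 6) (nat_lit 49) (nat_lit 4) (nat_lit 115) (nat_lit 228) (nat_lit 227)) (PT.lf (nat_lit 3876) (nat_lit 6) (nat_lit 51) (nat_lit 4) (nat_lit 116) (nat_lit 228) (nat_lit 226)))) (PT.nd (nat_lit 156) (PT.nd (nat_lit 78) (PT.lf (nat_lit 4104) (nat_lit 6) (nat_lit 54) (nat_lit 4) (nat_lit 117) (nat_lit 228) (nat_lit 225)) (PT.lf (nat_lit 4332) (nat_lit 6) (nat_lit 57) (nat_lit 4) (nat_lit 118) (nat_lit 228) (nat_lit 224))) (PT.nd (nat_lit 78) (PT.lf (nat_lit 4560) (nat_lit 6) (nat_lit 60) (nat_lit 4) (nat_lit 119) (nat_lit 228) (nat_lit 223)) (PT.lf (nat_lit 4788) (nat_lit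 6) (nat_lit 63) (nat_lit 4) (nat_lit 120) (nat_lit 228) (nat_lit 222))))) (PT.nd (nat_lit 312) (PT.nd (nat_lit 156) (PT.nd (nat_lit 78) (PT.lf (nat_lit 4788) (nat_lit 6) (nat_lit 63) (nat_lit 2) (nat_lit 222) (nat_lit 228) (nat_lit 120)) (PT.lf (nat_lit 4560) (nat_lit 6) (nat_lit 60) (nat_lit 2) (nat_lit 223) (nat_lit 228) (nat_lit 119))) (PT.nd (nat_lit 78) (PT.lf (nat_lit 4332) (nat_lit 6) (nat_lit 57) (nat_lit 2) (nat_lit 224) (nat_lit 228) (nat_lit 118)) (PT.lf (nat_lit 4104) (nat_lit 6) (nat_lit 54) (nat_lit 2) (nat_lit 225) (nat_lit 228) (nat_lit 117)))) (PT.nd (nat_lit 156) (PT.nd (nat_lit 78) (PT.lf (nat_lit 3876) (nat_lit 6) (nat_lit 51) (nat_lit 2) (nat_lit 226) (nat_lit 228) (nat_lit 116)) (PT.lf (nat_lit 3724) (nat_lit 6) (nat_lit 49) (nat_lit 2) (nat_lit 227) (nat_lit 228) (nat_lit 115))) (PT.nd (nat_lit 78) (PT.lf (nat_lit 3496) (nat_lit 3) (nat_lit 46) (nat_lit 0) (nat_lit 228) (nat_lit 228) (nat_lit 114))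 (PT.lf (nat_lit 3268) (nat_lit 6) (nat_lit 43) (nat_lit 0) (nat_lit 229) (nat_lit 228) (nat_lit 113))))))))
noncomputable def pc62 : PT := (PT.nd (nat_lit 109668) (PT.nd (nat_lit 59046) (PT.nd (nat_lit 50154) (PT.nd (nat_lit 49842) (PT.nd (nat_lit 78) (PT.lf (nat_lit 2964) (nat_lit 6) (nat_lit 39) (nat_lit 0) (nat_lit 230) (nat_lit 228) (nat_lit 112)) (PT.nd (nat_lit 78) (PT.lf (nat_lit 2736) (nat_lit 6) (nat_lit 36) (nat_lit 0) (nat_lit 231) (nat_lit 228) (nat_lit 111)) (PT.lf (nat_lit 2508) (nat_lit 6) (nat_lit 33) (nat_lit 0) (nat_lit 232) (nat_lit 228) (nat_lit 110)))) (PT.nd (nat_lit 156) (PT.nd (nat_lit 78) (PT.lf (nat_lit 2128) (nat_lit 6) (nat_lit 28) (nat_lit 5) (nat_lit 108) (nat_lit 229) (nat_lit 233)) (PT.lf (nat_lit 2356) (nat_lit 6) (nat_lit 31) (nat_lit 5) (nat_lit 109) (nat_lit 229) (nat_lit 232))) (PT.nd (nat_lit 78) (PT.lf (nat_lit 2584) (nat_lit 6) (nat_lit 34) (nat_lit 5) (nat_lit 110) (nat_lit 229)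 (nat_lit 231)) (PT.lf (nat_lit 2812) (nat_lit 6) (nat_lit 37) (nat_lit 5) (nat_lit 111) (nat_lit 229) (nat_lit 230))))) (PT.nd (nat_lit 312) (PT.nd (nat_lit 156) (PT.nd (nat_lit 78) (PT.lf (nat_lit 3040) (nat_lit 3) (nat_lit 40) (nat_lit 4) (nat_lit 112) (nat_lit 229) (nat_lit 229)) (PT.lf (nat_lit 3268) (nat_lit 6) (nat_lit 43) (nat_lit 4) (nat_lit 113) (nat_lit 229) (nat_lit 228))) (PT.nd (nat_lit 78) (PT.lf (nat_lit 3420) (nat_lit 6) (nat_lit 45) (nat_lit 4) (nat_lit 114) (nat_lit 229) (nat_lit 227)) (PT.lf (nat_lit 3648) (nat_lit 6) (nat_lit 48) (nat_lit 4) (nat_lit 115) (nat_lit 229) (nat_lit 226)))) (PT.nd (nat_lit 8424) (PT.nd (nat_lit 78) (PT.lf (nat_lit 3800) (nat_lit 6) (nat_lit 50) (nat_lit 4) (nat_lit 116) (nat_lit 229) (nat_lit 225)) (PT.lf (nat_lit 4028) (nat_lit 6) (nat_lit 53) (nat_lit 4) (nat_lit 117) (nat_lit 229) (nat_lit 224))) (PT.nd (nat_lit 78) (PT.lf (nat_lit 4028) (nat_lit 6) (nat_lit 53) (nat_lit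 2) (nat_lit 224) (nat_lit 229) (nat_lit 117)) (PT.lf (nat_lit 3800) (nat_lit 6) (nat_lit 50) (nat_lit 2) (nat_lit 225) (nat_lit 229) (nat_lit 116)))))) (PT.nd (nat_lit 546) (PT.nd (nat_lit 234) (PT.nd (nat_lit 78) (PT.lf (nat_lit 3648) (nat_lit 6) (nat_lit 48) (nat_lit 2) (nat_lit 226) (nat_lit 229) (nat_lit 115)) (PT.nd (nat_lit 78) (PT.lf (nat_lit 3420) (nat_lit 6) (nat_lit 45) (nat_lit 2) (nat_lit 227) (nat_lit 229) (nat_lit 114)) (PT.lf (nat_lit 3268) (nat_lit 6) (nat_lit 43) (nat_lit 2) (nat_lit 228) (nat_lit 229) (nat_lit 113)))) (PT.nd (nat_lit 156) (PT.nd (nat_lit 78) (PT.lf (nat_lit 3040) (nat_lit 3) (nat_lit 40) (nat_lit 0) (nat_lit 229) (nat_lit 229) (nat_lit 112)) (PT.lf (nat_lit 2812) (nat_lit 6) (nat_lit 37) (nat_lit 0) (nat_lit 230) (nat_lit 229) (nat_lit 111))) (PT.nd (nat_lit 78) (PT.lf (nat_lit 2584) (nat_lit 6) (nat_lit 34) (nat_lit 0) (nat_lit 231) (nat_lit 229) (nat_lit 110)) (PT.lf (nat_lit 2356)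 (nat_lit 6) (nat_lit 31) (nat_lit 0) (nat_lit 232) (nat_lit 229) (nat_lit 109))))) (PT.nd (nat_lit 49764) (PT.nd (nat_lit 49608) (PT.nd (nat_lit 49530) (PT.lf (nat_lit 2128) (nat_lit 6) (nat_lit 28) (nat_lit 0) (nat_lit 233) (nat_lit 229) (nat_lit 108)) (PT.lf (nat_lit 1976) (nat_lit 6) (nat_lit 26) (nat_lit 5) (nat_lit 107) (nat_lit 230) (nat_lit 233))) (PT.nd (nat_lit 78) (PT.lf (nat_lit 2204) (nat_lit 6) (nat_lit 29) (nat_lit 5) (nat_lit 108) (nat_lit 230) (nat_lit 232)) (PT.lf (nat_lit 2432) (nat_lit 6) (nat_lit 32) (nat_lit 5) (nat_lit 109) (nat_lit 230) (nat_lit 231)))) (PT.nd (nat_lit 156) (PT.nd (nat_lit 78) (PT.lf (nat_lit 2660) (nat_lit 3) (nat_lit 35) (nat_lit 4) (nat_lit 110) (nat_lit 230) (nat_lit 230)) (PT.lf (nat_lit 2812) (nat_lit 6) (nat_lit 37) (nat_lit 4) (nat_lit 111) (nat_lit 230) (nat_lit 229))) (PT.nd (nat_lit 78) (PT.lf (nat_lit 2964) (nat_lit 6) (nat_lit 39) (nat_lit 4) (nat_lit 112) (nat_lit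 230) (nat_lit 228)) (PT.lf (nat_lit 3192) (nat_lit 6) (nat_lit 42) (nat_lit 4) (nat_lit 113) (nat_lit 230) (nat_lit 227))))))) (PT.nd (nat_lit 58968) (PT.nd (nat_lit 9048) (PT.nd (nat_lit 8736) (PT.nd (nat_lit 78) (PT.lf (nat_lit 3344) (nat_lit 6) (nat_lit 44) (nat_lit 4) (nat_lit 114) (nat_lit 230) (nat_lit 226)) (PT.nd (nat_lit 8580) (PT.lf (nat_lit 3572) (nat_lit 6) (nat_lit 47) (nat_lit 4) (nat_lit 115) (nat_lit 230) (nat_lit 225)) (PT.lf (nat_lit 3572) (nat_lit 6) (nat_lit 47) (nat_lit 2) (nat_lit 225) (nat_lit 230) (nat_lit 115)))) (PT.nd (nat_lit 156) (PT.nd (nat_lit 78) (PT.lf (nat_lit 3344) (nat_lit 6) (nat_lit 44) (nat_lit 2) (nat_lit 226) (nat_lit 230) (nat_lit 114)) (PT.lf (nat_lit 3192) (nat_lit 6) (nat_lit 42) (nat_lit 2) (nat_lit 227) (nat_lit 230) (nat_lit 113))) (PT.nd (nat_lit 78) (PT.lf (nat_lit 2964) (nat_lit 6) (nat_lit 39) (nat_lit 2) (nat_lit 228) (nat_lit 230) (nat_lit 112)) (PT.lf (nat_lit 2812)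 (nat_lit 6) (nat_lit 37) (nat_lit 2) (nat_lit 229) (nat_lit 230) (nat_lit 111))))) (PT.nd (nat_lit 49608) (PT.nd (nat_lit 156) (PT.nd (nat_lit 78) (PT.lf (nat_lit 2660) (nat_lit 3) (nat_lit 35) (nat_lit 0) (nat_lit 230) (nat_lit 230) (nat_lit 110)) (PT.lf (nat_lit 2432) (nat_lit 6) (nat_lit 32) (nat_lit 0) (nat_lit 231) (nat_lit 230) (nat_lit 109))) (PT.nd (nat_lit 78) (PT.lf (nat_lit 2204) (nat_lit 6) (nat_lit 29) (nat_lit 0) (nat_lit 232) (nat_lit 230) (nat_lit 108)) (PT.lf (nat_lit 1976) (nat_lit 6) (nat_lit 26) (nat_lit 0) (nat_lit 233) (nat_lit 230) (nat_lit 107)))) (PT.nd (nat_lit 156) (PT.nd (nat_lit 78) (PT.lf (nat_lit 1596) (nat_lit 6) (nat_lit 21) (nat_lit 5) (nat_lit 105) (nat_lit 231) (nat_lit 234)) (PT.lf (nat_lit 1824) (nat_lit 6) (nat_lit 24) (nat_lit 5) (nat_lit 106) (nat_lit 231) (nat_lit 233))) (PT.nd (nat_lit 78) (PT.lf (nat_lit 2052) (nat_lit 6) (nat_lit 27) (nat_lit 5) (nat_lit 107) (nat_lit 231)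 (nat_lit 232)) (PT.lf (nat_lit 2280) (nat_lit 3) (nat_lit 30) (nat_lit 4) (nat_lit 108) (nat_lit 231) (nat_lit 231)))))) (PT.nd (nat_lit 9438) (PT.nd (nat_lit 234) (PT.nd (nat_lit 78) (PT.lf (nat_lit 2432) (nat_lit 6) (nat_lit 32) (nat_lit 4) (nat_lit 109) (nat_lit 231) (nat_lit 230)) (PT.nd (nat_lit 78) (PT.lf (nat_lit 2584) (nat_lit 6) (nat_lit 34) (nat_lit 4) (nat_lit 110) (nat_lit 231) (nat_lit 229)) (PT.lf (nat_lit 2736) (nat_lit 6) (nat_lit 36) (nat_lit 4) (nat_lit 111) (nat_lit 231) (nat_lit 228)))) (PT.nd (nat_lit 9048) (PT.nd (nat_lit 8970) (PT.lf (nat_lit 2888) (nat_lit 6) (nat_lit 38) (nat_lit 4) (nat_lit 112) (nat_lit 231) (nat_lit 227)) (PT.lf (nat_lit 2888) (nat_lit 6) (nat_lit 38) (nat_lit 2) (nat_lit 227) (nat_lit 231) (nat_lit 112))) (PT.nd (nat_lit 78) (PT.lf (nat_lit 2736) (nat_lit 6) (nat_lit 36) (nat_lit 2) (nat_lit 228) (nat_lit 231) (nat_lit 111)) (PT.lf (nat_lit 2584) (nat_lit 6) (nat_lit 34)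 (nat_lit 2) (nat_lit 229) (nat_lit 231) (nat_lit 110))))) (PT.nd (nat_lit 312) (PT.nd (nat_lit 156) (PT.nd (nat_lit 78) (PT.lf (nat_lit 2432) (nat_lit 6) (nat_lit 32) (nat_lit 2) (nat_lit 230) (nat_lit 231) (nat_lit 109)) (PT.lf (nat_lit 2280) (nat_lit 3) (nat_lit 30) (nat_lit 0) (nat_lit 231) (nat_lit 231) (nat_lit 108))) (PT.nd (nat_lit 78) (PT.lf (nat_lit 2052) (nat_lit 6) (nat_lit 27) (nat_lit 0) (nat_lit 232) (nat_lit 231) (nat_lit 107)) (PT.lf (nat_lit 1824) (nat_lit 6) (nat_lit 24) (nat_lit 0) (nat_lit 233) (nat_lit 231) (nat_lit 106)))) (PT.nd (nat_lit 49218) (PT.nd (nat_lit 49140) (PT.lf (nat_lit 1596) (nat_lit 6) (nat_lit 21) (nat_lit 0) (nat_lit 234) (nat_lit 231) (nat_lit 105)) (PT.lf (nat_lit 1292) (nat_lit 6) (nat_lit 17) (nat_lit 5) (nat_lit 103) (nat_lit 232) (nat_lit 235))) (PT.nd (nat_lit 78) (PT.lf (nat_lit 1444) (nat_lit 6) (nat_lit 19) (nat_lit 5) (nat_lit 104) (nat_lit 232) (nat_lit 234)) (PT.lf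 (nat_lit 1672) (nat_lit 6) (nat_lit 22) (nat_lit 5) (nat_lit 105) (nat_lit 232) (nat_lit 233))))))))
noncomputable def pc63 : PT := (PT.nd (nat_lit 118482) (PT.nd (nat_lit 59202) (PT.nd (nat_lit 9672) (PT.nd (nat_lit 234) (PT.nd (nat_lit 78) (PT.lf (nat_lit 1900) (nat_lit 3) (nat_lit 25) (nat_lit 4) (nat_lit 106) (nat_lit 232) (nat_lit 232)) (PT.nd (nat_lit 78) (PT.lf (nat_lit 2052) (nat_lit 6) (nat_lit 27) (nat_lit 4) (nat_lit 107) (nat_lit 232) (nat_lit 231)) (PT.lf (nat_lit 2204) (nat_lit 6) (nat_lit 29) (nat_lit 4) (nat_lit 108) (nat_lit 232) (nat_lit 230)))) (PT.nd (nat_lit 9282) (PT.nd (nat_lit 78) (PT.lf (nat_lit 2356) (nat_lit 6) (nat_lit 31) (nat_lit 4) (nat_lit 109) (nat_lit 232) (nat_lit 229)) (PT.lf (nat_lit 2508) (nat_lit 6) (nat_lit 33) (nat_lit 4) (nat_lit 110) (nat_lit 232) (nat_lit 228))) (PT.nd (nat_lit 78) (PT.lf (nat_lit 2508) (nat_lit 6) (nat_lit 33) (nat_lit 2) (nat_lit 228) (nat_lit 232) (nat_lit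 110)) (PT.lf (nat_lit 2356) (nat_lit 6) (nat_lit 31) (nat_lit 2) (nat_lit 229) (nat_lit 232) (nat_lit 109))))) (PT.nd (nat_lit 312) (PT.nd (nat_lit 156) (PT.nd (nat_lit 78) (PT.lf (nat_lit 2204) (nat_lit 6) (nat_lit 29) (nat_lit 2) (nat_lit 230) (nat_lit 232) (nat_lit 108)) (PT.lf (nat_lit 2052) (nat_lit 6) (nat_lit 27) (nat_lit 2) (nat_lit 231) (nat_lit 232) (nat_lit 107))) (PT.nd (nat_lit 78) (PT.lf (nat_lit 1900) (nat_lit 3) (nat_lit 25) (nat_lit 0) (nat_lit 232) (nat_lit 232) (nat_lit 106)) (PT.lf (nat_lit 1672) (nat_lit 6) (nat_lit 22) (nat_lit 0) (nat_lit 233) (nat_lit 232) (nat_lit 105)))) (PT.nd (nat_lit 49062) (PT.nd (nat_lit 78) (PT.lf (nat_lit 1444) (nat_lit 6) (nat_lit 19) (nat_lit 0) (nat_lit 234) (nat_lit 232) (nat_lit 104)) (PT.lf (nat_lit 1292) (nat_lit 6) (nat_lit 17) (nat_lit 0) (nat_lit 235) (nat_lit 232) (nat_lit 103))) (PT.nd (nat_lit 78) (PT.lf (nat_lit 1140) (nat_lit 6) (nat_lit 15) (nat_lit 5)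 (nat_lit 102) (nat_lit 233) (nat_lit 235)) (PT.lf (nat_lit 1368) (nat_lit 6) (nat_lit 18) (nat_lit 5) (nat_lit 103) (nat_lit 233) (nat_lit 234)))))) (PT.nd (nat_lit 9906) (PT.nd (nat_lit 234) (PT.nd (nat_lit 78) (PT.lf (nat_lit 1520) (nat_lit 3) (nat_lit 20) (nat_lit 4) (nat_lit 104) (nat_lit 233) (nat_lit 233)) (PT.nd (nat_lit 78) (PT.lf (nat_lit 1672) (nat_lit 6) (nat_lit 22) (nat_lit 4) (nat_lit 105) (nat_lit 233) (nat_lit 232)) (PT.lf (nat_lit 1824) (nat_lit 6) (nat_lit 24) (nat_lit 4) (nat_lit 106) (nat_lit 233) (nat_lit 231)))) (PT.nd (nat_lit 9516) (PT.nd (nat_lit 78) (PT.lf (nat_lit 1976) (nat_lit 6) (nat_lit 26) (nat_lit 4) (nat_lit 107) (nat_lit 233) (nat_lit 230)) (PT.lf (nat_lit 2128) (nat_lit 6) (nat_lit 28) (nat_lit 4) (nat_lit 108) (nat_lit 233) (nat_lit 229))) (PT.nd (nat_lit 78) (PT.lf (nat_lit 2128) (nat_lit 6) (nat_lit 28) (nat_lit 2) (nat_lit 229) (nat_lit 233) (nat_lit 108)) (PT.lf (nat_lit 1976)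 (nat_lit 6) (nat_lit 26) (nat_lit 2) (nat_lit 230) (nat_lit 233) (nat_lit 107))))) (PT.nd (nat_lit 312) (PT.nd (nat_lit 156) (PT.nd (nat_lit 78) (PT.lf (nat_lit 1824) (nat_lit 6) (nat_lit 24) (nat_lit 2) (nat_lit 231) (nat_lit 233) (nat_lit 106)) (PT.lf (nat_lit 1672) (nat_lit 6) (nat_lit 22) (nat_lit 2) (nat_lit 232) (nat_lit 233) (nat_lit 105))) (PT.nd (nat_lit 78) (PT.lf (nat_lit 1520) (nat_lit 3) (nat_lit 20) (nat_lit 0) (nat_lit 233) (nat_lit 233) (nat_lit 104)) (PT.lf (nat_lit 1368) (nat_lit 6) (nat_lit 18) (nat_lit 0) (nat_lit 234) (nat_lit 233) (nat_lit 103)))) (PT.nd (nat_lit 48906) (PT.nd (nat_lit 48828) (PT.lf (nat_lit 1140) (nat_lit 6) (nat_lit 15) (nat_lit 0) (nat_lit 235) (nat_lit 233) (nat_lit 102)) (PT.lf (nat_lit 836) (nat_lit 6) (nat_lit 11) (nat_lit 5) (nat_lit 100) (nat_lit 234) (nat_lit 236))) (PT.nd (nat_lit 78) (PT.lf (nat_lit 1064) (nat_lit 6) (nat_lit 14) (nat_lit 5) (nat_lit 101) (nat_lit 234)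 (nat_lit 235)) (PT.lf (nat_lit 1216) (nat_lit 3) (nat_lit 16) (nat_lit 4) (nat_lit 102) (nat_lit 234) (nat_lit 234))))))) (PT.nd (nat_lit 69498) (PT.nd (nat_lit 10296) (PT.nd (nat_lit 9984) (PT.nd (nat_lit 78) (PT.lf (nat_lit 1368) (nat_lit 6) (nat_lit 18) (nat_lit 4) (nat_lit 103) (nat_lit 234) (nat_lit 233)) (PT.nd (nat_lit 78) (PT.lf (nat_lit 1444) (nat_lit 6) (nat_lit 19) (nat_lit 4) (nat_lit 104) (nat_lit 234) (nat_lit 232)) (PT.lf (nat_lit 1596) (nat_lit 6) (nat_lit 21) (nat_lit 4) (nat_lit 105) (nat_lit 234) (nat_lit 231)))) (PT.nd (nat_lit 156) (PT.nd (nat_lit 78) (PT.lf (nat_lit 1596) (nat_lit 6) (nat_lit 21) (nat_lit 2) (nat_lit 231) (nat_lit 234) (nat_lit 105)) (PT.lf (nat_lit 1444) (nat_lit 6) (nat_lit 19) (nat_lit 2) (nat_lit 232) (nat_lit 234) (nat_lit 104))) (PT.nd (nat_lit 78) (PT.lf (nat_lit 1368) (nat_lit 6) (nat_lit 18) (nat_lit 2) (nat_lit 233) (nat_lit 234) (nat_lit 103)) (PT.lf (nat_lit 1216) (nat_lit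 3) (nat_lit 16) (nat_lit 0) (nat_lit 234) (nat_lit 234) (nat_lit 102))))) (PT.nd (nat_lit 48906) (PT.nd (nat_lit 48750) (PT.nd (nat_lit 78) (PT.lf (nat_lit 1064) (nat_lit 6) (nat_lit 14) (nat_lit 0) (nat_lit 235) (nat_lit 234) (nat_lit 101)) (PT.lf (nat_lit 836) (nat_lit 6) (nat_lit 11) (nat_lit 0) (nat_lit 236) (nat_lit 234) (nat_lit 100))) (PT.nd (nat_lit 78) (PT.lf (nat_lit 760) (nat_lit 6) (nat_lit 10) (nat_lit 5) (nat_lit 99) (nat_lit 235) (nat_lit 236)) (PT.lf (nat_lit 912) (nat_lit 3) (nat_lit 12) (nat_lit 4) (nat_lit 100) (nat_lit 235) (nat_lit 235)))) (PT.nd (nat_lit 156) (PT.nd (nat_lit 78) (PT.lf (nat_lit 1064) (nat_lit 6) (nat_lit 14) (nat_lit 4) (nat_lit 101) (nat_lit 235) (nat_lit 234)) (PT.lf (nat_lit 1140) (nat_lit 6) (nat_lit 15) (nat_lit 4) (nat_lit 102) (nat_lit 235) (nat_lit 233))) (PT.nd (nat_lit 10062) (PT.lf (nat_lit 1292) (nat_lit 6) (nat_lit 17) (nat_lit 4) (nat_lit 103) (nat_lit 235) (nat_lit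 232)) (PT.lf (nat_lit 1292) (nat_lit 6) (nat_lit 17) (nat_lit 2) (nat_lit 232) (nat_lit 235) (nat_lit 103)))))) (PT.nd (nat_lit 59514) (PT.nd (nat_lit 48828) (PT.nd (nat_lit 156) (PT.nd (nat_lit 78) (PT.lf (nat_lit 1140) (nat_lit 6) (nat_lit 15) (nat_lit 2) (nat_lit 233) (nat_lit 235) (nat_lit 102)) (PT.lf (nat_lit 1064) (nat_lit 6) (nat_lit 14) (nat_lit 2) (nat_lit 234) (nat_lit 235) (nat_lit 101))) (PT.nd (nat_lit 78) (PT.lf (nat_lit 912) (nat_lit 3) (nat_lit 12) (nat_lit 0) (nat_lit 235) (nat_lit 235) (nat_lit 100)) (PT.lf (nat_lit 760) (nat_lit 6) (nat_lit 10) (nat_lit 0) (nat_lit 236) (nat_lit 235) (nat_lit 99)))) (PT.nd (nat_lit 156) (PT.nd (nat_lit 78) (PT.lf (nat_lit 608) (nat_lit 3) (nat_lit 8) (nat_lit 4) (nat_lit 98) (nat_lit 236) (nat_lit 236)) (PT.lf (nat_lit 760) (nat_lit 6) (nat_lit 10) (nat_lit 4) (nat_lit 99) (nat_lit 236) (nat_lit 235))) (PT.nd (nat_lit 10452) (PT.lf (nat_lit 836) (nat_lit 6) (nat_lit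 11) (nat_lit 4) (nat_lit 100) (nat_lit 236) (nat_lit 234)) (PT.lf (nat_lit 836) (nat_lit 6) (nat_lit 11) (nat_lit 2) (nat_lit 234) (nat_lit 236) (nat_lit 100))))) (PT.nd (nat_lit 877344) (PT.nd (nat_lit 818064) (PT.nd (nat_lit 78) (PT.lf (nat_lit 760) (nat_lit 6) (nat_lit 10) (nat_lit 2) (nat_lit 235) (nat_lit 236) (nat_lit 99)) (PT.lf (nat_lit 608) (nat_lit 3) (nat_lit 8) (nat_lit 0) (nat_lit 236) (nat_lit 236) (nat_lit 98))) (PT.nd (nat_lit 14196) (PT.lf (nat_lit 152) (nat_lit 6) (nat_lit 2) (nat_lit 5) (nat_lit 69) (nat_lit 250) (nat_lit 251)) (PT.lf (nat_lit 152) (nat_lit 6) (nat_lit 2) (nat_lit 0) (nat_lit 251) (nat_lit 250) (nat_lit 69)))) (PT.nd (nat_lit 14196) (PT.nd (nat_lit 78) (PT.lf (nat_lit 76) (nat_lit 3) (nat_lit 1) (nat_lit 4) (nat_lit 68) (nat_lit 251) (nat_lit 251)) (PT.lf (nat_lit 152) (nat_lit 6) (nat_lit 2) (nat_lit 4) (nat_lit 69) (nat_lit 251) (nat_lit 250))) (PT.nd (nat_lit 78) (PT.lf (nat_lit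 152) (nat_lit 6) (nat_lit 2) (nat_lit 2) (nat_lit 250) (nat_lit 251) (nat_lit 69)) (PT.lf (nat_lit 76) (nat_lit 3) (nat_lit 1) (nat_lit 0) (nat_lit 251) (nat_lit 251) (nat_lit 68))))))))
noncomputable def xc0 : XT := (XT.nd (nat_lit 178074) (nat_lit 0) (nat_lit 0) (XT.nd (nat_lit 118560) (nat_lit 0) (nat_lit 0) (XT.nd (nat_lit 59358) (nat_lit 0) (nat_lit 0) (XT.nd (nat_lit 156) (nat_lit 152) (nat_lit 0) (XT.nd (nat_lit 78) (nat_lit 0) (nat_lit 0) (XT.lf (nat_lit 0) (nat_lit 1151654652) (nat_lit 152) (nat_lit 5930533088) (nat_lit 0) (nat_lit 1151654652) (nat_lit 14) (nat_lit 5) (nat_lit 16) (nat_lit 4) (nat_lit 14) (nat_lit 4) (nat_lit 506) (nat_lit 317) (nat_lit 317)) (XT.lf (nat_lit 0) (nat_lit 7582941474) (nat_lit 152) (nat_lit 1882749237) (nat_lit 0) (nat_lit 7218629196) (nat_lit 14) (nat_lit 5) (nat_lit 16) (nat_lit 4) (nat_lit 14) (nat_lit 4) (nat_lit 507) (nat_lit 317) (nat_lit 316))) (XT.nd (nat_lit 59046) (nat_lit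 0) (nat_lit 304) (XT.lf (nat_lit 0) (nat_lit 8270506031) (nat_lit 152) (nat_lit 4678328762) (nat_lit 152) (nat_lit 3956847585) (nat_lit 12) (nat_lit 4) (nat_lit 14) (nat_lit 5) (nat_lit 14) (nat_lit 4) (nat_lit 508) (nat_lit 317) (nat_lit 315)) (XT.nd (nat_lit 78) (nat_lit 0) (nat_lit 0) (XT.lf (nat_lit 0) (nat_lit 317053751) (nat_lit 152) (nat_lit 3853143546) (nat_lit 152) (nat_lit 3853143546) (nat_lit 16) (nat_lit 4) (nat_lit 18) (nat_lit 5) (nat_lit 18) (nat_lit 4) (nat_lit 504) (nat_lit 318) (nat_lit 318)) (XT.lf (nat_lit 0) (nat_lit 10771582778) (nat_lit 152) (nat_lit 2931387659) (nat_lit 152) (nat_lit 2552357165) (nat_lit 16) (nat_lit 4) (nat_lit 18) (nat_lit 5) (nat_lit 18) (nat_lit 4) (nat_lit 505) (nat_lit 318) (nat_lit 317))))) (XT.nd (nat_lit 156) (nat_lit 152) (nat_lit 0) (XT.nd (nat_lit 78) (nat_lit 0) (nat_lit 0) (XT.lf (nat_lit 0) (nat_lit 2638031745) (nat_lit 152) (nat_lit 11928273664) (nat_lit 0) (nat_lit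 1902120945) (nat_lit 14) (nat_lit 5) (nat_lit 16) (nat_lit 4) (nat_lit 14) (nat_lit 4) (nat_lit 506) (nat_lit 318) (nat_lit 316)) (XT.lf (nat_lit 0) (nat_lit 7881510893) (nat_lit 152) (nat_lit 2015846420) (nat_lit 0) (nat_lit 6788431193) (nat_lit 14) (nat_lit 5) (nat_lit 16) (nat_lit 4) (nat_lit 14) (nat_lit 4) (nat_lit 507) (nat_lit 318) (nat_lit 315))) (XT.nd (nat_lit 58890) (nat_lit 0) (nat_lit 456) (XT.lf (nat_lit 0) (nat_lit 8070183846) (nat_lit 152) (nat_lit 5140475602) (nat_lit 152) (nat_lit 3697230315) (nat_lit 12) (nat_lit 4) (nat_lit 14) (nat_lit 5) (nat_lit 14) (nat_lit 4) (nat_lit 508) (nat_lit 318) (nat_lit 314)) (XT.nd (nat_lit 78) (nat_lit 152) (nat_lit 0) (XT.lf (nat_lit 0) (nat_lit 6092620662) (nat_lit 152) (nat_lit 864138723) (nat_lit 152) (nat_lit 864138723) (nat_lit 20) (nat_lit 4) (nat_lit 22) (nat_lit 5) (nat_lit 22) (nat_lit 4) (nat_lit 502) (nat_lit 319) (nat_lit 319)) (XT.lf (nat_lit 0) (nat_lit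 3458114244) (nat_lit 152) (nat_lit 9312747112) (nat_lit 0) (nat_lit 3071503141) (nat_lit 18) (nat_lit 5) (nat_lit 20) (nat_lit 4) (nat_lit 18) (nat_lit 4) (nat_lit 503) (nat_lit 319) (nat_lit 318)))))) (XT.nd (nat_lit 59046) (nat_lit 0) (nat_lit 304) (XT.nd (nat_lit 156) (nat_lit 304) (nat_lit 0) (XT.nd (nat_lit 78) (nat_lit 0) (nat_lit 0) (XT.lf (nat_lit 0) (nat_lit 567497022) (nat_lit 152) (nat_lit 8122782500) (nat_lit 152) (nat_lit 7357140903) (nat_lit 16) (nat_lit 4) (nat_lit 18) (nat_lit 5) (nat_lit 18) (nat_lit 4) (nat_lit 504) (nat_lit 319) (nat_lit 317)) (XT.lf (nat_lit 0) (nat_lit 10639667904) (nat_lit 152) (nat_lit 3377181402) (nat_lit 152) (nat_lit 2239941282) (nat_lit 16) (nat_lit 4) (nat_lit 18) (nat_lit 5) (nat_lit 18) (nat_lit 4) (nat_lit 505) (nat_lit 319) (nat_lit 316))) (XT.nd (nat_lit 78) (nat_lit 152) (nat_lit 0) (XT.lf (nat_lit 0) (nat_lit 2906419530) (nat_lit 152) (nat_lit 12129922486) (nat_lit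 0) (nat_lit 1434309337) (nat_lit 14) (nat_lit 5) (nat_lit 16) (nat_lit 4) (nat_lit 14) (nat_lit 4) (nat_lit 506) (nat_lit 319) (nat_lit 315)) (XT.nd (nat_lit 78) (nat_lit 152) (nat_lit 0) (XT.lf (nat_lit 0) (nat_lit 8114454539) (nat_lit 152) (nat_lit 2282092982) (nat_lit 0) (nat_lit 6292178758) (nat_lit 14) (nat_lit 5) (nat_lit 16) (nat_lit 4) (nat_lit 14) (nat_lit 4) (nat_lit 507) (nat_lit 319) (nat_lit 314)) (XT.lf (nat_lit 0) (nat_lit 7736226253) (nat_lit 152) (nat_lit 5670459411) (nat_lit 152) (nat_lit 3504884034) (nat_lit 12) (nat_lit 4) (nat_lit 14) (nat_lit 5) (nat_lit 14) (nat_lit 4) (nat_lit 508) (nat_lit 319) (nat_lit 313))))) (XT.nd (nat_lit 234) (nat_lit 304) (nat_lit 0) (XT.nd (nat_lit 78) (nat_lit 152) (nat_lit 0) (XT.lf (nat_lit 0) (nat_lit 1880227802) (nat_lit 228) (nat_lit 3865364512) (nat_lit 0) (nat_lit 1880227802) (nat_lit 22) (nat_lit 5) (nat_lit 25) (nat_lit 4) (nat_lit 22) (nat_lit 4) (nat_lit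 500) (nat_lit 320) (nat_lit 320)) (XT.nd (nat_lit 78) (nat_lit 0) (nat_lit 0) (XT.lf (nat_lit 0) (nat_lit 2109679109) (nat_lit 152) (nat_lit 6868742086) (nat_lit 152) (nat_lit 6466511894) (nat_lit 20) (nat_lit 4) (nat_lit 22) (nat_lit 5) (nat_lit 22) (nat_lit 4) (nat_lit 501) (nat_lit 320) (nat_lit 319)) (XT.lf (nat_lit 0) (nat_lit 12120098040) (nat_lit 152) (nat_lit 2159499551) (nat_lit 152) (nat_lit 1362926034) (nat_lit 20) (nat_lit 4) (nat_lit 22) (nat_lit 5) (nat_lit 22) (nat_lit 4) (nat_lit 502) (nat_lit 320) (nat_lit 318)))) (XT.nd (nat_lit 78) (nat_lit 152) (nat_lit 0) (XT.lf (nat_lit 0) (nat_lit 3779144299) (nat_lit 152) (nat_lit 9445535594) (nat_lit 0) (nat_lit 2619159376) (nat_lit 18) (nat_lit 5) (nat_lit 20) (nat_lit 4) (nat_lit 18) (nat_lit 4) (nat_lit 503) (nat_lit 320) (nat_lit 317)) (XT.nd (nat_lit 78) (nat_lit 0) (nat_lit 0) (XT.lf (nat_lit 0) (nat_lit 367639457) (nat_lit 152) (nat_lit 8606790454) (nat_lit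 152) (nat_lit 7075207008) (nat_lit 16) (nat_lit 4) (nat_lit 18) (nat_lit 5) (nat_lit 18) (nat_lit 4) (nat_lit 504) (nat_lit 320) (nat_lit 316)) (XT.lf (nat_lit 0) (nat_lit 10375786424) (nat_lit 152) (nat_lit 3889913215) (nat_lit 152) (nat_lit 1994017492) (nat_lit 16) (nat_lit 4) (nat_lit 18) (nat_lit 5) (nat_lit 18) (nat_lit 4) (nat_lit 505) (nat_lit 320) (nat_lit 315))))))) (XT.nd (nat_lit 59280) (nat_lit 0) (nat_lit 0) (XT.nd (nat_lit 58890) (nat_lit 0) (nat_lit 304) (XT.nd (nat_lit 156) (nat_lit 152) (nat_lit 0) (XT.nd (nat_lit 78) (nat_lit 0) (nat_lit 0) (XT.lf (nat_lit 0) (nat_lit 3108577911) (nat_lit 152) (nat_lit 12466091719) (nat_lit 0) (nat_lit 899691026) (nat_lit 14) (nat_lit 5) (nat_lit 16) (nat_lit 4) (nat_lit 14) (nat_lit 4) (nat_lit 506) (nat_lit 320) (nat_lit 314)) (XT.lf (nat_lit 0) (nat_lit 8281863763) (nat_lit 152) (nat_lit 2681593332) (nat_lit 0) (nat_lit 5729677283) (nat_lit 14) (nat_lit 5) (nat_lit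 16) (nat_lit 4) (nat_lit 14) (nat_lit 4) (nat_lit 507) (nat_lit 320) (nat_lit 313))) (XT.nd (nat_lit 58578) (nat_lit 0) (nat_lit 988) (XT.lf (nat_lit 0) (nat_lit 7268502288) (nat_lit 152) (nat_lit 6268488027) (nat_lit 152) (nat_lit 3379733315) (nat_lit 12) (nat_lit 4) (nat_lit 14) (nat_lit 5) (nat_lit 14) (nat_lit 4) (nat_lit 508) (nat_lit 320) (nat_lit 312)) (XT.nd (nat_lit 78) (nat_lit 0) (nat_lit 0) (XT.lf (nat_lit 0) (nat_lit 1365294388) (nat_lit 152) (nat_lit 3036413317) (nat_lit 152) (nat_lit 3036413317) (nat_lit 25) (nat_lit 4) (nat_lit 27) (nat_lit 5) (nat_lit 27) (nat_lit 4) (nat_lit 498) (nat_lit 321) (nat_lit 321)) (XT.lf (nat_lit 0) (nat_lit 12660992284) (nat_lit 152) (nat_lit 1410089584) (nat_lit 152) (nat_lit 991609292) (nat_lit 25) (nat_lit 4) (nat_lit 27) (nat_lit 5) (nat_lit 27) (nat_lit 4) (nat_lit 499) (nat_lit 321) (nat_lit 320))))) (XT.nd (nat_lit 156) (nat_lit 304) (nat_lit 0) (XT.nd (nat_lit 78)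 (nat_lit 152) (nat_lit 0) (XT.lf (nat_lit 0) (nat_lit 4134287414) (nat_lit 228) (nat_lit 7796303722) (nat_lit 0) (nat_lit 3321782426) (nat_lit 22) (nat_lit 5) (nat_lit 25) (nat_lit 4) (nat_lit 22) (nat_lit 4) (nat_lit 500) (nat_lit 321) (nat_lit 319)) (XT.lf (nat_lit 0) (nat_lit 1978089675) (nat_lit 152) (nat_lit 7337580547) (nat_lit 152) (nat_lit 6130732234) (nat_lit 20) (nat_lit 4) (nat_lit 22) (nat_lit 5) (nat_lit 22) (nat_lit 4) (nat_lit 501) (nat_lit 321) (nat_lit 318))) (XT.nd (nat_lit 78) (nat_lit 304) (nat_lit 0) (XT.lf (nat_lit 0) (nat_lit 11924642641) (nat_lit 152) (nat_lit 2656761456) (nat_lit 152) (nat_lit 1063302040) (nat_lit 20) (nat_lit 4) (nat_lit 22) (nat_lit 5) (nat_lit 22) (nat_lit 4) (nat_lit 502) (nat_lit 321) (nat_lit 317)) (XT.nd (nat_lit 78) (nat_lit 152) (nat_lit 0) (XT.lf (nat_lit 0) (nat_lit 4034719198) (nat_lit 152) (nat_lit 9711164634) (nat_lit 0) (nat_lit 2100905561) (nat_lit 18) (nat_lit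 5) (nat_lit 20) (nat_lit 4) (nat_lit 18) (nat_lit 4) (nat_lit 503) (nat_lit 321) (nat_lit 316)) (XT.lf (nat_lit 0) (nat_lit 34456433) (nat_lit 152) (nat_lit 9158500762) (nat_lit 152) (nat_lit 6860374848) (nat_lit 16) (nat_lit 4) (nat_lit 18) (nat_lit 5) (nat_lit 18) (nat_lit 4) (nat_lit 504) (nat_lit 321) (nat_lit 315)))))) (XT.nd (nat_lit 58734) (nat_lit 0) (nat_lit 608) (XT.nd (nat_lit 156) (nat_lit 152) (nat_lit 0) (XT.nd (nat_lit 78) (nat_lit 152) (nat_lit 0) (XT.lf (nat_lit 0) (nat_lit 9979834855) (nat_lit 152) (nat_lit 4469784170) (nat_lit 152) (nat_lit 1814489356) (nat_lit 16) (nat_lit 4) (nat_lit 18) (nat_lit 5) (nat_lit 18) (nat_lit 4) (nat_lit 505) (nat_lit 321) (nat_lit 314)) (XT.lf (nat_lit 0) (nat_lit 3244586164) (nat_lit 152) (nat_lit 12936913193) (nat_lit 0) (nat_lit 298056358) (nat_lit 14) (nat_lit 5) (nat_lit 16) (nat_lit 4) (nat_lit 14) (nat_lit 4) (nat_lit 506) (nat_lit 321) (nat_lit 313))) (XT.nd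 (nat_lit 78) (nat_lit 152) (nat_lit 0) (XT.lf (nat_lit 0) (nat_lit 8383804216) (nat_lit 152) (nat_lit 3214504137) (nat_lit 0) (nat_lit 5100706179) (nat_lit 14) (nat_lit 5) (nat_lit 16) (nat_lit 4) (nat_lit 14) (nat_lit 4) (nat_lit 507) (nat_lit 321) (nat_lit 312)) (XT.nd (nat_lit 58422) (nat_lit 0) (nat_lit 1368) (XT.lf (nat_lit 0) (nat_lit 6666828530) (nat_lit 152) (nat_lit 6934795969) (nat_lit 152) (nat_lit 3321729078) (nat_lit 12) (nat_lit 4) (nat_lit 14) (nat_lit 5) (nat_lit 14) (nat_lit 4) (nat_lit 508) (nat_lit 321) (nat_lit 311)) (XT.lf (nat_lit 0) (nat_lit 6198165553) (nat_lit 152) (nat_lit 529689764) (nat_lit 152) (nat_lit 529689764) (nat_lit 30) (nat_lit 4) (nat_lit 32) (nat_lit 5) (nat_lit 32) (nat_lit 4) (nat_lit 496) (nat_lit 322) (nat_lit 322))))) (XT.nd (nat_lit 234) (nat_lit 380) (nat_lit 0) (XT.nd (nat_lit 78) (nat_lit 152) (nat_lit 0) (XT.lf (nat_lit 0) (nat_lit 4040304324) (nat_lit 228) (nat_lit 7040210898)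 (nat_lit 0) (nat_lit 3613454426) (nat_lit 27) (nat_lit 5) (nat_lit 30) (nat_lit 4) (nat_lit 27) (nat_lit 4) (nat_lit 497) (nat_lit 322) (nat_lit 321)) (XT.nd (nat_lit 78) (nat_lit 0) (nat_lit 0) (XT.lf (nat_lit 0) (nat_lit 2665616463) (nat_lit 152) (nat_lit 6528343267) (nat_lit 152) (nat_lit 5683013078) (nat_lit 25) (nat_lit 4) (nat_lit 27) (nat_lit 5) (nat_lit 27) (nat_lit 4) (nat_lit 498) (nat_lit 322) (nat_lit 320)) (XT.lf (nat_lit 0) (nat_lit 12532321623) (nat_lit 152) (nat_lit 1893710858) (nat_lit 152) (nat_lit 638105873) (nat_lit 25) (nat_lit 4) (nat_lit 27) (nat_lit 5) (nat_lit 27) (nat_lit 4) (nat_lit 499) (nat_lit 322) (nat_lit 319)))) (XT.nd (nat_lit 78) (nat_lit 152) (nat_lit 0) (XT.lf (nat_lit 0) (nat_lit 4443424457) (nat_lit 228) (nat_lit 7993053527) (nat_lit 0) (nat_lit 2818095852) (nat_lit 22) (nat_lit 5) (nat_lit 25) (nat_lit 4) (nat_lit 22) (nat_lit 4) (nat_lit 500) (nat_lit 322) (nat_lit 318)) (XT.nd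 (nat_lit 78) (nat_lit 0) (nat_lit 0) (XT.lf (nat_lit 0) (nat_lit 1714859203) (nat_lit 152) (nat_lit 7873211135) (nat_lit 152) (nat_lit 5861271427) (nat_lit 20) (nat_lit 4) (nat_lit 22) (nat_lit 5) (nat_lit 22) (nat_lit 4) (nat_lit 501) (nat_lit 322) (nat_lit 317)) (XT.lf (nat_lit 0) (nat_lit 11598798478) (nat_lit 152) (nat_lit 3220258166) (nat_lit 152) (nat_lit 829287965) (nat_lit 20) (nat_lit 4) (nat_lit 22) (nat_lit 5) (nat_lit 22) (nat_lit 4) (nat_lit 502) (nat_lit 322) (nat_lit 316))))))))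
noncomputable def xc1 : XT := (XT.nd (nat_lit 117858) (nat_lit 0) (nat_lit 0) (XT.nd (nat_lit 58968) (nat_lit 0) (nat_lit 0) (XT.nd (nat_lit 390) (nat_lit 152) (nat_lit 0) (XT.nd (nat_lit 156) (nat_lit 304) (nat_lit 0) (XT.nd (nat_lit 78) (nat_lit 0) (nat_lit 0) (XT.lf (nat_lit 0) (nat_lit 4224939168) (nat_lit 152) (nat_lit 10109738398) (nat_lit 0) (nat_lit 1516538458) (nat_lit 18) (nat_lit 5) (nat_lit 20) (nat_lit 4) (nat_lit 18) (nat_lit 4) (nat_lit 503) (nat_lit 322) (nat_lit 315)) (XT.lf (nat_lit 0) (nat_lit 9348753089) (nat_lit 152) (nat_lit 426514556) (nat_lit 0) (nat_lit 6283183479) (nat_lit 18) (nat_lit 5) (nat_lit 20) (nat_lit 4) (nat_lit 18) (nat_lit 4) (nat_lit 504) (nat_lit 322) (nat_lit 314))) (XT.nd (nat_lit 78) (nat_lit 152) (nat_lit 0) (XT.lf (nat_lit 0) (nat_lit 9451657923) (nat_lit 152) (nat_lit 5117021667) (nat_lit 152) (nat_lit 1701286469) (nat_lit 16) (nat_lit 4) (nat_lit 18) (nat_lit 5) (nat_lit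 18) (nat_lit 4) (nat_lit 505) (nat_lit 322) (nat_lit 313)) (XT.nd (nat_lit 78) (nat_lit 0) (nat_lit 0) (XT.lf (nat_lit 0) (nat_lit 2941178554) (nat_lit 76) (nat_lit 375758746) (nat_lit 152) (nat_lit 13169252474) (nat_lit 14) (nat_lit 5) (nat_lit 15) (nat_lit 5) (nat_lit 16) (nat_lit 4) (nat_lit 506) (nat_lit 322) (nat_lit 312)) (XT.lf (nat_lit 0) (nat_lit 8420315874) (nat_lit 152) (nat_lit 3881034383) (nat_lit 0) (nat_lit 4405018791) (nat_lit 14) (nat_lit 5) (nat_lit 16) (nat_lit 4) (nat_lit 14) (nat_lit 4) (nat_lit 507) (nat_lit 322) (nat_lit 311))))) (XT.nd (nat_lit 58344) (nat_lit 0) (nat_lit 1140) (XT.nd (nat_lit 58266) (nat_lit 0) (nat_lit 1520) (XT.lf (nat_lit 0) (nat_lit 5930969028) (nat_lit 152) (nat_lit 7669644535) (nat_lit 152) (nat_lit 3330848575) (nat_lit 12) (nat_lit 4) (nat_lit 14) (nat_lit 5) (nat_lit 14) (nat_lit 4) (nat_lit 508) (nat_lit 322) (nat_lit 310)) (XT.lf (nat_lit 0) (nat_lit 1779138321) (nat_lit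 228) (nat_lit 3524987496) (nat_lit 0) (nat_lit 1779138321) (nat_lit 32) (nat_lit 5) (nat_lit 35) (nat_lit 4) (nat_lit 32) (nat_lit 4) (nat_lit 494) (nat_lit 323) (nat_lit 323))) (XT.nd (nat_lit 78) (nat_lit 228) (nat_lit 0) (XT.lf (nat_lit 0) (nat_lit 2561674865) (nat_lit 152) (nat_lit 6110804158) (nat_lit 152) (nat_lit 5666709524) (nat_lit 30) (nat_lit 4) (nat_lit 32) (nat_lit 5) (nat_lit 32) (nat_lit 4) (nat_lit 495) (nat_lit 323) (nat_lit 322)) (XT.nd (nat_lit 78) (nat_lit 228) (nat_lit 0) (XT.lf (nat_lit 0) (nat_lit 12332810637) (nat_lit 152) (nat_lit 1531240487) (nat_lit 152) (nat_lit 651758958) (nat_lit 30) (nat_lit 4) (nat_lit 32) (nat_lit 5) (nat_lit 32) (nat_lit 4) (nat_lit 496) (nat_lit 323) (nat_lit 321)) (XT.lf (nat_lit 0) (nat_lit 4403206073) (nat_lit 228) (nat_lit 7169733683) (nat_lit 0) (nat_lit 3122488988) (nat_lit 27) (nat_lit 5) (nat_lit 30) (nat_lit 4) (nat_lit 27) (nat_lit 4) (nat_lit 497) (nat_lit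 323) (nat_lit 320)))))) (XT.nd (nat_lit 390) (nat_lit 608) (nat_lit 0) (XT.nd (nat_lit 156) (nat_lit 380) (nat_lit 0) (XT.nd (nat_lit 78) (nat_lit 0) (nat_lit 0) (XT.lf (nat_lit 0) (nat_lit 2470674041) (nat_lit 152) (nat_lit 7049741608) (nat_lit 152) (nat_lit 5358749728) (nat_lit 25) (nat_lit 4) (nat_lit 27) (nat_lit 5) (nat_lit 27) (nat_lit 4) (nat_lit 498) (nat_lit 323) (nat_lit 319)) (XT.lf (nat_lit 0) (nat_lit 12274929842) (nat_lit 152) (nat_lit 2442662770) (nat_lit 152) (nat_lit 349440698) (nat_lit 25) (nat_lit 4) (nat_lit 27) (nat_lit 5) (nat_lit 27) (nat_lit 4) (nat_lit 499) (nat_lit 323) (nat_lit 318))) (XT.nd (nat_lit 78) (nat_lit 152) (nat_lit 0) (XT.lf (nat_lit 0) (nat_lit 4687987963) (nat_lit 228) (nat_lit 8321055599) (nat_lit 0) (nat_lit 2249198357) (nat_lit 22) (nat_lit 5) (nat_lit 25) (nat_lit 4) (nat_lit 22) (nat_lit 4) (nat_lit 500) (nat_lit 323) (nat_lit 317)) (XT.nd (nat_lit 78) (nat_lit 0) (nat_lit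 0) (XT.lf (nat_lit 0) (nat_lit 1319884466) (nat_lit 152) (nat_lit 8475843901) (nat_lit 152) (nat_lit 5658023802) (nat_lit 20) (nat_lit 4) (nat_lit 22) (nat_lit 5) (nat_lit 22) (nat_lit 4) (nat_lit 501) (nat_lit 323) (nat_lit 316)) (XT.lf (nat_lit 0) (nat_lit 11142437769) (nat_lit 152) (nat_lit 3850210660) (nat_lit 152) (nat_lit 660792038) (nat_lit 20) (nat_lit 4) (nat_lit 22) (nat_lit 5) (nat_lit 22) (nat_lit 4) (nat_lit 502) (nat_lit 323) (nat_lit 315))))) (XT.nd (nat_lit 234) (nat_lit 304) (nat_lit 0) (XT.nd (nat_lit 78) (nat_lit 152) (nat_lit 0) (XT.lf (nat_lit 0) (nat_lit 4349878805) (nat_lit 152) (nat_lit 10641413191) (nat_lit 0) (nat_lit 865828903) (nat_lit 18) (nat_lit 5) (nat_lit 20) (nat_lit 4) (nat_lit 18) (nat_lit 4) (nat_lit 503) (nat_lit 323) (nat_lit 314)) (XT.nd (nat_lit 78) (nat_lit 152) (nat_lit 0) (XT.lf (nat_lit 0) (nat_lit 9440162958) (nat_lit 152) (nat_lit 1018920058) (nat_lit 0) (nat_lit 5605947469)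 (nat_lit 18) (nat_lit 5) (nat_lit 20) (nat_lit 4) (nat_lit 18) (nat_lit 4) (nat_lit 504) (nat_lit 323) (nat_lit 313)) (XT.lf (nat_lit 0) (nat_lit 8791048499) (nat_lit 152) (nat_lit 5831879525) (nat_lit 152) (nat_lit 1654364440) (nat_lit 16) (nat_lit 4) (nat_lit 18) (nat_lit 5) (nat_lit 18) (nat_lit 4) (nat_lit 505) (nat_lit 323) (nat_lit 312)))) (XT.nd (nat_lit 78) (nat_lit 152) (nat_lit 0) (XT.lf (nat_lit 0) (nat_lit 2203677437) (nat_lit 76) (nat_lit 1121946697) (nat_lit 152) (nat_lit 13168642014) (nat_lit 14) (nat_lit 5) (nat_lit 15) (nat_lit 5) (nat_lit 16) (nat_lit 4) (nat_lit 506) (nat_lit 323) (nat_lit 311)) (XT.nd (nat_lit 78) (nat_lit 152) (nat_lit 0) (XT.lf (nat_lit 0) (nat_lit 8391413056) (nat_lit 152) (nat_lit 4681445453) (nat_lit 0) (nat_lit 3642342301) (nat_lit 14) (nat_lit 5) (nat_lit 16) (nat_lit 4) (nat_lit 14) (nat_lit 4) (nat_lit 507) (nat_lit 323) (nat_lit 310)) (XT.lf (nat_lit 0) (nat_lit 5060635210)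 (nat_lit 152) (nat_lit 8473321901) (nat_lit 152) (nat_lit 3407095385) (nat_lit 12) (nat_lit 4) (nat_lit 14) (nat_lit 5) (nat_lit 14) (nat_lit 4) (nat_lit 508) (nat_lit 323) (nat_lit 309))))))) (XT.nd (nat_lit 858) (nat_lit 608) (nat_lit 0) (XT.nd (nat_lit 390) (nat_lit 760) (nat_lit 0) (XT.nd (nat_lit 156) (nat_lit 380) (nat_lit 0) (XT.nd (nat_lit 78) (nat_lit 0) (nat_lit 0) (XT.lf (nat_lit 0) (nat_lit 892003847) (nat_lit 152) (nat_lit 3011764296) (nat_lit 152) (nat_lit 3011764296) (nat_lit 35) (nat_lit 4) (nat_lit 37) (nat_lit 5) (nat_lit 37) (nat_lit 4) (nat_lit 492) (nat_lit 324) (nat_lit 324)) (XT.lf (nat_lit 0) (nat_lit 11446106981) (nat_lit 152) (nat_lit 1506812371) (nat_lit 152) (nat_lit 1044776315) (nat_lit 35) (nat_lit 4) (nat_lit 37) (nat_lit 5) (nat_lit 37) (nat_lit 4) (nat_lit 493) (nat_lit 324) (nat_lit 323))) (XT.nd (nat_lit 78) (nat_lit 152) (nat_lit 0) (XT.lf (nat_lit 0) (nat_lit 3975204607) (nat_lit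 228) (nat_lit 7113916127) (nat_lit 0) (nat_lit 3078133447) (nat_lit 32) (nat_lit 5) (nat_lit 35) (nat_lit 4) (nat_lit 32) (nat_lit 4) (nat_lit 494) (nat_lit 324) (nat_lit 322)) (XT.nd (nat_lit 78) (nat_lit 0) (nat_lit 0) (XT.lf (nat_lit 0) (nat_lit 2433363516) (nat_lit 152) (nat_lit 6619868663) (nat_lit 152) (nat_lit 5287410608) (nat_lit 30) (nat_lit 4) (nat_lit 32) (nat_lit 5) (nat_lit 32) (nat_lit 4) (nat_lit 495) (nat_lit 324) (nat_lit 321)) (XT.lf (nat_lit 0) (nat_lit 12142224318) (nat_lit 152) (nat_lit 2067526880) (nat_lit 152) (nat_lit 308218928) (nat_lit 30) (nat_lit 4) (nat_lit 32) (nat_lit 5) (nat_lit 32) (nat_lit 4) (nat_lit 496) (nat_lit 324) (nat_lit 320))))) (XT.nd (nat_lit 234) (nat_lit 380) (nat_lit 0) (XT.nd (nat_lit 78) (nat_lit 152) (nat_lit 0) (XT.lf (nat_lit 0) (nat_lit 4702301987) (nat_lit 228) (nat_lit 7428830046) (nat_lit 0) (nat_lit 2567215474) (nat_lit 27) (nat_lit 5) (nat_lit 30) (nat_lit 4)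 (nat_lit 27) (nat_lit 4) (nat_lit 497) (nat_lit 324) (nat_lit 319)) (XT.nd (nat_lit 78) (nat_lit 0) (nat_lit 0) (XT.lf (nat_lit 0) (nat_lit 2145685065) (nat_lit 152) (nat_lit 7637226129) (nat_lit 152) (nat_lit 5099909424) (nat_lit 25) (nat_lit 4) (nat_lit 27) (nat_lit 5) (nat_lit 27) (nat_lit 4) (nat_lit 498) (nat_lit 324) (nat_lit 318)) (XT.lf (nat_lit 0) (nat_lit 11888716002) (nat_lit 152) (nat_lit 3057160595) (nat_lit 152) (nat_lit 125500564) (nat_lit 25) (nat_lit 4) (nat_lit 27) (nat_lit 5) (nat_lit 27) (nat_lit 4) (nat_lit 499) (nat_lit 324) (nat_lit 317)))) (XT.nd (nat_lit 78) (nat_lit 152) (nat_lit 0) (XT.lf (nat_lit 0) (nat_lit 4868073840) (nat_lit 228) (nat_lit 8780438564) (nat_lit 0) (nat_lit 1614866845) (nat_lit 22) (nat_lit 5) (nat_lit 25) (nat_lit 4) (nat_lit 22) (nat_lit 4) (nat_lit 500) (nat_lit 324) (nat_lit 316)) (XT.nd (nat_lit 78) (nat_lit 0) (nat_lit 0) (XT.lf (nat_lit 0) (nat_lit 793010571) (nat_lit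 152) (nat_lit 9145715172) (nat_lit 152) (nat_lit 5520909654) (nat_lit 20) (nat_lit 4) (nat_lit 22) (nat_lit 5) (nat_lit 22) (nat_lit 4) (nat_lit 501) (nat_lit 324) (nat_lit 315)) (XT.lf (nat_lit 0) (nat_lit 10555381549) (nat_lit 152) (nat_lit 4546865977) (nat_lit 152) (nat_lit 557748182) (nat_lit 20) (nat_lit 4) (nat_lit 22) (nat_lit 5) (nat_lit 22) (nat_lit 4) (nat_lit 502) (nat_lit 324) (nat_lit 314)))))) (XT.nd (nat_lit 390) (nat_lit 152) (nat_lit 0) (XT.nd (nat_lit 156) (nat_lit 304) (nat_lit 0) (XT.nd (nat_lit 78) (nat_lit 0) (nat_lit 0) (XT.lf (nat_lit 0) (nat_lit 4409587104) (nat_lit 152) (nat_lit 11306397512) (nat_lit 0) (nat_lit 148521718) (nat_lit 18) (nat_lit 5) (nat_lit 20) (nat_lit 4) (nat_lit 18) (nat_lit 4) (nat_lit 503) (nat_lit 324) (nat_lit 313)) (XT.lf (nat_lit 0) (nat_lit 9466998937) (nat_lit 152) (nat_lit 1743444290) (nat_lit 0) (nat_lit 4862633954) (nat_lit 18) (nat_lit 5) (nat_lit 20) (nat_lit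 4) (nat_lit 18) (nat_lit 4) (nat_lit 504) (nat_lit 324) (nat_lit 312))) (XT.nd (nat_lit 78) (nat_lit 152) (nat_lit 0) (XT.lf (nat_lit 0) (nat_lit 7997747520) (nat_lit 152) (nat_lit 6614638080) (nat_lit 152) (nat_lit 1673704866) (nat_lit 16) (nat_lit 4) (nat_lit 18) (nat_lit 5) (nat_lit 18) (nat_lit 4) (nat_lit 505) (nat_lit 324) (nat_lit 311)) (XT.nd (nat_lit 78) (nat_lit 0) (nat_lit 0) (XT.lf (nat_lit 0) (nat_lit 1331850070) (nat_lit 76) (nat_lit 1936839107) (nat_lit 152) (nat_lit 13235138044) (nat_lit 14) (nat_lit 5) (nat_lit 15) (nat_lit 5) (nat_lit 16) (nat_lit 4) (nat_lit 506) (nat_lit 324) (nat_lit 310)) (XT.lf (nat_lit 0) (nat_lit 8297084427) (nat_lit 152) (nat_lit 5616051234) (nat_lit 0) (nat_lit 2812377619) (nat_lit 14) (nat_lit 5) (nat_lit 16) (nat_lit 4) (nat_lit 14) (nat_lit 4) (nat_lit 507) (nat_lit 324) (nat_lit 309))))) (XT.nd (nat_lit 58110) (nat_lit 0) (nat_lit 1520) (XT.nd (nat_lit 57954) (nat_lit 0)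 (nat_lit 1900) (XT.lf (nat_lit 0) (nat_lit 4055485769) (nat_lit 152) (nat_lit 9346143235) (nat_lit 152) (nat_lit 3550499406) (nat_lit 12) (nat_lit 4) (nat_lit 14) (nat_lit 5) (nat_lit 14) (nat_lit 4) (nat_lit 508) (nat_lit 324) (nat_lit 308)) (XT.nd (nat_lit 78) (nat_lit 228) (nat_lit 0) (XT.lf (nat_lit 0) (nat_lit 4989809796) (nat_lit 228) (nat_lit 882078198) (nat_lit 228) (nat_lit 882078198) (nat_lit 40) (nat_lit 4) (nat_lit 43) (nat_lit 5) (nat_lit 43) (nat_lit 4) (nat_lit 490) (nat_lit 325) (nat_lit 325)) (XT.lf (nat_lit 0) (nat_lit 3213909522) (nat_lit 228) (nat_lit 7711577469) (nat_lit 0) (nat_lit 2742632744) (nat_lit 37) (nat_lit 5) (nat_lit 40) (nat_lit 4) (nat_lit 37) (nat_lit 4) (nat_lit 491) (nat_lit 325) (nat_lit 324)))) (XT.nd (nat_lit 78) (nat_lit 228) (nat_lit 0) (XT.lf (nat_lit 0) (nat_lit 1720675990) (nat_lit 152) (nat_lit 6522212672) (nat_lit 152) (nat_lit 5588899838) (nat_lit 35) (nat_lit 4) (nat_lit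 37) (nat_lit 5) (nat_lit 37) (nat_lit 4) (nat_lit 492) (nat_lit 325) (nat_lit 323)) (XT.nd (nat_lit 78) (nat_lit 228) (nat_lit 0) (XT.lf (nat_lit 0) (nat_lit 11320685370) (nat_lit 152) (nat_lit 2032366356) (nat_lit 152) (nat_lit 646076996) (nat_lit 35) (nat_lit 4) (nat_lit 37) (nat_lit 5) (nat_lit 37) (nat_lit 4) (nat_lit 493) (nat_lit 325) (nat_lit 322)) (XT.lf (nat_lit 0) (nat_lit 4329080843) (nat_lit 228) (nat_lit 7305764607) (nat_lit 0) (nat_lit 2534586732) (nat_lit 32) (nat_lit 5) (nat_lit 35) (nat_lit 4) (nat_lit 32) (nat_lit 4) (nat_lit 494) (nat_lit 325) (nat_lit 321))))))))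
noncomputable def xc2 : XT := (XT.nd (nat_lit 59358) (nat_lit 0) (nat_lit 0) (XT.nd (nat_lit 780) (nat_lit 456) (nat_lit 0) (XT.nd (nat_lit 390) (nat_lit 456) (nat_lit 0) (XT.nd (nat_lit 156) (nat_lit 456) (nat_lit 0) (XT.nd (nat_lit 78) (nat_lit 0) (nat_lit 0) (XT.lf (nat_lit 0) (nat_lit 2176690500) (nat_lit 152) (nat_lit 7194102672) (nat_lit 152) (nat_lit 4972758663) (nat_lit 30) (nat_lit 4) (nat_lit 32) (nat_lit 5) (nat_lit 32) (nat_lit 4) (nat_lit 495) (nat_lit 325) (nat_lit 320)) (XT.lf (nat_lit 0) (nat_lit 11824497409) (nat_lit 152) (nat_lit 2668449016) (nat_lit 152) (nat_lit 28624715) (nat_lit 30) (nat_lit 4) (nat_lit 32) (nat_lit 5) (nat_lit 32) (nat_lit 4) (nat_lit 496) (nat_lit 325) (nat_lit 319))) (XT.nd (nat_lit 78) (nat_lit 228) (nat_lit 0) (XT.lf (nat_lit 0) (nat_lit 4937709361) (nat_lit 228) (nat_lit 7817601593) (nat_lit 0) (nat_lit 1947416129) (nat_lit 27) (nat_lit 5) (nat_lit 30) (nat_lit 4) (nat_lit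 27) (nat_lit 4) (nat_lit 497) (nat_lit 325) (nat_lit 318)) (XT.nd (nat_lit 78) (nat_lit 76) (nat_lit 0) (XT.lf (nat_lit 0) (nat_lit 1690522086) (nat_lit 152) (nat_lit 8291027216) (nat_lit 152) (nat_lit 4906390659) (nat_lit 25) (nat_lit 4) (nat_lit 27) (nat_lit 5) (nat_lit 27) (nat_lit 4) (nat_lit 498) (nat_lit 325) (nat_lit 317)) (XT.lf (nat_lit 0) (nat_lit 33359022) (nat_lit 228) (nat_lit 3703862434) (nat_lit 76) (nat_lit 11339945769) (nat_lit 24) (nat_lit 5) (nat_lit 27) (nat_lit 5) (nat_lit 25) (nat_lit 4) (nat_lit 499) (nat_lit 325) (nat_lit 316))))) (XT.nd (nat_lit 156) (nat_lit 152) (nat_lit 0) (XT.nd (nat_lit 78) (nat_lit 152) (nat_lit 0) (XT.lf (nat_lit 0) (nat_lit 4983752708) (nat_lit 228) (nat_lit 9371382573) (nat_lit 0) (nat_lit 914852557) (nat_lit 22) (nat_lit 5) (nat_lit 25) (nat_lit 4) (nat_lit 22) (nat_lit 4) (nat_lit 500) (nat_lit 325) (nat_lit 315)) (XT.lf (nat_lit 0) (nat_lit 134030902) (nat_lit 152)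 (nat_lit 9883087642) (nat_lit 152) (nat_lit 5449875213) (nat_lit 20) (nat_lit 4) (nat_lit 22) (nat_lit 5) (nat_lit 22) (nat_lit 4) (nat_lit 501) (nat_lit 325) (nat_lit 314))) (XT.nd (nat_lit 78) (nat_lit 152) (nat_lit 0) (XT.lf (nat_lit 0) (nat_lit 9837399600) (nat_lit 152) (nat_lit 5310497316) (nat_lit 152) (nat_lit 520115989) (nat_lit 20) (nat_lit 4) (nat_lit 22) (nat_lit 5) (nat_lit 22) (nat_lit 4) (nat_lit 502) (nat_lit 325) (nat_lit 313)) (XT.nd (nat_lit 78) (nat_lit 0) (nat_lit 0) (XT.lf (nat_lit 0) (nat_lit 3764157442) (nat_lit 76) (nat_lit 644112041) (nat_lit 152) (nat_lit 11465022100) (nat_lit 18) (nat_lit 5) (nat_lit 19) (nat_lit 5) (nat_lit 20) (nat_lit 4) (nat_lit 503) (nat_lit 325) (nat_lit 312)) (XT.lf (nat_lit 0) (nat_lit 9429271548) (nat_lit 152) (nat_lit 2600371379) (nat_lit 0) (nat_lit 4052951439) (nat_lit 18) (nat_lit 5) (nat_lit 20) (nat_lit 4) (nat_lit 18) (nat_lit 4) (nat_lit 504) (nat_lit 325)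 (nat_lit 311)))))) (XT.nd (nat_lit 58110) (nat_lit 0) (nat_lit 1520) (XT.nd (nat_lit 156) (nat_lit 152) (nat_lit 0) (XT.nd (nat_lit 78) (nat_lit 152) (nat_lit 0) (XT.lf (nat_lit 0) (nat_lit 7071443889) (nat_lit 152) (nat_lit 7465604296) (nat_lit 152) (nat_lit 1759315333) (nat_lit 16) (nat_lit 4) (nat_lit 18) (nat_lit 5) (nat_lit 18) (nat_lit 4) (nat_lit 505) (nat_lit 325) (nat_lit 310)) (XT.lf (nat_lit 0) (nat_lit 325354558) (nat_lit 76) (nat_lit 2820755539) (nat_lit 152) (nat_lit 13368766644) (nat_lit 14) (nat_lit 5) (nat_lit 15) (nat_lit 5) (nat_lit 16) (nat_lit 4) (nat_lit 506) (nat_lit 325) (nat_lit 309))) (XT.nd (nat_lit 78) (nat_lit 152) (nat_lit 0) (XT.lf (nat_lit 0) (nat_lit 8137292995) (nat_lit 152) (nat_lit 6685218239) (nat_lit 0) (nat_lit 1914799268) (nat_lit 14) (nat_lit 5) (nat_lit 16) (nat_lit 4) (nat_lit 14) (nat_lit 4) (nat_lit 507) (nat_lit 325) (nat_lit 308)) (XT.nd (nat_lit 57798) (nat_lit 0) (nat_lit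 2356) (XT.lf (nat_lit 0) (nat_lit 2915126528) (nat_lit 152) (nat_lit 10288450820) (nat_lit 152) (nat_lit 3761116877) (nat_lit 12) (nat_lit 4) (nat_lit 14) (nat_lit 5) (nat_lit 14) (nat_lit 4) (nat_lit 508) (nat_lit 325) (nat_lit 307)) (XT.lf (nat_lit 0) (nat_lit 1083905047) (nat_lit 228) (nat_lit 4430314996) (nat_lit 0) (nat_lit 1083905047) (nat_lit 43) (nat_lit 5) (nat_lit 46) (nat_lit 4) (nat_lit 43) (nat_lit 4) (nat_lit 488) (nat_lit 326) (nat_lit 326))))) (XT.nd (nat_lit 234) (nat_lit 380) (nat_lit 0) (XT.nd (nat_lit 78) (nat_lit 228) (nat_lit 0) (XT.lf (nat_lit 0) (nat_lit 438019907) (nat_lit 228) (nat_lit 6701536645) (nat_lit 228) (nat_lit 6211220286) (nat_lit 40) (nat_lit 4) (nat_lit 43) (nat_lit 5) (nat_lit 43) (nat_lit 4) (nat_lit 489) (nat_lit 326) (nat_lit 325)) (XT.nd (nat_lit 78) (nat_lit 228) (nat_lit 0) (XT.lf (nat_lit 0) (nat_lit 9917726077) (nat_lit 228) (nat_lit 2280969133) (nat_lit 228) (nat_lit 1309950460)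 (nat_lit 40) (nat_lit 4) (nat_lit 43) (nat_lit 5) (nat_lit 43) (nat_lit 4) (nat_lit 490) (nat_lit 326) (nat_lit 324)) (XT.lf (nat_lit 0) (nat_lit 3622875150) (nat_lit 228) (nat_lit 7837829687) (nat_lit 0) (nat_lit 2208860002) (nat_lit 37) (nat_lit 5) (nat_lit 40) (nat_lit 4) (nat_lit 37) (nat_lit 4) (nat_lit 491) (nat_lit 326) (nat_lit 323)))) (XT.nd (nat_lit 78) (nat_lit 228) (nat_lit 0) (XT.lf (nat_lit 0) (nat_lit 1530656040) (nat_lit 152) (nat_lit 7085147642) (nat_lit 152) (nat_lit 5218155968) (nat_lit 35) (nat_lit 4) (nat_lit 37) (nat_lit 5) (nat_lit 37) (nat_lit 4) (nat_lit 492) (nat_lit 326) (nat_lit 322)) (XT.nd (nat_lit 78) (nat_lit 228) (nat_lit 0) (XT.lf (nat_lit 0) (nat_lit 11069792962) (nat_lit 152) (nat_lit 2621644369) (nat_lit 152) (nat_lit 310558062) (nat_lit 35) (nat_lit 4) (nat_lit 37) (nat_lit 5) (nat_lit 37) (nat_lit 4) (nat_lit 493) (nat_lit 326) (nat_lit 321)) (XT.lf (nat_lit 0) (nat_lit 4620044127)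 (nat_lit 228) (nat_lit 7625595667) (nat_lit 0) (nat_lit 1927423340) (nat_lit 32) (nat_lit 5) (nat_lit 35) (nat_lit 4) (nat_lit 32) (nat_lit 4) (nat_lit 494) (nat_lit 326) (nat_lit 320))))))) (XT.nd (nat_lit 780) (nat_lit 456) (nat_lit 0) (XT.nd (nat_lit 390) (nat_lit 456) (nat_lit 0) (XT.nd (nat_lit 156) (nat_lit 380) (nat_lit 0) (XT.nd (nat_lit 78) (nat_lit 76) (nat_lit 0) (XT.lf (nat_lit 0) (nat_lit 1791555161) (nat_lit 152) (nat_lit 7833731376) (nat_lit 152) (nat_lit 4722630298) (nat_lit 30) (nat_lit 4) (nat_lit 32) (nat_lit 5) (nat_lit 32) (nat_lit 4) (nat_lit 495) (nat_lit 326) (nat_lit 319)) (XT.lf (nat_lit 0) (nat_lit 184679037) (nat_lit 228) (nat_lit 3148324218) (nat_lit 76) (nat_lit 11193586982) (nat_lit 29) (nat_lit 5) (nat_lit 32) (nat_lit 5) (nat_lit 30) (nat_lit 4) (nat_lit 496) (nat_lit 326) (nat_lit 318))) (XT.nd (nat_lit 78) (nat_lit 228) (nat_lit 0) (XT.lf (nat_lit 0) (nat_lit 5109520509) (nat_lit 228)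 (nat_lit 8336200783) (nat_lit 0) (nat_lit 1262847895) (nat_lit 27) (nat_lit 5) (nat_lit 30) (nat_lit 4) (nat_lit 27) (nat_lit 4) (nat_lit 497) (nat_lit 326) (nat_lit 317)) (XT.nd (nat_lit 78) (nat_lit 76) (nat_lit 0) (XT.lf (nat_lit 0) (nat_lit 1105006610) (nat_lit 152) (nat_lit 9011401260) (nat_lit 152) (nat_lit 4778117543) (nat_lit 25) (nat_lit 4) (nat_lit 27) (nat_lit 5) (nat_lit 27) (nat_lit 4) (nat_lit 498) (nat_lit 326) (nat_lit 316)) (XT.lf (nat_lit 0) (nat_lit 126844806) (nat_lit 228) (nat_lit 4356087701) (nat_lit 76) (nat_lit 10601469743) (nat_lit 24) (nat_lit 5) (nat_lit 27) (nat_lit 5) (nat_lit 25) (nat_lit 4) (nat_lit 499) (nat_lit 326) (nat_lit 315))))) (XT.nd (nat_lit 156) (nat_lit 304) (nat_lit 0) (XT.nd (nat_lit 78) (nat_lit 0) (nat_lit 0) (XT.lf (nat_lit 0) (nat_lit 5035069934) (nat_lit 228) (nat_lit 10094119370) (nat_lit 0) (nat_lit 148880979) (nat_lit 22) (nat_lit 5) (nat_lit 25) (nat_lit 4) (nat_lit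 22) (nat_lit 4) (nat_lit 500) (nat_lit 326) (nat_lit 314)) (XT.lf (nat_lit 0) (nat_lit 10035205224) (nat_lit 228) (nat_lit 648692187) (nat_lit 0) (nat_lit 4791847370) (nat_lit 22) (nat_lit 5) (nat_lit 25) (nat_lit 4) (nat_lit 22) (nat_lit 4) (nat_lit 501) (nat_lit 326) (nat_lit 313))) (XT.nd (nat_lit 78) (nat_lit 152) (nat_lit 0) (XT.lf (nat_lit 0) (nat_lit 8988210361) (nat_lit 152) (nat_lit 6141404141) (nat_lit 152) (nat_lit 547880699) (nat_lit 20) (nat_lit 4) (nat_lit 22) (nat_lit 5) (nat_lit 22) (nat_lit 4) (nat_lit 502) (nat_lit 326) (nat_lit 312)) (XT.nd (nat_lit 78) (nat_lit 0) (nat_lit 0) (XT.lf (nat_lit 0) (nat_lit 2836362015) (nat_lit 76) (nat_lit 1506798901) (nat_lit 152) (nat_lit 11540374468) (nat_lit 18) (nat_lit 5) (nat_lit 19) (nat_lit 5) (nat_lit 20) (nat_lit 4) (nat_lit 503) (nat_lit 326) (nat_lit 311)) (XT.lf (nat_lit 0) (nat_lit 9326965997) (nat_lit 152) (nat_lit 3590037375) (nat_lit 0) (nat_lit 3176582400)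 (nat_lit 18) (nat_lit 5) (nat_lit 20) (nat_lit 4) (nat_lit 18) (nat_lit 4) (nat_lit 504) (nat_lit 326) (nat_lit 310)))))) (XT.nd (nat_lit 57954) (nat_lit 0) (nat_lit 1748) (XT.nd (nat_lit 156) (nat_lit 228) (nat_lit 0) (XT.nd (nat_lit 78) (nat_lit 76) (nat_lit 0) (XT.lf (nat_lit 0) (nat_lit 6011774349) (nat_lit 152) (nat_lit 8385111886) (nat_lit 152) (nat_lit 1911229413) (nat_lit 16) (nat_lit 4) (nat_lit 18) (nat_lit 5) (nat_lit 18) (nat_lit 4) (nat_lit 505) (nat_lit 326) (nat_lit 309)) (XT.lf (nat_lit 0) (nat_lit 2963138165) (nat_lit 228) (nat_lit 805499140) (nat_lit 76) (nat_lit 12758675752) (nat_lit 15) (nat_lit 5) (nat_lit 18) (nat_lit 5) (nat_lit 16) (nat_lit 4) (nat_lit 506) (nat_lit 326) (nat_lit 308))) (XT.nd (nat_lit 78) (nat_lit 152) (nat_lit 0) (XT.lf (nat_lit 0) (nat_lit 7911976098) (nat_lit 152) (nat_lit 7889365748) (nat_lit 0) (nat_lit 949255259) (nat_lit 14) (nat_lit 5) (nat_lit 16) (nat_lit 4) (nat_lit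 14) (nat_lit 4) (nat_lit 507) (nat_lit 326) (nat_lit 307)) (XT.nd (nat_lit 57642) (nat_lit 0) (nat_lit 2812) (XT.lf (nat_lit 0) (nat_lit 1639110288) (nat_lit 152) (nat_lit 11300614188) (nat_lit 152) (nat_lit 4039030391) (nat_lit 12) (nat_lit 4) (nat_lit 14) (nat_lit 5) (nat_lit 14) (nat_lit 4) (nat_lit 508) (nat_lit 326) (nat_lit 306)) (XT.lf (nat_lit 0) (nat_lit 2898194964) (nat_lit 228) (nat_lit 651488590) (nat_lit 0) (nat_lit 2898194964) (nat_lit 49) (nat_lit 5) (nat_lit 52) (nat_lit 4) (nat_lit 49) (nat_lit 4) (nat_lit 486) (nat_lit 327) (nat_lit 327))))) (XT.nd (nat_lit 234) (nat_lit 380) (nat_lit 0) (XT.nd (nat_lit 78) (nat_lit 456) (nat_lit 0) (XT.lf (nat_lit 0) (nat_lit 8029436884) (nat_lit 228) (nat_lit 2762747503) (nat_lit 228) (nat_lit 2252622362) (nat_lit 46) (nat_lit 4) (nat_lit 49) (nat_lit 5) (nat_lit 49) (nat_lit 4) (nat_lit 487) (nat_lit 327) (nat_lit 326)) (XT.nd (nat_lit 78) (nat_lit 228) (nat_lit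 0) (XT.lf (nat_lit 0) (nat_lit 2632237591) (nat_lit 228) (nat_lit 8922933400) (nat_lit 0) (nat_lit 1641798545) (nat_lit 43) (nat_lit 5) (nat_lit 46) (nat_lit 4) (nat_lit 43) (nat_lit 4) (nat_lit 488) (nat_lit 327) (nat_lit 325)) (XT.lf (nat_lit 0) (nat_lit 312995006) (nat_lit 228) (nat_lit 7255182013) (nat_lit 228) (nat_lit 5784040653) (nat_lit 40) (nat_lit 4) (nat_lit 43) (nat_lit 5) (nat_lit 43) (nat_lit 4) (nat_lit 489) (nat_lit 327) (nat_lit 324)))) (XT.nd (nat_lit 78) (nat_lit 380) (nat_lit 0) (XT.lf (nat_lit 0) (nat_lit 9732021258) (nat_lit 228) (nat_lit 2860591341) (nat_lit 228) (nat_lit 918173203) (nat_lit 40) (nat_lit 4) (nat_lit 43) (nat_lit 5) (nat_lit 43) (nat_lit 4) (nat_lit 490) (nat_lit 327) (nat_lit 323)) (XT.nd (nat_lit 78) (nat_lit 152) (nat_lit 0) (XT.lf (nat_lit 0) (nat_lit 3969690006) (nat_lit 228) (nat_lit 8090383634) (nat_lit 0) (nat_lit 1612381973) (nat_lit 37) (nat_lit 5) (nat_lit 40) (nat_lit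 4) (nat_lit 37) (nat_lit 4) (nat_lit 491) (nat_lit 327) (nat_lit 322)) (XT.lf (nat_lit 0) (nat_lit 1213873326) (nat_lit 152) (nat_lit 7712554259) (nat_lit 152) (nat_lit 4911151593) (nat_lit 35) (nat_lit 4) (nat_lit 37) (nat_lit 5) (nat_lit 37) (nat_lit 4) (nat_lit 492) (nat_lit 327) (nat_lit 321))))))))
noncomputable def xc3 : XT := (XT.nd (nat_lit 59046) (nat_lit 0) (nat_lit 152) (XT.nd (nat_lit 780) (nat_lit 608) (nat_lit 0) (XT.nd (nat_lit 390) (nat_lit 532) (nat_lit 0) (XT.nd (nat_lit 156) (nat_lit 380) (nat_lit 0) (XT.nd (nat_lit 78) (nat_lit 228) (nat_lit 0) (XT.lf (nat_lit 0) (nat_lit 10693331368) (nat_lit 152) (nat_lit 3274877500) (nat_lit 152) (nat_lit 38087938) (nat_lit 35) (nat_lit 4) (nat_lit 37) (nat_lit 5) (nat_lit 37) (nat_lit 4) (nat_lit 493) (nat_lit 327) (nat_lit 320)) (XT.lf (nat_lit 0) (nat_lit 4848208560) (nat_lit 228) (nat_lit 8073534731) (nat_lit 0) (nat_lit 1256405169) (nat_lit 32) (nat_lit 5)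 (nat_lit 35) (nat_lit 4) (nat_lit 32) (nat_lit 4) (nat_lit 494) (nat_lit 327) (nat_lit 319))) (XT.nd (nat_lit 78) (nat_lit 228) (nat_lit 0) (XT.lf (nat_lit 0) (nat_lit 1277806466) (nat_lit 152) (nat_lit 8539005609) (nat_lit 152) (nat_lit 4536927422) (nat_lit 30) (nat_lit 4) (nat_lit 32) (nat_lit 5) (nat_lit 32) (nat_lit 4) (nat_lit 495) (nat_lit 327) (nat_lit 318)) (XT.nd (nat_lit 78) (nat_lit 152) (nat_lit 0) (XT.lf (nat_lit 0) (nat_lit 334691923) (nat_lit 228) (nat_lit 3728230693) (nat_lit 76) (nat_lit 10470135640) (nat_lit 29) (nat_lit 5) (nat_lit 32) (nat_lit 5) (nat_lit 30) (nat_lit 4) (nat_lit 496) (nat_lit 327) (nat_lit 317)) (XT.lf (nat_lit 0) (nat_lit 5217802809) (nat_lit 228) (nat_lit 8984830990) (nat_lit 0) (nat_lit 513242314) (nat_lit 27) (nat_lit 5) (nat_lit 30) (nat_lit 4) (nat_lit 27) (nat_lit 4) (nat_lit 497) (nat_lit 327) (nat_lit 316))))) (XT.nd (nat_lit 156) (nat_lit 304) (nat_lit 0) (XT.nd (nat_lit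 78) (nat_lit 76) (nat_lit 0) (XT.lf (nat_lit 0) (nat_lit 388909022) (nat_lit 152) (nat_lit 9798630762) (nat_lit 152) (nat_lit 4715039774) (nat_lit 25) (nat_lit 4) (nat_lit 27) (nat_lit 5) (nat_lit 27) (nat_lit 4) (nat_lit 498) (nat_lit 327) (nat_lit 315)) (XT.lf (nat_lit 0) (nat_lit 156639410) (nat_lit 228) (nat_lit 5138777901) (nat_lit 76) (nat_lit 9797684059) (nat_lit 24) (nat_lit 5) (nat_lit 27) (nat_lit 5) (nat_lit 25) (nat_lit 4) (nat_lit 499) (nat_lit 327) (nat_lit 314))) (XT.nd (nat_lit 78) (nat_lit 152) (nat_lit 0) (XT.lf (nat_lit 0) (nat_lit 4334111745) (nat_lit 152) (nat_lit 692429608) (nat_lit 228) (nat_lit 10260998483) (nat_lit 22) (nat_lit 5) (nat_lit 24) (nat_lit 5) (nat_lit 25) (nat_lit 4) (nat_lit 500) (nat_lit 327) (nat_lit 313)) (XT.nd (nat_lit 78) (nat_lit 152) (nat_lit 0) (XT.lf (nat_lit 0) (nat_lit 9990455118) (nat_lit 228) (nat_lit 1560591916) (nat_lit 0) (nat_lit 3934895620) (nat_lit 22) (nat_lit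 5) (nat_lit 25) (nat_lit 4) (nat_lit 22) (nat_lit 4) (nat_lit 501) (nat_lit 327) (nat_lit 312)) (XT.lf (nat_lit 0) (nat_lit 8007480815) (nat_lit 152) (nat_lit 7039912297) (nat_lit 152) (nat_lit 641053203) (nat_lit 20) (nat_lit 4) (nat_lit 22) (nat_lit 5) (nat_lit 22) (nat_lit 4) (nat_lit 502) (nat_lit 327) (nat_lit 311)))))) (XT.nd (nat_lit 390) (nat_lit 152) (nat_lit 0) (XT.nd (nat_lit 156) (nat_lit 304) (nat_lit 0) (XT.nd (nat_lit 78) (nat_lit 0) (nat_lit 0) (XT.lf (nat_lit 0) (nat_lit 1775355359) (nat_lit 76) (nat_lit 2437903395) (nat_lit 152) (nat_lit 11682002542) (nat_lit 18) (nat_lit 5) (nat_lit 19) (nat_lit 5) (nat_lit 20) (nat_lit 4) (nat_lit 503) (nat_lit 327) (nat_lit 310)) (XT.lf (nat_lit 0) (nat_lit 9160042164) (nat_lit 152) (nat_lit 4712830382) (nat_lit 0) (nat_lit 2233183165) (nat_lit 18) (nat_lit 5) (nat_lit 20) (nat_lit 4) (nat_lit 18) (nat_lit 4) (nat_lit 504) (nat_lit 327) (nat_lit 309))) (XT.nd (nat_lit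 78) (nat_lit 152) (nat_lit 0) (XT.lf (nat_lit 0) (nat_lit 4818323342) (nat_lit 152) (nat_lit 9373521441) (nat_lit 152) (nat_lit 2129506680) (nat_lit 16) (nat_lit 4) (nat_lit 18) (nat_lit 5) (nat_lit 18) (nat_lit 4) (nat_lit 505) (nat_lit 327) (nat_lit 308)) (XT.nd (nat_lit 78) (nat_lit 76) (nat_lit 0) (XT.lf (nat_lit 0) (nat_lit 2717392451) (nat_lit 228) (nat_lit 2065819029) (nat_lit 76) (nat_lit 11757975747) (nat_lit 15) (nat_lit 5) (nat_lit 18) (nat_lit 5) (nat_lit 16) (nat_lit 4) (nat_lit 506) (nat_lit 327) (nat_lit 307)) (XT.lf (nat_lit 0) (nat_lit 7535844388) (nat_lit 76) (nat_lit 85757783) (nat_lit 152) (nat_lit 9143764989) (nat_lit 14) (nat_lit 5) (nat_lit 15) (nat_lit 5) (nat_lit 16) (nat_lit 4) (nat_lit 507) (nat_lit 327) (nat_lit 306))))) (XT.nd (nat_lit 57642) (nat_lit 0) (nat_lit 2356) (XT.nd (nat_lit 57486) (nat_lit 0) (nat_lit 2812) (XT.lf (nat_lit 0) (nat_lit 226936649) (nat_lit 152) (nat_lit 12383030265)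 (nat_lit 152) (nat_lit 4384348936) (nat_lit 12) (nat_lit 4) (nat_lit 14) (nat_lit 5) (nat_lit 14) (nat_lit 4) (nat_lit 508) (nat_lit 327) (nat_lit 305)) (XT.nd (nat_lit 78) (nat_lit 228) (nat_lit 0) (XT.lf (nat_lit 0) (nat_lit 2870866171) (nat_lit 228) (nat_lit 1716075535) (nat_lit 228) (nat_lit 1716075535) (nat_lit 52) (nat_lit 4) (nat_lit 55) (nat_lit 5) (nat_lit 55) (nat_lit 4) (nat_lit 484) (nat_lit 328) (nat_lit 328)) (XT.lf (nat_lit 0) (nat_lit 1400310753) (nat_lit 228) (nat_lit 10469718616) (nat_lit 0) (nat_lit 879983110) (nat_lit 49) (nat_lit 5) (nat_lit 52) (nat_lit 4) (nat_lit 49) (nat_lit 4) (nat_lit 485) (nat_lit 328) (nat_lit 327)))) (XT.nd (nat_lit 78) (nat_lit 456) (nat_lit 0) (XT.lf (nat_lit 0) (nat_lit 6281532955) (nat_lit 228) (nat_lit 1363853273) (nat_lit 0) (nat_lit 5251080171) (nat_lit 49) (nat_lit 5) (nat_lit 52) (nat_lit 4) (nat_lit 49) (nat_lit 4) (nat_lit 486) (nat_lit 328) (nat_lit 326)) (XT.nd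 (nat_lit 78) (nat_lit 228) (nat_lit 0) (XT.lf (nat_lit 0) (nat_lit 7907276188) (nat_lit 228) (nat_lit 3334763353) (nat_lit 228) (nat_lit 1804187883) (nat_lit 46) (nat_lit 4) (nat_lit 49) (nat_lit 5) (nat_lit 49) (nat_lit 4) (nat_lit 487) (nat_lit 328) (nat_lit 325)) (XT.lf (nat_lit 0) (nat_lit 3035263160) (nat_lit 228) (nat_lit 9109868052) (nat_lit 0) (nat_lit 1053996660) (nat_lit 43) (nat_lit 5) (nat_lit 46) (nat_lit 4) (nat_lit 43) (nat_lit 4) (nat_lit 488) (nat_lit 328) (nat_lit 324))))))) (XT.nd (nat_lit 858) (nat_lit 760) (nat_lit 0) (XT.nd (nat_lit 390) (nat_lit 760) (nat_lit 0) (XT.nd (nat_lit 156) (nat_lit 456) (nat_lit 0) (XT.nd (nat_lit 78) (nat_lit 0) (nat_lit 0) (XT.lf (nat_lit 0) (nat_lit 62896173) (nat_lit 228) (nat_lit 7872373504) (nat_lit 228) (nat_lit 5419830227) (nat_lit 40) (nat_lit 4) (nat_lit 43) (nat_lit 5) (nat_lit 43) (nat_lit 4) (nat_lit 489) (nat_lit 328) (nat_lit 323)) (XT.lf (nat_lit 0) (nat_lit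 9422432310) (nat_lit 228) (nat_lit 3503250322) (nat_lit 228) (nat_lit 588670988) (nat_lit 40) (nat_lit 4) (nat_lit 43) (nat_lit 5) (nat_lit 43) (nat_lit 4) (nat_lit 490) (nat_lit 328) (nat_lit 322))) (XT.nd (nat_lit 78) (nat_lit 228) (nat_lit 0) (XT.lf (nat_lit 0) (nat_lit 4254490097) (nat_lit 228) (nat_lit 8469338351) (nat_lit 0) (nat_lit 952964744) (nat_lit 37) (nat_lit 5) (nat_lit 40) (nat_lit 4) (nat_lit 37) (nat_lit 4) (nat_lit 491) (nat_lit 328) (nat_lit 321)) (XT.nd (nat_lit 78) (nat_lit 76) (nat_lit 0) (XT.lf (nat_lit 0) (nat_lit 770203621) (nat_lit 152) (nat_lit 8404678566) (nat_lit 152) (nat_lit 4667766317) (nat_lit 35) (nat_lit 4) (nat_lit 37) (nat_lit 5) (nat_lit 37) (nat_lit 4) (nat_lit 492) (nat_lit 328) (nat_lit 320)) (XT.lf (nat_lit 0) (nat_lit 169191758) (nat_lit 228) (nat_lit 3821994794) (nat_lit 76) (nat_lit 10020825833) (nat_lit 34) (nat_lit 5) (nat_lit 37) (nat_lit 5) (nat_lit 35) (nat_lit 4) (nat_lit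 493) (nat_lit 328) (nat_lit 319))))) (XT.nd (nat_lit 234) (nat_lit 380) (nat_lit 0) (XT.nd (nat_lit 78) (nat_lit 228) (nat_lit 0) (XT.lf (nat_lit 0) (nat_lit 5013663620) (nat_lit 228) (nat_lit 8649757460) (nat_lit 0) (nat_lit 521269073) (nat_lit 32) (nat_lit 5) (nat_lit 35) (nat_lit 4) (nat_lit 32) (nat_lit 4) (nat_lit 494) (nat_lit 328) (nat_lit 318)) (XT.nd (nat_lit 78) (nat_lit 76) (nat_lit 0) (XT.lf (nat_lit 0) (nat_lit 635242944) (nat_lit 152) (nat_lit 9310201950) (nat_lit 152) (nat_lit 4415577211) (nat_lit 30) (nat_lit 4) (nat_lit 32) (nat_lit 5) (nat_lit 32) (nat_lit 4) (nat_lit 495) (nat_lit 328) (nat_lit 317)) (XT.lf (nat_lit 0) (nat_lit 421848190) (nat_lit 228) (nat_lit 4436834720) (nat_lit 76) (nat_lit 9682298541) (nat_lit 29) (nat_lit 5) (nat_lit 32) (nat_lit 5) (nat_lit 30) (nat_lit 4) (nat_lit 496) (nat_lit 328) (nat_lit 316)))) (XT.nd (nat_lit 78) (nat_lit 228) (nat_lit 0) (XT.lf (nat_lit 0) (nat_lit 4958879619)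 (nat_lit 152) (nat_lit 305703938) (nat_lit 228) (nat_lit 9460027472) (nat_lit 27) (nat_lit 5) (nat_lit 29) (nat_lit 5) (nat_lit 30) (nat_lit 4) (nat_lit 497) (nat_lit 328) (nat_lit 315)) (XT.nd (nat_lit 78) (nat_lit 228) (nat_lit 0) (XT.lf (nat_lit 0) (nat_lit 10197946915) (nat_lit 228) (nat_lit 452044070) (nat_lit 0) (nat_lit 4262055090) (nat_lit 27) (nat_lit 5) (nat_lit 30) (nat_lit 4) (nat_lit 27) (nat_lit 4) (nat_lit 498) (nat_lit 328) (nat_lit 314)) (XT.lf (nat_lit 0) (nat_lit 122754519) (nat_lit 228) (nat_lit 6052239973) (nat_lit 76) (nat_lit 8928273505) (nat_lit 24) (nat_lit 5) (nat_lit 27) (nat_lit 5) (nat_lit 25) (nat_lit 4) (nat_lit 499) (nat_lit 328) (nat_lit 313)))))) (XT.nd (nat_lit 390) (nat_lit 304) (nat_lit 0) (XT.nd (nat_lit 156) (nat_lit 304) (nat_lit 0) (XT.nd (nat_lit 78) (nat_lit 0) (nat_lit 0) (XT.lf (nat_lit 0) (nat_lit 3351896029) (nat_lit 152) (nat_lit 1603187649) (nat_lit 228) (nat_lit 10343378131)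 (nat_lit 22) (nat_lit 5) (nat_lit 24) (nat_lit 5) (nat_lit 25) (nat_lit 4) (nat_lit 500) (nat_lit 328) (nat_lit 312)) (XT.lf (nat_lit 0) (nat_lit 9881980461) (nat_lit 228) (nat_lit 2603783731) (nat_lit 0) (nat_lit 3011844589) (nat_lit 22) (nat_lit 5) (nat_lit 25) (nat_lit 4) (nat_lit 22) (nat_lit 4) (nat_lit 501) (nat_lit 328) (nat_lit 311))) (XT.nd (nat_lit 78) (nat_lit 152) (nat_lit 0) (XT.lf (nat_lit 0) (nat_lit 6894826363) (nat_lit 152) (nat_lit 8006374140) (nat_lit 152) (nat_lit 799670037) (nat_lit 20) (nat_lit 4) (nat_lit 22) (nat_lit 5) (nat_lit 22) (nat_lit 4) (nat_lit 502) (nat_lit 328) (nat_lit 310)) (XT.nd (nat_lit 78) (nat_lit 0) (nat_lit 0) (XT.lf (nat_lit 0) (nat_lit 580721393) (nat_lit 76) (nat_lit 3437790661) (nat_lit 152) (nat_lit 11889961862) (nat_lit 18) (nat_lit 5) (nat_lit 19) (nat_lit 5) (nat_lit 20) (nat_lit 4) (nat_lit 503) (nat_lit 328) (nat_lit 309)) (XT.lf (nat_lit 0) (nat_lit 8928434589) (nat_lit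 152) (nat_lit 5969190712) (nat_lit 0) (nat_lit 1222383772) (nat_lit 18) (nat_lit 5) (nat_lit 20) (nat_lit 4) (nat_lit 18) (nat_lit 4) (nat_lit 504) (nat_lit 328) (nat_lit 308))))) (XT.nd (nat_lit 234) (nat_lit 0) (nat_lit 0) (XT.nd (nat_lit 78) (nat_lit 152) (nat_lit 0) (XT.lf (nat_lit 0) (nat_lit 3490622850) (nat_lit 152) (nat_lit 10431220572) (nat_lit 152) (nat_lit 2414232733) (nat_lit 16) (nat_lit 4) (nat_lit 18) (nat_lit 5) (nat_lit 18) (nat_lit 4) (nat_lit 505) (nat_lit 328) (nat_lit 307)) (XT.nd (nat_lit 78) (nat_lit 76) (nat_lit 0) (XT.lf (nat_lit 0) (nat_lit 2406664168) (nat_lit 228) (nat_lit 3460366433) (nat_lit 76) (nat_lit 10689516341) (nat_lit 15) (nat_lit 5) (nat_lit 18) (nat_lit 5) (nat_lit 16) (nat_lit 4) (nat_lit 506) (nat_lit 328) (nat_lit 306)) (XT.lf (nat_lit 0) (nat_lit 6069148403) (nat_lit 76) (nat_lit 1203049326) (nat_lit 152) (nat_lit 9509305923) (nat_lit 14) (nat_lit 5) (nat_lit 15) (nat_lit 5)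 (nat_lit 16) (nat_lit 4) (nat_lit 507) (nat_lit 328) (nat_lit 305)))) (XT.nd (nat_lit 57330) (nat_lit 0) (nat_lit 3116) (XT.lf (nat_lit 0) (nat_lit 12222758314) (nat_lit 152) (nat_lit 1304610591) (nat_lit 0) (nat_lit 3483842714) (nat_lit 14) (nat_lit 5) (nat_lit 16) (nat_lit 4) (nat_lit 14) (nat_lit 4) (nat_lit 508) (nat_lit 328) (nat_lit 304)) (XT.nd (nat_lit 78) (nat_lit 304) (nat_lit 0) (XT.lf (nat_lit 0) (nat_lit 6129171712) (nat_lit 228) (nat_lit 17207184) (nat_lit 228) (nat_lit 17207184) (nat_lit 59) (nat_lit 4) (nat_lit 62) (nat_lit 5) (nat_lit 62) (nat_lit 4) (nat_lit 482) (nat_lit 329) (nat_lit 329)) (XT.lf (nat_lit 0) (nat_lit 4791090878) (nat_lit 304) (nat_lit 3424414827) (nat_lit 0) (nat_lit 4249741998) (nat_lit 55) (nat_lit 5) (nat_lit 59) (nat_lit 4) (nat_lit 55) (nat_lit 4) (nat_lit 483) (nat_lit 329) (nat_lit 328))))))))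
noncomputable def xc4 : XT := (XT.nd (nat_lit 1638) (nat_lit 304) (nat_lit 0) (XT.nd (nat_lit 780) (nat_lit 1216) (nat_lit 0) (XT.nd (nat_lit 390) (nat_lit 684) (nat_lit 0) (XT.nd (nat_lit 156) (nat_lit 456) (nat_lit 0) (XT.nd (nat_lit 78) (nat_lit 228) (nat_lit 0) (XT.lf (nat_lit 0) (nat_lit 5681473582) (nat_lit 228) (nat_lit 3998675768) (nat_lit 228) (nat_lit 2926592691) (nat_lit 52) (nat_lit 4) (nat_lit 55) (nat_lit 5) (nat_lit 55) (nat_lit 4) (nat_lit 484) (nat_lit 329) (nat_lit 327)) (XT.lf (nat_lit 0) (nat_lit 1859972022) (nat_lit 228) (nat_lit 10592688323) (nat_lit 0) (nat_lit 298785042) (nat_lit 49) (nat_lit 5) (nat_lit 52) (nat_lit 4) (nat_lit 49) (nat_lit 4) (nat_lit 485) (nat_lit 329) (nat_lit 326))) (XT.nd (nat_lit 78) (nat_lit 456) (nat_lit 0) (XT.lf (nat_lit 0) (nat_lit 6706699500) (nat_lit 228) (nat_lit 1546505424) (nat_lit 0) (nat_lit 4645389834) (nat_lit 49) (nat_lit 5) (nat_lit 52) (nat_lit 4) (nat_lit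 49) (nat_lit 4) (nat_lit 486) (nat_lit 329) (nat_lit 325)) (XT.nd (nat_lit 78) (nat_lit 228) (nat_lit 0) (XT.lf (nat_lit 0) (nat_lit 7662906890) (nat_lit 228) (nat_lit 3968894233) (nat_lit 228) (nat_lit 1417268207) (nat_lit 46) (nat_lit 4) (nat_lit 49) (nat_lit 5) (nat_lit 49) (nat_lit 4) (nat_lit 487) (nat_lit 329) (nat_lit 324)) (XT.lf (nat_lit 0) (nat_lit 3377044853) (nat_lit 228) (nat_lit 9421507258) (nat_lit 0) (nat_lit 404173932) (nat_lit 43) (nat_lit 5) (nat_lit 46) (nat_lit 4) (nat_lit 43) (nat_lit 4) (nat_lit 488) (nat_lit 329) (nat_lit 323))))) (XT.nd (nat_lit 156) (nat_lit 456) (nat_lit 0) (XT.nd (nat_lit 78) (nat_lit 228) (nat_lit 0) (XT.lf (nat_lit 0) (nat_lit 8243006631) (nat_lit 228) (nat_lit 308277818) (nat_lit 0) (nat_lit 4808099653) (nat_lit 43) (nat_lit 5) (nat_lit 46) (nat_lit 4) (nat_lit 43) (nat_lit 4) (nat_lit 489) (nat_lit 329) (nat_lit 322)) (XT.lf (nat_lit 0) (nat_lit 8988837826) (nat_lit 228)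 (nat_lit 4209198101) (nat_lit 228) (nat_lit 321314598) (nat_lit 40) (nat_lit 4) (nat_lit 43) (nat_lit 5) (nat_lit 43) (nat_lit 4) (nat_lit 490) (nat_lit 329) (nat_lit 321))) (XT.nd (nat_lit 78) (nat_lit 228) (nat_lit 0) (XT.lf (nat_lit 0) (nat_lit 4477387109) (nat_lit 228) (nat_lit 8974842447) (nat_lit 0) (nat_lit 230349720) (nat_lit 37) (nat_lit 5) (nat_lit 40) (nat_lit 4) (nat_lit 37) (nat_lit 4) (nat_lit 491) (nat_lit 329) (nat_lit 320)) (XT.nd (nat_lit 78) (nat_lit 76) (nat_lit 0) (XT.lf (nat_lit 0) (nat_lit 199472935) (nat_lit 152) (nat_lit 9161791983) (nat_lit 152) (nat_lit 4487904697) (nat_lit 35) (nat_lit 4) (nat_lit 37) (nat_lit 5) (nat_lit 37) (nat_lit 4) (nat_lit 492) (nat_lit 329) (nat_lit 319)) (XT.lf (nat_lit 0) (nat_lit 313936551) (nat_lit 228) (nat_lit 4458215743) (nat_lit 76) (nat_lit 9247017564) (nat_lit 34) (nat_lit 5) (nat_lit 37) (nat_lit 5) (nat_lit 35) (nat_lit 4) (nat_lit 493) (nat_lit 329) (nat_lit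 318)))))) (XT.nd (nat_lit 390) (nat_lit 684) (nat_lit 0) (XT.nd (nat_lit 156) (nat_lit 380) (nat_lit 0) (XT.nd (nat_lit 78) (nat_lit 0) (nat_lit 0) (XT.lf (nat_lit 0) (nat_lit 4836333594) (nat_lit 152) (nat_lit 281971340) (nat_lit 228) (nat_lit 9074349231) (nat_lit 32) (nat_lit 5) (nat_lit 34) (nat_lit 5) (nat_lit 35) (nat_lit 4) (nat_lit 494) (nat_lit 329) (nat_lit 317)) (XT.lf (nat_lit 0) (nat_lit 10012120955) (nat_lit 228) (nat_lit 134598644) (nat_lit 0) (nat_lit 4223030204) (nat_lit 32) (nat_lit 5) (nat_lit 35) (nat_lit 4) (nat_lit 32) (nat_lit 4) (nat_lit 495) (nat_lit 329) (nat_lit 316))) (XT.nd (nat_lit 78) (nat_lit 152) (nat_lit 0) (XT.lf (nat_lit 0) (nat_lit 446182015) (nat_lit 228) (nat_lit 5274414182) (nat_lit 76) (nat_lit 8829766729) (nat_lit 29) (nat_lit 5) (nat_lit 32) (nat_lit 5) (nat_lit 30) (nat_lit 4) (nat_lit 496) (nat_lit 329) (nat_lit 315)) (XT.nd (nat_lit 78) (nat_lit 0) (nat_lit 0) (XT.lf (nat_lit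 0) (nat_lit 4053709726) (nat_lit 152) (nat_lit 1197994270) (nat_lit 228) (nat_lit 9483036906) (nat_lit 27) (nat_lit 5) (nat_lit 29) (nat_lit 5) (nat_lit 30) (nat_lit 4) (nat_lit 497) (nat_lit 329) (nat_lit 314)) (XT.lf (nat_lit 0) (nat_lit 10148035061) (nat_lit 228) (nat_lit 1417370980) (nat_lit 0) (nat_lit 3357514600) (nat_lit 27) (nat_lit 5) (nat_lit 30) (nat_lit 4) (nat_lit 27) (nat_lit 4) (nat_lit 498) (nat_lit 329) (nat_lit 313))))) (XT.nd (nat_lit 234) (nat_lit 304) (nat_lit 0) (XT.nd (nat_lit 78) (nat_lit 152) (nat_lit 0) (XT.lf (nat_lit 0) (nat_lit 25176843) (nat_lit 228) (nat_lit 7096832136) (nat_lit 76) (nat_lit 7992897137) (nat_lit 24) (nat_lit 5) (nat_lit 27) (nat_lit 5) (nat_lit 25) (nat_lit 4) (nat_lit 499) (nat_lit 329) (nat_lit 312)) (XT.nd (nat_lit 78) (nat_lit 0) (nat_lit 0) (XT.lf (nat_lit 0) (nat_lit 2237917654) (nat_lit 152) (nat_lit 2581771752) (nat_lit 228) (nat_lit 10491170668) (nat_lit 22) (nat_lit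 5) (nat_lit 24) (nat_lit 5) (nat_lit 25) (nat_lit 4) (nat_lit 500) (nat_lit 329) (nat_lit 311)) (XT.lf (nat_lit 0) (nat_lit 9709738712) (nat_lit 228) (nat_lit 3778676728) (nat_lit 0) (nat_lit 2022332296) (nat_lit 22) (nat_lit 5) (nat_lit 25) (nat_lit 4) (nat_lit 22) (nat_lit 4) (nat_lit 501) (nat_lit 329) (nat_lit 310)))) (XT.nd (nat_lit 78) (nat_lit 152) (nat_lit 0) (XT.lf (nat_lit 0) (nat_lit 5649810671) (nat_lit 152) (nat_lit 9041168675) (nat_lit 152) (nat_lit 1023793405) (nat_lit 20) (nat_lit 4) (nat_lit 22) (nat_lit 5) (nat_lit 22) (nat_lit 4) (nat_lit 502) (nat_lit 329) (nat_lit 309)) (XT.nd (nat_lit 78) (nat_lit 76) (nat_lit 0) (XT.lf (nat_lit 0) (nat_lit 3763701011) (nat_lit 228) (nat_lit 738198102) (nat_lit 76) (nat_lit 11421182181) (nat_lit 19) (nat_lit 5) (nat_lit 22) (nat_lit 5) (nat_lit 20) (nat_lit 4) (nat_lit 503) (nat_lit 329) (nat_lit 308)) (XT.lf (nat_lit 0) (nat_lit 8632052446) (nat_lit 152) (nat_lit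 7359611054) (nat_lit 0) (nat_lit 143787830) (nat_lit 18) (nat_lit 5) (nat_lit 20) (nat_lit 4) (nat_lit 18) (nat_lit 4) (nat_lit 504) (nat_lit 329) (nat_lit 307))))))) (XT.nd (nat_lit 57876) (nat_lit 0) (nat_lit 1140) (XT.nd (nat_lit 57486) (nat_lit 0) (nat_lit 2660) (XT.nd (nat_lit 156) (nat_lit 76) (nat_lit 0) (XT.nd (nat_lit 78) (nat_lit 76) (nat_lit 0) (XT.lf (nat_lit 0) (nat_lit 2028152206) (nat_lit 152) (nat_lit 11558624063) (nat_lit 152) (nat_lit 2765519230) (nat_lit 16) (nat_lit 4) (nat_lit 18) (nat_lit 5) (nat_lit 18) (nat_lit 4) (nat_lit 505) (nat_lit 329) (nat_lit 306)) (XT.lf (nat_lit 0) (nat_lit 2030831462) (nat_lit 228) (nat_lit 4989688235) (nat_lit 76) (nat_lit 9552878528) (nat_lit 15) (nat_lit 5) (nat_lit 18) (nat_lit 5) (nat_lit 16) (nat_lit 4) (nat_lit 506) (nat_lit 329) (nat_lit 305))) (XT.nd (nat_lit 78) (nat_lit 0) (nat_lit 0) (XT.lf (nat_lit 0) (nat_lit 4466938230) (nat_lit 76) (nat_lit 2390442422)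 (nat_lit 152) (nat_lit 9941757162) (nat_lit 14) (nat_lit 5) (nat_lit 15) (nat_lit 5) (nat_lit 16) (nat_lit 4) (nat_lit 507) (nat_lit 329) (nat_lit 304)) (XT.nd (nat_lit 57174) (nat_lit 0) (nat_lit 3648) (XT.lf (nat_lit 0) (nat_lit 11771725482) (nat_lit 152) (nat_lit 2968699157) (nat_lit 0) (nat_lit 2289148586) (nat_lit 14) (nat_lit 5) (nat_lit 16) (nat_lit 4) (nat_lit 14) (nat_lit 4) (nat_lit 508) (nat_lit 329) (nat_lit 303)) (XT.lf (nat_lit 0) (nat_lit 1564697131) (nat_lit 304) (nat_lit 2899200320) (nat_lit 0) (nat_lit 1564697131) (nat_lit 62) (nat_lit 5) (nat_lit 66) (nat_lit 4) (nat_lit 62) (nat_lit 4) (nat_lit 480) (nat_lit 330) (nat_lit 330))))) (XT.nd (nat_lit 156) (nat_lit 684) (nat_lit 0) (XT.nd (nat_lit 78) (nat_lit 76) (nat_lit 0) (XT.lf (nat_lit 0) (nat_lit 3131388406) (nat_lit 228) (nat_lit 4811353912) (nat_lit 228) (nat_lit 4248134537) (nat_lit 59) (nat_lit 4) (nat_lit 62) (nat_lit 5) (nat_lit 62) (nat_lit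 4) (nat_lit 481) (nat_lit 330) (nat_lit 329)) (XT.lf (nat_lit 0) (nat_lit 487035930) (nat_lit 304) (nat_lit 131582651) (nat_lit 76) (nat_lit 11709187601) (nat_lit 58) (nat_lit 5) (nat_lit 62) (nat_lit 5) (nat_lit 59) (nat_lit 4) (nat_lit 482) (nat_lit 330) (nat_lit 328))) (XT.nd (nat_lit 78) (nat_lit 456) (nat_lit 0) (XT.lf (nat_lit 0) (nat_lit 5273189493) (nat_lit 304) (nat_lit 3544541109) (nat_lit 0) (nat_lit 3648930559) (nat_lit 55) (nat_lit 5) (nat_lit 59) (nat_lit 4) (nat_lit 55) (nat_lit 4) (nat_lit 483) (nat_lit 330) (nat_lit 327)) (XT.nd (nat_lit 78) (nat_lit 228) (nat_lit 0) (XT.lf (nat_lit 0) (nat_lit 5500673670) (nat_lit 228) (nat_lit 4626388947) (nat_lit 228) (nat_lit 2481802370) (nat_lit 52) (nat_lit 4) (nat_lit 55) (nat_lit 5) (nat_lit 55) (nat_lit 4) (nat_lit 484) (nat_lit 330) (nat_lit 326)) (XT.lf (nat_lit 0) (nat_lit 1913330662) (nat_lit 152) (nat_lit 348076456) (nat_lit 228) (nat_lit 10492859448) (nat_lit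 49) (nat_lit 5) (nat_lit 51) (nat_lit 5) (nat_lit 52) (nat_lit 4) (nat_lit 485) (nat_lit 330) (nat_lit 325)))))) (XT.nd (nat_lit 390) (nat_lit 836) (nat_lit 0) (XT.nd (nat_lit 156) (nat_lit 456) (nat_lit 0) (XT.nd (nat_lit 78) (nat_lit 228) (nat_lit 0) (XT.lf (nat_lit 0) (nat_lit 7072056298) (nat_lit 228) (nat_lit 1851005262) (nat_lit 0) (nat_lit 3979081392) (nat_lit 49) (nat_lit 5) (nat_lit 52) (nat_lit 4) (nat_lit 49) (nat_lit 4) (nat_lit 486) (nat_lit 330) (nat_lit 324)) (XT.lf (nat_lit 0) (nat_lit 7296233158) (nat_lit 228) (nat_lit 4665388822) (nat_lit 228) (nat_lit 1091711603) (nat_lit 46) (nat_lit 4) (nat_lit 49) (nat_lit 5) (nat_lit 49) (nat_lit 4) (nat_lit 487) (nat_lit 330) (nat_lit 323))) (XT.nd (nat_lit 78) (nat_lit 228) (nat_lit 0) (XT.lf (nat_lit 0) (nat_lit 3347725892) (nat_lit 152) (nat_lit 312016627) (nat_lit 228) (nat_lit 9547982420) (nat_lit 43) (nat_lit 5) (nat_lit 45) (nat_lit 5) (nat_lit 46) (nat_lit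 4) (nat_lit 488) (nat_lit 330) (nat_lit 322)) (XT.nd (nat_lit 78) (nat_lit 228) (nat_lit 0) (XT.lf (nat_lit 0) (nat_lit 8490701639) (nat_lit 228) (nat_lit 802302506) (nat_lit 0) (nat_lit 4072083940) (nat_lit 43) (nat_lit 5) (nat_lit 46) (nat_lit 4) (nat_lit 43) (nat_lit 4) (nat_lit 489) (nat_lit 330) (nat_lit 321)) (XT.lf (nat_lit 0) (nat_lit 8431067768) (nat_lit 228) (nat_lit 4978711519) (nat_lit 228) (nat_lit 115999186) (nat_lit 40) (nat_lit 4) (nat_lit 43) (nat_lit 5) (nat_lit 43) (nat_lit 4) (nat_lit 490) (nat_lit 330) (nat_lit 320))))) (XT.nd (nat_lit 234) (nat_lit 380) (nat_lit 0) (XT.nd (nat_lit 78) (nat_lit 228) (nat_lit 0) (XT.lf (nat_lit 0) (nat_lit 4078992624) (nat_lit 152) (nat_lit 563132055) (nat_lit 228) (nat_lit 9047618331) (nat_lit 37) (nat_lit 5) (nat_lit 39) (nat_lit 5) (nat_lit 40) (nat_lit 4) (nat_lit 491) (nat_lit 330) (nat_lit 319)) (XT.nd (nat_lit 78) (nat_lit 228) (nat_lit 0) (XT.lf (nat_lit 0)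 (nat_lit 9488885743) (nat_lit 228) (nat_lit 492004069) (nat_lit 0) (nat_lit 3876190522) (nat_lit 37) (nat_lit 5) (nat_lit 40) (nat_lit 4) (nat_lit 37) (nat_lit 4) (nat_lit 492) (nat_lit 330) (nat_lit 318)) (XT.lf (nat_lit 0) (nat_lit 396702735) (nat_lit 228) (nat_lit 5221630491) (nat_lit 76) (nat_lit 8409443753) (nat_lit 34) (nat_lit 5) (nat_lit 37) (nat_lit 5) (nat_lit 35) (nat_lit 4) (nat_lit 493) (nat_lit 330) (nat_lit 317)))) (XT.nd (nat_lit 78) (nat_lit 228) (nat_lit 0) (XT.lf (nat_lit 0) (nat_lit 4006478272) (nat_lit 152) (nat_lit 1157718995) (nat_lit 228) (nat_lit 9037805877) (nat_lit 32) (nat_lit 5) (nat_lit 34) (nat_lit 5) (nat_lit 35) (nat_lit 4) (nat_lit 494) (nat_lit 330) (nat_lit 316)) (XT.nd (nat_lit 78) (nat_lit 228) (nat_lit 0) (XT.lf (nat_lit 0) (nat_lit 10020944912) (nat_lit 228) (nat_lit 1023781617) (nat_lit 0) (nat_lit 3335117917) (nat_lit 32) (nat_lit 5) (nat_lit 35) (nat_lit 4) (nat_lit 32) (nat_lit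 4) (nat_lit 495) (nat_lit 330) (nat_lit 315)) (XT.lf (nat_lit 0) (nat_lit 407702942) (nat_lit 228) (nat_lit 6241297543) (nat_lit 76) (nat_lit 7912205878) (nat_lit 29) (nat_lit 5) (nat_lit 32) (nat_lit 5) (nat_lit 30) (nat_lit 4) (nat_lit 496) (nat_lit 330) (nat_lit 314))))))))
noncomputable def xc5 : XT := (XT.nd (nat_lit 58578) (nat_lit 0) (nat_lit 0) (XT.nd (nat_lit 780) (nat_lit 76) (nat_lit 0) (XT.nd (nat_lit 390) (nat_lit 532) (nat_lit 0) (XT.nd (nat_lit 156) (nat_lit 380) (nat_lit 0) (XT.nd (nat_lit 78) (nat_lit 0) (nat_lit 0) (XT.lf (nat_lit 0) (nat_lit 3018624601) (nat_lit 152) (nat_lit 2157157879) (nat_lit 228) (nat_lit 9570554756) (nat_lit 27) (nat_lit 5) (nat_lit 29) (nat_lit 5) (nat_lit 30) (nat_lit 4) (nat_lit 497) (nat_lit 330) (nat_lit 313)) (XT.lf (nat_lit 0) (nat_lit 10035259596) (nat_lit 228) (nat_lit 2512550878) (nat_lit 0) (nat_lit 2387447549) (nat_lit 27) (nat_lit 5) (nat_lit 30) (nat_lit 4) (nat_lit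 27) (nat_lit 4) (nat_lit 498) (nat_lit 330) (nat_lit 312))) (XT.nd (nat_lit 78) (nat_lit 228) (nat_lit 0) (XT.lf (nat_lit 0) (nat_lit 6854142743) (nat_lit 152) (nat_lit 8135918637) (nat_lit 152) (nat_lit 137941002) (nat_lit 25) (nat_lit 4) (nat_lit 27) (nat_lit 5) (nat_lit 27) (nat_lit 4) (nat_lit 499) (nat_lit 330) (nat_lit 311)) (XT.nd (nat_lit 78) (nat_lit 0) (nat_lit 0) (XT.lf (nat_lit 0) (nat_lit 991739766) (nat_lit 152) (nat_lit 3628565677) (nat_lit 228) (nat_lit 10704434054) (nat_lit 22) (nat_lit 5) (nat_lit 24) (nat_lit 5) (nat_lit 25) (nat_lit 4) (nat_lit 500) (nat_lit 330) (nat_lit 310)) (XT.lf (nat_lit 0) (nat_lit 9473662327) (nat_lit 228) (nat_lit 5085731649) (nat_lit 0) (nat_lit 965970698) (nat_lit 22) (nat_lit 5) (nat_lit 25) (nat_lit 4) (nat_lit 22) (nat_lit 4) (nat_lit 501) (nat_lit 330) (nat_lit 309))))) (XT.nd (nat_lit 156) (nat_lit 304) (nat_lit 0) (XT.nd (nat_lit 78) (nat_lit 76) (nat_lit 0) (XT.lf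 (nat_lit 0) (nat_lit 4271945496) (nat_lit 152) (nat_lit 10144701704) (nat_lit 152) (nat_lit 1313511197) (nat_lit 20) (nat_lit 4) (nat_lit 22) (nat_lit 5) (nat_lit 22) (nat_lit 4) (nat_lit 502) (nat_lit 330) (nat_lit 308)) (XT.lf (nat_lit 0) (nat_lit 3448511679) (nat_lit 228) (nat_lit 2182352674) (nat_lit 76) (nat_lit 10308229089) (nat_lit 19) (nat_lit 5) (nat_lit 22) (nat_lit 5) (nat_lit 20) (nat_lit 4) (nat_lit 503) (nat_lit 330) (nat_lit 307))) (XT.nd (nat_lit 78) (nat_lit 228) (nat_lit 0) (XT.lf (nat_lit 0) (nat_lit 7261021021) (nat_lit 76) (nat_lit 1016357349) (nat_lit 152) (nat_lit 7874878188) (nat_lit 18) (nat_lit 5) (nat_lit 19) (nat_lit 5) (nat_lit 20) (nat_lit 4) (nat_lit 504) (nat_lit 330) (nat_lit 306)) (XT.nd (nat_lit 78) (nat_lit 76) (nat_lit 0) (XT.lf (nat_lit 0) (nat_lit 430337890) (nat_lit 152) (nat_lit 12756174033) (nat_lit 152) (nat_lit 3183503930) (nat_lit 16) (nat_lit 4) (nat_lit 18) (nat_lit 5) (nat_lit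 18) (nat_lit 4) (nat_lit 505) (nat_lit 330) (nat_lit 305)) (XT.lf (nat_lit 0) (nat_lit 1589746947) (nat_lit 228) (nat_lit 6654384168) (nat_lit 76) (nat_lit 8347616568) (nat_lit 15) (nat_lit 5) (nat_lit 18) (nat_lit 5) (nat_lit 16) (nat_lit 4) (nat_lit 506) (nat_lit 330) (nat_lit 304)))))) (XT.nd (nat_lit 57330) (nat_lit 0) (nat_lit 2660) (XT.nd (nat_lit 57096) (nat_lit 0) (nat_lit 3648) (XT.nd (nat_lit 78) (nat_lit 0) (nat_lit 0) (XT.lf (nat_lit 0) (nat_lit 2728585551) (nat_lit 76) (nat_lit 3648402715) (nat_lit 152) (nat_lit 10441288295) (nat_lit 14) (nat_lit 5) (nat_lit 15) (nat_lit 5) (nat_lit 16) (nat_lit 4) (nat_lit 507) (nat_lit 330) (nat_lit 303)) (XT.lf (nat_lit 0) (nat_lit 11255218121) (nat_lit 152) (nat_lit 4768957946) (nat_lit 0) (nat_lit 1025261271) (nat_lit 14) (nat_lit 5) (nat_lit 16) (nat_lit 4) (nat_lit 14) (nat_lit 4) (nat_lit 508) (nat_lit 330) (nat_lit 302))) (XT.nd (nat_lit 78) (nat_lit 304) (nat_lit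 0) (XT.lf (nat_lit 0) (nat_lit 162796490) (nat_lit 228) (nat_lit 2867925310) (nat_lit 228) (nat_lit 2867925310) (nat_lit 66) (nat_lit 4) (nat_lit 69) (nat_lit 5) (nat_lit 69) (nat_lit 4) (nat_lit 478) (nat_lit 331) (nat_lit 331)) (XT.nd (nat_lit 78) (nat_lit 304) (nat_lit 0) (XT.lf (nat_lit 0) (nat_lit 9241163080) (nat_lit 228) (nat_lit 1635612449) (nat_lit 228) (nat_lit 1049639012) (nat_lit 66) (nat_lit 4) (nat_lit 69) (nat_lit 5) (nat_lit 69) (nat_lit 4) (nat_lit 479) (nat_lit 331) (nat_lit 330)) (XT.lf (nat_lit 0) (nat_lit 3668977283) (nat_lit 304) (nat_lit 5857642011) (nat_lit 0) (nat_lit 2531274146) (nat_lit 62) (nat_lit 5) (nat_lit 66) (nat_lit 4) (nat_lit 62) (nat_lit 4) (nat_lit 480) (nat_lit 331) (nat_lit 329))))) (XT.nd (nat_lit 234) (nat_lit 456) (nat_lit 0) (XT.nd (nat_lit 78) (nat_lit 304) (nat_lit 0) (XT.lf (nat_lit 0) (nat_lit 3012508124) (nat_lit 228) (nat_lit 5434828950) (nat_lit 228) (nat_lit 3744949955)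 (nat_lit 59) (nat_lit 4) (nat_lit 62) (nat_lit 5) (nat_lit 62) (nat_lit 4) (nat_lit 481) (nat_lit 331) (nat_lit 328)) (XT.nd (nat_lit 78) (nat_lit 228) (nat_lit 0) (XT.lf (nat_lit 0) (nat_lit 949470468) (nat_lit 304) (nat_lit 313297528) (nat_lit 76) (nat_lit 11067071931) (nat_lit 58) (nat_lit 5) (nat_lit 62) (nat_lit 5) (nat_lit 59) (nat_lit 4) (nat_lit 482) (nat_lit 331) (nat_lit 327)) (XT.lf (nat_lit 0) (nat_lit 5696226900) (nat_lit 304) (nat_lit 3784840780) (nat_lit 0) (nat_lit 2988420948) (nat_lit 55) (nat_lit 5) (nat_lit 59) (nat_lit 4) (nat_lit 55) (nat_lit 4) (nat_lit 483) (nat_lit 331) (nat_lit 326)))) (XT.nd (nat_lit 78) (nat_lit 228) (nat_lit 0) (XT.lf (nat_lit 0) (nat_lit 5199261703) (nat_lit 228) (nat_lit 5315536772) (nat_lit 228) (nat_lit 2097605679) (nat_lit 52) (nat_lit 4) (nat_lit 55) (nat_lit 5) (nat_lit 55) (nat_lit 4) (nat_lit 484) (nat_lit 331) (nat_lit 325)) (XT.nd (nat_lit 78) (nat_lit 0) (nat_lit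 0) (XT.lf (nat_lit 0) (nat_lit 1543807760) (nat_lit 152) (nat_lit 1061074189) (nat_lit 228) (nat_lit 10153593004) (nat_lit 49) (nat_lit 5) (nat_lit 51) (nat_lit 5) (nat_lit 52) (nat_lit 4) (nat_lit 485) (nat_lit 331) (nat_lit 324)) (XT.lf (nat_lit 0) (nat_lit 7377746624) (nat_lit 228) (nat_lit 2277472199) (nat_lit 0) (nat_lit 3251893547) (nat_lit 49) (nat_lit 5) (nat_lit 52) (nat_lit 4) (nat_lit 49) (nat_lit 4) (nat_lit 486) (nat_lit 331) (nat_lit 323))))))) (XT.nd (nat_lit 858) (nat_lit 988) (nat_lit 0) (XT.nd (nat_lit 390) (nat_lit 760) (nat_lit 0) (XT.nd (nat_lit 156) (nat_lit 456) (nat_lit 0) (XT.nd (nat_lit 78) (nat_lit 228) (nat_lit 0) (XT.lf (nat_lit 0) (nat_lit 6807111199) (nat_lit 228) (nat_lit 5424520255) (nat_lit 228) (nat_lit 827390401) (nat_lit 46) (nat_lit 4) (nat_lit 49) (nat_lit 5) (nat_lit 49) (nat_lit 4) (nat_lit 487) (nat_lit 331) (nat_lit 322)) (XT.lf (nat_lit 0) (nat_lit 2787546293) (nat_lit 152)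 (nat_lit 1096964698) (nat_lit 228) (nat_lit 9329594651) (nat_lit 43) (nat_lit 5) (nat_lit 45) (nat_lit 5) (nat_lit 46) (nat_lit 4) (nat_lit 488) (nat_lit 331) (nat_lit 321))) (XT.nd (nat_lit 78) (nat_lit 456) (nat_lit 0) (XT.lf (nat_lit 0) (nat_lit 8678043475) (nat_lit 228) (nat_lit 1420196519) (nat_lit 0) (nat_lit 3273982262) (nat_lit 43) (nat_lit 5) (nat_lit 46) (nat_lit 4) (nat_lit 43) (nat_lit 4) (nat_lit 489) (nat_lit 331) (nat_lit 320)) (XT.nd (nat_lit 78) (nat_lit 152) (nat_lit 0) (XT.lf (nat_lit 0) (nat_lit 26996985) (nat_lit 304) (nat_lit 5784914198) (nat_lit 76) (nat_lit 7721725255) (nat_lit 39) (nat_lit 5) (nat_lit 43) (nat_lit 5) (nat_lit 40) (nat_lit 4) (nat_lit 490) (nat_lit 331) (nat_lit 319)) (XT.lf (nat_lit 0) (nat_lit 3322732644) (nat_lit 152) (nat_lit 1424312231) (nat_lit 228) (nat_lit 8951276777) (nat_lit 37) (nat_lit 5) (nat_lit 39) (nat_lit 5) (nat_lit 40) (nat_lit 4) (nat_lit 491) (nat_lit 331)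 (nat_lit 318))))) (XT.nd (nat_lit 234) (nat_lit 380) (nat_lit 0) (XT.nd (nat_lit 78) (nat_lit 380) (nat_lit 0) (XT.lf (nat_lit 0) (nat_lit 9556679872) (nat_lit 228) (nat_lit 1306750526) (nat_lit 0) (nat_lit 3002975659) (nat_lit 37) (nat_lit 5) (nat_lit 40) (nat_lit 4) (nat_lit 37) (nat_lit 4) (nat_lit 492) (nat_lit 331) (nat_lit 317)) (XT.nd (nat_lit 78) (nat_lit 152) (nat_lit 0) (XT.lf (nat_lit 0) (nat_lit 417522766) (nat_lit 228) (nat_lit 6112538416) (nat_lit 76) (nat_lit 7507775940) (nat_lit 34) (nat_lit 5) (nat_lit 37) (nat_lit 5) (nat_lit 35) (nat_lit 4) (nat_lit 493) (nat_lit 331) (nat_lit 316)) (XT.lf (nat_lit 0) (nat_lit 3048539282) (nat_lit 152) (nat_lit 2099389931) (nat_lit 228) (nat_lit 9064880132) (nat_lit 32) (nat_lit 5) (nat_lit 34) (nat_lit 5) (nat_lit 35) (nat_lit 4) (nat_lit 494) (nat_lit 331) (nat_lit 315)))) (XT.nd (nat_lit 78) (nat_lit 380) (nat_lit 0) (XT.lf (nat_lit 0) (nat_lit 9967795806) (nat_lit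 228) (nat_lit 2040985999) (nat_lit 0) (nat_lit 2382610675) (nat_lit 32) (nat_lit 5) (nat_lit 35) (nat_lit 4) (nat_lit 32) (nat_lit 4) (nat_lit 495) (nat_lit 331) (nat_lit 314)) (XT.nd (nat_lit 78) (nat_lit 152) (nat_lit 0) (XT.lf (nat_lit 0) (nat_lit 306395881) (nat_lit 228) (nat_lit 7337863972) (nat_lit 76) (nat_lit 6929256161) (nat_lit 29) (nat_lit 5) (nat_lit 32) (nat_lit 5) (nat_lit 30) (nat_lit 4) (nat_lit 496) (nat_lit 331) (nat_lit 313)) (XT.lf (nat_lit 0) (nat_lit 1853218329) (nat_lit 152) (nat_lit 3183570908) (nat_lit 228) (nat_lit 9722615342) (nat_lit 27) (nat_lit 5) (nat_lit 29) (nat_lit 5) (nat_lit 30) (nat_lit 4) (nat_lit 497) (nat_lit 331) (nat_lit 312)))))) (XT.nd (nat_lit 390) (nat_lit 456) (nat_lit 0) (XT.nd (nat_lit 156) (nat_lit 380) (nat_lit 0) (XT.nd (nat_lit 78) (nat_lit 152) (nat_lit 0) (XT.lf (nat_lit 0) (nat_lit 9859576294) (nat_lit 228) (nat_lit 3738013246) (nat_lit 0) (nat_lit 1351473518) (nat_lit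 27) (nat_lit 5) (nat_lit 30) (nat_lit 4) (nat_lit 27) (nat_lit 4) (nat_lit 498) (nat_lit 331) (nat_lit 311)) (XT.lf (nat_lit 0) (nat_lit 5559094698) (nat_lit 152) (nat_lit 9217437908) (nat_lit 152) (nat_lit 366035536) (nat_lit 25) (nat_lit 4) (nat_lit 27) (nat_lit 5) (nat_lit 27) (nat_lit 4) (nat_lit 499) (nat_lit 331) (nat_lit 310))) (XT.nd (nat_lit 78) (nat_lit 304) (nat_lit 0) (XT.lf (nat_lit 0) (nat_lit 4359367080) (nat_lit 228) (nat_lit 382049100) (nat_lit 76) (nat_lit 10598639068) (nat_lit 24) (nat_lit 5) (nat_lit 27) (nat_lit 5) (nat_lit 25) (nat_lit 4) (nat_lit 500) (nat_lit 331) (nat_lit 309)) (XT.nd (nat_lit 78) (nat_lit 152) (nat_lit 0) (XT.lf (nat_lit 0) (nat_lit 9014946316) (nat_lit 152) (nat_lit 159749610) (nat_lit 228) (nat_lit 6366748653) (nat_lit 22) (nat_lit 5) (nat_lit 24) (nat_lit 5) (nat_lit 25) (nat_lit 4) (nat_lit 501) (nat_lit 331) (nat_lit 308)) (XT.lf (nat_lit 0) (nat_lit 2760690499) (nat_lit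 152) (nat_lit 11317405984) (nat_lit 152) (nat_lit 1668937030) (nat_lit 20) (nat_lit 4) (nat_lit 22) (nat_lit 5) (nat_lit 22) (nat_lit 4) (nat_lit 502) (nat_lit 331) (nat_lit 307))))) (XT.nd (nat_lit 234) (nat_lit 304) (nat_lit 0) (XT.nd (nat_lit 78) (nat_lit 76) (nat_lit 0) (XT.lf (nat_lit 0) (nat_lit 3069050026) (nat_lit 228) (nat_lit 3759924920) (nat_lit 76) (nat_lit 9127617098) (nat_lit 19) (nat_lit 5) (nat_lit 22) (nat_lit 5) (nat_lit 20) (nat_lit 4) (nat_lit 503) (nat_lit 331) (nat_lit 306)) (XT.nd (nat_lit 78) (nat_lit 0) (nat_lit 0) (XT.lf (nat_lit 0) (nat_lit 5611074334) (nat_lit 76) (nat_lit 2247995232) (nat_lit 152) (nat_lit 8311465858) (nat_lit 18) (nat_lit 5) (nat_lit 19) (nat_lit 5) (nat_lit 20) (nat_lit 4) (nat_lit 504) (nat_lit 331) (nat_lit 305)) (XT.lf (nat_lit 0) (nat_lit 12729356262) (nat_lit 152) (nat_lit 1286351751) (nat_lit 0) (nat_lit 2373366900) (nat_lit 18) (nat_lit 5) (nat_lit 20) (nat_lit 4)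 (nat_lit 18) (nat_lit 4) (nat_lit 505) (nat_lit 331) (nat_lit 304)))) (XT.nd (nat_lit 78) (nat_lit 76) (nat_lit 0) (XT.lf (nat_lit 0) (nat_lit 1083237649) (nat_lit 228) (nat_lit 8455107055) (nat_lit 76) (nat_lit 7073257810) (nat_lit 15) (nat_lit 5) (nat_lit 18) (nat_lit 5) (nat_lit 16) (nat_lit 4) (nat_lit 506) (nat_lit 331) (nat_lit 303)) (XT.nd (nat_lit 78) (nat_lit 0) (nat_lit 0) (XT.lf (nat_lit 0) (nat_lit 853408659) (nat_lit 76) (nat_lit 4977423521) (nat_lit 152) (nat_lit 11008095214) (nat_lit 14) (nat_lit 5) (nat_lit 15) (nat_lit 5) (nat_lit 16) (nat_lit 4) (nat_lit 507) (nat_lit 331) (nat_lit 302)) (XT.lf (nat_lit 0) (nat_lit 10362649850) (nat_lit 76) (nat_lit 312412215) (nat_lit 152) (nat_lit 6395709114) (nat_lit 14) (nat_lit 5) (nat_lit 15) (nat_lit 5) (nat_lit 16) (nat_lit 4) (nat_lit 508) (nat_lit 331) (nat_lit 301))))))))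
noncomputable def xc6 : XT := (XT.nd (nat_lit 1638) (nat_lit 1140) (nat_lit 0) (XT.nd (nat_lit 780) (nat_lit 1520) (nat_lit 0) (XT.nd (nat_lit 390) (nat_lit 988) (nat_lit 0) (XT.nd (nat_lit 156) (nat_lit 532) (nat_lit 0) (XT.nd (nat_lit 78) (nat_lit 304) (nat_lit 0) (XT.lf (nat_lit 0) (nat_lit 3041947942) (nat_lit 304) (nat_lit 1365621681) (nat_lit 304) (nat_lit 1365621681) (nat_lit 73) (nat_lit 4) (nat_lit 77) (nat_lit 5) (nat_lit 77) (nat_lit 4) (nat_lit 476) (nat_lit 332) (nat_lit 332)) (XT.lf (nat_lit 0) (nat_lit 1924667044) (nat_lit 304) (nat_lit 8419348499) (nat_lit 0) (nat_lit 1326974137) (nat_lit 69) (nat_lit 5) (nat_lit 73) (nat_lit 4) (nat_lit 69) (nat_lit 4) (nat_lit 477) (nat_lit 332) (nat_lit 331))) (XT.nd (nat_lit 78) (nat_lit 304) (nat_lit 0) (XT.lf (nat_lit 0) (nat_lit 266980755) (nat_lit 228) (nat_lit 6357341304) (nat_lit 228) (nat_lit 5173674960) (nat_lit 66) (nat_lit 4) (nat_lit 69) (nat_lit 5) (nat_lit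 69) (nat_lit 4) (nat_lit 478) (nat_lit 332) (nat_lit 330)) (XT.nd (nat_lit 78) (nat_lit 304) (nat_lit 0) (XT.lf (nat_lit 0) (nat_lit 9125087889) (nat_lit 228) (nat_lit 2280434289) (nat_lit 228) (nat_lit 522284183) (nat_lit 66) (nat_lit 4) (nat_lit 69) (nat_lit 5) (nat_lit 69) (nat_lit 4) (nat_lit 479) (nat_lit 332) (nat_lit 329)) (XT.lf (nat_lit 0) (nat_lit 4150234806) (nat_lit 304) (nat_lit 6035389354) (nat_lit 0) (nat_lit 1874382373) (nat_lit 62) (nat_lit 5) (nat_lit 66) (nat_lit 4) (nat_lit 62) (nat_lit 4) (nat_lit 480) (nat_lit 332) (nat_lit 328))))) (XT.nd (nat_lit 156) (nat_lit 684) (nat_lit 0) (XT.nd (nat_lit 78) (nat_lit 76) (nat_lit 0) (XT.lf (nat_lit 0) (nat_lit 2774700940) (nat_lit 228) (nat_lit 6118804150) (nat_lit 228) (nat_lit 3301602838) (nat_lit 59) (nat_lit 4) (nat_lit 62) (nat_lit 5) (nat_lit 62) (nat_lit 4) (nat_lit 481) (nat_lit 332) (nat_lit 327)) (XT.lf (nat_lit 0) (nat_lit 1353521941) (nat_lit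 304) (nat_lit 613821187) (nat_lit 76) (nat_lit 10365935532) (nat_lit 58) (nat_lit 5) (nat_lit 62) (nat_lit 5) (nat_lit 59) (nat_lit 4) (nat_lit 482) (nat_lit 332) (nat_lit 326))) (XT.nd (nat_lit 78) (nat_lit 456) (nat_lit 0) (XT.lf (nat_lit 0) (nat_lit 6060368998) (nat_lit 304) (nat_lit 4145408076) (nat_lit 0) (nat_lit 2267954143) (nat_lit 55) (nat_lit 5) (nat_lit 59) (nat_lit 4) (nat_lit 55) (nat_lit 4) (nat_lit 483) (nat_lit 332) (nat_lit 325)) (XT.nd (nat_lit 78) (nat_lit 228) (nat_lit 0) (XT.lf (nat_lit 0) (nat_lit 4777119481) (nat_lit 228) (nat_lit 6066389495) (nat_lit 228) (nat_lit 1773851954) (nat_lit 52) (nat_lit 4) (nat_lit 55) (nat_lit 5) (nat_lit 55) (nat_lit 4) (nat_lit 484) (nat_lit 332) (nat_lit 324)) (XT.lf (nat_lit 0) (nat_lit 1052048453) (nat_lit 152) (nat_lit 1836517068) (nat_lit 228) (nat_lit 9875545992) (nat_lit 49) (nat_lit 5) (nat_lit 51) (nat_lit 5) (nat_lit 52) (nat_lit 4) (nat_lit 485) (nat_lit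 332) (nat_lit 323)))))) (XT.nd (nat_lit 390) (nat_lit 760) (nat_lit 0) (XT.nd (nat_lit 156) (nat_lit 532) (nat_lit 0) (XT.nd (nat_lit 78) (nat_lit 228) (nat_lit 0) (XT.lf (nat_lit 0) (nat_lit 7623890358) (nat_lit 228) (nat_lit 2826073476) (nat_lit 0) (nat_lit 2463541128) (nat_lit 49) (nat_lit 5) (nat_lit 52) (nat_lit 4) (nat_lit 49) (nat_lit 4) (nat_lit 486) (nat_lit 332) (nat_lit 322)) (XT.lf (nat_lit 0) (nat_lit 6195349200) (nat_lit 228) (nat_lit 6246586231) (nat_lit 228) (nat_lit 624200945) (nat_lit 46) (nat_lit 4) (nat_lit 49) (nat_lit 5) (nat_lit 49) (nat_lit 4) (nat_lit 487) (nat_lit 332) (nat_lit 321))) (XT.nd (nat_lit 78) (nat_lit 304) (nat_lit 0) (XT.lf (nat_lit 0) (nat_lit 2103172532) (nat_lit 152) (nat_lit 1945606846) (nat_lit 228) (nat_lit 9173144460) (nat_lit 43) (nat_lit 5) (nat_lit 45) (nat_lit 5) (nat_lit 46) (nat_lit 4) (nat_lit 488) (nat_lit 332) (nat_lit 320)) (XT.nd (nat_lit 78) (nat_lit 304) (nat_lit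 0) (XT.lf (nat_lit 0) (nat_lit 8805105604) (nat_lit 228) (nat_lit 2162202170) (nat_lit 0) (nat_lit 2413481638) (nat_lit 43) (nat_lit 5) (nat_lit 46) (nat_lit 4) (nat_lit 43) (nat_lit 4) (nat_lit 489) (nat_lit 332) (nat_lit 319)) (XT.lf (nat_lit 0) (nat_lit 107379446) (nat_lit 304) (nat_lit 6601567381) (nat_lit 76) (nat_lit 6833977200) (nat_lit 39) (nat_lit 5) (nat_lit 43) (nat_lit 5) (nat_lit 40) (nat_lit 4) (nat_lit 490) (nat_lit 332) (nat_lit 318))))) (XT.nd (nat_lit 234) (nat_lit 380) (nat_lit 0) (XT.nd (nat_lit 78) (nat_lit 228) (nat_lit 0) (XT.lf (nat_lit 0) (nat_lit 2440206085) (nat_lit 152) (nat_lit 2350467300) (nat_lit 228) (nat_lit 8917675494) (nat_lit 37) (nat_lit 5) (nat_lit 39) (nat_lit 5) (nat_lit 40) (nat_lit 4) (nat_lit 491) (nat_lit 332) (nat_lit 317)) (XT.nd (nat_lit 78) (nat_lit 228) (nat_lit 0) (XT.lf (nat_lit 0) (nat_lit 9563378782) (nat_lit 228) (nat_lit 2247702066) (nat_lit 0) (nat_lit 2066095497)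 (nat_lit 37) (nat_lit 5) (nat_lit 40) (nat_lit 4) (nat_lit 37) (nat_lit 4) (nat_lit 492) (nat_lit 332) (nat_lit 316)) (XT.lf (nat_lit 0) (nat_lit 376404809) (nat_lit 228) (nat_lit 7131288895) (nat_lit 76) (nat_lit 6541660530) (nat_lit 34) (nat_lit 5) (nat_lit 37) (nat_lit 5) (nat_lit 35) (nat_lit 4) (nat_lit 493) (nat_lit 332) (nat_lit 315)))) (XT.nd (nat_lit 78) (nat_lit 228) (nat_lit 0) (XT.lf (nat_lit 0) (nat_lit 1962140962) (nat_lit 152) (nat_lit 3107353431) (nat_lit 228) (nat_lit 9155582612) (nat_lit 32) (nat_lit 5) (nat_lit 34) (nat_lit 5) (nat_lit 35) (nat_lit 4) (nat_lit 494) (nat_lit 332) (nat_lit 314)) (XT.nd (nat_lit 78) (nat_lit 228) (nat_lit 0) (XT.lf (nat_lit 0) (nat_lit 9852652795) (nat_lit 228) (nat_lit 3186610693) (nat_lit 0) (nat_lit 1365134944) (nat_lit 32) (nat_lit 5) (nat_lit 35) (nat_lit 4) (nat_lit 32) (nat_lit 4) (nat_lit 495) (nat_lit 332) (nat_lit 313)) (XT.lf (nat_lit 0) (nat_lit 142221104)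 (nat_lit 228) (nat_lit 8564543496) (nat_lit 76) (nat_lit 5880532107) (nat_lit 29) (nat_lit 5) (nat_lit 32) (nat_lit 5) (nat_lit 30) (nat_lit 4) (nat_lit 496) (nat_lit 332) (nat_lit 312))))))) (XT.nd (nat_lit 858) (nat_lit 76) (nat_lit 0) (XT.nd (nat_lit 390) (nat_lit 532) (nat_lit 0) (XT.nd (nat_lit 156) (nat_lit 380) (nat_lit 0) (XT.nd (nat_lit 78) (nat_lit 0) (nat_lit 0) (XT.lf (nat_lit 0) (nat_lit 557033889) (nat_lit 152) (nat_lit 4277635871) (nat_lit 228) (nat_lit 9939278297) (nat_lit 27) (nat_lit 5) (nat_lit 29) (nat_lit 5) (nat_lit 30) (nat_lit 4) (nat_lit 497) (nat_lit 332) (nat_lit 311)) (XT.lf (nat_lit 0) (nat_lit 9620916259) (nat_lit 228) (nat_lit 5094238657) (nat_lit 0) (nat_lit 249186244) (nat_lit 27) (nat_lit 5) (nat_lit 30) (nat_lit 4) (nat_lit 27) (nat_lit 4) (nat_lit 498) (nat_lit 332) (nat_lit 310))) (XT.nd (nat_lit 78) (nat_lit 228) (nat_lit 0) (XT.lf (nat_lit 0) (nat_lit 4132590934) (nat_lit 152) (nat_lit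 10367159866) (nat_lit 152) (nat_lit 658861620) (nat_lit 25) (nat_lit 4) (nat_lit 27) (nat_lit 5) (nat_lit 27) (nat_lit 4) (nat_lit 499) (nat_lit 332) (nat_lit 309)) (XT.nd (nat_lit 78) (nat_lit 152) (nat_lit 0) (XT.lf (nat_lit 0) (nat_lit 4041561563) (nat_lit 228) (nat_lit 1874312742) (nat_lit 76) (nat_lit 9440843238) (nat_lit 24) (nat_lit 5) (nat_lit 27) (nat_lit 5) (nat_lit 25) (nat_lit 4) (nat_lit 500) (nat_lit 332) (nat_lit 308)) (XT.lf (nat_lit 0) (nat_lit 7451574038) (nat_lit 152) (nat_lit 1366911117) (nat_lit 228) (nat_lit 6740393348) (nat_lit 22) (nat_lit 5) (nat_lit 24) (nat_lit 5) (nat_lit 25) (nat_lit 4) (nat_lit 501) (nat_lit 332) (nat_lit 307))))) (XT.nd (nat_lit 234) (nat_lit 228) (nat_lit 0) (XT.nd (nat_lit 78) (nat_lit 152) (nat_lit 0) (XT.lf (nat_lit 0) (nat_lit 1115453032) (nat_lit 152) (nat_lit 12559741401) (nat_lit 152) (nat_lit 2090210285) (nat_lit 20) (nat_lit 4) (nat_lit 22) (nat_lit 5) (nat_lit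 22) (nat_lit 4) (nat_lit 502) (nat_lit 332) (nat_lit 306)) (XT.nd (nat_lit 78) (nat_lit 76) (nat_lit 0) (XT.lf (nat_lit 0) (nat_lit 2625167244) (nat_lit 228) (nat_lit 5471533498) (nat_lit 76) (nat_lit 7878883223) (nat_lit 19) (nat_lit 5) (nat_lit 22) (nat_lit 5) (nat_lit 20) (nat_lit 4) (nat_lit 503) (nat_lit 332) (nat_lit 305)) (XT.lf (nat_lit 0) (nat_lit 3826318071) (nat_lit 76) (nat_lit 3549697949) (nat_lit 152) (nat_lit 8814297996) (nat_lit 18) (nat_lit 5) (nat_lit 19) (nat_lit 5) (nat_lit 20) (nat_lit 4) (nat_lit 504) (nat_lit 332) (nat_lit 304)))) (XT.nd (nat_lit 78) (nat_lit 228) (nat_lit 0) (XT.lf (nat_lit 0) (nat_lit 12210345109) (nat_lit 152) (nat_lit 3132255423) (nat_lit 0) (nat_lit 1066975316) (nat_lit 18) (nat_lit 5) (nat_lit 20) (nat_lit 4) (nat_lit 18) (nat_lit 4) (nat_lit 505) (nat_lit 332) (nat_lit 303)) (XT.nd (nat_lit 78) (nat_lit 0) (nat_lit 0) (XT.lf (nat_lit 0) (nat_lit 511104936) (nat_lit 228)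 (nat_lit 10392563060) (nat_lit 76) (nat_lit 5729302506) (nat_lit 15) (nat_lit 5) (nat_lit 18) (nat_lit 5) (nat_lit 16) (nat_lit 4) (nat_lit 506) (nat_lit 332) (nat_lit 302)) (XT.lf (nat_lit 0) (nat_lit 5226225342) (nat_lit 228) (nat_lit 1144123016) (nat_lit 76) (nat_lit 10490599515) (nat_lit 15) (nat_lit 5) (nat_lit 18) (nat_lit 5) (nat_lit 16) (nat_lit 4) (nat_lit 507) (nat_lit 332) (nat_lit 301)))))) (XT.nd (nat_lit 57018) (nat_lit 0) (nat_lit 3116) (XT.nd (nat_lit 56784) (nat_lit 0) (nat_lit 4180) (XT.nd (nat_lit 56706) (nat_lit 0) (nat_lit 4788) (XT.lf (nat_lit 0) (nat_lit 8301351918) (nat_lit 76) (nat_lit 1734855762) (nat_lit 152) (nat_lit 7057271877) (nat_lit 14) (nat_lit 5) (nat_lit 15) (nat_lit 5) (nat_lit 16) (nat_lit 4) (nat_lit 508) (nat_lit 332) (nat_lit 300)) (XT.lf (nat_lit 0) (nat_lit 33609291) (nat_lit 304) (nat_lit 5585156851) (nat_lit 0) (nat_lit 33609291) (nat_lit 77) (nat_lit 5) (nat_lit 81) (nat_lit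 4) (nat_lit 77) (nat_lit 4) (nat_lit 474) (nat_lit 333) (nat_lit 333))) (XT.nd (nat_lit 78) (nat_lit 608) (nat_lit 0) (XT.lf (nat_lit 0) (nat_lit 4703319755) (nat_lit 304) (nat_lit 2639615191) (nat_lit 0) (nat_lit 4081480056) (nat_lit 77) (nat_lit 5) (nat_lit 81) (nat_lit 4) (nat_lit 77) (nat_lit 4) (nat_lit 475) (nat_lit 333) (nat_lit 332)) (XT.nd (nat_lit 78) (nat_lit 304) (nat_lit 0) (XT.lf (nat_lit 0) (nat_lit 6026681989) (nat_lit 304) (nat_lit 3375940493) (nat_lit 304) (nat_lit 2144454029) (nat_lit 73) (nat_lit 4) (nat_lit 77) (nat_lit 5) (nat_lit 77) (nat_lit 4) (nat_lit 476) (nat_lit 333) (nat_lit 331)) (XT.lf (nat_lit 0) (nat_lit 2464757335) (nat_lit 304) (nat_lit 8536192400) (nat_lit 0) (nat_lit 671444226) (nat_lit 69) (nat_lit 5) (nat_lit 73) (nat_lit 4) (nat_lit 69) (nat_lit 4) (nat_lit 477) (nat_lit 333) (nat_lit 330))))) (XT.nd (nat_lit 234) (nat_lit 532) (nat_lit 0) (XT.nd (nat_lit 78) (nat_lit 304) (nat_lit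 0) (XT.lf (nat_lit 0) (nat_lit 91121094) (nat_lit 228) (nat_lit 7038390735) (nat_lit 228) (nat_lit 4670593865) (nat_lit 66) (nat_lit 4) (nat_lit 69) (nat_lit 5) (nat_lit 69) (nat_lit 4) (nat_lit 478) (nat_lit 333) (nat_lit 329)) (XT.nd (nat_lit 78) (nat_lit 304) (nat_lit 0) (XT.lf (nat_lit 0) (nat_lit 8892891987) (nat_lit 228) (nat_lit 2984357401) (nat_lit 228) (nat_lit 53341156) (nat_lit 66) (nat_lit 4) (nat_lit 69) (nat_lit 5) (nat_lit 69) (nat_lit 4) (nat_lit 479) (nat_lit 333) (nat_lit 328)) (XT.lf (nat_lit 0) (nat_lit 4573355561) (nat_lit 304) (nat_lit 6331712376) (nat_lit 0) (nat_lit 1158461342) (nat_lit 62) (nat_lit 5) (nat_lit 66) (nat_lit 4) (nat_lit 62) (nat_lit 4) (nat_lit 480) (nat_lit 333) (nat_lit 327)))) (XT.nd (nat_lit 78) (nat_lit 304) (nat_lit 0) (XT.lf (nat_lit 0) (nat_lit 2417873597) (nat_lit 228) (nat_lit 6863547740) (nat_lit 228) (nat_lit 2917919325) (nat_lit 59) (nat_lit 4) (nat_lit 62) (nat_lit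 5) (nat_lit 62) (nat_lit 4) (nat_lit 481) (nat_lit 333) (nat_lit 326)) (XT.nd (nat_lit 78) (nat_lit 228) (nat_lit 0) (XT.lf (nat_lit 0) (nat_lit 1699348800) (nat_lit 304) (nat_lit 1033271481) (nat_lit 76) (nat_lit 9605503448) (nat_lit 58) (nat_lit 5) (nat_lit 62) (nat_lit 5) (nat_lit 59) (nat_lit 4) (nat_lit 482) (nat_lit 333) (nat_lit 325)) (XT.lf (nat_lit 0) (nat_lit 6365758586) (nat_lit 304) (nat_lit 4626384396) (nat_lit 0) (nat_lit 1487247607) (nat_lit 55) (nat_lit 5) (nat_lit 59) (nat_lit 4) (nat_lit 55) (nat_lit 4) (nat_lit 483) (nat_lit 333) (nat_lit 324))))))))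
noncomputable def xc7 : XT := (XT.nd (nat_lit 1638) (nat_lit 304) (nat_lit 0) (XT.nd (nat_lit 780) (nat_lit 1216) (nat_lit 0) (XT.nd (nat_lit 390) (nat_lit 684) (nat_lit 0) (XT.nd (nat_lit 156) (nat_lit 456) (nat_lit 0) (XT.nd (nat_lit 78) (nat_lit 228) (nat_lit 0) (XT.lf (nat_lit 0) (nat_lit 4234081459) (nat_lit 228) (nat_lit 6879241570) (nat_lit 228) (nat_lit 1510414232) (nat_lit 52) (nat_lit 4) (nat_lit 55) (nat_lit 5) (nat_lit 55) (nat_lit 4) (nat_lit 484) (nat_lit 333) (nat_lit 323)) (XT.lf (nat_lit 0) (nat_lit 437859892) (nat_lit 152) (nat_lit 2674709188) (nat_lit 228) (nat_lit 9658609373) (nat_lit 49) (nat_lit 5) (nat_lit 51) (nat_lit 5) (nat_lit 52) (nat_lit 4) (nat_lit 485) (nat_lit 333) (nat_lit 322))) (XT.nd (nat_lit 78) (nat_lit 456) (nat_lit 0) (XT.lf (nat_lit 0) (nat_lit 7810584026) (nat_lit 228) (nat_lit 3497024231) (nat_lit 0) (nat_lit 1613714978) (nat_lit 49) (nat_lit 5) (nat_lit 52) (nat_lit 4) (nat_lit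 49) (nat_lit 4) (nat_lit 486) (nat_lit 333) (nat_lit 321)) (XT.nd (nat_lit 78) (nat_lit 228) (nat_lit 0) (XT.lf (nat_lit 0) (nat_lit 5460707256) (nat_lit 228) (nat_lit 7131909127) (nat_lit 228) (nat_lit 482063553) (nat_lit 46) (nat_lit 4) (nat_lit 49) (nat_lit 5) (nat_lit 49) (nat_lit 4) (nat_lit 487) (nat_lit 333) (nat_lit 320)) (XT.lf (nat_lit 0) (nat_lit 1294336224) (nat_lit 152) (nat_lit 2858275870) (nat_lit 228) (nat_lit 9078570494) (nat_lit 43) (nat_lit 5) (nat_lit 45) (nat_lit 5) (nat_lit 46) (nat_lit 4) (nat_lit 488) (nat_lit 333) (nat_lit 319))))) (XT.nd (nat_lit 156) (nat_lit 380) (nat_lit 0) (XT.nd (nat_lit 78) (nat_lit 304) (nat_lit 0) (XT.lf (nat_lit 0) (nat_lit 8871937857) (nat_lit 228) (nat_lit 3028610440) (nat_lit 0) (nat_lit 1490244619) (nat_lit 43) (nat_lit 5) (nat_lit 46) (nat_lit 4) (nat_lit 43) (nat_lit 4) (nat_lit 489) (nat_lit 333) (nat_lit 318)) (XT.lf (nat_lit 0) (nat_lit 126701069) (nat_lit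 304) (nat_lit 7544237368) (nat_lit 76) (nat_lit 5882721508) (nat_lit 39) (nat_lit 5) (nat_lit 43) (nat_lit 5) (nat_lit 40) (nat_lit 4) (nat_lit 490) (nat_lit 333) (nat_lit 317))) (XT.nd (nat_lit 78) (nat_lit 228) (nat_lit 0) (XT.lf (nat_lit 0) (nat_lit 1431066858) (nat_lit 152) (nat_lit 3341960460) (nat_lit 228) (nat_lit 8946801303) (nat_lit 37) (nat_lit 5) (nat_lit 39) (nat_lit 5) (nat_lit 40) (nat_lit 4) (nat_lit 491) (nat_lit 333) (nat_lit 316)) (XT.nd (nat_lit 78) (nat_lit 228) (nat_lit 0) (XT.lf (nat_lit 0) (nat_lit 9508985100) (nat_lit 228) (nat_lit 3315227689) (nat_lit 0) (nat_lit 1065182632) (nat_lit 37) (nat_lit 5) (nat_lit 40) (nat_lit 4) (nat_lit 37) (nat_lit 4) (nat_lit 492) (nat_lit 333) (nat_lit 315)) (XT.lf (nat_lit 0) (nat_lit 273332739) (nat_lit 228) (nat_lit 8278281437) (nat_lit 76) (nat_lit 5510718653) (nat_lit 34) (nat_lit 5) (nat_lit 37) (nat_lit 5) (nat_lit 35) (nat_lit 4) (nat_lit 493) (nat_lit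 333) (nat_lit 314)))))) (XT.nd (nat_lit 390) (nat_lit 684) (nat_lit 0) (XT.nd (nat_lit 156) (nat_lit 380) (nat_lit 0) (XT.nd (nat_lit 78) (nat_lit 0) (nat_lit 0) (XT.lf (nat_lit 0) (nat_lit 746857274) (nat_lit 152) (nat_lit 4182004774) (nat_lit 228) (nat_lit 9309948887) (nat_lit 32) (nat_lit 5) (nat_lit 34) (nat_lit 5) (nat_lit 35) (nat_lit 4) (nat_lit 494) (nat_lit 333) (nat_lit 313)) (XT.lf (nat_lit 0) (nat_lit 9675470725) (nat_lit 228) (nat_lit 4461104963) (nat_lit 0) (nat_lit 282291717) (nat_lit 32) (nat_lit 5) (nat_lit 35) (nat_lit 4) (nat_lit 32) (nat_lit 4) (nat_lit 495) (nat_lit 333) (nat_lit 312))) (XT.nd (nat_lit 78) (nat_lit 228) (nat_lit 0) (XT.lf (nat_lit 0) (nat_lit 4680167052) (nat_lit 152) (nat_lit 9836361765) (nat_lit 152) (nat_lit 86013858) (nat_lit 30) (nat_lit 4) (nat_lit 32) (nat_lit 5) (nat_lit 32) (nat_lit 4) (nat_lit 496) (nat_lit 333) (nat_lit 311)) (XT.nd (nat_lit 78) (nat_lit 152) (nat_lit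 0) (XT.lf (nat_lit 0) (nat_lit 4574996240) (nat_lit 228) (nat_lit 859021089) (nat_lit 76) (nat_lit 9355843012) (nat_lit 29) (nat_lit 5) (nat_lit 32) (nat_lit 5) (nat_lit 30) (nat_lit 4) (nat_lit 497) (nat_lit 333) (nat_lit 310)) (XT.lf (nat_lit 0) (nat_lit 8393166703) (nat_lit 152) (nat_lit 932070818) (nat_lit 228) (nat_lit 5655739768) (nat_lit 27) (nat_lit 5) (nat_lit 29) (nat_lit 5) (nat_lit 30) (nat_lit 4) (nat_lit 498) (nat_lit 333) (nat_lit 309))))) (XT.nd (nat_lit 234) (nat_lit 304) (nat_lit 0) (XT.nd (nat_lit 78) (nat_lit 228) (nat_lit 0) (XT.lf (nat_lit 0) (nat_lit 2574072038) (nat_lit 152) (nat_lit 11585535383) (nat_lit 152) (nat_lit 1016534086) (nat_lit 25) (nat_lit 4) (nat_lit 27) (nat_lit 5) (nat_lit 27) (nat_lit 4) (nat_lit 499) (nat_lit 333) (nat_lit 308)) (XT.nd (nat_lit 78) (nat_lit 152) (nat_lit 0) (XT.lf (nat_lit 0) (nat_lit 3660325230) (nat_lit 228) (nat_lit 3498643206) (nat_lit 76) (nat_lit 8215893259)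 (nat_lit 24) (nat_lit 5) (nat_lit 27) (nat_lit 5) (nat_lit 25) (nat_lit 4) (nat_lit 500) (nat_lit 333) (nat_lit 307)) (XT.lf (nat_lit 0) (nat_lit 5755385275) (nat_lit 152) (nat_lit 2643149976) (nat_lit 228) (nat_lit 7179265131) (nat_lit 22) (nat_lit 5) (nat_lit 24) (nat_lit 5) (nat_lit 25) (nat_lit 4) (nat_lit 501) (nat_lit 333) (nat_lit 306)))) (XT.nd (nat_lit 78) (nat_lit 304) (nat_lit 0) (XT.lf (nat_lit 0) (nat_lit 13212096851) (nat_lit 228) (nat_lit 655698212) (nat_lit 0) (nat_lit 1917397875) (nat_lit 22) (nat_lit 5) (nat_lit 25) (nat_lit 4) (nat_lit 22) (nat_lit 4) (nat_lit 502) (nat_lit 333) (nat_lit 305)) (XT.nd (nat_lit 78) (nat_lit 76) (nat_lit 0) (XT.lf (nat_lit 0) (nat_lit 2116689260) (nat_lit 228) (nat_lit 7317849627) (nat_lit 76) (nat_lit 6561537765) (nat_lit 19) (nat_lit 5) (nat_lit 22) (nat_lit 5) (nat_lit 20) (nat_lit 4) (nat_lit 503) (nat_lit 333) (nat_lit 304)) (XT.lf (nat_lit 0) (nat_lit 1906052325)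 (nat_lit 76) (nat_lit 4921975970) (nat_lit 152) (nat_lit 9383571793) (nat_lit 18) (nat_lit 5) (nat_lit 19) (nat_lit 5) (nat_lit 20) (nat_lit 4) (nat_lit 504) (nat_lit 333) (nat_lit 303))))))) (XT.nd (nat_lit 57330) (nat_lit 0) (nat_lit 2204) (XT.nd (nat_lit 56862) (nat_lit 0) (nat_lit 4180) (XT.nd (nat_lit 156) (nat_lit 152) (nat_lit 0) (XT.nd (nat_lit 78) (nat_lit 152) (nat_lit 0) (XT.lf (nat_lit 0) (nat_lit 11315770482) (nat_lit 76) (nat_lit 312740933) (nat_lit 152) (nat_lit 4803030555) (nat_lit 18) (nat_lit 5) (nat_lit 19) (nat_lit 5) (nat_lit 20) (nat_lit 4) (nat_lit 505) (nat_lit 333) (nat_lit 302)) (XT.lf (nat_lit 0) (nat_lit 4187496656) (nat_lit 152) (nat_lit 12339785014) (nat_lit 152) (nat_lit 128561664) (nat_lit 16) (nat_lit 4) (nat_lit 18) (nat_lit 5) (nat_lit 18) (nat_lit 4) (nat_lit 506) (nat_lit 333) (nat_lit 301))) (XT.nd (nat_lit 78) (nat_lit 76) (nat_lit 0) (XT.lf (nat_lit 0) (nat_lit 4561839722) (nat_lit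 228) (nat_lit 3266996498) (nat_lit 76) (nat_lit 9055532231) (nat_lit 15) (nat_lit 5) (nat_lit 18) (nat_lit 5) (nat_lit 16) (nat_lit 4) (nat_lit 507) (nat_lit 333) (nat_lit 300)) (XT.nd (nat_lit 56550) (nat_lit 0) (nat_lit 5396) (XT.lf (nat_lit 0) (nat_lit 6102657287) (nat_lit 76) (nat_lit 3229002009) (nat_lit 152) (nat_lit 7786046985) (nat_lit 14) (nat_lit 5) (nat_lit 15) (nat_lit 5) (nat_lit 16) (nat_lit 4) (nat_lit 508) (nat_lit 333) (nat_lit 299)) (XT.lf (nat_lit 0) (nat_lit 1347081059) (nat_lit 304) (nat_lit 2841187858) (nat_lit 0) (nat_lit 1347081059) (nat_lit 85) (nat_lit 5) (nat_lit 89) (nat_lit 4) (nat_lit 85) (nat_lit 4) (nat_lit 472) (nat_lit 334) (nat_lit 334))))) (XT.nd (nat_lit 234) (nat_lit 608) (nat_lit 0) (XT.nd (nat_lit 78) (nat_lit 304) (nat_lit 0) (XT.lf (nat_lit 0) (nat_lit 2783286565) (nat_lit 304) (nat_lit 4525145501) (nat_lit 304) (nat_lit 3878183478) (nat_lit 81) (nat_lit 4) (nat_lit 85) (nat_lit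 5) (nat_lit 85) (nat_lit 4) (nat_lit 473) (nat_lit 334) (nat_lit 333)) (XT.nd (nat_lit 78) (nat_lit 0) (nat_lit 0) (XT.lf (nat_lit 0) (nat_lit 73590157) (nat_lit 228) (nat_lit 597117107) (nat_lit 304) (nat_lit 10634666271) (nat_lit 77) (nat_lit 5) (nat_lit 80) (nat_lit 5) (nat_lit 81) (nat_lit 4) (nat_lit 474) (nat_lit 334) (nat_lit 332)) (XT.lf (nat_lit 0) (nat_lit 5268946564) (nat_lit 304) (nat_lit 2753671510) (nat_lit 0) (nat_lit 3403183606) (nat_lit 77) (nat_lit 5) (nat_lit 81) (nat_lit 4) (nat_lit 77) (nat_lit 4) (nat_lit 475) (nat_lit 334) (nat_lit 331)))) (XT.nd (nat_lit 78) (nat_lit 304) (nat_lit 0) (XT.lf (nat_lit 0) (nat_lit 5855017868) (nat_lit 304) (nat_lit 4078798244) (nat_lit 304) (nat_lit 1615342380) (nat_lit 73) (nat_lit 4) (nat_lit 77) (nat_lit 5) (nat_lit 77) (nat_lit 4) (nat_lit 476) (nat_lit 334) (nat_lit 330)) (XT.nd (nat_lit 78) (nat_lit 0) (nat_lit 0) (XT.lf (nat_lit 0) (nat_lit 2904994003) (nat_lit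 228) (nat_lit 42740305) (nat_lit 304) (nat_lit 8727463216) (nat_lit 69) (nat_lit 5) (nat_lit 72) (nat_lit 5) (nat_lit 73) (nat_lit 4) (nat_lit 477) (nat_lit 334) (nat_lit 329)) (XT.lf (nat_lit 0) (nat_lit 7578522900) (nat_lit 304) (nat_lit 199404979) (nat_lit 0) (nat_lit 4025666955) (nat_lit 69) (nat_lit 5) (nat_lit 73) (nat_lit 4) (nat_lit 69) (nat_lit 4) (nat_lit 478) (nat_lit 334) (nat_lit 328)))))) (XT.nd (nat_lit 390) (nat_lit 912) (nat_lit 0) (XT.nd (nat_lit 156) (nat_lit 532) (nat_lit 0) (XT.nd (nat_lit 78) (nat_lit 228) (nat_lit 0) (XT.lf (nat_lit 0) (nat_lit 352686942) (nat_lit 304) (nat_lit 3392604178) (nat_lit 76) (nat_lit 8189430659) (nat_lit 65) (nat_lit 5) (nat_lit 69) (nat_lit 5) (nat_lit 66) (nat_lit 4) (nat_lit 479) (nat_lit 334) (nat_lit 327)) (XT.lf (nat_lit 0) (nat_lit 4938505477) (nat_lit 304) (nat_lit 6746727281) (nat_lit 0) (nat_lit 383230298) (nat_lit 62) (nat_lit 5) (nat_lit 66) (nat_lit 4) (nat_lit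 62) (nat_lit 4) (nat_lit 480) (nat_lit 334) (nat_lit 326))) (XT.nd (nat_lit 78) (nat_lit 304) (nat_lit 0) (XT.lf (nat_lit 0) (nat_lit 1941886162) (nat_lit 228) (nat_lit 7669351773) (nat_lit 228) (nat_lit 2593748951) (nat_lit 59) (nat_lit 4) (nat_lit 62) (nat_lit 5) (nat_lit 62) (nat_lit 4) (nat_lit 481) (nat_lit 334) (nat_lit 325)) (XT.nd (nat_lit 78) (nat_lit 228) (nat_lit 0) (XT.lf (nat_lit 0) (nat_lit 1987086664) (nat_lit 304) (nat_lit 1571812899) (nat_lit 76) (nat_lit 8785477472) (nat_lit 58) (nat_lit 5) (nat_lit 62) (nat_lit 5) (nat_lit 59) (nat_lit 4) (nat_lit 482) (nat_lit 334) (nat_lit 324)) (XT.lf (nat_lit 0) (nat_lit 6612515425) (nat_lit 304) (nat_lit 5227958358) (nat_lit 0) (nat_lit 645995181) (nat_lit 55) (nat_lit 5) (nat_lit 59) (nat_lit 4) (nat_lit 55) (nat_lit 4) (nat_lit 483) (nat_lit 334) (nat_lit 323))))) (XT.nd (nat_lit 234) (nat_lit 456) (nat_lit 0) (XT.nd (nat_lit 78) (nat_lit 228) (nat_lit 0) (XT.lf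 (nat_lit 0) (nat_lit 3569934679) (nat_lit 228) (nat_lit 7754411762) (nat_lit 228) (nat_lit 1307189204) (nat_lit 52) (nat_lit 4) (nat_lit 55) (nat_lit 5) (nat_lit 55) (nat_lit 4) (nat_lit 484) (nat_lit 334) (nat_lit 322)) (XT.nd (nat_lit 78) (nat_lit 152) (nat_lit 0) (XT.lf (nat_lit 0) (nat_lit 3278921772) (nat_lit 304) (nat_lit 295077355) (nat_lit 76) (nat_lit 9205640596) (nat_lit 51) (nat_lit 5) (nat_lit 55) (nat_lit 5) (nat_lit 52) (nat_lit 4) (nat_lit 485) (nat_lit 334) (nat_lit 321)) (XT.lf (nat_lit 0) (nat_lit 7937900842) (nat_lit 228) (nat_lit 4290587583) (nat_lit 0) (nat_lit 702081830) (nat_lit 49) (nat_lit 5) (nat_lit 52) (nat_lit 4) (nat_lit 49) (nat_lit 4) (nat_lit 486) (nat_lit 334) (nat_lit 320)))) (XT.nd (nat_lit 78) (nat_lit 228) (nat_lit 0) (XT.lf (nat_lit 0) (nat_lit 4602897270) (nat_lit 228) (nat_lit 8080836131) (nat_lit 228) (nat_lit 400922485) (nat_lit 46) (nat_lit 4) (nat_lit 49) (nat_lit 5) (nat_lit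 49) (nat_lit 4) (nat_lit 487) (nat_lit 334) (nat_lit 319)) (XT.nd (nat_lit 78) (nat_lit 0) (nat_lit 0) (XT.lf (nat_lit 0) (nat_lit 360720181) (nat_lit 152) (nat_lit 3835329680) (nat_lit 228) (nat_lit 9045835665) (nat_lit 43) (nat_lit 5) (nat_lit 45) (nat_lit 5) (nat_lit 46) (nat_lit 4) (nat_lit 488) (nat_lit 334) (nat_lit 318)) (XT.lf (nat_lit 0) (nat_lit 8878566441) (nat_lit 228) (nat_lit 4019761098) (nat_lit 0) (nat_lit 503909149) (nat_lit 43) (nat_lit 5) (nat_lit 46) (nat_lit 4) (nat_lit 43) (nat_lit 4) (nat_lit 489) (nat_lit 334) (nat_lit 317))))))))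
noncomputable def xc8 : XT := (XT.nd (nat_lit 57954) (nat_lit 0) (nat_lit 1748) (XT.nd (nat_lit 780) (nat_lit 836) (nat_lit 0) (XT.nd (nat_lit 390) (nat_lit 684) (nat_lit 0) (XT.nd (nat_lit 156) (nat_lit 228) (nat_lit 0) (XT.nd (nat_lit 78) (nat_lit 152) (nat_lit 0) (XT.lf (nat_lit 0) (nat_lit 84969432) (nat_lit 304) (nat_lit 8613293834) (nat_lit 76) (nat_lit 4867585138) (nat_lit 39) (nat_lit 5) (nat_lit 43) (nat_lit 5) (nat_lit 40) (nat_lit 4) (nat_lit 490) (nat_lit 334) (nat_lit 316)) (XT.lf (nat_lit 0) (nat_lit 294919222) (nat_lit 152) (nat_lit 4399180531) (nat_lit 228) (nat_lit 9038665627) (nat_lit 37) (nat_lit 5) (nat_lit 39) (nat_lit 5) (nat_lit 40) (nat_lit 4) (nat_lit 491) (nat_lit 334) (nat_lit 315))) (XT.nd (nat_lit 78) (nat_lit 228) (nat_lit 0) (XT.lf (nat_lit 0) (nat_lit 9393321000) (nat_lit 152) (nat_lit 157517) (nat_lit 228) (nat_lit 4509589538) (nat_lit 37) (nat_lit 5) (nat_lit 39) (nat_lit 5) (nat_lit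 40) (nat_lit 4) (nat_lit 492) (nat_lit 334) (nat_lit 314)) (XT.nd (nat_lit 78) (nat_lit 0) (nat_lit 0) (XT.lf (nat_lit 0) (nat_lit 108266136) (nat_lit 228) (nat_lit 9553965844) (nat_lit 76) (nat_lit 4414546020) (nat_lit 34) (nat_lit 5) (nat_lit 37) (nat_lit 5) (nat_lit 35) (nat_lit 4) (nat_lit 493) (nat_lit 334) (nat_lit 313)) (XT.lf (nat_lit 0) (nat_lit 4729858267) (nat_lit 228) (nat_lit 589948261) (nat_lit 76) (nat_lit 8934132368) (nat_lit 34) (nat_lit 5) (nat_lit 37) (nat_lit 5) (nat_lit 35) (nat_lit 4) (nat_lit 494) (nat_lit 334) (nat_lit 312))))) (XT.nd (nat_lit 156) (nat_lit 380) (nat_lit 0) (XT.nd (nat_lit 78) (nat_lit 152) (nat_lit 0) (XT.lf (nat_lit 0) (nat_lit 8564022838) (nat_lit 152) (nat_lit 877856903) (nat_lit 228) (nat_lit 4992811338) (nat_lit 32) (nat_lit 5) (nat_lit 34) (nat_lit 5) (nat_lit 35) (nat_lit 4) (nat_lit 495) (nat_lit 334) (nat_lit 311)) (XT.lf (nat_lit 0) (nat_lit 3206559628) (nat_lit 152)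 (nat_lit 11032686895) (nat_lit 152) (nat_lit 379997543) (nat_lit 30) (nat_lit 4) (nat_lit 32) (nat_lit 5) (nat_lit 32) (nat_lit 4) (nat_lit 496) (nat_lit 334) (nat_lit 310))) (XT.nd (nat_lit 78) (nat_lit 304) (nat_lit 0) (XT.lf (nat_lit 0) (nat_lit 4256485840) (nat_lit 228) (nat_lit 2397887551) (nat_lit 76) (nat_lit 8152797903) (nat_lit 29) (nat_lit 5) (nat_lit 32) (nat_lit 5) (nat_lit 30) (nat_lit 4) (nat_lit 497) (nat_lit 334) (nat_lit 309)) (XT.nd (nat_lit 78) (nat_lit 152) (nat_lit 0) (XT.lf (nat_lit 0) (nat_lit 6783715149) (nat_lit 152) (nat_lit 2184736498) (nat_lit 228) (nat_lit 6030605771) (nat_lit 27) (nat_lit 5) (nat_lit 29) (nat_lit 5) (nat_lit 30) (nat_lit 4) (nat_lit 498) (nat_lit 334) (nat_lit 308)) (XT.lf (nat_lit 0) (nat_lit 882926825) (nat_lit 152) (nat_lit 12873042253) (nat_lit 152) (nat_lit 1439193200) (nat_lit 25) (nat_lit 4) (nat_lit 27) (nat_lit 5) (nat_lit 27) (nat_lit 4) (nat_lit 499) (nat_lit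 334) (nat_lit 307)))))) (XT.nd (nat_lit 390) (nat_lit 380) (nat_lit 0) (XT.nd (nat_lit 156) (nat_lit 228) (nat_lit 0) (XT.nd (nat_lit 78) (nat_lit 152) (nat_lit 0) (XT.lf (nat_lit 0) (nat_lit 3215508578) (nat_lit 228) (nat_lit 5255677486) (nat_lit 76) (nat_lit 6923308758) (nat_lit 24) (nat_lit 5) (nat_lit 27) (nat_lit 5) (nat_lit 25) (nat_lit 4) (nat_lit 500) (nat_lit 334) (nat_lit 306)) (XT.lf (nat_lit 0) (nat_lit 3925714855) (nat_lit 152) (nat_lit 3988966674) (nat_lit 228) (nat_lit 7683536108) (nat_lit 22) (nat_lit 5) (nat_lit 24) (nat_lit 5) (nat_lit 25) (nat_lit 4) (nat_lit 501) (nat_lit 334) (nat_lit 305))) (XT.nd (nat_lit 78) (nat_lit 228) (nat_lit 0) (XT.lf (nat_lit 0) (nat_lit 12692427518) (nat_lit 228) (nat_lit 2545770917) (nat_lit 0) (nat_lit 568131389) (nat_lit 22) (nat_lit 5) (nat_lit 25) (nat_lit 4) (nat_lit 22) (nat_lit 4) (nat_lit 502) (nat_lit 334) (nat_lit 304)) (XT.nd (nat_lit 78) (nat_lit 0) (nat_lit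 0) (XT.lf (nat_lit 0) (nat_lit 1543416672) (nat_lit 228) (nat_lit 9299597351) (nat_lit 76) (nat_lit 5175064117) (nat_lit 19) (nat_lit 5) (nat_lit 22) (nat_lit 5) (nat_lit 20) (nat_lit 4) (nat_lit 503) (nat_lit 334) (nat_lit 303)) (XT.lf (nat_lit 0) (nat_lit 6215868487) (nat_lit 228) (nat_lit 148502428) (nat_lit 76) (nat_lit 9870011535) (nat_lit 19) (nat_lit 5) (nat_lit 22) (nat_lit 5) (nat_lit 20) (nat_lit 4) (nat_lit 504) (nat_lit 334) (nat_lit 302))))) (XT.nd (nat_lit 234) (nat_lit 76) (nat_lit 0) (XT.nd (nat_lit 78) (nat_lit 228) (nat_lit 0) (XT.lf (nat_lit 0) (nat_lit 9211747930) (nat_lit 76) (nat_lit 1777326298) (nat_lit 152) (nat_lit 5465798717) (nat_lit 18) (nat_lit 5) (nat_lit 19) (nat_lit 5) (nat_lit 20) (nat_lit 4) (nat_lit 505) (nat_lit 334) (nat_lit 301)) (XT.nd (nat_lit 78) (nat_lit 76) (nat_lit 0) (XT.lf (nat_lit 0) (nat_lit 1993936437) (nat_lit 152) (nat_lit 13844237339) (nat_lit 152) (nat_lit 841996957)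 (nat_lit 16) (nat_lit 4) (nat_lit 18) (nat_lit 5) (nat_lit 18) (nat_lit 4) (nat_lit 506) (nat_lit 334) (nat_lit 300)) (XT.lf (nat_lit 0) (nat_lit 3831873881) (nat_lit 228) (nat_lit 5527236894) (nat_lit 76) (nat_lit 7550198355) (nat_lit 15) (nat_lit 5) (nat_lit 18) (nat_lit 5) (nat_lit 16) (nat_lit 4) (nat_lit 507) (nat_lit 334) (nat_lit 299)))) (XT.nd (nat_lit 56394) (nat_lit 0) (nat_lit 5700) (XT.lf (nat_lit 0) (nat_lit 3765703724) (nat_lit 76) (nat_lit 4795436893) (nat_lit 152) (nat_lit 8582320234) (nat_lit 14) (nat_lit 5) (nat_lit 15) (nat_lit 5) (nat_lit 16) (nat_lit 4) (nat_lit 508) (nat_lit 334) (nat_lit 298)) (XT.nd (nat_lit 78) (nat_lit 304) (nat_lit 0) (XT.lf (nat_lit 0) (nat_lit 2574260828) (nat_lit 380) (nat_lit 274119788) (nat_lit 0) (nat_lit 2574260828) (nat_lit 93) (nat_lit 5) (nat_lit 98) (nat_lit 4) (nat_lit 93) (nat_lit 4) (nat_lit 470) (nat_lit 335) (nat_lit 335)) (XT.lf (nat_lit 0) (nat_lit 7878168708)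 (nat_lit 304) (nat_lit 1876097812) (nat_lit 304) (nat_lit 1202998523) (nat_lit 89) (nat_lit 4) (nat_lit 93) (nat_lit 5) (nat_lit 93) (nat_lit 4) (nat_lit 471) (nat_lit 335) (nat_lit 334))))))) (XT.nd (nat_lit 780) (nat_lit 1672) (nat_lit 0) (XT.nd (nat_lit 390) (nat_lit 1064) (nat_lit 0) (XT.nd (nat_lit 156) (nat_lit 608) (nat_lit 0) (XT.nd (nat_lit 78) (nat_lit 304) (nat_lit 0) (XT.lf (nat_lit 0) (nat_lit 3319838270) (nat_lit 304) (nat_lit 5738578391) (nat_lit 0) (nat_lit 2012974982) (nat_lit 85) (nat_lit 5) (nat_lit 89) (nat_lit 4) (nat_lit 85) (nat_lit 4) (nat_lit 472) (nat_lit 335) (nat_lit 333)) (XT.lf (nat_lit 0) (nat_lit 2670504067) (nat_lit 304) (nat_lit 5229317861) (nat_lit 304) (nat_lit 3288178080) (nat_lit 81) (nat_lit 4) (nat_lit 85) (nat_lit 5) (nat_lit 85) (nat_lit 4) (nat_lit 473) (nat_lit 335) (nat_lit 332))) (XT.nd (nat_lit 78) (nat_lit 532) (nat_lit 0) (XT.lf (nat_lit 0) (nat_lit 1219018306) (nat_lit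 380) (nat_lit 100562501) (nat_lit 76) (nat_lit 9987786478) (nat_lit 80) (nat_lit 5) (nat_lit 85) (nat_lit 5) (nat_lit 81) (nat_lit 4) (nat_lit 474) (nat_lit 335) (nat_lit 331)) (XT.nd (nat_lit 78) (nat_lit 304) (nat_lit 0) (XT.lf (nat_lit 0) (nat_lit 5778582294) (nat_lit 304) (nat_lit 2981828876) (nat_lit 0) (nat_lit 2668164407) (nat_lit 77) (nat_lit 5) (nat_lit 81) (nat_lit 4) (nat_lit 77) (nat_lit 4) (nat_lit 475) (nat_lit 335) (nat_lit 330)) (XT.lf (nat_lit 0) (nat_lit 5568836202) (nat_lit 304) (nat_lit 4840092246) (nat_lit 304) (nat_lit 1143700921) (nat_lit 73) (nat_lit 4) (nat_lit 77) (nat_lit 5) (nat_lit 77) (nat_lit 4) (nat_lit 476) (nat_lit 335) (nat_lit 329))))) (XT.nd (nat_lit 156) (nat_lit 760) (nat_lit 0) (XT.nd (nat_lit 78) (nat_lit 0) (nat_lit 0) (XT.lf (nat_lit 0) (nat_lit 2553313532) (nat_lit 228) (nat_lit 824997665) (nat_lit 304) (nat_lit 8300999796) (nat_lit 69) (nat_lit 5) (nat_lit 72) (nat_lit 5)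 (nat_lit 73) (nat_lit 4) (nat_lit 477) (nat_lit 335) (nat_lit 328)) (XT.lf (nat_lit 0) (nat_lit 7971573024) (nat_lit 304) (nat_lit 604627221) (nat_lit 0) (nat_lit 3232264728) (nat_lit 69) (nat_lit 5) (nat_lit 73) (nat_lit 4) (nat_lit 69) (nat_lit 4) (nat_lit 478) (nat_lit 335) (nat_lit 327))) (XT.nd (nat_lit 78) (nat_lit 456) (nat_lit 0) (XT.lf (nat_lit 0) (nat_lit 700710181) (nat_lit 304) (nat_lit 3865222609) (nat_lit 76) (nat_lit 7374315932) (nat_lit 65) (nat_lit 5) (nat_lit 69) (nat_lit 5) (nat_lit 66) (nat_lit 4) (nat_lit 479) (nat_lit 335) (nat_lit 326)) (XT.nd (nat_lit 78) (nat_lit 228) (nat_lit 0) (XT.lf (nat_lit 0) (nat_lit 4791182407) (nat_lit 228) (nat_lit 457616493) (nat_lit 304) (nat_lit 6825951477) (nat_lit 62) (nat_lit 5) (nat_lit 65) (nat_lit 5) (nat_lit 66) (nat_lit 4) (nat_lit 480) (nat_lit 335) (nat_lit 325)) (XT.lf (nat_lit 0) (nat_lit 1346551973) (nat_lit 228) (nat_lit 8536532254) (nat_lit 228) (nat_lit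 2328964591) (nat_lit 59) (nat_lit 4) (nat_lit 62) (nat_lit 5) (nat_lit 62) (nat_lit 4) (nat_lit 481) (nat_lit 335) (nat_lit 324)))))) (XT.nd (nat_lit 390) (nat_lit 912) (nat_lit 0) (XT.nd (nat_lit 156) (nat_lit 456) (nat_lit 0) (XT.nd (nat_lit 78) (nat_lit 228) (nat_lit 0) (XT.lf (nat_lit 0) (nat_lit 2216848372) (nat_lit 304) (nat_lit 2229656635) (nat_lit 76) (nat_lit 7905536023) (nat_lit 58) (nat_lit 5) (nat_lit 62) (nat_lit 5) (nat_lit 59) (nat_lit 4) (nat_lit 482) (nat_lit 335) (nat_lit 323)) (XT.lf (nat_lit 0) (nat_lit 6542884457) (nat_lit 228) (nat_lit 259536911) (nat_lit 304) (nat_lit 5692514047) (nat_lit 55) (nat_lit 5) (nat_lit 58) (nat_lit 5) (nat_lit 59) (nat_lit 4) (nat_lit 483) (nat_lit 335) (nat_lit 322))) (XT.nd (nat_lit 78) (nat_lit 228) (nat_lit 0) (XT.lf (nat_lit 0) (nat_lit 2784418693) (nat_lit 228) (nat_lit 8692243275) (nat_lit 228) (nat_lit 1164097175) (nat_lit 52) (nat_lit 4) (nat_lit 55) (nat_lit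 5) (nat_lit 55) (nat_lit 4) (nat_lit 484) (nat_lit 335) (nat_lit 321)) (XT.nd (nat_lit 78) (nat_lit 152) (nat_lit 0) (XT.lf (nat_lit 0) (nat_lit 3389387979) (nat_lit 304) (nat_lit 1143618437) (nat_lit 76) (nat_lit 8256458238) (nat_lit 51) (nat_lit 5) (nat_lit 55) (nat_lit 5) (nat_lit 52) (nat_lit 4) (nat_lit 485) (nat_lit 335) (nat_lit 320)) (XT.lf (nat_lit 0) (nat_lit 7732351560) (nat_lit 152) (nat_lit 275326777) (nat_lit 228) (nat_lit 4933535558) (nat_lit 49) (nat_lit 5) (nat_lit 51) (nat_lit 5) (nat_lit 52) (nat_lit 4) (nat_lit 486) (nat_lit 335) (nat_lit 319))))) (XT.nd (nat_lit 234) (nat_lit 456) (nat_lit 0) (XT.nd (nat_lit 78) (nat_lit 228) (nat_lit 0) (XT.lf (nat_lit 0) (nat_lit 3621582847) (nat_lit 228) (nat_lit 9093739369) (nat_lit 228) (nat_lit 380745922) (nat_lit 46) (nat_lit 4) (nat_lit 49) (nat_lit 5) (nat_lit 49) (nat_lit 4) (nat_lit 487) (nat_lit 335) (nat_lit 318)) (XT.nd (nat_lit 78) (nat_lit 152) (nat_lit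 0) (XT.lf (nat_lit 0) (nat_lit 4183641864) (nat_lit 304) (nat_lit 688886778) (nat_lit 76) (nat_lit 8381417565) (nat_lit 45) (nat_lit 5) (nat_lit 49) (nat_lit 5) (nat_lit 46) (nat_lit 4) (nat_lit 488) (nat_lit 335) (nat_lit 317)) (XT.lf (nat_lit 0) (nat_lit 8275419033) (nat_lit 152) (nat_lit 553166446) (nat_lit 228) (nat_lit 4586467908) (nat_lit 43) (nat_lit 5) (nat_lit 45) (nat_lit 5) (nat_lit 46) (nat_lit 4) (nat_lit 489) (nat_lit 335) (nat_lit 316)))) (XT.nd (nat_lit 78) (nat_lit 228) (nat_lit 0) (XT.lf (nat_lit 0) (nat_lit 3770218506) (nat_lit 228) (nat_lit 9791204524) (nat_lit 228) (nat_lit 18068806) (nat_lit 40) (nat_lit 4) (nat_lit 43) (nat_lit 5) (nat_lit 43) (nat_lit 4) (nat_lit 490) (nat_lit 335) (nat_lit 315)) (XT.nd (nat_lit 78) (nat_lit 152) (nat_lit 0) (XT.lf (nat_lit 0) (nat_lit 4560149067) (nat_lit 304) (nat_lit 955977926) (nat_lit 76) (nat_lit 8230911449) (nat_lit 39) (nat_lit 5) (nat_lit 43) (nat_lit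 5) (nat_lit 40) (nat_lit 4) (nat_lit 491) (nat_lit 335) (nat_lit 314)) (XT.lf (nat_lit 0) (nat_lit 8078888984) (nat_lit 152) (nat_lit 1145358109) (nat_lit 228) (nat_lit 4693803851) (nat_lit 37) (nat_lit 5) (nat_lit 39) (nat_lit 5) (nat_lit 40) (nat_lit 4) (nat_lit 492) (nat_lit 335) (nat_lit 313))))))))
noncomputable def xc9 : XT := (XT.nd (nat_lit 57876) (nat_lit 0) (nat_lit 1292) (XT.nd (nat_lit 780) (nat_lit 532) (nat_lit 0) (XT.nd (nat_lit 390) (nat_lit 532) (nat_lit 0) (XT.nd (nat_lit 156) (nat_lit 380) (nat_lit 0) (XT.nd (nat_lit 78) (nat_lit 76) (nat_lit 0) (XT.lf (nat_lit 0) (nat_lit 3133055415) (nat_lit 152) (nat_lit 10839185040) (nat_lit 152) (nat_lit 120439315) (nat_lit 35) (nat_lit 4) (nat_lit 37) (nat_lit 5) (nat_lit 37) (nat_lit 4) (nat_lit 493) (nat_lit 335) (nat_lit 312)) (XT.lf (nat_lit 0) (nat_lit 4474214668) (nat_lit 228) (nat_lit 2045144372) (nat_lit 76) (nat_lit 7751071589) (nat_lit 34) (nat_lit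 5) (nat_lit 37) (nat_lit 5) (nat_lit 35) (nat_lit 4) (nat_lit 494) (nat_lit 335) (nat_lit 311))) (XT.nd (nat_lit 78) (nat_lit 228) (nat_lit 0) (XT.lf (nat_lit 0) (nat_lit 7039499415) (nat_lit 152) (nat_lit 2108879949) (nat_lit 228) (nat_lit 5303564473) (nat_lit 32) (nat_lit 5) (nat_lit 34) (nat_lit 5) (nat_lit 35) (nat_lit 4) (nat_lit 495) (nat_lit 335) (nat_lit 310)) (XT.nd (nat_lit 78) (nat_lit 76) (nat_lit 0) (XT.lf (nat_lit 0) (nat_lit 1602307432) (nat_lit 152) (nat_lit 12297163517) (nat_lit 152) (nat_lit 737955193) (nat_lit 30) (nat_lit 4) (nat_lit 32) (nat_lit 5) (nat_lit 32) (nat_lit 4) (nat_lit 496) (nat_lit 335) (nat_lit 309)) (XT.lf (nat_lit 0) (nat_lit 3875397021) (nat_lit 228) (nat_lit 4067474570) (nat_lit 76) (nat_lit 6883088444) (nat_lit 29) (nat_lit 5) (nat_lit 32) (nat_lit 5) (nat_lit 30) (nat_lit 4) (nat_lit 497) (nat_lit 335) (nat_lit 308))))) (XT.nd (nat_lit 156) (nat_lit 380) (nat_lit 0) (XT.nd (nat_lit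 78) (nat_lit 0) (nat_lit 0) (XT.lf (nat_lit 0) (nat_lit 5042788856) (nat_lit 152) (nat_lit 3505990482) (nat_lit 228) (nat_lit 6469842086) (nat_lit 27) (nat_lit 5) (nat_lit 29) (nat_lit 5) (nat_lit 30) (nat_lit 4) (nat_lit 498) (nat_lit 335) (nat_lit 307)) (XT.lf (nat_lit 0) (nat_lit 13294790379) (nat_lit 228) (nat_lit 929159851) (nat_lit 0) (nat_lit 991609707) (nat_lit 27) (nat_lit 5) (nat_lit 30) (nat_lit 4) (nat_lit 27) (nat_lit 4) (nat_lit 499) (nat_lit 335) (nat_lit 306))) (XT.nd (nat_lit 78) (nat_lit 152) (nat_lit 0) (XT.lf (nat_lit 0) (nat_lit 2706937168) (nat_lit 228) (nat_lit 7146104612) (nat_lit 76) (nat_lit 5562582841) (nat_lit 24) (nat_lit 5) (nat_lit 27) (nat_lit 5) (nat_lit 25) (nat_lit 4) (nat_lit 500) (nat_lit 335) (nat_lit 305)) (XT.nd (nat_lit 78) (nat_lit 0) (nat_lit 0) (XT.lf (nat_lit 0) (nat_lit 1961845261) (nat_lit 152) (nat_lit 5404888981) (nat_lit 228) (nat_lit 8253404033) (nat_lit 22) (nat_lit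 5) (nat_lit 24) (nat_lit 5) (nat_lit 25) (nat_lit 4) (nat_lit 501) (nat_lit 335) (nat_lit 304)) (XT.lf (nat_lit 0) (nat_lit 11253129533) (nat_lit 152) (nat_lit 861202347) (nat_lit 228) (nat_lit 3714524805) (nat_lit 22) (nat_lit 5) (nat_lit 24) (nat_lit 5) (nat_lit 25) (nat_lit 4) (nat_lit 502) (nat_lit 335) (nat_lit 303)))))) (XT.nd (nat_lit 56628) (nat_lit 0) (nat_lit 5016) (XT.nd (nat_lit 156) (nat_lit 304) (nat_lit 0) (XT.nd (nat_lit 78) (nat_lit 0) (nat_lit 0) (XT.lf (nat_lit 0) (nat_lit 905124666) (nat_lit 228) (nat_lit 11417553827) (nat_lit 76) (nat_lit 3718918564) (nat_lit 19) (nat_lit 5) (nat_lit 22) (nat_lit 5) (nat_lit 20) (nat_lit 4) (nat_lit 503) (nat_lit 335) (nat_lit 302)) (XT.lf (nat_lit 0) (nat_lit 5551584458) (nat_lit 228) (nat_lit 2313330286) (nat_lit 76) (nat_lit 8393509531) (nat_lit 19) (nat_lit 5) (nat_lit 22) (nat_lit 5) (nat_lit 20) (nat_lit 4) (nat_lit 504) (nat_lit 335) (nat_lit 301))) (XT.nd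 (nat_lit 78) (nat_lit 228) (nat_lit 0) (XT.lf (nat_lit 0) (nat_lit 6971587630) (nat_lit 76) (nat_lit 3313175587) (nat_lit 152) (nat_lit 6194955103) (nat_lit 18) (nat_lit 5) (nat_lit 19) (nat_lit 5) (nat_lit 20) (nat_lit 4) (nat_lit 505) (nat_lit 335) (nat_lit 300)) (XT.nd (nat_lit 78) (nat_lit 228) (nat_lit 0) (XT.lf (nat_lit 0) (nat_lit 15085533681) (nat_lit 152) (nat_lit 333274606) (nat_lit 0) (nat_lit 1287177350) (nat_lit 18) (nat_lit 5) (nat_lit 20) (nat_lit 4) (nat_lit 18) (nat_lit 4) (nat_lit 506) (nat_lit 335) (nat_lit 299)) (XT.lf (nat_lit 0) (nat_lit 3036041558) (nat_lit 228) (nat_lit 7925730573) (nat_lit 76) (nat_lit 5974007561) (nat_lit 15) (nat_lit 5) (nat_lit 18) (nat_lit 5) (nat_lit 16) (nat_lit 4) (nat_lit 507) (nat_lit 335) (nat_lit 298))))) (XT.nd (nat_lit 234) (nat_lit 912) (nat_lit 0) (XT.nd (nat_lit 78) (nat_lit 380) (nat_lit 0) (XT.lf (nat_lit 0) (nat_lit 2160356050) (nat_lit 304) (nat_lit 1576718625)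 (nat_lit 304) (nat_lit 1576718625) (nat_lit 98) (nat_lit 4) (nat_lit 102) (nat_lit 5) (nat_lit 102) (nat_lit 4) (nat_lit 468) (nat_lit 336) (nat_lit 336)) (XT.nd (nat_lit 78) (nat_lit 0) (nat_lit 0) (XT.lf (nat_lit 0) (nat_lit 1302849257) (nat_lit 380) (nat_lit 8816709986) (nat_lit 0) (nat_lit 616287982) (nat_lit 93) (nat_lit 5) (nat_lit 98) (nat_lit 4) (nat_lit 93) (nat_lit 4) (nat_lit 469) (nat_lit 336) (nat_lit 335)) (XT.lf (nat_lit 0) (nat_lit 5801279080) (nat_lit 380) (nat_lit 603068849) (nat_lit 0) (nat_lit 4441618516) (nat_lit 93) (nat_lit 5) (nat_lit 98) (nat_lit 4) (nat_lit 93) (nat_lit 4) (nat_lit 470) (nat_lit 336) (nat_lit 334)))) (XT.nd (nat_lit 78) (nat_lit 608) (nat_lit 0) (XT.lf (nat_lit 0) (nat_lit 7768142229) (nat_lit 304) (nat_lit 2605026319) (nat_lit 304) (nat_lit 585464491) (nat_lit 89) (nat_lit 4) (nat_lit 93) (nat_lit 5) (nat_lit 93) (nat_lit 4) (nat_lit 471) (nat_lit 336) (nat_lit 333)) (XT.nd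 (nat_lit 78) (nat_lit 304) (nat_lit 0) (XT.lf (nat_lit 0) (nat_lit 3890248801) (nat_lit 304) (nat_lit 5907208454) (nat_lit 0) (nat_lit 1276009731) (nat_lit 85) (nat_lit 5) (nat_lit 89) (nat_lit 4) (nat_lit 85) (nat_lit 4) (nat_lit 472) (nat_lit 336) (nat_lit 332)) (XT.lf (nat_lit 0) (nat_lit 2444894842) (nat_lit 304) (nat_lit 5990976704) (nat_lit 304) (nat_lit 2754897933) (nat_lit 81) (nat_lit 4) (nat_lit 85) (nat_lit 5) (nat_lit 85) (nat_lit 4) (nat_lit 473) (nat_lit 336) (nat_lit 331))))))) (XT.nd (nat_lit 858) (nat_lit 1520) (nat_lit 0) (XT.nd (nat_lit 390) (nat_lit 1292) (nat_lit 0) (XT.nd (nat_lit 156) (nat_lit 608) (nat_lit 0) (XT.nd (nat_lit 78) (nat_lit 228) (nat_lit 0) (XT.lf (nat_lit 0) (nat_lit 1712482297) (nat_lit 380) (nat_lit 386511294) (nat_lit 76) (nat_lit 9211737000) (nat_lit 80) (nat_lit 5) (nat_lit 85) (nat_lit 5) (nat_lit 81) (nat_lit 4) (nat_lit 474) (nat_lit 336) (nat_lit 330)) (XT.lf (nat_lit 0)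 (nat_lit 6232426805) (nat_lit 304) (nat_lit 3324176761) (nat_lit 0) (nat_lit 1876134216) (nat_lit 77) (nat_lit 5) (nat_lit 81) (nat_lit 4) (nat_lit 77) (nat_lit 4) (nat_lit 475) (nat_lit 336) (nat_lit 329))) (XT.nd (nat_lit 78) (nat_lit 304) (nat_lit 0) (XT.lf (nat_lit 0) (nat_lit 5168024762) (nat_lit 304) (nat_lit 5660121045) (nat_lit 304) (nat_lit 729344694) (nat_lit 73) (nat_lit 4) (nat_lit 77) (nat_lit 5) (nat_lit 77) (nat_lit 4) (nat_lit 476) (nat_lit 336) (nat_lit 328)) (XT.nd (nat_lit 78) (nat_lit 0) (nat_lit 0) (XT.lf (nat_lit 0) (nat_lit 2085527979) (nat_lit 228) (nat_lit 1666711478) (nat_lit 304) (nat_lit 7932584870) (nat_lit 69) (nat_lit 5) (nat_lit 72) (nat_lit 5) (nat_lit 73) (nat_lit 4) (nat_lit 477) (nat_lit 336) (nat_lit 327)) (XT.lf (nat_lit 0) (nat_lit 8308224721) (nat_lit 304) (nat_lit 1125899612) (nat_lit 0) (nat_lit 2380605521) (nat_lit 69) (nat_lit 5) (nat_lit 73) (nat_lit 4) (nat_lit 69) (nat_lit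 4) (nat_lit 478) (nat_lit 336) (nat_lit 326))))) (XT.nd (nat_lit 234) (nat_lit 532) (nat_lit 0) (XT.nd (nat_lit 78) (nat_lit 456) (nat_lit 0) (XT.lf (nat_lit 0) (nat_lit 991564618) (nat_lit 304) (nat_lit 4455392866) (nat_lit 76) (nat_lit 6500222984) (nat_lit 65) (nat_lit 5) (nat_lit 69) (nat_lit 5) (nat_lit 66) (nat_lit 4) (nat_lit 479) (nat_lit 336) (nat_lit 325)) (XT.nd (nat_lit 78) (nat_lit 228) (nat_lit 0) (XT.lf (nat_lit 0) (nat_lit 4140006585) (nat_lit 228) (nat_lit 1364294218) (nat_lit 304) (nat_lit 6578094039) (nat_lit 62) (nat_lit 5) (nat_lit 65) (nat_lit 5) (nat_lit 66) (nat_lit 4) (nat_lit 480) (nat_lit 336) (nat_lit 324)) (XT.lf (nat_lit 0) (nat_lit 631637567) (nat_lit 228) (nat_lit 9465429251) (nat_lit 228) (nat_lit 2123462408) (nat_lit 59) (nat_lit 4) (nat_lit 62) (nat_lit 5) (nat_lit 62) (nat_lit 4) (nat_lit 481) (nat_lit 336) (nat_lit 323)))) (XT.nd (nat_lit 78) (nat_lit 456) (nat_lit 0) (XT.lf (nat_lit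 0) (nat_lit 2388724027) (nat_lit 304) (nat_lit 3007060667) (nat_lit 76) (nat_lit 6965334028) (nat_lit 58) (nat_lit 5) (nat_lit 62) (nat_lit 5) (nat_lit 59) (nat_lit 4) (nat_lit 482) (nat_lit 336) (nat_lit 322)) (XT.nd (nat_lit 78) (nat_lit 228) (nat_lit 0) (XT.lf (nat_lit 0) (nat_lit 5702820720) (nat_lit 228) (nat_lit 1235697218) (nat_lit 304) (nat_lit 5566215987) (nat_lit 55) (nat_lit 5) (nat_lit 58) (nat_lit 5) (nat_lit 59) (nat_lit 4) (nat_lit 483) (nat_lit 336) (nat_lit 321)) (XT.lf (nat_lit 0) (nat_lit 1877225455) (nat_lit 228) (nat_lit 9693103885) (nat_lit 228) (nat_lit 1081082029) (nat_lit 52) (nat_lit 4) (nat_lit 55) (nat_lit 5) (nat_lit 55) (nat_lit 4) (nat_lit 484) (nat_lit 336) (nat_lit 320)))))) (XT.nd (nat_lit 390) (nat_lit 836) (nat_lit 0) (XT.nd (nat_lit 156) (nat_lit 456) (nat_lit 0) (XT.nd (nat_lit 78) (nat_lit 152) (nat_lit 0) (XT.lf (nat_lit 0) (nat_lit 3441168147) (nat_lit 304) (nat_lit 2113838725)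 (nat_lit 76) (nat_lit 7245707089) (nat_lit 51) (nat_lit 5) (nat_lit 55) (nat_lit 5) (nat_lit 52) (nat_lit 4) (nat_lit 485) (nat_lit 336) (nat_lit 319)) (XT.lf (nat_lit 0) (nat_lit 6697742747) (nat_lit 152) (nat_lit 1325443273) (nat_lit 228) (nat_lit 4930007467) (nat_lit 49) (nat_lit 5) (nat_lit 51) (nat_lit 5) (nat_lit 52) (nat_lit 4) (nat_lit 486) (nat_lit 336) (nat_lit 318))) (XT.nd (nat_lit 78) (nat_lit 228) (nat_lit 0) (XT.lf (nat_lit 0) (nat_lit 2516379158) (nat_lit 228) (nat_lit 10171016059) (nat_lit 228) (nat_lit 421525950) (nat_lit 46) (nat_lit 4) (nat_lit 49) (nat_lit 5) (nat_lit 49) (nat_lit 4) (nat_lit 487) (nat_lit 336) (nat_lit 317)) (XT.nd (nat_lit 78) (nat_lit 152) (nat_lit 0) (XT.lf (nat_lit 0) (nat_lit 4114006567) (nat_lit 304) (nat_lit 1857677134) (nat_lit 76) (nat_lit 7295713192) (nat_lit 45) (nat_lit 5) (nat_lit 49) (nat_lit 5) (nat_lit 46) (nat_lit 4) (nat_lit 488) (nat_lit 336) (nat_lit 316)) (XT.lf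 (nat_lit 0) (nat_lit 7040433177) (nat_lit 152) (nat_lit 1681684829) (nat_lit 228) (nat_lit 4707127179) (nat_lit 43) (nat_lit 5) (nat_lit 45) (nat_lit 5) (nat_lit 46) (nat_lit 4) (nat_lit 489) (nat_lit 336) (nat_lit 315))))) (XT.nd (nat_lit 234) (nat_lit 380) (nat_lit 0) (XT.nd (nat_lit 78) (nat_lit 228) (nat_lit 0) (XT.lf (nat_lit 0) (nat_lit 2461090161) (nat_lit 228) (nat_lit 10949330253) (nat_lit 228) (nat_lit 184158304) (nat_lit 40) (nat_lit 4) (nat_lit 43) (nat_lit 5) (nat_lit 43) (nat_lit 4) (nat_lit 490) (nat_lit 336) (nat_lit 314)) (XT.nd (nat_lit 78) (nat_lit 152) (nat_lit 0) (XT.lf (nat_lit 0) (nat_lit 4367576479) (nat_lit 304) (nat_lit 2329278564) (nat_lit 76) (nat_lit 7065869289) (nat_lit 39) (nat_lit 5) (nat_lit 43) (nat_lit 5) (nat_lit 40) (nat_lit 4) (nat_lit 491) (nat_lit 336) (nat_lit 313)) (XT.lf (nat_lit 0) (nat_lit 6637504156) (nat_lit 152) (nat_lit 2356712527) (nat_lit 228) (nat_lit 4940273435) (nat_lit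 37) (nat_lit 5) (nat_lit 39) (nat_lit 5) (nat_lit 40) (nat_lit 4) (nat_lit 492) (nat_lit 336) (nat_lit 312)))) (XT.nd (nat_lit 78) (nat_lit 228) (nat_lit 0) (XT.lf (nat_lit 0) (nat_lit 1613890518) (nat_lit 152) (nat_lit 12082589259) (nat_lit 152) (nat_lit 413557819) (nat_lit 35) (nat_lit 4) (nat_lit 37) (nat_lit 5) (nat_lit 37) (nat_lit 4) (nat_lit 493) (nat_lit 336) (nat_lit 311)) (XT.nd (nat_lit 78) (nat_lit 152) (nat_lit 0) (XT.lf (nat_lit 0) (nat_lit 4156981906) (nat_lit 228) (nat_lit 3629096889) (nat_lit 76) (nat_lit 6502310786) (nat_lit 34) (nat_lit 5) (nat_lit 37) (nat_lit 5) (nat_lit 35) (nat_lit 4) (nat_lit 494) (nat_lit 336) (nat_lit 310)) (XT.lf (nat_lit 0) (nat_lit 5385488649) (nat_lit 152) (nat_lit 3407508665) (nat_lit 228) (nat_lit 5677672275) (nat_lit 32) (nat_lit 5) (nat_lit 34) (nat_lit 5) (nat_lit 35) (nat_lit 4) (nat_lit 495) (nat_lit 336) (nat_lit 309))))))))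
noncomputable def xc10 : XT := (XT.nd (nat_lit 57720) (nat_lit 0) (nat_lit 1292) (XT.nd (nat_lit 780) (nat_lit 228) (nat_lit 0) (XT.nd (nat_lit 390) (nat_lit 456) (nat_lit 0) (XT.nd (nat_lit 156) (nat_lit 380) (nat_lit 0) (XT.nd (nat_lit 78) (nat_lit 228) (nat_lit 0) (XT.lf (nat_lit 0) (nat_lit 13497933794) (nat_lit 228) (nat_lit 131471465) (nat_lit 0) (nat_lit 1027673477) (nat_lit 32) (nat_lit 5) (nat_lit 35) (nat_lit 4) (nat_lit 32) (nat_lit 4) (nat_lit 496) (nat_lit 336) (nat_lit 308)) (XT.lf (nat_lit 0) (nat_lit 3431580337) (nat_lit 228) (nat_lit 5868436889) (nat_lit 76) (nat_lit 5546216709) (nat_lit 29) (nat_lit 5) (nat_lit 32) (nat_lit 5) (nat_lit 30) (nat_lit 4) (nat_lit 497) (nat_lit 336) (nat_lit 307))) (XT.nd (nat_lit 78) (nat_lit 228) (nat_lit 0) (XT.lf (nat_lit 0) (nat_lit 3169705107) (nat_lit 152) (nat_lit 4896350909) (nat_lit 228) (nat_lit 6973620964) (nat_lit 27) (nat_lit 5) (nat_lit 29) (nat_lit 5) (nat_lit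 30) (nat_lit 4) (nat_lit 498) (nat_lit 336) (nat_lit 306)) (XT.nd (nat_lit 78) (nat_lit 228) (nat_lit 0) (XT.lf (nat_lit 0) (nat_lit 12372727827) (nat_lit 152) (nat_lit 406287834) (nat_lit 228) (nat_lit 2458264315) (nat_lit 27) (nat_lit 5) (nat_lit 29) (nat_lit 5) (nat_lit 30) (nat_lit 4) (nat_lit 499) (nat_lit 336) (nat_lit 305)) (XT.lf (nat_lit 0) (nat_lit 2134411561) (nat_lit 228) (nat_lit 9170665930) (nat_lit 76) (nat_lit 4133181889) (nat_lit 24) (nat_lit 5) (nat_lit 27) (nat_lit 5) (nat_lit 25) (nat_lit 4) (nat_lit 500) (nat_lit 336) (nat_lit 304))))) (XT.nd (nat_lit 156) (nat_lit 304) (nat_lit 0) (XT.nd (nat_lit 78) (nat_lit 152) (nat_lit 0) (XT.lf (nat_lit 0) (nat_lit 6755367963) (nat_lit 228) (nat_lit 135196956) (nat_lit 76) (nat_lit 8752988184) (nat_lit 24) (nat_lit 5) (nat_lit 27) (nat_lit 5) (nat_lit 25) (nat_lit 4) (nat_lit 501) (nat_lit 336) (nat_lit 303)) (XT.lf (nat_lit 0) (nat_lit 9107847245) (nat_lit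 152) (nat_lit 2368336114) (nat_lit 228) (nat_lit 4376626991) (nat_lit 22) (nat_lit 5) (nat_lit 24) (nat_lit 5) (nat_lit 25) (nat_lit 4) (nat_lit 502) (nat_lit 336) (nat_lit 302))) (XT.nd (nat_lit 78) (nat_lit 76) (nat_lit 0) (XT.lf (nat_lit 0) (nat_lit 201562933) (nat_lit 228) (nat_lit 13672549625) (nat_lit 76) (nat_lit 2192530070) (nat_lit 19) (nat_lit 5) (nat_lit 22) (nat_lit 5) (nat_lit 20) (nat_lit 4) (nat_lit 503) (nat_lit 336) (nat_lit 301)) (XT.nd (nat_lit 78) (nat_lit 76) (nat_lit 0) (XT.lf (nat_lit 0) (nat_lit 4822540348) (nat_lit 228) (nat_lit 4614278422) (nat_lit 76) (nat_lit 6847163732) (nat_lit 19) (nat_lit 5) (nat_lit 22) (nat_lit 5) (nat_lit 20) (nat_lit 4) (nat_lit 504) (nat_lit 336) (nat_lit 300)) (XT.lf (nat_lit 0) (nat_lit 4594411087) (nat_lit 76) (nat_lit 4920891092) (nat_lit 152) (nat_lit 6990785654) (nat_lit 18) (nat_lit 5) (nat_lit 19) (nat_lit 5) (nat_lit 20) (nat_lit 4) (nat_lit 505) (nat_lit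 336) (nat_lit 299)))))) (XT.nd (nat_lit 56472) (nat_lit 0) (nat_lit 4940) (XT.nd (nat_lit 56238) (nat_lit 0) (nat_lit 6308) (XT.nd (nat_lit 78) (nat_lit 228) (nat_lit 0) (XT.lf (nat_lit 0) (nat_lit 13959417207) (nat_lit 76) (nat_lit 323403721) (nat_lit 152) (nat_lit 2450202148) (nat_lit 18) (nat_lit 5) (nat_lit 19) (nat_lit 5) (nat_lit 20) (nat_lit 4) (nat_lit 506) (nat_lit 336) (nat_lit 298)) (XT.lf (nat_lit 0) (nat_lit 2174030661) (nat_lit 228) (nat_lit 10463418120) (nat_lit 76) (nat_lit 4326341734) (nat_lit 15) (nat_lit 5) (nat_lit 18) (nat_lit 5) (nat_lit 16) (nat_lit 4) (nat_lit 507) (nat_lit 336) (nat_lit 297))) (XT.nd (nat_lit 78) (nat_lit 684) (nat_lit 0) (XT.lf (nat_lit 0) (nat_lit 4450443752) (nat_lit 304) (nat_lit 379231200) (nat_lit 304) (nat_lit 379231200) (nat_lit 107) (nat_lit 4) (nat_lit 111) (nat_lit 5) (nat_lit 111) (nat_lit 4) (nat_lit 466) (nat_lit 337) (nat_lit 337)) (XT.nd (nat_lit 78) (nat_lit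 304) (nat_lit 0) (XT.lf (nat_lit 0) (nat_lit 3671142919) (nat_lit 380) (nat_lit 3893810904) (nat_lit 0) (nat_lit 2956844568) (nat_lit 102) (nat_lit 5) (nat_lit 107) (nat_lit 4) (nat_lit 102) (nat_lit 4) (nat_lit 467) (nat_lit 337) (nat_lit 336)) (XT.lf (nat_lit 0) (nat_lit 4266529651) (nat_lit 304) (nat_lit 3888165318) (nat_lit 304) (nat_lit 2473574466) (nat_lit 98) (nat_lit 4) (nat_lit 102) (nat_lit 5) (nat_lit 102) (nat_lit 4) (nat_lit 468) (nat_lit 337) (nat_lit 335))))) (XT.nd (nat_lit 234) (nat_lit 684) (nat_lit 0) (XT.nd (nat_lit 78) (nat_lit 304) (nat_lit 0) (XT.lf (nat_lit 0) (nat_lit 1808923438) (nat_lit 304) (nat_lit 126757534) (nat_lit 380) (nat_lit 8801530577) (nat_lit 93) (nat_lit 5) (nat_lit 97) (nat_lit 5) (nat_lit 98) (nat_lit 4) (nat_lit 469) (nat_lit 337) (nat_lit 334)) (XT.nd (nat_lit 78) (nat_lit 304) (nat_lit 0) (XT.lf (nat_lit 0) (nat_lit 6400146770) (nat_lit 380) (nat_lit 767578170) (nat_lit 0)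 (nat_lit 3680292441) (nat_lit 93) (nat_lit 5) (nat_lit 98) (nat_lit 4) (nat_lit 93) (nat_lit 4) (nat_lit 470) (nat_lit 337) (nat_lit 333)) (XT.lf (nat_lit 0) (nat_lit 7548046123) (nat_lit 304) (nat_lit 3390069898) (nat_lit 304) (nat_lit 23253546) (nat_lit 89) (nat_lit 4) (nat_lit 93) (nat_lit 5) (nat_lit 93) (nat_lit 4) (nat_lit 471) (nat_lit 337) (nat_lit 332)))) (XT.nd (nat_lit 78) (nat_lit 380) (nat_lit 0) (XT.lf (nat_lit 0) (nat_lit 4405617403) (nat_lit 304) (nat_lit 6188332035) (nat_lit 0) (nat_lit 482977358) (nat_lit 85) (nat_lit 5) (nat_lit 89) (nat_lit 4) (nat_lit 85) (nat_lit 4) (nat_lit 472) (nat_lit 337) (nat_lit 331)) (XT.nd (nat_lit 78) (nat_lit 76) (nat_lit 0) (XT.lf (nat_lit 0) (nat_lit 2106370417) (nat_lit 304) (nat_lit 6810420718) (nat_lit 304) (nat_lit 2278133908) (nat_lit 81) (nat_lit 4) (nat_lit 85) (nat_lit 5) (nat_lit 85) (nat_lit 4) (nat_lit 473) (nat_lit 337) (nat_lit 330)) (XT.lf (nat_lit 0)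 (nat_lit 2150814955) (nat_lit 380) (nat_lit 785333505) (nat_lit 76) (nat_lit 8379325866) (nat_lit 80) (nat_lit 5) (nat_lit 85) (nat_lit 5) (nat_lit 81) (nat_lit 4) (nat_lit 474) (nat_lit 337) (nat_lit 329))))))) (XT.nd (nat_lit 780) (nat_lit 1520) (nat_lit 0) (XT.nd (nat_lit 390) (nat_lit 988) (nat_lit 0) (XT.nd (nat_lit 156) (nat_lit 608) (nat_lit 0) (XT.nd (nat_lit 78) (nat_lit 304) (nat_lit 0) (XT.lf (nat_lit 0) (nat_lit 6630658074) (nat_lit 304) (nat_lit 3780849421) (nat_lit 0) (nat_lit 1026782434) (nat_lit 77) (nat_lit 5) (nat_lit 81) (nat_lit 4) (nat_lit 77) (nat_lit 4) (nat_lit 475) (nat_lit 337) (nat_lit 328)) (XT.lf (nat_lit 0) (nat_lit 4652426368) (nat_lit 304) (nat_lit 6539206222) (nat_lit 304) (nat_lit 372111206) (nat_lit 73) (nat_lit 4) (nat_lit 77) (nat_lit 5) (nat_lit 77) (nat_lit 4) (nat_lit 476) (nat_lit 337) (nat_lit 327))) (XT.nd (nat_lit 78) (nat_lit 304) (nat_lit 0) (XT.lf (nat_lit 0) (nat_lit 1501453897)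 (nat_lit 228) (nat_lit 2568211830) (nat_lit 304) (nat_lit 7622073962) (nat_lit 69) (nat_lit 5) (nat_lit 72) (nat_lit 5) (nat_lit 73) (nat_lit 4) (nat_lit 477) (nat_lit 337) (nat_lit 326)) (XT.nd (nat_lit 78) (nat_lit 304) (nat_lit 0) (XT.lf (nat_lit 0) (nat_lit 8588610010) (nat_lit 304) (nat_lit 1763426571) (nat_lit 0) (nat_lit 1470355350) (nat_lit 69) (nat_lit 5) (nat_lit 73) (nat_lit 4) (nat_lit 69) (nat_lit 4) (nat_lit 478) (nat_lit 337) (nat_lit 325)) (XT.lf (nat_lit 0) (nat_lit 1225364314) (nat_lit 304) (nat_lit 5163346388) (nat_lit 76) (nat_lit 5566809033) (nat_lit 65) (nat_lit 5) (nat_lit 69) (nat_lit 5) (nat_lit 66) (nat_lit 4) (nat_lit 479) (nat_lit 337) (nat_lit 324))))) (XT.nd (nat_lit 156) (nat_lit 760) (nat_lit 0) (XT.nd (nat_lit 78) (nat_lit 0) (nat_lit 0) (XT.lf (nat_lit 0) (nat_lit 3370524623) (nat_lit 228) (nat_lit 2332065508) (nat_lit 304) (nat_lit 6388859742) (nat_lit 62) (nat_lit 5) (nat_lit 65) (nat_lit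 5) (nat_lit 66) (nat_lit 4) (nat_lit 480) (nat_lit 337) (nat_lit 323)) (XT.lf (nat_lit 0) (nat_lit 10254588526) (nat_lit 304) (nat_lit 200473232) (nat_lit 0) (nat_lit 1775343300) (nat_lit 62) (nat_lit 5) (nat_lit 66) (nat_lit 4) (nat_lit 62) (nat_lit 4) (nat_lit 481) (nat_lit 337) (nat_lit 322))) (XT.nd (nat_lit 78) (nat_lit 456) (nat_lit 0) (XT.lf (nat_lit 0) (nat_lit 2502781029) (nat_lit 304) (nat_lit 3904329859) (nat_lit 76) (nat_lit 5964502779) (nat_lit 58) (nat_lit 5) (nat_lit 62) (nat_lit 5) (nat_lit 59) (nat_lit 4) (nat_lit 482) (nat_lit 337) (nat_lit 321)) (XT.nd (nat_lit 78) (nat_lit 228) (nat_lit 0) (XT.lf (nat_lit 0) (nat_lit 4742324925) (nat_lit 228) (nat_lit 2274283610) (nat_lit 304) (nat_lit 5499344797) (nat_lit 55) (nat_lit 5) (nat_lit 58) (nat_lit 5) (nat_lit 59) (nat_lit 4) (nat_lit 483) (nat_lit 337) (nat_lit 320)) (XT.lf (nat_lit 0) (nat_lit 847999203) (nat_lit 228) (nat_lit 10757386088) (nat_lit 228)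 (nat_lit 1058111212) (nat_lit 52) (nat_lit 4) (nat_lit 55) (nat_lit 5) (nat_lit 55) (nat_lit 4) (nat_lit 484) (nat_lit 337) (nat_lit 319)))))) (XT.nd (nat_lit 390) (nat_lit 836) (nat_lit 0) (XT.nd (nat_lit 156) (nat_lit 456) (nat_lit 0) (XT.nd (nat_lit 78) (nat_lit 152) (nat_lit 0) (XT.lf (nat_lit 0) (nat_lit 3434282580) (nat_lit 304) (nat_lit 3206118697) (nat_lit 76) (nat_lit 6172990774) (nat_lit 51) (nat_lit 5) (nat_lit 55) (nat_lit 5) (nat_lit 52) (nat_lit 4) (nat_lit 485) (nat_lit 337) (nat_lit 318)) (XT.lf (nat_lit 0) (nat_lit 5540461842) (nat_lit 152) (nat_lit 2439349170) (nat_lit 228) (nat_lit 4986795097) (nat_lit 49) (nat_lit 5) (nat_lit 51) (nat_lit 5) (nat_lit 52) (nat_lit 4) (nat_lit 486) (nat_lit 337) (nat_lit 317))) (XT.nd (nat_lit 78) (nat_lit 228) (nat_lit 0) (XT.lf (nat_lit 0) (nat_lit 1286852789) (nat_lit 228) (nat_lit 11313088663) (nat_lit 228) (nat_lit 523278562) (nat_lit 46) (nat_lit 4) (nat_lit 49)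 (nat_lit 5) (nat_lit 49) (nat_lit 4) (nat_lit 487) (nat_lit 337) (nat_lit 316)) (XT.nd (nat_lit 78) (nat_lit 152) (nat_lit 0) (XT.lf (nat_lit 0) (nat_lit 3984774630) (nat_lit 304) (nat_lit 3150840143) (nat_lit 76) (nat_lit 6146674926) (nat_lit 45) (nat_lit 5) (nat_lit 49) (nat_lit 5) (nat_lit 46) (nat_lit 4) (nat_lit 488) (nat_lit 337) (nat_lit 315)) (XT.lf (nat_lit 0) (nat_lit 5680415210) (nat_lit 152) (nat_lit 2875391867) (nat_lit 228) (nat_lit 4889076874) (nat_lit 43) (nat_lit 5) (nat_lit 45) (nat_lit 5) (nat_lit 46) (nat_lit 4) (nat_lit 489) (nat_lit 337) (nat_lit 314))))) (XT.nd (nat_lit 234) (nat_lit 380) (nat_lit 0) (XT.nd (nat_lit 78) (nat_lit 228) (nat_lit 0) (XT.lf (nat_lit 0) (nat_lit 1025226342) (nat_lit 228) (nat_lit 12173664811) (nat_lit 228) (nat_lit 412234994) (nat_lit 40) (nat_lit 4) (nat_lit 43) (nat_lit 5) (nat_lit 43) (nat_lit 4) (nat_lit 490) (nat_lit 337) (nat_lit 313)) (XT.nd (nat_lit 78) (nat_lit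 152) (nat_lit 0) (XT.lf (nat_lit 0) (nat_lit 4114391660) (nat_lit 304) (nat_lit 3829389157) (nat_lit 76) (nat_lit 5836086677) (nat_lit 39) (nat_lit 5) (nat_lit 43) (nat_lit 5) (nat_lit 40) (nat_lit 4) (nat_lit 491) (nat_lit 337) (nat_lit 312)) (XT.lf (nat_lit 0) (nat_lit 5068601267) (nat_lit 152) (nat_lit 3634695812) (nat_lit 228) (nat_lit 5249094946) (nat_lit 37) (nat_lit 5) (nat_lit 39) (nat_lit 5) (nat_lit 40) (nat_lit 4) (nat_lit 492) (nat_lit 337) (nat_lit 311)))) (XT.nd (nat_lit 78) (nat_lit 380) (nat_lit 0) (XT.lf (nat_lit 0) (nat_lit 13359331343) (nat_lit 228) (nat_lit 34098607) (nat_lit 0) (nat_lit 735438097) (nat_lit 37) (nat_lit 5) (nat_lit 40) (nat_lit 4) (nat_lit 37) (nat_lit 4) (nat_lit 493) (nat_lit 337) (nat_lit 310)) (XT.nd (nat_lit 78) (nat_lit 152) (nat_lit 0) (XT.lf (nat_lit 0) (nat_lit 3778035576) (nat_lit 228) (nat_lit 5342426970) (nat_lit 76) (nat_lit 5187360250) (nat_lit 34) (nat_lit 5) (nat_lit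 37) (nat_lit 5) (nat_lit 35) (nat_lit 4) (nat_lit 494) (nat_lit 337) (nat_lit 309)) (XT.lf (nat_lit 0) (nat_lit 3601341907) (nat_lit 152) (nat_lit 4774252318) (nat_lit 228) (nat_lit 6115281453) (nat_lit 32) (nat_lit 5) (nat_lit 34) (nat_lit 5) (nat_lit 35) (nat_lit 4) (nat_lit 495) (nat_lit 337) (nat_lit 308))))))))
noncomputable def xc11 : XT := (XT.nd (nat_lit 57564) (nat_lit 0) (nat_lit 1444) (XT.nd (nat_lit 780) (nat_lit 228) (nat_lit 0) (XT.nd (nat_lit 390) (nat_lit 456) (nat_lit 0) (XT.nd (nat_lit 156) (nat_lit 380) (nat_lit 0) (XT.nd (nat_lit 78) (nat_lit 228) (nat_lit 0) (XT.lf (nat_lit 0) (nat_lit 12701251459) (nat_lit 152) (nat_lit 345866421) (nat_lit 228) (nat_lit 1630838868) (nat_lit 32) (nat_lit 5) (nat_lit 34) (nat_lit 5) (nat_lit 35) (nat_lit 4) (nat_lit 496) (nat_lit 337) (nat_lit 307)) (XT.lf (nat_lit 0) (nat_lit 2924861741) (nat_lit 228) (nat_lit 7801480766) (nat_lit 76) (nat_lit 4141658435) (nat_lit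 29) (nat_lit 5) (nat_lit 32) (nat_lit 5) (nat_lit 30) (nat_lit 4) (nat_lit 497) (nat_lit 337) (nat_lit 306))) (XT.nd (nat_lit 78) (nat_lit 228) (nat_lit 0) (XT.lf (nat_lit 0) (nat_lit 1163729360) (nat_lit 152) (nat_lit 6356363019) (nat_lit 228) (nat_lit 7542139964) (nat_lit 27) (nat_lit 5) (nat_lit 29) (nat_lit 5) (nat_lit 30) (nat_lit 4) (nat_lit 498) (nat_lit 337) (nat_lit 305)) (XT.nd (nat_lit 78) (nat_lit 228) (nat_lit 0) (XT.lf (nat_lit 0) (nat_lit 10320435674) (nat_lit 152) (nat_lit 1886608851) (nat_lit 228) (nat_lit 3053314351) (nat_lit 27) (nat_lit 5) (nat_lit 29) (nat_lit 5) (nat_lit 30) (nat_lit 4) (nat_lit 499) (nat_lit 337) (nat_lit 304)) (XT.lf (nat_lit 0) (nat_lit 1497707236) (nat_lit 228) (nat_lit 11330155386) (nat_lit 76) (nat_lit 2634545353) (nat_lit 24) (nat_lit 5) (nat_lit 27) (nat_lit 5) (nat_lit 25) (nat_lit 4) (nat_lit 500) (nat_lit 337) (nat_lit 303))))) (XT.nd (nat_lit 156) (nat_lit 304) (nat_lit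 0) (XT.nd (nat_lit 78) (nat_lit 152) (nat_lit 0) (XT.lf (nat_lit 0) (nat_lit 6093072391) (nat_lit 228) (nat_lit 2340520672) (nat_lit 76) (nat_lit 7234623651) (nat_lit 24) (nat_lit 5) (nat_lit 27) (nat_lit 5) (nat_lit 25) (nat_lit 4) (nat_lit 501) (nat_lit 337) (nat_lit 302)) (XT.lf (nat_lit 0) (nat_lit 6827683218) (nat_lit 152) (nat_lit 3946310774) (nat_lit 228) (nat_lit 5104280974) (nat_lit 22) (nat_lit 5) (nat_lit 24) (nat_lit 5) (nat_lit 25) (nat_lit 4) (nat_lit 502) (nat_lit 337) (nat_lit 301))) (XT.nd (nat_lit 78) (nat_lit 152) (nat_lit 0) (XT.lf (nat_lit 0) (nat_lit 23947093) (nat_lit 152) (nat_lit 15494116103) (nat_lit 152) (nat_lit 575086801) (nat_lit 20) (nat_lit 4) (nat_lit 22) (nat_lit 5) (nat_lit 22) (nat_lit 4) (nat_lit 503) (nat_lit 337) (nat_lit 300)) (XT.nd (nat_lit 78) (nat_lit 76) (nat_lit 0) (XT.lf (nat_lit 0) (nat_lit 4028450259) (nat_lit 228) (nat_lit 7052249165) (nat_lit 76) (nat_lit 5230367727)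 (nat_lit 19) (nat_lit 5) (nat_lit 22) (nat_lit 5) (nat_lit 20) (nat_lit 4) (nat_lit 504) (nat_lit 337) (nat_lit 299)) (XT.lf (nat_lit 0) (nat_lit 2079286075) (nat_lit 76) (nat_lit 6601103290) (nat_lit 152) (nat_lit 7853602462) (nat_lit 18) (nat_lit 5) (nat_lit 19) (nat_lit 5) (nat_lit 20) (nat_lit 4) (nat_lit 505) (nat_lit 337) (nat_lit 298)))))) (XT.nd (nat_lit 56316) (nat_lit 0) (nat_lit 5320) (XT.nd (nat_lit 56082) (nat_lit 0) (nat_lit 6992) (XT.nd (nat_lit 78) (nat_lit 228) (nat_lit 0) (XT.lf (nat_lit 0) (nat_lit 11400414823) (nat_lit 76) (nat_lit 2023195798) (nat_lit 152) (nat_lit 3337805233) (nat_lit 18) (nat_lit 5) (nat_lit 19) (nat_lit 5) (nat_lit 20) (nat_lit 4) (nat_lit 506) (nat_lit 337) (nat_lit 297)) (XT.lf (nat_lit 0) (nat_lit 1245503149) (nat_lit 228) (nat_lit 13141294706) (nat_lit 76) (nat_lit 2606554730) (nat_lit 15) (nat_lit 5) (nat_lit 18) (nat_lit 5) (nat_lit 16) (nat_lit 4) (nat_lit 507) (nat_lit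 337) (nat_lit 296))) (XT.nd (nat_lit 78) (nat_lit 304) (nat_lit 0) (XT.lf (nat_lit 0) (nat_lit 754266120) (nat_lit 380) (nat_lit 3598937924) (nat_lit 0) (nat_lit 754266120) (nat_lit 111) (nat_lit 5) (nat_lit 116) (nat_lit 4) (nat_lit 111) (nat_lit 4) (nat_lit 464) (nat_lit 338) (nat_lit 338)) (XT.nd (nat_lit 78) (nat_lit 0) (nat_lit 0) (XT.lf (nat_lit 0) (nat_lit 750180133) (nat_lit 304) (nat_lit 5154242561) (nat_lit 304) (nat_lit 4411086557) (nat_lit 107) (nat_lit 4) (nat_lit 111) (nat_lit 5) (nat_lit 111) (nat_lit 4) (nat_lit 465) (nat_lit 338) (nat_lit 337)) (XT.lf (nat_lit 0) (nat_lit 8848065119) (nat_lit 304) (nat_lit 1521081397) (nat_lit 304) (nat_lit 49341075) (nat_lit 107) (nat_lit 4) (nat_lit 111) (nat_lit 5) (nat_lit 111) (nat_lit 4) (nat_lit 466) (nat_lit 338) (nat_lit 336))))) (XT.nd (nat_lit 234) (nat_lit 608) (nat_lit 0) (XT.nd (nat_lit 78) (nat_lit 684) (nat_lit 0) (XT.lf (nat_lit 0) (nat_lit 4332257330)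 (nat_lit 380) (nat_lit 4001824014) (nat_lit 0) (nat_lit 2189082162) (nat_lit 102) (nat_lit 5) (nat_lit 107) (nat_lit 4) (nat_lit 102) (nat_lit 4) (nat_lit 467) (nat_lit 338) (nat_lit 335)) (XT.nd (nat_lit 78) (nat_lit 380) (nat_lit 0) (XT.lf (nat_lit 0) (nat_lit 4103961055) (nat_lit 304) (nat_lit 4678046799) (nat_lit 304) (nat_lit 1848310356) (nat_lit 98) (nat_lit 4) (nat_lit 102) (nat_lit 5) (nat_lit 102) (nat_lit 4) (nat_lit 468) (nat_lit 338) (nat_lit 334)) (XT.lf (nat_lit 0) (nat_lit 1584786945) (nat_lit 304) (nat_lit 933838143) (nat_lit 380) (nat_lit 8221243766) (nat_lit 93) (nat_lit 5) (nat_lit 97) (nat_lit 5) (nat_lit 98) (nat_lit 4) (nat_lit 469) (nat_lit 338) (nat_lit 333)))) (XT.nd (nat_lit 78) (nat_lit 608) (nat_lit 0) (XT.lf (nat_lit 0) (nat_lit 6945359576) (nat_lit 380) (nat_lit 1041832051) (nat_lit 0) (nat_lit 2864244873) (nat_lit 93) (nat_lit 5) (nat_lit 98) (nat_lit 4) (nat_lit 93) (nat_lit 4) (nat_lit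 470) (nat_lit 338) (nat_lit 332)) (XT.nd (nat_lit 78) (nat_lit 228) (nat_lit 0) (XT.lf (nat_lit 0) (nat_lit 477508944) (nat_lit 380) (nat_lit 3750823129) (nat_lit 76) (nat_lit 6737080798) (nat_lit 88) (nat_lit 5) (nat_lit 93) (nat_lit 5) (nat_lit 89) (nat_lit 4) (nat_lit 471) (nat_lit 338) (nat_lit 331)) (XT.lf (nat_lit 0) (nat_lit 4497254091) (nat_lit 228) (nat_lit 371302833) (nat_lit 304) (nat_lit 6213167291) (nat_lit 85) (nat_lit 5) (nat_lit 88) (nat_lit 5) (nat_lit 89) (nat_lit 4) (nat_lit 472) (nat_lit 338) (nat_lit 330))))))) (XT.nd (nat_lit 858) (nat_lit 1596) (nat_lit 0) (XT.nd (nat_lit 390) (nat_lit 1064) (nat_lit 0) (XT.nd (nat_lit 156) (nat_lit 836) (nat_lit 0) (XT.nd (nat_lit 78) (nat_lit 76) (nat_lit 0) (XT.lf (nat_lit 0) (nat_lit 1654798036) (nat_lit 304) (nat_lit 7687971255) (nat_lit 304) (nat_lit 1857699039) (nat_lit 81) (nat_lit 4) (nat_lit 85) (nat_lit 5) (nat_lit 85) (nat_lit 4) (nat_lit 473) (nat_lit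 338) (nat_lit 329)) (XT.lf (nat_lit 0) (nat_lit 2534188176) (nat_lit 380) (nat_lit 1297185536) (nat_lit 76) (nat_lit 7490226640) (nat_lit 80) (nat_lit 5) (nat_lit 85) (nat_lit 5) (nat_lit 81) (nat_lit 4) (nat_lit 474) (nat_lit 338) (nat_lit 328))) (XT.nd (nat_lit 78) (nat_lit 608) (nat_lit 0) (XT.lf (nat_lit 0) (nat_lit 6973432271) (nat_lit 304) (nat_lit 4352025943) (nat_lit 0) (nat_lit 119775980) (nat_lit 77) (nat_lit 5) (nat_lit 81) (nat_lit 4) (nat_lit 77) (nat_lit 4) (nat_lit 475) (nat_lit 338) (nat_lit 327)) (XT.nd (nat_lit 78) (nat_lit 304) (nat_lit 0) (XT.lf (nat_lit 0) (nat_lit 4021838823) (nat_lit 304) (nat_lit 7477692515) (nat_lit 304) (nat_lit 71860366) (nat_lit 73) (nat_lit 4) (nat_lit 77) (nat_lit 5) (nat_lit 77) (nat_lit 4) (nat_lit 476) (nat_lit 338) (nat_lit 326)) (XT.lf (nat_lit 0) (nat_lit 800862239) (nat_lit 228) (nat_lit 3529852249) (nat_lit 304) (nat_lit 7369345303) (nat_lit 69) (nat_lit 5) (nat_lit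 72) (nat_lit 5) (nat_lit 73) (nat_lit 4) (nat_lit 477) (nat_lit 338) (nat_lit 325))))) (XT.nd (nat_lit 234) (nat_lit 532) (nat_lit 0) (XT.nd (nat_lit 78) (nat_lit 532) (nat_lit 0) (XT.lf (nat_lit 0) (nat_lit 8812838848) (nat_lit 304) (nat_lit 2517458110) (nat_lit 0) (nat_lit 501157256) (nat_lit 69) (nat_lit 5) (nat_lit 73) (nat_lit 4) (nat_lit 69) (nat_lit 4) (nat_lit 478) (nat_lit 338) (nat_lit 324)) (XT.nd (nat_lit 78) (nat_lit 228) (nat_lit 0) (XT.lf (nat_lit 0) (nat_lit 1402200954) (nat_lit 304) (nat_lit 5989360804) (nat_lit 76) (nat_lit 4573708035) (nat_lit 65) (nat_lit 5) (nat_lit 69) (nat_lit 5) (nat_lit 66) (nat_lit 4) (nat_lit 479) (nat_lit 338) (nat_lit 323)) (XT.lf (nat_lit 0) (nat_lit 2482434762) (nat_lit 228) (nat_lit 3361309882) (nat_lit 304) (nat_lit 6258174379) (nat_lit 62) (nat_lit 5) (nat_lit 65) (nat_lit 5) (nat_lit 66) (nat_lit 4) (nat_lit 480) (nat_lit 338) (nat_lit 322)))) (XT.nd (nat_lit 78) (nat_lit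 532) (nat_lit 0) (XT.lf (nat_lit 0) (nat_lit 10359273054) (nat_lit 304) (nat_lit 1142911644) (nat_lit 0) (nat_lit 739424250) (nat_lit 62) (nat_lit 5) (nat_lit 66) (nat_lit 4) (nat_lit 62) (nat_lit 4) (nat_lit 481) (nat_lit 338) (nat_lit 321)) (XT.nd (nat_lit 78) (nat_lit 228) (nat_lit 0) (XT.lf (nat_lit 0) (nat_lit 2559064108) (nat_lit 304) (nat_lit 4921816081) (nat_lit 76) (nat_lit 4902649793) (nat_lit 58) (nat_lit 5) (nat_lit 62) (nat_lit 5) (nat_lit 59) (nat_lit 4) (nat_lit 482) (nat_lit 338) (nat_lit 320)) (XT.lf (nat_lit 0) (nat_lit 3661020407) (nat_lit 228) (nat_lit 3375703376) (nat_lit 304) (nat_lit 5491874253) (nat_lit 55) (nat_lit 5) (nat_lit 58) (nat_lit 5) (nat_lit 59) (nat_lit 4) (nat_lit 483) (nat_lit 338) (nat_lit 319)))))) (XT.nd (nat_lit 390) (nat_lit 836) (nat_lit 0) (XT.nd (nat_lit 156) (nat_lit 456) (nat_lit 0) (XT.nd (nat_lit 78) (nat_lit 304) (nat_lit 0) (XT.lf (nat_lit 0) (nat_lit 11583815153) (nat_lit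 304) (nat_lit 299681077) (nat_lit 0) (nat_lit 793483620) (nat_lit 55) (nat_lit 5) (nat_lit 59) (nat_lit 4) (nat_lit 55) (nat_lit 4) (nat_lit 484) (nat_lit 338) (nat_lit 318)) (XT.lf (nat_lit 0) (nat_lit 3368728579) (nat_lit 304) (nat_lit 4420886698) (nat_lit 76) (nat_lit 5037888620) (nat_lit 51) (nat_lit 5) (nat_lit 55) (nat_lit 5) (nat_lit 52) (nat_lit 4) (nat_lit 485) (nat_lit 338) (nat_lit 317))) (XT.nd (nat_lit 78) (nat_lit 304) (nat_lit 0) (XT.lf (nat_lit 0) (nat_lit 4260055011) (nat_lit 152) (nat_lit 3617481294) (nat_lit 228) (nat_lit 5103920716) (nat_lit 49) (nat_lit 5) (nat_lit 51) (nat_lit 5) (nat_lit 52) (nat_lit 4) (nat_lit 486) (nat_lit 338) (nat_lit 316)) (XT.nd (nat_lit 78) (nat_lit 304) (nat_lit 0) (XT.lf (nat_lit 0) (nat_lit 12453364739) (nat_lit 228) (nat_lit 66593434) (nat_lit 0) (nat_lit 619003350) (nat_lit 49) (nat_lit 5) (nat_lit 52) (nat_lit 4) (nat_lit 49) (nat_lit 4) (nat_lit 487) (nat_lit 338)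 (nat_lit 315)) (XT.lf (nat_lit 0) (nat_lit 3795895372) (nat_lit 304) (nat_lit 4568882929) (nat_lit 76) (nat_lit 4933852163) (nat_lit 45) (nat_lit 5) (nat_lit 49) (nat_lit 5) (nat_lit 46) (nat_lit 4) (nat_lit 488) (nat_lit 338) (nat_lit 314))))) (XT.nd (nat_lit 234) (nat_lit 380) (nat_lit 0) (XT.nd (nat_lit 78) (nat_lit 304) (nat_lit 0) (XT.lf (nat_lit 0) (nat_lit 4194831792) (nat_lit 152) (nat_lit 4134755682) (nat_lit 228) (nat_lit 5132388346) (nat_lit 43) (nat_lit 5) (nat_lit 45) (nat_lit 5) (nat_lit 46) (nat_lit 4) (nat_lit 489) (nat_lit 338) (nat_lit 313)) (XT.nd (nat_lit 78) (nat_lit 304) (nat_lit 0) (XT.lf (nat_lit 0) (nat_lit 12930244932) (nat_lit 228) (nat_lit 530880906) (nat_lit 0) (nat_lit 167944922) (nat_lit 43) (nat_lit 5) (nat_lit 46) (nat_lit 4) (nat_lit 43) (nat_lit 4) (nat_lit 490) (nat_lit 338) (nat_lit 312)) (XT.lf (nat_lit 0) (nat_lit 3800495321) (nat_lit 304) (nat_lit 5456897984) (nat_lit 76) (nat_lit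 4541081348) (nat_lit 39) (nat_lit 5) (nat_lit 43) (nat_lit 5) (nat_lit 40) (nat_lit 4) (nat_lit 491) (nat_lit 338) (nat_lit 311)))) (XT.nd (nat_lit 78) (nat_lit 228) (nat_lit 0) (XT.lf (nat_lit 0) (nat_lit 3371565061) (nat_lit 152) (nat_lit 4979809132) (nat_lit 228) (nat_lit 5620389490) (nat_lit 37) (nat_lit 5) (nat_lit 39) (nat_lit 5) (nat_lit 40) (nat_lit 4) (nat_lit 492) (nat_lit 338) (nat_lit 310)) (XT.nd (nat_lit 78) (nat_lit 228) (nat_lit 0) (XT.lf (nat_lit 0) (nat_lit 12355708958) (nat_lit 152) (nat_lit 620077511) (nat_lit 228) (nat_lit 1173089568) (nat_lit 37) (nat_lit 5) (nat_lit 39) (nat_lit 5) (nat_lit 40) (nat_lit 4) (nat_lit 493) (nat_lit 338) (nat_lit 309)) (XT.lf (nat_lit 0) (nat_lit 3337227071) (nat_lit 228) (nat_lit 7185806509) (nat_lit 76) (nat_lit 3805704312) (nat_lit 34) (nat_lit 5) (nat_lit 37) (nat_lit 5) (nat_lit 35) (nat_lit 4) (nat_lit 494) (nat_lit 338) (nat_lit 308))))))))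
noncomputable def xc12 : XT := (XT.nd (nat_lit 57408) (nat_lit 0) (nat_lit 2128) (XT.nd (nat_lit 780) (nat_lit 304) (nat_lit 0) (XT.nd (nat_lit 390) (nat_lit 608) (nat_lit 0) (XT.nd (nat_lit 156) (nat_lit 380) (nat_lit 0) (XT.nd (nat_lit 78) (nat_lit 0) (nat_lit 0) (XT.lf (nat_lit 0) (nat_lit 1686359523) (nat_lit 152) (nat_lit 6209646886) (nat_lit 228) (nat_lit 6616563619) (nat_lit 32) (nat_lit 5) (nat_lit 34) (nat_lit 5) (nat_lit 35) (nat_lit 4) (nat_lit 495) (nat_lit 338) (nat_lit 307)) (XT.lf (nat_lit 0) (nat_lit 10740087408) (nat_lit 152) (nat_lit 1801313426) (nat_lit 228) (nat_lit 2158776442) (nat_lit 32) (nat_lit 5) (nat_lit 34) (nat_lit 5) (nat_lit 35) (nat_lit 4) (nat_lit 496) (nat_lit 338) (nat_lit 306))) (XT.nd (nat_lit 78) (nat_lit 152) (nat_lit 0) (XT.lf (nat_lit 0) (nat_lit 2355042521) (nat_lit 228) (nat_lit 9867364258) (nat_lit 76) (nat_lit 2668862814) (nat_lit 29) (nat_lit 5) (nat_lit 32) (nat_lit 5) (nat_lit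 30) (nat_lit 4) (nat_lit 497) (nat_lit 338) (nat_lit 305)) (XT.nd (nat_lit 78) (nat_lit 152) (nat_lit 0) (XT.lf (nat_lit 0) (nat_lit 6917010675) (nat_lit 228) (nat_lit 963125609) (nat_lit 76) (nat_lit 7206033347) (nat_lit 29) (nat_lit 5) (nat_lit 32) (nat_lit 5) (nat_lit 30) (nat_lit 4) (nat_lit 498) (nat_lit 338) (nat_lit 304)) (XT.lf (nat_lit 0) (nat_lit 8135373030) (nat_lit 152) (nat_lit 3436755890) (nat_lit 228) (nat_lit 3712807242) (nat_lit 27) (nat_lit 5) (nat_lit 29) (nat_lit 5) (nat_lit 30) (nat_lit 4) (nat_lit 499) (nat_lit 338) (nat_lit 303))))) (XT.nd (nat_lit 156) (nat_lit 380) (nat_lit 0) (XT.nd (nat_lit 78) (nat_lit 0) (nat_lit 0) (XT.lf (nat_lit 0) (nat_lit 796574506) (nat_lit 228) (nat_lit 13625419837) (nat_lit 76) (nat_lit 1066085531) (nat_lit 24) (nat_lit 5) (nat_lit 27) (nat_lit 5) (nat_lit 25) (nat_lit 4) (nat_lit 500) (nat_lit 338) (nat_lit 302)) (XT.lf (nat_lit 0) (nat_lit 5366850204) (nat_lit 228)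 (nat_lit 4680720673) (nat_lit 76) (nat_lit 5646822655) (nat_lit 24) (nat_lit 5) (nat_lit 27) (nat_lit 5) (nat_lit 25) (nat_lit 4) (nat_lit 501) (nat_lit 338) (nat_lit 301))) (XT.nd (nat_lit 78) (nat_lit 228) (nat_lit 0) (XT.lf (nat_lit 0) (nat_lit 4411743270) (nat_lit 152) (nat_lit 5595745143) (nat_lit 228) (nat_lit 5897772107) (nat_lit 22) (nat_lit 5) (nat_lit 24) (nat_lit 5) (nat_lit 25) (nat_lit 4) (nat_lit 502) (nat_lit 338) (nat_lit 300)) (XT.nd (nat_lit 78) (nat_lit 228) (nat_lit 0) (XT.lf (nat_lit 0) (nat_lit 13661100343) (nat_lit 152) (nat_lit 1061962451) (nat_lit 228) (nat_lit 1397645661) (nat_lit 22) (nat_lit 5) (nat_lit 24) (nat_lit 5) (nat_lit 25) (nat_lit 4) (nat_lit 503) (nat_lit 338) (nat_lit 299)) (XT.lf (nat_lit 0) (nat_lit 3169002782) (nat_lit 228) (nat_lit 9628198585) (nat_lit 76) (nat_lit 3542487477) (nat_lit 19) (nat_lit 5) (nat_lit 22) (nat_lit 5) (nat_lit 20) (nat_lit 4) (nat_lit 504) (nat_lit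 338) (nat_lit 298)))))) (XT.nd (nat_lit 56160) (nat_lit 0) (nat_lit 5928) (XT.nd (nat_lit 156) (nat_lit 228) (nat_lit 0) (XT.nd (nat_lit 78) (nat_lit 76) (nat_lit 0) (XT.lf (nat_lit 0) (nat_lit 7783429172) (nat_lit 228) (nat_lit 567235467) (nat_lit 76) (nat_lit 8212701970) (nat_lit 19) (nat_lit 5) (nat_lit 22) (nat_lit 5) (nat_lit 20) (nat_lit 4) (nat_lit 505) (nat_lit 338) (nat_lit 297)) (XT.lf (nat_lit 0) (nat_lit 8703337987) (nat_lit 76) (nat_lit 3795759556) (nat_lit 152) (nat_lit 4292246929) (nat_lit 18) (nat_lit 5) (nat_lit 19) (nat_lit 5) (nat_lit 20) (nat_lit 4) (nat_lit 506) (nat_lit 338) (nat_lit 296))) (XT.nd (nat_lit 55848) (nat_lit 0) (nat_lit 7676) (XT.lf (nat_lit 0) (nat_lit 250094891) (nat_lit 228) (nat_lit 15960410481) (nat_lit 76) (nat_lit 813972125) (nat_lit 15) (nat_lit 5) (nat_lit 18) (nat_lit 5) (nat_lit 16) (nat_lit 4) (nat_lit 507) (nat_lit 338) (nat_lit 295)) (XT.nd (nat_lit 78) (nat_lit 380)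 (nat_lit 0) (XT.lf (nat_lit 0) (nat_lit 1827476352) (nat_lit 380) (nat_lit 1354618068) (nat_lit 0) (nat_lit 1827476352) (nat_lit 121) (nat_lit 5) (nat_lit 126) (nat_lit 4) (nat_lit 121) (nat_lit 4) (nat_lit 462) (nat_lit 339) (nat_lit 339)) (XT.lf (nat_lit 0) (nat_lit 5180843129) (nat_lit 380) (nat_lit 2854319926) (nat_lit 380) (nat_lit 2081140420) (nat_lit 116) (nat_lit 4) (nat_lit 121) (nat_lit 5) (nat_lit 121) (nat_lit 4) (nat_lit 463) (nat_lit 339) (nat_lit 338))))) (XT.nd (nat_lit 234) (nat_lit 988) (nat_lit 0) (XT.nd (nat_lit 78) (nat_lit 380) (nat_lit 0) (XT.lf (nat_lit 0) (nat_lit 2232874600) (nat_lit 380) (nat_lit 7251048051) (nat_lit 0) (nat_lit 731699472) (nat_lit 111) (nat_lit 5) (nat_lit 116) (nat_lit 4) (nat_lit 111) (nat_lit 4) (nat_lit 464) (nat_lit 339) (nat_lit 337)) (XT.nd (nat_lit 78) (nat_lit 76) (nat_lit 0) (XT.lf (nat_lit 0) (nat_lit 643478915) (nat_lit 304) (nat_lit 5951576927) (nat_lit 304) (nat_lit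 3721817481) (nat_lit 107) (nat_lit 4) (nat_lit 111) (nat_lit 5) (nat_lit 111) (nat_lit 4) (nat_lit 465) (nat_lit 339) (nat_lit 336)) (XT.lf (nat_lit 0) (nat_lit 598605517) (nat_lit 380) (nat_lit 1734874651) (nat_lit 76) (nat_lit 8086954774) (nat_lit 106) (nat_lit 5) (nat_lit 111) (nat_lit 5) (nat_lit 107) (nat_lit 4) (nat_lit 466) (nat_lit 339) (nat_lit 335)))) (XT.nd (nat_lit 78) (nat_lit 684) (nat_lit 0) (XT.lf (nat_lit 0) (nat_lit 4940447064) (nat_lit 380) (nat_lit 4217892593) (nat_lit 0) (nat_lit 1367554616) (nat_lit 102) (nat_lit 5) (nat_lit 107) (nat_lit 4) (nat_lit 102) (nat_lit 4) (nat_lit 467) (nat_lit 339) (nat_lit 334)) (XT.nd (nat_lit 78) (nat_lit 380) (nat_lit 0) (XT.lf (nat_lit 0) (nat_lit 3832942559) (nat_lit 304) (nat_lit 5523391452) (nat_lit 304) (nat_lit 1277399715) (nat_lit 98) (nat_lit 4) (nat_lit 102) (nat_lit 5) (nat_lit 102) (nat_lit 4) (nat_lit 468) (nat_lit 339) (nat_lit 333)) (XT.lf (nat_lit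 0) (nat_lit 1250775481) (nat_lit 304) (nat_lit 1797080203) (nat_lit 380) (nat_lit 7696045590) (nat_lit 93) (nat_lit 5) (nat_lit 97) (nat_lit 5) (nat_lit 98) (nat_lit 4) (nat_lit 469) (nat_lit 339) (nat_lit 332))))))) (XT.nd (nat_lit 780) (nat_lit 1672) (nat_lit 0) (XT.nd (nat_lit 390) (nat_lit 1140) (nat_lit 0) (XT.nd (nat_lit 156) (nat_lit 608) (nat_lit 0) (XT.nd (nat_lit 78) (nat_lit 380) (nat_lit 0) (XT.lf (nat_lit 0) (nat_lit 7437131308) (nat_lit 380) (nat_lit 1425938043) (nat_lit 0) (nat_lit 1993155794) (nat_lit 93) (nat_lit 5) (nat_lit 98) (nat_lit 4) (nat_lit 93) (nat_lit 4) (nat_lit 470) (nat_lit 339) (nat_lit 331)) (XT.lf (nat_lit 0) (nat_lit 923782786) (nat_lit 380) (nat_lit 4199773986) (nat_lit 76) (nat_lit 5847274730) (nat_lit 88) (nat_lit 5) (nat_lit 93) (nat_lit 5) (nat_lit 89) (nat_lit 4) (nat_lit 471) (nat_lit 339) (nat_lit 330))) (XT.nd (nat_lit 78) (nat_lit 380) (nat_lit 0) (XT.lf (nat_lit 0) (nat_lit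 3990921384) (nat_lit 228) (nat_lit 1289466418) (nat_lit 304) (nat_lit 5807450542) (nat_lit 85) (nat_lit 5) (nat_lit 88) (nat_lit 5) (nat_lit 89) (nat_lit 4) (nat_lit 472) (nat_lit 339) (nat_lit 329)) (XT.nd (nat_lit 78) (nat_lit 76) (nat_lit 0) (XT.lf (nat_lit 0) (nat_lit 1090000613) (nat_lit 304) (nat_lit 8623972453) (nat_lit 304) (nat_lit 1493428448) (nat_lit 81) (nat_lit 4) (nat_lit 85) (nat_lit 5) (nat_lit 85) (nat_lit 4) (nat_lit 473) (nat_lit 339) (nat_lit 328)) (XT.lf (nat_lit 0) (nat_lit 2862752303) (nat_lit 380) (nat_lit 1922268113) (nat_lit 76) (nat_lit 6544090656) (nat_lit 80) (nat_lit 5) (nat_lit 85) (nat_lit 5) (nat_lit 81) (nat_lit 4) (nat_lit 474) (nat_lit 339) (nat_lit 327))))) (XT.nd (nat_lit 156) (nat_lit 532) (nat_lit 0) (XT.nd (nat_lit 78) (nat_lit 380) (nat_lit 0) (XT.lf (nat_lit 0) (nat_lit 6409970973) (nat_lit 228) (nat_lit 856473638) (nat_lit 304) (nat_lit 4187017474) (nat_lit 77) (nat_lit 5)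 (nat_lit 80) (nat_lit 5) (nat_lit 81) (nat_lit 4) (nat_lit 475) (nat_lit 339) (nat_lit 326)) (XT.lf (nat_lit 0) (nat_lit 169275981) (nat_lit 380) (nat_lit 8305536046) (nat_lit 76) (nat_lit 3105602928) (nat_lit 72) (nat_lit 5) (nat_lit 77) (nat_lit 5) (nat_lit 73) (nat_lit 4) (nat_lit 476) (nat_lit 339) (nat_lit 325))) (XT.nd (nat_lit 78) (nat_lit 532) (nat_lit 0) (XT.lf (nat_lit 0) (nat_lit 4535595383) (nat_lit 380) (nat_lit 16305051) (nat_lit 76) (nat_lit 7157885318) (nat_lit 72) (nat_lit 5) (nat_lit 77) (nat_lit 5) (nat_lit 73) (nat_lit 4) (nat_lit 477) (nat_lit 339) (nat_lit 324)) (XT.nd (nat_lit 78) (nat_lit 304) (nat_lit 0) (XT.lf (nat_lit 0) (nat_lit 8450091404) (nat_lit 228) (nat_lit 534377294) (nat_lit 304) (nat_lit 2857382165) (nat_lit 69) (nat_lit 5) (nat_lit 72) (nat_lit 5) (nat_lit 73) (nat_lit 4) (nat_lit 478) (nat_lit 339) (nat_lit 323)) (XT.lf (nat_lit 0) (nat_lit 1522143887) (nat_lit 304) (nat_lit 6933760041)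 (nat_lit 76) (nat_lit 3520530538) (nat_lit 65) (nat_lit 5) (nat_lit 69) (nat_lit 5) (nat_lit 66) (nat_lit 4) (nat_lit 479) (nat_lit 339) (nat_lit 322)))))) (XT.nd (nat_lit 390) (nat_lit 912) (nat_lit 0) (XT.nd (nat_lit 156) (nat_lit 532) (nat_lit 0) (XT.nd (nat_lit 78) (nat_lit 0) (nat_lit 0) (XT.lf (nat_lit 0) (nat_lit 1475388732) (nat_lit 228) (nat_lit 4452430963) (nat_lit 304) (nat_lit 6185986699) (nat_lit 62) (nat_lit 5) (nat_lit 65) (nat_lit 5) (nat_lit 66) (nat_lit 4) (nat_lit 480) (nat_lit 339) (nat_lit 321)) (XT.lf (nat_lit 0) (nat_lit 10047499256) (nat_lit 228) (nat_lit 361910953) (nat_lit 304) (nat_lit 1844770105) (nat_lit 62) (nat_lit 5) (nat_lit 65) (nat_lit 5) (nat_lit 66) (nat_lit 4) (nat_lit 481) (nat_lit 339) (nat_lit 320))) (XT.nd (nat_lit 78) (nat_lit 228) (nat_lit 0) (XT.lf (nat_lit 0) (nat_lit 2557595335) (nat_lit 304) (nat_lit 6059918348) (nat_lit 76) (nat_lit 3779358658) (nat_lit 58) (nat_lit 5)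 (nat_lit 62) (nat_lit 5) (nat_lit 59) (nat_lit 4) (nat_lit 482) (nat_lit 339) (nat_lit 319)) (XT.nd (nat_lit 78) (nat_lit 0) (nat_lit 0) (XT.lf (nat_lit 0) (nat_lit 2458483127) (nat_lit 228) (nat_lit 4540388447) (nat_lit 304) (nat_lit 5543801426) (nat_lit 55) (nat_lit 5) (nat_lit 58) (nat_lit 5) (nat_lit 59) (nat_lit 4) (nat_lit 483) (nat_lit 339) (nat_lit 318)) (XT.lf (nat_lit 0) (nat_lit 11131742818) (nat_lit 228) (nat_lit 380670500) (nat_lit 304) (nat_lit 1179317324) (nat_lit 55) (nat_lit 5) (nat_lit 58) (nat_lit 5) (nat_lit 59) (nat_lit 4) (nat_lit 484) (nat_lit 339) (nat_lit 317))))) (XT.nd (nat_lit 234) (nat_lit 456) (nat_lit 0) (XT.nd (nat_lit 78) (nat_lit 152) (nat_lit 0) (XT.lf (nat_lit 0) (nat_lit 3244480435) (nat_lit 304) (nat_lit 5758619109) (nat_lit 76) (nat_lit 3839955491) (nat_lit 51) (nat_lit 5) (nat_lit 55) (nat_lit 5) (nat_lit 52) (nat_lit 4) (nat_lit 485) (nat_lit 339) (nat_lit 316)) (XT.nd (nat_lit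 78) (nat_lit 0) (nat_lit 0) (XT.lf (nat_lit 0) (nat_lit 2856020133) (nat_lit 152) (nat_lit 4860301656) (nat_lit 228) (nat_lit 5281430255) (nat_lit 49) (nat_lit 5) (nat_lit 51) (nat_lit 5) (nat_lit 52) (nat_lit 4) (nat_lit 486) (nat_lit 339) (nat_lit 315)) (XT.lf (nat_lit 0) (nat_lit 11624913806) (nat_lit 152) (nat_lit 635550789) (nat_lit 228) (nat_lit 895430134) (nat_lit 49) (nat_lit 5) (nat_lit 51) (nat_lit 5) (nat_lit 52) (nat_lit 4) (nat_lit 487) (nat_lit 339) (nat_lit 314)))) (XT.nd (nat_lit 78) (nat_lit 152) (nat_lit 0) (XT.lf (nat_lit 0) (nat_lit 3547294724) (nat_lit 304) (nat_lit 6112361587) (nat_lit 76) (nat_lit 3656769288) (nat_lit 45) (nat_lit 5) (nat_lit 49) (nat_lit 5) (nat_lit 46) (nat_lit 4) (nat_lit 488) (nat_lit 339) (nat_lit 313)) (XT.nd (nat_lit 78) (nat_lit 0) (nat_lit 0) (XT.lf (nat_lit 0) (nat_lit 2583100340) (nat_lit 152) (nat_lit 5460270141) (nat_lit 228) (nat_lit 5437157012) (nat_lit 43) (nat_lit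 5) (nat_lit 45) (nat_lit 5) (nat_lit 46) (nat_lit 4) (nat_lit 489) (nat_lit 339) (nat_lit 312)) (XT.lf (nat_lit 0) (nat_lit 11440780720) (nat_lit 152) (nat_lit 1175218906) (nat_lit 228) (nat_lit 1032187502) (nat_lit 43) (nat_lit 5) (nat_lit 45) (nat_lit 5) (nat_lit 46) (nat_lit 4) (nat_lit 490) (nat_lit 339) (nat_lit 311))))))))
noncomputable def xc13 : XT := (XT.nd (nat_lit 57252) (nat_lit 0) (nat_lit 2508) (XT.nd (nat_lit 780) (nat_lit 608) (nat_lit 0) (XT.nd (nat_lit 390) (nat_lit 608) (nat_lit 0) (XT.nd (nat_lit 156) (nat_lit 228) (nat_lit 0) (XT.nd (nat_lit 78) (nat_lit 152) (nat_lit 0) (XT.lf (nat_lit 0) (nat_lit 3425764366) (nat_lit 304) (nat_lit 7212443284) (nat_lit 76) (nat_lit 3180345455) (nat_lit 39) (nat_lit 5) (nat_lit 43) (nat_lit 5) (nat_lit 40) (nat_lit 4) (nat_lit 491) (nat_lit 339) (nat_lit 310)) (XT.lf (nat_lit 0) (nat_lit 1545730033) (nat_lit 152) (nat_lit 6392579984) (nat_lit 228) (nat_lit 6054302673)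 (nat_lit 37) (nat_lit 5) (nat_lit 39) (nat_lit 5) (nat_lit 40) (nat_lit 4) (nat_lit 492) (nat_lit 339) (nat_lit 309))) (XT.nd (nat_lit 78) (nat_lit 228) (nat_lit 0) (XT.lf (nat_lit 0) (nat_lit 10483835250) (nat_lit 152) (nat_lit 2052628631) (nat_lit 228) (nat_lit 1633790146) (nat_lit 37) (nat_lit 5) (nat_lit 39) (nat_lit 5) (nat_lit 40) (nat_lit 4) (nat_lit 493) (nat_lit 339) (nat_lit 308)) (XT.nd (nat_lit 78) (nat_lit 0) (nat_lit 0) (XT.lf (nat_lit 0) (nat_lit 2834383526) (nat_lit 228) (nat_lit 9159958401) (nat_lit 76) (nat_lit 2356801148) (nat_lit 34) (nat_lit 5) (nat_lit 37) (nat_lit 5) (nat_lit 35) (nat_lit 4) (nat_lit 494) (nat_lit 339) (nat_lit 307)) (XT.lf (nat_lit 0) (nat_lit 7356384513) (nat_lit 228) (nat_lit 355485262) (nat_lit 76) (nat_lit 6823844598) (nat_lit 34) (nat_lit 5) (nat_lit 37) (nat_lit 5) (nat_lit 35) (nat_lit 4) (nat_lit 495) (nat_lit 339) (nat_lit 306))))) (XT.nd (nat_lit 156) (nat_lit 228) (nat_lit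 0) (XT.nd (nat_lit 78) (nat_lit 228) (nat_lit 0) (XT.lf (nat_lit 0) (nat_lit 8648242266) (nat_lit 152) (nat_lit 3325581061) (nat_lit 228) (nat_lit 2750060931) (nat_lit 32) (nat_lit 5) (nat_lit 34) (nat_lit 5) (nat_lit 35) (nat_lit 4) (nat_lit 496) (nat_lit 339) (nat_lit 305)) (XT.lf (nat_lit 0) (nat_lit 1721899219) (nat_lit 228) (nat_lit 12066897515) (nat_lit 76) (nat_lit 1127252280) (nat_lit 29) (nat_lit 5) (nat_lit 32) (nat_lit 5) (nat_lit 30) (nat_lit 4) (nat_lit 497) (nat_lit 339) (nat_lit 304))) (XT.nd (nat_lit 78) (nat_lit 228) (nat_lit 0) (XT.lf (nat_lit 0) (nat_lit 6258664645) (nat_lit 228) (nat_lit 3207471570) (nat_lit 76) (nat_lit 5645320211) (nat_lit 29) (nat_lit 5) (nat_lit 32) (nat_lit 5) (nat_lit 30) (nat_lit 4) (nat_lit 498) (nat_lit 339) (nat_lit 303)) (XT.nd (nat_lit 78) (nat_lit 76) (nat_lit 0) (XT.lf (nat_lit 0) (nat_lit 5816683009) (nat_lit 152) (nat_lit 5057336852) (nat_lit 228) (nat_lit 4437001613)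 (nat_lit 27) (nat_lit 5) (nat_lit 29) (nat_lit 5) (nat_lit 30) (nat_lit 4) (nat_lit 499) (nat_lit 339) (nat_lit 302)) (XT.lf (nat_lit 0) (nat_lit 38051384) (nat_lit 228) (nat_lit 538758299) (nat_lit 76) (nat_lit 14938329204) (nat_lit 26) (nat_lit 5) (nat_lit 29) (nat_lit 5) (nat_lit 27) (nat_lit 5) (nat_lit 500) (nat_lit 339) (nat_lit 301)))))) (XT.nd (nat_lit 390) (nat_lit 76) (nat_lit 0) (XT.nd (nat_lit 156) (nat_lit 228) (nat_lit 0) (XT.nd (nat_lit 78) (nat_lit 152) (nat_lit 0) (XT.lf (nat_lit 0) (nat_lit 4576416607) (nat_lit 228) (nat_lit 7156714684) (nat_lit 76) (nat_lit 3988962532) (nat_lit 24) (nat_lit 5) (nat_lit 27) (nat_lit 5) (nat_lit 25) (nat_lit 4) (nat_lit 501) (nat_lit 339) (nat_lit 300)) (XT.lf (nat_lit 0) (nat_lit 1859079973) (nat_lit 152) (nat_lit 7317286056) (nat_lit 228) (nat_lit 6757411565) (nat_lit 22) (nat_lit 5) (nat_lit 24) (nat_lit 5) (nat_lit 25) (nat_lit 4) (nat_lit 502) (nat_lit 339) (nat_lit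 299))) (XT.nd (nat_lit 78) (nat_lit 228) (nat_lit 0) (XT.lf (nat_lit 0) (nat_lit 11065530547) (nat_lit 152) (nat_lit 2802488929) (nat_lit 228) (nat_lit 2281687420) (nat_lit 22) (nat_lit 5) (nat_lit 24) (nat_lit 5) (nat_lit 25) (nat_lit 4) (nat_lit 503) (nat_lit 339) (nat_lit 298)) (XT.nd (nat_lit 78) (nat_lit 0) (nat_lit 0) (XT.lf (nat_lit 0) (nat_lit 2243860879) (nat_lit 228) (nat_lit 12343136857) (nat_lit 76) (nat_lit 1782861071) (nat_lit 19) (nat_lit 5) (nat_lit 22) (nat_lit 5) (nat_lit 20) (nat_lit 4) (nat_lit 504) (nat_lit 339) (nat_lit 297)) (XT.lf (nat_lit 0) (nat_lit 6834745492) (nat_lit 228) (nat_lit 3324626594) (nat_lit 76) (nat_lit 6434638099) (nat_lit 19) (nat_lit 5) (nat_lit 22) (nat_lit 5) (nat_lit 20) (nat_lit 4) (nat_lit 505) (nat_lit 339) (nat_lit 296))))) (XT.nd (nat_lit 55848) (nat_lit 0) (nat_lit 7448) (XT.nd (nat_lit 78) (nat_lit 0) (nat_lit 0) (XT.lf (nat_lit 0) (nat_lit 5867129023) (nat_lit 76)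 (nat_lit 5641790118) (nat_lit 152) (nat_lit 5313901526) (nat_lit 18) (nat_lit 5) (nat_lit 19) (nat_lit 5) (nat_lit 20) (nat_lit 4) (nat_lit 506) (nat_lit 339) (nat_lit 295)) (XT.nd (nat_lit 55692) (nat_lit 0) (nat_lit 8208) (XT.lf (nat_lit 0) (nat_lit 15204265753) (nat_lit 76) (nat_lit 1048370442) (nat_lit 152) (nat_lit 804055361) (nat_lit 18) (nat_lit 5) (nat_lit 19) (nat_lit 5) (nat_lit 20) (nat_lit 4) (nat_lit 507) (nat_lit 339) (nat_lit 294)) (XT.lf (nat_lit 0) (nat_lit 783077997) (nat_lit 380) (nat_lit 2066046618) (nat_lit 380) (nat_lit 2066046618) (nat_lit 126) (nat_lit 4) (nat_lit 131) (nat_lit 5) (nat_lit 131) (nat_lit 4) (nat_lit 460) (nat_lit 340) (nat_lit 340)))) (XT.nd (nat_lit 78) (nat_lit 684) (nat_lit 0) (XT.lf (nat_lit 0) (nat_lit 124358928) (nat_lit 456) (nat_lit 553210922) (nat_lit 76) (nat_lit 9246830176) (nat_lit 125) (nat_lit 5) (nat_lit 131) (nat_lit 5) (nat_lit 126) (nat_lit 4) (nat_lit 461) (nat_lit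 340) (nat_lit 339)) (XT.nd (nat_lit 78) (nat_lit 380) (nat_lit 0) (XT.lf (nat_lit 0) (nat_lit 4410292401) (nat_lit 380) (nat_lit 2761054006) (nat_lit 0) (nat_lit 2848469798) (nat_lit 121) (nat_lit 5) (nat_lit 126) (nat_lit 4) (nat_lit 121) (nat_lit 4) (nat_lit 462) (nat_lit 340) (nat_lit 338)) (XT.lf (nat_lit 0) (nat_lit 5076859663) (nat_lit 380) (nat_lit 3680317565) (nat_lit 380) (nat_lit 1360475838) (nat_lit 116) (nat_lit 4) (nat_lit 121) (nat_lit 5) (nat_lit 121) (nat_lit 4) (nat_lit 463) (nat_lit 340) (nat_lit 337))))))) (XT.nd (nat_lit 858) (nat_lit 2204) (nat_lit 0) (XT.nd (nat_lit 390) (nat_lit 1368) (nat_lit 0) (XT.nd (nat_lit 156) (nat_lit 684) (nat_lit 0) (XT.nd (nat_lit 78) (nat_lit 304) (nat_lit 0) (XT.lf (nat_lit 0) (nat_lit 2806425108) (nat_lit 304) (nat_lit 99229762) (nat_lit 380) (nat_lit 7312000013) (nat_lit 111) (nat_lit 5) (nat_lit 115) (nat_lit 5) (nat_lit 116) (nat_lit 4) (nat_lit 464) (nat_lit 340)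 (nat_lit 336)) (XT.lf (nat_lit 0) (nat_lit 430034635) (nat_lit 304) (nat_lit 6803402335) (nat_lit 304) (nat_lit 3086165032) (nat_lit 107) (nat_lit 4) (nat_lit 111) (nat_lit 5) (nat_lit 111) (nat_lit 4) (nat_lit 465) (nat_lit 340) (nat_lit 335))) (XT.nd (nat_lit 78) (nat_lit 608) (nat_lit 0) (XT.lf (nat_lit 0) (nat_lit 1193637238) (nat_lit 380) (nat_lit 2006382581) (nat_lit 76) (nat_lit 7223714569) (nat_lit 106) (nat_lit 5) (nat_lit 111) (nat_lit 5) (nat_lit 107) (nat_lit 4) (nat_lit 466) (nat_lit 340) (nat_lit 334)) (XT.nd (nat_lit 78) (nat_lit 304) (nat_lit 0) (XT.lf (nat_lit 0) (nat_lit 5495950625) (nat_lit 380) (nat_lit 4542101373) (nat_lit 0) (nat_lit 491939764) (nat_lit 102) (nat_lit 5) (nat_lit 107) (nat_lit 4) (nat_lit 102) (nat_lit 4) (nat_lit 467) (nat_lit 340) (nat_lit 333)) (XT.lf (nat_lit 0) (nat_lit 3453367883) (nat_lit 304) (nat_lit 6424530784) (nat_lit 304) (nat_lit 760618659) (nat_lit 98) (nat_lit 4)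 (nat_lit 102) (nat_lit 5) (nat_lit 102) (nat_lit 4) (nat_lit 468) (nat_lit 340) (nat_lit 332))))) (XT.nd (nat_lit 234) (nat_lit 608) (nat_lit 0) (XT.nd (nat_lit 78) (nat_lit 380) (nat_lit 0) (XT.lf (nat_lit 0) (nat_lit 806758061) (nat_lit 304) (nat_lit 2716822240) (nat_lit 380) (nat_lit 7225730089) (nat_lit 93) (nat_lit 5) (nat_lit 97) (nat_lit 5) (nat_lit 98) (nat_lit 4) (nat_lit 469) (nat_lit 340) (nat_lit 331)) (XT.nd (nat_lit 78) (nat_lit 380) (nat_lit 0) (XT.lf (nat_lit 0) (nat_lit 7875654817) (nat_lit 380) (nat_lit 1920046777) (nat_lit 0) (nat_lit 1066683599) (nat_lit 93) (nat_lit 5) (nat_lit 98) (nat_lit 4) (nat_lit 93) (nat_lit 4) (nat_lit 470) (nat_lit 340) (nat_lit 330)) (XT.lf (nat_lit 0) (nat_lit 1316047963) (nat_lit 380) (nat_lit 4760201095) (nat_lit 76) (nat_lit 4901381543) (nat_lit 88) (nat_lit 5) (nat_lit 93) (nat_lit 5) (nat_lit 89) (nat_lit 4) (nat_lit 471) (nat_lit 340) (nat_lit 329)))) (XT.nd (nat_lit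 78) (nat_lit 380) (nat_lit 0) (XT.lf (nat_lit 0) (nat_lit 3372639111) (nat_lit 228) (nat_lit 2265454947) (nat_lit 304) (nat_lit 5457241075) (nat_lit 85) (nat_lit 5) (nat_lit 88) (nat_lit 5) (nat_lit 89) (nat_lit 4) (nat_lit 472) (nat_lit 340) (nat_lit 328)) (XT.nd (nat_lit 78) (nat_lit 76) (nat_lit 0) (XT.lf (nat_lit 0) (nat_lit 411756657) (nat_lit 304) (nat_lit 9618791370) (nat_lit 304) (nat_lit 1185179285) (nat_lit 81) (nat_lit 4) (nat_lit 85) (nat_lit 5) (nat_lit 85) (nat_lit 4) (nat_lit 473) (nat_lit 340) (nat_lit 327)) (XT.lf (nat_lit 0) (nat_lit 3136636184) (nat_lit 380) (nat_lit 2660826366) (nat_lit 76) (nat_lit 5540546879) (nat_lit 80) (nat_lit 5) (nat_lit 85) (nat_lit 5) (nat_lit 81) (nat_lit 4) (nat_lit 474) (nat_lit 340) (nat_lit 326)))))) (XT.nd (nat_lit 390) (nat_lit 1064) (nat_lit 0) (XT.nd (nat_lit 156) (nat_lit 532) (nat_lit 0) (XT.nd (nat_lit 78) (nat_lit 380) (nat_lit 0) (XT.lf (nat_lit 0) (nat_lit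 5611939392) (nat_lit 228) (nat_lit 1893479770) (nat_lit 304) (nat_lit 3957645482) (nat_lit 77) (nat_lit 5) (nat_lit 80) (nat_lit 5) (nat_lit 81) (nat_lit 4) (nat_lit 475) (nat_lit 340) (nat_lit 325)) (XT.lf (nat_lit 0) (nat_lit 353444952) (nat_lit 380) (nat_lit 9178547270) (nat_lit 76) (nat_lit 2058845183) (nat_lit 72) (nat_lit 5) (nat_lit 77) (nat_lit 5) (nat_lit 73) (nat_lit 4) (nat_lit 476) (nat_lit 340) (nat_lit 324))) (XT.nd (nat_lit 78) (nat_lit 532) (nat_lit 0) (XT.lf (nat_lit 0) (nat_lit 4690241546) (nat_lit 380) (nat_lit 938545794) (nat_lit 76) (nat_lit 6092016986) (nat_lit 72) (nat_lit 5) (nat_lit 77) (nat_lit 5) (nat_lit 73) (nat_lit 4) (nat_lit 477) (nat_lit 340) (nat_lit 323)) (XT.nd (nat_lit 78) (nat_lit 304) (nat_lit 0) (XT.lf (nat_lit 0) (nat_lit 7466688926) (nat_lit 228) (nat_lit 1637097106) (nat_lit 304) (nat_lit 2749795540) (nat_lit 69) (nat_lit 5) (nat_lit 72) (nat_lit 5) (nat_lit 73) (nat_lit 4)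 (nat_lit 478) (nat_lit 340) (nat_lit 322)) (XT.lf (nat_lit 0) (nat_lit 1585240149) (nat_lit 304) (nat_lit 7996914452) (nat_lit 76) (nat_lit 2406863532) (nat_lit 65) (nat_lit 5) (nat_lit 69) (nat_lit 5) (nat_lit 66) (nat_lit 4) (nat_lit 479) (nat_lit 340) (nat_lit 321))))) (XT.nd (nat_lit 234) (nat_lit 532) (nat_lit 0) (XT.nd (nat_lit 78) (nat_lit 304) (nat_lit 0) (XT.lf (nat_lit 0) (nat_lit 348991614) (nat_lit 228) (nat_lit 5605856644) (nat_lit 304) (nat_lit 6172268393) (nat_lit 62) (nat_lit 5) (nat_lit 65) (nat_lit 5) (nat_lit 66) (nat_lit 4) (nat_lit 480) (nat_lit 340) (nat_lit 320)) (XT.nd (nat_lit 78) (nat_lit 304) (nat_lit 0) (XT.lf (nat_lit 0) (nat_lit 8872951212) (nat_lit 228) (nat_lit 1534984360) (nat_lit 304) (nat_lit 1860130196) (nat_lit 62) (nat_lit 5) (nat_lit 65) (nat_lit 5) (nat_lit 66) (nat_lit 4) (nat_lit 481) (nat_lit 340) (nat_lit 319)) (XT.lf (nat_lit 0) (nat_lit 2498374135) (nat_lit 304) (nat_lit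 7319082973) (nat_lit 76) (nat_lit 2594188868) (nat_lit 58) (nat_lit 5) (nat_lit 62) (nat_lit 5) (nat_lit 59) (nat_lit 4) (nat_lit 482) (nat_lit 340) (nat_lit 318)))) (XT.nd (nat_lit 78) (nat_lit 304) (nat_lit 0) (XT.lf (nat_lit 0) (nat_lit 1134241499) (nat_lit 228) (nat_lit 5768795560) (nat_lit 304) (nat_lit 5655146679) (nat_lit 55) (nat_lit 5) (nat_lit 58) (nat_lit 5) (nat_lit 59) (nat_lit 4) (nat_lit 483) (nat_lit 340) (nat_lit 317)) (XT.nd (nat_lit 78) (nat_lit 304) (nat_lit 0) (XT.lf (nat_lit 0) (nat_lit 9760105733) (nat_lit 228) (nat_lit 1628699212) (nat_lit 304) (nat_lit 1318996656) (nat_lit 55) (nat_lit 5) (nat_lit 58) (nat_lit 5) (nat_lit 59) (nat_lit 4) (nat_lit 484) (nat_lit 340) (nat_lit 316)) (XT.lf (nat_lit 0) (nat_lit 3061489426) (nat_lit 304) (nat_lit 7219840529) (nat_lit 76) (nat_lit 2578721606) (nat_lit 51) (nat_lit 5) (nat_lit 55) (nat_lit 5) (nat_lit 52) (nat_lit 4) (nat_lit 485) (nat_lit 340) (nat_lit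 315))))))))
noncomputable def xc14 : XT := (XT.nd (nat_lit 1638) (nat_lit 0) (nat_lit 0) (XT.nd (nat_lit 780) (nat_lit 1216) (nat_lit 0) (XT.nd (nat_lit 390) (nat_lit 684) (nat_lit 0) (XT.nd (nat_lit 156) (nat_lit 456) (nat_lit 0) (XT.nd (nat_lit 78) (nat_lit 0) (nat_lit 0) (XT.lf (nat_lit 0) (nat_lit 1327806605) (nat_lit 152) (nat_lit 6168297637) (nat_lit 228) (nat_lit 5519393328) (nat_lit 49) (nat_lit 5) (nat_lit 51) (nat_lit 5) (nat_lit 52) (nat_lit 4) (nat_lit 486) (nat_lit 340) (nat_lit 314)) (XT.lf (nat_lit 0) (nat_lit 10050059844) (nat_lit 152) (nat_lit 1963115404) (nat_lit 228) (nat_lit 1161010825) (nat_lit 49) (nat_lit 5) (nat_lit 51) (nat_lit 5) (nat_lit 52) (nat_lit 4) (nat_lit 487) (nat_lit 340) (nat_lit 313))) (XT.nd (nat_lit 78) (nat_lit 152) (nat_lit 0) (XT.lf (nat_lit 0) (nat_lit 3238875195) (nat_lit 304) (nat_lit 7781881402) (nat_lit 76) (nat_lit 2314925483) (nat_lit 45) (nat_lit 5) (nat_lit 49) (nat_lit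 5) (nat_lit 46) (nat_lit 4) (nat_lit 488) (nat_lit 340) (nat_lit 312)) (XT.nd (nat_lit 78) (nat_lit 0) (nat_lit 0) (XT.lf (nat_lit 0) (nat_lit 844588804) (nat_lit 152) (nat_lit 6852455055) (nat_lit 228) (nat_lit 5803502388) (nat_lit 43) (nat_lit 5) (nat_lit 45) (nat_lit 5) (nat_lit 46) (nat_lit 4) (nat_lit 489) (nat_lit 340) (nat_lit 311)) (XT.lf (nat_lit 0) (nat_lit 9656382242) (nat_lit 152) (nat_lit 2586895261) (nat_lit 228) (nat_lit 1425460337) (nat_lit 43) (nat_lit 5) (nat_lit 45) (nat_lit 5) (nat_lit 46) (nat_lit 4) (nat_lit 490) (nat_lit 340) (nat_lit 310))))) (XT.nd (nat_lit 156) (nat_lit 380) (nat_lit 0) (XT.nd (nat_lit 78) (nat_lit 0) (nat_lit 0) (XT.lf (nat_lit 0) (nat_lit 2990051841) (nat_lit 304) (nat_lit 9096713507) (nat_lit 76) (nat_lit 1753345377) (nat_lit 39) (nat_lit 5) (nat_lit 43) (nat_lit 5) (nat_lit 40) (nat_lit 4) (nat_lit 491) (nat_lit 340) (nat_lit 309)) (XT.lf (nat_lit 0) (nat_lit 7466602090)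 (nat_lit 304) (nat_lit 404247591) (nat_lit 76) (nat_lit 6144044351) (nat_lit 39) (nat_lit 5) (nat_lit 43) (nat_lit 5) (nat_lit 40) (nat_lit 4) (nat_lit 492) (nat_lit 340) (nat_lit 308))) (XT.nd (nat_lit 78) (nat_lit 228) (nat_lit 0) (XT.lf (nat_lit 0) (nat_lit 8483349426) (nat_lit 152) (nat_lit 3553003463) (nat_lit 228) (nat_lit 2156754282) (nat_lit 37) (nat_lit 5) (nat_lit 39) (nat_lit 5) (nat_lit 40) (nat_lit 4) (nat_lit 493) (nat_lit 340) (nat_lit 307)) (XT.nd (nat_lit 78) (nat_lit 0) (nat_lit 0) (XT.lf (nat_lit 0) (nat_lit 2269307747) (nat_lit 228) (nat_lit 11265656822) (nat_lit 76) (nat_lit 840082561) (nat_lit 34) (nat_lit 5) (nat_lit 37) (nat_lit 5) (nat_lit 35) (nat_lit 4) (nat_lit 494) (nat_lit 340) (nat_lit 306)) (XT.lf (nat_lit 0) (nat_lit 6765985805) (nat_lit 228) (nat_lit 2505866022) (nat_lit 76) (nat_lit 5288276582) (nat_lit 34) (nat_lit 5) (nat_lit 37) (nat_lit 5) (nat_lit 35) (nat_lit 4) (nat_lit 495)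 (nat_lit 340) (nat_lit 305)))))) (XT.nd (nat_lit 390) (nat_lit 684) (nat_lit 0) (XT.nd (nat_lit 156) (nat_lit 152) (nat_lit 0) (XT.nd (nat_lit 78) (nat_lit 228) (nat_lit 0) (XT.lf (nat_lit 0) (nat_lit 6424895701) (nat_lit 152) (nat_lit 4919267076) (nat_lit 228) (nat_lit 3404924209) (nat_lit 32) (nat_lit 5) (nat_lit 34) (nat_lit 5) (nat_lit 35) (nat_lit 4) (nat_lit 496) (nat_lit 340) (nat_lit 304)) (XT.lf (nat_lit 0) (nat_lit 538159418) (nat_lit 152) (nat_lit 490206871) (nat_lit 228) (nat_lit 13913918976) (nat_lit 29) (nat_lit 5) (nat_lit 31) (nat_lit 5) (nat_lit 32) (nat_lit 5) (nat_lit 497) (nat_lit 340) (nat_lit 303))) (XT.nd (nat_lit 78) (nat_lit 152) (nat_lit 0) (XT.lf (nat_lit 0) (nat_lit 5537240412) (nat_lit 228) (nat_lit 5585451178) (nat_lit 76) (nat_lit 4015562169) (nat_lit 29) (nat_lit 5) (nat_lit 32) (nat_lit 5) (nat_lit 30) (nat_lit 4) (nat_lit 498) (nat_lit 340) (nat_lit 302)) (XT.nd (nat_lit 78) (nat_lit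 0) (nat_lit 0) (XT.lf (nat_lit 0) (nat_lit 3363456319) (nat_lit 152) (nat_lit 6748987259) (nat_lit 228) (nat_lit 5226181461) (nat_lit 27) (nat_lit 5) (nat_lit 29) (nat_lit 5) (nat_lit 30) (nat_lit 4) (nat_lit 499) (nat_lit 340) (nat_lit 301)) (XT.lf (nat_lit 0) (nat_lit 12480620044) (nat_lit 152) (nat_lit 2287477727) (nat_lit 228) (nat_lit 775133356) (nat_lit 27) (nat_lit 5) (nat_lit 29) (nat_lit 5) (nat_lit 30) (nat_lit 4) (nat_lit 500) (nat_lit 340) (nat_lit 300))))) (XT.nd (nat_lit 234) (nat_lit 304) (nat_lit 0) (XT.nd (nat_lit 78) (nat_lit 152) (nat_lit 0) (XT.lf (nat_lit 0) (nat_lit 3721461627) (nat_lit 228) (nat_lit 9769473684) (nat_lit 76) (nat_lit 2260393138) (nat_lit 24) (nat_lit 5) (nat_lit 27) (nat_lit 5) (nat_lit 25) (nat_lit 4) (nat_lit 501) (nat_lit 340) (nat_lit 299)) (XT.nd (nat_lit 78) (nat_lit 152) (nat_lit 0) (XT.lf (nat_lit 0) (nat_lit 8285698313) (nat_lit 228) (nat_lit 820404966) (nat_lit 76) (nat_lit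 6857626144) (nat_lit 24) (nat_lit 5) (nat_lit 27) (nat_lit 5) (nat_lit 25) (nat_lit 4) (nat_lit 502) (nat_lit 340) (nat_lit 298)) (XT.lf (nat_lit 0) (nat_lit 8333077663) (nat_lit 152) (nat_lit 4615424800) (nat_lit 228) (nat_lit 3231736140) (nat_lit 22) (nat_lit 5) (nat_lit 24) (nat_lit 5) (nat_lit 25) (nat_lit 4) (nat_lit 503) (nat_lit 340) (nat_lit 297)))) (XT.nd (nat_lit 78) (nat_lit 76) (nat_lit 0) (XT.lf (nat_lit 0) (nat_lit 1203130037) (nat_lit 152) (nat_lit 49855405) (nat_lit 228) (nat_lit 15148596951) (nat_lit 19) (nat_lit 5) (nat_lit 21) (nat_lit 5) (nat_lit 22) (nat_lit 5) (nat_lit 504) (nat_lit 340) (nat_lit 296)) (XT.nd (nat_lit 78) (nat_lit 76) (nat_lit 0) (XT.lf (nat_lit 0) (nat_lit 5820466189) (nat_lit 228) (nat_lit 6221238846) (nat_lit 76) (nat_lit 4584499539) (nat_lit 19) (nat_lit 5) (nat_lit 22) (nat_lit 5) (nat_lit 20) (nat_lit 4) (nat_lit 505) (nat_lit 340) (nat_lit 295)) (XT.lf (nat_lit 0) (nat_lit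 2890675690) (nat_lit 76) (nat_lit 7562011417) (nat_lit 152) (nat_lit 6403169674) (nat_lit 18) (nat_lit 5) (nat_lit 19) (nat_lit 5) (nat_lit 20) (nat_lit 4) (nat_lit 506) (nat_lit 340) (nat_lit 294))))))) (XT.nd (nat_lit 56316) (nat_lit 0) (nat_lit 3876) (XT.nd (nat_lit 55848) (nat_lit 0) (nat_lit 6384) (XT.nd (nat_lit 55614) (nat_lit 0) (nat_lit 8132) (XT.nd (nat_lit 55536) (nat_lit 0) (nat_lit 9044) (XT.lf (nat_lit 0) (nat_lit 12187276511) (nat_lit 76) (nat_lit 2986680523) (nat_lit 152) (nat_lit 1916222197) (nat_lit 18) (nat_lit 5) (nat_lit 19) (nat_lit 5) (nat_lit 20) (nat_lit 4) (nat_lit 507) (nat_lit 340) (nat_lit 293)) (XT.lf (nat_lit 0) (nat_lit 2832068709) (nat_lit 380) (nat_lit 996008151) (nat_lit 380) (nat_lit 996008151) (nat_lit 137) (nat_lit 4) (nat_lit 142) (nat_lit 5) (nat_lit 142) (nat_lit 4) (nat_lit 458) (nat_lit 341) (nat_lit 341))) (XT.nd (nat_lit 78) (nat_lit 456) (nat_lit 0) (XT.lf (nat_lit 0) (nat_lit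 2226178358) (nat_lit 456) (nat_lit 6106793064) (nat_lit 0) (nat_lit 1405674080) (nat_lit 131) (nat_lit 5) (nat_lit 137) (nat_lit 4) (nat_lit 131) (nat_lit 4) (nat_lit 459) (nat_lit 341) (nat_lit 340)) (XT.nd (nat_lit 78) (nat_lit 76) (nat_lit 0) (XT.lf (nat_lit 0) (nat_lit 1515007676) (nat_lit 380) (nat_lit 4970464795) (nat_lit 380) (nat_lit 3345544558) (nat_lit 126) (nat_lit 4) (nat_lit 131) (nat_lit 5) (nat_lit 131) (nat_lit 4) (nat_lit 460) (nat_lit 341) (nat_lit 339)) (XT.lf (nat_lit 0) (nat_lit 867738679) (nat_lit 456) (nat_lit 660731200) (nat_lit 76) (nat_lit 8397168225) (nat_lit 125) (nat_lit 5) (nat_lit 131) (nat_lit 5) (nat_lit 126) (nat_lit 4) (nat_lit 461) (nat_lit 341) (nat_lit 338))))) (XT.nd (nat_lit 234) (nat_lit 684) (nat_lit 0) (XT.nd (nat_lit 78) (nat_lit 760) (nat_lit 0) (XT.lf (nat_lit 0) (nat_lit 5114785097) (nat_lit 380) (nat_lit 2916527938) (nat_lit 0) (nat_lit 1990527411) (nat_lit 121) (nat_lit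 5) (nat_lit 126) (nat_lit 4) (nat_lit 121) (nat_lit 4) (nat_lit 462) (nat_lit 341) (nat_lit 337)) (XT.nd (nat_lit 78) (nat_lit 380) (nat_lit 0) (XT.lf (nat_lit 0) (nat_lit 4868851953) (nat_lit 380) (nat_lit 4559457258) (nat_lit 380) (nat_lit 692043568) (nat_lit 116) (nat_lit 4) (nat_lit 121) (nat_lit 5) (nat_lit 121) (nat_lit 4) (nat_lit 463) (nat_lit 341) (nat_lit 336)) (XT.lf (nat_lit 0) (nat_lit 2537946424) (nat_lit 304) (nat_lit 993709235) (nat_lit 380) (nat_lit 6689293374) (nat_lit 111) (nat_lit 5) (nat_lit 115) (nat_lit 5) (nat_lit 116) (nat_lit 4) (nat_lit 464) (nat_lit 341) (nat_lit 335)))) (XT.nd (nat_lit 78) (nat_lit 380) (nat_lit 0) (XT.lf (nat_lit 0) (nat_lit 109763590) (nat_lit 304) (nat_lit 7710052834) (nat_lit 304) (nat_lit 2503879934) (nat_lit 107) (nat_lit 4) (nat_lit 111) (nat_lit 5) (nat_lit 111) (nat_lit 4) (nat_lit 465) (nat_lit 341) (nat_lit 334)) (XT.nd (nat_lit 78) (nat_lit 304) (nat_lit 0) (XT.lf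 (nat_lit 0) (nat_lit 1736634551) (nat_lit 380) (nat_lit 2384732382) (nat_lit 76) (nat_lit 6307026700) (nat_lit 106) (nat_lit 5) (nat_lit 111) (nat_lit 5) (nat_lit 107) (nat_lit 4) (nat_lit 466) (nat_lit 341) (nat_lit 333)) (XT.lf (nat_lit 0) (nat_lit 5557940165) (nat_lit 304) (nat_lit 443927968) (nat_lit 380) (nat_lit 4533531802) (nat_lit 102) (nat_lit 5) (nat_lit 106) (nat_lit 5) (nat_lit 107) (nat_lit 4) (nat_lit 467) (nat_lit 341) (nat_lit 332)))))) (XT.nd (nat_lit 390) (nat_lit 1216) (nat_lit 0) (XT.nd (nat_lit 156) (nat_lit 608) (nat_lit 0) (XT.nd (nat_lit 78) (nat_lit 380) (nat_lit 0) (XT.lf (nat_lit 0) (nat_lit 2965088173) (nat_lit 304) (nat_lit 7381818183) (nat_lit 304) (nat_lit 297764528) (nat_lit 98) (nat_lit 4) (nat_lit 102) (nat_lit 5) (nat_lit 102) (nat_lit 4) (nat_lit 468) (nat_lit 341) (nat_lit 331)) (XT.lf (nat_lit 0) (nat_lit 252560561) (nat_lit 304) (nat_lit 3693424938) (nat_lit 380) (nat_lit 6810112825)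 (nat_lit 93) (nat_lit 5) (nat_lit 97) (nat_lit 5) (nat_lit 98) (nat_lit 4) (nat_lit 469) (nat_lit 341) (nat_lit 330))) (XT.nd (nat_lit 78) (nat_lit 608) (nat_lit 0) (XT.lf (nat_lit 0) (nat_lit 8261102073) (nat_lit 380) (nat_lit 2524352021) (nat_lit 0) (nat_lit 84464966) (nat_lit 93) (nat_lit 5) (nat_lit 98) (nat_lit 4) (nat_lit 93) (nat_lit 4) (nat_lit 470) (nat_lit 341) (nat_lit 329)) (XT.nd (nat_lit 78) (nat_lit 228) (nat_lit 0) (XT.lf (nat_lit 0) (nat_lit 1654458306) (nat_lit 380) (nat_lit 5432324233) (nat_lit 76) (nat_lit 3899030299) (nat_lit 88) (nat_lit 5) (nat_lit 93) (nat_lit 5) (nat_lit 89) (nat_lit 4) (nat_lit 471) (nat_lit 341) (nat_lit 328)) (XT.lf (nat_lit 0) (nat_lit 2642164809) (nat_lit 228) (nat_lit 3299651160) (nat_lit 304) (nat_lit 5162401554) (nat_lit 85) (nat_lit 5) (nat_lit 88) (nat_lit 5) (nat_lit 89) (nat_lit 4) (nat_lit 472) (nat_lit 341) (nat_lit 327))))) (XT.nd (nat_lit 234) (nat_lit 608) (nat_lit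 0) (XT.nd (nat_lit 78) (nat_lit 608) (nat_lit 0) (XT.lf (nat_lit 0) (nat_lit 10295086833) (nat_lit 304) (nat_lit 375213418) (nat_lit 0) (nat_lit 555099370) (nat_lit 85) (nat_lit 5) (nat_lit 89) (nat_lit 4) (nat_lit 85) (nat_lit 4) (nat_lit 473) (nat_lit 341) (nat_lit 326)) (XT.nd (nat_lit 78) (nat_lit 228) (nat_lit 0) (XT.lf (nat_lit 0) (nat_lit 3355947225) (nat_lit 380) (nat_lit 3513149925) (nat_lit 76) (nat_lit 4479201764) (nat_lit 80) (nat_lit 5) (nat_lit 85) (nat_lit 5) (nat_lit 81) (nat_lit 4) (nat_lit 474) (nat_lit 341) (nat_lit 325)) (XT.lf (nat_lit 0) (nat_lit 4699604314) (nat_lit 228) (nat_lit 2990057326) (nat_lit 304) (nat_lit 3784399757) (nat_lit 77) (nat_lit 5) (nat_lit 80) (nat_lit 5) (nat_lit 81) (nat_lit 4) (nat_lit 475) (nat_lit 341) (nat_lit 324)))) (XT.nd (nat_lit 78) (nat_lit 228) (nat_lit 0) (XT.lf (nat_lit 0) (nat_lit 481661232) (nat_lit 380) (nat_lit 10168462347) (nat_lit 76) (nat_lit 952548898)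 (nat_lit 72) (nat_lit 5) (nat_lit 77) (nat_lit 5) (nat_lit 73) (nat_lit 4) (nat_lit 476) (nat_lit 341) (nat_lit 323)) (XT.nd (nat_lit 78) (nat_lit 228) (nat_lit 0) (XT.lf (nat_lit 0) (nat_lit 4789513896) (nat_lit 380) (nat_lit 1976725105) (nat_lit 76) (nat_lit 4966984832) (nat_lit 72) (nat_lit 5) (nat_lit 77) (nat_lit 5) (nat_lit 73) (nat_lit 4) (nat_lit 477) (nat_lit 341) (nat_lit 322)) (XT.lf (nat_lit 0) (nat_lit 6366766052) (nat_lit 228) (nat_lit 2800774500) (nat_lit 304) (nat_lit 2699176331) (nat_lit 69) (nat_lit 5) (nat_lit 72) (nat_lit 5) (nat_lit 73) (nat_lit 4) (nat_lit 478) (nat_lit 341) (nat_lit 321))))))))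
noncomputable def xc15 : XT := (XT.nd (nat_lit 1638) (nat_lit 684) (nat_lit 0) (XT.nd (nat_lit 780) (nat_lit 1368) (nat_lit 0) (XT.nd (nat_lit 390) (nat_lit 988) (nat_lit 0) (XT.nd (nat_lit 156) (nat_lit 532) (nat_lit 0) (XT.nd (nat_lit 78) (nat_lit 0) (nat_lit 0) (XT.lf (nat_lit 0) (nat_lit 1591514484) (nat_lit 304) (nat_lit 9179240960) (nat_lit 76) (nat_lit 1232270283) (nat_lit 65) (nat_lit 5) (nat_lit 69) (nat_lit 5) (nat_lit 66) (nat_lit 4) (nat_lit 479) (nat_lit 341) (nat_lit 320)) (XT.lf (nat_lit 0) (nat_lit 5930666137) (nat_lit 304) (nat_lit 885431398) (nat_lit 76) (nat_lit 5325640973) (nat_lit 65) (nat_lit 5) (nat_lit 69) (nat_lit 5) (nat_lit 66) (nat_lit 4) (nat_lit 480) (nat_lit 341) (nat_lit 319))) (XT.nd (nat_lit 78) (nat_lit 304) (nat_lit 0) (XT.lf (nat_lit 0) (nat_lit 7579554491) (nat_lit 228) (nat_lit 2770429441) (nat_lit 304) (nat_lit 1933384117) (nat_lit 62) (nat_lit 5) (nat_lit 65) (nat_lit 5) (nat_lit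 66) (nat_lit 4) (nat_lit 481) (nat_lit 341) (nat_lit 318)) (XT.nd (nat_lit 78) (nat_lit 0) (nat_lit 0) (XT.lf (nat_lit 0) (nat_lit 2381377283) (nat_lit 304) (nat_lit 8699803748) (nat_lit 76) (nat_lit 1346675649) (nat_lit 58) (nat_lit 5) (nat_lit 62) (nat_lit 5) (nat_lit 59) (nat_lit 4) (nat_lit 482) (nat_lit 341) (nat_lit 317)) (XT.lf (nat_lit 0) (nat_lit 6751209823) (nat_lit 304) (nat_lit 308128914) (nat_lit 76) (nat_lit 5515757055) (nat_lit 58) (nat_lit 5) (nat_lit 62) (nat_lit 5) (nat_lit 59) (nat_lit 4) (nat_lit 483) (nat_lit 341) (nat_lit 316))))) (XT.nd (nat_lit 156) (nat_lit 456) (nat_lit 0) (XT.nd (nat_lit 78) (nat_lit 304) (nat_lit 0) (XT.lf (nat_lit 0) (nat_lit 8267174313) (nat_lit 228) (nat_lit 2940546957) (nat_lit 304) (nat_lit 1517582163) (nat_lit 55) (nat_lit 5) (nat_lit 58) (nat_lit 5) (nat_lit 59) (nat_lit 4) (nat_lit 484) (nat_lit 341) (nat_lit 315)) (XT.lf (nat_lit 0) (nat_lit 2819683788) (nat_lit 304)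 (nat_lit 8805123988) (nat_lit 76) (nat_lit 1253692367) (nat_lit 51) (nat_lit 5) (nat_lit 55) (nat_lit 5) (nat_lit 52) (nat_lit 4) (nat_lit 485) (nat_lit 341) (nat_lit 314))) (XT.nd (nat_lit 78) (nat_lit 456) (nat_lit 0) (XT.lf (nat_lit 0) (nat_lit 7218908624) (nat_lit 304) (nat_lit 320920012) (nat_lit 76) (nat_lit 5494829698) (nat_lit 51) (nat_lit 5) (nat_lit 55) (nat_lit 5) (nat_lit 52) (nat_lit 4) (nat_lit 486) (nat_lit 341) (nat_lit 313)) (XT.nd (nat_lit 78) (nat_lit 304) (nat_lit 0) (XT.lf (nat_lit 0) (nat_lit 8351342451) (nat_lit 152) (nat_lit 3355984880) (nat_lit 228) (nat_lit 1486596846) (nat_lit 49) (nat_lit 5) (nat_lit 51) (nat_lit 5) (nat_lit 52) (nat_lit 4) (nat_lit 487) (nat_lit 341) (nat_lit 312)) (XT.lf (nat_lit 0) (nat_lit 2870515836) (nat_lit 304) (nat_lit 9578097089) (nat_lit 76) (nat_lit 907794535) (nat_lit 45) (nat_lit 5) (nat_lit 49) (nat_lit 5) (nat_lit 46) (nat_lit 4) (nat_lit 488) (nat_lit 341)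 (nat_lit 311)))))) (XT.nd (nat_lit 390) (nat_lit 760) (nat_lit 0) (XT.nd (nat_lit 156) (nat_lit 456) (nat_lit 0) (XT.nd (nat_lit 78) (nat_lit 152) (nat_lit 0) (XT.lf (nat_lit 0) (nat_lit 7297103297) (nat_lit 304) (nat_lit 1007988943) (nat_lit 76) (nat_lit 5216815059) (nat_lit 45) (nat_lit 5) (nat_lit 49) (nat_lit 5) (nat_lit 46) (nat_lit 4) (nat_lit 489) (nat_lit 341) (nat_lit 310)) (XT.lf (nat_lit 0) (nat_lit 7745421653) (nat_lit 152) (nat_lit 4065405838) (nat_lit 228) (nat_lit 1879925558) (nat_lit 43) (nat_lit 5) (nat_lit 45) (nat_lit 5) (nat_lit 46) (nat_lit 4) (nat_lit 490) (nat_lit 341) (nat_lit 309))) (XT.nd (nat_lit 78) (nat_lit 152) (nat_lit 0) (XT.lf (nat_lit 0) (nat_lit 2493186879) (nat_lit 304) (nat_lit 11110447582) (nat_lit 76) (nat_lit 259521505) (nat_lit 39) (nat_lit 5) (nat_lit 43) (nat_lit 5) (nat_lit 40) (nat_lit 4) (nat_lit 491) (nat_lit 341) (nat_lit 308)) (XT.nd (nat_lit 78) (nat_lit 152) (nat_lit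 0) (XT.lf (nat_lit 0) (nat_lit 6944286640) (nat_lit 304) (nat_lit 2462525661) (nat_lit 76) (nat_lit 4631639723) (nat_lit 39) (nat_lit 5) (nat_lit 43) (nat_lit 5) (nat_lit 40) (nat_lit 4) (nat_lit 492) (nat_lit 341) (nat_lit 307)) (XT.lf (nat_lit 0) (nat_lit 6353466981) (nat_lit 152) (nat_lit 5121790388) (nat_lit 228) (nat_lit 2742187059) (nat_lit 37) (nat_lit 5) (nat_lit 39) (nat_lit 5) (nat_lit 40) (nat_lit 4) (nat_lit 493) (nat_lit 341) (nat_lit 306))))) (XT.nd (nat_lit 234) (nat_lit 380) (nat_lit 0) (XT.nd (nat_lit 78) (nat_lit 152) (nat_lit 0) (XT.lf (nat_lit 0) (nat_lit 891732241) (nat_lit 152) (nat_lit 754947514) (nat_lit 228) (nat_lit 12753681642) (nat_lit 34) (nat_lit 5) (nat_lit 36) (nat_lit 5) (nat_lit 37) (nat_lit 5) (nat_lit 494) (nat_lit 341) (nat_lit 305)) (XT.nd (nat_lit 78) (nat_lit 152) (nat_lit 0) (XT.lf (nat_lit 0) (nat_lit 6113629792) (nat_lit 228) (nat_lit 4787742952) (nat_lit 76) (nat_lit 3684667948)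 (nat_lit 34) (nat_lit 5) (nat_lit 37) (nat_lit 5) (nat_lit 35) (nat_lit 4) (nat_lit 495) (nat_lit 341) (nat_lit 304)) (XT.lf (nat_lit 0) (nat_lit 4069175811) (nat_lit 152) (nat_lit 6582996448) (nat_lit 228) (nat_lit 4123623087) (nat_lit 32) (nat_lit 5) (nat_lit 34) (nat_lit 5) (nat_lit 35) (nat_lit 4) (nat_lit 496) (nat_lit 341) (nat_lit 303)))) (XT.nd (nat_lit 78) (nat_lit 304) (nat_lit 0) (XT.lf (nat_lit 0) (nat_lit 291296679) (nat_lit 228) (nat_lit 1889651564) (nat_lit 76) (nat_lit 12788697895) (nat_lit 31) (nat_lit 5) (nat_lit 34) (nat_lit 5) (nat_lit 32) (nat_lit 5) (nat_lit 497) (nat_lit 341) (nat_lit 302)) (XT.nd (nat_lit 78) (nat_lit 152) (nat_lit 0) (XT.lf (nat_lit 0) (nat_lit 4752455064) (nat_lit 228) (nat_lit 8097996974) (nat_lit 76) (nat_lit 2316120101) (nat_lit 29) (nat_lit 5) (nat_lit 32) (nat_lit 5) (nat_lit 30) (nat_lit 4) (nat_lit 498) (nat_lit 341) (nat_lit 301)) (XT.lf (nat_lit 0) (nat_lit 774730912)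 (nat_lit 152) (nat_lit 8512370504) (nat_lit 228) (nat_lit 6080656269) (nat_lit 27) (nat_lit 5) (nat_lit 29) (nat_lit 5) (nat_lit 30) (nat_lit 4) (nat_lit 499) (nat_lit 341) (nat_lit 300))))))) (XT.nd (nat_lit 56160) (nat_lit 0) (nat_lit 6004) (XT.nd (nat_lit 390) (nat_lit 228) (nat_lit 0) (XT.nd (nat_lit 156) (nat_lit 228) (nat_lit 0) (XT.nd (nat_lit 78) (nat_lit 228) (nat_lit 0) (XT.lf (nat_lit 0) (nat_lit 9849944441) (nat_lit 152) (nat_lit 4069255375) (nat_lit 228) (nat_lit 1653638140) (nat_lit 27) (nat_lit 5) (nat_lit 29) (nat_lit 5) (nat_lit 30) (nat_lit 4) (nat_lit 500) (nat_lit 341) (nat_lit 299)) (XT.lf (nat_lit 0) (nat_lit 2801649988) (nat_lit 228) (nat_lit 12520022283) (nat_lit 76) (nat_lit 460436605) (nat_lit 24) (nat_lit 5) (nat_lit 27) (nat_lit 5) (nat_lit 25) (nat_lit 4) (nat_lit 501) (nat_lit 341) (nat_lit 298))) (XT.nd (nat_lit 78) (nat_lit 228) (nat_lit 0) (XT.lf (nat_lit 0) (nat_lit 7342707893) (nat_lit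 228) (nat_lit 3612467067) (nat_lit 76) (nat_lit 5039801356) (nat_lit 24) (nat_lit 5) (nat_lit 27) (nat_lit 5) (nat_lit 25) (nat_lit 4) (nat_lit 502) (nat_lit 341) (nat_lit 297)) (XT.nd (nat_lit 78) (nat_lit 76) (nat_lit 0) (XT.lf (nat_lit 0) (nat_lit 5462670139) (nat_lit 152) (nat_lit 6501481020) (nat_lit 228) (nat_lit 4248164389) (nat_lit 22) (nat_lit 5) (nat_lit 24) (nat_lit 5) (nat_lit 25) (nat_lit 4) (nat_lit 503) (nat_lit 341) (nat_lit 296)) (XT.lf (nat_lit 0) (nat_lit 219383063) (nat_lit 228) (nat_lit 1749270428) (nat_lit 76) (nat_lit 14465750654) (nat_lit 21) (nat_lit 5) (nat_lit 24) (nat_lit 5) (nat_lit 22) (nat_lit 5) (nat_lit 504) (nat_lit 341) (nat_lit 295))))) (XT.nd (nat_lit 55536) (nat_lit 0) (nat_lit 9044) (XT.nd (nat_lit 78) (nat_lit 76) (nat_lit 0) (XT.lf (nat_lit 0) (nat_lit 4740193506) (nat_lit 228) (nat_lit 9258208150) (nat_lit 76) (nat_lit 2661560746) (nat_lit 19) (nat_lit 5) (nat_lit 22) (nat_lit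 5) (nat_lit 20) (nat_lit 4) (nat_lit 505) (nat_lit 341) (nat_lit 294)) (XT.nd (nat_lit 78) (nat_lit 76) (nat_lit 0) (XT.lf (nat_lit 0) (nat_lit 9331462299) (nat_lit 228) (nat_lit 224209618) (nat_lit 76) (nat_lit 7334764353) (nat_lit 19) (nat_lit 5) (nat_lit 22) (nat_lit 5) (nat_lit 20) (nat_lit 4) (nat_lit 506) (nat_lit 341) (nat_lit 293)) (XT.lf (nat_lit 0) (nat_lit 9029670486) (nat_lit 76) (nat_lit 4999579687) (nat_lit 152) (nat_lit 3095980754) (nat_lit 18) (nat_lit 5) (nat_lit 19) (nat_lit 5) (nat_lit 20) (nat_lit 4) (nat_lit 507) (nat_lit 341) (nat_lit 292)))) (XT.nd (nat_lit 78) (nat_lit 380) (nat_lit 0) (XT.lf (nat_lit 0) (nat_lit 24623559) (nat_lit 456) (nat_lit 4687114634) (nat_lit 0) (nat_lit 24623559) (nat_lit 142) (nat_lit 5) (nat_lit 148) (nat_lit 4) (nat_lit 142) (nat_lit 4) (nat_lit 456) (nat_lit 342) (nat_lit 342)) (XT.nd (nat_lit 78) (nat_lit 380) (nat_lit 0) (XT.lf (nat_lit 0) (nat_lit 4235905385) (nat_lit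 456) (nat_lit 1941450149) (nat_lit 0) (nat_lit 3382252735) (nat_lit 142) (nat_lit 5) (nat_lit 148) (nat_lit 4) (nat_lit 142) (nat_lit 4) (nat_lit 457) (nat_lit 342) (nat_lit 341)) (XT.lf (nat_lit 0) (nat_lit 5614333929) (nat_lit 380) (nat_lit 2862535572) (nat_lit 380) (nat_lit 1171968558) (nat_lit 137) (nat_lit 4) (nat_lit 142) (nat_lit 5) (nat_lit 142) (nat_lit 4) (nat_lit 458) (nat_lit 342) (nat_lit 340)))))) (XT.nd (nat_lit 390) (nat_lit 1444) (nat_lit 0) (XT.nd (nat_lit 156) (nat_lit 760) (nat_lit 0) (XT.nd (nat_lit 78) (nat_lit 380) (nat_lit 0) (XT.lf (nat_lit 0) (nat_lit 2996535841) (nat_lit 456) (nat_lit 6208757613) (nat_lit 0) (nat_lit 534701241) (nat_lit 131) (nat_lit 5) (nat_lit 137) (nat_lit 4) (nat_lit 131) (nat_lit 4) (nat_lit 459) (nat_lit 342) (nat_lit 339)) (XT.lf (nat_lit 0) (nat_lit 1361542660) (nat_lit 380) (nat_lit 5860988003) (nat_lit 380) (nat_lit 2610510306) (nat_lit 126) (nat_lit 4) (nat_lit 131)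 (nat_lit 5) (nat_lit 131) (nat_lit 4) (nat_lit 460) (nat_lit 342) (nat_lit 338))) (XT.nd (nat_lit 78) (nat_lit 684) (nat_lit 0) (XT.lf (nat_lit 0) (nat_lit 1560923804) (nat_lit 456) (nat_lit 870591117) (nat_lit 76) (nat_lit 7496704280) (nat_lit 125) (nat_lit 5) (nat_lit 131) (nat_lit 5) (nat_lit 126) (nat_lit 4) (nat_lit 461) (nat_lit 342) (nat_lit 337)) (XT.nd (nat_lit 78) (nat_lit 380) (nat_lit 0) (XT.lf (nat_lit 0) (nat_lit 5768707065) (nat_lit 380) (nat_lit 3175718902) (nat_lit 0) (nat_lit 1080789097) (nat_lit 121) (nat_lit 5) (nat_lit 126) (nat_lit 4) (nat_lit 121) (nat_lit 4) (nat_lit 462) (nat_lit 342) (nat_lit 336)) (XT.lf (nat_lit 0) (nat_lit 4556738428) (nat_lit 380) (nat_lit 5492083764) (nat_lit 380) (nat_lit 75581479) (nat_lit 116) (nat_lit 4) (nat_lit 121) (nat_lit 5) (nat_lit 121) (nat_lit 4) (nat_lit 463) (nat_lit 342) (nat_lit 335))))) (XT.nd (nat_lit 234) (nat_lit 684) (nat_lit 0) (XT.nd (nat_lit 78)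 (nat_lit 380) (nat_lit 0) (XT.lf (nat_lit 0) (nat_lit 2163942822) (nat_lit 304) (nat_lit 1942365820) (nat_lit 380) (nat_lit 6119293496) (nat_lit 111) (nat_lit 5) (nat_lit 115) (nat_lit 5) (nat_lit 116) (nat_lit 4) (nat_lit 464) (nat_lit 342) (nat_lit 334)) (XT.nd (nat_lit 78) (nat_lit 380) (nat_lit 0) (XT.lf (nat_lit 0) (nat_lit 8356485317) (nat_lit 380) (nat_lit 313296273) (nat_lit 0) (nat_lit 1659335184) (nat_lit 111) (nat_lit 5) (nat_lit 116) (nat_lit 4) (nat_lit 111) (nat_lit 4) (nat_lit 465) (nat_lit 342) (nat_lit 333)) (XT.lf (nat_lit 0) (nat_lit 2227810395) (nat_lit 380) (nat_lit 2870072424) (nat_lit 76) (nat_lit 5336531681) (nat_lit 106) (nat_lit 5) (nat_lit 111) (nat_lit 5) (nat_lit 107) (nat_lit 4) (nat_lit 466) (nat_lit 342) (nat_lit 332)))) (XT.nd (nat_lit 78) (nat_lit 380) (nat_lit 0) (XT.lf (nat_lit 0) (nat_lit 5017254591) (nat_lit 304) (nat_lit 1441856932) (nat_lit 380) (nat_lit 4082995117) (nat_lit 102)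 (nat_lit 5) (nat_lit 106) (nat_lit 5) (nat_lit 107) (nat_lit 4) (nat_lit 467) (nat_lit 342) (nat_lit 331)) (XT.nd (nat_lit 78) (nat_lit 0) (nat_lit 0) (XT.lf (nat_lit 0) (nat_lit 109883890) (nat_lit 380) (nat_lit 8285007786) (nat_lit 76) (nat_lit 2257290677) (nat_lit 97) (nat_lit 5) (nat_lit 102) (nat_lit 5) (nat_lit 98) (nat_lit 4) (nat_lit 468) (nat_lit 342) (nat_lit 330)) (XT.lf (nat_lit 0) (nat_lit 4317912127) (nat_lit 380) (nat_lit 406630447) (nat_lit 76) (nat_lit 6039671659) (nat_lit 97) (nat_lit 5) (nat_lit 102) (nat_lit 5) (nat_lit 98) (nat_lit 4) (nat_lit 469) (nat_lit 342) (nat_lit 329))))))))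
noncomputable def xc16 : XT := (XT.nd (nat_lit 1638) (nat_lit 1900) (nat_lit 0) (XT.nd (nat_lit 780) (nat_lit 1672) (nat_lit 0) (XT.nd (nat_lit 390) (nat_lit 1140) (nat_lit 0) (XT.nd (nat_lit 156) (nat_lit 608) (nat_lit 0) (XT.nd (nat_lit 78) (nat_lit 380) (nat_lit 0) (XT.lf (nat_lit 0) (nat_lit 7633337872) (nat_lit 304) (nat_lit 966561920) (nat_lit 380) (nat_lit 2278804396) (nat_lit 93) (nat_lit 5) (nat_lit 97) (nat_lit 5) (nat_lit 98) (nat_lit 4) (nat_lit 470) (nat_lit 342) (nat_lit 328)) (XT.lf (nat_lit 0) (nat_lit 1939146524) (nat_lit 380) (nat_lit 6216406977) (nat_lit 76) (nat_lit 2839827920) (nat_lit 88) (nat_lit 5) (nat_lit 93) (nat_lit 5) (nat_lit 89) (nat_lit 4) (nat_lit 471) (nat_lit 342) (nat_lit 327))) (XT.nd (nat_lit 78) (nat_lit 380) (nat_lit 0) (XT.lf (nat_lit 0) (nat_lit 1799212016) (nat_lit 228) (nat_lit 4392460625) (nat_lit 304) (nat_lit 4922816354) (nat_lit 85) (nat_lit 5) (nat_lit 88) (nat_lit 5)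 (nat_lit 89) (nat_lit 4) (nat_lit 472) (nat_lit 342) (nat_lit 326)) (XT.nd (nat_lit 78) (nat_lit 380) (nat_lit 0) (XT.lf (nat_lit 0) (nat_lit 9963458417) (nat_lit 228) (nat_lit 548741835) (nat_lit 304) (nat_lit 724131840) (nat_lit 85) (nat_lit 5) (nat_lit 88) (nat_lit 5) (nat_lit 89) (nat_lit 4) (nat_lit 473) (nat_lit 342) (nat_lit 325)) (XT.lf (nat_lit 0) (nat_lit 3520771429) (nat_lit 380) (nat_lit 4479573036) (nat_lit 76) (nat_lit 3359639097) (nat_lit 80) (nat_lit 5) (nat_lit 85) (nat_lit 5) (nat_lit 81) (nat_lit 4) (nat_lit 474) (nat_lit 342) (nat_lit 324))))) (XT.nd (nat_lit 156) (nat_lit 532) (nat_lit 0) (XT.nd (nat_lit 78) (nat_lit 380) (nat_lit 0) (XT.lf (nat_lit 0) (nat_lit 3672607962) (nat_lit 228) (nat_lit 4146636336) (nat_lit 304) (nat_lit 3667212360) (nat_lit 77) (nat_lit 5) (nat_lit 80) (nat_lit 5) (nat_lit 81) (nat_lit 4) (nat_lit 475) (nat_lit 342) (nat_lit 323)) (XT.lf (nat_lit 0) (nat_lit 338821158)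 (nat_lit 304) (nat_lit 216559992) (nat_lit 380) (nat_lit 11060515537) (nat_lit 72) (nat_lit 5) (nat_lit 76) (nat_lit 5) (nat_lit 77) (nat_lit 5) (nat_lit 476) (nat_lit 342) (nat_lit 322))) (XT.nd (nat_lit 78) (nat_lit 532) (nat_lit 0) (XT.lf (nat_lit 0) (nat_lit 4833451363) (nat_lit 380) (nat_lit 3131250113) (nat_lit 76) (nat_lit 3782347665) (nat_lit 72) (nat_lit 5) (nat_lit 77) (nat_lit 5) (nat_lit 73) (nat_lit 4) (nat_lit 477) (nat_lit 342) (nat_lit 321)) (XT.nd (nat_lit 78) (nat_lit 304) (nat_lit 0) (XT.lf (nat_lit 0) (nat_lit 5149891439) (nat_lit 228) (nat_lit 4025865820) (nat_lit 304) (nat_lit 2705504687) (nat_lit 69) (nat_lit 5) (nat_lit 72) (nat_lit 5) (nat_lit 73) (nat_lit 4) (nat_lit 478) (nat_lit 342) (nat_lit 320)) (XT.lf (nat_lit 0) (nat_lit 1537234626) (nat_lit 228) (nat_lit 3759132) (nat_lit 304) (nat_lit 10477468497) (nat_lit 65) (nat_lit 5) (nat_lit 68) (nat_lit 5) (nat_lit 69) (nat_lit 5) (nat_lit 479)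 (nat_lit 342) (nat_lit 319)))))) (XT.nd (nat_lit 390) (nat_lit 912) (nat_lit 0) (XT.nd (nat_lit 156) (nat_lit 532) (nat_lit 0) (XT.nd (nat_lit 78) (nat_lit 228) (nat_lit 0) (XT.lf (nat_lit 0) (nat_lit 5852483190) (nat_lit 304) (nat_lit 2233981326) (nat_lit 76) (nat_lit 4071268797) (nat_lit 65) (nat_lit 5) (nat_lit 69) (nat_lit 5) (nat_lit 66) (nat_lit 4) (nat_lit 480) (nat_lit 342) (nat_lit 318)) (XT.lf (nat_lit 0) (nat_lit 6166801878) (nat_lit 228) (nat_lit 4068730683) (nat_lit 304) (nat_lit 2064560596) (nat_lit 62) (nat_lit 5) (nat_lit 65) (nat_lit 5) (nat_lit 66) (nat_lit 4) (nat_lit 481) (nat_lit 342) (nat_lit 317))) (XT.nd (nat_lit 78) (nat_lit 228) (nat_lit 0) (XT.lf (nat_lit 0) (nat_lit 2206558899) (nat_lit 304) (nat_lit 10202622131) (nat_lit 76) (nat_lit 36329780) (nat_lit 58) (nat_lit 5) (nat_lit 62) (nat_lit 5) (nat_lit 59) (nat_lit 4) (nat_lit 482) (nat_lit 342) (nat_lit 316)) (XT.nd (nat_lit 78) (nat_lit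 228) (nat_lit 0) (XT.lf (nat_lit 0) (nat_lit 6549463853) (nat_lit 304) (nat_lit 1856804020) (nat_lit 76) (nat_lit 4187025250) (nat_lit 58) (nat_lit 5) (nat_lit 62) (nat_lit 5) (nat_lit 59) (nat_lit 4) (nat_lit 483) (nat_lit 342) (nat_lit 315)) (XT.lf (nat_lit 0) (nat_lit 6652363095) (nat_lit 228) (nat_lit 4316728187) (nat_lit 304) (nat_lit 1775151721) (nat_lit 55) (nat_lit 5) (nat_lit 58) (nat_lit 5) (nat_lit 59) (nat_lit 4) (nat_lit 484) (nat_lit 342) (nat_lit 314))))) (XT.nd (nat_lit 234) (nat_lit 456) (nat_lit 0) (XT.nd (nat_lit 78) (nat_lit 152) (nat_lit 0) (XT.lf (nat_lit 0) (nat_lit 2382406555) (nat_lit 228) (nat_lit 137454589) (nat_lit 304) (nat_lit 10378529021) (nat_lit 51) (nat_lit 5) (nat_lit 54) (nat_lit 5) (nat_lit 55) (nat_lit 5) (nat_lit 485) (nat_lit 342) (nat_lit 313)) (XT.nd (nat_lit 78) (nat_lit 152) (nat_lit 0) (XT.lf (nat_lit 0) (nat_lit 6891949434) (nat_lit 304) (nat_lit 2076013401) (nat_lit 76)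 (nat_lit 4087132546) (nat_lit 51) (nat_lit 5) (nat_lit 55) (nat_lit 5) (nat_lit 52) (nat_lit 4) (nat_lit 486) (nat_lit 342) (nat_lit 312)) (XT.lf (nat_lit 0) (nat_lit 6528095465) (nat_lit 152) (nat_lit 4814705439) (nat_lit 228) (nat_lit 1872315877) (nat_lit 49) (nat_lit 5) (nat_lit 51) (nat_lit 5) (nat_lit 52) (nat_lit 4) (nat_lit 487) (nat_lit 342) (nat_lit 311)))) (XT.nd (nat_lit 78) (nat_lit 152) (nat_lit 0) (XT.lf (nat_lit 0) (nat_lit 1873104198) (nat_lit 228) (nat_lit 572686254) (nat_lit 304) (nat_lit 10932745051) (nat_lit 45) (nat_lit 5) (nat_lit 48) (nat_lit 5) (nat_lit 49) (nat_lit 5) (nat_lit 488) (nat_lit 342) (nat_lit 310)) (XT.nd (nat_lit 78) (nat_lit 152) (nat_lit 0) (XT.lf (nat_lit 0) (nat_lit 6843073798) (nat_lit 304) (nat_lit 2976002083) (nat_lit 76) (nat_lit 3725549510) (nat_lit 45) (nat_lit 5) (nat_lit 49) (nat_lit 5) (nat_lit 46) (nat_lit 4) (nat_lit 489) (nat_lit 342) (nat_lit 309)) (XT.lf (nat_lit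 0) (nat_lit 5707149558) (nat_lit 152) (nat_lit 5611330448) (nat_lit 228) (nat_lit 2395761386) (nat_lit 43) (nat_lit 5) (nat_lit 45) (nat_lit 5) (nat_lit 46) (nat_lit 4) (nat_lit 490) (nat_lit 342) (nat_lit 308))))))) (XT.nd (nat_lit 780) (nat_lit 684) (nat_lit 0) (XT.nd (nat_lit 390) (nat_lit 532) (nat_lit 0) (XT.nd (nat_lit 156) (nat_lit 380) (nat_lit 0) (XT.nd (nat_lit 78) (nat_lit 0) (nat_lit 0) (XT.lf (nat_lit 0) (nat_lit 624527486) (nat_lit 228) (nat_lit 1319011039) (nat_lit 304) (nat_lit 11943988062) (nat_lit 39) (nat_lit 5) (nat_lit 42) (nat_lit 5) (nat_lit 43) (nat_lit 5) (nat_lit 491) (nat_lit 342) (nat_lit 307)) (XT.lf (nat_lit 0) (nat_lit 6361122933) (nat_lit 304) (nat_lit 4650183870) (nat_lit 76) (nat_lit 3052189816) (nat_lit 39) (nat_lit 5) (nat_lit 43) (nat_lit 5) (nat_lit 40) (nat_lit 4) (nat_lit 492) (nat_lit 342) (nat_lit 306))) (XT.nd (nat_lit 78) (nat_lit 228) (nat_lit 0) (XT.lf (nat_lit 0) (nat_lit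 4093352669) (nat_lit 152) (nat_lit 6759604617) (nat_lit 228) (nat_lit 3390318060) (nat_lit 37) (nat_lit 5) (nat_lit 39) (nat_lit 5) (nat_lit 40) (nat_lit 4) (nat_lit 493) (nat_lit 342) (nat_lit 305)) (XT.nd (nat_lit 78) (nat_lit 152) (nat_lit 0) (XT.lf (nat_lit 0) (nat_lit 976836547) (nat_lit 228) (nat_lit 1444560766) (nat_lit 76) (nat_lit 12005486870) (nat_lit 36) (nat_lit 5) (nat_lit 39) (nat_lit 5) (nat_lit 37) (nat_lit 5) (nat_lit 494) (nat_lit 342) (nat_lit 304)) (XT.lf (nat_lit 0) (nat_lit 5399060650) (nat_lit 228) (nat_lit 7202010905) (nat_lit 76) (nat_lit 2012389829) (nat_lit 34) (nat_lit 5) (nat_lit 37) (nat_lit 5) (nat_lit 35) (nat_lit 4) (nat_lit 495) (nat_lit 342) (nat_lit 303))))) (XT.nd (nat_lit 156) (nat_lit 380) (nat_lit 0) (XT.nd (nat_lit 78) (nat_lit 0) (nat_lit 0) (XT.lf (nat_lit 0) (nat_lit 1580158786) (nat_lit 152) (nat_lit 8317421620) (nat_lit 228) (nat_lit 4906439406) (nat_lit 32) (nat_lit 5) (nat_lit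 34) (nat_lit 5) (nat_lit 35) (nat_lit 4) (nat_lit 496) (nat_lit 342) (nat_lit 302)) (XT.lf (nat_lit 0) (nat_lit 10551104145) (nat_lit 152) (nat_lit 3935490279) (nat_lit 228) (nat_lit 511791085) (nat_lit 32) (nat_lit 5) (nat_lit 34) (nat_lit 5) (nat_lit 35) (nat_lit 4) (nat_lit 497) (nat_lit 342) (nat_lit 301))) (XT.nd (nat_lit 78) (nat_lit 152) (nat_lit 0) (XT.lf (nat_lit 0) (nat_lit 3904000842) (nat_lit 228) (nat_lit 10746094270) (nat_lit 76) (nat_lit 546327559) (nat_lit 29) (nat_lit 5) (nat_lit 32) (nat_lit 5) (nat_lit 30) (nat_lit 4) (nat_lit 498) (nat_lit 342) (nat_lit 300)) (XT.nd (nat_lit 78) (nat_lit 152) (nat_lit 0) (XT.lf (nat_lit 0) (nat_lit 8410333704) (nat_lit 228) (nat_lit 1924927130) (nat_lit 76) (nat_lit 5062916721) (nat_lit 29) (nat_lit 5) (nat_lit 32) (nat_lit 5) (nat_lit 30) (nat_lit 4) (nat_lit 499) (nat_lit 342) (nat_lit 299)) (XT.lf (nat_lit 0) (nat_lit 7083577487) (nat_lit 152) (nat_lit 5923096708)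 (nat_lit 228) (nat_lit 2597301796) (nat_lit 27) (nat_lit 5) (nat_lit 29) (nat_lit 5) (nat_lit 30) (nat_lit 4) (nat_lit 500) (nat_lit 342) (nat_lit 298)))))) (XT.nd (nat_lit 390) (nat_lit 76) (nat_lit 0) (XT.nd (nat_lit 156) (nat_lit 380) (nat_lit 0) (XT.nd (nat_lit 78) (nat_lit 0) (nat_lit 0) (XT.lf (nat_lit 0) (nat_lit 395535379) (nat_lit 152) (nat_lit 1430372527) (nat_lit 228) (nat_lit 13988353528) (nat_lit 24) (nat_lit 5) (nat_lit 26) (nat_lit 5) (nat_lit 27) (nat_lit 5) (nat_lit 501) (nat_lit 342) (nat_lit 297)) (XT.lf (nat_lit 0) (nat_lit 6334954589) (nat_lit 228) (nat_lit 6542583425) (nat_lit 76) (nat_lit 3150233920) (nat_lit 24) (nat_lit 5) (nat_lit 27) (nat_lit 5) (nat_lit 25) (nat_lit 4) (nat_lit 502) (nat_lit 342) (nat_lit 296))) (XT.nd (nat_lit 78) (nat_lit 228) (nat_lit 0) (XT.lf (nat_lit 0) (nat_lit 2453182325) (nat_lit 152) (nat_lit 8461397218) (nat_lit 228) (nat_lit 5331370767) (nat_lit 22) (nat_lit 5)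 (nat_lit 24) (nat_lit 5) (nat_lit 25) (nat_lit 4) (nat_lit 503) (nat_lit 342) (nat_lit 295)) (XT.nd (nat_lit 78) (nat_lit 228) (nat_lit 0) (XT.lf (nat_lit 0) (nat_lit 11637479107) (nat_lit 152) (nat_lit 3947581592) (nat_lit 228) (nat_lit 883451783) (nat_lit 22) (nat_lit 5) (nat_lit 24) (nat_lit 5) (nat_lit 25) (nat_lit 4) (nat_lit 504) (nat_lit 342) (nat_lit 294)) (XT.lf (nat_lit 0) (nat_lit 3593503806) (nat_lit 228) (nat_lit 12436725473) (nat_lit 76) (nat_lit 665067627) (nat_lit 19) (nat_lit 5) (nat_lit 22) (nat_lit 5) (nat_lit 20) (nat_lit 4) (nat_lit 505) (nat_lit 342) (nat_lit 293))))) (XT.nd (nat_lit 55380) (nat_lit 0) (nat_lit 9424) (XT.nd (nat_lit 78) (nat_lit 76) (nat_lit 0) (XT.lf (nat_lit 0) (nat_lit 8163023637) (nat_lit 228) (nat_lit 3441946817) (nat_lit 76) (nat_lit 5321237867) (nat_lit 19) (nat_lit 5) (nat_lit 22) (nat_lit 5) (nat_lit 20) (nat_lit 4) (nat_lit 506) (nat_lit 342) (nat_lit 292)) (XT.nd (nat_lit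 55224) (nat_lit 0) (nat_lit 10336) (XT.lf (nat_lit 0) (nat_lit 5730209402) (nat_lit 76) (nat_lit 7087857307) (nat_lit 152) (nat_lit 4343793681) (nat_lit 18) (nat_lit 5) (nat_lit 19) (nat_lit 5) (nat_lit 20) (nat_lit 4) (nat_lit 507) (nat_lit 342) (nat_lit 291)) (XT.lf (nat_lit 0) (nat_lit 1007150074) (nat_lit 456) (nat_lit 2637108164) (nat_lit 0) (nat_lit 1007150074) (nat_lit 154) (nat_lit 5) (nat_lit 160) (nat_lit 4) (nat_lit 154) (nat_lit 4) (nat_lit 454) (nat_lit 343) (nat_lit 343)))) (XT.nd (nat_lit 78) (nat_lit 456) (nat_lit 0) (XT.lf (nat_lit 0) (nat_lit 2063783174) (nat_lit 456) (nat_lit 4105657440) (nat_lit 456) (nat_lit 3217517222) (nat_lit 148) (nat_lit 4) (nat_lit 154) (nat_lit 5) (nat_lit 154) (nat_lit 4) (nat_lit 455) (nat_lit 343) (nat_lit 342)) (XT.nd (nat_lit 78) (nat_lit 0) (nat_lit 0) (XT.lf (nat_lit 0) (nat_lit 43414508) (nat_lit 380) (nat_lit 848803526) (nat_lit 456) (nat_lit 8581070051) (nat_lit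 142) (nat_lit 5) (nat_lit 147) (nat_lit 5) (nat_lit 148) (nat_lit 4) (nat_lit 456) (nat_lit 343) (nat_lit 341)) (XT.lf (nat_lit 0) (nat_lit 5040751793) (nat_lit 456) (nat_lit 2040733770) (nat_lit 0) (nat_lit 2479459075) (nat_lit 142) (nat_lit 5) (nat_lit 148) (nat_lit 4) (nat_lit 142) (nat_lit 4) (nat_lit 457) (nat_lit 343) (nat_lit 340))))))))
noncomputable def xc17 : XT := (XT.nd (nat_lit 1638) (nat_lit 3192) (nat_lit 0) (XT.nd (nat_lit 780) (nat_lit 2508) (nat_lit 0) (XT.nd (nat_lit 390) (nat_lit 1444) (nat_lit 0) (XT.nd (nat_lit 156) (nat_lit 760) (nat_lit 0) (XT.nd (nat_lit 78) (nat_lit 456) (nat_lit 0) (XT.lf (nat_lit 0) (nat_lit 5464903930) (nat_lit 380) (nat_lit 3783867748) (nat_lit 380) (nat_lit 402070753) (nat_lit 137) (nat_lit 4) (nat_lit 142) (nat_lit 5) (nat_lit 142) (nat_lit 4) (nat_lit 458) (nat_lit 343) (nat_lit 339)) (XT.lf (nat_lit 0) (nat_lit 3327369389) (nat_lit 380) (nat_lit 392225830) (nat_lit 456)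 (nat_lit 6023047458) (nat_lit 131) (nat_lit 5) (nat_lit 136) (nat_lit 5) (nat_lit 137) (nat_lit 4) (nat_lit 459) (nat_lit 343) (nat_lit 338))) (XT.nd (nat_lit 78) (nat_lit 380) (nat_lit 0) (XT.lf (nat_lit 0) (nat_lit 1105700766) (nat_lit 380) (nat_lit 6804012087) (nat_lit 380) (nat_lit 1926702233) (nat_lit 126) (nat_lit 4) (nat_lit 131) (nat_lit 5) (nat_lit 131) (nat_lit 4) (nat_lit 460) (nat_lit 343) (nat_lit 337)) (XT.nd (nat_lit 78) (nat_lit 304) (nat_lit 0) (XT.lf (nat_lit 0) (nat_lit 2204186141) (nat_lit 456) (nat_lit 1182872972) (nat_lit 76) (nat_lit 6545085217) (nat_lit 125) (nat_lit 5) (nat_lit 131) (nat_lit 5) (nat_lit 126) (nat_lit 4) (nat_lit 461) (nat_lit 343) (nat_lit 336)) (XT.lf (nat_lit 0) (nat_lit 6372314744) (nat_lit 380) (nat_lit 3538728540) (nat_lit 0) (nat_lit 118898096) (nat_lit 121) (nat_lit 5) (nat_lit 126) (nat_lit 4) (nat_lit 121) (nat_lit 4) (nat_lit 462) (nat_lit 343) (nat_lit 335))))) (XT.nd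 (nat_lit 156) (nat_lit 684) (nat_lit 0) (XT.nd (nat_lit 78) (nat_lit 304) (nat_lit 0) (XT.lf (nat_lit 0) (nat_lit 482736858) (nat_lit 456) (nat_lit 5992586544) (nat_lit 76) (nat_lit 3654420413) (nat_lit 115) (nat_lit 5) (nat_lit 121) (nat_lit 5) (nat_lit 116) (nat_lit 4) (nat_lit 463) (nat_lit 343) (nat_lit 334)) (XT.lf (nat_lit 0) (nat_lit 1684267636) (nat_lit 304) (nat_lit 2945571539) (nat_lit 380) (nat_lit 5601776850) (nat_lit 111) (nat_lit 5) (nat_lit 115) (nat_lit 5) (nat_lit 116) (nat_lit 4) (nat_lit 464) (nat_lit 343) (nat_lit 333))) (XT.nd (nat_lit 78) (nat_lit 684) (nat_lit 0) (XT.lf (nat_lit 0) (nat_lit 8843000290) (nat_lit 380) (nat_lit 840631572) (nat_lit 0) (nat_lit 652246590) (nat_lit 111) (nat_lit 5) (nat_lit 116) (nat_lit 4) (nat_lit 111) (nat_lit 4) (nat_lit 465) (nat_lit 343) (nat_lit 332)) (XT.nd (nat_lit 78) (nat_lit 304) (nat_lit 0) (XT.lf (nat_lit 0) (nat_lit 2667357388) (nat_lit 380) (nat_lit 3462593039)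 (nat_lit 76) (nat_lit 4311848927) (nat_lit 106) (nat_lit 5) (nat_lit 111) (nat_lit 5) (nat_lit 107) (nat_lit 4) (nat_lit 466) (nat_lit 343) (nat_lit 331)) (XT.lf (nat_lit 0) (nat_lit 4368922811) (nat_lit 304) (nat_lit 2495700852) (nat_lit 380) (nat_lit 3685555576) (nat_lit 102) (nat_lit 5) (nat_lit 106) (nat_lit 5) (nat_lit 107) (nat_lit 4) (nat_lit 467) (nat_lit 343) (nat_lit 330)))))) (XT.nd (nat_lit 390) (nat_lit 1216) (nat_lit 0) (XT.nd (nat_lit 156) (nat_lit 912) (nat_lit 0) (XT.nd (nat_lit 78) (nat_lit 0) (nat_lit 0) (XT.lf (nat_lit 0) (nat_lit 460744872) (nat_lit 380) (nat_lit 9002524261) (nat_lit 76) (nat_lit 1197768305) (nat_lit 97) (nat_lit 5) (nat_lit 102) (nat_lit 5) (nat_lit 98) (nat_lit 4) (nat_lit 468) (nat_lit 343) (nat_lit 329)) (XT.lf (nat_lit 0) (nat_lit 4639188045) (nat_lit 380) (nat_lit 1171715816) (nat_lit 76) (nat_lit 4962763799) (nat_lit 97) (nat_lit 5) (nat_lit 102) (nat_lit 5) (nat_lit 98) (nat_lit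 4) (nat_lit 469) (nat_lit 343) (nat_lit 328))) (XT.nd (nat_lit 78) (nat_lit 608) (nat_lit 0) (XT.lf (nat_lit 0) (nat_lit 6810828980) (nat_lit 304) (nat_lit 2076001492) (nat_lit 380) (nat_lit 2002020559) (nat_lit 93) (nat_lit 5) (nat_lit 97) (nat_lit 5) (nat_lit 98) (nat_lit 4) (nat_lit 470) (nat_lit 343) (nat_lit 327)) (XT.nd (nat_lit 78) (nat_lit 228) (nat_lit 0) (XT.lf (nat_lit 0) (nat_lit 2170224260) (nat_lit 380) (nat_lit 7112756810) (nat_lit 76) (nat_lit 1723359031) (nat_lit 88) (nat_lit 5) (nat_lit 93) (nat_lit 5) (nat_lit 89) (nat_lit 4) (nat_lit 471) (nat_lit 343) (nat_lit 326)) (XT.lf (nat_lit 0) (nat_lit 843450163) (nat_lit 228) (nat_lit 5544311893) (nat_lit 304) (nat_lit 4738391520) (nat_lit 85) (nat_lit 5) (nat_lit 88) (nat_lit 5) (nat_lit 89) (nat_lit 4) (nat_lit 472) (nat_lit 343) (nat_lit 325))))) (XT.nd (nat_lit 234) (nat_lit 608) (nat_lit 0) (XT.nd (nat_lit 78) (nat_lit 608) (nat_lit 0) (XT.lf (nat_lit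 0) (nat_lit 8961127935) (nat_lit 228) (nat_lit 1718640868) (nat_lit 304) (nat_lit 568804303) (nat_lit 85) (nat_lit 5) (nat_lit 88) (nat_lit 5) (nat_lit 89) (nat_lit 4) (nat_lit 473) (nat_lit 343) (nat_lit 324)) (XT.nd (nat_lit 78) (nat_lit 228) (nat_lit 0) (XT.lf (nat_lit 0) (nat_lit 3631173435) (nat_lit 380) (nat_lit 5560474688) (nat_lit 76) (nat_lit 2181419833) (nat_lit 80) (nat_lit 5) (nat_lit 85) (nat_lit 5) (nat_lit 81) (nat_lit 4) (nat_lit 474) (nat_lit 343) (nat_lit 323)) (XT.lf (nat_lit 0) (nat_lit 2530547592) (nat_lit 228) (nat_lit 5363670359) (nat_lit 304) (nat_lit 3606037335) (nat_lit 77) (nat_lit 5) (nat_lit 80) (nat_lit 5) (nat_lit 81) (nat_lit 4) (nat_lit 475) (nat_lit 343) (nat_lit 322)))) (XT.nd (nat_lit 78) (nat_lit 532) (nat_lit 0) (XT.lf (nat_lit 0) (nat_lit 585602746) (nat_lit 304) (nat_lit 868132207) (nat_lit 76) (nat_lit 10176560889) (nat_lit 76) (nat_lit 5) (nat_lit 80) (nat_lit 5) (nat_lit 77)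 (nat_lit 5) (nat_lit 476) (nat_lit 343) (nat_lit 321)) (XT.nd (nat_lit 78) (nat_lit 228) (nat_lit 0) (XT.lf (nat_lit 0) (nat_lit 4822071176) (nat_lit 380) (nat_lit 4402573573) (nat_lit 76) (nat_lit 2537640923) (nat_lit 72) (nat_lit 5) (nat_lit 77) (nat_lit 5) (nat_lit 73) (nat_lit 4) (nat_lit 477) (nat_lit 343) (nat_lit 320)) (XT.lf (nat_lit 0) (nat_lit 3815587882) (nat_lit 228) (nat_lit 5312851496) (nat_lit 304) (nat_lit 2768783090) (nat_lit 69) (nat_lit 5) (nat_lit 72) (nat_lit 5) (nat_lit 73) (nat_lit 4) (nat_lit 478) (nat_lit 343) (nat_lit 319))))))) (XT.nd (nat_lit 858) (nat_lit 1368) (nat_lit 0) (XT.nd (nat_lit 390) (nat_lit 988) (nat_lit 0) (XT.nd (nat_lit 156) (nat_lit 532) (nat_lit 0) (XT.nd (nat_lit 78) (nat_lit 0) (nat_lit 0) (XT.lf (nat_lit 0) (nat_lit 123289258) (nat_lit 228) (nat_lit 1318858577) (nat_lit 304) (nat_lit 10593016140) (nat_lit 65) (nat_lit 5) (nat_lit 68) (nat_lit 5) (nat_lit 69) (nat_lit 5)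 (nat_lit 479) (nat_lit 343) (nat_lit 318)) (XT.lf (nat_lit 0) (nat_lit 5718002872) (nat_lit 304) (nat_lit 3701764097) (nat_lit 76) (nat_lit 2755385686) (nat_lit 65) (nat_lit 5) (nat_lit 69) (nat_lit 5) (nat_lit 66) (nat_lit 4) (nat_lit 480) (nat_lit 343) (nat_lit 317))) (XT.nd (nat_lit 78) (nat_lit 304) (nat_lit 0) (XT.lf (nat_lit 0) (nat_lit 4634139353) (nat_lit 228) (nat_lit 5430397224) (nat_lit 304) (nat_lit 2253711073) (nat_lit 62) (nat_lit 5) (nat_lit 65) (nat_lit 5) (nat_lit 66) (nat_lit 4) (nat_lit 481) (nat_lit 343) (nat_lit 316)) (XT.nd (nat_lit 78) (nat_lit 0) (nat_lit 0) (XT.lf (nat_lit 0) (nat_lit 627513421) (nat_lit 228) (nat_lit 1355135442) (nat_lit 304) (nat_lit 10481790458) (nat_lit 58) (nat_lit 5) (nat_lit 61) (nat_lit 5) (nat_lit 62) (nat_lit 5) (nat_lit 482) (nat_lit 343) (nat_lit 315)) (XT.lf (nat_lit 0) (nat_lit 6290355787) (nat_lit 304) (nat_lit 3527266923) (nat_lit 76) (nat_lit 2795307443) (nat_lit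 58) (nat_lit 5) (nat_lit 62) (nat_lit 5) (nat_lit 59) (nat_lit 4) (nat_lit 483) (nat_lit 343) (nat_lit 314))))) (XT.nd (nat_lit 234) (nat_lit 456) (nat_lit 0) (XT.nd (nat_lit 78) (nat_lit 304) (nat_lit 0) (XT.lf (nat_lit 0) (nat_lit 4915038821) (nat_lit 228) (nat_lit 5757782580) (nat_lit 304) (nat_lit 2091806339) (nat_lit 55) (nat_lit 5) (nat_lit 58) (nat_lit 5) (nat_lit 59) (nat_lit 4) (nat_lit 484) (nat_lit 343) (nat_lit 313)) (XT.nd (nat_lit 78) (nat_lit 0) (nat_lit 0) (XT.lf (nat_lit 0) (nat_lit 558701577) (nat_lit 228) (nat_lit 1610984225) (nat_lit 304) (nat_lit 10749887986) (nat_lit 51) (nat_lit 5) (nat_lit 54) (nat_lit 5) (nat_lit 55) (nat_lit 5) (nat_lit 485) (nat_lit 343) (nat_lit 312)) (XT.lf (nat_lit 0) (nat_lit 6506477454) (nat_lit 304) (nat_lit 3955576255) (nat_lit 76) (nat_lit 2614935441) (nat_lit 51) (nat_lit 5) (nat_lit 55) (nat_lit 5) (nat_lit 52) (nat_lit 4) (nat_lit 486) (nat_lit 343) (nat_lit 311))))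 (XT.nd (nat_lit 78) (nat_lit 304) (nat_lit 0) (XT.lf (nat_lit 0) (nat_lit 4579603886) (nat_lit 152) (nat_lit 6339849129) (nat_lit 228) (nat_lit 2318319182) (nat_lit 49) (nat_lit 5) (nat_lit 51) (nat_lit 5) (nat_lit 52) (nat_lit 4) (nat_lit 487) (nat_lit 343) (nat_lit 310)) (XT.nd (nat_lit 78) (nat_lit 228) (nat_lit 0) (XT.lf (nat_lit 0) (nat_lit 1968295342) (nat_lit 228) (nat_lit 163140291) (nat_lit 76) (nat_lit 11270563993) (nat_lit 48) (nat_lit 5) (nat_lit 51) (nat_lit 5) (nat_lit 49) (nat_lit 5) (nat_lit 488) (nat_lit 343) (nat_lit 309)) (XT.lf (nat_lit 0) (nat_lit 6329293681) (nat_lit 304) (nat_lit 5071299319) (nat_lit 76) (nat_lit 2168226105) (nat_lit 45) (nat_lit 5) (nat_lit 49) (nat_lit 5) (nat_lit 46) (nat_lit 4) (nat_lit 489) (nat_lit 343) (nat_lit 308)))))) (XT.nd (nat_lit 390) (nat_lit 684) (nat_lit 0) (XT.nd (nat_lit 156) (nat_lit 456) (nat_lit 0) (XT.nd (nat_lit 78) (nat_lit 76) (nat_lit 0) (XT.lf (nat_lit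 0) (nat_lit 3540766635) (nat_lit 152) (nat_lit 7225275334) (nat_lit 228) (nat_lit 2973170110) (nat_lit 43) (nat_lit 5) (nat_lit 45) (nat_lit 5) (nat_lit 46) (nat_lit 4) (nat_lit 490) (nat_lit 343) (nat_lit 307)) (XT.lf (nat_lit 0) (nat_lit 1345097228) (nat_lit 228) (nat_lit 1613990365) (nat_lit 76) (nat_lit 10954060434) (nat_lit 42) (nat_lit 5) (nat_lit 45) (nat_lit 5) (nat_lit 43) (nat_lit 5) (nat_lit 491) (nat_lit 343) (nat_lit 306))) (XT.nd (nat_lit 78) (nat_lit 228) (nat_lit 0) (XT.lf (nat_lit 0) (nat_lit 5716882277) (nat_lit 304) (nat_lit 6968080124) (nat_lit 76) (nat_lit 1405075239) (nat_lit 39) (nat_lit 5) (nat_lit 43) (nat_lit 5) (nat_lit 40) (nat_lit 4) (nat_lit 492) (nat_lit 343) (nat_lit 305)) (XT.nd (nat_lit 78) (nat_lit 76) (nat_lit 0) (XT.lf (nat_lit 0) (nat_lit 1702120169) (nat_lit 152) (nat_lit 8467088429) (nat_lit 228) (nat_lit 4101401453) (nat_lit 37) (nat_lit 5) (nat_lit 39) (nat_lit 5) (nat_lit 40)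 (nat_lit 4) (nat_lit 493) (nat_lit 343) (nat_lit 304)) (XT.lf (nat_lit 0) (nat_lit 251135175) (nat_lit 228) (nat_lit 3900531388) (nat_lit 76) (nat_lit 10303126929) (nat_lit 36) (nat_lit 5) (nat_lit 39) (nat_lit 5) (nat_lit 37) (nat_lit 5) (nat_lit 494) (nat_lit 343) (nat_lit 303))))) (XT.nd (nat_lit 234) (nat_lit 380) (nat_lit 0) (XT.nd (nat_lit 78) (nat_lit 152) (nat_lit 0) (XT.lf (nat_lit 0) (nat_lit 4621998154) (nat_lit 228) (nat_lit 9749616653) (nat_lit 76) (nat_lit 270786429) (nat_lit 34) (nat_lit 5) (nat_lit 37) (nat_lit 5) (nat_lit 35) (nat_lit 4) (nat_lit 495) (nat_lit 343) (nat_lit 302)) (XT.nd (nat_lit 78) (nat_lit 152) (nat_lit 0) (XT.lf (nat_lit 0) (nat_lit 9086864000) (nat_lit 228) (nat_lit 1029450602) (nat_lit 76) (nat_lit 4717321397) (nat_lit 34) (nat_lit 5) (nat_lit 37) (nat_lit 5) (nat_lit 35) (nat_lit 4) (nat_lit 496) (nat_lit 343) (nat_lit 301)) (XT.lf (nat_lit 0) (nat_lit 7886805901) (nat_lit 152)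 (nat_lit 5759097407) (nat_lit 228) (nat_lit 1382701073) (nat_lit 32) (nat_lit 5) (nat_lit 34) (nat_lit 5) (nat_lit 35) (nat_lit 4) (nat_lit 497) (nat_lit 343) (nat_lit 300)))) (XT.nd (nat_lit 78) (nat_lit 152) (nat_lit 0) (XT.lf (nat_lit 0) (nat_lit 1688348686) (nat_lit 152) (nat_lit 1311712844) (nat_lit 228) (nat_lit 12227585201) (nat_lit 29) (nat_lit 5) (nat_lit 31) (nat_lit 5) (nat_lit 32) (nat_lit 5) (nat_lit 498) (nat_lit 343) (nat_lit 299)) (XT.nd (nat_lit 78) (nat_lit 152) (nat_lit 0) (XT.lf (nat_lit 0) (nat_lit 7475050995) (nat_lit 228) (nat_lit 4750202642) (nat_lit 76) (nat_lit 3204777853) (nat_lit 29) (nat_lit 5) (nat_lit 32) (nat_lit 5) (nat_lit 30) (nat_lit 4) (nat_lit 499) (nat_lit 343) (nat_lit 298)) (XT.lf (nat_lit 0) (nat_lit 4180434332) (nat_lit 152) (nat_lit 7849728724) (nat_lit 228) (nat_lit 3606494389) (nat_lit 27) (nat_lit 5) (nat_lit 29) (nat_lit 5) (nat_lit 30) (nat_lit 4) (nat_lit 500) (nat_lit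 343) (nat_lit 297))))))))
noncomputable def xc18 : XT := (XT.nd (nat_lit 56628) (nat_lit 0) (nat_lit 2508) (XT.nd (nat_lit 55770) (nat_lit 0) (nat_lit 7068) (XT.nd (nat_lit 390) (nat_lit 76) (nat_lit 0) (XT.nd (nat_lit 156) (nat_lit 380) (nat_lit 0) (XT.nd (nat_lit 78) (nat_lit 152) (nat_lit 0) (XT.lf (nat_lit 0) (nat_lit 805035975) (nat_lit 228) (nat_lit 2578754818) (nat_lit 76) (nat_lit 12463784276) (nat_lit 26) (nat_lit 5) (nat_lit 29) (nat_lit 5) (nat_lit 27) (nat_lit 5) (nat_lit 501) (nat_lit 343) (nat_lit 296)) (XT.lf (nat_lit 0) (nat_lit 5262043204) (nat_lit 228) (nat_lit 9611903103) (nat_lit 76) (nat_lit 1188182829) (nat_lit 24) (nat_lit 5) (nat_lit 27) (nat_lit 5) (nat_lit 25) (nat_lit 4) (nat_lit 502) (nat_lit 343) (nat_lit 295))) (XT.nd (nat_lit 78) (nat_lit 380) (nat_lit 0) (XT.lf (nat_lit 0) (nat_lit 9803898589) (nat_lit 228) (nat_lit 687430380) (nat_lit 76) (nat_lit 5789736660) (nat_lit 24) (nat_lit 5)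 (nat_lit 27) (nat_lit 5) (nat_lit 25) (nat_lit 4) (nat_lit 503) (nat_lit 343) (nat_lit 294)) (XT.nd (nat_lit 78) (nat_lit 228) (nat_lit 0) (XT.lf (nat_lit 0) (nat_lit 8448869075) (nat_lit 152) (nat_lit 5999322174) (nat_lit 228) (nat_lit 2055962992) (nat_lit 22) (nat_lit 5) (nat_lit 24) (nat_lit 5) (nat_lit 25) (nat_lit 4) (nat_lit 504) (nat_lit 343) (nat_lit 293)) (XT.lf (nat_lit 0) (nat_lit 964751244) (nat_lit 152) (nat_lit 1424444603) (nat_lit 228) (nat_lit 14342841128) (nat_lit 19) (nat_lit 5) (nat_lit 21) (nat_lit 5) (nat_lit 22) (nat_lit 5) (nat_lit 505) (nat_lit 343) (nat_lit 292))))) (XT.nd (nat_lit 55146) (nat_lit 0) (nat_lit 10336) (XT.nd (nat_lit 78) (nat_lit 76) (nat_lit 0) (XT.lf (nat_lit 0) (nat_lit 6928144727) (nat_lit 228) (nat_lit 6801709496) (nat_lit 76) (nat_lit 3233708103) (nat_lit 19) (nat_lit 5) (nat_lit 22) (nat_lit 5) (nat_lit 20) (nat_lit 4) (nat_lit 506) (nat_lit 343) (nat_lit 291)) (XT.lf (nat_lit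 0) (nat_lit 2287599352) (nat_lit 76) (nat_lit 9252332315) (nat_lit 152) (nat_lit 5660150318) (nat_lit 18) (nat_lit 5) (nat_lit 19) (nat_lit 5) (nat_lit 20) (nat_lit 4) (nat_lit 507) (nat_lit 343) (nat_lit 290))) (XT.nd (nat_lit 78) (nat_lit 912) (nat_lit 0) (XT.lf (nat_lit 0) (nat_lit 1949829856) (nat_lit 532) (nat_lit 669986638) (nat_lit 0) (nat_lit 1949829856) (nat_lit 166) (nat_lit 5) (nat_lit 173) (nat_lit 4) (nat_lit 166) (nat_lit 4) (nat_lit 452) (nat_lit 344) (nat_lit 344)) (XT.nd (nat_lit 78) (nat_lit 456) (nat_lit 0) (XT.lf (nat_lit 0) (nat_lit 5925306935) (nat_lit 456) (nat_lit 2109618327) (nat_lit 456) (nat_lit 1185597245) (nat_lit 160) (nat_lit 4) (nat_lit 166) (nat_lit 5) (nat_lit 166) (nat_lit 4) (nat_lit 453) (nat_lit 344) (nat_lit 343)) (XT.lf (nat_lit 0) (nat_lit 2887260025) (nat_lit 456) (nat_lit 5323008545) (nat_lit 0) (nat_lit 1093216785) (nat_lit 154) (nat_lit 5) (nat_lit 160) (nat_lit 4) (nat_lit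 154) (nat_lit 4) (nat_lit 454) (nat_lit 344) (nat_lit 342)))))) (XT.nd (nat_lit 390) (nat_lit 1520) (nat_lit 0) (XT.nd (nat_lit 156) (nat_lit 1216) (nat_lit 0) (XT.nd (nat_lit 78) (nat_lit 76) (nat_lit 0) (XT.lf (nat_lit 0) (nat_lit 1965871319) (nat_lit 456) (nat_lit 5043596262) (nat_lit 456) (nat_lit 2378827319) (nat_lit 148) (nat_lit 4) (nat_lit 154) (nat_lit 5) (nat_lit 154) (nat_lit 4) (nat_lit 455) (nat_lit 344) (nat_lit 341)) (XT.lf (nat_lit 0) (nat_lit 1687432935) (nat_lit 532) (nat_lit 109807064) (nat_lit 76) (nat_lit 7677935051) (nat_lit 147) (nat_lit 5) (nat_lit 154) (nat_lit 5) (nat_lit 148) (nat_lit 4) (nat_lit 456) (nat_lit 344) (nat_lit 340))) (XT.nd (nat_lit 78) (nat_lit 836) (nat_lit 0) (XT.lf (nat_lit 0) (nat_lit 5797107584) (nat_lit 456) (nat_lit 2239339948) (nat_lit 0) (nat_lit 1527170371) (nat_lit 142) (nat_lit 5) (nat_lit 148) (nat_lit 4) (nat_lit 142) (nat_lit 4) (nat_lit 457) (nat_lit 344) (nat_lit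 339)) (XT.nd (nat_lit 78) (nat_lit 380) (nat_lit 0) (XT.lf (nat_lit 0) (nat_lit 313808682) (nat_lit 456) (nat_lit 4440459633) (nat_lit 76) (nat_lit 4899874318) (nat_lit 136) (nat_lit 5) (nat_lit 142) (nat_lit 5) (nat_lit 137) (nat_lit 4) (nat_lit 458) (nat_lit 344) (nat_lit 338)) (XT.lf (nat_lit 0) (nat_lit 3018836437) (nat_lit 380) (nat_lit 1378110446) (nat_lit 456) (nat_lit 5349617467) (nat_lit 131) (nat_lit 5) (nat_lit 136) (nat_lit 5) (nat_lit 137) (nat_lit 4) (nat_lit 459) (nat_lit 344) (nat_lit 337))))) (XT.nd (nat_lit 234) (nat_lit 760) (nat_lit 0) (XT.nd (nat_lit 78) (nat_lit 380) (nat_lit 0) (XT.lf (nat_lit 0) (nat_lit 747381663) (nat_lit 380) (nat_lit 7799906860) (nat_lit 380) (nat_lit 1293852179) (nat_lit 126) (nat_lit 4) (nat_lit 131) (nat_lit 5) (nat_lit 131) (nat_lit 4) (nat_lit 460) (nat_lit 344) (nat_lit 336)) (XT.nd (nat_lit 78) (nat_lit 304) (nat_lit 0) (XT.lf (nat_lit 0) (nat_lit 2797777948) (nat_lit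 456) (nat_lit 1597699228) (nat_lit 76) (nat_lit 5541937852) (nat_lit 125) (nat_lit 5) (nat_lit 131) (nat_lit 5) (nat_lit 126) (nat_lit 4) (nat_lit 461) (nat_lit 344) (nat_lit 335)) (XT.lf (nat_lit 0) (nat_lit 6024312611) (nat_lit 304) (nat_lit 907423831) (nat_lit 380) (nat_lit 3104166977) (nat_lit 121) (nat_lit 5) (nat_lit 125) (nat_lit 5) (nat_lit 126) (nat_lit 4) (nat_lit 462) (nat_lit 344) (nat_lit 334)))) (XT.nd (nat_lit 78) (nat_lit 304) (nat_lit 0) (XT.lf (nat_lit 0) (nat_lit 989232488) (nat_lit 456) (nat_lit 6523410522) (nat_lit 76) (nat_lit 2623792708) (nat_lit 115) (nat_lit 5) (nat_lit 121) (nat_lit 5) (nat_lit 116) (nat_lit 4) (nat_lit 463) (nat_lit 344) (nat_lit 333)) (XT.nd (nat_lit 78) (nat_lit 0) (nat_lit 0) (XT.lf (nat_lit 0) (nat_lit 1098732757) (nat_lit 304) (nat_lit 4003719808) (nat_lit 380) (nat_lit 5136540488) (nat_lit 111) (nat_lit 5) (nat_lit 115) (nat_lit 5) (nat_lit 116) (nat_lit 4) (nat_lit 464)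 (nat_lit 344) (nat_lit 332)) (XT.lf (nat_lit 0) (nat_lit 8867366832) (nat_lit 304) (nat_lit 414161656) (nat_lit 380) (nat_lit 1062416029) (nat_lit 111) (nat_lit 5) (nat_lit 115) (nat_lit 5) (nat_lit 116) (nat_lit 4) (nat_lit 465) (nat_lit 344) (nat_lit 331))))))) (XT.nd (nat_lit 780) (nat_lit 1976) (nat_lit 0) (XT.nd (nat_lit 390) (nat_lit 1216) (nat_lit 0) (XT.nd (nat_lit 156) (nat_lit 684) (nat_lit 0) (XT.nd (nat_lit 78) (nat_lit 304) (nat_lit 0) (XT.lf (nat_lit 0) (nat_lit 3055447903) (nat_lit 380) (nat_lit 4162526586) (nat_lit 76) (nat_lit 3232576600) (nat_lit 106) (nat_lit 5) (nat_lit 111) (nat_lit 5) (nat_lit 107) (nat_lit 4) (nat_lit 466) (nat_lit 344) (nat_lit 330)) (XT.lf (nat_lit 0) (nat_lit 3612690574) (nat_lit 304) (nat_lit 3605872999) (nat_lit 380) (nat_lit 3341057322) (nat_lit 102) (nat_lit 5) (nat_lit 106) (nat_lit 5) (nat_lit 107) (nat_lit 4) (nat_lit 467) (nat_lit 344) (nat_lit 329))) (XT.nd (nat_lit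 78) (nat_lit 304) (nat_lit 0) (XT.lf (nat_lit 0) (nat_lit 758861244) (nat_lit 380) (nat_lit 9830480231) (nat_lit 76) (nat_lit 81936800) (nat_lit 97) (nat_lit 5) (nat_lit 102) (nat_lit 5) (nat_lit 98) (nat_lit 4) (nat_lit 468) (nat_lit 344) (nat_lit 328)) (XT.nd (nat_lit 78) (nat_lit 304) (nat_lit 0) (XT.lf (nat_lit 0) (nat_lit 4908299453) (nat_lit 380) (nat_lit 2046307956) (nat_lit 76) (nat_lit 3829887699) (nat_lit 97) (nat_lit 5) (nat_lit 102) (nat_lit 5) (nat_lit 98) (nat_lit 4) (nat_lit 469) (nat_lit 344) (nat_lit 327)) (XT.lf (nat_lit 0) (nat_lit 5878284617) (nat_lit 304) (nat_lit 3243166326) (nat_lit 380) (nat_lit 1778923737) (nat_lit 93) (nat_lit 5) (nat_lit 97) (nat_lit 5) (nat_lit 98) (nat_lit 4) (nat_lit 470) (nat_lit 344) (nat_lit 326))))) (XT.nd (nat_lit 156) (nat_lit 836) (nat_lit 0) (XT.nd (nat_lit 78) (nat_lit 0) (nat_lit 0) (XT.lf (nat_lit 0) (nat_lit 2347782131) (nat_lit 380) (nat_lit 8121725243) (nat_lit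 76) (nat_lit 549185802) (nat_lit 88) (nat_lit 5) (nat_lit 93) (nat_lit 5) (nat_lit 89) (nat_lit 4) (nat_lit 471) (nat_lit 344) (nat_lit 325)) (XT.lf (nat_lit 0) (nat_lit 6531625179) (nat_lit 380) (nat_lit 222538143) (nat_lit 76) (nat_lit 4385023238) (nat_lit 88) (nat_lit 5) (nat_lit 93) (nat_lit 5) (nat_lit 89) (nat_lit 4) (nat_lit 472) (nat_lit 344) (nat_lit 324))) (XT.nd (nat_lit 78) (nat_lit 608) (nat_lit 0) (XT.lf (nat_lit 0) (nat_lit 7846526694) (nat_lit 228) (nat_lit 2947679533) (nat_lit 304) (nat_lit 467994275) (nat_lit 85) (nat_lit 5) (nat_lit 88) (nat_lit 5) (nat_lit 89) (nat_lit 4) (nat_lit 473) (nat_lit 344) (nat_lit 323)) (XT.nd (nat_lit 78) (nat_lit 228) (nat_lit 0) (XT.lf (nat_lit 0) (nat_lit 3687196536) (nat_lit 380) (nat_lit 6756278764) (nat_lit 76) (nat_lit 944081926) (nat_lit 80) (nat_lit 5) (nat_lit 85) (nat_lit 5) (nat_lit 81) (nat_lit 4) (nat_lit 474) (nat_lit 344) (nat_lit 322)) (XT.lf (nat_lit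 0) (nat_lit 1272975336) (nat_lit 228) (nat_lit 6641636665) (nat_lit 304) (nat_lit 3600850692) (nat_lit 77) (nat_lit 5) (nat_lit 80) (nat_lit 5) (nat_lit 81) (nat_lit 4) (nat_lit 475) (nat_lit 344) (nat_lit 321)))))) (XT.nd (nat_lit 390) (nat_lit 1064) (nat_lit 0) (XT.nd (nat_lit 156) (nat_lit 532) (nat_lit 0) (XT.nd (nat_lit 78) (nat_lit 304) (nat_lit 0) (XT.lf (nat_lit 0) (nat_lit 563318172) (nat_lit 304) (nat_lit 2186292093) (nat_lit 76) (nat_lit 8896445716) (nat_lit 76) (nat_lit 5) (nat_lit 80) (nat_lit 5) (nat_lit 77) (nat_lit 5) (nat_lit 476) (nat_lit 344) (nat_lit 320)) (XT.lf (nat_lit 0) (nat_lit 4755368874) (nat_lit 380) (nat_lit 5791194043) (nat_lit 76) (nat_lit 1232376485) (nat_lit 72) (nat_lit 5) (nat_lit 77) (nat_lit 5) (nat_lit 73) (nat_lit 4) (nat_lit 477) (nat_lit 344) (nat_lit 319))) (XT.nd (nat_lit 78) (nat_lit 304) (nat_lit 0) (XT.lf (nat_lit 0) (nat_lit 2363332125) (nat_lit 228) (nat_lit 6662236228)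 (nat_lit 304) (nat_lit 2889036354) (nat_lit 69) (nat_lit 5) (nat_lit 72) (nat_lit 5) (nat_lit 73) (nat_lit 4) (nat_lit 478) (nat_lit 344) (nat_lit 318)) (XT.nd (nat_lit 78) (nat_lit 228) (nat_lit 0) (XT.lf (nat_lit 0) (nat_lit 1295987752) (nat_lit 304) (nat_lit 1391839823) (nat_lit 76) (nat_lit 9365288867) (nat_lit 68) (nat_lit 5) (nat_lit 72) (nat_lit 5) (nat_lit 69) (nat_lit 5) (nat_lit 479) (nat_lit 344) (nat_lit 317)) (XT.lf (nat_lit 0) (nat_lit 5527172447) (nat_lit 304) (nat_lit 5289355314) (nat_lit 76) (nat_lit 1377475606) (nat_lit 65) (nat_lit 5) (nat_lit 69) (nat_lit 5) (nat_lit 66) (nat_lit 4) (nat_lit 480) (nat_lit 344) (nat_lit 316))))) (XT.nd (nat_lit 234) (nat_lit 532) (nat_lit 0) (XT.nd (nat_lit 78) (nat_lit 304) (nat_lit 0) (XT.lf (nat_lit 0) (nat_lit 2980965872) (nat_lit 228) (nat_lit 6855963051) (nat_lit 304) (nat_lit 2500909726) (nat_lit 62) (nat_lit 5) (nat_lit 65) (nat_lit 5) (nat_lit 66) (nat_lit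 4) (nat_lit 481) (nat_lit 344) (nat_lit 315)) (XT.nd (nat_lit 78) (nat_lit 228) (nat_lit 0) (XT.lf (nat_lit 0) (nat_lit 1708626249) (nat_lit 304) (nat_lit 1095837785) (nat_lit 76) (nat_lit 9680204264) (nat_lit 61) (nat_lit 5) (nat_lit 65) (nat_lit 5) (nat_lit 62) (nat_lit 5) (nat_lit 482) (nat_lit 344) (nat_lit 314)) (XT.lf (nat_lit 0) (nat_lit 5973784012) (nat_lit 304) (nat_lit 5320172708) (nat_lit 76) (nat_lit 1340057863) (nat_lit 58) (nat_lit 5) (nat_lit 62) (nat_lit 5) (nat_lit 59) (nat_lit 4) (nat_lit 483) (nat_lit 344) (nat_lit 313)))) (XT.nd (nat_lit 78) (nat_lit 304) (nat_lit 0) (XT.lf (nat_lit 0) (nat_lit 3054520185) (nat_lit 228) (nat_lit 7264275255) (nat_lit 304) (nat_lit 2467670194) (nat_lit 55) (nat_lit 5) (nat_lit 58) (nat_lit 5) (nat_lit 59) (nat_lit 4) (nat_lit 484) (nat_lit 344) (nat_lit 312)) (XT.nd (nat_lit 78) (nat_lit 228) (nat_lit 0) (XT.lf (nat_lit 0) (nat_lit 1769797536) (nat_lit 304) (nat_lit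 1371810380) (nat_lit 76) (nat_lit 9800435865) (nat_lit 54) (nat_lit 5) (nat_lit 58) (nat_lit 5) (nat_lit 55) (nat_lit 5) (nat_lit 485) (nat_lit 344) (nat_lit 311)) (XT.lf (nat_lit 0) (nat_lit 6062341517) (nat_lit 304) (nat_lit 5960345659) (nat_lit 76) (nat_lit 1077661049) (nat_lit 51) (nat_lit 5) (nat_lit 55) (nat_lit 5) (nat_lit 52) (nat_lit 4) (nat_lit 486) (nat_lit 344) (nat_lit 310))))))))
noncomputable def xc19 : XT := (XT.nd (nat_lit 56472) (nat_lit 0) (nat_lit 5244) (XT.nd (nat_lit 780) (nat_lit 1140) (nat_lit 0) (XT.nd (nat_lit 390) (nat_lit 608) (nat_lit 0) (XT.nd (nat_lit 156) (nat_lit 456) (nat_lit 0) (XT.nd (nat_lit 78) (nat_lit 76) (nat_lit 0) (XT.lf (nat_lit 0) (nat_lit 2505103600) (nat_lit 152) (nat_lit 7932014046) (nat_lit 228) (nat_lit 2824781662) (nat_lit 49) (nat_lit 5) (nat_lit 51) (nat_lit 5) (nat_lit 52) (nat_lit 4) (nat_lit 487) (nat_lit 344) (nat_lit 309)) (XT.lf (nat_lit 0) (nat_lit 1443789145)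 (nat_lit 228) (nat_lit 2301055032) (nat_lit 76) (nat_lit 9681845938) (nat_lit 48) (nat_lit 5) (nat_lit 51) (nat_lit 5) (nat_lit 49) (nat_lit 5) (nat_lit 488) (nat_lit 344) (nat_lit 308))) (XT.nd (nat_lit 78) (nat_lit 228) (nat_lit 0) (XT.lf (nat_lit 0) (nat_lit 5755561464) (nat_lit 304) (nat_lit 7294702335) (nat_lit 76) (nat_lit 544234130) (nat_lit 45) (nat_lit 5) (nat_lit 49) (nat_lit 5) (nat_lit 46) (nat_lit 4) (nat_lit 489) (nat_lit 344) (nat_lit 307)) (XT.nd (nat_lit 78) (nat_lit 76) (nat_lit 0) (XT.lf (nat_lit 0) (nat_lit 1245423321) (nat_lit 152) (nat_lit 8907873417) (nat_lit 228) (nat_lit 3612378166) (nat_lit 43) (nat_lit 5) (nat_lit 45) (nat_lit 5) (nat_lit 46) (nat_lit 4) (nat_lit 490) (nat_lit 344) (nat_lit 306)) (XT.lf (nat_lit 0) (nat_lit 690203338) (nat_lit 228) (nat_lit 3973531019) (nat_lit 76) (nat_lit 9276444475) (nat_lit 42) (nat_lit 5) (nat_lit 45) (nat_lit 5) (nat_lit 43) (nat_lit 5) (nat_lit 491)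 (nat_lit 344) (nat_lit 305))))) (XT.nd (nat_lit 156) (nat_lit 380) (nat_lit 0) (XT.nd (nat_lit 78) (nat_lit 0) (nat_lit 0) (XT.lf (nat_lit 0) (nat_lit 4698879483) (nat_lit 228) (nat_lit 314474322) (nat_lit 304) (nat_lit 9104690856) (nat_lit 39) (nat_lit 5) (nat_lit 42) (nat_lit 5) (nat_lit 43) (nat_lit 5) (nat_lit 492) (nat_lit 344) (nat_lit 304)) (XT.lf (nat_lit 0) (nat_lit 9429074740) (nat_lit 304) (nat_lit 810398486) (nat_lit 76) (nat_lit 4059879408) (nat_lit 39) (nat_lit 5) (nat_lit 43) (nat_lit 5) (nat_lit 40) (nat_lit 4) (nat_lit 493) (nat_lit 344) (nat_lit 303))) (XT.nd (nat_lit 78) (nat_lit 228) (nat_lit 0) (XT.lf (nat_lit 0) (nat_lit 7991777897) (nat_lit 152) (nat_lit 5948739122) (nat_lit 228) (nat_lit 543628452) (nat_lit 37) (nat_lit 5) (nat_lit 39) (nat_lit 5) (nat_lit 40) (nat_lit 4) (nat_lit 494) (nat_lit 344) (nat_lit 302)) (XT.nd (nat_lit 78) (nat_lit 0) (nat_lit 0) (XT.lf (nat_lit 0) (nat_lit 2230972593)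 (nat_lit 152) (nat_lit 1561301988) (nat_lit 228) (nat_lit 10880394276) (nat_lit 34) (nat_lit 5) (nat_lit 36) (nat_lit 5) (nat_lit 37) (nat_lit 5) (nat_lit 495) (nat_lit 344) (nat_lit 301)) (XT.lf (nat_lit 0) (nat_lit 8224067663) (nat_lit 228) (nat_lit 3751863377) (nat_lit 76) (nat_lit 2888637228) (nat_lit 34) (nat_lit 5) (nat_lit 37) (nat_lit 5) (nat_lit 35) (nat_lit 4) (nat_lit 496) (nat_lit 344) (nat_lit 300)))))) (XT.nd (nat_lit 390) (nat_lit 608) (nat_lit 0) (XT.nd (nat_lit 156) (nat_lit 304) (nat_lit 0) (XT.nd (nat_lit 78) (nat_lit 76) (nat_lit 0) (XT.lf (nat_lit 0) (nat_lit 5088009773) (nat_lit 152) (nat_lit 7654439520) (nat_lit 228) (nat_lit 2317903639) (nat_lit 32) (nat_lit 5) (nat_lit 34) (nat_lit 5) (nat_lit 35) (nat_lit 4) (nat_lit 497) (nat_lit 344) (nat_lit 299)) (XT.lf (nat_lit 0) (nat_lit 2043710672) (nat_lit 228) (nat_lit 1197984022) (nat_lit 76) (nat_lit 12018493308) (nat_lit 31) (nat_lit 5) (nat_lit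 34) (nat_lit 5) (nat_lit 32) (nat_lit 5) (nat_lit 498) (nat_lit 344) (nat_lit 298))) (XT.nd (nat_lit 78) (nat_lit 152) (nat_lit 0) (XT.lf (nat_lit 0) (nat_lit 6475856446) (nat_lit 228) (nat_lit 7712364309) (nat_lit 76) (nat_lit 1275211828) (nat_lit 29) (nat_lit 5) (nat_lit 32) (nat_lit 5) (nat_lit 30) (nat_lit 4) (nat_lit 499) (nat_lit 344) (nat_lit 297)) (XT.nd (nat_lit 78) (nat_lit 0) (nat_lit 0) (XT.lf (nat_lit 0) (nat_lit 1139376488) (nat_lit 152) (nat_lit 9849906963) (nat_lit 228) (nat_lit 4681611679) (nat_lit 27) (nat_lit 5) (nat_lit 29) (nat_lit 5) (nat_lit 30) (nat_lit 4) (nat_lit 500) (nat_lit 344) (nat_lit 296)) (XT.lf (nat_lit 0) (nat_lit 10194409126) (nat_lit 152) (nat_lit 5406364834) (nat_lit 228) (nat_lit 281582794) (nat_lit 27) (nat_lit 5) (nat_lit 29) (nat_lit 5) (nat_lit 30) (nat_lit 4) (nat_lit 501) (nat_lit 344) (nat_lit 295))))) (XT.nd (nat_lit 234) (nat_lit 228) (nat_lit 0) (XT.nd (nat_lit 78) (nat_lit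 152) (nat_lit 0) (XT.lf (nat_lit 0) (nat_lit 3270747011) (nat_lit 152) (nat_lit 858379143) (nat_lit 228) (nat_lit 11968823781) (nat_lit 24) (nat_lit 5) (nat_lit 26) (nat_lit 5) (nat_lit 27) (nat_lit 5) (nat_lit 502) (nat_lit 344) (nat_lit 294)) (XT.nd (nat_lit 78) (nat_lit 152) (nat_lit 0) (XT.lf (nat_lit 0) (nat_lit 8643994762) (nat_lit 228) (nat_lit 3935509093) (nat_lit 76) (nat_lit 3737924978) (nat_lit 24) (nat_lit 5) (nat_lit 27) (nat_lit 5) (nat_lit 25) (nat_lit 4) (nat_lit 503) (nat_lit 344) (nat_lit 293)) (XT.lf (nat_lit 0) (nat_lit 5119525362) (nat_lit 152) (nat_lit 8126152016) (nat_lit 228) (nat_lit 3295694886) (nat_lit 22) (nat_lit 5) (nat_lit 24) (nat_lit 5) (nat_lit 25) (nat_lit 4) (nat_lit 504) (nat_lit 344) (nat_lit 292)))) (XT.nd (nat_lit 78) (nat_lit 152) (nat_lit 0) (XT.lf (nat_lit 0) (nat_lit 1138494398) (nat_lit 228) (nat_lit 2444048036) (nat_lit 76) (nat_lit 13187420642) (nat_lit 21) (nat_lit 5) (nat_lit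 24) (nat_lit 5) (nat_lit 22) (nat_lit 5) (nat_lit 505) (nat_lit 344) (nat_lit 291)) (XT.nd (nat_lit 78) (nat_lit 0) (nat_lit 0) (XT.lf (nat_lit 0) (nat_lit 5626341302) (nat_lit 228) (nat_lit 10304815209) (nat_lit 76) (nat_lit 1071356423) (nat_lit 19) (nat_lit 5) (nat_lit 22) (nat_lit 5) (nat_lit 20) (nat_lit 4) (nat_lit 506) (nat_lit 344) (nat_lit 290)) (XT.lf (nat_lit 0) (nat_lit 10202781097) (nat_lit 228) (nat_lit 1282466402) (nat_lit 76) (nat_lit 5754494456) (nat_lit 19) (nat_lit 5) (nat_lit 22) (nat_lit 5) (nat_lit 20) (nat_lit 4) (nat_lit 507) (nat_lit 344) (nat_lit 289))))))) (XT.nd (nat_lit 858) (nat_lit 2888) (nat_lit 0) (XT.nd (nat_lit 390) (nat_lit 2128) (nat_lit 0) (XT.nd (nat_lit 156) (nat_lit 912) (nat_lit 0) (XT.nd (nat_lit 78) (nat_lit 532) (nat_lit 0) (XT.lf (nat_lit 0) (nat_lit 1239684528) (nat_lit 456) (nat_lit 1625568793) (nat_lit 456) (nat_lit 1625568793) (nat_lit 173) (nat_lit 4) (nat_lit 179) (nat_lit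 5) (nat_lit 179) (nat_lit 4) (nat_lit 450) (nat_lit 345) (nat_lit 345)) (XT.lf (nat_lit 0) (nat_lit 578392288) (nat_lit 456) (nat_lit 183857128) (nat_lit 532) (nat_lit 8297941147) (nat_lit 166) (nat_lit 5) (nat_lit 172) (nat_lit 5) (nat_lit 173) (nat_lit 4) (nat_lit 451) (nat_lit 345) (nat_lit 344))) (XT.nd (nat_lit 78) (nat_lit 912) (nat_lit 0) (XT.lf (nat_lit 0) (nat_lit 4809521066) (nat_lit 532) (nat_lit 1387436225) (nat_lit 0) (nat_lit 2942998479) (nat_lit 166) (nat_lit 5) (nat_lit 173) (nat_lit 4) (nat_lit 166) (nat_lit 4) (nat_lit 452) (nat_lit 345) (nat_lit 343)) (XT.nd (nat_lit 78) (nat_lit 456) (nat_lit 0) (XT.lf (nat_lit 0) (nat_lit 5830062537) (nat_lit 456) (nat_lit 3082105543) (nat_lit 456) (nat_lit 309679934) (nat_lit 160) (nat_lit 4) (nat_lit 166) (nat_lit 5) (nat_lit 166) (nat_lit 4) (nat_lit 453) (nat_lit 345) (nat_lit 342)) (XT.lf (nat_lit 0) (nat_lit 3712438753) (nat_lit 456) (nat_lit 5469404330) (nat_lit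 0) (nat_lit 123648728) (nat_lit 154) (nat_lit 5) (nat_lit 160) (nat_lit 4) (nat_lit 154) (nat_lit 4) (nat_lit 454) (nat_lit 345) (nat_lit 341))))) (XT.nd (nat_lit 234) (nat_lit 1216) (nat_lit 0) (XT.nd (nat_lit 78) (nat_lit 456) (nat_lit 0) (XT.lf (nat_lit 0) (nat_lit 1770009213) (nat_lit 456) (nat_lit 6031701508) (nat_lit 456) (nat_lit 1589258832) (nat_lit 148) (nat_lit 4) (nat_lit 154) (nat_lit 5) (nat_lit 154) (nat_lit 4) (nat_lit 455) (nat_lit 345) (nat_lit 340)) (XT.nd (nat_lit 78) (nat_lit 380) (nat_lit 0) (XT.lf (nat_lit 0) (nat_lit 2435083778) (nat_lit 532) (nat_lit 360487808) (nat_lit 76) (nat_lit 6682815952) (nat_lit 147) (nat_lit 5) (nat_lit 154) (nat_lit 5) (nat_lit 148) (nat_lit 4) (nat_lit 456) (nat_lit 345) (nat_lit 339)) (XT.lf (nat_lit 0) (nat_lit 6505269368) (nat_lit 456) (nat_lit 2537346567) (nat_lit 0) (nat_lit 525013174) (nat_lit 142) (nat_lit 5) (nat_lit 148) (nat_lit 4) (nat_lit 142) (nat_lit 4)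 (nat_lit 457) (nat_lit 345) (nat_lit 338)))) (XT.nd (nat_lit 78) (nat_lit 760) (nat_lit 0) (XT.lf (nat_lit 0) (nat_lit 975499304) (nat_lit 456) (nat_lit 4798390694) (nat_lit 76) (nat_lit 3884845493) (nat_lit 136) (nat_lit 5) (nat_lit 142) (nat_lit 5) (nat_lit 137) (nat_lit 4) (nat_lit 458) (nat_lit 345) (nat_lit 337)) (XT.nd (nat_lit 78) (nat_lit 380) (nat_lit 0) (XT.lf (nat_lit 0) (nat_lit 2609105360) (nat_lit 380) (nat_lit 2416233331) (nat_lit 456) (nat_lit 4726492917) (nat_lit 131) (nat_lit 5) (nat_lit 136) (nat_lit 5) (nat_lit 137) (nat_lit 4) (nat_lit 459) (nat_lit 345) (nat_lit 336)) (XT.lf (nat_lit 0) (nat_lit 286444834) (nat_lit 380) (nat_lit 8849062869) (nat_lit 380) (nat_lit 711711966) (nat_lit 126) (nat_lit 4) (nat_lit 131) (nat_lit 5) (nat_lit 131) (nat_lit 4) (nat_lit 460) (nat_lit 345) (nat_lit 335)))))) (XT.nd (nat_lit 390) (nat_lit 1748) (nat_lit 0) (XT.nd (nat_lit 156) (nat_lit 760) (nat_lit 0) (XT.nd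 (nat_lit 78) (nat_lit 304) (nat_lit 0) (XT.lf (nat_lit 0) (nat_lit 3341932008) (nat_lit 456) (nat_lit 2115232563) (nat_lit 76) (nat_lit 4486868795) (nat_lit 125) (nat_lit 5) (nat_lit 131) (nat_lit 5) (nat_lit 126) (nat_lit 4) (nat_lit 461) (nat_lit 345) (nat_lit 334)) (XT.lf (nat_lit 0) (nat_lit 5453471119) (nat_lit 304) (nat_lit 1988956945) (nat_lit 380) (nat_lit 2600770722) (nat_lit 121) (nat_lit 5) (nat_lit 125) (nat_lit 5) (nat_lit 126) (nat_lit 4) (nat_lit 462) (nat_lit 345) (nat_lit 333))) (XT.nd (nat_lit 78) (nat_lit 304) (nat_lit 0) (XT.lf (nat_lit 0) (nat_lit 1445095300) (nat_lit 456) (nat_lit 7159854621) (nat_lit 76) (nat_lit 1539541901) (nat_lit 115) (nat_lit 5) (nat_lit 121) (nat_lit 5) (nat_lit 116) (nat_lit 4) (nat_lit 463) (nat_lit 345) (nat_lit 332)) (XT.nd (nat_lit 78) (nat_lit 0) (nat_lit 0) (XT.lf (nat_lit 0) (nat_lit 407108563) (nat_lit 304) (nat_lit 5117225585) (nat_lit 380) (nat_lit 4723401966)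 (nat_lit 111) (nat_lit 5) (nat_lit 115) (nat_lit 5) (nat_lit 116) (nat_lit 4) (nat_lit 464) (nat_lit 345) (nat_lit 331)) (XT.lf (nat_lit 0) (nat_lit 8129936670) (nat_lit 304) (nat_lit 1544263504) (nat_lit 380) (nat_lit 679078790) (nat_lit 111) (nat_lit 5) (nat_lit 115) (nat_lit 5) (nat_lit 116) (nat_lit 4) (nat_lit 465) (nat_lit 345) (nat_lit 330))))) (XT.nd (nat_lit 234) (nat_lit 988) (nat_lit 0) (XT.nd (nat_lit 78) (nat_lit 380) (nat_lit 0) (XT.lf (nat_lit 0) (nat_lit 3392234131) (nat_lit 380) (nat_lit 4970147550) (nat_lit 76) (nat_lit 2098291457) (nat_lit 106) (nat_lit 5) (nat_lit 111) (nat_lit 5) (nat_lit 107) (nat_lit 4) (nat_lit 466) (nat_lit 345) (nat_lit 329)) (XT.nd (nat_lit 78) (nat_lit 76) (nat_lit 0) (XT.lf (nat_lit 0) (nat_lit 2748261321) (nat_lit 304) (nat_lit 4772808736) (nat_lit 380) (nat_lit 3049365255) (nat_lit 102) (nat_lit 5) (nat_lit 106) (nat_lit 5) (nat_lit 107) (nat_lit 4) (nat_lit 467) (nat_lit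 345) (nat_lit 328)) (XT.lf (nat_lit 0) (nat_lit 1012132968) (nat_lit 380) (nat_lit 92382563) (nat_lit 76) (nat_lit 9578237691) (nat_lit 101) (nat_lit 5) (nat_lit 106) (nat_lit 5) (nat_lit 102) (nat_lit 5) (nat_lit 468) (nat_lit 345) (nat_lit 327)))) (XT.nd (nat_lit 78) (nat_lit 684) (nat_lit 0) (XT.lf (nat_lit 0) (nat_lit 5125351884) (nat_lit 380) (nat_lit 3030749846) (nat_lit 76) (nat_lit 2640599093) (nat_lit 97) (nat_lit 5) (nat_lit 102) (nat_lit 5) (nat_lit 98) (nat_lit 4) (nat_lit 469) (nat_lit 345) (nat_lit 326)) (XT.nd (nat_lit 78) (nat_lit 380) (nat_lit 0) (XT.lf (nat_lit 0) (nat_lit 4835339078) (nat_lit 304) (nat_lit 4468514136) (nat_lit 380) (nat_lit 1609426443) (nat_lit 93) (nat_lit 5) (nat_lit 97) (nat_lit 5) (nat_lit 98) (nat_lit 4) (nat_lit 470) (nat_lit 345) (nat_lit 325)) (XT.lf (nat_lit 0) (nat_lit 1784153232) (nat_lit 304) (nat_lit 692230960) (nat_lit 380) (nat_lit 8555971410) (nat_lit 88) (nat_lit 5)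 (nat_lit 92) (nat_lit 5) (nat_lit 93) (nat_lit 5) (nat_lit 471) (nat_lit 345) (nat_lit 324))))))))
noncomputable def xc20 : XT := (XT.nd (nat_lit 1638) (nat_lit 1520) (nat_lit 0) (XT.nd (nat_lit 780) (nat_lit 1748) (nat_lit 0) (XT.nd (nat_lit 390) (nat_lit 1064) (nat_lit 0) (XT.nd (nat_lit 156) (nat_lit 684) (nat_lit 0) (XT.nd (nat_lit 78) (nat_lit 228) (nat_lit 0) (XT.lf (nat_lit 0) (nat_lit 6628067612) (nat_lit 380) (nat_lit 1389577587) (nat_lit 76) (nat_lit 3135852877) (nat_lit 88) (nat_lit 5) (nat_lit 93) (nat_lit 5) (nat_lit 89) (nat_lit 4) (nat_lit 472) (nat_lit 345) (nat_lit 323)) (XT.lf (nat_lit 0) (nat_lit 6619217597) (nat_lit 228) (nat_lit 4236339807) (nat_lit 304) (nat_lit 421662221) (nat_lit 85) (nat_lit 5) (nat_lit 88) (nat_lit 5) (nat_lit 89) (nat_lit 4) (nat_lit 473) (nat_lit 345) (nat_lit 322))) (XT.nd (nat_lit 78) (nat_lit 304) (nat_lit 0) (XT.lf (nat_lit 0) (nat_lit 3333634972) (nat_lit 304) (nat_lit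 357549176) (nat_lit 380) (nat_lit 7712226476) (nat_lit 80) (nat_lit 5) (nat_lit 84) (nat_lit 5) (nat_lit 85) (nat_lit 5) (nat_lit 474) (nat_lit 345) (nat_lit 321)) (XT.nd (nat_lit 78) (nat_lit 304) (nat_lit 0) (XT.lf (nat_lit 0) (nat_lit 7881087622) (nat_lit 380) (nat_lit 99282556) (nat_lit 76) (nat_lit 3551701602) (nat_lit 80) (nat_lit 5) (nat_lit 85) (nat_lit 5) (nat_lit 81) (nat_lit 4) (nat_lit 475) (nat_lit 345) (nat_lit 320)) (XT.lf (nat_lit 0) (nat_lit 486318839) (nat_lit 304) (nat_lit 3620619123) (nat_lit 76) (nat_lit 7556289319) (nat_lit 76) (nat_lit 5) (nat_lit 80) (nat_lit 5) (nat_lit 77) (nat_lit 5) (nat_lit 476) (nat_lit 345) (nat_lit 319))))) (XT.nd (nat_lit 156) (nat_lit 532) (nat_lit 0) (XT.nd (nat_lit 78) (nat_lit 228) (nat_lit 0) (XT.lf (nat_lit 0) (nat_lit 4498461856) (nat_lit 304) (nat_lit 135737742) (nat_lit 380) (nat_lit 7162799638) (nat_lit 72) (nat_lit 5) (nat_lit 76) (nat_lit 5) (nat_lit 77) (nat_lit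 5) (nat_lit 477) (nat_lit 345) (nat_lit 318)) (XT.lf (nat_lit 0) (nat_lit 792554655) (nat_lit 228) (nat_lit 8074549184) (nat_lit 304) (nat_lit 3066311639) (nat_lit 69) (nat_lit 5) (nat_lit 72) (nat_lit 5) (nat_lit 73) (nat_lit 4) (nat_lit 478) (nat_lit 345) (nat_lit 317))) (XT.nd (nat_lit 78) (nat_lit 456) (nat_lit 0) (XT.lf (nat_lit 0) (nat_lit 1094877183) (nat_lit 304) (nat_lit 3024056379) (nat_lit 76) (nat_lit 7953544714) (nat_lit 68) (nat_lit 5) (nat_lit 72) (nat_lit 5) (nat_lit 69) (nat_lit 5) (nat_lit 479) (nat_lit 345) (nat_lit 316)) (XT.nd (nat_lit 78) (nat_lit 228) (nat_lit 0) (XT.lf (nat_lit 0) (nat_lit 5216492504) (nat_lit 228) (nat_lit 63839059) (nat_lit 304) (nat_lit 6933952987) (nat_lit 65) (nat_lit 5) (nat_lit 68) (nat_lit 5) (nat_lit 69) (nat_lit 5) (nat_lit 480) (nat_lit 345) (nat_lit 315)) (XT.lf (nat_lit 0) (nat_lit 1206633131) (nat_lit 228) (nat_lit 8345987209) (nat_lit 304) (nat_lit 2806253496) (nat_lit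 62) (nat_lit 5) (nat_lit 65) (nat_lit 5) (nat_lit 66) (nat_lit 4) (nat_lit 481) (nat_lit 345) (nat_lit 314)))))) (XT.nd (nat_lit 390) (nat_lit 912) (nat_lit 0) (XT.nd (nat_lit 156) (nat_lit 532) (nat_lit 0) (XT.nd (nat_lit 78) (nat_lit 228) (nat_lit 0) (XT.lf (nat_lit 0) (nat_lit 1381804978) (nat_lit 304) (nat_lit 2932322976) (nat_lit 76) (nat_lit 8192129292) (nat_lit 61) (nat_lit 5) (nat_lit 65) (nat_lit 5) (nat_lit 62) (nat_lit 5) (nat_lit 482) (nat_lit 345) (nat_lit 313)) (XT.lf (nat_lit 0) (nat_lit 5419127050) (nat_lit 228) (nat_lit 181676901) (nat_lit 304) (nat_lit 7055727139) (nat_lit 58) (nat_lit 5) (nat_lit 61) (nat_lit 5) (nat_lit 62) (nat_lit 5) (nat_lit 483) (nat_lit 345) (nat_lit 312))) (XT.nd (nat_lit 78) (nat_lit 304) (nat_lit 0) (XT.lf (nat_lit 0) (nat_lit 1070077574) (nat_lit 228) (nat_lit 8836796995) (nat_lit 304) (nat_lit 2902890684) (nat_lit 55) (nat_lit 5) (nat_lit 58) (nat_lit 5) (nat_lit 59) (nat_lit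 4) (nat_lit 484) (nat_lit 345) (nat_lit 311)) (XT.nd (nat_lit 78) (nat_lit 228) (nat_lit 0) (XT.lf (nat_lit 0) (nat_lit 1315455165) (nat_lit 304) (nat_lit 3419146784) (nat_lit 76) (nat_lit 8231298691) (nat_lit 54) (nat_lit 5) (nat_lit 58) (nat_lit 5) (nat_lit 55) (nat_lit 5) (nat_lit 485) (nat_lit 345) (nat_lit 310)) (XT.lf (nat_lit 0) (nat_lit 5030548975) (nat_lit 228) (nat_lit 532274356) (nat_lit 304) (nat_lit 7562289317) (nat_lit 51) (nat_lit 5) (nat_lit 54) (nat_lit 5) (nat_lit 55) (nat_lit 5) (nat_lit 486) (nat_lit 345) (nat_lit 309))))) (XT.nd (nat_lit 234) (nat_lit 456) (nat_lit 0) (XT.nd (nat_lit 78) (nat_lit 304) (nat_lit 0) (XT.lf (nat_lit 0) (nat_lit 303781078) (nat_lit 152) (nat_lit 9591824568) (nat_lit 228) (nat_lit 3391901930) (nat_lit 49) (nat_lit 5) (nat_lit 51) (nat_lit 5) (nat_lit 52) (nat_lit 4) (nat_lit 487) (nat_lit 345) (nat_lit 308)) (XT.nd (nat_lit 78) (nat_lit 228) (nat_lit 0) (XT.lf (nat_lit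 0) (nat_lit 859904738) (nat_lit 228) (nat_lit 4566044520) (nat_lit 76) (nat_lit 8026910623) (nat_lit 48) (nat_lit 5) (nat_lit 51) (nat_lit 5) (nat_lit 49) (nat_lit 5) (nat_lit 488) (nat_lit 345) (nat_lit 307)) (XT.lf (nat_lit 0) (nat_lit 3966891479) (nat_lit 228) (nat_lit 1162307143) (nat_lit 304) (nat_lit 8492322381) (nat_lit 45) (nat_lit 5) (nat_lit 48) (nat_lit 5) (nat_lit 49) (nat_lit 5) (nat_lit 489) (nat_lit 345) (nat_lit 306)))) (XT.nd (nat_lit 78) (nat_lit 456) (nat_lit 0) (XT.lf (nat_lit 0) (nat_lit 9487663937) (nat_lit 304) (nat_lit 1164307484) (nat_lit 76) (nat_lit 3141515621) (nat_lit 45) (nat_lit 5) (nat_lit 49) (nat_lit 5) (nat_lit 46) (nat_lit 4) (nat_lit 490) (nat_lit 345) (nat_lit 305)) (XT.nd (nat_lit 78) (nat_lit 304) (nat_lit 0) (XT.lf (nat_lit 0) (nat_lit 7505329310) (nat_lit 152) (nat_lit 6437584948) (nat_lit 228) (nat_lit 25793091) (nat_lit 43) (nat_lit 5) (nat_lit 45) (nat_lit 5) (nat_lit 46)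 (nat_lit 4) (nat_lit 491) (nat_lit 345) (nat_lit 304)) (XT.lf (nat_lit 0) (nat_lit 2135320141) (nat_lit 228) (nat_lit 2122596659) (nat_lit 304) (nat_lit 9889458759) (nat_lit 39) (nat_lit 5) (nat_lit 42) (nat_lit 5) (nat_lit 43) (nat_lit 5) (nat_lit 492) (nat_lit 345) (nat_lit 303))))))) (XT.nd (nat_lit 780) (nat_lit 532) (nat_lit 0) (XT.nd (nat_lit 390) (nat_lit 456) (nat_lit 0) (XT.nd (nat_lit 156) (nat_lit 380) (nat_lit 0) (XT.nd (nat_lit 78) (nat_lit 152) (nat_lit 0) (XT.lf (nat_lit 0) (nat_lit 8638846915) (nat_lit 304) (nat_lit 3431894066) (nat_lit 76) (nat_lit 2258641756) (nat_lit 39) (nat_lit 5) (nat_lit 43) (nat_lit 5) (nat_lit 40) (nat_lit 4) (nat_lit 493) (nat_lit 345) (nat_lit 302)) (XT.lf (nat_lit 0) (nat_lit 5295364579) (nat_lit 152) (nat_lit 7814818405) (nat_lit 228) (nat_lit 1404798034) (nat_lit 37) (nat_lit 5) (nat_lit 39) (nat_lit 5) (nat_lit 40) (nat_lit 4) (nat_lit 494) (nat_lit 345) (nat_lit 301)))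 (XT.nd (nat_lit 78) (nat_lit 304) (nat_lit 0) (XT.lf (nat_lit 0) (nat_lit 2905351506) (nat_lit 228) (nat_lit 559541205) (nat_lit 76) (nat_lit 11239467668) (nat_lit 36) (nat_lit 5) (nat_lit 39) (nat_lit 5) (nat_lit 37) (nat_lit 5) (nat_lit 495) (nat_lit 345) (nat_lit 300)) (XT.nd (nat_lit 78) (nat_lit 152) (nat_lit 0) (XT.lf (nat_lit 0) (nat_lit 7298593606) (nat_lit 228) (nat_lit 6608871217) (nat_lit 76) (nat_lit 989569116) (nat_lit 34) (nat_lit 5) (nat_lit 37) (nat_lit 5) (nat_lit 35) (nat_lit 4) (nat_lit 496) (nat_lit 345) (nat_lit 299)) (XT.lf (nat_lit 0) (nat_lit 2153618195) (nat_lit 152) (nat_lit 9622259892) (nat_lit 228) (nat_lit 3317765528) (nat_lit 32) (nat_lit 5) (nat_lit 34) (nat_lit 5) (nat_lit 35) (nat_lit 4) (nat_lit 497) (nat_lit 345) (nat_lit 298))))) (XT.nd (nat_lit 156) (nat_lit 228) (nat_lit 0) (XT.nd (nat_lit 78) (nat_lit 152) (nat_lit 0) (XT.lf (nat_lit 0) (nat_lit 1034950619) (nat_lit 228) (nat_lit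 4198112739) (nat_lit 76) (nat_lit 10060988340) (nat_lit 31) (nat_lit 5) (nat_lit 34) (nat_lit 5) (nat_lit 32) (nat_lit 5) (nat_lit 498) (nat_lit 345) (nat_lit 297)) (XT.lf (nat_lit 0) (nat_lit 4680944717) (nat_lit 152) (nat_lit 736193352) (nat_lit 228) (nat_lit 10081160268) (nat_lit 29) (nat_lit 5) (nat_lit 31) (nat_lit 5) (nat_lit 32) (nat_lit 5) (nat_lit 499) (nat_lit 345) (nat_lit 296))) (XT.nd (nat_lit 78) (nat_lit 228) (nat_lit 0) (XT.lf (nat_lit 0) (nat_lit 9896877347) (nat_lit 228) (nat_lit 2014023306) (nat_lit 76) (nat_lit 3795536819) (nat_lit 29) (nat_lit 5) (nat_lit 32) (nat_lit 5) (nat_lit 30) (nat_lit 4) (nat_lit 500) (nat_lit 345) (nat_lit 295)) (XT.nd (nat_lit 78) (nat_lit 76) (nat_lit 0) (XT.lf (nat_lit 0) (nat_lit 6976248437) (nat_lit 152) (nat_lit 7497534059) (nat_lit 228) (nat_lit 1444811086) (nat_lit 27) (nat_lit 5) (nat_lit 29) (nat_lit 5) (nat_lit 30) (nat_lit 4) (nat_lit 501) (nat_lit 345) (nat_lit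 294)) (XT.lf (nat_lit 0) (nat_lit 2938859871) (nat_lit 228) (nat_lit 56527586) (nat_lit 76) (nat_lit 13139798905) (nat_lit 26) (nat_lit 5) (nat_lit 29) (nat_lit 5) (nat_lit 27) (nat_lit 5) (nat_lit 502) (nat_lit 345) (nat_lit 293)))))) (XT.nd (nat_lit 55068) (nat_lit 0) (nat_lit 10640) (XT.nd (nat_lit 156) (nat_lit 228) (nat_lit 0) (XT.nd (nat_lit 78) (nat_lit 152) (nat_lit 0) (XT.lf (nat_lit 0) (nat_lit 7418485512) (nat_lit 228) (nat_lit 7324501498) (nat_lit 76) (nat_lit 1612385727) (nat_lit 24) (nat_lit 5) (nat_lit 27) (nat_lit 5) (nat_lit 25) (nat_lit 4) (nat_lit 503) (nat_lit 345) (nat_lit 292)) (XT.lf (nat_lit 0) (nat_lit 1648142343) (nat_lit 152) (nat_lit 10328905170) (nat_lit 228) (nat_lit 4603133635) (nat_lit 22) (nat_lit 5) (nat_lit 24) (nat_lit 5) (nat_lit 25) (nat_lit 4) (nat_lit 504) (nat_lit 345) (nat_lit 291))) (XT.nd (nat_lit 78) (nat_lit 228) (nat_lit 0) (XT.lf (nat_lit 0) (nat_lit 10825551635) (nat_lit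 152) (nat_lit 5809139482) (nat_lit 228) (nat_lit 174641488) (nat_lit 22) (nat_lit 5) (nat_lit 24) (nat_lit 5) (nat_lit 25) (nat_lit 4) (nat_lit 505) (nat_lit 345) (nat_lit 290)) (XT.nd (nat_lit 78) (nat_lit 0) (nat_lit 0) (XT.lf (nat_lit 0) (nat_lit 3082608760) (nat_lit 152) (nat_lit 1182169520) (nat_lit 228) (nat_lit 12778143630) (nat_lit 19) (nat_lit 5) (nat_lit 21) (nat_lit 5) (nat_lit 22) (nat_lit 5) (nat_lit 506) (nat_lit 345) (nat_lit 289)) (XT.lf (nat_lit 0) (nat_lit 8813449967) (nat_lit 228) (nat_lit 4966522019) (nat_lit 76) (nat_lit 3500736679) (nat_lit 19) (nat_lit 5) (nat_lit 22) (nat_lit 5) (nat_lit 20) (nat_lit 4) (nat_lit 507) (nat_lit 345) (nat_lit 288))))) (XT.nd (nat_lit 234) (nat_lit 1064) (nat_lit 0) (XT.nd (nat_lit 78) (nat_lit 988) (nat_lit 0) (XT.lf (nat_lit 0) (nat_lit 3092279750) (nat_lit 532) (nat_lit 661326032) (nat_lit 532) (nat_lit 661326032) (nat_lit 186) (nat_lit 4) (nat_lit 193) (nat_lit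 5) (nat_lit 193) (nat_lit 4) (nat_lit 448) (nat_lit 346) (nat_lit 346)) (XT.nd (nat_lit 78) (nat_lit 456) (nat_lit 0) (XT.lf (nat_lit 0) (nat_lit 2658392086) (nat_lit 532) (nat_lit 4568974522) (nat_lit 0) (nat_lit 1677813521) (nat_lit 179) (nat_lit 5) (nat_lit 186) (nat_lit 4) (nat_lit 179) (nat_lit 4) (nat_lit 449) (nat_lit 346) (nat_lit 345)) (XT.lf (nat_lit 0) (nat_lit 2432611124) (nat_lit 456) (nat_lit 4245813549) (nat_lit 456) (nat_lit 2303883450) (nat_lit 173) (nat_lit 4) (nat_lit 179) (nat_lit 5) (nat_lit 179) (nat_lit 4) (nat_lit 450) (nat_lit 346) (nat_lit 344)))) (XT.nd (nat_lit 78) (nat_lit 532) (nat_lit 0) (XT.lf (nat_lit 0) (nat_lit 477213420) (nat_lit 456) (nat_lit 1186967284) (nat_lit 532) (nat_lit 7397219004) (nat_lit 166) (nat_lit 5) (nat_lit 172) (nat_lit 5) (nat_lit 173) (nat_lit 4) (nat_lit 451) (nat_lit 346) (nat_lit 343)) (XT.nd (nat_lit 78) (nat_lit 532) (nat_lit 0) (XT.lf (nat_lit 0) (nat_lit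 5672939349) (nat_lit 532) (nat_lit 1529843684) (nat_lit 0) (nat_lit 1939162206) (nat_lit 166) (nat_lit 5) (nat_lit 173) (nat_lit 4) (nat_lit 166) (nat_lit 4) (nat_lit 452) (nat_lit 346) (nat_lit 342)) (XT.lf (nat_lit 0) (nat_lit 511677180) (nat_lit 532) (nat_lit 3588329456) (nat_lit 76) (nat_lit 5124425584) (nat_lit 159) (nat_lit 5) (nat_lit 166) (nat_lit 5) (nat_lit 160) (nat_lit 4) (nat_lit 453) (nat_lit 346) (nat_lit 341))))))))
noncomputable def xc21 : XT := (XT.nd (nat_lit 1638) (nat_lit 3496) (nat_lit 0) (XT.nd (nat_lit 780) (nat_lit 2660) (nat_lit 0) (XT.nd (nat_lit 390) (nat_lit 1596) (nat_lit 0) (XT.nd (nat_lit 156) (nat_lit 912) (nat_lit 0) (XT.nd (nat_lit 78) (nat_lit 456) (nat_lit 0) (XT.lf (nat_lit 0) (nat_lit 3589371213) (nat_lit 380) (nat_lit 906675458) (nat_lit 456) (nat_lit 4812672372) (nat_lit 154) (nat_lit 5) (nat_lit 159) (nat_lit 5) (nat_lit 160) (nat_lit 4) (nat_lit 454) (nat_lit 346) (nat_lit 340))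 (XT.lf (nat_lit 0) (nat_lit 1476120046) (nat_lit 456) (nat_lit 7070360670) (nat_lit 456) (nat_lit 848502127) (nat_lit 148) (nat_lit 4) (nat_lit 154) (nat_lit 5) (nat_lit 154) (nat_lit 4) (nat_lit 455) (nat_lit 346) (nat_lit 339))) (XT.nd (nat_lit 78) (nat_lit 836) (nat_lit 0) (XT.lf (nat_lit 0) (nat_lit 3135181883) (nat_lit 532) (nat_lit 709295417) (nat_lit 76) (nat_lit 5638455144) (nat_lit 147) (nat_lit 5) (nat_lit 154) (nat_lit 5) (nat_lit 148) (nat_lit 4) (nat_lit 456) (nat_lit 346) (nat_lit 338)) (XT.nd (nat_lit 78) (nat_lit 456) (nat_lit 0) (XT.lf (nat_lit 0) (nat_lit 6634570171) (nat_lit 380) (nat_lit 534414458) (nat_lit 456) (nat_lit 2403925807) (nat_lit 142) (nat_lit 5) (nat_lit 147) (nat_lit 5) (nat_lit 148) (nat_lit 4) (nat_lit 457) (nat_lit 346) (nat_lit 337)) (XT.lf (nat_lit 0) (nat_lit 1588533830) (nat_lit 456) (nat_lit 5257261541) (nat_lit 76) (nat_lit 2818879648) (nat_lit 136) (nat_lit 5) (nat_lit 142)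 (nat_lit 5) (nat_lit 137) (nat_lit 4) (nat_lit 458) (nat_lit 346) (nat_lit 336))))) (XT.nd (nat_lit 156) (nat_lit 1216) (nat_lit 0) (XT.nd (nat_lit 78) (nat_lit 0) (nat_lit 0) (XT.lf (nat_lit 0) (nat_lit 2098015478) (nat_lit 380) (nat_lit 3507001591) (nat_lit 456) (nat_lit 4153429446) (nat_lit 131) (nat_lit 5) (nat_lit 136) (nat_lit 5) (nat_lit 137) (nat_lit 4) (nat_lit 459) (nat_lit 346) (nat_lit 335)) (XT.lf (nat_lit 0) (nat_lit 9580324169) (nat_lit 380) (nat_lit 96705126) (nat_lit 456) (nat_lit 177576513) (nat_lit 131) (nat_lit 5) (nat_lit 136) (nat_lit 5) (nat_lit 137) (nat_lit 4) (nat_lit 460) (nat_lit 346) (nat_lit 334))) (XT.nd (nat_lit 78) (nat_lit 760) (nat_lit 0) (XT.lf (nat_lit 0) (nat_lit 3836861713) (nat_lit 456) (nat_lit 2735675930) (nat_lit 76) (nat_lit 3379464292) (nat_lit 125) (nat_lit 5) (nat_lit 131) (nat_lit 5) (nat_lit 126) (nat_lit 4) (nat_lit 461) (nat_lit 346) (nat_lit 333)) (XT.nd (nat_lit 78)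 (nat_lit 456) (nat_lit 0) (XT.lf (nat_lit 0) (nat_lit 4779262374) (nat_lit 304) (nat_lit 3124545282) (nat_lit 380) (nat_lit 2148038329) (nat_lit 121) (nat_lit 5) (nat_lit 125) (nat_lit 5) (nat_lit 126) (nat_lit 4) (nat_lit 462) (nat_lit 346) (nat_lit 332)) (XT.lf (nat_lit 0) (nat_lit 1850504063) (nat_lit 456) (nat_lit 7902168427) (nat_lit 76) (nat_lit 401242796) (nat_lit 115) (nat_lit 5) (nat_lit 121) (nat_lit 5) (nat_lit 116) (nat_lit 4) (nat_lit 463) (nat_lit 346) (nat_lit 331)))))) (XT.nd (nat_lit 390) (nat_lit 1596) (nat_lit 0) (XT.nd (nat_lit 156) (nat_lit 760) (nat_lit 0) (XT.nd (nat_lit 78) (nat_lit 304) (nat_lit 0) (XT.lf (nat_lit 0) (nat_lit 5898187198) (nat_lit 456) (nat_lit 385749758) (nat_lit 76) (nat_lit 3973860924) (nat_lit 115) (nat_lit 5) (nat_lit 121) (nat_lit 5) (nat_lit 116) (nat_lit 4) (nat_lit 464) (nat_lit 346) (nat_lit 330)) (XT.lf (nat_lit 0) (nat_lit 7287044124) (nat_lit 304) (nat_lit 2729834117)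 (nat_lit 380) (nat_lit 347093037) (nat_lit 111) (nat_lit 5) (nat_lit 115) (nat_lit 5) (nat_lit 116) (nat_lit 4) (nat_lit 465) (nat_lit 346) (nat_lit 329))) (XT.nd (nat_lit 78) (nat_lit 380) (nat_lit 0) (XT.lf (nat_lit 0) (nat_lit 3677848145) (nat_lit 380) (nat_lit 5885772645) (nat_lit 76) (nat_lit 908548679) (nat_lit 106) (nat_lit 5) (nat_lit 111) (nat_lit 5) (nat_lit 107) (nat_lit 4) (nat_lit 466) (nat_lit 346) (nat_lit 328)) (XT.nd (nat_lit 78) (nat_lit 76) (nat_lit 0) (XT.lf (nat_lit 0) (nat_lit 1775296058) (nat_lit 304) (nat_lit 5996965685) (nat_lit 380) (nat_lit 2810364989) (nat_lit 102) (nat_lit 5) (nat_lit 106) (nat_lit 5) (nat_lit 107) (nat_lit 4) (nat_lit 467) (nat_lit 346) (nat_lit 327)) (XT.lf (nat_lit 0) (nat_lit 1219966250) (nat_lit 380) (nat_lit 1123756179) (nat_lit 76) (nat_lit 8351758209) (nat_lit 101) (nat_lit 5) (nat_lit 106) (nat_lit 5) (nat_lit 102) (nat_lit 5) (nat_lit 468) (nat_lit 346) (nat_lit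 326))))) (XT.nd (nat_lit 234) (nat_lit 608) (nat_lit 0) (XT.nd (nat_lit 78) (nat_lit 684) (nat_lit 0) (XT.lf (nat_lit 0) (nat_lit 5290430458) (nat_lit 380) (nat_lit 4125427540) (nat_lit 76) (nat_lit 1394431594) (nat_lit 97) (nat_lit 5) (nat_lit 102) (nat_lit 5) (nat_lit 98) (nat_lit 4) (nat_lit 469) (nat_lit 346) (nat_lit 325)) (XT.nd (nat_lit 78) (nat_lit 380) (nat_lit 0) (XT.lf (nat_lit 0) (nat_lit 3681583365) (nat_lit 304) (nat_lit 5752525449) (nat_lit 380) (nat_lit 1493462206) (nat_lit 93) (nat_lit 5) (nat_lit 97) (nat_lit 5) (nat_lit 98) (nat_lit 4) (nat_lit 470) (nat_lit 346) (nat_lit 324)) (XT.lf (nat_lit 0) (nat_lit 555210011) (nat_lit 304) (nat_lit 2000373585) (nat_lit 380) (nat_lit 8491759087) (nat_lit 88) (nat_lit 5) (nat_lit 92) (nat_lit 5) (nat_lit 93) (nat_lit 5) (nat_lit 471) (nat_lit 346) (nat_lit 323)))) (XT.nd (nat_lit 78) (nat_lit 608) (nat_lit 0) (XT.lf (nat_lit 0) (nat_lit 6671650936) (nat_lit 380)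 (nat_lit 2669187833) (nat_lit 76) (nat_lit 1828364492) (nat_lit 88) (nat_lit 5) (nat_lit 93) (nat_lit 5) (nat_lit 89) (nat_lit 4) (nat_lit 472) (nat_lit 346) (nat_lit 322)) (XT.nd (nat_lit 78) (nat_lit 380) (nat_lit 0) (XT.lf (nat_lit 0) (nat_lit 5278719346) (nat_lit 228) (nat_lit 5585127046) (nat_lit 304) (nat_lit 429789972) (nat_lit 85) (nat_lit 5) (nat_lit 88) (nat_lit 5) (nat_lit 89) (nat_lit 4) (nat_lit 473) (nat_lit 346) (nat_lit 321)) (XT.lf (nat_lit 0) (nat_lit 1914784050) (nat_lit 304) (nat_lit 1732637973) (nat_lit 380) (nat_lit 7773126663) (nat_lit 80) (nat_lit 5) (nat_lit 84) (nat_lit 5) (nat_lit 85) (nat_lit 5) (nat_lit 474) (nat_lit 346) (nat_lit 320))))))) (XT.nd (nat_lit 858) (nat_lit 1520) (nat_lit 0) (XT.nd (nat_lit 390) (nat_lit 1064) (nat_lit 0) (XT.nd (nat_lit 156) (nat_lit 608) (nat_lit 0) (XT.nd (nat_lit 78) (nat_lit 304) (nat_lit 0) (XT.lf (nat_lit 0) (nat_lit 7801999913) (nat_lit 380) (nat_lit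 1569860366) (nat_lit 76) (nat_lit 2178061416) (nat_lit 80) (nat_lit 5) (nat_lit 85) (nat_lit 5) (nat_lit 81) (nat_lit 4) (nat_lit 475) (nat_lit 346) (nat_lit 319)) (XT.lf (nat_lit 0) (nat_lit 354574551) (nat_lit 304) (nat_lit 5171675780) (nat_lit 76) (nat_lit 6155566147) (nat_lit 76) (nat_lit 5) (nat_lit 80) (nat_lit 5) (nat_lit 77) (nat_lit 5) (nat_lit 476) (nat_lit 346) (nat_lit 318))) (XT.nd (nat_lit 78) (nat_lit 304) (nat_lit 0) (XT.lf (nat_lit 0) (nat_lit 2883493535) (nat_lit 304) (nat_lit 1582653689) (nat_lit 380) (nat_lit 7350172403) (nat_lit 72) (nat_lit 5) (nat_lit 76) (nat_lit 5) (nat_lit 77) (nat_lit 5) (nat_lit 477) (nat_lit 346) (nat_lit 317)) (XT.nd (nat_lit 78) (nat_lit 304) (nat_lit 0) (XT.lf (nat_lit 0) (nat_lit 8658809956) (nat_lit 380) (nat_lit 885591474) (nat_lit 76) (nat_lit 2409144203) (nat_lit 72) (nat_lit 5) (nat_lit 77) (nat_lit 5) (nat_lit 73) (nat_lit 4) (nat_lit 478) (nat_lit 346) (nat_lit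 316)) (XT.lf (nat_lit 0) (nat_lit 837936788) (nat_lit 304) (nat_lit 4775617454) (nat_lit 76) (nat_lit 6479718837) (nat_lit 68) (nat_lit 5) (nat_lit 72) (nat_lit 5) (nat_lit 69) (nat_lit 5) (nat_lit 479) (nat_lit 346) (nat_lit 315))))) (XT.nd (nat_lit 234) (nat_lit 532) (nat_lit 0) (XT.nd (nat_lit 78) (nat_lit 304) (nat_lit 0) (XT.lf (nat_lit 0) (nat_lit 3399015592) (nat_lit 228) (nat_lit 1587430864) (nat_lit 304) (nat_lit 7249376441) (nat_lit 65) (nat_lit 5) (nat_lit 68) (nat_lit 5) (nat_lit 69) (nat_lit 5) (nat_lit 480) (nat_lit 346) (nat_lit 314)) (XT.nd (nat_lit 78) (nat_lit 304) (nat_lit 0) (XT.lf (nat_lit 0) (nat_lit 9215976382) (nat_lit 304) (nat_lit 680511052) (nat_lit 76) (nat_lit 2484784484) (nat_lit 65) (nat_lit 5) (nat_lit 69) (nat_lit 5) (nat_lit 66) (nat_lit 4) (nat_lit 481) (nat_lit 346) (nat_lit 313)) (XT.lf (nat_lit 0) (nat_lit 997982652) (nat_lit 304) (nat_lit 4890892294) (nat_lit 76) (nat_lit 6640421172)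 (nat_lit 61) (nat_lit 5) (nat_lit 65) (nat_lit 5) (nat_lit 62) (nat_lit 5) (nat_lit 482) (nat_lit 346) (nat_lit 312)))) (XT.nd (nat_lit 78) (nat_lit 304) (nat_lit 0) (XT.lf (nat_lit 0) (nat_lit 3392552703) (nat_lit 228) (nat_lit 1786778419) (nat_lit 304) (nat_lit 7500996144) (nat_lit 58) (nat_lit 5) (nat_lit 61) (nat_lit 5) (nat_lit 62) (nat_lit 5) (nat_lit 483) (nat_lit 346) (nat_lit 311)) (XT.nd (nat_lit 78) (nat_lit 304) (nat_lit 0) (XT.lf (nat_lit 0) (nat_lit 9443643561) (nat_lit 304) (nat_lit 1025439672) (nat_lit 76) (nat_lit 2365317572) (nat_lit 58) (nat_lit 5) (nat_lit 62) (nat_lit 5) (nat_lit 59) (nat_lit 4) (nat_lit 484) (nat_lit 346) (nat_lit 310)) (XT.lf (nat_lit 0) (nat_lit 802853056) (nat_lit 304) (nat_lit 5591437983) (nat_lit 76) (nat_lit 6596935232) (nat_lit 54) (nat_lit 5) (nat_lit 58) (nat_lit 5) (nat_lit 55) (nat_lit 5) (nat_lit 485) (nat_lit 346) (nat_lit 309)))))) (XT.nd (nat_lit 390) (nat_lit 836)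 (nat_lit 0) (XT.nd (nat_lit 156) (nat_lit 456) (nat_lit 0) (XT.nd (nat_lit 78) (nat_lit 0) (nat_lit 0) (XT.lf (nat_lit 0) (nat_lit 2788074623) (nat_lit 228) (nat_lit 2223721266) (nat_lit 304) (nat_lit 8139414865) (nat_lit 51) (nat_lit 5) (nat_lit 54) (nat_lit 5) (nat_lit 55) (nat_lit 5) (nat_lit 486) (nat_lit 346) (nat_lit 308)) (XT.lf (nat_lit 0) (nat_lit 9307853774) (nat_lit 304) (nat_lit 1998665728) (nat_lit 76) (nat_lit 2007824560) (nat_lit 51) (nat_lit 5) (nat_lit 55) (nat_lit 5) (nat_lit 52) (nat_lit 4) (nat_lit 487) (nat_lit 346) (nat_lit 307))) (XT.nd (nat_lit 78) (nat_lit 228) (nat_lit 0) (XT.lf (nat_lit 0) (nat_lit 216413146) (nat_lit 228) (nat_lit 6958996985) (nat_lit 76) (nat_lit 6305109055) (nat_lit 48) (nat_lit 5) (nat_lit 51) (nat_lit 5) (nat_lit 49) (nat_lit 5) (nat_lit 488) (nat_lit 346) (nat_lit 306)) (XT.nd (nat_lit 78) (nat_lit 0) (nat_lit 0) (XT.lf (nat_lit 0) (nat_lit 1501484790) (nat_lit 228) (nat_lit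 2944952955) (nat_lit 304) (nat_lit 9203531614) (nat_lit 45) (nat_lit 5) (nat_lit 48) (nat_lit 5) (nat_lit 49) (nat_lit 5) (nat_lit 489) (nat_lit 346) (nat_lit 305)) (XT.lf (nat_lit 0) (nat_lit 8770155044) (nat_lit 304) (nat_lit 3686800307) (nat_lit 76) (nat_lit 1365678603) (nat_lit 45) (nat_lit 5) (nat_lit 49) (nat_lit 5) (nat_lit 46) (nat_lit 4) (nat_lit 490) (nat_lit 346) (nat_lit 304))))) (XT.nd (nat_lit 234) (nat_lit 380) (nat_lit 0) (XT.nd (nat_lit 78) (nat_lit 304) (nat_lit 0) (XT.lf (nat_lit 0) (nat_lit 4909366541) (nat_lit 152) (nat_lit 8276464604) (nat_lit 228) (nat_lit 812818124) (nat_lit 43) (nat_lit 5) (nat_lit 45) (nat_lit 5) (nat_lit 46) (nat_lit 4) (nat_lit 491) (nat_lit 346) (nat_lit 303)) (XT.nd (nat_lit 78) (nat_lit 228) (nat_lit 0) (XT.lf (nat_lit 0) (nat_lit 3444668917) (nat_lit 228) (nat_lit 552948635) (nat_lit 76) (nat_lit 10180536408) (nat_lit 42) (nat_lit 5) (nat_lit 45) (nat_lit 5) (nat_lit 43)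 (nat_lit 5) (nat_lit 492) (nat_lit 346) (nat_lit 302)) (XT.lf (nat_lit 0) (nat_lit 7787163935) (nat_lit 304) (nat_lit 6185718218) (nat_lit 76) (nat_lit 388051007) (nat_lit 39) (nat_lit 5) (nat_lit 43) (nat_lit 5) (nat_lit 40) (nat_lit 4) (nat_lit 493) (nat_lit 346) (nat_lit 301)))) (XT.nd (nat_lit 78) (nat_lit 228) (nat_lit 0) (XT.lf (nat_lit 0) (nat_lit 2465649982) (nat_lit 152) (nat_lit 9752321457) (nat_lit 228) (nat_lit 2329373830) (nat_lit 37) (nat_lit 5) (nat_lit 39) (nat_lit 5) (nat_lit 40) (nat_lit 4) (nat_lit 494) (nat_lit 346) (nat_lit 300)) (XT.nd (nat_lit 78) (nat_lit 152) (nat_lit 0) (XT.lf (nat_lit 0) (nat_lit 1970781164) (nat_lit 228) (nat_lit 3454437301) (nat_lit 76) (nat_lit 9312071764) (nat_lit 36) (nat_lit 5) (nat_lit 39) (nat_lit 5) (nat_lit 37) (nat_lit 5) (nat_lit 495) (nat_lit 346) (nat_lit 299)) (XT.lf (nat_lit 0) (nat_lit 5322870699) (nat_lit 152) (nat_lit 993659697) (nat_lit 228) (nat_lit 8614386318)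 (nat_lit 34) (nat_lit 5) (nat_lit 36) (nat_lit 5) (nat_lit 37) (nat_lit 5) (nat_lit 496) (nat_lit 346) (nat_lit 298))))))))
noncomputable def xc22 : XT := (XT.nd (nat_lit 56160) (nat_lit 0) (nat_lit 4028) (XT.nd (nat_lit 780) (nat_lit 152) (nat_lit 0) (XT.nd (nat_lit 390) (nat_lit 456) (nat_lit 0) (XT.nd (nat_lit 156) (nat_lit 380) (nat_lit 0) (XT.nd (nat_lit 78) (nat_lit 152) (nat_lit 0) (XT.lf (nat_lit 0) (nat_lit 10751767785) (nat_lit 228) (nat_lit 905486141) (nat_lit 76) (nat_lit 3471116413) (nat_lit 34) (nat_lit 5) (nat_lit 37) (nat_lit 5) (nat_lit 35) (nat_lit 4) (nat_lit 497) (nat_lit 346) (nat_lit 297)) (XT.lf (nat_lit 0) (nat_lit 7993861200) (nat_lit 152) (nat_lit 7297528729) (nat_lit 228) (nat_lit 38075465) (nat_lit 32) (nat_lit 5) (nat_lit 34) (nat_lit 5) (nat_lit 35) (nat_lit 4) (nat_lit 498) (nat_lit 346) (nat_lit 296))) (XT.nd (nat_lit 78) (nat_lit 152) (nat_lit 0) (XT.lf (nat_lit 0) (nat_lit 1464084570)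 (nat_lit 152) (nat_lit 2838483994) (nat_lit 228) (nat_lit 11231992103) (nat_lit 29) (nat_lit 5) (nat_lit 31) (nat_lit 5) (nat_lit 32) (nat_lit 5) (nat_lit 499) (nat_lit 346) (nat_lit 295)) (XT.nd (nat_lit 78) (nat_lit 152) (nat_lit 0) (XT.lf (nat_lit 0) (nat_lit 8747569862) (nat_lit 228) (nat_lit 5290993584) (nat_lit 76) (nat_lit 1704833895) (nat_lit 29) (nat_lit 5) (nat_lit 32) (nat_lit 5) (nat_lit 30) (nat_lit 4) (nat_lit 500) (nat_lit 346) (nat_lit 294)) (XT.lf (nat_lit 0) (nat_lit 3618478375) (nat_lit 152) (nat_lit 9663520750) (nat_lit 228) (nat_lit 2674406566) (nat_lit 27) (nat_lit 5) (nat_lit 29) (nat_lit 5) (nat_lit 30) (nat_lit 4) (nat_lit 501) (nat_lit 346) (nat_lit 293))))) (XT.nd (nat_lit 156) (nat_lit 228) (nat_lit 0) (XT.nd (nat_lit 78) (nat_lit 152) (nat_lit 0) (XT.lf (nat_lit 0) (nat_lit 1704745580) (nat_lit 228) (nat_lit 3480923560) (nat_lit 76) (nat_lit 10987904520) (nat_lit 26) (nat_lit 5) (nat_lit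 29) (nat_lit 5) (nat_lit 27) (nat_lit 5) (nat_lit 502) (nat_lit 346) (nat_lit 292)) (XT.lf (nat_lit 0) (nat_lit 5535231737) (nat_lit 152) (nat_lit 595525053) (nat_lit 228) (nat_lit 10264078101) (nat_lit 24) (nat_lit 5) (nat_lit 26) (nat_lit 5) (nat_lit 27) (nat_lit 5) (nat_lit 503) (nat_lit 346) (nat_lit 291))) (XT.nd (nat_lit 78) (nat_lit 228) (nat_lit 0) (XT.lf (nat_lit 0) (nat_lit 10654572892) (nat_lit 228) (nat_lit 1940848453) (nat_lit 76) (nat_lit 4024919391) (nat_lit 24) (nat_lit 5) (nat_lit 27) (nat_lit 5) (nat_lit 25) (nat_lit 4) (nat_lit 504) (nat_lit 346) (nat_lit 290)) (XT.nd (nat_lit 78) (nat_lit 76) (nat_lit 0) (XT.lf (nat_lit 0) (nat_lit 7174865744) (nat_lit 152) (nat_lit 8104566044) (nat_lit 228) (nat_lit 1570718567) (nat_lit 22) (nat_lit 5) (nat_lit 24) (nat_lit 5) (nat_lit 25) (nat_lit 4) (nat_lit 505) (nat_lit 346) (nat_lit 289)) (XT.lf (nat_lit 0) (nat_lit 2847240821) (nat_lit 228) (nat_lit 675722779)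 (nat_lit 76) (nat_lit 13561755120) (nat_lit 21) (nat_lit 5) (nat_lit 24) (nat_lit 5) (nat_lit 22) (nat_lit 5) (nat_lit 506) (nat_lit 346) (nat_lit 288)))))) (XT.nd (nat_lit 54912) (nat_lit 0) (nat_lit 9804) (XT.nd (nat_lit 54678) (nat_lit 0) (nat_lit 12160) (XT.nd (nat_lit 54600) (nat_lit 0) (nat_lit 13224) (XT.lf (nat_lit 0) (nat_lit 7356540829) (nat_lit 228) (nat_lit 8796014502) (nat_lit 76) (nat_lit 1170739903) (nat_lit 19) (nat_lit 5) (nat_lit 22) (nat_lit 5) (nat_lit 20) (nat_lit 4) (nat_lit 507) (nat_lit 346) (nat_lit 287)) (XT.lf (nat_lit 0) (nat_lit 274345056) (nat_lit 532) (nat_lit 3793151419) (nat_lit 0) (nat_lit 274345056) (nat_lit 193) (nat_lit 5) (nat_lit 200) (nat_lit 4) (nat_lit 193) (nat_lit 4) (nat_lit 446) (nat_lit 347) (nat_lit 347))) (XT.nd (nat_lit 78) (nat_lit 1064) (nat_lit 0) (XT.lf (nat_lit 0) (nat_lit 4494876611) (nat_lit 532) (nat_lit 786558239) (nat_lit 0) (nat_lit 3474682672) (nat_lit 193)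 (nat_lit 5) (nat_lit 200) (nat_lit 4) (nat_lit 193) (nat_lit 4) (nat_lit 447) (nat_lit 347) (nat_lit 346)) (XT.nd (nat_lit 78) (nat_lit 532) (nat_lit 0) (XT.lf (nat_lit 0) (nat_lit 6139127019) (nat_lit 532) (nat_lit 2355889786) (nat_lit 532) (nat_lit 335505711) (nat_lit 186) (nat_lit 4) (nat_lit 193) (nat_lit 5) (nat_lit 193) (nat_lit 4) (nat_lit 448) (nat_lit 347) (nat_lit 345)) (XT.lf (nat_lit 0) (nat_lit 3593221179) (nat_lit 532) (nat_lit 4662186803) (nat_lit 0) (nat_lit 651100944) (nat_lit 179) (nat_lit 5) (nat_lit 186) (nat_lit 4) (nat_lit 179) (nat_lit 4) (nat_lit 449) (nat_lit 347) (nat_lit 344))))) (XT.nd (nat_lit 234) (nat_lit 1368) (nat_lit 0) (XT.nd (nat_lit 78) (nat_lit 532) (nat_lit 0) (XT.lf (nat_lit 0) (nat_lit 2292318991) (nat_lit 456) (nat_lit 5288301404) (nat_lit 456) (nat_lit 1403679665) (nat_lit 173) (nat_lit 4) (nat_lit 179) (nat_lit 5) (nat_lit 179) (nat_lit 4) (nat_lit 450) (nat_lit 347) (nat_lit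 343)) (XT.nd (nat_lit 78) (nat_lit 0) (nat_lit 0) (XT.lf (nat_lit 0) (nat_lit 281140685) (nat_lit 456) (nat_lit 2238554120) (nat_lit 532) (nat_lit 6544247679) (nat_lit 166) (nat_lit 5) (nat_lit 172) (nat_lit 5) (nat_lit 173) (nat_lit 4) (nat_lit 451) (nat_lit 347) (nat_lit 342)) (XT.lf (nat_lit 0) (nat_lit 6490253157) (nat_lit 532) (nat_lit 1767251500) (nat_lit 0) (nat_lit 887757232) (nat_lit 166) (nat_lit 5) (nat_lit 173) (nat_lit 4) (nat_lit 166) (nat_lit 4) (nat_lit 452) (nat_lit 347) (nat_lit 341)))) (XT.nd (nat_lit 78) (nat_lit 836) (nat_lit 0) (XT.lf (nat_lit 0) (nat_lit 1282159405) (nat_lit 532) (nat_lit 3883259630) (nat_lit 76) (nat_lit 4062890404) (nat_lit 159) (nat_lit 5) (nat_lit 166) (nat_lit 5) (nat_lit 160) (nat_lit 4) (nat_lit 453) (nat_lit 347) (nat_lit 340)) (XT.nd (nat_lit 78) (nat_lit 456) (nat_lit 0) (XT.lf (nat_lit 0) (nat_lit 3245077744) (nat_lit 380) (nat_lit 1988561871) (nat_lit 456) (nat_lit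 4079623731) (nat_lit 154) (nat_lit 5) (nat_lit 159) (nat_lit 5) (nat_lit 160) (nat_lit 4) (nat_lit 454) (nat_lit 347) (nat_lit 339)) (XT.lf (nat_lit 0) (nat_lit 1084088568) (nat_lit 456) (nat_lit 8159981066) (nat_lit 456) (nat_lit 156266710) (nat_lit 148) (nat_lit 4) (nat_lit 154) (nat_lit 5) (nat_lit 154) (nat_lit 4) (nat_lit 455) (nat_lit 347) (nat_lit 338))))))) (XT.nd (nat_lit 858) (nat_lit 2584) (nat_lit 0) (XT.nd (nat_lit 390) (nat_lit 1824) (nat_lit 0) (XT.nd (nat_lit 156) (nat_lit 912) (nat_lit 0) (XT.nd (nat_lit 78) (nat_lit 380) (nat_lit 0) (XT.lf (nat_lit 0) (nat_lit 3788001799) (nat_lit 532) (nat_lit 1156366679) (nat_lit 76) (nat_lit 4544443074) (nat_lit 147) (nat_lit 5) (nat_lit 154) (nat_lit 5) (nat_lit 148) (nat_lit 4) (nat_lit 456) (nat_lit 347) (nat_lit 337)) (XT.lf (nat_lit 0) (nat_lit 6136663049) (nat_lit 380) (nat_lit 1652166881) (nat_lit 456) (nat_lit 1790627697) (nat_lit 142) (nat_lit 5) (nat_lit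 147) (nat_lit 5) (nat_lit 148) (nat_lit 4) (nat_lit 457) (nat_lit 347) (nat_lit 336))) (XT.nd (nat_lit 78) (nat_lit 456) (nat_lit 0) (XT.lf (nat_lit 0) (nat_lit 2153152665) (nat_lit 456) (nat_lit 5817252123) (nat_lit 76) (nat_lit 1701558757) (nat_lit 136) (nat_lit 5) (nat_lit 142) (nat_lit 5) (nat_lit 137) (nat_lit 4) (nat_lit 458) (nat_lit 347) (nat_lit 335)) (XT.nd (nat_lit 78) (nat_lit 76) (nat_lit 0) (XT.lf (nat_lit 0) (nat_lit 1485366365) (nat_lit 380) (nat_lit 4650842979) (nat_lit 456) (nat_lit 3630202323) (nat_lit 131) (nat_lit 5) (nat_lit 136) (nat_lit 5) (nat_lit 137) (nat_lit 4) (nat_lit 459) (nat_lit 347) (nat_lit 334)) (XT.lf (nat_lit 0) (nat_lit 311757171) (nat_lit 456) (nat_lit 941868012) (nat_lit 76) (nat_lit 8609495877) (nat_lit 130) (nat_lit 5) (nat_lit 136) (nat_lit 5) (nat_lit 131) (nat_lit 5) (nat_lit 460) (nat_lit 347) (nat_lit 333))))) (XT.nd (nat_lit 234) (nat_lit 684) (nat_lit 0) (XT.nd (nat_lit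 78) (nat_lit 760) (nat_lit 0) (XT.lf (nat_lit 0) (nat_lit 4282761155) (nat_lit 456) (nat_lit 3459272642) (nat_lit 76) (nat_lit 2219290067) (nat_lit 125) (nat_lit 5) (nat_lit 131) (nat_lit 5) (nat_lit 126) (nat_lit 4) (nat_lit 461) (nat_lit 347) (nat_lit 332)) (XT.nd (nat_lit 78) (nat_lit 456) (nat_lit 0) (XT.lf (nat_lit 0) (nat_lit 4001421981) (nat_lit 304) (nat_lit 4314634173) (nat_lit 380) (nat_lit 1745792258) (nat_lit 121) (nat_lit 5) (nat_lit 125) (nat_lit 5) (nat_lit 126) (nat_lit 4) (nat_lit 462) (nat_lit 347) (nat_lit 331)) (XT.lf (nat_lit 0) (nat_lit 1408755039) (nat_lit 380) (nat_lit 802070294) (nat_lit 456) (nat_lit 7953780320) (nat_lit 115) (nat_lit 5) (nat_lit 120) (nat_lit 5) (nat_lit 121) (nat_lit 5) (nat_lit 463) (nat_lit 347) (nat_lit 330)))) (XT.nd (nat_lit 78) (nat_lit 684) (nat_lit 0) (XT.lf (nat_lit 0) (nat_lit 6224955313) (nat_lit 456) (nat_lit 1278543212) (nat_lit 76) (nat_lit 2765667833) (nat_lit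 115) (nat_lit 5) (nat_lit 121) (nat_lit 5) (nat_lit 116) (nat_lit 4) (nat_lit 464) (nat_lit 347) (nat_lit 329)) (XT.nd (nat_lit 78) (nat_lit 380) (nat_lit 0) (XT.lf (nat_lit 0) (nat_lit 6338358649) (nat_lit 304) (nat_lit 3971338424) (nat_lit 380) (nat_lit 66328577) (nat_lit 111) (nat_lit 5) (nat_lit 115) (nat_lit 5) (nat_lit 116) (nat_lit 4) (nat_lit 465) (nat_lit 347) (nat_lit 328)) (XT.lf (nat_lit 0) (nat_lit 3573021412) (nat_lit 304) (nat_lit 341598422) (nat_lit 380) (nat_lit 6570380401) (nat_lit 106) (nat_lit 5) (nat_lit 110) (nat_lit 5) (nat_lit 111) (nat_lit 5) (nat_lit 466) (nat_lit 347) (nat_lit 327)))))) (XT.nd (nat_lit 390) (nat_lit 1520) (nat_lit 0) (XT.nd (nat_lit 156) (nat_lit 684) (nat_lit 0) (XT.nd (nat_lit 78) (nat_lit 76) (nat_lit 0) (XT.lf (nat_lit 0) (nat_lit 693413232) (nat_lit 304) (nat_lit 7278823906) (nat_lit 380) (nat_lit 2623962796) (nat_lit 102) (nat_lit 5) (nat_lit 106) (nat_lit 5) (nat_lit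 107) (nat_lit 4) (nat_lit 467) (nat_lit 347) (nat_lit 326)) (XT.lf (nat_lit 0) (nat_lit 1376440947) (nat_lit 380) (nat_lit 2264211853) (nat_lit 76) (nat_lit 7068932749) (nat_lit 101) (nat_lit 5) (nat_lit 106) (nat_lit 5) (nat_lit 102) (nat_lit 5) (nat_lit 468) (nat_lit 347) (nat_lit 325))) (XT.nd (nat_lit 78) (nat_lit 380) (nat_lit 0) (XT.lf (nat_lit 0) (nat_lit 5403599910) (nat_lit 380) (nat_lit 5330770324) (nat_lit 76) (nat_lit 90896508) (nat_lit 97) (nat_lit 5) (nat_lit 102) (nat_lit 5) (nat_lit 98) (nat_lit 4) (nat_lit 469) (nat_lit 347) (nat_lit 324)) (XT.nd (nat_lit 78) (nat_lit 76) (nat_lit 0) (XT.lf (nat_lit 0) (nat_lit 2416565026) (nat_lit 304) (nat_lit 7095703799) (nat_lit 380) (nat_lit 1430985550) (nat_lit 93) (nat_lit 5) (nat_lit 97) (nat_lit 5) (nat_lit 98) (nat_lit 4) (nat_lit 470) (nat_lit 347) (nat_lit 323)) (XT.lf (nat_lit 0) (nat_lit 2586905847) (nat_lit 380) (nat_lit 776341175) (nat_lit 76) (nat_lit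 7700383385) (nat_lit 92) (nat_lit 5) (nat_lit 97) (nat_lit 5) (nat_lit 93) (nat_lit 5) (nat_lit 471) (nat_lit 347) (nat_lit 322))))) (XT.nd (nat_lit 234) (nat_lit 608) (nat_lit 0) (XT.nd (nat_lit 78) (nat_lit 608) (nat_lit 0) (XT.lf (nat_lit 0) (nat_lit 6662392242) (nat_lit 380) (nat_lit 4061870687) (nat_lit 76) (nat_lit 462045342) (nat_lit 88) (nat_lit 5) (nat_lit 93) (nat_lit 5) (nat_lit 89) (nat_lit 4) (nat_lit 472) (nat_lit 347) (nat_lit 321)) (XT.nd (nat_lit 78) (nat_lit 380) (nat_lit 0) (XT.lf (nat_lit 0) (nat_lit 3824506254) (nat_lit 228) (nat_lit 6994570187) (nat_lit 304) (nat_lit 492380715) (nat_lit 85) (nat_lit 5) (nat_lit 88) (nat_lit 5) (nat_lit 89) (nat_lit 4) (nat_lit 473) (nat_lit 347) (nat_lit 320)) (XT.lf (nat_lit 0) (nat_lit 380504570) (nat_lit 304) (nat_lit 3169177362) (nat_lit 380) (nat_lit 7889420420) (nat_lit 80) (nat_lit 5) (nat_lit 84) (nat_lit 5) (nat_lit 85) (nat_lit 5) (nat_lit 474) (nat_lit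 347) (nat_lit 319)))) (XT.nd (nat_lit 78) (nat_lit 608) (nat_lit 0) (XT.lf (nat_lit 0) (nat_lit 7669052860) (nat_lit 380) (nat_lit 3156030089) (nat_lit 76) (nat_lit 744101787) (nat_lit 80) (nat_lit 5) (nat_lit 85) (nat_lit 5) (nat_lit 81) (nat_lit 4) (nat_lit 475) (nat_lit 347) (nat_lit 318)) (XT.nd (nat_lit 78) (nat_lit 304) (nat_lit 0) (XT.lf (nat_lit 0) (nat_lit 168033643) (nat_lit 304) (nat_lit 6840070320) (nat_lit 76) (nat_lit 4693726896) (nat_lit 76) (nat_lit 5) (nat_lit 80) (nat_lit 5) (nat_lit 77) (nat_lit 5) (nat_lit 476) (nat_lit 347) (nat_lit 317)) (XT.lf (nat_lit 0) (nat_lit 1150476970) (nat_lit 304) (nat_lit 3092561138) (nat_lit 380) (nat_lit 7594032198) (nat_lit 72) (nat_lit 5) (nat_lit 76) (nat_lit 5) (nat_lit 77) (nat_lit 5) (nat_lit 477) (nat_lit 347) (nat_lit 316))))))))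
noncomputable def xc23 : XT := (XT.nd (nat_lit 1638) (nat_lit 988) (nat_lit 0) (XT.nd (nat_lit 780) (nat_lit 1444) (nat_lit 0) (XT.nd (nat_lit 390) (nat_lit 760) (nat_lit 0) (XT.nd (nat_lit 156) (nat_lit 532) (nat_lit 0) (XT.nd (nat_lit 78) (nat_lit 304) (nat_lit 0) (XT.lf (nat_lit 0) (nat_lit 8400700088) (nat_lit 380) (nat_lit 2671572318) (nat_lit 76) (nat_lit 902728760) (nat_lit 72) (nat_lit 5) (nat_lit 77) (nat_lit 5) (nat_lit 73) (nat_lit 4) (nat_lit 478) (nat_lit 347) (nat_lit 315)) (XT.lf (nat_lit 0) (nat_lit 525065805) (nat_lit 304) (nat_lit 6647209936) (nat_lit 76) (nat_lit 4943233267) (nat_lit 68) (nat_lit 5) (nat_lit 72) (nat_lit 5) (nat_lit 69) (nat_lit 5) (nat_lit 479) (nat_lit 347) (nat_lit 314))) (XT.nd (nat_lit 78) (nat_lit 304) (nat_lit 0) (XT.lf (nat_lit 0) (nat_lit 1460748170) (nat_lit 228) (nat_lit 3175591368) (nat_lit 304) (nat_lit 7622468564) (nat_lit 65) (nat_lit 5) (nat_lit 68) (nat_lit 5) (nat_lit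 69) (nat_lit 5) (nat_lit 480) (nat_lit 347) (nat_lit 313)) (XT.nd (nat_lit 78) (nat_lit 304) (nat_lit 0) (XT.lf (nat_lit 0) (nat_lit 8831016484) (nat_lit 304) (nat_lit 2672820801) (nat_lit 76) (nat_lit 901121367) (nat_lit 65) (nat_lit 5) (nat_lit 69) (nat_lit 5) (nat_lit 66) (nat_lit 4) (nat_lit 481) (nat_lit 347) (nat_lit 312)) (XT.lf (nat_lit 0) (nat_lit 557008753) (nat_lit 304) (nat_lit 6972313804) (nat_lit 76) (nat_lit 5024471389) (nat_lit 61) (nat_lit 5) (nat_lit 65) (nat_lit 5) (nat_lit 62) (nat_lit 5) (nat_lit 482) (nat_lit 347) (nat_lit 311))))) (XT.nd (nat_lit 156) (nat_lit 532) (nat_lit 0) (XT.nd (nat_lit 78) (nat_lit 0) (nat_lit 0) (XT.lf (nat_lit 0) (nat_lit 1242316595) (nat_lit 228) (nat_lit 3458067479) (nat_lit 304) (nat_lit 8005204695) (nat_lit 58) (nat_lit 5) (nat_lit 61) (nat_lit 5) (nat_lit 62) (nat_lit 5) (nat_lit 483) (nat_lit 347) (nat_lit 310)) (XT.lf (nat_lit 0) (nat_lit 8929934471) (nat_lit 304)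 (nat_lit 3230805623) (nat_lit 76) (nat_lit 699621583) (nat_lit 58) (nat_lit 5) (nat_lit 62) (nat_lit 5) (nat_lit 59) (nat_lit 4) (nat_lit 484) (nat_lit 347) (nat_lit 309))) (XT.nd (nat_lit 78) (nat_lit 228) (nat_lit 0) (XT.lf (nat_lit 0) (nat_lit 231790189) (nat_lit 304) (nat_lit 7889535856) (nat_lit 76) (nat_lit 4896704560) (nat_lit 54) (nat_lit 5) (nat_lit 58) (nat_lit 5) (nat_lit 55) (nat_lit 5) (nat_lit 485) (nat_lit 347) (nat_lit 308)) (XT.nd (nat_lit 78) (nat_lit 0) (nat_lit 0) (XT.lf (nat_lit 0) (nat_lit 418931782) (nat_lit 228) (nat_lit 3983021447) (nat_lit 304) (nat_lit 8776841346) (nat_lit 51) (nat_lit 5) (nat_lit 54) (nat_lit 5) (nat_lit 55) (nat_lit 5) (nat_lit 486) (nat_lit 347) (nat_lit 307)) (XT.lf (nat_lit 0) (nat_lit 8663284561) (nat_lit 304) (nat_lit 4424040632) (nat_lit 76) (nat_lit 255301036) (nat_lit 51) (nat_lit 5) (nat_lit 55) (nat_lit 5) (nat_lit 52) (nat_lit 4) (nat_lit 487) (nat_lit 347) (nat_lit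 306)))))) (XT.nd (nat_lit 390) (nat_lit 760) (nat_lit 0) (XT.nd (nat_lit 156) (nat_lit 456) (nat_lit 0) (XT.nd (nat_lit 78) (nat_lit 76) (nat_lit 0) (XT.lf (nat_lit 0) (nat_lit 4025560426) (nat_lit 152) (nat_lit 8990645251) (nat_lit 228) (nat_lit 493409129) (nat_lit 49) (nat_lit 5) (nat_lit 51) (nat_lit 5) (nat_lit 52) (nat_lit 4) (nat_lit 488) (nat_lit 347) (nat_lit 305)) (XT.lf (nat_lit 0) (nat_lit 3710531877) (nat_lit 228) (nat_lit 1079394613) (nat_lit 76) (nat_lit 8889857250) (nat_lit 48) (nat_lit 5) (nat_lit 51) (nat_lit 5) (nat_lit 49) (nat_lit 5) (nat_lit 489) (nat_lit 347) (nat_lit 304))) (XT.nd (nat_lit 78) (nat_lit 228) (nat_lit 0) (XT.lf (nat_lit 0) (nat_lit 7510699546) (nat_lit 228) (nat_lit 484850995) (nat_lit 304) (nat_lit 5857675290) (nat_lit 45) (nat_lit 5) (nat_lit 48) (nat_lit 5) (nat_lit 49) (nat_lit 5) (nat_lit 490) (nat_lit 347) (nat_lit 303)) (XT.nd (nat_lit 78) (nat_lit 76) (nat_lit 0) (XT.lf (nat_lit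 0) (nat_lit 2182373108) (nat_lit 152) (nat_lit 10185726083) (nat_lit 228) (nat_lit 1662007959) (nat_lit 43) (nat_lit 5) (nat_lit 45) (nat_lit 5) (nat_lit 46) (nat_lit 4) (nat_lit 491) (nat_lit 347) (nat_lit 302)) (XT.lf (nat_lit 0) (nat_lit 2584380173) (nat_lit 228) (nat_lit 3344581414) (nat_lit 76) (nat_lit 8281208569) (nat_lit 42) (nat_lit 5) (nat_lit 45) (nat_lit 5) (nat_lit 43) (nat_lit 5) (nat_lit 492) (nat_lit 347) (nat_lit 301))))) (XT.nd (nat_lit 234) (nat_lit 304) (nat_lit 0) (XT.nd (nat_lit 78) (nat_lit 228) (nat_lit 0) (XT.lf (nat_lit 0) (nat_lit 5310646464) (nat_lit 228) (nat_lit 1573259992) (nat_lit 304) (nat_lit 7509905531) (nat_lit 39) (nat_lit 5) (nat_lit 42) (nat_lit 5) (nat_lit 43) (nat_lit 5) (nat_lit 493) (nat_lit 347) (nat_lit 300)) (XT.nd (nat_lit 78) (nat_lit 228) (nat_lit 0) (XT.lf (nat_lit 0) (nat_lit 11266768931) (nat_lit 304) (nat_lit 491937987) (nat_lit 76) (nat_lit 2822479269) (nat_lit 39)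 (nat_lit 5) (nat_lit 43) (nat_lit 5) (nat_lit 40) (nat_lit 4) (nat_lit 494) (nat_lit 347) (nat_lit 299)) (XT.lf (nat_lit 0) (nat_lit 973712104) (nat_lit 228) (nat_lit 6484110554) (nat_lit 76) (nat_lit 7313938361) (nat_lit 36) (nat_lit 5) (nat_lit 39) (nat_lit 5) (nat_lit 37) (nat_lit 5) (nat_lit 495) (nat_lit 347) (nat_lit 298)))) (XT.nd (nat_lit 78) (nat_lit 152) (nat_lit 0) (XT.lf (nat_lit 0) (nat_lit 2215126044) (nat_lit 152) (nat_lit 3062896195) (nat_lit 228) (nat_lit 9688197054) (nat_lit 34) (nat_lit 5) (nat_lit 36) (nat_lit 5) (nat_lit 37) (nat_lit 5) (nat_lit 496) (nat_lit 347) (nat_lit 297)) (XT.nd (nat_lit 78) (nat_lit 152) (nat_lit 0) (XT.lf (nat_lit 0) (nat_lit 9678635679) (nat_lit 228) (nat_lit 4072486702) (nat_lit 76) (nat_lit 1413245965) (nat_lit 34) (nat_lit 5) (nat_lit 37) (nat_lit 5) (nat_lit 35) (nat_lit 4) (nat_lit 497) (nat_lit 347) (nat_lit 296)) (XT.lf (nat_lit 0) (nat_lit 4747630661) (nat_lit 152)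 (nat_lit 9428776858) (nat_lit 228) (nat_lit 1189895779) (nat_lit 32) (nat_lit 5) (nat_lit 34) (nat_lit 5) (nat_lit 35) (nat_lit 4) (nat_lit 498) (nat_lit 347) (nat_lit 295))))))) (XT.nd (nat_lit 55224) (nat_lit 0) (nat_lit 9728) (XT.nd (nat_lit 390) (nat_lit 380) (nat_lit 0) (XT.nd (nat_lit 156) (nat_lit 380) (nat_lit 0) (XT.nd (nat_lit 78) (nat_lit 152) (nat_lit 0) (XT.lf (nat_lit 0) (nat_lit 3135606814) (nat_lit 228) (nat_lit 1867399581) (nat_lit 76) (nat_lit 10569149477) (nat_lit 31) (nat_lit 5) (nat_lit 34) (nat_lit 5) (nat_lit 32) (nat_lit 5) (nat_lit 499) (nat_lit 347) (nat_lit 294)) (XT.lf (nat_lit 0) (nat_lit 7071092220) (nat_lit 152) (nat_lit 465442439) (nat_lit 228) (nat_lit 8245342080) (nat_lit 29) (nat_lit 5) (nat_lit 31) (nat_lit 5) (nat_lit 32) (nat_lit 5) (nat_lit 500) (nat_lit 347) (nat_lit 293))) (XT.nd (nat_lit 78) (nat_lit 228) (nat_lit 0) (XT.lf (nat_lit 0) (nat_lit 119782169) (nat_lit 152) (nat_lit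 11905174315) (nat_lit 228) (nat_lit 3970851426) (nat_lit 27) (nat_lit 5) (nat_lit 29) (nat_lit 5) (nat_lit 30) (nat_lit 4) (nat_lit 501) (nat_lit 347) (nat_lit 292)) (XT.nd (nat_lit 78) (nat_lit 152) (nat_lit 0) (XT.lf (nat_lit 0) (nat_lit 405063458) (nat_lit 228) (nat_lit 7046680244) (nat_lit 76) (nat_lit 8761807899) (nat_lit 26) (nat_lit 5) (nat_lit 29) (nat_lit 5) (nat_lit 27) (nat_lit 5) (nat_lit 502) (nat_lit 347) (nat_lit 291)) (XT.lf (nat_lit 0) (nat_lit 1886249724) (nat_lit 152) (nat_lit 2901289833) (nat_lit 228) (nat_lit 11648146494) (nat_lit 24) (nat_lit 5) (nat_lit 26) (nat_lit 5) (nat_lit 27) (nat_lit 5) (nat_lit 503) (nat_lit 347) (nat_lit 290))))) (XT.nd (nat_lit 234) (nat_lit 152) (nat_lit 0) (XT.nd (nat_lit 78) (nat_lit 228) (nat_lit 0) (XT.lf (nat_lit 0) (nat_lit 9276602238) (nat_lit 228) (nat_lit 5651142446) (nat_lit 76) (nat_lit 1734144748) (nat_lit 24) (nat_lit 5) (nat_lit 27) (nat_lit 5) (nat_lit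 25) (nat_lit 4) (nat_lit 504) (nat_lit 347) (nat_lit 289)) (XT.nd (nat_lit 78) (nat_lit 76) (nat_lit 0) (XT.lf (nat_lit 0) (nat_lit 3380065624) (nat_lit 152) (nat_lit 10477362184) (nat_lit 228) (nat_lit 3035154327) (nat_lit 22) (nat_lit 5) (nat_lit 24) (nat_lit 5) (nat_lit 25) (nat_lit 4) (nat_lit 505) (nat_lit 347) (nat_lit 288)) (XT.lf (nat_lit 0) (nat_lit 1382642927) (nat_lit 228) (nat_lit 4538214424) (nat_lit 76) (nat_lit 11206873007) (nat_lit 21) (nat_lit 5) (nat_lit 24) (nat_lit 5) (nat_lit 22) (nat_lit 5) (nat_lit 506) (nat_lit 347) (nat_lit 287)))) (XT.nd (nat_lit 54444) (nat_lit 0) (nat_lit 13756) (XT.lf (nat_lit 0) (nat_lit 4586775791) (nat_lit 152) (nat_lit 1252840830) (nat_lit 228) (nat_lit 11527739057) (nat_lit 19) (nat_lit 5) (nat_lit 21) (nat_lit 5) (nat_lit 22) (nat_lit 5) (nat_lit 507) (nat_lit 347) (nat_lit 286)) (XT.nd (nat_lit 78) (nat_lit 532) (nat_lit 0) (XT.lf (nat_lit 0) (nat_lit 1187717989) (nat_lit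 608) (nat_lit 1895852933) (nat_lit 0) (nat_lit 1187717989) (nat_lit 207) (nat_lit 5) (nat_lit 215) (nat_lit 4) (nat_lit 207) (nat_lit 4) (nat_lit 444) (nat_lit 348) (nat_lit 348)) (XT.lf (nat_lit 0) (nat_lit 2920886597) (nat_lit 532) (nat_lit 3376509087) (nat_lit 532) (nat_lit 2315099313) (nat_lit 200) (nat_lit 4) (nat_lit 207) (nat_lit 5) (nat_lit 207) (nat_lit 4) (nat_lit 445) (nat_lit 348) (nat_lit 347)))))) (XT.nd (nat_lit 390) (nat_lit 1976) (nat_lit 0) (XT.nd (nat_lit 156) (nat_lit 1520) (nat_lit 0) (XT.nd (nat_lit 78) (nat_lit 0) (nat_lit 0) (XT.lf (nat_lit 0) (nat_lit 1048929203) (nat_lit 456) (nat_lit 510940497) (nat_lit 532) (nat_lit 7124413066) (nat_lit 193) (nat_lit 5) (nat_lit 199) (nat_lit 5) (nat_lit 200) (nat_lit 4) (nat_lit 446) (nat_lit 348) (nat_lit 346)) (XT.lf (nat_lit 0) (nat_lit 5470645112) (nat_lit 532) (nat_lit 877128226) (nat_lit 0) (nat_lit 2409663219) (nat_lit 193) (nat_lit 5) (nat_lit 200)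 (nat_lit 4) (nat_lit 193) (nat_lit 4) (nat_lit 447) (nat_lit 348) (nat_lit 345))) (XT.nd (nat_lit 78) (nat_lit 912) (nat_lit 0) (XT.lf (nat_lit 0) (nat_lit 597989423) (nat_lit 608) (nat_lit 2833621823) (nat_lit 76) (nat_lit 5400809509) (nat_lit 185) (nat_lit 5) (nat_lit 193) (nat_lit 5) (nat_lit 186) (nat_lit 4) (nat_lit 448) (nat_lit 348) (nat_lit 344)) (XT.nd (nat_lit 78) (nat_lit 456) (nat_lit 0) (XT.lf (nat_lit 0) (nat_lit 4057686288) (nat_lit 456) (nat_lit 427758404) (nat_lit 532) (nat_lit 4423666805) (nat_lit 179) (nat_lit 5) (nat_lit 185) (nat_lit 5) (nat_lit 186) (nat_lit 4) (nat_lit 449) (nat_lit 348) (nat_lit 343)) (XT.lf (nat_lit 0) (nat_lit 2058437640) (nat_lit 456) (nat_lit 6379009972) (nat_lit 456) (nat_lit 550173211) (nat_lit 173) (nat_lit 4) (nat_lit 179) (nat_lit 5) (nat_lit 179) (nat_lit 4) (nat_lit 450) (nat_lit 348) (nat_lit 342))))) (XT.nd (nat_lit 234) (nat_lit 912) (nat_lit 0) (XT.nd (nat_lit 78)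 (nat_lit 988) (nat_lit 0) (XT.lf (nat_lit 0) (nat_lit 3329191511) (nat_lit 532) (nat_lit 9772929) (nat_lit 76) (nat_lit 5728854162) (nat_lit 172) (nat_lit 5) (nat_lit 179) (nat_lit 5) (nat_lit 173) (nat_lit 4) (nat_lit 451) (nat_lit 348) (nat_lit 341)) (XT.nd (nat_lit 78) (nat_lit 532) (nat_lit 0) (XT.lf (nat_lit 0) (nat_lit 7048734107) (nat_lit 456) (nat_lit 214441193) (nat_lit 532) (nat_lit 1886703874) (nat_lit 166) (nat_lit 5) (nat_lit 172) (nat_lit 5) (nat_lit 173) (nat_lit 4) (nat_lit 452) (nat_lit 348) (nat_lit 340)) (XT.lf (nat_lit 0) (nat_lit 2006130397) (nat_lit 532) (nat_lit 4274681012) (nat_lit 76) (nat_lit 2952709995) (nat_lit 159) (nat_lit 5) (nat_lit 166) (nat_lit 5) (nat_lit 160) (nat_lit 4) (nat_lit 453) (nat_lit 348) (nat_lit 339)))) (XT.nd (nat_lit 78) (nat_lit 532) (nat_lit 0) (XT.lf (nat_lit 0) (nat_lit 2803901805) (nat_lit 380) (nat_lit 3120791553) (nat_lit 456) (nat_lit 3394449415) (nat_lit 154)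 (nat_lit 5) (nat_lit 159) (nat_lit 5) (nat_lit 160) (nat_lit 4) (nat_lit 454) (nat_lit 348) (nat_lit 338)) (XT.nd (nat_lit 78) (nat_lit 0) (nat_lit 0) (XT.lf (nat_lit 0) (nat_lit 481322361) (nat_lit 532) (nat_lit 8816437709) (nat_lit 76) (nat_lit 109208753) (nat_lit 147) (nat_lit 5) (nat_lit 154) (nat_lit 5) (nat_lit 148) (nat_lit 4) (nat_lit 455) (nat_lit 348) (nat_lit 337)) (XT.lf (nat_lit 0) (nat_lit 4393799533) (nat_lit 532) (nat_lit 1701876917) (nat_lit 76) (nat_lit 3400350718) (nat_lit 147) (nat_lit 5) (nat_lit 154) (nat_lit 5) (nat_lit 148) (nat_lit 4) (nat_lit 456) (nat_lit 348) (nat_lit 336))))))))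
noncomputable def xc24 : XT := (XT.nd (nat_lit 1638) (nat_lit 3344) (nat_lit 0) (XT.nd (nat_lit 780) (nat_lit 2280) (nat_lit 0) (XT.nd (nat_lit 390) (nat_lit 1444) (nat_lit 0) (XT.nd (nat_lit 156) (nat_lit 836) (nat_lit 0) (XT.nd (nat_lit 78) (nat_lit 456) (nat_lit 0) (XT.lf (nat_lit 0) (nat_lit 5539889035) (nat_lit 380) (nat_lit 2821705280) (nat_lit 456) (nat_lit 1225748018) (nat_lit 142) (nat_lit 5) (nat_lit 147) (nat_lit 5) (nat_lit 148) (nat_lit 4) (nat_lit 457) (nat_lit 348) (nat_lit 335)) (XT.lf (nat_lit 0) (nat_lit 2669577228) (nat_lit 456) (nat_lit 6478582043) (nat_lit 76) (nat_lit 532444655) (nat_lit 136) (nat_lit 5) (nat_lit 142) (nat_lit 5) (nat_lit 137) (nat_lit 4) (nat_lit 458) (nat_lit 348) (nat_lit 334))) (XT.nd (nat_lit 78) (nat_lit 456) (nat_lit 0) (XT.lf (nat_lit 0) (nat_lit 770917766) (nat_lit 380) (nat_lit 5848206060) (nat_lit 456) (nat_lit 3156606362) (nat_lit 131) (nat_lit 5) (nat_lit 136) (nat_lit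 5) (nat_lit 137) (nat_lit 4) (nat_lit 459) (nat_lit 348) (nat_lit 333)) (XT.nd (nat_lit 78) (nat_lit 380) (nat_lit 0) (XT.lf (nat_lit 0) (nat_lit 750357359) (nat_lit 456) (nat_lit 1712560927) (nat_lit 76) (nat_lit 7410043114) (nat_lit 130) (nat_lit 5) (nat_lit 136) (nat_lit 5) (nat_lit 131) (nat_lit 5) (nat_lit 460) (nat_lit 348) (nat_lit 332)) (XT.lf (nat_lit 0) (nat_lit 4679805195) (nat_lit 456) (nat_lit 4286306460) (nat_lit 76) (nat_lit 1005891151) (nat_lit 125) (nat_lit 5) (nat_lit 131) (nat_lit 5) (nat_lit 126) (nat_lit 4) (nat_lit 461) (nat_lit 348) (nat_lit 331))))) (XT.nd (nat_lit 156) (nat_lit 684) (nat_lit 0) (XT.nd (nat_lit 78) (nat_lit 456) (nat_lit 0) (XT.lf (nat_lit 0) (nat_lit 3119644905) (nat_lit 304) (nat_lit 5559690317) (nat_lit 380) (nat_lit 1393874764) (nat_lit 121) (nat_lit 5) (nat_lit 125) (nat_lit 5) (nat_lit 126) (nat_lit 4) (nat_lit 462) (nat_lit 348) (nat_lit 330)) (XT.lf (nat_lit 0) (nat_lit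 457583584) (nat_lit 380) (nat_lit 2066408566) (nat_lit 456) (nat_lit 7652619131) (nat_lit 115) (nat_lit 5) (nat_lit 120) (nat_lit 5) (nat_lit 121) (nat_lit 5) (nat_lit 463) (nat_lit 348) (nat_lit 329))) (XT.nd (nat_lit 78) (nat_lit 684) (nat_lit 0) (XT.lf (nat_lit 0) (nat_lit 6502123419) (nat_lit 456) (nat_lit 2276961213) (nat_lit 76) (nat_lit 1502814237) (nat_lit 115) (nat_lit 5) (nat_lit 121) (nat_lit 5) (nat_lit 116) (nat_lit 4) (nat_lit 464) (nat_lit 348) (nat_lit 328)) (XT.nd (nat_lit 78) (nat_lit 304) (nat_lit 0) (XT.lf (nat_lit 0) (nat_lit 161182658) (nat_lit 380) (nat_lit 5106999010) (nat_lit 76) (nat_lit 5121243932) (nat_lit 110) (nat_lit 5) (nat_lit 115) (nat_lit 5) (nat_lit 111) (nat_lit 5) (nat_lit 465) (nat_lit 348) (nat_lit 327)) (XT.lf (nat_lit 0) (nat_lit 2445789678) (nat_lit 304) (nat_lit 1660982049) (nat_lit 380) (nat_lit 6392316145) (nat_lit 106) (nat_lit 5) (nat_lit 110) (nat_lit 5) (nat_lit 111)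 (nat_lit 5) (nat_lit 466) (nat_lit 348) (nat_lit 326)))))) (XT.nd (nat_lit 390) (nat_lit 1216) (nat_lit 0) (XT.nd (nat_lit 156) (nat_lit 684) (nat_lit 0) (XT.nd (nat_lit 78) (nat_lit 380) (nat_lit 0) (XT.lf (nat_lit 0) (nat_lit 8124306785) (nat_lit 380) (nat_lit 491282539) (nat_lit 76) (nat_lit 1995506274) (nat_lit 106) (nat_lit 5) (nat_lit 111) (nat_lit 5) (nat_lit 107) (nat_lit 4) (nat_lit 467) (nat_lit 348) (nat_lit 325)) (XT.lf (nat_lit 0) (nat_lit 1481618423) (nat_lit 380) (nat_lit 3514196821) (nat_lit 76) (nat_lit 5729258242) (nat_lit 101) (nat_lit 5) (nat_lit 106) (nat_lit 5) (nat_lit 102) (nat_lit 5) (nat_lit 468) (nat_lit 348) (nat_lit 324))) (XT.nd (nat_lit 78) (nat_lit 380) (nat_lit 0) (XT.lf (nat_lit 0) (nat_lit 4185861429) (nat_lit 304) (nat_lit 1287401860) (nat_lit 380) (nat_lit 5368207688) (nat_lit 97) (nat_lit 5) (nat_lit 101) (nat_lit 5) (nat_lit 102) (nat_lit 5) (nat_lit 469) (nat_lit 348) (nat_lit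 323)) (XT.nd (nat_lit 78) (nat_lit 76) (nat_lit 0) (XT.lf (nat_lit 0) (nat_lit 1039787974) (nat_lit 304) (nat_lit 8498575923) (nat_lit 380) (nat_lit 1421971975) (nat_lit 93) (nat_lit 5) (nat_lit 97) (nat_lit 5) (nat_lit 98) (nat_lit 4) (nat_lit 470) (nat_lit 348) (nat_lit 322)) (XT.lf (nat_lit 0) (nat_lit 2569595107) (nat_lit 380) (nat_lit 2212574102) (nat_lit 76) (nat_lit 6299071314) (nat_lit 92) (nat_lit 5) (nat_lit 97) (nat_lit 5) (nat_lit 93) (nat_lit 5) (nat_lit 471) (nat_lit 348) (nat_lit 321))))) (XT.nd (nat_lit 234) (nat_lit 608) (nat_lit 0) (XT.nd (nat_lit 78) (nat_lit 304) (nat_lit 0) (XT.lf (nat_lit 0) (nat_lit 5630180983) (nat_lit 304) (nat_lit 976446657) (nat_lit 380) (nat_lit 4598065381) (nat_lit 88) (nat_lit 5) (nat_lit 92) (nat_lit 5) (nat_lit 93) (nat_lit 5) (nat_lit 472) (nat_lit 348) (nat_lit 320)) (XT.nd (nat_lit 78) (nat_lit 76) (nat_lit 0) (XT.lf (nat_lit 0) (nat_lit 2256008043) (nat_lit 228) (nat_lit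 8465221952) (nat_lit 304) (nat_lit 609458997) (nat_lit 85) (nat_lit 5) (nat_lit 88) (nat_lit 5) (nat_lit 89) (nat_lit 4) (nat_lit 473) (nat_lit 348) (nat_lit 319)) (XT.lf (nat_lit 0) (nat_lit 3406169963) (nat_lit 304) (nat_lit 1253151423) (nat_lit 76) (nat_lit 6799592625) (nat_lit 84) (nat_lit 5) (nat_lit 88) (nat_lit 5) (nat_lit 85) (nat_lit 5) (nat_lit 474) (nat_lit 348) (nat_lit 318)))) (XT.nd (nat_lit 78) (nat_lit 304) (nat_lit 0) (XT.lf (nat_lit 0) (nat_lit 6726416849) (nat_lit 304) (nat_lit 760716554) (nat_lit 380) (nat_lit 4102636275) (nat_lit 80) (nat_lit 5) (nat_lit 84) (nat_lit 5) (nat_lit 85) (nat_lit 5) (nat_lit 475) (nat_lit 348) (nat_lit 317)) (XT.nd (nat_lit 78) (nat_lit 76) (nat_lit 0) (XT.lf (nat_lit 0) (nat_lit 3096328860) (nat_lit 228) (nat_lit 8552587581) (nat_lit 304) (nat_lit 74352179) (nat_lit 77) (nat_lit 5) (nat_lit 80) (nat_lit 5) (nat_lit 81) (nat_lit 4) (nat_lit 476) (nat_lit 348) (nat_lit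 316)) (XT.lf (nat_lit 0) (nat_lit 3969337852) (nat_lit 304) (nat_lit 692070203) (nat_lit 76) (nat_lit 7197760295) (nat_lit 76) (nat_lit 5) (nat_lit 80) (nat_lit 5) (nat_lit 77) (nat_lit 5) (nat_lit 477) (nat_lit 348) (nat_lit 315))))))) (XT.nd (nat_lit 780) (nat_lit 1444) (nat_lit 0) (XT.nd (nat_lit 390) (nat_lit 760) (nat_lit 0) (XT.nd (nat_lit 156) (nat_lit 532) (nat_lit 0) (XT.nd (nat_lit 78) (nat_lit 304) (nat_lit 0) (XT.lf (nat_lit 0) (nat_lit 7416940654) (nat_lit 304) (nat_lit 674968917) (nat_lit 380) (nat_lit 3905896188) (nat_lit 72) (nat_lit 5) (nat_lit 76) (nat_lit 5) (nat_lit 77) (nat_lit 5) (nat_lit 478) (nat_lit 348) (nat_lit 314)) (XT.lf (nat_lit 0) (nat_lit 156141539) (nat_lit 304) (nat_lit 8639567781) (nat_lit 76) (nat_lit 3343485459) (nat_lit 68) (nat_lit 5) (nat_lit 72) (nat_lit 5) (nat_lit 69) (nat_lit 5) (nat_lit 479) (nat_lit 348) (nat_lit 313))) (XT.nd (nat_lit 78) (nat_lit 532) (nat_lit 0) (XT.lf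 (nat_lit 0) (nat_lit 4233763070) (nat_lit 304) (nat_lit 591212959) (nat_lit 76) (nat_lit 7458195358) (nat_lit 68) (nat_lit 5) (nat_lit 72) (nat_lit 5) (nat_lit 69) (nat_lit 5) (nat_lit 480) (nat_lit 348) (nat_lit 312)) (XT.nd (nat_lit 78) (nat_lit 304) (nat_lit 0) (XT.lf (nat_lit 0) (nat_lit 7638187590) (nat_lit 228) (nat_lit 756479393) (nat_lit 304) (nat_lit 4035334796) (nat_lit 65) (nat_lit 5) (nat_lit 68) (nat_lit 5) (nat_lit 69) (nat_lit 5) (nat_lit 481) (nat_lit 348) (nat_lit 311)) (XT.lf (nat_lit 0) (nat_lit 58710349) (nat_lit 304) (nat_lit 9177403751) (nat_lit 76) (nat_lit 3343646240) (nat_lit 61) (nat_lit 5) (nat_lit 65) (nat_lit 5) (nat_lit 62) (nat_lit 5) (nat_lit 482) (nat_lit 348) (nat_lit 310))))) (XT.nd (nat_lit 156) (nat_lit 532) (nat_lit 0) (XT.nd (nat_lit 78) (nat_lit 228) (nat_lit 0) (XT.lf (nat_lit 0) (nat_lit 4170478169) (nat_lit 304) (nat_lit 1018884070) (nat_lit 76) (nat_lit 7542829202) (nat_lit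 61) (nat_lit 5) (nat_lit 65) (nat_lit 5) (nat_lit 62) (nat_lit 5) (nat_lit 483) (nat_lit 348) (nat_lit 309)) (XT.lf (nat_lit 0) (nat_lit 7319954227) (nat_lit 228) (nat_lit 1045431599) (nat_lit 304) (nat_lit 4522275425) (nat_lit 58) (nat_lit 5) (nat_lit 61) (nat_lit 5) (nat_lit 62) (nat_lit 5) (nat_lit 484) (nat_lit 348) (nat_lit 308))) (XT.nd (nat_lit 78) (nat_lit 304) (nat_lit 0) (XT.lf (nat_lit 0) (nat_lit 2729312034) (nat_lit 228) (nat_lit 9913713732) (nat_lit 304) (nat_lit 403246026) (nat_lit 55) (nat_lit 5) (nat_lit 58) (nat_lit 5) (nat_lit 59) (nat_lit 4) (nat_lit 485) (nat_lit 348) (nat_lit 307)) (XT.nd (nat_lit 78) (nat_lit 228) (nat_lit 0) (XT.lf (nat_lit 0) (nat_lit 3746546708) (nat_lit 304) (nat_lit 2050557789) (nat_lit 76) (nat_lit 7410500622) (nat_lit 54) (nat_lit 5) (nat_lit 58) (nat_lit 5) (nat_lit 55) (nat_lit 5) (nat_lit 486) (nat_lit 348) (nat_lit 306)) (XT.lf (nat_lit 0) (nat_lit 6384626777) (nat_lit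 228) (nat_lit 1585339185) (nat_lit 304) (nat_lit 5402232791) (nat_lit 51) (nat_lit 5) (nat_lit 54) (nat_lit 5) (nat_lit 55) (nat_lit 5) (nat_lit 487) (nat_lit 348) (nat_lit 305)))))) (XT.nd (nat_lit 390) (nat_lit 760) (nat_lit 0) (XT.nd (nat_lit 156) (nat_lit 456) (nat_lit 0) (XT.nd (nat_lit 78) (nat_lit 76) (nat_lit 0) (XT.lf (nat_lit 0) (nat_lit 1399364333) (nat_lit 152) (nat_lit 10873779579) (nat_lit 228) (nat_lit 1267041948) (nat_lit 49) (nat_lit 5) (nat_lit 51) (nat_lit 5) (nat_lit 52) (nat_lit 4) (nat_lit 488) (nat_lit 348) (nat_lit 304)) (XT.lf (nat_lit 0) (nat_lit 2924686464) (nat_lit 228) (nat_lit 3769700886) (nat_lit 76) (nat_lit 7016518605) (nat_lit 48) (nat_lit 5) (nat_lit 51) (nat_lit 5) (nat_lit 49) (nat_lit 5) (nat_lit 489) (nat_lit 348) (nat_lit 303))) (XT.nd (nat_lit 78) (nat_lit 228) (nat_lit 0) (XT.lf (nat_lit 0) (nat_lit 4746332153) (nat_lit 228) (nat_lit 2423504350) (nat_lit 304) (nat_lit 6715312370)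 (nat_lit 45) (nat_lit 5) (nat_lit 48) (nat_lit 5) (nat_lit 49) (nat_lit 5) (nat_lit 490) (nat_lit 348) (nat_lit 302)) (XT.nd (nat_lit 78) (nat_lit 228) (nat_lit 0) (XT.lf (nat_lit 0) (nat_lit 11493791435) (nat_lit 304) (nat_lit 667845087) (nat_lit 76) (nat_lit 1901368932) (nat_lit 45) (nat_lit 5) (nat_lit 49) (nat_lit 5) (nat_lit 46) (nat_lit 4) (nat_lit 491) (nat_lit 348) (nat_lit 301)) (XT.lf (nat_lit 0) (nat_lit 1662849286) (nat_lit 228) (nat_lit 6268678060) (nat_lit 76) (nat_lit 6312186633) (nat_lit 42) (nat_lit 5) (nat_lit 45) (nat_lit 5) (nat_lit 43) (nat_lit 5) (nat_lit 492) (nat_lit 348) (nat_lit 300))))) (XT.nd (nat_lit 234) (nat_lit 380) (nat_lit 0) (XT.nd (nat_lit 78) (nat_lit 152) (nat_lit 0) (XT.lf (nat_lit 0) (nat_lit 2310003449) (nat_lit 228) (nat_lit 3611517226) (nat_lit 304) (nat_lit 8506655423) (nat_lit 39) (nat_lit 5) (nat_lit 42) (nat_lit 5) (nat_lit 43) (nat_lit 5) (nat_lit 493) (nat_lit 348) (nat_lit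 299)) (XT.nd (nat_lit 78) (nat_lit 152) (nat_lit 0) (XT.lf (nat_lit 0) (nat_lit 10269853603) (nat_lit 304) (nat_lit 3550983819) (nat_lit 76) (nat_lit 795406598) (nat_lit 39) (nat_lit 5) (nat_lit 43) (nat_lit 5) (nat_lit 40) (nat_lit 4) (nat_lit 494) (nat_lit 348) (nat_lit 298)) (XT.lf (nat_lit 0) (nat_lit 5157458437) (nat_lit 152) (nat_lit 9562923629) (nat_lit 228) (nat_lit 87392853) (nat_lit 37) (nat_lit 5) (nat_lit 39) (nat_lit 5) (nat_lit 40) (nat_lit 4) (nat_lit 495) (nat_lit 348) (nat_lit 297)))) (XT.nd (nat_lit 78) (nat_lit 304) (nat_lit 0) (XT.lf (nat_lit 0) (nat_lit 4182836723) (nat_lit 228) (nat_lit 1016145396) (nat_lit 76) (nat_lit 9803969905) (nat_lit 36) (nat_lit 5) (nat_lit 39) (nat_lit 5) (nat_lit 37) (nat_lit 5) (nat_lit 496) (nat_lit 348) (nat_lit 296)) (XT.nd (nat_lit 78) (nat_lit 152) (nat_lit 0) (XT.lf (nat_lit 0) (nat_lit 7820249307) (nat_lit 152) (nat_lit 726546127) (nat_lit 228) (nat_lit 6655041630)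 (nat_lit 34) (nat_lit 5) (nat_lit 36) (nat_lit 5) (nat_lit 37) (nat_lit 5) (nat_lit 497) (nat_lit 348) (nat_lit 295)) (XT.lf (nat_lit 0) (nat_lit 1362919374) (nat_lit 152) (nat_lit 11634588594) (nat_lit 228) (nat_lit 2407208067) (nat_lit 32) (nat_lit 5) (nat_lit 34) (nat_lit 5) (nat_lit 35) (nat_lit 4) (nat_lit 498) (nat_lit 348) (nat_lit 294))))))))
noncomputable def xc25 : XT := (XT.nd (nat_lit 55848) (nat_lit 0) (nat_lit 4636) (XT.nd (nat_lit 54990) (nat_lit 0) (nat_lit 10640) (XT.nd (nat_lit 390) (nat_lit 532) (nat_lit 0) (XT.nd (nat_lit 156) (nat_lit 228) (nat_lit 0) (XT.nd (nat_lit 78) (nat_lit 152) (nat_lit 0) (XT.lf (nat_lit 0) (nat_lit 1913924543) (nat_lit 228) (nat_lit 5318592906) (nat_lit 76) (nat_lit 8378618662) (nat_lit 31) (nat_lit 5) (nat_lit 34) (nat_lit 5) (nat_lit 32) (nat_lit 5) (nat_lit 499) (nat_lit 348) (nat_lit 293)) (XT.lf (nat_lit 0) (nat_lit 3538298117) (nat_lit 152) (nat_lit 2733680505) (nat_lit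 228) (nat_lit 9549738502) (nat_lit 29) (nat_lit 5) (nat_lit 31) (nat_lit 5) (nat_lit 32) (nat_lit 5) (nat_lit 500) (nat_lit 348) (nat_lit 292))) (XT.nd (nat_lit 78) (nat_lit 228) (nat_lit 0) (XT.lf (nat_lit 0) (nat_lit 10725023657) (nat_lit 228) (nat_lit 3475030888) (nat_lit 76) (nat_lit 1836303903) (nat_lit 29) (nat_lit 5) (nat_lit 32) (nat_lit 5) (nat_lit 30) (nat_lit 4) (nat_lit 501) (nat_lit 348) (nat_lit 291)) (XT.nd (nat_lit 78) (nat_lit 76) (nat_lit 0) (XT.lf (nat_lit 0) (nat_lit 5493493110) (nat_lit 152) (nat_lit 9788053023) (nat_lit 228) (nat_lit 973463321) (nat_lit 27) (nat_lit 5) (nat_lit 29) (nat_lit 5) (nat_lit 30) (nat_lit 4) (nat_lit 502) (nat_lit 348) (nat_lit 290)) (XT.lf (nat_lit 0) (nat_lit 3390078728) (nat_lit 228) (nat_lit 1881679288) (nat_lit 76) (nat_lit 11206148786) (nat_lit 26) (nat_lit 5) (nat_lit 29) (nat_lit 5) (nat_lit 27) (nat_lit 5) (nat_lit 503) (nat_lit 348) (nat_lit 289))))) (XT.nd (nat_lit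 156) (nat_lit 380) (nat_lit 0) (XT.nd (nat_lit 78) (nat_lit 0) (nat_lit 0) (XT.lf (nat_lit 0) (nat_lit 7195001815) (nat_lit 152) (nat_lit 641054675) (nat_lit 228) (nat_lit 8868917811) (nat_lit 24) (nat_lit 5) (nat_lit 26) (nat_lit 5) (nat_lit 27) (nat_lit 5) (nat_lit 504) (nat_lit 348) (nat_lit 288)) (XT.lf (nat_lit 0) (nat_lit 12371759607) (nat_lit 228) (nat_lit 552987963) (nat_lit 76) (nat_lit 4011824255) (nat_lit 24) (nat_lit 5) (nat_lit 27) (nat_lit 5) (nat_lit 25) (nat_lit 4) (nat_lit 505) (nat_lit 348) (nat_lit 287))) (XT.nd (nat_lit 78) (nat_lit 228) (nat_lit 0) (XT.lf (nat_lit 0) (nat_lit 8624560208) (nat_lit 152) (nat_lit 8396201828) (nat_lit 228) (nat_lit 151592255) (nat_lit 22) (nat_lit 5) (nat_lit 24) (nat_lit 5) (nat_lit 25) (nat_lit 4) (nat_lit 506) (nat_lit 348) (nat_lit 286)) (XT.nd (nat_lit 54288) (nat_lit 0) (nat_lit 15504) (XT.lf (nat_lit 0) (nat_lit 491046386) (nat_lit 152) (nat_lit 3771114649) (nat_lit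 228) (nat_lit 13150744665) (nat_lit 19) (nat_lit 5) (nat_lit 21) (nat_lit 5) (nat_lit 22) (nat_lit 5) (nat_lit 507) (nat_lit 348) (nat_lit 285)) (XT.lf (nat_lit 0) (nat_lit 2078083071) (nat_lit 608) (nat_lit 47386950) (nat_lit 0) (nat_lit 2078083071) (nat_lit 223) (nat_lit 5) (nat_lit 231) (nat_lit 4) (nat_lit 223) (nat_lit 4) (nat_lit 442) (nat_lit 349) (nat_lit 349)))))) (XT.nd (nat_lit 390) (nat_lit 2584) (nat_lit 0) (XT.nd (nat_lit 156) (nat_lit 1064) (nat_lit 0) (XT.nd (nat_lit 78) (nat_lit 608) (nat_lit 0) (XT.lf (nat_lit 0) (nat_lit 6539179855) (nat_lit 608) (nat_lit 1519786544) (nat_lit 608) (nat_lit 415495815) (nat_lit 215) (nat_lit 4) (nat_lit 223) (nat_lit 5) (nat_lit 223) (nat_lit 4) (nat_lit 443) (nat_lit 349) (nat_lit 348)) (XT.lf (nat_lit 0) (nat_lit 3425586286) (nat_lit 608) (nat_lit 3836114542) (nat_lit 0) (nat_lit 1281538542) (nat_lit 207) (nat_lit 5) (nat_lit 215) (nat_lit 4) (nat_lit 207) (nat_lit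 4) (nat_lit 444) (nat_lit 349) (nat_lit 347))) (XT.nd (nat_lit 78) (nat_lit 532) (nat_lit 0) (XT.lf (nat_lit 0) (nat_lit 2831771241) (nat_lit 532) (nat_lit 4483345505) (nat_lit 532) (nat_lit 1298699944) (nat_lit 200) (nat_lit 4) (nat_lit 207) (nat_lit 5) (nat_lit 207) (nat_lit 4) (nat_lit 445) (nat_lit 349) (nat_lit 346)) (XT.nd (nat_lit 78) (nat_lit 0) (nat_lit 0) (XT.lf (nat_lit 0) (nat_lit 906338685) (nat_lit 456) (nat_lit 1623947545) (nat_lit 532) (nat_lit 6155850411) (nat_lit 193) (nat_lit 5) (nat_lit 199) (nat_lit 5) (nat_lit 200) (nat_lit 4) (nat_lit 446) (nat_lit 349) (nat_lit 345)) (XT.lf (nat_lit 0) (nat_lit 6402370829) (nat_lit 532) (nat_lit 1058303717) (nat_lit 0) (nat_lit 1299400598) (nat_lit 193) (nat_lit 5) (nat_lit 200) (nat_lit 4) (nat_lit 193) (nat_lit 4) (nat_lit 447) (nat_lit 349) (nat_lit 344))))) (XT.nd (nat_lit 234) (nat_lit 988) (nat_lit 0) (XT.nd (nat_lit 78) (nat_lit 988) (nat_lit 0) (XT.lf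 (nat_lit 0) (nat_lit 1482343857) (nat_lit 608) (nat_lit 3069987173) (nat_lit 76) (nat_lit 4283269090) (nat_lit 185) (nat_lit 5) (nat_lit 193) (nat_lit 5) (nat_lit 186) (nat_lit 4) (nat_lit 448) (nat_lit 349) (nat_lit 343)) (XT.nd (nat_lit 78) (nat_lit 532) (nat_lit 0) (XT.lf (nat_lit 0) (nat_lit 3774374517) (nat_lit 456) (nat_lit 1562852110) (nat_lit 532) (nat_lit 3575725953) (nat_lit 179) (nat_lit 5) (nat_lit 185) (nat_lit 5) (nat_lit 186) (nat_lit 4) (nat_lit 449) (nat_lit 349) (nat_lit 342)) (XT.lf (nat_lit 0) (nat_lit 253600402) (nat_lit 532) (nat_lit 7263064786) (nat_lit 76) (nat_lit 1475573159) (nat_lit 172) (nat_lit 5) (nat_lit 179) (nat_lit 5) (nat_lit 173) (nat_lit 4) (nat_lit 450) (nat_lit 349) (nat_lit 341)))) (XT.nd (nat_lit 78) (nat_lit 988) (nat_lit 0) (XT.lf (nat_lit 0) (nat_lit 4095366657) (nat_lit 532) (nat_lit 390837169) (nat_lit 76) (nat_lit 4586778189) (nat_lit 172) (nat_lit 5) (nat_lit 179) (nat_lit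 5) (nat_lit 173) (nat_lit 4) (nat_lit 451) (nat_lit 349) (nat_lit 340)) (XT.nd (nat_lit 78) (nat_lit 532) (nat_lit 0) (XT.lf (nat_lit 0) (nat_lit 6619282086) (nat_lit 456) (nat_lit 1377492966) (nat_lit 532) (nat_lit 1158928528) (nat_lit 166) (nat_lit 5) (nat_lit 172) (nat_lit 5) (nat_lit 173) (nat_lit 4) (nat_lit 452) (nat_lit 349) (nat_lit 339)) (XT.lf (nat_lit 0) (nat_lit 2683874067) (nat_lit 532) (nat_lit 4762747101) (nat_lit 76) (nat_lit 1793448991) (nat_lit 159) (nat_lit 5) (nat_lit 166) (nat_lit 5) (nat_lit 160) (nat_lit 4) (nat_lit 453) (nat_lit 349) (nat_lit 338))))))) (XT.nd (nat_lit 858) (nat_lit 2660) (nat_lit 0) (XT.nd (nat_lit 390) (nat_lit 1596) (nat_lit 0) (XT.nd (nat_lit 156) (nat_lit 1292) (nat_lit 0) (XT.nd (nat_lit 78) (nat_lit 76) (nat_lit 0) (XT.lf (nat_lit 0) (nat_lit 2265670386) (nat_lit 380) (nat_lit 4303808515) (nat_lit 456) (nat_lit 2756880727) (nat_lit 154) (nat_lit 5) (nat_lit 159) (nat_lit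 5) (nat_lit 160) (nat_lit 4) (nat_lit 454) (nat_lit 349) (nat_lit 337)) (XT.lf (nat_lit 0) (nat_lit 1076606191) (nat_lit 456) (nat_lit 9299942) (nat_lit 76) (nat_lit 8328883807) (nat_lit 153) (nat_lit 5) (nat_lit 159) (nat_lit 5) (nat_lit 154) (nat_lit 5) (nat_lit 455) (nat_lit 349) (nat_lit 336))) (XT.nd (nat_lit 78) (nat_lit 836) (nat_lit 0) (XT.lf (nat_lit 0) (nat_lit 4952812654) (nat_lit 532) (nat_lit 2346040056) (nat_lit 76) (nat_lit 2205729412) (nat_lit 147) (nat_lit 5) (nat_lit 154) (nat_lit 5) (nat_lit 148) (nat_lit 4) (nat_lit 456) (nat_lit 349) (nat_lit 335)) (XT.nd (nat_lit 78) (nat_lit 456) (nat_lit 0) (XT.lf (nat_lit 0) (nat_lit 4844014099) (nat_lit 380) (nat_lit 4043488297) (nat_lit 456) (nat_lit 709065248) (nat_lit 142) (nat_lit 5) (nat_lit 147) (nat_lit 5) (nat_lit 148) (nat_lit 4) (nat_lit 457) (nat_lit 349) (nat_lit 334)) (XT.lf (nat_lit 0) (nat_lit 2444465883) (nat_lit 380) (nat_lit 698076532) (nat_lit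 456) (nat_lit 6547966490) (nat_lit 136) (nat_lit 5) (nat_lit 141) (nat_lit 5) (nat_lit 142) (nat_lit 5) (nat_lit 458) (nat_lit 349) (nat_lit 333))))) (XT.nd (nat_lit 234) (nat_lit 760) (nat_lit 0) (XT.nd (nat_lit 78) (nat_lit 836) (nat_lit 0) (XT.lf (nat_lit 0) (nat_lit 7054246026) (nat_lit 456) (nat_lit 45012304) (nat_lit 76) (nat_lit 2687141477) (nat_lit 136) (nat_lit 5) (nat_lit 142) (nat_lit 5) (nat_lit 137) (nat_lit 4) (nat_lit 459) (nat_lit 349) (nat_lit 332)) (XT.nd (nat_lit 78) (nat_lit 380) (nat_lit 0) (XT.lf (nat_lit 0) (nat_lit 1140724997) (nat_lit 456) (nat_lit 2585509672) (nat_lit 76) (nat_lit 6157919077) (nat_lit 130) (nat_lit 5) (nat_lit 136) (nat_lit 5) (nat_lit 131) (nat_lit 5) (nat_lit 460) (nat_lit 349) (nat_lit 331)) (XT.lf (nat_lit 0) (nat_lit 4765188392) (nat_lit 380) (nat_lit 264679620) (nat_lit 456) (nat_lit 4954140567) (nat_lit 125) (nat_lit 5) (nat_lit 130) (nat_lit 5) (nat_lit 131) (nat_lit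 5) (nat_lit 461) (nat_lit 349) (nat_lit 330)))) (XT.nd (nat_lit 78) (nat_lit 456) (nat_lit 0) (XT.lf (nat_lit 0) (nat_lit 2133585350) (nat_lit 304) (nat_lit 6860201972) (nat_lit 380) (nat_lit 1092147840) (nat_lit 121) (nat_lit 5) (nat_lit 125) (nat_lit 5) (nat_lit 126) (nat_lit 4) (nat_lit 462) (nat_lit 349) (nat_lit 329)) (XT.nd (nat_lit 78) (nat_lit 380) (nat_lit 0) (XT.lf (nat_lit 0) (nat_lit 2791379582) (nat_lit 380) (nat_lit 591586095) (nat_lit 76) (nat_lit 6806946156) (nat_lit 120) (nat_lit 5) (nat_lit 125) (nat_lit 5) (nat_lit 121) (nat_lit 5) (nat_lit 463) (nat_lit 349) (nat_lit 328)) (XT.lf (nat_lit 0) (nat_lit 6729800210) (nat_lit 456) (nat_lit 3381395299) (nat_lit 76) (nat_lit 184804898) (nat_lit 115) (nat_lit 5) (nat_lit 121) (nat_lit 5) (nat_lit 116) (nat_lit 4) (nat_lit 464) (nat_lit 349) (nat_lit 327)))))) (XT.nd (nat_lit 390) (nat_lit 1292) (nat_lit 0) (XT.nd (nat_lit 156) (nat_lit 684) (nat_lit 0) (XT.nd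 (nat_lit 78) (nat_lit 304) (nat_lit 0) (XT.lf (nat_lit 0) (nat_lit 337472004) (nat_lit 380) (nat_lit 6284381085) (nat_lit 76) (nat_lit 3782342523) (nat_lit 110) (nat_lit 5) (nat_lit 115) (nat_lit 5) (nat_lit 111) (nat_lit 5) (nat_lit 465) (nat_lit 349) (nat_lit 326)) (XT.lf (nat_lit 0) (nat_lit 1210356410) (nat_lit 304) (nat_lit 3038045474) (nat_lit 380) (nat_lit 6266155567) (nat_lit 106) (nat_lit 5) (nat_lit 110) (nat_lit 5) (nat_lit 111) (nat_lit 5) (nat_lit 466) (nat_lit 349) (nat_lit 325))) (XT.nd (nat_lit 78) (nat_lit 684) (nat_lit 0) (XT.lf (nat_lit 0) (nat_lit 8230511983) (nat_lit 380) (nat_lit 1775252886) (nat_lit 76) (nat_lit 621515066) (nat_lit 106) (nat_lit 5) (nat_lit 111) (nat_lit 5) (nat_lit 107) (nat_lit 4) (nat_lit 467) (nat_lit 349) (nat_lit 324)) (XT.nd (nat_lit 78) (nat_lit 304) (nat_lit 0) (XT.lf (nat_lit 0) (nat_lit 1535539922) (nat_lit 380) (nat_lit 4874201274) (nat_lit 76) (nat_lit 4332209326)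 (nat_lit 101) (nat_lit 5) (nat_lit 106) (nat_lit 5) (nat_lit 102) (nat_lit 5) (nat_lit 468) (nat_lit 349) (nat_lit 323)) (XT.lf (nat_lit 0) (nat_lit 2765971131) (nat_lit 304) (nat_lit 2726097134) (nat_lit 380) (nat_lit 5366987975) (nat_lit 97) (nat_lit 5) (nat_lit 101) (nat_lit 5) (nat_lit 102) (nat_lit 5) (nat_lit 469) (nat_lit 349) (nat_lit 322))))) (XT.nd (nat_lit 234) (nat_lit 608) (nat_lit 0) (XT.nd (nat_lit 78) (nat_lit 684) (nat_lit 0) (XT.lf (nat_lit 0) (nat_lit 9515321338) (nat_lit 380) (nat_lit 443395214) (nat_lit 76) (nat_lit 1020047316) (nat_lit 97) (nat_lit 5) (nat_lit 102) (nat_lit 5) (nat_lit 98) (nat_lit 4) (nat_lit 470) (nat_lit 349) (nat_lit 321)) (XT.nd (nat_lit 78) (nat_lit 304) (nat_lit 0) (XT.lf (nat_lit 0) (nat_lit 2500039799) (nat_lit 380) (nat_lit 3761333677) (nat_lit 76) (nat_lit 4838878557) (nat_lit 92) (nat_lit 5) (nat_lit 97) (nat_lit 5) (nat_lit 93) (nat_lit 5) (nat_lit 471) (nat_lit 349)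 (nat_lit 320)) (XT.lf (nat_lit 0) (nat_lit 4019626010) (nat_lit 304) (nat_lit 2481801046) (nat_lit 380) (nat_lit 4722995830) (nat_lit 88) (nat_lit 5) (nat_lit 92) (nat_lit 5) (nat_lit 93) (nat_lit 5) (nat_lit 472) (nat_lit 349) (nat_lit 319)))) (XT.nd (nat_lit 78) (nat_lit 380) (nat_lit 0) (XT.lf (nat_lit 0) (nat_lit 572609615) (nat_lit 228) (nat_lit 9997659068) (nat_lit 304) (nat_lit 781070729) (nat_lit 85) (nat_lit 5) (nat_lit 88) (nat_lit 5) (nat_lit 89) (nat_lit 4) (nat_lit 473) (nat_lit 349) (nat_lit 318)) (XT.nd (nat_lit 78) (nat_lit 304) (nat_lit 0) (XT.lf (nat_lit 0) (nat_lit 3211810221) (nat_lit 304) (nat_lit 2996964202) (nat_lit 76) (nat_lit 5271317401) (nat_lit 84) (nat_lit 5) (nat_lit 88) (nat_lit 5) (nat_lit 85) (nat_lit 5) (nat_lit 474) (nat_lit 349) (nat_lit 317)) (XT.lf (nat_lit 0) (nat_lit 4918820503) (nat_lit 304) (nat_lit 2337708487) (nat_lit 380) (nat_lit 4355148428) (nat_lit 80) (nat_lit 5) (nat_lit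 84) (nat_lit 5) (nat_lit 85) (nat_lit 5) (nat_lit 475) (nat_lit 349) (nat_lit 316))))))))
noncomputable def xc26 : XT := (XT.nd (nat_lit 1638) (nat_lit 1140) (nat_lit 0) (XT.nd (nat_lit 780) (nat_lit 1444) (nat_lit 0) (XT.nd (nat_lit 390) (nat_lit 988) (nat_lit 0) (XT.nd (nat_lit 156) (nat_lit 608) (nat_lit 0) (XT.nd (nat_lit 78) (nat_lit 76) (nat_lit 0) (XT.lf (nat_lit 0) (nat_lit 1212149492) (nat_lit 228) (nat_lit 10159303019) (nat_lit 304) (nat_lit 374665973) (nat_lit 77) (nat_lit 5) (nat_lit 80) (nat_lit 5) (nat_lit 81) (nat_lit 4) (nat_lit 476) (nat_lit 349) (nat_lit 315)) (XT.lf (nat_lit 0) (nat_lit 3648629477) (nat_lit 304) (nat_lit 2637416036) (nat_lit 76) (nat_lit 5596503107) (nat_lit 76) (nat_lit 5) (nat_lit 80) (nat_lit 5) (nat_lit 77) (nat_lit 5) (nat_lit 477) (nat_lit 349) (nat_lit 314))) (XT.nd (nat_lit 78) (nat_lit 304) (nat_lit 0) (XT.lf (nat_lit 0) (nat_lit 5405740674) (nat_lit 304) (nat_lit 2328546349)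 (nat_lit 380) (nat_lit 4287641937) (nat_lit 72) (nat_lit 5) (nat_lit 76) (nat_lit 5) (nat_lit 77) (nat_lit 5) (nat_lit 478) (nat_lit 349) (nat_lit 313)) (XT.nd (nat_lit 78) (nat_lit 76) (nat_lit 0) (XT.lf (nat_lit 0) (nat_lit 1409062374) (nat_lit 228) (nat_lit 10482686621) (nat_lit 304) (nat_lit 272555297) (nat_lit 69) (nat_lit 5) (nat_lit 72) (nat_lit 5) (nat_lit 73) (nat_lit 4) (nat_lit 479) (nat_lit 349) (nat_lit 312)) (XT.lf (nat_lit 0) (nat_lit 3784946673) (nat_lit 304) (nat_lit 2744769749) (nat_lit 76) (nat_lit 5779078134) (nat_lit 68) (nat_lit 5) (nat_lit 72) (nat_lit 5) (nat_lit 69) (nat_lit 5) (nat_lit 480) (nat_lit 349) (nat_lit 311))))) (XT.nd (nat_lit 156) (nat_lit 532) (nat_lit 0) (XT.nd (nat_lit 78) (nat_lit 228) (nat_lit 0) (XT.lf (nat_lit 0) (nat_lit 5416619770) (nat_lit 228) (nat_lit 2491577343) (nat_lit 304) (nat_lit 4548185201) (nat_lit 65) (nat_lit 5) (nat_lit 68) (nat_lit 5) (nat_lit 69) (nat_lit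 5) (nat_lit 481) (nat_lit 349) (nat_lit 310)) (XT.lf (nat_lit 0) (nat_lit 1096842748) (nat_lit 228) (nat_lit 11006583048) (nat_lit 304) (nat_lit 503714273) (nat_lit 62) (nat_lit 5) (nat_lit 65) (nat_lit 5) (nat_lit 66) (nat_lit 4) (nat_lit 482) (nat_lit 349) (nat_lit 309))) (XT.nd (nat_lit 78) (nat_lit 456) (nat_lit 0) (XT.lf (nat_lit 0) (nat_lit 3591579890) (nat_lit 304) (nat_lit 3387543972) (nat_lit 76) (nat_lit 5780978365) (nat_lit 61) (nat_lit 5) (nat_lit 65) (nat_lit 5) (nat_lit 62) (nat_lit 5) (nat_lit 483) (nat_lit 349) (nat_lit 308)) (XT.nd (nat_lit 78) (nat_lit 228) (nat_lit 0) (XT.lf (nat_lit 0) (nat_lit 4881036124) (nat_lit 228) (nat_lit 2866988939) (nat_lit 304) (nat_lit 5168320194) (nat_lit 58) (nat_lit 5) (nat_lit 61) (nat_lit 5) (nat_lit 62) (nat_lit 5) (nat_lit 484) (nat_lit 349) (nat_lit 307)) (XT.lf (nat_lit 0) (nat_lit 202019939) (nat_lit 228) (nat_lit 11772877650) (nat_lit 304) (nat_lit 1101077447)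 (nat_lit 55) (nat_lit 5) (nat_lit 58) (nat_lit 5) (nat_lit 59) (nat_lit 4) (nat_lit 485) (nat_lit 349) (nat_lit 306)))))) (XT.nd (nat_lit 390) (nat_lit 684) (nat_lit 0) (XT.nd (nat_lit 156) (nat_lit 456) (nat_lit 0) (XT.nd (nat_lit 78) (nat_lit 228) (nat_lit 0) (XT.lf (nat_lit 0) (nat_lit 3035378288) (nat_lit 304) (nat_lit 4641443367) (nat_lit 76) (nat_lit 5561030846) (nat_lit 54) (nat_lit 5) (nat_lit 58) (nat_lit 5) (nat_lit 55) (nat_lit 5) (nat_lit 486) (nat_lit 349) (nat_lit 305)) (XT.lf (nat_lit 0) (nat_lit 3721141438) (nat_lit 228) (nat_lit 3498314771) (nat_lit 304) (nat_lit 6183780419) (nat_lit 51) (nat_lit 5) (nat_lit 54) (nat_lit 5) (nat_lit 55) (nat_lit 5) (nat_lit 487) (nat_lit 349) (nat_lit 304))) (XT.nd (nat_lit 78) (nat_lit 456) (nat_lit 0) (XT.lf (nat_lit 0) (nat_lit 11479168365) (nat_lit 304) (nat_lit 1338851085) (nat_lit 76) (nat_lit 754077196) (nat_lit 51) (nat_lit 5) (nat_lit 55) (nat_lit 5) (nat_lit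 52) (nat_lit 4) (nat_lit 488) (nat_lit 349) (nat_lit 303)) (XT.nd (nat_lit 78) (nat_lit 228) (nat_lit 0) (XT.lf (nat_lit 0) (nat_lit 2078844697) (nat_lit 228) (nat_lit 6590181292) (nat_lit 76) (nat_lit 5074517193) (nat_lit 48) (nat_lit 5) (nat_lit 51) (nat_lit 5) (nat_lit 49) (nat_lit 5) (nat_lit 489) (nat_lit 349) (nat_lit 302)) (XT.lf (nat_lit 0) (nat_lit 1850811825) (nat_lit 228) (nat_lit 4432892568) (nat_lit 304) (nat_lit 7634890901) (nat_lit 45) (nat_lit 5) (nat_lit 48) (nat_lit 5) (nat_lit 49) (nat_lit 5) (nat_lit 490) (nat_lit 349) (nat_lit 301))))) (XT.nd (nat_lit 234) (nat_lit 456) (nat_lit 0) (XT.nd (nat_lit 78) (nat_lit 228) (nat_lit 0) (XT.lf (nat_lit 0) (nat_lit 10475578420) (nat_lit 228) (nat_lit 98263515) (nat_lit 304) (nat_lit 3523289608) (nat_lit 45) (nat_lit 5) (nat_lit 48) (nat_lit 5) (nat_lit 49) (nat_lit 5) (nat_lit 491) (nat_lit 349) (nat_lit 300)) (XT.nd (nat_lit 78) (nat_lit 0) (nat_lit 0) (XT.lf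 (nat_lit 0) (nat_lit 679714870) (nat_lit 228) (nat_lit 9326385278) (nat_lit 76) (nat_lit 4272698435) (nat_lit 42) (nat_lit 5) (nat_lit 45) (nat_lit 5) (nat_lit 43) (nat_lit 5) (nat_lit 492) (nat_lit 349) (nat_lit 299)) (XT.lf (nat_lit 0) (nat_lit 4902434531) (nat_lit 228) (nat_lit 814463012) (nat_lit 76) (nat_lit 8747085324) (nat_lit 42) (nat_lit 5) (nat_lit 45) (nat_lit 5) (nat_lit 43) (nat_lit 5) (nat_lit 493) (nat_lit 349) (nat_lit 298)))) (XT.nd (nat_lit 78) (nat_lit 228) (nat_lit 0) (XT.lf (nat_lit 0) (nat_lit 7899084308) (nat_lit 228) (nat_lit 1320313918) (nat_lit 304) (nat_lit 5433283015) (nat_lit 39) (nat_lit 5) (nat_lit 42) (nat_lit 5) (nat_lit 43) (nat_lit 5) (nat_lit 494) (nat_lit 349) (nat_lit 297)) (XT.nd (nat_lit 78) (nat_lit 76) (nat_lit 0) (XT.lf (nat_lit 0) (nat_lit 1884669370) (nat_lit 152) (nat_lit 11734966962) (nat_lit 228) (nat_lit 1225584624) (nat_lit 37) (nat_lit 5) (nat_lit 39) (nat_lit 5) (nat_lit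 40) (nat_lit 4) (nat_lit 495) (nat_lit 349) (nat_lit 296)) (XT.lf (nat_lit 0) (nat_lit 3039136598) (nat_lit 228) (nat_lit 4354854475) (nat_lit 76) (nat_lit 7646966395) (nat_lit 36) (nat_lit 5) (nat_lit 39) (nat_lit 5) (nat_lit 37) (nat_lit 5) (nat_lit 496) (nat_lit 349) (nat_lit 295))))))) (XT.nd (nat_lit 780) (nat_lit 76) (nat_lit 0) (XT.nd (nat_lit 390) (nat_lit 532) (nat_lit 0) (XT.nd (nat_lit 156) (nat_lit 380) (nat_lit 0) (XT.nd (nat_lit 78) (nat_lit 0) (nat_lit 0) (XT.lf (nat_lit 0) (nat_lit 4401542617) (nat_lit 152) (nat_lit 2959320940) (nat_lit 228) (nat_lit 7879826419) (nat_lit 34) (nat_lit 5) (nat_lit 36) (nat_lit 5) (nat_lit 37) (nat_lit 5) (nat_lit 497) (nat_lit 349) (nat_lit 294)) (XT.lf (nat_lit 0) (nat_lit 11768263503) (nat_lit 228) (nat_lit 2133250225) (nat_lit 76) (nat_lit 1542924250) (nat_lit 34) (nat_lit 5) (nat_lit 37) (nat_lit 5) (nat_lit 35) (nat_lit 4) (nat_lit 498) (nat_lit 349) (nat_lit 293)))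 (XT.nd (nat_lit 78) (nat_lit 152) (nat_lit 0) (XT.lf (nat_lit 0) (nat_lit 627536850) (nat_lit 228) (nat_lit 8910050545) (nat_lit 76) (nat_lit 6114119389) (nat_lit 31) (nat_lit 5) (nat_lit 34) (nat_lit 5) (nat_lit 32) (nat_lit 5) (nat_lit 499) (nat_lit 349) (nat_lit 292)) (XT.nd (nat_lit 78) (nat_lit 152) (nat_lit 0) (XT.lf (nat_lit 0) (nat_lit 4943072341) (nat_lit 228) (nat_lit 134140966) (nat_lit 76) (nat_lit 10785927481) (nat_lit 31) (nat_lit 5) (nat_lit 34) (nat_lit 5) (nat_lit 32) (nat_lit 5) (nat_lit 500) (nat_lit 349) (nat_lit 291)) (XT.lf (nat_lit 0) (nat_lit 8865079826) (nat_lit 152) (nat_lit 498688719) (nat_lit 228) (nat_lit 6714663110) (nat_lit 29) (nat_lit 5) (nat_lit 31) (nat_lit 5) (nat_lit 32) (nat_lit 5) (nat_lit 501) (nat_lit 349) (nat_lit 290))))) (XT.nd (nat_lit 156) (nat_lit 304) (nat_lit 0) (XT.nd (nat_lit 78) (nat_lit 76) (nat_lit 0) (XT.lf (nat_lit 0) (nat_lit 1674358925) (nat_lit 152) (nat_lit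 12198797409) (nat_lit 228) (nat_lit 2424871538) (nat_lit 27) (nat_lit 5) (nat_lit 29) (nat_lit 5) (nat_lit 30) (nat_lit 4) (nat_lit 502) (nat_lit 349) (nat_lit 289)) (XT.lf (nat_lit 0) (nat_lit 1938633039) (nat_lit 228) (nat_lit 5768403266) (nat_lit 76) (nat_lit 8814461262) (nat_lit 26) (nat_lit 5) (nat_lit 29) (nat_lit 5) (nat_lit 27) (nat_lit 5) (nat_lit 503) (nat_lit 349) (nat_lit 288))) (XT.nd (nat_lit 78) (nat_lit 152) (nat_lit 0) (XT.lf (nat_lit 0) (nat_lit 3222854091) (nat_lit 152) (nat_lit 3117267920) (nat_lit 228) (nat_lit 10409335203) (nat_lit 24) (nat_lit 5) (nat_lit 26) (nat_lit 5) (nat_lit 27) (nat_lit 5) (nat_lit 504) (nat_lit 349) (nat_lit 287)) (XT.nd (nat_lit 78) (nat_lit 152) (nat_lit 0) (XT.lf (nat_lit 0) (nat_lit 10841106072) (nat_lit 228) (nat_lit 4586929156) (nat_lit 76) (nat_lit 1553716215) (nat_lit 24) (nat_lit 5) (nat_lit 27) (nat_lit 5) (nat_lit 25) (nat_lit 4) (nat_lit 505) (nat_lit 349) (nat_lit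 286)) (XT.lf (nat_lit 0) (nat_lit 4503841940) (nat_lit 152) (nat_lit 10941235814) (nat_lit 228) (nat_lit 1773359050) (nat_lit 22) (nat_lit 5) (nat_lit 24) (nat_lit 5) (nat_lit 25) (nat_lit 4) (nat_lit 506) (nat_lit 349) (nat_lit 285)))))) (XT.nd (nat_lit 54444) (nat_lit 0) (nat_lit 12008) (XT.nd (nat_lit 54210) (nat_lit 0) (nat_lit 14668) (XT.nd (nat_lit 54132) (nat_lit 0) (nat_lit 15960) (XT.lf (nat_lit 0) (nat_lit 2640224461) (nat_lit 228) (nat_lit 3704427476) (nat_lit 76) (nat_lit 11114977851) (nat_lit 21) (nat_lit 5) (nat_lit 24) (nat_lit 5) (nat_lit 22) (nat_lit 5) (nat_lit 507) (nat_lit 349) (nat_lit 284)) (XT.lf (nat_lit 0) (nat_lit 1782607581) (nat_lit 608) (nat_lit 1177866698) (nat_lit 608) (nat_lit 1177866698) (nat_lit 231) (nat_lit 4) (nat_lit 239) (nat_lit 5) (nat_lit 239) (nat_lit 4) (nat_lit 440) (nat_lit 350) (nat_lit 350))) (XT.nd (nat_lit 78) (nat_lit 684) (nat_lit 0) (XT.lf (nat_lit 0) (nat_lit 1434003681)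 (nat_lit 608) (nat_lit 6599909627) (nat_lit 0) (nat_lit 307627137) (nat_lit 223) (nat_lit 5) (nat_lit 231) (nat_lit 4) (nat_lit 223) (nat_lit 4) (nat_lit 441) (nat_lit 350) (nat_lit 349)) (XT.nd (nat_lit 78) (nat_lit 684) (nat_lit 0) (XT.lf (nat_lit 0) (nat_lit 5250282180) (nat_lit 608) (nat_lit 137866576) (nat_lit 0) (nat_lit 3019614908) (nat_lit 223) (nat_lit 5) (nat_lit 231) (nat_lit 4) (nat_lit 223) (nat_lit 4) (nat_lit 442) (nat_lit 350) (nat_lit 348)) (XT.lf (nat_lit 0) (nat_lit 636656696) (nat_lit 684) (nat_lit 2027258714) (nat_lit 76) (nat_lit 5811776331) (nat_lit 214) (nat_lit 5) (nat_lit 223) (nat_lit 5) (nat_lit 215) (nat_lit 4) (nat_lit 443) (nat_lit 350) (nat_lit 347))))) (XT.nd (nat_lit 234) (nat_lit 1064) (nat_lit 0) (XT.nd (nat_lit 78) (nat_lit 1064) (nat_lit 0) (XT.lf (nat_lit 0) (nat_lit 4432401288) (nat_lit 608) (nat_lit 3969357983) (nat_lit 0) (nat_lit 143464998) (nat_lit 207) (nat_lit 5) (nat_lit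 215) (nat_lit 4) (nat_lit 207) (nat_lit 4) (nat_lit 444) (nat_lit 350) (nat_lit 346)) (XT.nd (nat_lit 78) (nat_lit 532) (nat_lit 0) (XT.lf (nat_lit 0) (nat_lit 2653505582) (nat_lit 532) (nat_lit 5636042622) (nat_lit 532) (nat_lit 326912393) (nat_lit 200) (nat_lit 4) (nat_lit 207) (nat_lit 5) (nat_lit 207) (nat_lit 4) (nat_lit 445) (nat_lit 350) (nat_lit 345)) (XT.lf (nat_lit 0) (nat_lit 673234755) (nat_lit 456) (nat_lit 2783475700) (nat_lit 532) (nat_lit 5232607160) (nat_lit 193) (nat_lit 5) (nat_lit 199) (nat_lit 5) (nat_lit 200) (nat_lit 4) (nat_lit 446) (nat_lit 350) (nat_lit 344)))) (XT.nd (nat_lit 78) (nat_lit 1064) (nat_lit 0) (XT.lf (nat_lit 0) (nat_lit 7290419146) (nat_lit 532) (nat_lit 1330155761) (nat_lit 0) (nat_lit 143459411) (nat_lit 193) (nat_lit 5) (nat_lit 200) (nat_lit 4) (nat_lit 193) (nat_lit 4) (nat_lit 447) (nat_lit 350) (nat_lit 343)) (XT.nd (nat_lit 78) (nat_lit 456) (nat_lit 0) (XT.lf (nat_lit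 0) (nat_lit 2322304614) (nat_lit 608) (nat_lit 3398405917) (nat_lit 76) (nat_lit 3119394896) (nat_lit 185) (nat_lit 5) (nat_lit 193) (nat_lit 5) (nat_lit 186) (nat_lit 4) (nat_lit 448) (nat_lit 350) (nat_lit 342)) (XT.lf (nat_lit 0) (nat_lit 3398644938) (nat_lit 456) (nat_lit 2745972517) (nat_lit 532) (nat_lit 2773501897) (nat_lit 179) (nat_lit 5) (nat_lit 185) (nat_lit 5) (nat_lit 186) (nat_lit 4) (nat_lit 449) (nat_lit 350) (nat_lit 341))))))))
noncomputable def xc27 : XT := (XT.nd (nat_lit 1638) (nat_lit 4104) (nat_lit 0) (XT.nd (nat_lit 780) (nat_lit 2964) (nat_lit 0) (XT.nd (nat_lit 390) (nat_lit 1368) (nat_lit 0) (XT.nd (nat_lit 156) (nat_lit 1368) (nat_lit 0) (XT.nd (nat_lit 78) (nat_lit 0) (nat_lit 0) (XT.lf (nat_lit 0) (nat_lit 1004716203) (nat_lit 532) (nat_lit 7695360860) (nat_lit 76) (nat_lit 298045298) (nat_lit 172) (nat_lit 5) (nat_lit 179) (nat_lit 5) (nat_lit 173) (nat_lit 4) (nat_lit 450) (nat_lit 350)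 (nat_lit 340)) (XT.lf (nat_lit 0) (nat_lit 4816695352) (nat_lit 532) (nat_lit 865888682) (nat_lit 76) (nat_lit 3396887221) (nat_lit 172) (nat_lit 5) (nat_lit 179) (nat_lit 5) (nat_lit 173) (nat_lit 4) (nat_lit 451) (nat_lit 350) (nat_lit 339))) (XT.nd (nat_lit 78) (nat_lit 912) (nat_lit 0) (XT.lf (nat_lit 0) (nat_lit 6095443234) (nat_lit 456) (nat_lit 2590056359) (nat_lit 532) (nat_lit 477354610) (nat_lit 166) (nat_lit 5) (nat_lit 172) (nat_lit 5) (nat_lit 173) (nat_lit 4) (nat_lit 452) (nat_lit 350) (nat_lit 338)) (XT.nd (nat_lit 78) (nat_lit 380) (nat_lit 0) (XT.lf (nat_lit 0) (nat_lit 3315656197) (nat_lit 532) (nat_lit 5347649294) (nat_lit 76) (nat_lit 584652780) (nat_lit 159) (nat_lit 5) (nat_lit 166) (nat_lit 5) (nat_lit 160) (nat_lit 4) (nat_lit 453) (nat_lit 350) (nat_lit 337)) (XT.lf (nat_lit 0) (nat_lit 1630172417) (nat_lit 380) (nat_lit 5538076686) (nat_lit 456) (nat_lit 2166667640) (nat_lit 154) (nat_lit 5)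 (nat_lit 159) (nat_lit 5) (nat_lit 160) (nat_lit 4) (nat_lit 454) (nat_lit 350) (nat_lit 336))))) (XT.nd (nat_lit 156) (nat_lit 836) (nat_lit 0) (XT.nd (nat_lit 78) (nat_lit 456) (nat_lit 0) (XT.lf (nat_lit 0) (nat_lit 1630288651) (nat_lit 456) (nat_lit 699561177) (nat_lit 76) (nat_lit 7094004804) (nat_lit 153) (nat_lit 5) (nat_lit 159) (nat_lit 5) (nat_lit 154) (nat_lit 5) (nat_lit 455) (nat_lit 350) (nat_lit 335)) (XT.lf (nat_lit 0) (nat_lit 5465260382) (nat_lit 532) (nat_lit 3089108708) (nat_lit 76) (nat_lit 960110676) (nat_lit 147) (nat_lit 5) (nat_lit 154) (nat_lit 5) (nat_lit 148) (nat_lit 4) (nat_lit 456) (nat_lit 350) (nat_lit 334))) (XT.nd (nat_lit 78) (nat_lit 456) (nat_lit 0) (XT.lf (nat_lit 0) (nat_lit 4048765349) (nat_lit 380) (nat_lit 5317995064) (nat_lit 456) (nat_lit 240376766) (nat_lit 142) (nat_lit 5) (nat_lit 147) (nat_lit 5) (nat_lit 148) (nat_lit 4) (nat_lit 457) (nat_lit 350) (nat_lit 333)) (XT.nd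 (nat_lit 78) (nat_lit 0) (nat_lit 0) (XT.lf (nat_lit 0) (nat_lit 1582444341) (nat_lit 380) (nat_lit 1989105046) (nat_lit 456) (nat_lit 6130146665) (nat_lit 136) (nat_lit 5) (nat_lit 141) (nat_lit 5) (nat_lit 142) (nat_lit 5) (nat_lit 458) (nat_lit 350) (nat_lit 332)) (XT.lf (nat_lit 0) (nat_lit 7447120489) (nat_lit 456) (nat_lit 951888527) (nat_lit 76) (nat_lit 1399308216) (nat_lit 136) (nat_lit 5) (nat_lit 142) (nat_lit 5) (nat_lit 137) (nat_lit 4) (nat_lit 459) (nat_lit 350) (nat_lit 331)))))) (XT.nd (nat_lit 390) (nat_lit 1368) (nat_lit 0) (XT.nd (nat_lit 156) (nat_lit 760) (nat_lit 0) (XT.nd (nat_lit 78) (nat_lit 380) (nat_lit 0) (XT.lf (nat_lit 0) (nat_lit 1483013170) (nat_lit 456) (nat_lit 3561056580) (nat_lit 76) (nat_lit 4852632735) (nat_lit 130) (nat_lit 5) (nat_lit 136) (nat_lit 5) (nat_lit 131) (nat_lit 5) (nat_lit 460) (nat_lit 350) (nat_lit 330)) (XT.lf (nat_lit 0) (nat_lit 3734806156) (nat_lit 380) (nat_lit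 1603535848) (nat_lit 456) (nat_lit 4658898787) (nat_lit 125) (nat_lit 5) (nat_lit 130) (nat_lit 5) (nat_lit 131) (nat_lit 5) (nat_lit 461) (nat_lit 350) (nat_lit 329))) (XT.nd (nat_lit 78) (nat_lit 456) (nat_lit 0) (XT.lf (nat_lit 0) (nat_lit 1042856627) (nat_lit 304) (nat_lit 8216679144) (nat_lit 380) (nat_lit 840493162) (nat_lit 121) (nat_lit 5) (nat_lit 125) (nat_lit 5) (nat_lit 126) (nat_lit 4) (nat_lit 462) (nat_lit 350) (nat_lit 328)) (XT.nd (nat_lit 78) (nat_lit 380) (nat_lit 0) (XT.lf (nat_lit 0) (nat_lit 3012859888) (nat_lit 380) (nat_lit 1739635288) (nat_lit 76) (nat_lit 5452022000) (nat_lit 120) (nat_lit 5) (nat_lit 125) (nat_lit 5) (nat_lit 121) (nat_lit 5) (nat_lit 463) (nat_lit 350) (nat_lit 327)) (XT.lf (nat_lit 0) (nat_lit 5711219931) (nat_lit 380) (nat_lit 1204676599) (nat_lit 456) (nat_lit 3395423541) (nat_lit 115) (nat_lit 5) (nat_lit 120) (nat_lit 5) (nat_lit 121) (nat_lit 5) (nat_lit 464) (nat_lit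 350) (nat_lit 326))))) (XT.nd (nat_lit 234) (nat_lit 684) (nat_lit 0) (XT.nd (nat_lit 78) (nat_lit 304) (nat_lit 0) (XT.lf (nat_lit 0) (nat_lit 463478504) (nat_lit 380) (nat_lit 7569844294) (nat_lit 76) (nat_lit 2387027293) (nat_lit 110) (nat_lit 5) (nat_lit 115) (nat_lit 5) (nat_lit 111) (nat_lit 5) (nat_lit 465) (nat_lit 350) (nat_lit 325)) (XT.nd (nat_lit 78) (nat_lit 304) (nat_lit 0) (XT.lf (nat_lit 0) (nat_lit 4340434323) (nat_lit 380) (nat_lit 132008550) (nat_lit 76) (nat_lit 6058954796) (nat_lit 110) (nat_lit 5) (nat_lit 115) (nat_lit 5) (nat_lit 111) (nat_lit 5) (nat_lit 466) (nat_lit 350) (nat_lit 324)) (XT.lf (nat_lit 0) (nat_lit 7471320667) (nat_lit 304) (nat_lit 820398182) (nat_lit 380) (nat_lit 2353023951) (nat_lit 106) (nat_lit 5) (nat_lit 110) (nat_lit 5) (nat_lit 111) (nat_lit 5) (nat_lit 467) (nat_lit 350) (nat_lit 323)))) (XT.nd (nat_lit 78) (nat_lit 304) (nat_lit 0) (XT.lf (nat_lit 0) (nat_lit 1538226592)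 (nat_lit 380) (nat_lit 6344758546) (nat_lit 76) (nat_lit 2877238138) (nat_lit 101) (nat_lit 5) (nat_lit 106) (nat_lit 5) (nat_lit 102) (nat_lit 5) (nat_lit 468) (nat_lit 350) (nat_lit 322)) (XT.nd (nat_lit 78) (nat_lit 0) (nat_lit 0) (XT.lf (nat_lit 0) (nat_lit 1234878670) (nat_lit 304) (nat_lit 4224545540) (nat_lit 380) (nat_lit 5418617180) (nat_lit 97) (nat_lit 5) (nat_lit 101) (nat_lit 5) (nat_lit 102) (nat_lit 5) (nat_lit 469) (nat_lit 350) (nat_lit 321)) (XT.lf (nat_lit 0) (nat_lit 8970932761) (nat_lit 304) (nat_lit 479880737) (nat_lit 380) (nat_lit 1547578463) (nat_lit 97) (nat_lit 5) (nat_lit 101) (nat_lit 5) (nat_lit 102) (nat_lit 5) (nat_lit 470) (nat_lit 350) (nat_lit 320))))))) (XT.nd (nat_lit 858) (nat_lit 1672) (nat_lit 0) (XT.nd (nat_lit 390) (nat_lit 1140) (nat_lit 0) (XT.nd (nat_lit 156) (nat_lit 608) (nat_lit 0) (XT.nd (nat_lit 78) (nat_lit 304) (nat_lit 0) (XT.lf (nat_lit 0) (nat_lit 2378212645) (nat_lit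 380) (nat_lit 5423227258) (nat_lit 76) (nat_lit 3319232492) (nat_lit 92) (nat_lit 5) (nat_lit 97) (nat_lit 5) (nat_lit 93) (nat_lit 5) (nat_lit 471) (nat_lit 350) (nat_lit 319)) (XT.lf (nat_lit 0) (nat_lit 2295241642) (nat_lit 304) (nat_lit 4048467820) (nat_lit 380) (nat_lit 4901856935) (nat_lit 88) (nat_lit 5) (nat_lit 92) (nat_lit 5) (nat_lit 93) (nat_lit 5) (nat_lit 472) (nat_lit 350) (nat_lit 318))) (XT.nd (nat_lit 78) (nat_lit 608) (nat_lit 0) (XT.lf (nat_lit 0) (nat_lit 10161575257) (nat_lit 304) (nat_lit 213909159) (nat_lit 380) (nat_lit 997745076) (nat_lit 88) (nat_lit 5) (nat_lit 92) (nat_lit 5) (nat_lit 93) (nat_lit 5) (nat_lit 473) (nat_lit 350) (nat_lit 317)) (XT.nd (nat_lit 78) (nat_lit 304) (nat_lit 0) (XT.lf (nat_lit 0) (nat_lit 2964055999) (nat_lit 304) (nat_lit 4856608000) (nat_lit 76) (nat_lit 3682029505) (nat_lit 84) (nat_lit 5) (nat_lit 88) (nat_lit 5) (nat_lit 85) (nat_lit 5) (nat_lit 474) (nat_lit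 350) (nat_lit 316)) (XT.lf (nat_lit 0) (nat_lit 2994650063) (nat_lit 304) (nat_lit 3977603717) (nat_lit 380) (nat_lit 4662760672) (nat_lit 80) (nat_lit 5) (nat_lit 84) (nat_lit 5) (nat_lit 85) (nat_lit 5) (nat_lit 475) (nat_lit 350) (nat_lit 315))))) (XT.nd (nat_lit 234) (nat_lit 532) (nat_lit 0) (XT.nd (nat_lit 78) (nat_lit 608) (nat_lit 0) (XT.lf (nat_lit 0) (nat_lit 10989920627) (nat_lit 304) (nat_lit 55188514) (nat_lit 380) (nat_lit 725192579) (nat_lit 80) (nat_lit 5) (nat_lit 84) (nat_lit 5) (nat_lit 85) (nat_lit 5) (nat_lit 476) (nat_lit 350) (nat_lit 314)) (XT.nd (nat_lit 78) (nat_lit 304) (nat_lit 0) (XT.lf (nat_lit 0) (nat_lit 3273317555) (nat_lit 304) (nat_lit 4701412120) (nat_lit 76) (nat_lit 3932639999) (nat_lit 76) (nat_lit 5) (nat_lit 80) (nat_lit 5) (nat_lit 77) (nat_lit 5) (nat_lit 477) (nat_lit 350) (nat_lit 313)) (XT.lf (nat_lit 0) (nat_lit 3275097986) (nat_lit 304) (nat_lit 4046655208) (nat_lit 380)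 (nat_lit 4725745817) (nat_lit 72) (nat_lit 5) (nat_lit 76) (nat_lit 5) (nat_lit 77) (nat_lit 5) (nat_lit 478) (nat_lit 350) (nat_lit 312)))) (XT.nd (nat_lit 78) (nat_lit 532) (nat_lit 0) (XT.lf (nat_lit 0) (nat_lit 11397201773) (nat_lit 304) (nat_lit 38682341) (nat_lit 380) (nat_lit 754861317) (nat_lit 72) (nat_lit 5) (nat_lit 76) (nat_lit 5) (nat_lit 77) (nat_lit 5) (nat_lit 479) (nat_lit 350) (nat_lit 311)) (XT.nd (nat_lit 78) (nat_lit 228) (nat_lit 0) (XT.lf (nat_lit 0) (nat_lit 3280230194) (nat_lit 304) (nat_lit 5019924708) (nat_lit 76) (nat_lit 4035722440) (nat_lit 68) (nat_lit 5) (nat_lit 72) (nat_lit 5) (nat_lit 69) (nat_lit 5) (nat_lit 480) (nat_lit 350) (nat_lit 310)) (XT.lf (nat_lit 0) (nat_lit 3072610186) (nat_lit 228) (nat_lit 4292877484) (nat_lit 304) (nat_lit 5118741500) (nat_lit 65) (nat_lit 5) (nat_lit 68) (nat_lit 5) (nat_lit 69) (nat_lit 5) (nat_lit 481) (nat_lit 350) (nat_lit 309)))))) (XT.nd (nat_lit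 390) (nat_lit 836) (nat_lit 0) (XT.nd (nat_lit 156) (nat_lit 532) (nat_lit 0) (XT.nd (nat_lit 78) (nat_lit 304) (nat_lit 0) (XT.lf (nat_lit 0) (nat_lit 11318561389) (nat_lit 228) (nat_lit 201977033) (nat_lit 304) (nat_lit 1115256191) (nat_lit 65) (nat_lit 5) (nat_lit 68) (nat_lit 5) (nat_lit 69) (nat_lit 5) (nat_lit 482) (nat_lit 350) (nat_lit 308)) (XT.lf (nat_lit 0) (nat_lit 2955396276) (nat_lit 304) (nat_lit 5880885203) (nat_lit 76) (nat_lit 3953211915) (nat_lit 61) (nat_lit 5) (nat_lit 65) (nat_lit 5) (nat_lit 62) (nat_lit 5) (nat_lit 483) (nat_lit 350) (nat_lit 307))) (XT.nd (nat_lit 78) (nat_lit 304) (nat_lit 0) (XT.lf (nat_lit 0) (nat_lit 2316540134) (nat_lit 228) (nat_lit 4756467169) (nat_lit 304) (nat_lit 5873509693) (nat_lit 58) (nat_lit 5) (nat_lit 61) (nat_lit 5) (nat_lit 62) (nat_lit 5) (nat_lit 484) (nat_lit 350) (nat_lit 306)) (XT.nd (nat_lit 78) (nat_lit 304) (nat_lit 0) (XT.lf (nat_lit 0) (nat_lit 10682337275)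 (nat_lit 228) (nat_lit 585675758) (nat_lit 304) (nat_lit 1838774893) (nat_lit 58) (nat_lit 5) (nat_lit 61) (nat_lit 5) (nat_lit 62) (nat_lit 5) (nat_lit 485) (nat_lit 350) (nat_lit 305)) (XT.lf (nat_lit 0) (nat_lit 2265449098) (nat_lit 304) (nat_lit 7360235352) (nat_lit 76) (nat_lit 3643918536) (nat_lit 54) (nat_lit 5) (nat_lit 58) (nat_lit 5) (nat_lit 55) (nat_lit 5) (nat_lit 486) (nat_lit 350) (nat_lit 304))))) (XT.nd (nat_lit 234) (nat_lit 380) (nat_lit 0) (XT.nd (nat_lit 78) (nat_lit 228) (nat_lit 0) (XT.lf (nat_lit 0) (nat_lit 928798282) (nat_lit 228) (nat_lit 5480983092) (nat_lit 304) (nat_lit 7026004246) (nat_lit 51) (nat_lit 5) (nat_lit 54) (nat_lit 5) (nat_lit 55) (nat_lit 5) (nat_lit 487) (nat_lit 350) (nat_lit 303)) (XT.nd (nat_lit 78) (nat_lit 228) (nat_lit 0) (XT.lf (nat_lit 0) (nat_lit 9409276525) (nat_lit 228) (nat_lit 1233825719) (nat_lit 304) (nat_lit 2962074743) (nat_lit 51) (nat_lit 5) (nat_lit 54)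 (nat_lit 5) (nat_lit 55) (nat_lit 5) (nat_lit 488) (nat_lit 350) (nat_lit 302)) (XT.lf (nat_lit 0) (nat_lit 1172674872) (nat_lit 228) (nat_lit 9541941903) (nat_lit 76) (nat_lit 3063091445) (nat_lit 48) (nat_lit 5) (nat_lit 51) (nat_lit 5) (nat_lit 49) (nat_lit 5) (nat_lit 489) (nat_lit 350) (nat_lit 301)))) (XT.nd (nat_lit 78) (nat_lit 380) (nat_lit 0) (XT.lf (nat_lit 0) (nat_lit 5344448553) (nat_lit 228) (nat_lit 1161560409) (nat_lit 76) (nat_lit 7447416411) (nat_lit 48) (nat_lit 5) (nat_lit 51) (nat_lit 5) (nat_lit 49) (nat_lit 5) (nat_lit 490) (nat_lit 350) (nat_lit 300)) (XT.nd (nat_lit 78) (nat_lit 152) (nat_lit 0) (XT.lf (nat_lit 0) (nat_lit 7411670830) (nat_lit 228) (nat_lit 2194382849) (nat_lit 304) (nat_lit 4526481847) (nat_lit 45) (nat_lit 5) (nat_lit 48) (nat_lit 5) (nat_lit 49) (nat_lit 5) (nat_lit 491) (nat_lit 350) (nat_lit 299)) (XT.lf (nat_lit 0) (nat_lit 1794083476) (nat_lit 152) (nat_lit 12151041470)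 (nat_lit 228) (nat_lit 370264703) (nat_lit 43) (nat_lit 5) (nat_lit 45) (nat_lit 5) (nat_lit 46) (nat_lit 4) (nat_lit 492) (nat_lit 350) (nat_lit 298))))))))
noncomputable def xc28 : XT := (XT.nd (nat_lit 55536) (nat_lit 0) (nat_lit 7144) (XT.nd (nat_lit 780) (nat_lit 608) (nat_lit 0) (XT.nd (nat_lit 390) (nat_lit 380) (nat_lit 0) (XT.nd (nat_lit 156) (nat_lit 380) (nat_lit 0) (XT.nd (nat_lit 78) (nat_lit 228) (nat_lit 0) (XT.lf (nat_lit 0) (nat_lit 3836768246) (nat_lit 228) (nat_lit 4042728072) (nat_lit 76) (nat_lit 6621539618) (nat_lit 42) (nat_lit 5) (nat_lit 45) (nat_lit 5) (nat_lit 43) (nat_lit 5) (nat_lit 493) (nat_lit 350) (nat_lit 297)) (XT.lf (nat_lit 0) (nat_lit 4592404319) (nat_lit 228) (nat_lit 3519718463) (nat_lit 304) (nat_lit 6578446719) (nat_lit 39) (nat_lit 5) (nat_lit 42) (nat_lit 5) (nat_lit 43) (nat_lit 5) (nat_lit 494) (nat_lit 350) (nat_lit 296))) (XT.nd (nat_lit 78) (nat_lit 380) (nat_lit 0) (XT.lf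 (nat_lit 0) (nat_lit 12465776834) (nat_lit 304) (nat_lit 1505459299) (nat_lit 76) (nat_lit 912807712) (nat_lit 39) (nat_lit 5) (nat_lit 43) (nat_lit 5) (nat_lit 40) (nat_lit 4) (nat_lit 495) (nat_lit 350) (nat_lit 295)) (XT.nd (nat_lit 78) (nat_lit 152) (nat_lit 0) (XT.lf (nat_lit 0) (nat_lit 1832091286) (nat_lit 228) (nat_lit 7831362264) (nat_lit 76) (nat_lit 5417084619) (nat_lit 36) (nat_lit 5) (nat_lit 39) (nat_lit 5) (nat_lit 37) (nat_lit 5) (nat_lit 496) (nat_lit 350) (nat_lit 294)) (XT.lf (nat_lit 0) (nat_lit 843904531) (nat_lit 152) (nat_lit 5267172776) (nat_lit 228) (nat_lit 9170050967) (nat_lit 34) (nat_lit 5) (nat_lit 36) (nat_lit 5) (nat_lit 37) (nat_lit 5) (nat_lit 497) (nat_lit 350) (nat_lit 293))))) (XT.nd (nat_lit 156) (nat_lit 228) (nat_lit 0) (XT.nd (nat_lit 78) (nat_lit 152) (nat_lit 0) (XT.lf (nat_lit 0) (nat_lit 9729659053) (nat_lit 152) (nat_lit 759187798) (nat_lit 228) (nat_lit 4996624758) (nat_lit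 34) (nat_lit 5) (nat_lit 36) (nat_lit 5) (nat_lit 37) (nat_lit 5) (nat_lit 498) (nat_lit 350) (nat_lit 292)) (XT.lf (nat_lit 0) (nat_lit 3045844061) (nat_lit 152) (nat_lit 11914261355) (nat_lit 228) (nat_lit 733683115) (nat_lit 32) (nat_lit 5) (nat_lit 34) (nat_lit 5) (nat_lit 35) (nat_lit 4) (nat_lit 499) (nat_lit 350) (nat_lit 291))) (XT.nd (nat_lit 78) (nat_lit 152) (nat_lit 0) (XT.lf (nat_lit 0) (nat_lit 3572312398) (nat_lit 228) (nat_lit 3901169401) (nat_lit 76) (nat_lit 8432221822) (nat_lit 31) (nat_lit 5) (nat_lit 34) (nat_lit 5) (nat_lit 32) (nat_lit 5) (nat_lit 500) (nat_lit 350) (nat_lit 290)) (XT.nd (nat_lit 78) (nat_lit 0) (nat_lit 0) (XT.lf (nat_lit 0) (nat_lit 5014314513) (nat_lit 152) (nat_lit 2934905736) (nat_lit 228) (nat_lit 8172652522) (nat_lit 29) (nat_lit 5) (nat_lit 31) (nat_lit 5) (nat_lit 32) (nat_lit 5) (nat_lit 501) (nat_lit 350) (nat_lit 289)) (XT.lf (nat_lit 0) (nat_lit 12413193455) (nat_lit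 228) (nat_lit 2259285985) (nat_lit 76) (nat_lit 1669900307) (nat_lit 29) (nat_lit 5) (nat_lit 32) (nat_lit 5) (nat_lit 30) (nat_lit 4) (nat_lit 502) (nat_lit 350) (nat_lit 288)))))) (XT.nd (nat_lit 54288) (nat_lit 0) (nat_lit 14668) (XT.nd (nat_lit 156) (nat_lit 380) (nat_lit 0) (XT.nd (nat_lit 78) (nat_lit 0) (nat_lit 0) (XT.lf (nat_lit 0) (nat_lit 420386511) (nat_lit 228) (nat_lit 9800184919) (nat_lit 76) (nat_lit 6346148947) (nat_lit 26) (nat_lit 5) (nat_lit 29) (nat_lit 5) (nat_lit 27) (nat_lit 5) (nat_lit 503) (nat_lit 350) (nat_lit 287)) (XT.lf (nat_lit 0) (nat_lit 4782618251) (nat_lit 228) (nat_lit 883870690) (nat_lit 76) (nat_lit 11128978553) (nat_lit 26) (nat_lit 5) (nat_lit 29) (nat_lit 5) (nat_lit 27) (nat_lit 5) (nat_lit 504) (nat_lit 350) (nat_lit 286))) (XT.nd (nat_lit 78) (nat_lit 228) (nat_lit 0) (XT.lf (nat_lit 0) (nat_lit 8254317732) (nat_lit 152) (nat_lit 995064204) (nat_lit 228) (nat_lit 7779066475)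 (nat_lit 24) (nat_lit 5) (nat_lit 26) (nat_lit 5) (nat_lit 27) (nat_lit 5) (nat_lit 505) (nat_lit 350) (nat_lit 285)) (XT.nd (nat_lit 78) (nat_lit 76) (nat_lit 0) (XT.lf (nat_lit 0) (nat_lit 235023424) (nat_lit 152) (nat_lit 13566235625) (nat_lit 228) (nat_lit 3464918848) (nat_lit 22) (nat_lit 5) (nat_lit 24) (nat_lit 5) (nat_lit 25) (nat_lit 4) (nat_lit 506) (nat_lit 350) (nat_lit 284)) (XT.lf (nat_lit 0) (nat_lit 952956299) (nat_lit 228) (nat_lit 8042124460) (nat_lit 76) (nat_lit 8512869793) (nat_lit 21) (nat_lit 5) (nat_lit 24) (nat_lit 5) (nat_lit 22) (nat_lit 5) (nat_lit 507) (nat_lit 350) (nat_lit 283))))) (XT.nd (nat_lit 234) (nat_lit 1292) (nat_lit 0) (XT.nd (nat_lit 78) (nat_lit 1292) (nat_lit 0) (XT.lf (nat_lit 0) (nat_lit 3577506398) (nat_lit 608) (nat_lit 249160137) (nat_lit 608) (nat_lit 249160137) (nat_lit 248) (nat_lit 4) (nat_lit 256) (nat_lit 5) (nat_lit 256) (nat_lit 4) (nat_lit 438) (nat_lit 351) (nat_lit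 351)) (XT.nd (nat_lit 78) (nat_lit 608) (nat_lit 0) (XT.lf (nat_lit 0) (nat_lit 3262735446) (nat_lit 684) (nat_lit 2859990987) (nat_lit 0) (nat_lit 2090853291) (nat_lit 239) (nat_lit 5) (nat_lit 248) (nat_lit 4) (nat_lit 239) (nat_lit 4) (nat_lit 439) (nat_lit 351) (nat_lit 350)) (XT.lf (nat_lit 0) (nat_lit 3522875376) (nat_lit 608) (nat_lit 3537626079) (nat_lit 608) (nat_lit 1216839849) (nat_lit 231) (nat_lit 4) (nat_lit 239) (nat_lit 5) (nat_lit 239) (nat_lit 4) (nat_lit 440) (nat_lit 351) (nat_lit 349)))) (XT.nd (nat_lit 78) (nat_lit 684) (nat_lit 0) (XT.lf (nat_lit 0) (nat_lit 1650128391) (nat_lit 532) (nat_lit 873283076) (nat_lit 608) (nat_lit 5819343689) (nat_lit 223) (nat_lit 5) (nat_lit 230) (nat_lit 5) (nat_lit 231) (nat_lit 4) (nat_lit 441) (nat_lit 351) (nat_lit 348)) (XT.nd (nat_lit 78) (nat_lit 684) (nat_lit 0) (XT.lf (nat_lit 0) (nat_lit 6302392088) (nat_lit 608) (nat_lit 267161502) (nat_lit 0) (nat_lit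 1840182772) (nat_lit 223) (nat_lit 5) (nat_lit 231) (nat_lit 4) (nat_lit 223) (nat_lit 4) (nat_lit 442) (nat_lit 351) (nat_lit 347)) (XT.lf (nat_lit 0) (nat_lit 1640665831) (nat_lit 684) (nat_lit 2209474110) (nat_lit 76) (nat_lit 4628046803) (nat_lit 214) (nat_lit 5) (nat_lit 223) (nat_lit 5) (nat_lit 215) (nat_lit 4) (nat_lit 443) (nat_lit 351) (nat_lit 346))))))) (XT.nd (nat_lit 780) (nat_lit 3344) (nat_lit 0) (XT.nd (nat_lit 390) (nat_lit 1976) (nat_lit 0) (XT.nd (nat_lit 156) (nat_lit 1064) (nat_lit 0) (XT.nd (nat_lit 78) (nat_lit 608) (nat_lit 0) (XT.lf (nat_lit 0) (nat_lit 4350071072) (nat_lit 532) (nat_lit 1053041788) (nat_lit 608) (nat_lit 3145283698) (nat_lit 207) (nat_lit 5) (nat_lit 214) (nat_lit 5) (nat_lit 215) (nat_lit 4) (nat_lit 444) (nat_lit 351) (nat_lit 345)) (XT.lf (nat_lit 0) (nat_lit 592766874) (nat_lit 608) (nat_lit 6238307822) (nat_lit 76) (nat_lit 1789275060) (nat_lit 199) (nat_lit 5) (nat_lit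 207) (nat_lit 5) (nat_lit 200) (nat_lit 4) (nat_lit 445) (nat_lit 351) (nat_lit 344))) (XT.nd (nat_lit 78) (nat_lit 608) (nat_lit 0) (XT.lf (nat_lit 0) (nat_lit 349526001) (nat_lit 456) (nat_lit 3989979679) (nat_lit 532) (nat_lit 4354321256) (nat_lit 193) (nat_lit 5) (nat_lit 199) (nat_lit 5) (nat_lit 200) (nat_lit 4) (nat_lit 446) (nat_lit 351) (nat_lit 343)) (XT.nd (nat_lit 78) (nat_lit 608) (nat_lit 0) (XT.lf (nat_lit 0) (nat_lit 7069420811) (nat_lit 456) (nat_lit 1072682069) (nat_lit 532) (nat_lit 627073462) (nat_lit 193) (nat_lit 5) (nat_lit 199) (nat_lit 5) (nat_lit 200) (nat_lit 4) (nat_lit 447) (nat_lit 351) (nat_lit 342)) (XT.lf (nat_lit 0) (nat_lit 3118201091) (nat_lit 608) (nat_lit 3819006846) (nat_lit 76) (nat_lit 1908730507) (nat_lit 185) (nat_lit 5) (nat_lit 193) (nat_lit 5) (nat_lit 186) (nat_lit 4) (nat_lit 448) (nat_lit 351) (nat_lit 341))))) (XT.nd (nat_lit 156) (nat_lit 988) (nat_lit 0) (XT.nd (nat_lit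 78) (nat_lit 532) (nat_lit 0) (XT.lf (nat_lit 0) (nat_lit 2930350206) (nat_lit 456) (nat_lit 3977583595) (nat_lit 532) (nat_lit 2016680037) (nat_lit 179) (nat_lit 5) (nat_lit 185) (nat_lit 5) (nat_lit 186) (nat_lit 4) (nat_lit 449) (nat_lit 351) (nat_lit 340)) (XT.lf (nat_lit 0) (nat_lit 776450358) (nat_lit 456) (nat_lit 940339314) (nat_lit 532) (nat_lit 7288434835) (nat_lit 172) (nat_lit 5) (nat_lit 178) (nat_lit 5) (nat_lit 179) (nat_lit 5) (nat_lit 450) (nat_lit 351) (nat_lit 339))) (XT.nd (nat_lit 78) (nat_lit 988) (nat_lit 0) (XT.lf (nat_lit 0) (nat_lit 5493460471) (nat_lit 532) (nat_lit 1435113764) (nat_lit 76) (nat_lit 2158714635) (nat_lit 172) (nat_lit 5) (nat_lit 179) (nat_lit 5) (nat_lit 173) (nat_lit 4) (nat_lit 451) (nat_lit 351) (nat_lit 338)) (XT.nd (nat_lit 78) (nat_lit 456) (nat_lit 0) (XT.lf (nat_lit 0) (nat_lit 156209224) (nat_lit 532) (nat_lit 3695349416) (nat_lit 76) (nat_lit 5319754653) (nat_lit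 165) (nat_lit 5) (nat_lit 172) (nat_lit 5) (nat_lit 166) (nat_lit 5) (nat_lit 452) (nat_lit 351) (nat_lit 337)) (XT.lf (nat_lit 0) (nat_lit 3223047951) (nat_lit 456) (nat_lit 683111807) (nat_lit 532) (nat_lit 5350940373) (nat_lit 159) (nat_lit 5) (nat_lit 165) (nat_lit 5) (nat_lit 166) (nat_lit 5) (nat_lit 453) (nat_lit 351) (nat_lit 336)))))) (XT.nd (nat_lit 390) (nat_lit 1596) (nat_lit 0) (XT.nd (nat_lit 156) (nat_lit 1292) (nat_lit 0) (XT.nd (nat_lit 78) (nat_lit 76) (nat_lit 0) (XT.lf (nat_lit 0) (nat_lit 897158681) (nat_lit 380) (nat_lit 6824080092) (nat_lit 456) (nat_lit 1623578697) (nat_lit 154) (nat_lit 5) (nat_lit 159) (nat_lit 5) (nat_lit 160) (nat_lit 4) (nat_lit 454) (nat_lit 351) (nat_lit 335)) (XT.lf (nat_lit 0) (nat_lit 2138029515) (nat_lit 456) (nat_lit 1487544968) (nat_lit 76) (nat_lit 5808683121) (nat_lit 153) (nat_lit 5) (nat_lit 159) (nat_lit 5) (nat_lit 154) (nat_lit 5) (nat_lit 455) (nat_lit 351)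 (nat_lit 334))) (XT.nd (nat_lit 78) (nat_lit 836) (nat_lit 0) (XT.lf (nat_lit 0) (nat_lit 5592088305) (nat_lit 456) (nat_lit 341472438) (nat_lit 532) (nat_lit 3592118901) (nat_lit 147) (nat_lit 5) (nat_lit 153) (nat_lit 5) (nat_lit 154) (nat_lit 5) (nat_lit 456) (nat_lit 351) (nat_lit 333)) (XT.nd (nat_lit 78) (nat_lit 380) (nat_lit 0) (XT.lf (nat_lit 0) (nat_lit 178133919) (nat_lit 456) (nat_lit 6466396093) (nat_lit 76) (nat_lit 2974501630) (nat_lit 141) (nat_lit 5) (nat_lit 147) (nat_lit 5) (nat_lit 142) (nat_lit 5) (nat_lit 457) (nat_lit 351) (nat_lit 332)) (XT.lf (nat_lit 0) (nat_lit 619192193) (nat_lit 380) (nat_lit 3334071262) (nat_lit 456) (nat_lit 5760976355) (nat_lit 136) (nat_lit 5) (nat_lit 141) (nat_lit 5) (nat_lit 142) (nat_lit 5) (nat_lit 458) (nat_lit 351) (nat_lit 331))))) (XT.nd (nat_lit 234) (nat_lit 760) (nat_lit 0) (XT.nd (nat_lit 78) (nat_lit 836) (nat_lit 0) (XT.lf (nat_lit 0) (nat_lit 7792895973)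 (nat_lit 456) (nat_lit 1960177263) (nat_lit 76) (nat_lit 58514006) (nat_lit 136) (nat_lit 5) (nat_lit 142) (nat_lit 5) (nat_lit 137) (nat_lit 4) (nat_lit 459) (nat_lit 351) (nat_lit 330)) (XT.nd (nat_lit 78) (nat_lit 380) (nat_lit 0) (XT.lf (nat_lit 0) (nat_lit 1777356110) (nat_lit 456) (nat_lit 4639584218) (nat_lit 76) (nat_lit 3493672212) (nat_lit 130) (nat_lit 5) (nat_lit 136) (nat_lit 5) (nat_lit 131) (nat_lit 5) (nat_lit 460) (nat_lit 351) (nat_lit 329)) (XT.lf (nat_lit 0) (nat_lit 2600895627) (nat_lit 380) (nat_lit 2997834810) (nat_lit 456) (nat_lit 4413106547) (nat_lit 125) (nat_lit 5) (nat_lit 130) (nat_lit 5) (nat_lit 131) (nat_lit 5) (nat_lit 461) (nat_lit 351) (nat_lit 328)))) (XT.nd (nat_lit 78) (nat_lit 760) (nat_lit 0) (XT.lf (nat_lit 0) (nat_lit 9477677958) (nat_lit 456) (nat_lit 150962785) (nat_lit 76) (nat_lit 486836216) (nat_lit 125) (nat_lit 5) (nat_lit 131) (nat_lit 5) (nat_lit 126) (nat_lit 4) (nat_lit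 462) (nat_lit 351) (nat_lit 327)) (XT.nd (nat_lit 78) (nat_lit 380) (nat_lit 0) (XT.lf (nat_lit 0) (nat_lit 3185548986) (nat_lit 380) (nat_lit 2993015500) (nat_lit 76) (nat_lit 4041927971) (nat_lit 120) (nat_lit 5) (nat_lit 125) (nat_lit 5) (nat_lit 121) (nat_lit 5) (nat_lit 463) (nat_lit 351) (nat_lit 326)) (XT.lf (nat_lit 0) (nat_lit 4400673982) (nat_lit 380) (nat_lit 2653572383) (nat_lit 456) (nat_lit 3273742284) (nat_lit 115) (nat_lit 5) (nat_lit 120) (nat_lit 5) (nat_lit 121) (nat_lit 5) (nat_lit 464) (nat_lit 351) (nat_lit 325))))))))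
noncomputable def xc29 : XT := (XT.nd (nat_lit 1638) (nat_lit 2736) (nat_lit 0) (XT.nd (nat_lit 780) (nat_lit 1976) (nat_lit 0) (XT.nd (nat_lit 390) (nat_lit 1292) (nat_lit 0) (XT.nd (nat_lit 156) (nat_lit 684) (nat_lit 0) (XT.nd (nat_lit 78) (nat_lit 0) (nat_lit 0) (XT.lf (nat_lit 0) (nat_lit 539251573) (nat_lit 380) (nat_lit 8963892741) (nat_lit 76) (nat_lit 934751059) (nat_lit 110) (nat_lit 5) (nat_lit 115) (nat_lit 5) (nat_lit 111) (nat_lit 5) (nat_lit 465) (nat_lit 351) (nat_lit 324)) (XT.lf (nat_lit 0) (nat_lit 4390603838) (nat_lit 380) (nat_lit 1566280243) (nat_lit 76) (nat_lit 4592577076) (nat_lit 110) (nat_lit 5) (nat_lit 115) (nat_lit 5) (nat_lit 111) (nat_lit 5) (nat_lit 466) (nat_lit 351) (nat_lit 323))) (XT.nd (nat_lit 78) (nat_lit 380) (nat_lit 0) (XT.lf (nat_lit 0) (nat_lit 5978029640) (nat_lit 304) (nat_lit 2329061764) (nat_lit 380) (nat_lit 2356416837) (nat_lit 106) (nat_lit 5) (nat_lit 110) (nat_lit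 5) (nat_lit 111) (nat_lit 5) (nat_lit 467) (nat_lit 351) (nat_lit 322)) (XT.nd (nat_lit 78) (nat_lit 0) (nat_lit 0) (XT.lf (nat_lit 0) (nat_lit 1489679484) (nat_lit 380) (nat_lit 7926445328) (nat_lit 76) (nat_lit 1363774102) (nat_lit 101) (nat_lit 5) (nat_lit 106) (nat_lit 5) (nat_lit 102) (nat_lit 5) (nat_lit 468) (nat_lit 351) (nat_lit 321)) (XT.lf (nat_lit 0) (nat_lit 5377967435) (nat_lit 380) (nat_lit 402665174) (nat_lit 76) (nat_lit 5117748281) (nat_lit 101) (nat_lit 5) (nat_lit 106) (nat_lit 5) (nat_lit 102) (nat_lit 5) (nat_lit 469) (nat_lit 351) (nat_lit 320))))) (XT.nd (nat_lit 156) (nat_lit 608) (nat_lit 0) (XT.nd (nat_lit 78) (nat_lit 380) (nat_lit 0) (XT.lf (nat_lit 0) (nat_lit 7288637231) (nat_lit 304) (nat_lit 2053410628) (nat_lit 380) (nat_lit 1677235336) (nat_lit 97) (nat_lit 5) (nat_lit 101) (nat_lit 5) (nat_lit 102) (nat_lit 5) (nat_lit 470) (nat_lit 351) (nat_lit 319)) (XT.lf (nat_lit 0) (nat_lit 2204065870)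 (nat_lit 380) (nat_lit 7198906566) (nat_lit 76) (nat_lit 1739537178) (nat_lit 92) (nat_lit 5) (nat_lit 97) (nat_lit 5) (nat_lit 93) (nat_lit 5) (nat_lit 471) (nat_lit 351) (nat_lit 318))) (XT.nd (nat_lit 78) (nat_lit 304) (nat_lit 0) (XT.lf (nat_lit 0) (nat_lit 456351651) (nat_lit 304) (nat_lit 5677061357) (nat_lit 380) (nat_lit 5134718838) (nat_lit 88) (nat_lit 5) (nat_lit 92) (nat_lit 5) (nat_lit 93) (nat_lit 5) (nat_lit 472) (nat_lit 351) (nat_lit 317)) (XT.nd (nat_lit 78) (nat_lit 304) (nat_lit 0) (XT.lf (nat_lit 0) (nat_lit 8283849148) (nat_lit 304) (nat_lit 1857350992) (nat_lit 380) (nat_lit 1255079691) (nat_lit 88) (nat_lit 5) (nat_lit 92) (nat_lit 5) (nat_lit 93) (nat_lit 5) (nat_lit 473) (nat_lit 351) (nat_lit 316)) (XT.lf (nat_lit 0) (nat_lit 2662810140) (nat_lit 304) (nat_lit 6832812090) (nat_lit 76) (nat_lit 2031105689) (nat_lit 84) (nat_lit 5) (nat_lit 88) (nat_lit 5) (nat_lit 85) (nat_lit 5) (nat_lit 474)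 (nat_lit 351) (nat_lit 315)))))) (XT.nd (nat_lit 390) (nat_lit 1064) (nat_lit 0) (XT.nd (nat_lit 156) (nat_lit 608) (nat_lit 0) (XT.nd (nat_lit 78) (nat_lit 0) (nat_lit 0) (XT.lf (nat_lit 0) (nat_lit 953150954) (nat_lit 304) (nat_lit 5681045341) (nat_lit 380) (nat_lit 5025593642) (nat_lit 80) (nat_lit 5) (nat_lit 84) (nat_lit 5) (nat_lit 85) (nat_lit 5) (nat_lit 475) (nat_lit 351) (nat_lit 314)) (XT.lf (nat_lit 0) (nat_lit 8910154549) (nat_lit 304) (nat_lit 1773553690) (nat_lit 380) (nat_lit 1111840575) (nat_lit 80) (nat_lit 5) (nat_lit 84) (nat_lit 5) (nat_lit 85) (nat_lit 5) (nat_lit 476) (nat_lit 351) (nat_lit 313))) (XT.nd (nat_lit 78) (nat_lit 304) (nat_lit 0) (XT.lf (nat_lit 0) (nat_lit 2843254905) (nat_lit 304) (nat_lit 6884867866) (nat_lit 76) (nat_lit 2205518476) (nat_lit 76) (nat_lit 5) (nat_lit 80) (nat_lit 5) (nat_lit 77) (nat_lit 5) (nat_lit 477) (nat_lit 351) (nat_lit 312)) (XT.nd (nat_lit 78) (nat_lit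 0) (nat_lit 0) (XT.lf (nat_lit 0) (nat_lit 1024177044) (nat_lit 304) (nat_lit 5829969263) (nat_lit 380) (nat_lit 5220379632) (nat_lit 72) (nat_lit 5) (nat_lit 76) (nat_lit 5) (nat_lit 77) (nat_lit 5) (nat_lit 478) (nat_lit 351) (nat_lit 311)) (XT.lf (nat_lit 0) (nat_lit 9108586500) (nat_lit 304) (nat_lit 1836965828) (nat_lit 380) (nat_lit 1272678911) (nat_lit 72) (nat_lit 5) (nat_lit 76) (nat_lit 5) (nat_lit 77) (nat_lit 5) (nat_lit 479) (nat_lit 351) (nat_lit 310))))) (XT.nd (nat_lit 234) (nat_lit 532) (nat_lit 0) (XT.nd (nat_lit 78) (nat_lit 228) (nat_lit 0) (XT.lf (nat_lit 0) (nat_lit 2719415705) (nat_lit 304) (nat_lit 7417570051) (nat_lit 76) (nat_lit 2227444607) (nat_lit 68) (nat_lit 5) (nat_lit 72) (nat_lit 5) (nat_lit 69) (nat_lit 5) (nat_lit 480) (nat_lit 351) (nat_lit 309)) (XT.nd (nat_lit 78) (nat_lit 0) (nat_lit 0) (XT.lf (nat_lit 0) (nat_lit 605239620) (nat_lit 228) (nat_lit 6161086207) (nat_lit 304) (nat_lit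 5747227441) (nat_lit 65) (nat_lit 5) (nat_lit 68) (nat_lit 5) (nat_lit 69) (nat_lit 5) (nat_lit 481) (nat_lit 351) (nat_lit 308)) (XT.lf (nat_lit 0) (nat_lit 8814071433) (nat_lit 228) (nat_lit 2085174389) (nat_lit 304) (nat_lit 1766319552) (nat_lit 65) (nat_lit 5) (nat_lit 68) (nat_lit 5) (nat_lit 69) (nat_lit 5) (nat_lit 482) (nat_lit 351) (nat_lit 307)))) (XT.nd (nat_lit 78) (nat_lit 228) (nat_lit 0) (XT.lf (nat_lit 0) (nat_lit 2261677842) (nat_lit 304) (nat_lit 8499885543) (nat_lit 76) (nat_lit 2058813081) (nat_lit 61) (nat_lit 5) (nat_lit 65) (nat_lit 5) (nat_lit 62) (nat_lit 5) (nat_lit 483) (nat_lit 351) (nat_lit 306)) (XT.nd (nat_lit 78) (nat_lit 228) (nat_lit 0) (XT.lf (nat_lit 0) (nat_lit 6342499594) (nat_lit 304) (nat_lit 369627273) (nat_lit 76) (nat_lit 6266012801) (nat_lit 61) (nat_lit 5) (nat_lit 65) (nat_lit 5) (nat_lit 62) (nat_lit 5) (nat_lit 484) (nat_lit 351) (nat_lit 305)) (XT.lf (nat_lit 0) (nat_lit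 7954714494) (nat_lit 228) (nat_lit 2558799493) (nat_lit 304) (nat_lit 2625380177) (nat_lit 58) (nat_lit 5) (nat_lit 61) (nat_lit 5) (nat_lit 62) (nat_lit 5) (nat_lit 485) (nat_lit 351) (nat_lit 304))))))) (XT.nd (nat_lit 858) (nat_lit 1064) (nat_lit 0) (XT.nd (nat_lit 390) (nat_lit 912) (nat_lit 0) (XT.nd (nat_lit 156) (nat_lit 456) (nat_lit 0) (XT.nd (nat_lit 78) (nat_lit 0) (nat_lit 0) (XT.lf (nat_lit 0) (nat_lit 1436457204) (nat_lit 304) (nat_lit 10207999936) (nat_lit 76) (nat_lit 1658411884) (nat_lit 54) (nat_lit 5) (nat_lit 58) (nat_lit 5) (nat_lit 55) (nat_lit 5) (nat_lit 486) (nat_lit 351) (nat_lit 303)) (XT.lf (nat_lit 0) (nat_lit 5553567047) (nat_lit 304) (nat_lit 1967352646) (nat_lit 76) (nat_lit 5948679938) (nat_lit 54) (nat_lit 5) (nat_lit 58) (nat_lit 5) (nat_lit 55) (nat_lit 5) (nat_lit 487) (nat_lit 351) (nat_lit 302))) (XT.nd (nat_lit 78) (nat_lit 228) (nat_lit 0) (XT.lf (nat_lit 0) (nat_lit 6451013717)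 (nat_lit 228) (nat_lit 3301921041) (nat_lit 304) (nat_lit 3886738758) (nat_lit 51) (nat_lit 5) (nat_lit 54) (nat_lit 5) (nat_lit 55) (nat_lit 5) (nat_lit 488) (nat_lit 351) (nat_lit 301)) (XT.nd (nat_lit 78) (nat_lit 0) (nat_lit 0) (XT.lf (nat_lit 0) (nat_lit 205821629) (nat_lit 228) (nat_lit 12626140272) (nat_lit 76) (nat_lit 981452565) (nat_lit 48) (nat_lit 5) (nat_lit 51) (nat_lit 5) (nat_lit 49) (nat_lit 5) (nat_lit 489) (nat_lit 351) (nat_lit 300)) (XT.lf (nat_lit 0) (nat_lit 4356939117) (nat_lit 228) (nat_lit 4281384164) (nat_lit 76) (nat_lit 5351224719) (nat_lit 48) (nat_lit 5) (nat_lit 51) (nat_lit 5) (nat_lit 49) (nat_lit 5) (nat_lit 490) (nat_lit 351) (nat_lit 299))))) (XT.nd (nat_lit 234) (nat_lit 456) (nat_lit 0) (XT.nd (nat_lit 78) (nat_lit 228) (nat_lit 0) (XT.lf (nat_lit 0) (nat_lit 4214995251) (nat_lit 228) (nat_lit 4362542883) (nat_lit 304) (nat_lit 5591943332) (nat_lit 45) (nat_lit 5) (nat_lit 48) (nat_lit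 5) (nat_lit 49) (nat_lit 5) (nat_lit 491) (nat_lit 351) (nat_lit 298)) (XT.nd (nat_lit 78) (nat_lit 228) (nat_lit 0) (XT.lf (nat_lit 0) (nat_lit 12869249469) (nat_lit 228) (nat_lit 1469689) (nat_lit 304) (nat_lit 1482537365) (nat_lit 45) (nat_lit 5) (nat_lit 48) (nat_lit 5) (nat_lit 49) (nat_lit 5) (nat_lit 492) (nat_lit 351) (nat_lit 297)) (XT.lf (nat_lit 0) (nat_lit 2709105837) (nat_lit 228) (nat_lit 7406353829) (nat_lit 76) (nat_lit 4424190132) (nat_lit 42) (nat_lit 5) (nat_lit 45) (nat_lit 5) (nat_lit 43) (nat_lit 5) (nat_lit 493) (nat_lit 351) (nat_lit 296)))) (XT.nd (nat_lit 78) (nat_lit 228) (nat_lit 0) (XT.lf (nat_lit 0) (nat_lit 1149261095) (nat_lit 228) (nat_lit 5793099012) (nat_lit 304) (nat_lit 7787668211) (nat_lit 39) (nat_lit 5) (nat_lit 42) (nat_lit 5) (nat_lit 43) (nat_lit 5) (nat_lit 494) (nat_lit 351) (nat_lit 295)) (XT.nd (nat_lit 78) (nat_lit 228) (nat_lit 0) (XT.lf (nat_lit 0) (nat_lit 9907432771)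 (nat_lit 228) (nat_lit 1362996515) (nat_lit 304) (nat_lit 3653587963) (nat_lit 39) (nat_lit 5) (nat_lit 42) (nat_lit 5) (nat_lit 43) (nat_lit 5) (nat_lit 495) (nat_lit 351) (nat_lit 294)) (XT.lf (nat_lit 0) (nat_lit 561227436) (nat_lit 228) (nat_lit 11447032100) (nat_lit 76) (nat_lit 3113450113) (nat_lit 36) (nat_lit 5) (nat_lit 39) (nat_lit 5) (nat_lit 37) (nat_lit 5) (nat_lit 496) (nat_lit 351) (nat_lit 293)))))) (XT.nd (nat_lit 390) (nat_lit 532) (nat_lit 0) (XT.nd (nat_lit 156) (nat_lit 380) (nat_lit 0) (XT.nd (nat_lit 78) (nat_lit 152) (nat_lit 0) (XT.lf (nat_lit 0) (nat_lit 4815477023) (nat_lit 228) (nat_lit 2816628591) (nat_lit 76) (nat_lit 7690691594) (nat_lit 36) (nat_lit 5) (nat_lit 39) (nat_lit 5) (nat_lit 37) (nat_lit 5) (nat_lit 497) (nat_lit 351) (nat_lit 292)) (XT.lf (nat_lit 0) (nat_lit 5998121429) (nat_lit 152) (nat_lit 3157497055) (nat_lit 228) (nat_lit 6372277291) (nat_lit 34) (nat_lit 5) (nat_lit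 36) (nat_lit 5) (nat_lit 37) (nat_lit 5) (nat_lit 498) (nat_lit 351) (nat_lit 291))) (XT.nd (nat_lit 78) (nat_lit 380) (nat_lit 0) (XT.lf (nat_lit 0) (nat_lit 13572714686) (nat_lit 228) (nat_lit 785692742) (nat_lit 76) (nat_lit 1378891136) (nat_lit 34) (nat_lit 5) (nat_lit 37) (nat_lit 5) (nat_lit 35) (nat_lit 4) (nat_lit 499) (nat_lit 351) (nat_lit 290)) (XT.nd (nat_lit 78) (nat_lit 152) (nat_lit 0) (XT.lf (nat_lit 0) (nat_lit 2136188262) (nat_lit 228) (nat_lit 7810669870) (nat_lit 76) (nat_lit 6003023641) (nat_lit 31) (nat_lit 5) (nat_lit 34) (nat_lit 5) (nat_lit 32) (nat_lit 5) (nat_lit 500) (nat_lit 351) (nat_lit 289)) (XT.lf (nat_lit 0) (nat_lit 1019844082) (nat_lit 152) (nat_lit 5448899015) (nat_lit 228) (nat_lit 9698197356) (nat_lit 29) (nat_lit 5) (nat_lit 31) (nat_lit 5) (nat_lit 32) (nat_lit 5) (nat_lit 501) (nat_lit 351) (nat_lit 288))))) (XT.nd (nat_lit 234) (nat_lit 304) (nat_lit 0) (XT.nd (nat_lit 78) (nat_lit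 228) (nat_lit 0) (XT.lf (nat_lit 0) (nat_lit 10067461832) (nat_lit 152) (nat_lit 836001010) (nat_lit 228) (nat_lit 5484572073) (nat_lit 29) (nat_lit 5) (nat_lit 31) (nat_lit 5) (nat_lit 32) (nat_lit 5) (nat_lit 502) (nat_lit 351) (nat_lit 287)) (XT.nd (nat_lit 78) (nat_lit 76) (nat_lit 0) (XT.lf (nat_lit 0) (nat_lit 2627168148) (nat_lit 152) (nat_lit 12805529609) (nat_lit 228) (nat_lit 1180741887) (nat_lit 27) (nat_lit 5) (nat_lit 29) (nat_lit 5) (nat_lit 30) (nat_lit 4) (nat_lit 503) (nat_lit 351) (nat_lit 286)) (XT.lf (nat_lit 0) (nat_lit 3179002625) (nat_lit 228) (nat_lit 5094325243) (nat_lit 76) (nat_lit 8569373952) (nat_lit 26) (nat_lit 5) (nat_lit 29) (nat_lit 5) (nat_lit 27) (nat_lit 5) (nat_lit 504) (nat_lit 351) (nat_lit 285)))) (XT.nd (nat_lit 78) (nat_lit 152) (nat_lit 0) (XT.lf (nat_lit 0) (nat_lit 3956085069) (nat_lit 152) (nat_lit 3644153803) (nat_lit 228) (nat_lit 9476356647) (nat_lit 24) (nat_lit 5) (nat_lit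 26) (nat_lit 5) (nat_lit 27) (nat_lit 5) (nat_lit 505) (nat_lit 351) (nat_lit 284)) (XT.nd (nat_lit 78) (nat_lit 152) (nat_lit 0) (XT.lf (nat_lit 0) (nat_lit 12115823792) (nat_lit 228) (nat_lit 4128701121) (nat_lit 76) (nat_lit 1070528127) (nat_lit 24) (nat_lit 5) (nat_lit 27) (nat_lit 5) (nat_lit 25) (nat_lit 4) (nat_lit 506) (nat_lit 351) (nat_lit 283)) (XT.lf (nat_lit 0) (nat_lit 5022373062) (nat_lit 152) (nat_lit 11721300599) (nat_lit 228) (nat_lit 814171325) (nat_lit 22) (nat_lit 5) (nat_lit 24) (nat_lit 5) (nat_lit 25) (nat_lit 4) (nat_lit 507) (nat_lit 351) (nat_lit 282))))))))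
noncomputable def xc30 : XT := (XT.nd (nat_lit 1638) (nat_lit 5396) (nat_lit 0) (XT.nd (nat_lit 780) (nat_lit 3952) (nat_lit 0) (XT.nd (nat_lit 390) (nat_lit 2432) (nat_lit 0) (XT.nd (nat_lit 156) (nat_lit 1292) (nat_lit 0) (XT.nd (nat_lit 78) (nat_lit 608) (nat_lit 0) (XT.lf (nat_lit 0) (nat_lit 667913225) (nat_lit 684) (nat_lit 2679790831) (nat_lit 0) (nat_lit 667913225) (nat_lit 256) (nat_lit 5) (nat_lit 265) (nat_lit 4) (nat_lit 256) (nat_lit 4) (nat_lit 436) (nat_lit 352) (nat_lit 352)) (XT.lf (nat_lit 0) (nat_lit 820510214) (nat_lit 608) (nat_lit 4244794326) (nat_lit 608) (nat_lit 3025568131) (nat_lit 248) (nat_lit 4) (nat_lit 256) (nat_lit 5) (nat_lit 256) (nat_lit 4) (nat_lit 437) (nat_lit 352) (nat_lit 351))) (XT.nd (nat_lit 78) (nat_lit 1216) (nat_lit 0) (XT.lf (nat_lit 0) (nat_lit 679089358) (nat_lit 684) (nat_lit 1042785489) (nat_lit 76) (nat_lit 6430345144) (nat_lit 247) (nat_lit 5) (nat_lit 256) (nat_lit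 5) (nat_lit 248) (nat_lit 4) (nat_lit 438) (nat_lit 352) (nat_lit 350)) (XT.nd (nat_lit 78) (nat_lit 608) (nat_lit 0) (XT.lf (nat_lit 0) (nat_lit 4393305437) (nat_lit 684) (nat_lit 2944395662) (nat_lit 0) (nat_lit 877199408) (nat_lit 239) (nat_lit 5) (nat_lit 248) (nat_lit 4) (nat_lit 239) (nat_lit 4) (nat_lit 439) (nat_lit 352) (nat_lit 349)) (XT.lf (nat_lit 0) (nat_lit 3395839413) (nat_lit 608) (nat_lit 4762981388) (nat_lit 608) (nat_lit 120498815) (nat_lit 231) (nat_lit 4) (nat_lit 239) (nat_lit 5) (nat_lit 239) (nat_lit 4) (nat_lit 440) (nat_lit 352) (nat_lit 348))))) (XT.nd (nat_lit 156) (nat_lit 1824) (nat_lit 0) (XT.nd (nat_lit 78) (nat_lit 0) (nat_lit 0) (XT.lf (nat_lit 0) (nat_lit 1470516744) (nat_lit 532) (nat_lit 2102399119) (nat_lit 608) (nat_lit 4772336428) (nat_lit 223) (nat_lit 5) (nat_lit 230) (nat_lit 5) (nat_lit 231) (nat_lit 4) (nat_lit 441) (nat_lit 352) (nat_lit 347)) (XT.lf (nat_lit 0) (nat_lit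 7312908457) (nat_lit 608) (nat_lit 482709383) (nat_lit 0) (nat_lit 617407211) (nat_lit 223) (nat_lit 5) (nat_lit 231) (nat_lit 4) (nat_lit 223) (nat_lit 4) (nat_lit 442) (nat_lit 352) (nat_lit 346))) (XT.nd (nat_lit 78) (nat_lit 1140) (nat_lit 0) (XT.lf (nat_lit 0) (nat_lit 2602374619) (nat_lit 684) (nat_lit 2479302332) (nat_lit 76) (nat_lit 3400325205) (nat_lit 214) (nat_lit 5) (nat_lit 223) (nat_lit 5) (nat_lit 215) (nat_lit 4) (nat_lit 443) (nat_lit 352) (nat_lit 345)) (XT.nd (nat_lit 78) (nat_lit 608) (nat_lit 0) (XT.lf (nat_lit 0) (nat_lit 4035361881) (nat_lit 532) (nat_lit 2297140536) (nat_lit 608) (nat_lit 2220367051) (nat_lit 207) (nat_lit 5) (nat_lit 214) (nat_lit 5) (nat_lit 215) (nat_lit 4) (nat_lit 444) (nat_lit 352) (nat_lit 344)) (XT.lf (nat_lit 0) (nat_lit 1464866973) (nat_lit 608) (nat_lit 6606148261) (nat_lit 76) (nat_lit 554511732) (nat_lit 199) (nat_lit 5) (nat_lit 207) (nat_lit 5) (nat_lit 200) (nat_lit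 4) (nat_lit 445) (nat_lit 352) (nat_lit 343)))))) (XT.nd (nat_lit 390) (nat_lit 1900) (nat_lit 0) (XT.nd (nat_lit 156) (nat_lit 1520) (nat_lit 0) (XT.nd (nat_lit 78) (nat_lit 532) (nat_lit 0) (XT.lf (nat_lit 0) (nat_lit 5179439566) (nat_lit 608) (nat_lit 64063157) (nat_lit 76) (nat_lit 3456155219) (nat_lit 199) (nat_lit 5) (nat_lit 207) (nat_lit 5) (nat_lit 200) (nat_lit 4) (nat_lit 446) (nat_lit 352) (nat_lit 342)) (XT.lf (nat_lit 0) (nat_lit 174107773) (nat_lit 532) (nat_lit 2162676531) (nat_lit 76) (nat_lit 6438810353) (nat_lit 192) (nat_lit 5) (nat_lit 199) (nat_lit 5) (nat_lit 193) (nat_lit 5) (nat_lit 447) (nat_lit 352) (nat_lit 341))) (XT.nd (nat_lit 78) (nat_lit 988) (nat_lit 0) (XT.lf (nat_lit 0) (nat_lit 3870345403) (nat_lit 608) (nat_lit 4331954900) (nat_lit 76) (nat_lit 650801151) (nat_lit 185) (nat_lit 5) (nat_lit 193) (nat_lit 5) (nat_lit 186) (nat_lit 4) (nat_lit 448) (nat_lit 352) (nat_lit 340)) (XT.nd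 (nat_lit 78) (nat_lit 532) (nat_lit 0) (XT.lf (nat_lit 0) (nat_lit 2369306676) (nat_lit 456) (nat_lit 5258168328) (nat_lit 532) (nat_lit 1304963582) (nat_lit 179) (nat_lit 5) (nat_lit 185) (nat_lit 5) (nat_lit 186) (nat_lit 4) (nat_lit 449) (nat_lit 352) (nat_lit 339)) (XT.lf (nat_lit 0) (nat_lit 153934701) (nat_lit 456) (nat_lit 2232340878) (nat_lit 532) (nat_lit 6627348483) (nat_lit 172) (nat_lit 5) (nat_lit 178) (nat_lit 5) (nat_lit 179) (nat_lit 5) (nat_lit 450) (nat_lit 352) (nat_lit 338))))) (XT.nd (nat_lit 234) (nat_lit 912) (nat_lit 0) (XT.nd (nat_lit 78) (nat_lit 988) (nat_lit 0) (XT.lf (nat_lit 0) (nat_lit 6125927410) (nat_lit 532) (nat_lit 2098735638) (nat_lit 76) (nat_lit 871774871) (nat_lit 172) (nat_lit 5) (nat_lit 179) (nat_lit 5) (nat_lit 173) (nat_lit 4) (nat_lit 451) (nat_lit 352) (nat_lit 337)) (XT.nd (nat_lit 78) (nat_lit 456) (nat_lit 0) (XT.lf (nat_lit 0) (nat_lit 738426759) (nat_lit 532) (nat_lit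 4422257675) (nat_lit 76) (nat_lit 4020364241) (nat_lit 165) (nat_lit 5) (nat_lit 172) (nat_lit 5) (nat_lit 166) (nat_lit 5) (nat_lit 452) (nat_lit 352) (nat_lit 336)) (XT.lf (nat_lit 0) (nat_lit 2445537851) (nat_lit 456) (nat_lit 2009820174) (nat_lit 532) (nat_lit 4812146465) (nat_lit 159) (nat_lit 5) (nat_lit 165) (nat_lit 5) (nat_lit 166) (nat_lit 5) (nat_lit 453) (nat_lit 352) (nat_lit 335)))) (XT.nd (nat_lit 78) (nat_lit 532) (nat_lit 0) (XT.lf (nat_lit 0) (nat_lit 66341724) (nat_lit 380) (nat_lit 8162323049) (nat_lit 456) (nat_lit 1127400924) (nat_lit 154) (nat_lit 5) (nat_lit 159) (nat_lit 5) (nat_lit 160) (nat_lit 4) (nat_lit 454) (nat_lit 352) (nat_lit 334)) (XT.nd (nat_lit 78) (nat_lit 456) (nat_lit 0) (XT.lf (nat_lit 0) (nat_lit 2600027898) (nat_lit 456) (nat_lit 2373560326) (nat_lit 76) (nat_lit 4472414710) (nat_lit 153) (nat_lit 5) (nat_lit 159) (nat_lit 5) (nat_lit 154) (nat_lit 5) (nat_lit 455) (nat_lit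 352) (nat_lit 333)) (XT.lf (nat_lit 0) (nat_lit 4653837561) (nat_lit 456) (nat_lit 1708500474) (nat_lit 532) (nat_lit 3175759296) (nat_lit 147) (nat_lit 5) (nat_lit 153) (nat_lit 5) (nat_lit 154) (nat_lit 5) (nat_lit 456) (nat_lit 352) (nat_lit 332))))))) (XT.nd (nat_lit 858) (nat_lit 2280) (nat_lit 0) (XT.nd (nat_lit 390) (nat_lit 1444) (nat_lit 0) (XT.nd (nat_lit 156) (nat_lit 1216) (nat_lit 0) (XT.nd (nat_lit 78) (nat_lit 0) (nat_lit 0) (XT.lf (nat_lit 0) (nat_lit 546471461) (nat_lit 456) (nat_lit 7477061368) (nat_lit 76) (nat_lit 1608721293) (nat_lit 141) (nat_lit 5) (nat_lit 147) (nat_lit 5) (nat_lit 142) (nat_lit 5) (nat_lit 457) (nat_lit 352) (nat_lit 331)) (XT.lf (nat_lit 0) (nat_lit 4290727888) (nat_lit 456) (nat_lit 439823284) (nat_lit 76) (nat_lit 4997536059) (nat_lit 141) (nat_lit 5) (nat_lit 147) (nat_lit 5) (nat_lit 142) (nat_lit 5) (nat_lit 458) (nat_lit 352) (nat_lit 330))) (XT.nd (nat_lit 78) (nat_lit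 836) (nat_lit 0) (XT.lf (nat_lit 0) (nat_lit 6746977421) (nat_lit 380) (nat_lit 1353518595) (nat_lit 456) (nat_lit 1725543267) (nat_lit 136) (nat_lit 5) (nat_lit 141) (nat_lit 5) (nat_lit 142) (nat_lit 5) (nat_lit 459) (nat_lit 352) (nat_lit 329)) (XT.nd (nat_lit 78) (nat_lit 380) (nat_lit 0) (XT.lf (nat_lit 0) (nat_lit 2023869244) (nat_lit 456) (nat_lit 5821515539) (nat_lit 76) (nat_lit 2080504583) (nat_lit 130) (nat_lit 5) (nat_lit 136) (nat_lit 5) (nat_lit 131) (nat_lit 5) (nat_lit 460) (nat_lit 352) (nat_lit 328)) (XT.lf (nat_lit 0) (nat_lit 1363012134) (nat_lit 380) (nat_lit 4448123288) (nat_lit 456) (nat_lit 4216667459) (nat_lit 125) (nat_lit 5) (nat_lit 130) (nat_lit 5) (nat_lit 131) (nat_lit 5) (nat_lit 461) (nat_lit 352) (nat_lit 327))))) (XT.nd (nat_lit 234) (nat_lit 684) (nat_lit 0) (XT.nd (nat_lit 78) (nat_lit 760) (nat_lit 0) (XT.lf (nat_lit 0) (nat_lit 8690441797) (nat_lit 380) (nat_lit 970622310) (nat_lit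 456) (nat_lit 470965900) (nat_lit 125) (nat_lit 5) (nat_lit 130) (nat_lit 5) (nat_lit 131) (nat_lit 5) (nat_lit 462) (nat_lit 352) (nat_lit 326)) (XT.nd (nat_lit 78) (nat_lit 380) (nat_lit 0) (XT.lf (nat_lit 0) (nat_lit 3309514599) (nat_lit 380) (nat_lit 4352218253) (nat_lit 76) (nat_lit 2576111089) (nat_lit 120) (nat_lit 5) (nat_lit 125) (nat_lit 5) (nat_lit 121) (nat_lit 5) (nat_lit 463) (nat_lit 352) (nat_lit 325)) (XT.lf (nat_lit 0) (nat_lit 2983693459) (nat_lit 380) (nat_lit 4159994687) (nat_lit 456) (nat_lit 3202348846) (nat_lit 115) (nat_lit 5) (nat_lit 120) (nat_lit 5) (nat_lit 121) (nat_lit 5) (nat_lit 464) (nat_lit 352) (nat_lit 324)))) (XT.nd (nat_lit 78) (nat_lit 608) (nat_lit 0) (XT.lf (nat_lit 0) (nat_lit 568695691) (nat_lit 456) (nat_lit 13908860) (nat_lit 76) (nat_lit 9874156290) (nat_lit 114) (nat_lit 5) (nat_lit 120) (nat_lit 5) (nat_lit 115) (nat_lit 5) (nat_lit 465) (nat_lit 352) (nat_lit 323)) (XT.nd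 (nat_lit 78) (nat_lit 304) (nat_lit 0) (XT.lf (nat_lit 0) (nat_lit 4391071666) (nat_lit 380) (nat_lit 3108895167) (nat_lit 76) (nat_lit 3068945332) (nat_lit 110) (nat_lit 5) (nat_lit 115) (nat_lit 5) (nat_lit 111) (nat_lit 5) (nat_lit 466) (nat_lit 352) (nat_lit 322)) (XT.lf (nat_lit 0) (nat_lit 4375739059) (nat_lit 304) (nat_lit 3896807704) (nat_lit 380) (nat_lit 2411118633) (nat_lit 106) (nat_lit 5) (nat_lit 110) (nat_lit 5) (nat_lit 111) (nat_lit 5) (nat_lit 467) (nat_lit 352) (nat_lit 321)))))) (XT.nd (nat_lit 390) (nat_lit 1216) (nat_lit 0) (XT.nd (nat_lit 156) (nat_lit 684) (nat_lit 0) (XT.nd (nat_lit 78) (nat_lit 0) (nat_lit 0) (XT.lf (nat_lit 0) (nat_lit 1179702265) (nat_lit 304) (nat_lit 211550824) (nat_lit 380) (nat_lit 9409704592) (nat_lit 101) (nat_lit 5) (nat_lit 105) (nat_lit 5) (nat_lit 106) (nat_lit 5) (nat_lit 468) (nat_lit 352) (nat_lit 320)) (XT.lf (nat_lit 0) (nat_lit 5253763575) (nat_lit 380) (nat_lit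 2134985466) (nat_lit 76) (nat_lit 3531211721) (nat_lit 101) (nat_lit 5) (nat_lit 106) (nat_lit 5) (nat_lit 102) (nat_lit 5) (nat_lit 469) (nat_lit 352) (nat_lit 319))) (XT.nd (nat_lit 78) (nat_lit 380) (nat_lit 0) (XT.lf (nat_lit 0) (nat_lit 5494667395) (nat_lit 304) (nat_lit 3687603533) (nat_lit 380) (nat_lit 1859309050) (nat_lit 97) (nat_lit 5) (nat_lit 101) (nat_lit 5) (nat_lit 102) (nat_lit 5) (nat_lit 470) (nat_lit 352) (nat_lit 318)) (XT.nd (nat_lit 78) (nat_lit 0) (nat_lit 0) (XT.lf (nat_lit 0) (nat_lit 1977531180) (nat_lit 380) (nat_lit 9089067947) (nat_lit 76) (nat_lit 99173126) (nat_lit 92) (nat_lit 5) (nat_lit 97) (nat_lit 5) (nat_lit 93) (nat_lit 5) (nat_lit 471) (nat_lit 352) (nat_lit 317)) (XT.lf (nat_lit 0) (nat_lit 5880179709) (nat_lit 380) (nat_lit 1478121638) (nat_lit 76) (nat_lit 3933632244) (nat_lit 92) (nat_lit 5) (nat_lit 97) (nat_lit 5) (nat_lit 93) (nat_lit 5) (nat_lit 472) (nat_lit 352) (nat_lit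 316))))) (XT.nd (nat_lit 234) (nat_lit 608) (nat_lit 0) (XT.nd (nat_lit 78) (nat_lit 304) (nat_lit 0) (XT.lf (nat_lit 0) (nat_lit 6291657776) (nat_lit 304) (nat_lit 3563067109) (nat_lit 380) (nat_lit 1566026565) (nat_lit 88) (nat_lit 5) (nat_lit 92) (nat_lit 5) (nat_lit 93) (nat_lit 5) (nat_lit 473) (nat_lit 352) (nat_lit 315)) (XT.nd (nat_lit 78) (nat_lit 0) (nat_lit 0) (XT.lf (nat_lit 0) (nat_lit 2307954506) (nat_lit 304) (nat_lit 8926351453) (nat_lit 76) (nat_lit 317898531) (nat_lit 84) (nat_lit 5) (nat_lit 88) (nat_lit 5) (nat_lit 85) (nat_lit 5) (nat_lit 474) (nat_lit 352) (nat_lit 314)) (XT.lf (nat_lit 0) (nat_lit 6250057212) (nat_lit 304) (nat_lit 1190654245) (nat_lit 76) (nat_lit 4245145462) (nat_lit 84) (nat_lit 5) (nat_lit 88) (nat_lit 5) (nat_lit 85) (nat_lit 5) (nat_lit 475) (nat_lit 352) (nat_lit 313)))) (XT.nd (nat_lit 78) (nat_lit 304) (nat_lit 0) (XT.lf (nat_lit 0) (nat_lit 6713009546) (nat_lit 304) (nat_lit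 3555840658) (nat_lit 380) (nat_lit 1553384622) (nat_lit 80) (nat_lit 5) (nat_lit 84) (nat_lit 5) (nat_lit 85) (nat_lit 5) (nat_lit 476) (nat_lit 352) (nat_lit 312)) (XT.nd (nat_lit 78) (nat_lit 0) (nat_lit 0) (XT.lf (nat_lit 0) (nat_lit 2358272874) (nat_lit 304) (nat_lit 9188639532) (nat_lit 76) (nat_lit 414461235) (nat_lit 76) (nat_lit 5) (nat_lit 80) (nat_lit 5) (nat_lit 77) (nat_lit 5) (nat_lit 477) (nat_lit 352) (nat_lit 311)) (XT.lf (nat_lit 0) (nat_lit 6340034477) (nat_lit 304) (nat_lit 1330226850) (nat_lit 76) (nat_lit 4432583983) (nat_lit 76) (nat_lit 5) (nat_lit 80) (nat_lit 5) (nat_lit 77) (nat_lit 5) (nat_lit 478) (nat_lit 352) (nat_lit 310))))))))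
noncomputable def xc31 : XT := (XT.nd (nat_lit 1638) (nat_lit 912) (nat_lit 0) (XT.nd (nat_lit 780) (nat_lit 1292) (nat_lit 0) (XT.nd (nat_lit 390) (nat_lit 760) (nat_lit 0) (XT.nd (nat_lit 156) (nat_lit 532) (nat_lit 0) (XT.nd (nat_lit 78) (nat_lit 304) (nat_lit 0) (XT.lf (nat_lit 0) (nat_lit 6699549364) (nat_lit 304) (nat_lit 3700860329) (nat_lit 380) (nat_lit 1846765830) (nat_lit 72) (nat_lit 5) (nat_lit 76) (nat_lit 5) (nat_lit 77) (nat_lit 5) (nat_lit 479) (nat_lit 352) (nat_lit 309)) (XT.lf (nat_lit 0) (nat_lit 2102283280) (nat_lit 304) (nat_lit 9938646034) (nat_lit 76) (nat_lit 353535506) (nat_lit 68) (nat_lit 5) (nat_lit 72) (nat_lit 5) (nat_lit 69) (nat_lit 5) (nat_lit 480) (nat_lit 352) (nat_lit 308))) (XT.nd (nat_lit 78) (nat_lit 532) (nat_lit 0) (XT.lf (nat_lit 0) (nat_lit 6123374032) (nat_lit 304) (nat_lit 1960406750) (nat_lit 76) (nat_lit 4460327378) (nat_lit 68) (nat_lit 5) (nat_lit 72) (nat_lit 5) (nat_lit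 69) (nat_lit 5) (nat_lit 481) (nat_lit 352) (nat_lit 307)) (XT.nd (nat_lit 78) (nat_lit 304) (nat_lit 0) (XT.lf (nat_lit 0) (nat_lit 6185980729) (nat_lit 228) (nat_lit 4035719064) (nat_lit 304) (nat_lit 2475116325) (nat_lit 65) (nat_lit 5) (nat_lit 68) (nat_lit 5) (nat_lit 69) (nat_lit 5) (nat_lit 482) (nat_lit 352) (nat_lit 306)) (XT.lf (nat_lit 0) (nat_lit 1510152543) (nat_lit 304) (nat_lit 11245572050) (nat_lit 76) (nat_lit 97038961) (nat_lit 61) (nat_lit 5) (nat_lit 65) (nat_lit 5) (nat_lit 62) (nat_lit 5) (nat_lit 483) (nat_lit 352) (nat_lit 305))))) (XT.nd (nat_lit 156) (nat_lit 532) (nat_lit 0) (XT.nd (nat_lit 78) (nat_lit 228) (nat_lit 0) (XT.lf (nat_lit 0) (nat_lit 5569651980) (nat_lit 304) (nat_lit 3151377730) (nat_lit 76) (nat_lit 4289927232) (nat_lit 61) (nat_lit 5) (nat_lit 65) (nat_lit 5) (nat_lit 62) (nat_lit 5) (nat_lit 484) (nat_lit 352) (nat_lit 304)) (XT.lf (nat_lit 0) (nat_lit 5100169351) (nat_lit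 228) (nat_lit 4601059192) (nat_lit 304) (nat_lit 3471275319) (nat_lit 58) (nat_lit 5) (nat_lit 61) (nat_lit 5) (nat_lit 62) (nat_lit 5) (nat_lit 485) (nat_lit 352) (nat_lit 303))) (XT.nd (nat_lit 78) (nat_lit 228) (nat_lit 0) (XT.lf (nat_lit 0) (nat_lit 149150605) (nat_lit 228) (nat_lit 401533930) (nat_lit 304) (nat_lit 12786926983) (nat_lit 54) (nat_lit 5) (nat_lit 57) (nat_lit 5) (nat_lit 58) (nat_lit 5) (nat_lit 486) (nat_lit 352) (nat_lit 302)) (XT.nd (nat_lit 78) (nat_lit 228) (nat_lit 0) (XT.lf (nat_lit 0) (nat_lit 4644410825) (nat_lit 304) (nat_lit 4980701687) (nat_lit 76) (nat_lit 3879700740) (nat_lit 54) (nat_lit 5) (nat_lit 58) (nat_lit 5) (nat_lit 55) (nat_lit 5) (nat_lit 487) (nat_lit 352) (nat_lit 301)) (XT.lf (nat_lit 0) (nat_lit 3362357287) (nat_lit 228) (nat_lit 5440998497) (nat_lit 304) (nat_lit 4872343196) (nat_lit 51) (nat_lit 5) (nat_lit 54) (nat_lit 5) (nat_lit 55) (nat_lit 5) (nat_lit 488) (nat_lit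 352) (nat_lit 300)))))) (XT.nd (nat_lit 390) (nat_lit 608) (nat_lit 0) (XT.nd (nat_lit 156) (nat_lit 456) (nat_lit 0) (XT.nd (nat_lit 78) (nat_lit 228) (nat_lit 0) (XT.lf (nat_lit 0) (nat_lit 11869960432) (nat_lit 228) (nat_lit 1168150048) (nat_lit 304) (nat_lit 812046032) (nat_lit 51) (nat_lit 5) (nat_lit 54) (nat_lit 5) (nat_lit 55) (nat_lit 5) (nat_lit 489) (nat_lit 352) (nat_lit 299)) (XT.lf (nat_lit 0) (nat_lit 3308772128) (nat_lit 228) (nat_lit 7534156629) (nat_lit 76) (nat_lit 3184288916) (nat_lit 48) (nat_lit 5) (nat_lit 51) (nat_lit 5) (nat_lit 49) (nat_lit 5) (nat_lit 490) (nat_lit 352) (nat_lit 298))) (XT.nd (nat_lit 78) (nat_lit 228) (nat_lit 0) (XT.lf (nat_lit 0) (nat_lit 884298085) (nat_lit 228) (nat_lit 6603593877) (nat_lit 304) (nat_lit 6720091890) (nat_lit 45) (nat_lit 5) (nat_lit 48) (nat_lit 5) (nat_lit 49) (nat_lit 5) (nat_lit 491) (nat_lit 352) (nat_lit 297)) (XT.nd (nat_lit 78) (nat_lit 228) (nat_lit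 0) (XT.lf (nat_lit 0) (nat_lit 9504535570) (nat_lit 228) (nat_lit 2256851763) (nat_lit 304) (nat_lit 2630768357) (nat_lit 45) (nat_lit 5) (nat_lit 48) (nat_lit 5) (nat_lit 49) (nat_lit 5) (nat_lit 492) (nat_lit 352) (nat_lit 296)) (XT.lf (nat_lit 0) (nat_lit 1519005085) (nat_lit 228) (nat_lit 10906659351) (nat_lit 76) (nat_lit 2154175161) (nat_lit 42) (nat_lit 5) (nat_lit 45) (nat_lit 5) (nat_lit 43) (nat_lit 5) (nat_lit 493) (nat_lit 352) (nat_lit 295))))) (XT.nd (nat_lit 234) (nat_lit 380) (nat_lit 0) (XT.nd (nat_lit 78) (nat_lit 228) (nat_lit 0) (XT.lf (nat_lit 0) (nat_lit 5725439651) (nat_lit 228) (nat_lit 2399803490) (nat_lit 76) (nat_lit 6645514259) (nat_lit 42) (nat_lit 5) (nat_lit 45) (nat_lit 5) (nat_lit 43) (nat_lit 5) (nat_lit 494) (nat_lit 352) (nat_lit 294)) (XT.nd (nat_lit 78) (nat_lit 0) (nat_lit 0) (XT.lf (nat_lit 0) (nat_lit 6293011381) (nat_lit 228) (nat_lit 3725513622) (nat_lit 304) (nat_lit 4946923839)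 (nat_lit 39) (nat_lit 5) (nat_lit 42) (nat_lit 5) (nat_lit 43) (nat_lit 5) (nat_lit 495) (nat_lit 352) (nat_lit 293)) (XT.lf (nat_lit 0) (nat_lit 14380433056) (nat_lit 304) (nat_lit 43410568) (nat_lit 76) (nat_lit 740536884) (nat_lit 39) (nat_lit 5) (nat_lit 43) (nat_lit 5) (nat_lit 40) (nat_lit 4) (nat_lit 496) (nat_lit 352) (nat_lit 292)))) (XT.nd (nat_lit 78) (nat_lit 152) (nat_lit 0) (XT.lf (nat_lit 0) (nat_lit 3461416604) (nat_lit 228) (nat_lit 6606011058) (nat_lit 76) (nat_lit 5298528215) (nat_lit 36) (nat_lit 5) (nat_lit 39) (nat_lit 5) (nat_lit 37) (nat_lit 5) (nat_lit 497) (nat_lit 352) (nat_lit 291)) (XT.nd (nat_lit 78) (nat_lit 0) (nat_lit 0) (XT.lf (nat_lit 0) (nat_lit 2125465368) (nat_lit 152) (nat_lit 5632439380) (nat_lit 228) (nat_lit 7814025381) (nat_lit 34) (nat_lit 5) (nat_lit 36) (nat_lit 5) (nat_lit 37) (nat_lit 5) (nat_lit 498) (nat_lit 352) (nat_lit 290)) (XT.lf (nat_lit 0) (nat_lit 11055933537)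 (nat_lit 152) (nat_lit 1091639713) (nat_lit 228) (nat_lit 3634310788) (nat_lit 34) (nat_lit 5) (nat_lit 36) (nat_lit 5) (nat_lit 37) (nat_lit 5) (nat_lit 499) (nat_lit 352) (nat_lit 289))))))) (XT.nd (nat_lit 54444) (nat_lit 0) (nat_lit 12920) (XT.nd (nat_lit 390) (nat_lit 304) (nat_lit 0) (XT.nd (nat_lit 156) (nat_lit 380) (nat_lit 0) (XT.nd (nat_lit 78) (nat_lit 0) (nat_lit 0) (XT.lf (nat_lit 0) (nat_lit 634136748) (nat_lit 228) (nat_lit 11864175510) (nat_lit 76) (nat_lit 3497380313) (nat_lit 31) (nat_lit 5) (nat_lit 34) (nat_lit 5) (nat_lit 32) (nat_lit 5) (nat_lit 500) (nat_lit 352) (nat_lit 288)) (XT.lf (nat_lit 0) (nat_lit 4942012956) (nat_lit 228) (nat_lit 3078979901) (nat_lit 76) (nat_lit 8192254385) (nat_lit 31) (nat_lit 5) (nat_lit 34) (nat_lit 5) (nat_lit 32) (nat_lit 5) (nat_lit 501) (nat_lit 352) (nat_lit 287))) (XT.nd (nat_lit 78) (nat_lit 228) (nat_lit 0) (XT.lf (nat_lit 0) (nat_lit 5895987071) (nat_lit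 152) (nat_lit 3442580092) (nat_lit 228) (nat_lit 7096540225) (nat_lit 29) (nat_lit 5) (nat_lit 31) (nat_lit 5) (nat_lit 32) (nat_lit 5) (nat_lit 502) (nat_lit 352) (nat_lit 286)) (XT.nd (nat_lit 78) (nat_lit 228) (nat_lit 0) (XT.lf (nat_lit 0) (nat_lit 13816175193) (nat_lit 228) (nat_lit 1640287262) (nat_lit 76) (nat_lit 1205084523) (nat_lit 29) (nat_lit 5) (nat_lit 32) (nat_lit 5) (nat_lit 30) (nat_lit 4) (nat_lit 503) (nat_lit 352) (nat_lit 285)) (XT.lf (nat_lit 0) (nat_lit 1507721358) (nat_lit 228) (nat_lit 9452429037) (nat_lit 76) (nat_lit 5931446817) (nat_lit 26) (nat_lit 5) (nat_lit 29) (nat_lit 5) (nat_lit 27) (nat_lit 5) (nat_lit 504) (nat_lit 352) (nat_lit 284))))) (XT.nd (nat_lit 53820) (nat_lit 0) (nat_lit 17784) (XT.nd (nat_lit 78) (nat_lit 304) (nat_lit 0) (XT.lf (nat_lit 0) (nat_lit 5885997117) (nat_lit 228) (nat_lit 484693702) (nat_lit 76) (nat_lit 10755661493) (nat_lit 26) (nat_lit 5) (nat_lit 29) (nat_lit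 5) (nat_lit 27) (nat_lit 5) (nat_lit 505) (nat_lit 352) (nat_lit 283)) (XT.nd (nat_lit 78) (nat_lit 152) (nat_lit 0) (XT.lf (nat_lit 0) (nat_lit 8715727987) (nat_lit 152) (nat_lit 1658487496) (nat_lit 228) (nat_lit 6991143830) (nat_lit 24) (nat_lit 5) (nat_lit 26) (nat_lit 5) (nat_lit 27) (nat_lit 5) (nat_lit 506) (nat_lit 352) (nat_lit 282)) (XT.lf (nat_lit 0) (nat_lit 421630960) (nat_lit 152) (nat_lit 14522910835) (nat_lit 228) (nat_lit 2664762039) (nat_lit 22) (nat_lit 5) (nat_lit 24) (nat_lit 5) (nat_lit 25) (nat_lit 4) (nat_lit 507) (nat_lit 352) (nat_lit 281)))) (XT.nd (nat_lit 78) (nat_lit 1368) (nat_lit 0) (XT.lf (nat_lit 0) (nat_lit 1573545637) (nat_lit 760) (nat_lit 810799992) (nat_lit 0) (nat_lit 1573545637) (nat_lit 274) (nat_lit 5) (nat_lit 284) (nat_lit 4) (nat_lit 274) (nat_lit 4) (nat_lit 434) (nat_lit 353) (nat_lit 353)) (XT.nd (nat_lit 78) (nat_lit 684) (nat_lit 0) (XT.lf (nat_lit 0) (nat_lit 4480443952)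 (nat_lit 684) (nat_lit 2380549292) (nat_lit 684) (nat_lit 1112066359) (nat_lit 265) (nat_lit 4) (nat_lit 274) (nat_lit 5) (nat_lit 274) (nat_lit 4) (nat_lit 435) (nat_lit 353) (nat_lit 352)) (XT.lf (nat_lit 0) (nat_lit 2546930294) (nat_lit 684) (nat_lit 5400874572) (nat_lit 0) (nat_lit 84093381) (nat_lit 256) (nat_lit 5) (nat_lit 265) (nat_lit 4) (nat_lit 256) (nat_lit 4) (nat_lit 436) (nat_lit 353) (nat_lit 351)))))) (XT.nd (nat_lit 390) (nat_lit 2356) (nat_lit 0) (XT.nd (nat_lit 156) (nat_lit 1824) (nat_lit 0) (XT.nd (nat_lit 78) (nat_lit 76) (nat_lit 0) (XT.lf (nat_lit 0) (nat_lit 737647296) (nat_lit 608) (nat_lit 5506353602) (nat_lit 608) (nat_lit 1848196889) (nat_lit 248) (nat_lit 4) (nat_lit 256) (nat_lit 5) (nat_lit 256) (nat_lit 4) (nat_lit 437) (nat_lit 353) (nat_lit 350)) (XT.lf (nat_lit 0) (nat_lit 1809291959) (nat_lit 684) (nat_lit 1175269109) (nat_lit 76) (nat_lit 5169478462) (nat_lit 247) (nat_lit 5) (nat_lit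 256) (nat_lit 5) (nat_lit 248) (nat_lit 4) (nat_lit 438) (nat_lit 353) (nat_lit 349))) (XT.nd (nat_lit 78) (nat_lit 1216) (nat_lit 0) (XT.lf (nat_lit 0) (nat_lit 5101763188) (nat_lit 608) (nat_lit 383734896) (nat_lit 684) (nat_lit 2731994677) (nat_lit 239) (nat_lit 5) (nat_lit 247) (nat_lit 5) (nat_lit 248) (nat_lit 4) (nat_lit 439) (nat_lit 353) (nat_lit 348)) (XT.nd (nat_lit 78) (nat_lit 532) (nat_lit 0) (XT.lf (nat_lit 0) (nat_lit 921473743) (nat_lit 684) (nat_lit 5104622535) (nat_lit 76) (nat_lit 2256400138) (nat_lit 230) (nat_lit 5) (nat_lit 239) (nat_lit 5) (nat_lit 231) (nat_lit 4) (nat_lit 440) (nat_lit 353) (nat_lit 347)) (XT.lf (nat_lit 0) (nat_lit 1204789780) (nat_lit 532) (nat_lit 3376114797) (nat_lit 608) (nat_lit 3768168731) (nat_lit 223) (nat_lit 5) (nat_lit 230) (nat_lit 5) (nat_lit 231) (nat_lit 4) (nat_lit 441) (nat_lit 353) (nat_lit 346))))) (XT.nd (nat_lit 234) (nat_lit 1140) (nat_lit 0) (XT.nd (nat_lit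 78) (nat_lit 1216) (nat_lit 0) (XT.lf (nat_lit 0) (nat_lit 7628679860) (nat_lit 532) (nat_lit 657818704) (nat_lit 608) (nat_lit 131047038) (nat_lit 223) (nat_lit 5) (nat_lit 230) (nat_lit 5) (nat_lit 231) (nat_lit 4) (nat_lit 442) (nat_lit 353) (nat_lit 345)) (XT.nd (nat_lit 78) (nat_lit 532) (nat_lit 0) (XT.lf (nat_lit 0) (nat_lit 3522160202) (nat_lit 684) (nat_lit 2836849193) (nat_lit 76) (nat_lit 2128130077) (nat_lit 214) (nat_lit 5) (nat_lit 223) (nat_lit 5) (nat_lit 215) (nat_lit 4) (nat_lit 443) (nat_lit 353) (nat_lit 344)) (XT.lf (nat_lit 0) (nat_lit 3632578023) (nat_lit 532) (nat_lit 3587412551) (nat_lit 608) (nat_lit 1338673054) (nat_lit 207) (nat_lit 5) (nat_lit 214) (nat_lit 5) (nat_lit 215) (nat_lit 4) (nat_lit 444) (nat_lit 353) (nat_lit 343)))) (XT.nd (nat_lit 78) (nat_lit 532) (nat_lit 0) (XT.lf (nat_lit 0) (nat_lit 1562663603) (nat_lit 532) (nat_lit 736133282) (nat_lit 608) (nat_lit 6333144232) (nat_lit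 199) (nat_lit 5) (nat_lit 206) (nat_lit 5) (nat_lit 207) (nat_lit 5) (nat_lit 445) (nat_lit 353) (nat_lit 342)) (XT.nd (nat_lit 78) (nat_lit 532) (nat_lit 0) (XT.lf (nat_lit 0) (nat_lit 5979279366) (nat_lit 608) (nat_lit 562770420) (nat_lit 76) (nat_lit 2164714376) (nat_lit 199) (nat_lit 5) (nat_lit 207) (nat_lit 5) (nat_lit 200) (nat_lit 4) (nat_lit 446) (nat_lit 353) (nat_lit 341)) (XT.lf (nat_lit 0) (nat_lit 923943620) (nat_lit 532) (nat_lit 2720798277) (nat_lit 76) (nat_lit 5138515928) (nat_lit 192) (nat_lit 5) (nat_lit 199) (nat_lit 5) (nat_lit 193) (nat_lit 5) (nat_lit 447) (nat_lit 353) (nat_lit 340))))))))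
noncomputable def xc32 : XT := (XT.nd (nat_lit 1638) (nat_lit 4104) (nat_lit 0) (XT.nd (nat_lit 780) (nat_lit 2736) (nat_lit 0) (XT.nd (nat_lit 390) (nat_lit 1824) (nat_lit 0) (XT.nd (nat_lit 156) (nat_lit 1064) (nat_lit 0) (XT.nd (nat_lit 78) (nat_lit 456) (nat_lit 0) (XT.lf (nat_lit 0) (nat_lit 3919751402) (nat_lit 532) (nat_lit 663589571) (nat_lit 608) (nat_lit 4278170130) (nat_lit 185) (nat_lit 5) (nat_lit 192) (nat_lit 5) (nat_lit 193) (nat_lit 5) (nat_lit 448) (nat_lit 353) (nat_lit 339)) (XT.lf (nat_lit 0) (nat_lit 1715294332) (nat_lit 456) (nat_lit 6588228907) (nat_lit 532) (nat_lit 638073427) (nat_lit 179) (nat_lit 5) (nat_lit 185) (nat_lit 5) (nat_lit 186) (nat_lit 4) (nat_lit 449) (nat_lit 353) (nat_lit 338))) (XT.nd (nat_lit 78) (nat_lit 988) (nat_lit 0) (XT.lf (nat_lit 0) (nat_lit 3015131204) (nat_lit 532) (nat_lit 555645319) (nat_lit 76) (nat_lit 5452513900) (nat_lit 178) (nat_lit 5) (nat_lit 185) (nat_lit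 5) (nat_lit 179) (nat_lit 5) (nat_lit 450) (nat_lit 353) (nat_lit 337)) (XT.nd (nat_lit 78) (nat_lit 532) (nat_lit 0) (XT.lf (nat_lit 0) (nat_lit 6246790830) (nat_lit 456) (nat_lit 470608871) (nat_lit 532) (nat_lit 2389461184) (nat_lit 172) (nat_lit 5) (nat_lit 178) (nat_lit 5) (nat_lit 179) (nat_lit 5) (nat_lit 451) (nat_lit 353) (nat_lit 336)) (XT.lf (nat_lit 0) (nat_lit 1275786906) (nat_lit 532) (nat_lit 5245321506) (nat_lit 76) (nat_lit 2671017741) (nat_lit 165) (nat_lit 5) (nat_lit 172) (nat_lit 5) (nat_lit 166) (nat_lit 5) (nat_lit 452) (nat_lit 353) (nat_lit 335))))) (XT.nd (nat_lit 156) (nat_lit 1368) (nat_lit 0) (XT.nd (nat_lit 78) (nat_lit 0) (nat_lit 0) (XT.lf (nat_lit 0) (nat_lit 1571397098) (nat_lit 456) (nat_lit 3388222868) (nat_lit 532) (nat_lit 4319632388) (nat_lit 159) (nat_lit 5) (nat_lit 165) (nat_lit 5) (nat_lit 166) (nat_lit 5) (nat_lit 453) (nat_lit 353) (nat_lit 334)) (XT.lf (nat_lit 0) (nat_lit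 8516061151) (nat_lit 456) (nat_lit 181443591) (nat_lit 532) (nat_lit 671025516) (nat_lit 159) (nat_lit 5) (nat_lit 165) (nat_lit 5) (nat_lit 166) (nat_lit 5) (nat_lit 454) (nat_lit 353) (nat_lit 333))) (XT.nd (nat_lit 78) (nat_lit 912) (nat_lit 0) (XT.lf (nat_lit 0) (nat_lit 3016464974) (nat_lit 456) (nat_lit 3357954709) (nat_lit 76) (nat_lit 3084675544) (nat_lit 153) (nat_lit 5) (nat_lit 159) (nat_lit 5) (nat_lit 154) (nat_lit 5) (nat_lit 455) (nat_lit 353) (nat_lit 332)) (XT.nd (nat_lit 78) (nat_lit 456) (nat_lit 0) (XT.lf (nat_lit 0) (nat_lit 3616693735) (nat_lit 456) (nat_lit 3128750156) (nat_lit 532) (nat_lit 2806420140) (nat_lit 147) (nat_lit 5) (nat_lit 153) (nat_lit 5) (nat_lit 154) (nat_lit 5) (nat_lit 456) (nat_lit 353) (nat_lit 331)) (XT.lf (nat_lit 0) (nat_lit 867932889) (nat_lit 456) (nat_lit 8589203310) (nat_lit 76) (nat_lit 189704817) (nat_lit 141) (nat_lit 5) (nat_lit 147) (nat_lit 5) (nat_lit 142) (nat_lit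 5) (nat_lit 457) (nat_lit 353) (nat_lit 330)))))) (XT.nd (nat_lit 390) (nat_lit 1520) (nat_lit 0) (XT.nd (nat_lit 156) (nat_lit 836) (nat_lit 0) (XT.nd (nat_lit 78) (nat_lit 380) (nat_lit 0) (XT.lf (nat_lit 0) (nat_lit 4585862940) (nat_lit 456) (nat_lit 1591405801) (nat_lit 76) (nat_lit 3565939244) (nat_lit 141) (nat_lit 5) (nat_lit 147) (nat_lit 5) (nat_lit 142) (nat_lit 5) (nat_lit 458) (nat_lit 353) (nat_lit 329)) (XT.lf (nat_lit 0) (nat_lit 5540909881) (nat_lit 380) (nat_lit 2821080423) (nat_lit 456) (nat_lit 1479849735) (nat_lit 136) (nat_lit 5) (nat_lit 141) (nat_lit 5) (nat_lit 142) (nat_lit 5) (nat_lit 459) (nat_lit 353) (nat_lit 328))) (XT.nd (nat_lit 78) (nat_lit 380) (nat_lit 0) (XT.lf (nat_lit 0) (nat_lit 2222649245) (nat_lit 456) (nat_lit 7107314044) (nat_lit 76) (nat_lit 612575663) (nat_lit 130) (nat_lit 5) (nat_lit 136) (nat_lit 5) (nat_lit 131) (nat_lit 5) (nat_lit 460) (nat_lit 353) (nat_lit 327)) (XT.nd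 (nat_lit 78) (nat_lit 0) (nat_lit 0) (XT.lf (nat_lit 0) (nat_lit 20670232) (nat_lit 380) (nat_lit 5954970025) (nat_lit 456) (nat_lit 4069504489) (nat_lit 125) (nat_lit 5) (nat_lit 130) (nat_lit 5) (nat_lit 131) (nat_lit 5) (nat_lit 461) (nat_lit 353) (nat_lit 326)) (XT.lf (nat_lit 0) (nat_lit 7309417727) (nat_lit 380) (nat_lit 2490841445) (nat_lit 456) (nat_lit 349625536) (nat_lit 125) (nat_lit 5) (nat_lit 130) (nat_lit 5) (nat_lit 131) (nat_lit 5) (nat_lit 462) (nat_lit 353) (nat_lit 325))))) (XT.nd (nat_lit 234) (nat_lit 684) (nat_lit 0) (XT.nd (nat_lit 78) (nat_lit 456) (nat_lit 0) (XT.lf (nat_lit 0) (nat_lit 3384805340) (nat_lit 380) (nat_lit 5817776568) (nat_lit 76) (nat_lit 1053996525) (nat_lit 120) (nat_lit 5) (nat_lit 125) (nat_lit 5) (nat_lit 121) (nat_lit 5) (nat_lit 463) (nat_lit 353) (nat_lit 324)) (XT.nd (nat_lit 78) (nat_lit 76) (nat_lit 0) (XT.lf (nat_lit 0) (nat_lit 1459722685) (nat_lit 380) (nat_lit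 5724534266) (nat_lit 456) (nat_lit 3181215230) (nat_lit 115) (nat_lit 5) (nat_lit 120) (nat_lit 5) (nat_lit 121) (nat_lit 5) (nat_lit 464) (nat_lit 353) (nat_lit 323)) (XT.lf (nat_lit 0) (nat_lit 564794906) (nat_lit 456) (nat_lit 1595959572) (nat_lit 76) (nat_lit 8315939966) (nat_lit 114) (nat_lit 5) (nat_lit 120) (nat_lit 5) (nat_lit 115) (nat_lit 5) (nat_lit 465) (nat_lit 353) (nat_lit 322)))) (XT.nd (nat_lit 78) (nat_lit 380) (nat_lit 0) (XT.lf (nat_lit 0) (nat_lit 4341837991) (nat_lit 380) (nat_lit 4760458272) (nat_lit 76) (nat_lit 1487462060) (nat_lit 110) (nat_lit 5) (nat_lit 115) (nat_lit 5) (nat_lit 111) (nat_lit 5) (nat_lit 466) (nat_lit 353) (nat_lit 321)) (XT.nd (nat_lit 78) (nat_lit 76) (nat_lit 0) (XT.lf (nat_lit 0) (nat_lit 2663820574) (nat_lit 304) (nat_lit 5524250804) (nat_lit 380) (nat_lit 2517150792) (nat_lit 106) (nat_lit 5) (nat_lit 110) (nat_lit 5) (nat_lit 111) (nat_lit 5) (nat_lit 467) (nat_lit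 353) (nat_lit 320)) (XT.lf (nat_lit 0) (nat_lit 1254890092) (nat_lit 380) (nat_lit 606535797) (nat_lit 76) (nat_lit 8961742321) (nat_lit 105) (nat_lit 5) (nat_lit 110) (nat_lit 5) (nat_lit 106) (nat_lit 5) (nat_lit 468) (nat_lit 353) (nat_lit 319))))))) (XT.nd (nat_lit 780) (nat_lit 1900) (nat_lit 0) (XT.nd (nat_lit 390) (nat_lit 912) (nat_lit 0) (XT.nd (nat_lit 156) (nat_lit 684) (nat_lit 0) (XT.nd (nat_lit 78) (nat_lit 304) (nat_lit 0) (XT.lf (nat_lit 0) (nat_lit 5078746272) (nat_lit 380) (nat_lit 3978957204) (nat_lit 76) (nat_lit 1885246349) (nat_lit 101) (nat_lit 5) (nat_lit 106) (nat_lit 5) (nat_lit 102) (nat_lit 5) (nat_lit 469) (nat_lit 353) (nat_lit 318)) (XT.lf (nat_lit 0) (nat_lit 3588319735) (nat_lit 304) (nat_lit 5383100314) (nat_lit 380) (nat_lit 2093871005) (nat_lit 97) (nat_lit 5) (nat_lit 101) (nat_lit 5) (nat_lit 102) (nat_lit 5) (nat_lit 470) (nat_lit 353) (nat_lit 317))) (XT.nd (nat_lit 78) (nat_lit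 304) (nat_lit 0) (XT.lf (nat_lit 0) (nat_lit 85263160) (nat_lit 304) (nat_lit 1623799362) (nat_lit 380) (nat_lit 9481196060) (nat_lit 92) (nat_lit 5) (nat_lit 96) (nat_lit 5) (nat_lit 97) (nat_lit 5) (nat_lit 471) (nat_lit 353) (nat_lit 316)) (XT.nd (nat_lit 78) (nat_lit 304) (nat_lit 0) (XT.lf (nat_lit 0) (nat_lit 5577898002) (nat_lit 380) (nat_lit 3521081600) (nat_lit 76) (nat_lit 2218121611) (nat_lit 92) (nat_lit 5) (nat_lit 97) (nat_lit 5) (nat_lit 93) (nat_lit 5) (nat_lit 472) (nat_lit 353) (nat_lit 315)) (XT.lf (nat_lit 0) (nat_lit 4184219887) (nat_lit 304) (nat_lit 5331726419) (nat_lit 380) (nat_lit 1930707637) (nat_lit 88) (nat_lit 5) (nat_lit 92) (nat_lit 5) (nat_lit 93) (nat_lit 5) (nat_lit 473) (nat_lit 353) (nat_lit 314))))) (XT.nd (nat_lit 156) (nat_lit 608) (nat_lit 0) (XT.nd (nat_lit 78) (nat_lit 0) (nat_lit 0) (XT.lf (nat_lit 0) (nat_lit 431300406) (nat_lit 228) (nat_lit 1477643373) (nat_lit 304) (nat_lit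 9669997552) (nat_lit 84) (nat_lit 5) (nat_lit 87) (nat_lit 5) (nat_lit 88) (nat_lit 5) (nat_lit 474) (nat_lit 353) (nat_lit 313)) (XT.lf (nat_lit 0) (nat_lit 5818810527) (nat_lit 304) (nat_lit 3439374475) (nat_lit 76) (nat_lit 2455058128) (nat_lit 84) (nat_lit 5) (nat_lit 88) (nat_lit 5) (nat_lit 85) (nat_lit 5) (nat_lit 475) (nat_lit 353) (nat_lit 312))) (XT.nd (nat_lit 78) (nat_lit 304) (nat_lit 0) (XT.lf (nat_lit 0) (nat_lit 4397623992) (nat_lit 304) (nat_lit 5402748353) (nat_lit 380) (nat_lit 2049997874) (nat_lit 80) (nat_lit 5) (nat_lit 84) (nat_lit 5) (nat_lit 85) (nat_lit 5) (nat_lit 476) (nat_lit 353) (nat_lit 311)) (XT.nd (nat_lit 78) (nat_lit 0) (nat_lit 0) (XT.lf (nat_lit 0) (nat_lit 367275738) (nat_lit 228) (nat_lit 1460387340) (nat_lit 304) (nat_lit 10162725019) (nat_lit 76) (nat_lit 5) (nat_lit 79) (nat_lit 5) (nat_lit 80) (nat_lit 5) (nat_lit 477) (nat_lit 353) (nat_lit 310)) (XT.lf (nat_lit 0) (nat_lit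 5777903503) (nat_lit 304) (nat_lit 3791688427) (nat_lit 76) (nat_lit 2562902556) (nat_lit 76) (nat_lit 5) (nat_lit 80) (nat_lit 5) (nat_lit 77) (nat_lit 5) (nat_lit 478) (nat_lit 353) (nat_lit 309)))))) (XT.nd (nat_lit 390) (nat_lit 988) (nat_lit 0) (XT.nd (nat_lit 156) (nat_lit 532) (nat_lit 0) (XT.nd (nat_lit 78) (nat_lit 76) (nat_lit 0) (XT.lf (nat_lit 0) (nat_lit 4169145644) (nat_lit 304) (nat_lit 5631096785) (nat_lit 380) (nat_lit 2477347207) (nat_lit 72) (nat_lit 5) (nat_lit 76) (nat_lit 5) (nat_lit 77) (nat_lit 5) (nat_lit 479) (nat_lit 353) (nat_lit 308)) (XT.lf (nat_lit 0) (nat_lit 1440125921) (nat_lit 380) (nat_lit 166582883) (nat_lit 76) (nat_lit 10819052982) (nat_lit 71) (nat_lit 5) (nat_lit 76) (nat_lit 5) (nat_lit 72) (nat_lit 5) (nat_lit 480) (nat_lit 353) (nat_lit 307))) (XT.nd (nat_lit 78) (nat_lit 304) (nat_lit 0) (XT.lf (nat_lit 0) (nat_lit 5428221114) (nat_lit 304) (nat_lit 4641816305) (nat_lit 76)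 (nat_lit 2506031587) (nat_lit 68) (nat_lit 5) (nat_lit 72) (nat_lit 5) (nat_lit 69) (nat_lit 5) (nat_lit 481) (nat_lit 353) (nat_lit 306)) (XT.nd (nat_lit 78) (nat_lit 76) (nat_lit 0) (XT.lf (nat_lit 0) (nat_lit 3433258654) (nat_lit 228) (nat_lit 6054375977) (nat_lit 304) (nat_lit 3241924470) (nat_lit 65) (nat_lit 5) (nat_lit 68) (nat_lit 5) (nat_lit 69) (nat_lit 5) (nat_lit 482) (nat_lit 353) (nat_lit 305)) (XT.lf (nat_lit 0) (nat_lit 721327451) (nat_lit 304) (nat_lit 1228992086) (nat_lit 76) (nat_lit 10935931787) (nat_lit 64) (nat_lit 5) (nat_lit 68) (nat_lit 5) (nat_lit 65) (nat_lit 5) (nat_lit 483) (nat_lit 353) (nat_lit 304))))) (XT.nd (nat_lit 234) (nat_lit 532) (nat_lit 0) (XT.nd (nat_lit 78) (nat_lit 228) (nat_lit 0) (XT.lf (nat_lit 0) (nat_lit 4739120869) (nat_lit 304) (nat_lit 6060183958) (nat_lit 76) (nat_lit 2245977672) (nat_lit 61) (nat_lit 5) (nat_lit 65) (nat_lit 5) (nat_lit 62) (nat_lit 5) (nat_lit 484)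 (nat_lit 353) (nat_lit 303)) (XT.nd (nat_lit 78) (nat_lit 0) (nat_lit 0) (XT.lf (nat_lit 0) (nat_lit 2117582417) (nat_lit 228) (nat_lit 6713255740) (nat_lit 304) (nat_lit 4376792042) (nat_lit 58) (nat_lit 5) (nat_lit 61) (nat_lit 5) (nat_lit 62) (nat_lit 5) (nat_lit 485) (nat_lit 353) (nat_lit 302)) (XT.lf (nat_lit 0) (nat_lit 10471491814) (nat_lit 228) (nat_lit 2532526536) (nat_lit 304) (nat_lit 369221049) (nat_lit 58) (nat_lit 5) (nat_lit 61) (nat_lit 5) (nat_lit 62) (nat_lit 5) (nat_lit 486) (nat_lit 353) (nat_lit 301)))) (XT.nd (nat_lit 78) (nat_lit 228) (nat_lit 0) (XT.lf (nat_lit 0) (nat_lit 3675925804) (nat_lit 304) (nat_lit 8124611900) (nat_lit 76) (nat_lit 1741023197) (nat_lit 54) (nat_lit 5) (nat_lit 58) (nat_lit 5) (nat_lit 55) (nat_lit 5) (nat_lit 487) (nat_lit 353) (nat_lit 300)) (XT.nd (nat_lit 78) (nat_lit 0) (nat_lit 0) (XT.lf (nat_lit 0) (nat_lit 142095997) (nat_lit 228) (nat_lit 7651896942) (nat_lit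 304) (nat_lit 5919274566) (nat_lit 51) (nat_lit 5) (nat_lit 54) (nat_lit 5) (nat_lit 55) (nat_lit 5) (nat_lit 488) (nat_lit 353) (nat_lit 299)) (XT.lf (nat_lit 0) (nat_lit 8615806826) (nat_lit 228) (nat_lit 3393142572) (nat_lit 304) (nat_lit 1879174862) (nat_lit 51) (nat_lit 5) (nat_lit 54) (nat_lit 5) (nat_lit 55) (nat_lit 5) (nat_lit 489) (nat_lit 353) (nat_lit 298))))))))
noncomputable def xc33 : XT := (XT.nd (nat_lit 55146) (nat_lit 0) (nat_lit 9272) (XT.nd (nat_lit 780) (nat_lit 760) (nat_lit 0) (XT.nd (nat_lit 390) (nat_lit 608) (nat_lit 0) (XT.nd (nat_lit 156) (nat_lit 456) (nat_lit 0) (XT.nd (nat_lit 78) (nat_lit 0) (nat_lit 0) (XT.lf (nat_lit 0) (nat_lit 2199536541) (nat_lit 228) (nat_lit 10921153401) (nat_lit 76) (nat_lit 945759223) (nat_lit 48) (nat_lit 5) (nat_lit 51) (nat_lit 5) (nat_lit 49) (nat_lit 5) (nat_lit 490) (nat_lit 353) (nat_lit 297)) (XT.lf (nat_lit 0) (nat_lit 6353450133) (nat_lit 228) (nat_lit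 2547867012) (nat_lit 76) (nat_lit 5346405393) (nat_lit 48) (nat_lit 5) (nat_lit 51) (nat_lit 5) (nat_lit 49) (nat_lit 5) (nat_lit 491) (nat_lit 353) (nat_lit 296))) (XT.nd (nat_lit 78) (nat_lit 228) (nat_lit 0) (XT.lf (nat_lit 0) (nat_lit 6005160923) (nat_lit 228) (nat_lit 4585722640) (nat_lit 304) (nat_lit 3841735060) (nat_lit 45) (nat_lit 5) (nat_lit 48) (nat_lit 5) (nat_lit 49) (nat_lit 5) (nat_lit 492) (nat_lit 353) (nat_lit 295)) (XT.nd (nat_lit 78) (nat_lit 0) (nat_lit 0) (XT.lf (nat_lit 0) (nat_lit 75332841) (nat_lit 152) (nat_lit 191912463) (nat_lit 228) (nat_lit 14354350865) (nat_lit 42) (nat_lit 5) (nat_lit 44) (nat_lit 5) (nat_lit 45) (nat_lit 5) (nat_lit 493) (nat_lit 353) (nat_lit 294)) (XT.lf (nat_lit 0) (nat_lit 4453455478) (nat_lit 228) (nat_lit 6071187228) (nat_lit 76) (nat_lit 4288278590) (nat_lit 42) (nat_lit 5) (nat_lit 45) (nat_lit 5) (nat_lit 43) (nat_lit 5) (nat_lit 494) (nat_lit 353) (nat_lit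 293))))) (XT.nd (nat_lit 156) (nat_lit 380) (nat_lit 0) (XT.nd (nat_lit 78) (nat_lit 0) (nat_lit 0) (XT.lf (nat_lit 0) (nat_lit 2540028378) (nat_lit 228) (nat_lit 6163539352) (nat_lit 304) (nat_lit 6304907250) (nat_lit 39) (nat_lit 5) (nat_lit 42) (nat_lit 5) (nat_lit 43) (nat_lit 5) (nat_lit 495) (nat_lit 353) (nat_lit 292)) (XT.lf (nat_lit 0) (nat_lit 11340791125) (nat_lit 228) (nat_lit 1701362448) (nat_lit 304) (nat_lit 2165722240) (nat_lit 39) (nat_lit 5) (nat_lit 42) (nat_lit 5) (nat_lit 43) (nat_lit 5) (nat_lit 496) (nat_lit 353) (nat_lit 291))) (XT.nd (nat_lit 78) (nat_lit 152) (nat_lit 0) (XT.lf (nat_lit 0) (nat_lit 2042885859) (nat_lit 228) (nat_lit 10536796861) (nat_lit 76) (nat_lit 2831048072) (nat_lit 36) (nat_lit 5) (nat_lit 39) (nat_lit 5) (nat_lit 37) (nat_lit 5) (nat_lit 497) (nat_lit 353) (nat_lit 290)) (XT.nd (nat_lit 78) (nat_lit 152) (nat_lit 0) (XT.lf (nat_lit 0) (nat_lit 6307427538) (nat_lit 228)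 (nat_lit 1865042386) (nat_lit 76) (nat_lit 7444876615) (nat_lit 36) (nat_lit 5) (nat_lit 39) (nat_lit 5) (nat_lit 37) (nat_lit 5) (nat_lit 498) (nat_lit 353) (nat_lit 289)) (XT.lf (nat_lit 0) (nat_lit 7009003773) (nat_lit 152) (nat_lit 3657826126) (nat_lit 228) (nat_lit 5161078389) (nat_lit 34) (nat_lit 5) (nat_lit 36) (nat_lit 5) (nat_lit 37) (nat_lit 5) (nat_lit 499) (nat_lit 353) (nat_lit 288)))))) (XT.nd (nat_lit 390) (nat_lit 228) (nat_lit 0) (XT.nd (nat_lit 156) (nat_lit 304) (nat_lit 0) (XT.nd (nat_lit 78) (nat_lit 228) (nat_lit 0) (XT.lf (nat_lit 0) (nat_lit 15096353104) (nat_lit 228) (nat_lit 26046334) (nat_lit 76) (nat_lit 920628163) (nat_lit 34) (nat_lit 5) (nat_lit 37) (nat_lit 5) (nat_lit 35) (nat_lit 4) (nat_lit 500) (nat_lit 353) (nat_lit 287)) (XT.lf (nat_lit 0) (nat_lit 3355741962) (nat_lit 228) (nat_lit 7309396897) (nat_lit 76) (nat_lit 5595926224) (nat_lit 31) (nat_lit 5) (nat_lit 34) (nat_lit 5) (nat_lit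 32) (nat_lit 5) (nat_lit 501) (nat_lit 353) (nat_lit 286))) (XT.nd (nat_lit 78) (nat_lit 152) (nat_lit 0) (XT.lf (nat_lit 0) (nat_lit 1578239516) (nat_lit 152) (nat_lit 6128667029) (nat_lit 228) (nat_lit 8776928801) (nat_lit 29) (nat_lit 5) (nat_lit 31) (nat_lit 5) (nat_lit 32) (nat_lit 5) (nat_lit 502) (nat_lit 353) (nat_lit 285)) (XT.nd (nat_lit 78) (nat_lit 152) (nat_lit 0) (XT.lf (nat_lit 0) (nat_lit 10681098380) (nat_lit 152) (nat_lit 1478274348) (nat_lit 228) (nat_lit 4551407325) (nat_lit 29) (nat_lit 5) (nat_lit 31) (nat_lit 5) (nat_lit 32) (nat_lit 5) (nat_lit 503) (nat_lit 353) (nat_lit 284)) (XT.lf (nat_lit 0) (nat_lit 2980725671) (nat_lit 152) (nat_lit 13726454136) (nat_lit 228) (nat_lit 234962529) (nat_lit 27) (nat_lit 5) (nat_lit 29) (nat_lit 5) (nat_lit 30) (nat_lit 4) (nat_lit 504) (nat_lit 353) (nat_lit 283))))) (XT.nd (nat_lit 53742) (nat_lit 0) (nat_lit 18240) (XT.nd (nat_lit 78) (nat_lit 152) (nat_lit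 0) (XT.lf (nat_lit 0) (nat_lit 4129458570) (nat_lit 228) (nat_lit 5022342279) (nat_lit 76) (nat_lit 8025467971) (nat_lit 26) (nat_lit 5) (nat_lit 29) (nat_lit 5) (nat_lit 27) (nat_lit 5) (nat_lit 505) (nat_lit 353) (nat_lit 282)) (XT.nd (nat_lit 53586) (nat_lit 0) (nat_lit 19760) (XT.lf (nat_lit 0) (nat_lit 4087788563) (nat_lit 152) (nat_lit 4483236567) (nat_lit 228) (nat_lit 8846185832) (nat_lit 24) (nat_lit 5) (nat_lit 26) (nat_lit 5) (nat_lit 27) (nat_lit 5) (nat_lit 506) (nat_lit 353) (nat_lit 281)) (XT.lf (nat_lit 0) (nat_lit 1048978672) (nat_lit 760) (nat_lit 1426811138) (nat_lit 760) (nat_lit 1426811138) (nat_lit 284) (nat_lit 4) (nat_lit 294) (nat_lit 5) (nat_lit 294) (nat_lit 4) (nat_lit 432) (nat_lit 354) (nat_lit 354)))) (XT.nd (nat_lit 78) (nat_lit 760) (nat_lit 0) (XT.lf (nat_lit 0) (nat_lit 231267449) (nat_lit 684) (nat_lit 536552893) (nat_lit 760) (nat_lit 7092476977) (nat_lit 274) (nat_lit 5) (nat_lit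 283) (nat_lit 5) (nat_lit 284) (nat_lit 4) (nat_lit 433) (nat_lit 354) (nat_lit 353)) (XT.nd (nat_lit 78) (nat_lit 760) (nat_lit 0) (XT.lf (nat_lit 0) (nat_lit 4408603585) (nat_lit 760) (nat_lit 1661571788) (nat_lit 0) (nat_lit 1846268060) (nat_lit 274) (nat_lit 5) (nat_lit 284) (nat_lit 4) (nat_lit 274) (nat_lit 4) (nat_lit 434) (nat_lit 354) (nat_lit 352)) (XT.lf (nat_lit 0) (nat_lit 114379702) (nat_lit 760) (nat_lit 3574899244) (nat_lit 76) (nat_lit 4285084863) (nat_lit 264) (nat_lit 5) (nat_lit 274) (nat_lit 5) (nat_lit 265) (nat_lit 4) (nat_lit 435) (nat_lit 354) (nat_lit 351))))))) (XT.nd (nat_lit 858) (nat_lit 4028) (nat_lit 0) (XT.nd (nat_lit 390) (nat_lit 2356) (nat_lit 0) (XT.nd (nat_lit 156) (nat_lit 1368) (nat_lit 0) (XT.nd (nat_lit 78) (nat_lit 608) (nat_lit 0) (XT.lf (nat_lit 0) (nat_lit 2501008651) (nat_lit 608) (nat_lit 1224823571) (nat_lit 684) (nat_lit 4307898292) (nat_lit 256) (nat_lit 5) (nat_lit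 264) (nat_lit 5) (nat_lit 265) (nat_lit 4) (nat_lit 436) (nat_lit 354) (nat_lit 350)) (XT.lf (nat_lit 0) (nat_lit 571888965) (nat_lit 608) (nat_lit 6810740687) (nat_lit 608) (nat_lit 712218885) (nat_lit 248) (nat_lit 4) (nat_lit 256) (nat_lit 5) (nat_lit 256) (nat_lit 4) (nat_lit 437) (nat_lit 354) (nat_lit 349))) (XT.nd (nat_lit 78) (nat_lit 1292) (nat_lit 0) (XT.lf (nat_lit 0) (nat_lit 2899266304) (nat_lit 684) (nat_lit 1390907940) (nat_lit 76) (nat_lit 3867003143) (nat_lit 247) (nat_lit 5) (nat_lit 256) (nat_lit 5) (nat_lit 248) (nat_lit 4) (nat_lit 438) (nat_lit 354) (nat_lit 348)) (XT.nd (nat_lit 78) (nat_lit 684) (nat_lit 0) (XT.lf (nat_lit 0) (nat_lit 4843666602) (nat_lit 608) (nat_lit 1699634893) (nat_lit 684) (nat_lit 1677984812) (nat_lit 239) (nat_lit 5) (nat_lit 247) (nat_lit 5) (nat_lit 248) (nat_lit 4) (nat_lit 439) (nat_lit 354) (nat_lit 347)) (XT.lf (nat_lit 0) (nat_lit 1920703805) (nat_lit 684) (nat_lit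 5412426497) (nat_lit 76) (nat_lit 953853712) (nat_lit 230) (nat_lit 5) (nat_lit 239) (nat_lit 5) (nat_lit 231) (nat_lit 4) (nat_lit 440) (nat_lit 354) (nat_lit 346))))) (XT.nd (nat_lit 234) (nat_lit 1140) (nat_lit 0) (XT.nd (nat_lit 78) (nat_lit 684) (nat_lit 0) (XT.lf (nat_lit 0) (nat_lit 852843293) (nat_lit 532) (nat_lit 4694929603) (nat_lit 608) (nat_lit 2806446807) (nat_lit 223) (nat_lit 5) (nat_lit 230) (nat_lit 5) (nat_lit 231) (nat_lit 4) (nat_lit 441) (nat_lit 354) (nat_lit 345)) (XT.nd (nat_lit 78) (nat_lit 608) (nat_lit 0) (XT.lf (nat_lit 0) (nat_lit 789830402) (nat_lit 608) (nat_lit 1191027690) (nat_lit 76) (nat_lit 6442336153) (nat_lit 222) (nat_lit 5) (nat_lit 230) (nat_lit 5) (nat_lit 223) (nat_lit 5) (nat_lit 442) (nat_lit 354) (nat_lit 344)) (XT.lf (nat_lit 0) (nat_lit 4400383279) (nat_lit 684) (nat_lit 3282254908) (nat_lit 76) (nat_lit 810962520) (nat_lit 214) (nat_lit 5) (nat_lit 223) (nat_lit 5) (nat_lit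 215) (nat_lit 4) (nat_lit 443) (nat_lit 354) (nat_lit 343)))) (XT.nd (nat_lit 78) (nat_lit 608) (nat_lit 0) (XT.lf (nat_lit 0) (nat_lit 3141561543) (nat_lit 532) (nat_lit 4924363823) (nat_lit 608) (nat_lit 499855944) (nat_lit 207) (nat_lit 5) (nat_lit 214) (nat_lit 5) (nat_lit 215) (nat_lit 4) (nat_lit 444) (nat_lit 354) (nat_lit 342)) (XT.nd (nat_lit 78) (nat_lit 0) (nat_lit 0) (XT.lf (nat_lit 0) (nat_lit 1012559844) (nat_lit 532) (nat_lit 2081497991) (nat_lit 608) (nat_lit 5545553406) (nat_lit 199) (nat_lit 5) (nat_lit 206) (nat_lit 5) (nat_lit 207) (nat_lit 5) (nat_lit 445) (nat_lit 354) (nat_lit 341)) (XT.lf (nat_lit 0) (nat_lit 6737069389) (nat_lit 608) (nat_lit 1151375455) (nat_lit 76) (nat_lit 826748926) (nat_lit 199) (nat_lit 5) (nat_lit 207) (nat_lit 5) (nat_lit 200) (nat_lit 4) (nat_lit 446) (nat_lit 354) (nat_lit 340)))))) (XT.nd (nat_lit 390) (nat_lit 1976) (nat_lit 0) (XT.nd (nat_lit 156) (nat_lit 988) (nat_lit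 0) (XT.nd (nat_lit 78) (nat_lit 532) (nat_lit 0) (XT.lf (nat_lit 0) (nat_lit 1630952312) (nat_lit 532) (nat_lit 3370268263) (nat_lit 76) (nat_lit 3791029701) (nat_lit 192) (nat_lit 5) (nat_lit 199) (nat_lit 5) (nat_lit 193) (nat_lit 5) (nat_lit 447) (nat_lit 354) (nat_lit 339)) (XT.lf (nat_lit 0) (nat_lit 3222215516) (nat_lit 532) (nat_lit 2035540892) (nat_lit 608) (nat_lit 3613408497) (nat_lit 185) (nat_lit 5) (nat_lit 192) (nat_lit 5) (nat_lit 193) (nat_lit 5) (nat_lit 448) (nat_lit 354) (nat_lit 338))) (XT.nd (nat_lit 78) (nat_lit 532) (nat_lit 0) (XT.lf (nat_lit 0) (nat_lit 968056698) (nat_lit 456) (nat_lit 7968286923) (nat_lit 532) (nat_lit 15748047) (nat_lit 179) (nat_lit 5) (nat_lit 185) (nat_lit 5) (nat_lit 186) (nat_lit 4) (nat_lit 449) (nat_lit 354) (nat_lit 337)) (XT.nd (nat_lit 78) (nat_lit 456) (nat_lit 0) (XT.lf (nat_lit 0) (nat_lit 3601560655) (nat_lit 532) (nat_lit 1356693820) (nat_lit 76) (nat_lit 4076013756)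 (nat_lit 178) (nat_lit 5) (nat_lit 185) (nat_lit 5) (nat_lit 179) (nat_lit 5) (nat_lit 450) (nat_lit 354) (nat_lit 336)) (XT.lf (nat_lit 0) (nat_lit 5396079890) (nat_lit 456) (nat_lit 1875035667) (nat_lit 532) (nat_lit 1847386172) (nat_lit 172) (nat_lit 5) (nat_lit 178) (nat_lit 5) (nat_lit 179) (nat_lit 5) (nat_lit 451) (nat_lit 354) (nat_lit 335))))) (XT.nd (nat_lit 234) (nat_lit 988) (nat_lit 0) (XT.nd (nat_lit 78) (nat_lit 456) (nat_lit 0) (XT.lf (nat_lit 0) (nat_lit 1768500395) (nat_lit 532) (nat_lit 6164863679) (nat_lit 76) (nat_lit 1271185997) (nat_lit 165) (nat_lit 5) (nat_lit 172) (nat_lit 5) (nat_lit 166) (nat_lit 5) (nat_lit 452) (nat_lit 354) (nat_lit 334)) (XT.nd (nat_lit 78) (nat_lit 0) (nat_lit 0) (XT.lf (nat_lit 0) (nat_lit 600282893) (nat_lit 456) (nat_lit 4818860441) (nat_lit 532) (nat_lit 3873204998) (nat_lit 159) (nat_lit 5) (nat_lit 165) (nat_lit 5) (nat_lit 166) (nat_lit 5) (nat_lit 453) (nat_lit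 354) (nat_lit 333)) (XT.lf (nat_lit 0) (nat_lit 7506366749) (nat_lit 456) (nat_lit 1624053026) (nat_lit 532) (nat_lit 251746723) (nat_lit 159) (nat_lit 5) (nat_lit 165) (nat_lit 5) (nat_lit 166) (nat_lit 5) (nat_lit 454) (nat_lit 354) (nat_lit 332)))) (XT.nd (nat_lit 78) (nat_lit 532) (nat_lit 0) (XT.lf (nat_lit 0) (nat_lit 3387504053) (nat_lit 456) (nat_lit 4441114154) (nat_lit 76) (nat_lit 1644921413) (nat_lit 153) (nat_lit 5) (nat_lit 159) (nat_lit 5) (nat_lit 154) (nat_lit 5) (nat_lit 455) (nat_lit 354) (nat_lit 331)) (XT.nd (nat_lit 78) (nat_lit 76) (nat_lit 0) (XT.lf (nat_lit 0) (nat_lit 2480250102) (nat_lit 456) (nat_lit 4602778444) (nat_lit 532) (nat_lit 2483956594) (nat_lit 147) (nat_lit 5) (nat_lit 153) (nat_lit 5) (nat_lit 154) (nat_lit 5) (nat_lit 456) (nat_lit 354) (nat_lit 330)) (XT.lf (nat_lit 0) (nat_lit 1152053605) (nat_lit 532) (nat_lit 147115227) (nat_lit 76) (nat_lit 8363441025) (nat_lit 146) (nat_lit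 5) (nat_lit 153) (nat_lit 5) (nat_lit 147) (nat_lit 5) (nat_lit 457) (nat_lit 354) (nat_lit 329))))))))
noncomputable def xc34 : XT := (XT.nd (nat_lit 1638) (nat_lit 3192) (nat_lit 0) (XT.nd (nat_lit 780) (nat_lit 2280) (nat_lit 0) (XT.nd (nat_lit 390) (nat_lit 1444) (nat_lit 0) (XT.nd (nat_lit 156) (nat_lit 836) (nat_lit 0) (XT.nd (nat_lit 78) (nat_lit 380) (nat_lit 0) (XT.lf (nat_lit 0) (nat_lit 4834764144) (nat_lit 456) (nat_lit 2844127773) (nat_lit 76) (nat_lit 2080796488) (nat_lit 141) (nat_lit 5) (nat_lit 147) (nat_lit 5) (nat_lit 142) (nat_lit 5) (nat_lit 458) (nat_lit 354) (nat_lit 328)) (XT.lf (nat_lit 0) (nat_lit 4233127052) (nat_lit 380) (nat_lit 4343969372) (nat_lit 456) (nat_lit 1281906984) (nat_lit 136) (nat_lit 5) (nat_lit 141) (nat_lit 5) (nat_lit 142) (nat_lit 5) (nat_lit 459) (nat_lit 354) (nat_lit 327))) (XT.nd (nat_lit 78) (nat_lit 380) (nat_lit 0) (XT.lf (nat_lit 0) (nat_lit 1456972650) (nat_lit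 380) (nat_lit 922792798) (nat_lit 456) (nat_lit 7580682554) (nat_lit 130) (nat_lit 5) (nat_lit 135) (nat_lit 5) (nat_lit 136) (nat_lit 5) (nat_lit 460) (nat_lit 354) (nat_lit 326)) (XT.nd (nat_lit 78) (nat_lit 380) (nat_lit 0) (XT.lf (nat_lit 0) (nat_lit 6101572253) (nat_lit 456) (nat_lit 1407945631) (nat_lit 76) (nat_lit 2554166237) (nat_lit 130) (nat_lit 5) (nat_lit 136) (nat_lit 5) (nat_lit 131) (nat_lit 5) (nat_lit 461) (nat_lit 354) (nat_lit 325)) (XT.lf (nat_lit 0) (nat_lit 5824167313) (nat_lit 380) (nat_lit 4067947554) (nat_lit 456) (nat_lit 276997253) (nat_lit 125) (nat_lit 5) (nat_lit 130) (nat_lit 5) (nat_lit 131) (nat_lit 5) (nat_lit 462) (nat_lit 354) (nat_lit 324))))) (XT.nd (nat_lit 156) (nat_lit 1064) (nat_lit 0) (XT.nd (nat_lit 78) (nat_lit 0) (nat_lit 0) (XT.lf (nat_lit 0) (nat_lit 2882914995) (nat_lit 304) (nat_lit 531989770) (nat_lit 380) (nat_lit 6861729433) (nat_lit 120) (nat_lit 5) (nat_lit 124)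 (nat_lit 5) (nat_lit 125) (nat_lit 5) (nat_lit 463) (nat_lit 354) (nat_lit 323)) (XT.lf (nat_lit 0) (nat_lit 7177084361) (nat_lit 380) (nat_lit 169582317) (nat_lit 76) (nat_lit 3039612844) (nat_lit 120) (nat_lit 5) (nat_lit 125) (nat_lit 5) (nat_lit 121) (nat_lit 5) (nat_lit 464) (nat_lit 354) (nat_lit 322))) (XT.nd (nat_lit 78) (nat_lit 608) (nat_lit 0) (XT.lf (nat_lit 0) (nat_lit 511787081) (nat_lit 456) (nat_lit 3285911322) (nat_lit 76) (nat_lit 6700320809) (nat_lit 114) (nat_lit 5) (nat_lit 120) (nat_lit 5) (nat_lit 115) (nat_lit 5) (nat_lit 465) (nat_lit 354) (nat_lit 321)) (XT.nd (nat_lit 78) (nat_lit 304) (nat_lit 0) (XT.lf (nat_lit 0) (nat_lit 4089367271) (nat_lit 304) (nat_lit 154519478) (nat_lit 380) (nat_lit 6368100992) (nat_lit 110) (nat_lit 5) (nat_lit 114) (nat_lit 5) (nat_lit 115) (nat_lit 5) (nat_lit 466) (nat_lit 354) (nat_lit 320)) (XT.lf (nat_lit 0) (nat_lit 841602844) (nat_lit 304) (nat_lit 7212029278)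 (nat_lit 380) (nat_lit 2674554895) (nat_lit 106) (nat_lit 5) (nat_lit 110) (nat_lit 5) (nat_lit 111) (nat_lit 5) (nat_lit 467) (nat_lit 354) (nat_lit 319)))))) (XT.nd (nat_lit 390) (nat_lit 1216) (nat_lit 0) (XT.nd (nat_lit 156) (nat_lit 684) (nat_lit 0) (XT.nd (nat_lit 78) (nat_lit 304) (nat_lit 0) (XT.lf (nat_lit 0) (nat_lit 1075960118) (nat_lit 380) (nat_lit 2487930938) (nat_lit 76) (nat_lit 7282739693) (nat_lit 105) (nat_lit 5) (nat_lit 110) (nat_lit 5) (nat_lit 106) (nat_lit 5) (nat_lit 468) (nat_lit 354) (nat_lit 318)) (XT.lf (nat_lit 0) (nat_lit 4852846891) (nat_lit 380) (nat_lit 5935303513) (nat_lit 76) (nat_lit 179206689) (nat_lit 101) (nat_lit 5) (nat_lit 106) (nat_lit 5) (nat_lit 102) (nat_lit 5) (nat_lit 469) (nat_lit 354) (nat_lit 317))) (XT.nd (nat_lit 78) (nat_lit 380) (nat_lit 0) (XT.lf (nat_lit 0) (nat_lit 1568846663) (nat_lit 304) (nat_lit 7140565871) (nat_lit 380) (nat_lit 2381013186) (nat_lit 97)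 (nat_lit 5) (nat_lit 101) (nat_lit 5) (nat_lit 102) (nat_lit 5) (nat_lit 470) (nat_lit 354) (nat_lit 316)) (XT.nd (nat_lit 78) (nat_lit 304) (nat_lit 0) (XT.lf (nat_lit 0) (nat_lit 1402194939) (nat_lit 380) (nat_lit 1995308316) (nat_lit 76) (nat_lit 7818402140) (nat_lit 96) (nat_lit 5) (nat_lit 101) (nat_lit 5) (nat_lit 97) (nat_lit 5) (nat_lit 471) (nat_lit 354) (nat_lit 315)) (XT.lf (nat_lit 0) (nat_lit 5223486407) (nat_lit 380) (nat_lit 5679314531) (nat_lit 76) (nat_lit 440902903) (nat_lit 92) (nat_lit 5) (nat_lit 97) (nat_lit 5) (nat_lit 93) (nat_lit 5) (nat_lit 472) (nat_lit 354) (nat_lit 314))))) (XT.nd (nat_lit 234) (nat_lit 608) (nat_lit 0) (XT.nd (nat_lit 78) (nat_lit 304) (nat_lit 0) (XT.lf (nat_lit 0) (nat_lit 1960709036) (nat_lit 304) (nat_lit 7164022514) (nat_lit 380) (nat_lit 2349265922) (nat_lit 88) (nat_lit 5) (nat_lit 92) (nat_lit 5) (nat_lit 93) (nat_lit 5) (nat_lit 473) (nat_lit 354) (nat_lit 313))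 (XT.nd (nat_lit 78) (nat_lit 228) (nat_lit 0) (XT.lf (nat_lit 0) (nat_lit 1470762192) (nat_lit 380) (nat_lit 1858672737) (nat_lit 76) (nat_lit 8277411186) (nat_lit 87) (nat_lit 5) (nat_lit 92) (nat_lit 5) (nat_lit 88) (nat_lit 5) (nat_lit 474) (nat_lit 354) (nat_lit 312)) (XT.lf (nat_lit 0) (nat_lit 5334098635) (nat_lit 304) (nat_lit 5806392334) (nat_lit 76) (nat_lit 601592111) (nat_lit 84) (nat_lit 5) (nat_lit 88) (nat_lit 5) (nat_lit 85) (nat_lit 5) (nat_lit 475) (nat_lit 354) (nat_lit 311)))) (XT.nd (nat_lit 78) (nat_lit 304) (nat_lit 0) (XT.lf (nat_lit 0) (nat_lit 1963089892) (nat_lit 304) (nat_lit 7315001053) (nat_lit 380) (nat_lit 2601875083) (nat_lit 80) (nat_lit 5) (nat_lit 84) (nat_lit 5) (nat_lit 85) (nat_lit 5) (nat_lit 476) (nat_lit 354) (nat_lit 310)) (XT.nd (nat_lit 78) (nat_lit 228) (nat_lit 0) (XT.lf (nat_lit 0) (nat_lit 1258926391) (nat_lit 380) (nat_lit 2133733515) (nat_lit 76) (nat_lit 8627881908)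 (nat_lit 79) (nat_lit 5) (nat_lit 84) (nat_lit 5) (nat_lit 80) (nat_lit 5) (nat_lit 477) (nat_lit 354) (nat_lit 309)) (XT.lf (nat_lit 0) (nat_lit 5160883304) (nat_lit 304) (nat_lit 6374605231) (nat_lit 76) (nat_lit 628129549) (nat_lit 76) (nat_lit 5) (nat_lit 80) (nat_lit 5) (nat_lit 77) (nat_lit 5) (nat_lit 478) (nat_lit 354) (nat_lit 308))))))) (XT.nd (nat_lit 780) (nat_lit 1520) (nat_lit 0) (XT.nd (nat_lit 390) (nat_lit 836) (nat_lit 0) (XT.nd (nat_lit 156) (nat_lit 456) (nat_lit 0) (XT.nd (nat_lit 78) (nat_lit 76) (nat_lit 0) (XT.lf (nat_lit 0) (nat_lit 1516383025) (nat_lit 304) (nat_lit 7628432151) (nat_lit 380) (nat_lit 3164670328) (nat_lit 72) (nat_lit 5) (nat_lit 76) (nat_lit 5) (nat_lit 77) (nat_lit 5) (nat_lit 479) (nat_lit 354) (nat_lit 307)) (XT.lf (nat_lit 0) (nat_lit 740679843) (nat_lit 380) (nat_lit 2881887420) (nat_lit 76) (nat_lit 8835606358) (nat_lit 71) (nat_lit 5) (nat_lit 76) (nat_lit 5) (nat_lit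 72) (nat_lit 5) (nat_lit 480) (nat_lit 354) (nat_lit 306))) (XT.nd (nat_lit 78) (nat_lit 228) (nat_lit 0) (XT.lf (nat_lit 0) (nat_lit 4676664849) (nat_lit 304) (nat_lit 7447978403) (nat_lit 76) (nat_lit 484883683) (nat_lit 68) (nat_lit 5) (nat_lit 72) (nat_lit 5) (nat_lit 69) (nat_lit 5) (nat_lit 481) (nat_lit 354) (nat_lit 305)) (XT.nd (nat_lit 78) (nat_lit 0) (nat_lit 0) (XT.lf (nat_lit 0) (nat_lit 554825708) (nat_lit 228) (nat_lit 8141936758) (nat_lit 304) (nat_lit 4067044696) (nat_lit 65) (nat_lit 5) (nat_lit 68) (nat_lit 5) (nat_lit 69) (nat_lit 5) (nat_lit 482) (nat_lit 354) (nat_lit 304)) (XT.lf (nat_lit 0) (nat_lit 8749374201) (nat_lit 228) (nat_lit 4056567986) (nat_lit 304) (nat_lit 115064758) (nat_lit 65) (nat_lit 5) (nat_lit 68) (nat_lit 5) (nat_lit 69) (nat_lit 5) (nat_lit 483) (nat_lit 354) (nat_lit 303))))) (XT.nd (nat_lit 156) (nat_lit 532) (nat_lit 0) (XT.nd (nat_lit 78) (nat_lit 0) (nat_lit 0) (XT.lf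 (nat_lit 0) (nat_lit 3850580563) (nat_lit 304) (nat_lit 9097186667) (nat_lit 76) (nat_lit 133362570) (nat_lit 61) (nat_lit 5) (nat_lit 65) (nat_lit 5) (nat_lit 62) (nat_lit 5) (nat_lit 484) (nat_lit 354) (nat_lit 302)) (XT.lf (nat_lit 0) (nat_lit 7908456608) (nat_lit 304) (nat_lit 981176630) (nat_lit 76) (nat_lit 4354524610) (nat_lit 61) (nat_lit 5) (nat_lit 65) (nat_lit 5) (nat_lit 62) (nat_lit 5) (nat_lit 485) (nat_lit 354) (nat_lit 301))) (XT.nd (nat_lit 78) (nat_lit 304) (nat_lit 0) (XT.lf (nat_lit 0) (nat_lit 7325933158) (nat_lit 228) (nat_lit 4729330816) (nat_lit 304) (nat_lit 1355033985) (nat_lit 58) (nat_lit 5) (nat_lit 61) (nat_lit 5) (nat_lit 62) (nat_lit 5) (nat_lit 486) (nat_lit 354) (nat_lit 300)) (XT.nd (nat_lit 78) (nat_lit 0) (nat_lit 0) (XT.lf (nat_lit 0) (nat_lit 2176398986) (nat_lit 228) (nat_lit 474413406) (nat_lit 304) (nat_lit 10928982993) (nat_lit 54) (nat_lit 5) (nat_lit 57) (nat_lit 5) (nat_lit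 58) (nat_lit 5) (nat_lit 487) (nat_lit 354) (nat_lit 299)) (XT.lf (nat_lit 0) (nat_lit 6745298552) (nat_lit 304) (nat_lit 3168919722) (nat_lit 76) (nat_lit 3837758590) (nat_lit 54) (nat_lit 5) (nat_lit 58) (nat_lit 5) (nat_lit 55) (nat_lit 5) (nat_lit 488) (nat_lit 354) (nat_lit 298)))))) (XT.nd (nat_lit 390) (nat_lit 836) (nat_lit 0) (XT.nd (nat_lit 156) (nat_lit 380) (nat_lit 0) (XT.nd (nat_lit 78) (nat_lit 76) (nat_lit 0) (XT.lf (nat_lit 0) (nat_lit 5229450067) (nat_lit 228) (nat_lit 5690546748) (nat_lit 304) (nat_lit 3007645158) (nat_lit 51) (nat_lit 5) (nat_lit 54) (nat_lit 5) (nat_lit 55) (nat_lit 5) (nat_lit 489) (nat_lit 354) (nat_lit 297)) (XT.lf (nat_lit 0) (nat_lit 1040023123) (nat_lit 304) (nat_lit 341073655) (nat_lit 76) (nat_lit 12725936570) (nat_lit 50) (nat_lit 5) (nat_lit 54) (nat_lit 5) (nat_lit 51) (nat_lit 5) (nat_lit 490) (nat_lit 354) (nat_lit 296))) (XT.nd (nat_lit 78) (nat_lit 228) (nat_lit 0)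 (XT.lf (nat_lit 0) (nat_lit 5163627823) (nat_lit 228) (nat_lit 6103328676) (nat_lit 76) (nat_lit 3021959407) (nat_lit 48) (nat_lit 5) (nat_lit 51) (nat_lit 5) (nat_lit 49) (nat_lit 5) (nat_lit 491) (nat_lit 354) (nat_lit 295)) (XT.nd (nat_lit 78) (nat_lit 0) (nat_lit 0) (XT.lf (nat_lit 0) (nat_lit 2369753223) (nat_lit 228) (nat_lit 6988995600) (nat_lit 304) (nat_lit 5115912364) (nat_lit 45) (nat_lit 5) (nat_lit 48) (nat_lit 5) (nat_lit 49) (nat_lit 5) (nat_lit 492) (nat_lit 354) (nat_lit 294)) (XT.lf (nat_lit 0) (nat_lit 11030278440) (nat_lit 228) (nat_lit 2610978888) (nat_lit 304) (nat_lit 1022800184) (nat_lit 45) (nat_lit 5) (nat_lit 48) (nat_lit 5) (nat_lit 49) (nat_lit 5) (nat_lit 493) (nat_lit 354) (nat_lit 293))))) (XT.nd (nat_lit 234) (nat_lit 380) (nat_lit 0) (XT.nd (nat_lit 78) (nat_lit 228) (nat_lit 0) (XT.lf (nat_lit 0) (nat_lit 3118447004) (nat_lit 228) (nat_lit 9881402643) (nat_lit 76) (nat_lit 1856836127)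 (nat_lit 42) (nat_lit 5) (nat_lit 45) (nat_lit 5) (nat_lit 43) (nat_lit 5) (nat_lit 494) (nat_lit 354) (nat_lit 292)) (XT.nd (nat_lit 78) (nat_lit 228) (nat_lit 0) (XT.lf (nat_lit 0) (nat_lit 7333826290) (nat_lit 228) (nat_lit 1335243316) (nat_lit 76) (nat_lit 6383867235) (nat_lit 42) (nat_lit 5) (nat_lit 45) (nat_lit 5) (nat_lit 43) (nat_lit 5) (nat_lit 495) (nat_lit 354) (nat_lit 291)) (XT.lf (nat_lit 0) (nat_lit 7416240235) (nat_lit 228) (nat_lit 4229298916) (nat_lit 304) (nat_lit 3607338653) (nat_lit 39) (nat_lit 5) (nat_lit 42) (nat_lit 5) (nat_lit 43) (nat_lit 5) (nat_lit 496) (nat_lit 354) (nat_lit 290)))) (XT.nd (nat_lit 78) (nat_lit 152) (nat_lit 0) (XT.lf (nat_lit 0) (nat_lit 559328500) (nat_lit 228) (nat_lit 14610527484) (nat_lit 76) (nat_lit 287283526) (nat_lit 36) (nat_lit 5) (nat_lit 39) (nat_lit 5) (nat_lit 37) (nat_lit 5) (nat_lit 497) (nat_lit 354) (nat_lit 289)) (XT.nd (nat_lit 78) (nat_lit 152) (nat_lit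 0) (XT.lf (nat_lit 0) (nat_lit 4806079460) (nat_lit 228) (nat_lit 5969994667) (nat_lit 76) (nat_lit 4888039461) (nat_lit 36) (nat_lit 5) (nat_lit 39) (nat_lit 5) (nat_lit 37) (nat_lit 5) (nat_lit 498) (nat_lit 354) (nat_lit 288)) (XT.lf (nat_lit 0) (nat_lit 2818482584) (nat_lit 152) (nat_lit 6302349712) (nat_lit 228) (nat_lit 6754738499) (nat_lit 34) (nat_lit 5) (nat_lit 36) (nat_lit 5) (nat_lit 37) (nat_lit 5) (nat_lit 499) (nat_lit 354) (nat_lit 287))))))))
noncomputable def xc35 : XT := (XT.nd (nat_lit 54990) (nat_lit 0) (nat_lit 6688) (XT.nd (nat_lit 54132) (nat_lit 0) (nat_lit 14288) (XT.nd (nat_lit 390) (nat_lit 228) (nat_lit 0) (XT.nd (nat_lit 156) (nat_lit 152) (nat_lit 0) (XT.nd (nat_lit 78) (nat_lit 228) (nat_lit 0) (XT.lf (nat_lit 0) (nat_lit 11802229887) (nat_lit 152) (nat_lit 1724771536) (nat_lit 228) (nat_lit 2564158186) (nat_lit 34) (nat_lit 5) (nat_lit 36) (nat_lit 5) (nat_lit 37) (nat_lit 5) (nat_lit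 500) (nat_lit 354) (nat_lit 286)) (XT.lf (nat_lit 0) (nat_lit 1702686544) (nat_lit 228) (nat_lit 11686441329) (nat_lit 76) (nat_lit 2921417284) (nat_lit 31) (nat_lit 5) (nat_lit 34) (nat_lit 5) (nat_lit 32) (nat_lit 5) (nat_lit 501) (nat_lit 354) (nat_lit 285))) (XT.nd (nat_lit 78) (nat_lit 152) (nat_lit 0) (XT.lf (nat_lit 0) (nat_lit 6026588520) (nat_lit 228) (nat_lit 2849604324) (nat_lit 76) (nat_lit 7657670108) (nat_lit 31) (nat_lit 5) (nat_lit 34) (nat_lit 5) (nat_lit 32) (nat_lit 5) (nat_lit 502) (nat_lit 354) (nat_lit 284)) (XT.nd (nat_lit 78) (nat_lit 0) (nat_lit 0) (XT.lf (nat_lit 0) (nat_lit 6185482314) (nat_lit 152) (nat_lit 4257948854) (nat_lit 228) (nat_lit 6318091196) (nat_lit 29) (nat_lit 5) (nat_lit 31) (nat_lit 5) (nat_lit 32) (nat_lit 5) (nat_lit 503) (nat_lit 354) (nat_lit 283)) (XT.lf (nat_lit 0) (nat_lit 14937209759) (nat_lit 228) (nat_lit 1616244306) (nat_lit 76) (nat_lit 440513342) (nat_lit 29)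 (nat_lit 5) (nat_lit 32) (nat_lit 5) (nat_lit 30) (nat_lit 4) (nat_lit 504) (nat_lit 354) (nat_lit 282))))) (XT.nd (nat_lit 53508) (nat_lit 0) (nat_lit 19608) (XT.nd (nat_lit 78) (nat_lit 0) (nat_lit 0) (XT.lf (nat_lit 0) (nat_lit 2304248863) (nat_lit 228) (nat_lit 9710524898) (nat_lit 76) (nat_lit 5215104959) (nat_lit 26) (nat_lit 5) (nat_lit 29) (nat_lit 5) (nat_lit 27) (nat_lit 5) (nat_lit 505) (nat_lit 354) (nat_lit 281)) (XT.lf (nat_lit 0) (nat_lit 6702996207) (nat_lit 228) (nat_lit 683020441) (nat_lit 76) (nat_lit 10084662662) (nat_lit 26) (nat_lit 5) (nat_lit 29) (nat_lit 5) (nat_lit 27) (nat_lit 5) (nat_lit 506) (nat_lit 354) (nat_lit 280))) (XT.nd (nat_lit 78) (nat_lit 1520) (nat_lit 0) (XT.lf (nat_lit 0) (nat_lit 2901881151) (nat_lit 760) (nat_lit 473929864) (nat_lit 760) (nat_lit 473929864) (nat_lit 304) (nat_lit 4) (nat_lit 314) (nat_lit 5) (nat_lit 314) (nat_lit 4) (nat_lit 430) (nat_lit 355) (nat_lit 355))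 (XT.nd (nat_lit 78) (nat_lit 760) (nat_lit 0) (XT.lf (nat_lit 0) (nat_lit 2645397394) (nat_lit 760) (nat_lit 3807201313) (nat_lit 0) (nat_lit 1299273158) (nat_lit 294) (nat_lit 5) (nat_lit 304) (nat_lit 4) (nat_lit 294) (nat_lit 4) (nat_lit 431) (nat_lit 355) (nat_lit 354)) (XT.lf (nat_lit 0) (nat_lit 2058787690) (nat_lit 760) (nat_lit 4206465880) (nat_lit 760) (nat_lit 1540612000) (nat_lit 284) (nat_lit 4) (nat_lit 294) (nat_lit 5) (nat_lit 294) (nat_lit 4) (nat_lit 432) (nat_lit 355) (nat_lit 353)))))) (XT.nd (nat_lit 390) (nat_lit 2508) (nat_lit 0) (XT.nd (nat_lit 156) (nat_lit 2052) (nat_lit 0) (XT.nd (nat_lit 78) (nat_lit 0) (nat_lit 0) (XT.lf (nat_lit 0) (nat_lit 142908855) (nat_lit 684) (nat_lit 1888088831) (nat_lit 760) (nat_lit 5830459149) (nat_lit 274) (nat_lit 5) (nat_lit 283) (nat_lit 5) (nat_lit 284) (nat_lit 4) (nat_lit 433) (nat_lit 355) (nat_lit 352)) (XT.lf (nat_lit 0) (nat_lit 5631299703) (nat_lit 760)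 (nat_lit 1781502874) (nat_lit 0) (nat_lit 505623815) (nat_lit 274) (nat_lit 5) (nat_lit 284) (nat_lit 4) (nat_lit 274) (nat_lit 4) (nat_lit 434) (nat_lit 355) (nat_lit 351))) (XT.nd (nat_lit 78) (nat_lit 1292) (nat_lit 0) (XT.lf (nat_lit 0) (nat_lit 1286730613) (nat_lit 760) (nat_lit 3745706243) (nat_lit 76) (nat_lit 2944411728) (nat_lit 264) (nat_lit 5) (nat_lit 274) (nat_lit 5) (nat_lit 265) (nat_lit 4) (nat_lit 435) (nat_lit 355) (nat_lit 350)) (XT.nd (nat_lit 78) (nat_lit 684) (nat_lit 0) (XT.lf (nat_lit 0) (nat_lit 2288827785) (nat_lit 608) (nat_lit 2577038386) (nat_lit 684) (nat_lit 3171008477) (nat_lit 256) (nat_lit 5) (nat_lit 264) (nat_lit 5) (nat_lit 265) (nat_lit 4) (nat_lit 436) (nat_lit 355) (nat_lit 349)) (XT.lf (nat_lit 0) (nat_lit 320251498) (nat_lit 608) (nat_lit 57915246) (nat_lit 684) (nat_lit 7720601988) (nat_lit 247) (nat_lit 5) (nat_lit 255) (nat_lit 5) (nat_lit 256) (nat_lit 5) (nat_lit 437) (nat_lit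 355) (nat_lit 348))))) (XT.nd (nat_lit 234) (nat_lit 1216) (nat_lit 0) (XT.nd (nat_lit 78) (nat_lit 1292) (nat_lit 0) (XT.lf (nat_lit 0) (nat_lit 3949439833) (nat_lit 684) (nat_lit 1689786547) (nat_lit 76) (nat_lit 2522408414) (nat_lit 247) (nat_lit 5) (nat_lit 256) (nat_lit 5) (nat_lit 248) (nat_lit 4) (nat_lit 438) (nat_lit 355) (nat_lit 347)) (XT.nd (nat_lit 78) (nat_lit 684) (nat_lit 0) (XT.lf (nat_lit 0) (nat_lit 4502000342) (nat_lit 608) (nat_lit 3059359104) (nat_lit 684) (nat_lit 665038608) (nat_lit 239) (nat_lit 5) (nat_lit 247) (nat_lit 5) (nat_lit 248) (nat_lit 4) (nat_lit 439) (nat_lit 355) (nat_lit 346)) (XT.lf (nat_lit 0) (nat_lit 2483934866) (nat_lit 608) (nat_lit 397811580) (nat_lit 684) (nat_lit 5411001715) (nat_lit 230) (nat_lit 5) (nat_lit 238) (nat_lit 5) (nat_lit 239) (nat_lit 5) (nat_lit 440) (nat_lit 355) (nat_lit 345)))) (XT.nd (nat_lit 78) (nat_lit 684) (nat_lit 0) (XT.lf (nat_lit 0) (nat_lit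 414539265) (nat_lit 532) (nat_lit 6059360722) (nat_lit 608) (nat_lit 1886793510) (nat_lit 223) (nat_lit 5) (nat_lit 230) (nat_lit 5) (nat_lit 231) (nat_lit 4) (nat_lit 441) (nat_lit 355) (nat_lit 344)) (XT.nd (nat_lit 78) (nat_lit 608) (nat_lit 0) (XT.lf (nat_lit 0) (nat_lit 1668059505) (nat_lit 608) (nat_lit 1680674327) (nat_lit 76) (nat_lit 5081412938) (nat_lit 222) (nat_lit 5) (nat_lit 230) (nat_lit 5) (nat_lit 223) (nat_lit 5) (nat_lit 442) (nat_lit 355) (nat_lit 343)) (XT.lf (nat_lit 0) (nat_lit 4681992091) (nat_lit 608) (nat_lit 559025726) (nat_lit 684) (nat_lit 3260297986) (nat_lit 214) (nat_lit 5) (nat_lit 222) (nat_lit 5) (nat_lit 223) (nat_lit 5) (nat_lit 443) (nat_lit 355) (nat_lit 342))))))) (XT.nd (nat_lit 858) (nat_lit 3344) (nat_lit 0) (XT.nd (nat_lit 390) (nat_lit 2052) (nat_lit 0) (XT.nd (nat_lit 156) (nat_lit 1064) (nat_lit 0) (XT.nd (nat_lit 78) (nat_lit 532) (nat_lit 0) (XT.lf (nat_lit 0) (nat_lit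 292525713) (nat_lit 608) (nat_lit 6014029931) (nat_lit 76) (nat_lit 2267631173) (nat_lit 206) (nat_lit 5) (nat_lit 214) (nat_lit 5) (nat_lit 207) (nat_lit 5) (nat_lit 444) (nat_lit 355) (nat_lit 341)) (XT.lf (nat_lit 0) (nat_lit 372572768) (nat_lit 532) (nat_lit 3474740820) (nat_lit 608) (nat_lit 4801299722) (nat_lit 199) (nat_lit 5) (nat_lit 206) (nat_lit 5) (nat_lit 207) (nat_lit 5) (nat_lit 445) (nat_lit 355) (nat_lit 340))) (XT.nd (nat_lit 78) (nat_lit 1064) (nat_lit 0) (XT.lf (nat_lit 0) (nat_lit 6891094729) (nat_lit 532) (nat_lit 565684879) (nat_lit 608) (nat_lit 1268097010) (nat_lit 199) (nat_lit 5) (nat_lit 206) (nat_lit 5) (nat_lit 207) (nat_lit 5) (nat_lit 446) (nat_lit 355) (nat_lit 339)) (XT.nd (nat_lit 78) (nat_lit 532) (nat_lit 0) (XT.lf (nat_lit 0) (nat_lit 2295411107) (nat_lit 532) (nat_lit 4111341184) (nat_lit 76) (nat_lit 2395823247) (nat_lit 192) (nat_lit 5) (nat_lit 199) (nat_lit 5) (nat_lit 193)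 (nat_lit 5) (nat_lit 447) (nat_lit 355) (nat_lit 338)) (XT.lf (nat_lit 0) (nat_lit 2432632572) (nat_lit 532) (nat_lit 3456942025) (nat_lit 608) (nat_lit 2992577679) (nat_lit 185) (nat_lit 5) (nat_lit 192) (nat_lit 5) (nat_lit 193) (nat_lit 5) (nat_lit 448) (nat_lit 355) (nat_lit 337))))) (XT.nd (nat_lit 234) (nat_lit 1064) (nat_lit 0) (XT.nd (nat_lit 78) (nat_lit 456) (nat_lit 0) (XT.lf (nat_lit 0) (nat_lit 120682899) (nat_lit 456) (nat_lit 437037147) (nat_lit 532) (nat_lit 8406077900) (nat_lit 178) (nat_lit 5) (nat_lit 184) (nat_lit 5) (nat_lit 185) (nat_lit 5) (nat_lit 449) (nat_lit 355) (nat_lit 336)) (XT.nd (nat_lit 78) (nat_lit 456) (nat_lit 0) (XT.lf (nat_lit 0) (nat_lit 4144794460) (nat_lit 532) (nat_lit 2251543820) (nat_lit 76) (nat_lit 2650243502) (nat_lit 178) (nat_lit 5) (nat_lit 185) (nat_lit 5) (nat_lit 179) (nat_lit 5) (nat_lit 450) (nat_lit 355) (nat_lit 335)) (XT.lf (nat_lit 0) (nat_lit 4451085916) (nat_lit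 456) (nat_lit 3330470844) (nat_lit 532) (nat_lit 1349922962) (nat_lit 172) (nat_lit 5) (nat_lit 178) (nat_lit 5) (nat_lit 179) (nat_lit 5) (nat_lit 451) (nat_lit 355) (nat_lit 334)))) (XT.nd (nat_lit 78) (nat_lit 532) (nat_lit 0) (XT.lf (nat_lit 0) (nat_lit 2035874755) (nat_lit 456) (nat_lit 182067794) (nat_lit 532) (nat_lit 7000359109) (nat_lit 165) (nat_lit 5) (nat_lit 171) (nat_lit 5) (nat_lit 172) (nat_lit 5) (nat_lit 452) (nat_lit 355) (nat_lit 333)) (XT.nd (nat_lit 78) (nat_lit 532) (nat_lit 0) (XT.lf (nat_lit 0) (nat_lit 5837148103) (nat_lit 532) (nat_lit 462045255) (nat_lit 76) (nat_lit 3007543405) (nat_lit 165) (nat_lit 5) (nat_lit 172) (nat_lit 5) (nat_lit 166) (nat_lit 5) (nat_lit 453) (nat_lit 355) (nat_lit 332)) (XT.lf (nat_lit 0) (nat_lit 120550720) (nat_lit 532) (nat_lit 2997863951) (nat_lit 76) (nat_lit 6278714860) (nat_lit 158) (nat_lit 5) (nat_lit 165) (nat_lit 5) (nat_lit 159) (nat_lit 5) (nat_lit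 454) (nat_lit 355) (nat_lit 331)))))) (XT.nd (nat_lit 390) (nat_lit 1672) (nat_lit 0) (XT.nd (nat_lit 156) (nat_lit 836) (nat_lit 0) (XT.nd (nat_lit 78) (nat_lit 456) (nat_lit 0) (XT.lf (nat_lit 0) (nat_lit 3713290640) (nat_lit 456) (nat_lit 5623463429) (nat_lit 76) (nat_lit 152587705) (nat_lit 153) (nat_lit 5) (nat_lit 159) (nat_lit 5) (nat_lit 154) (nat_lit 5) (nat_lit 455) (nat_lit 355) (nat_lit 330)) (XT.lf (nat_lit 0) (nat_lit 1244060999) (nat_lit 456) (nat_lit 6131163388) (nat_lit 532) (nat_lit 2208242201) (nat_lit 147) (nat_lit 5) (nat_lit 153) (nat_lit 5) (nat_lit 154) (nat_lit 5) (nat_lit 456) (nat_lit 355) (nat_lit 329))) (XT.nd (nat_lit 78) (nat_lit 760) (nat_lit 0) (XT.lf (nat_lit 0) (nat_lit 1398671116) (nat_lit 532) (nat_lit 1439301155) (nat_lit 76) (nat_lit 6841600038) (nat_lit 146) (nat_lit 5) (nat_lit 153) (nat_lit 5) (nat_lit 147) (nat_lit 5) (nat_lit 457) (nat_lit 355) (nat_lit 328)) (XT.nd (nat_lit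 78) (nat_lit 380) (nat_lit 0) (XT.lf (nat_lit 0) (nat_lit 5037529109) (nat_lit 456) (nat_lit 4198480465) (nat_lit 76) (nat_lit 541525381) (nat_lit 141) (nat_lit 5) (nat_lit 147) (nat_lit 5) (nat_lit 142) (nat_lit 5) (nat_lit 458) (nat_lit 355) (nat_lit 327)) (XT.lf (nat_lit 0) (nat_lit 2823116079) (nat_lit 380) (nat_lit 5922782653) (nat_lit 456) (nat_lit 1131637390) (nat_lit 136) (nat_lit 5) (nat_lit 141) (nat_lit 5) (nat_lit 142) (nat_lit 5) (nat_lit 459) (nat_lit 355) (nat_lit 326))))) (XT.nd (nat_lit 234) (nat_lit 836) (nat_lit 0) (XT.nd (nat_lit 78) (nat_lit 760) (nat_lit 0) (XT.lf (nat_lit 0) (nat_lit 2493874036) (nat_lit 456) (nat_lit 28911664) (nat_lit 76) (nat_lit 7456865946) (nat_lit 135) (nat_lit 5) (nat_lit 141) (nat_lit 5) (nat_lit 136) (nat_lit 5) (nat_lit 460) (nat_lit 355) (nat_lit 325)) (XT.nd (nat_lit 78) (nat_lit 380) (nat_lit 0) (XT.lf (nat_lit 0) (nat_lit 6180533883) (nat_lit 456) (nat_lit 2940458458)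 (nat_lit 76) (nat_lit 962604873) (nat_lit 130) (nat_lit 5) (nat_lit 136) (nat_lit 5) (nat_lit 131) (nat_lit 5) (nat_lit 461) (nat_lit 355) (nat_lit 324)) (XT.lf (nat_lit 0) (nat_lit 4234108104) (nat_lit 380) (nat_lit 5702559110) (nat_lit 456) (nat_lit 253052568) (nat_lit 125) (nat_lit 5) (nat_lit 130) (nat_lit 5) (nat_lit 131) (nat_lit 5) (nat_lit 462) (nat_lit 355) (nat_lit 323)))) (XT.nd (nat_lit 78) (nat_lit 456) (nat_lit 0) (XT.lf (nat_lit 0) (nat_lit 1213420599) (nat_lit 304) (nat_lit 2190261263) (nat_lit 380) (nat_lit 6894260096) (nat_lit 120) (nat_lit 5) (nat_lit 124) (nat_lit 5) (nat_lit 125) (nat_lit 5) (nat_lit 463) (nat_lit 355) (nat_lit 322)) (XT.nd (nat_lit 78) (nat_lit 456) (nat_lit 0) (XT.lf (nat_lit 0) (nat_lit 7131231626) (nat_lit 380) (nat_lit 1886551082) (nat_lit 76) (nat_lit 1390503185) (nat_lit 120) (nat_lit 5) (nat_lit 125) (nat_lit 5) (nat_lit 121) (nat_lit 5) (nat_lit 464) (nat_lit 355) (nat_lit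 321)) (XT.lf (nat_lit 0) (nat_lit 409651428) (nat_lit 456) (nat_lit 5084426836) (nat_lit 76) (nat_lit 5026665244) (nat_lit 114) (nat_lit 5) (nat_lit 120) (nat_lit 5) (nat_lit 115) (nat_lit 5) (nat_lit 465) (nat_lit 355) (nat_lit 320))))))))
noncomputable def xc36 : XT := (XT.nd (nat_lit 1638) (nat_lit 2432) (nat_lit 0) (XT.nd (nat_lit 780) (nat_lit 1976) (nat_lit 0) (XT.nd (nat_lit 390) (nat_lit 1292) (nat_lit 0) (XT.nd (nat_lit 156) (nat_lit 684) (nat_lit 0) (XT.nd (nat_lit 78) (nat_lit 0) (nat_lit 0) (XT.lf (nat_lit 0) (nat_lit 2230181693) (nat_lit 304) (nat_lit 1876169047) (nat_lit 380) (nat_lit 6529074972) (nat_lit 110) (nat_lit 5) (nat_lit 114) (nat_lit 5) (nat_lit 115) (nat_lit 5) (nat_lit 466) (nat_lit 355) (nat_lit 319)) (XT.lf (nat_lit 0) (nat_lit 7876263850) (nat_lit 380) (nat_lit 1077311818) (nat_lit 76) (nat_lit 1798851521) (nat_lit 110) (nat_lit 5) (nat_lit 115) (nat_lit 5) (nat_lit 111) (nat_lit 5) (nat_lit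 467) (nat_lit 355) (nat_lit 318))) (XT.nd (nat_lit 78) (nat_lit 304) (nat_lit 0) (XT.lf (nat_lit 0) (nat_lit 846733588) (nat_lit 380) (nat_lit 4480692966) (nat_lit 76) (nat_lit 5544081132) (nat_lit 105) (nat_lit 5) (nat_lit 110) (nat_lit 5) (nat_lit 106) (nat_lit 5) (nat_lit 468) (nat_lit 355) (nat_lit 317)) (XT.nd (nat_lit 78) (nat_lit 0) (nat_lit 0) (XT.lf (nat_lit 0) (nat_lit 2977747078) (nat_lit 304) (nat_lit 1608674347) (nat_lit 380) (nat_lit 6406561821) (nat_lit 101) (nat_lit 5) (nat_lit 105) (nat_lit 5) (nat_lit 106) (nat_lit 5) (nat_lit 469) (nat_lit 355) (nat_lit 316)) (XT.lf (nat_lit 0) (nat_lit 8399811029) (nat_lit 380) (nat_lit 557139675) (nat_lit 76) (nat_lit 2159969824) (nat_lit 101) (nat_lit 5) (nat_lit 106) (nat_lit 5) (nat_lit 102) (nat_lit 5) (nat_lit 470) (nat_lit 355) (nat_lit 315))))) (XT.nd (nat_lit 156) (nat_lit 608) (nat_lit 0) (XT.nd (nat_lit 78) (nat_lit 304) (nat_lit 0) (XT.lf (nat_lit 0) (nat_lit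 1044328945) (nat_lit 380) (nat_lit 4189050443) (nat_lit 76) (nat_lit 6009592945) (nat_lit 96) (nat_lit 5) (nat_lit 101) (nat_lit 5) (nat_lit 97) (nat_lit 5) (nat_lit 471) (nat_lit 355) (nat_lit 314)) (XT.lf (nat_lit 0) (nat_lit 3408698959) (nat_lit 304) (nat_lit 1417309091) (nat_lit 380) (nat_lit 6545559814) (nat_lit 92) (nat_lit 5) (nat_lit 96) (nat_lit 5) (nat_lit 97) (nat_lit 5) (nat_lit 472) (nat_lit 355) (nat_lit 313))) (XT.nd (nat_lit 78) (nat_lit 608) (nat_lit 0) (XT.lf (nat_lit 0) (nat_lit 8683392768) (nat_lit 380) (nat_lit 374766294) (nat_lit 76) (nat_lit 2444584384) (nat_lit 92) (nat_lit 5) (nat_lit 97) (nat_lit 5) (nat_lit 93) (nat_lit 5) (nat_lit 473) (nat_lit 355) (nat_lit 312)) (XT.nd (nat_lit 78) (nat_lit 228) (nat_lit 0) (XT.lf (nat_lit 0) (nat_lit 982485804) (nat_lit 380) (nat_lit 4260325704) (nat_lit 76) (nat_lit 6393333321) (nat_lit 87) (nat_lit 5) (nat_lit 92) (nat_lit 5) (nat_lit 88) (nat_lit 5)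 (nat_lit 474) (nat_lit 355) (nat_lit 311)) (XT.lf (nat_lit 0) (nat_lit 3470921099) (nat_lit 228) (nat_lit 1333468112) (nat_lit 304) (nat_lit 6967825711) (nat_lit 84) (nat_lit 5) (nat_lit 87) (nat_lit 5) (nat_lit 88) (nat_lit 5) (nat_lit 475) (nat_lit 355) (nat_lit 310)))))) (XT.nd (nat_lit 390) (nat_lit 1064) (nat_lit 0) (XT.nd (nat_lit 156) (nat_lit 532) (nat_lit 0) (XT.nd (nat_lit 78) (nat_lit 380) (nat_lit 0) (XT.lf (nat_lit 0) (nat_lit 8705641908) (nat_lit 304) (nat_lit 583789219) (nat_lit 76) (nat_lit 2621525917) (nat_lit 84) (nat_lit 5) (nat_lit 88) (nat_lit 5) (nat_lit 85) (nat_lit 5) (nat_lit 476) (nat_lit 355) (nat_lit 309)) (XT.lf (nat_lit 0) (nat_lit 638247299) (nat_lit 380) (nat_lit 4750442019) (nat_lit 76) (nat_lit 6663429147) (nat_lit 79) (nat_lit 5) (nat_lit 84) (nat_lit 5) (nat_lit 80) (nat_lit 5) (nat_lit 477) (nat_lit 355) (nat_lit 308))) (XT.nd (nat_lit 78) (nat_lit 304) (nat_lit 0) (XT.lf (nat_lit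 0) (nat_lit 3107027985) (nat_lit 228) (nat_lit 1390733490) (nat_lit 304) (nat_lit 7698286244) (nat_lit 76) (nat_lit 5) (nat_lit 79) (nat_lit 5) (nat_lit 80) (nat_lit 5) (nat_lit 478) (nat_lit 355) (nat_lit 307)) (XT.nd (nat_lit 78) (nat_lit 304) (nat_lit 0) (XT.lf (nat_lit 0) (nat_lit 8442050224) (nat_lit 304) (nat_lit 1243256565) (nat_lit 76) (nat_lit 2657405260) (nat_lit 76) (nat_lit 5) (nat_lit 80) (nat_lit 5) (nat_lit 77) (nat_lit 5) (nat_lit 479) (nat_lit 355) (nat_lit 306)) (XT.lf (nat_lit 0) (nat_lit 6770953819) (nat_lit 304) (nat_lit 5706313436) (nat_lit 380) (nat_lit 14809578) (nat_lit 72) (nat_lit 5) (nat_lit 76) (nat_lit 5) (nat_lit 77) (nat_lit 5) (nat_lit 480) (nat_lit 355) (nat_lit 305))))) (XT.nd (nat_lit 234) (nat_lit 532) (nat_lit 0) (XT.nd (nat_lit 78) (nat_lit 228) (nat_lit 0) (XT.lf (nat_lit 0) (nat_lit 2253738493) (nat_lit 228) (nat_lit 1625224046) (nat_lit 304) (nat_lit 8765321486) (nat_lit 68)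 (nat_lit 5) (nat_lit 71) (nat_lit 5) (nat_lit 72) (nat_lit 5) (nat_lit 481) (nat_lit 355) (nat_lit 304)) (XT.nd (nat_lit 78) (nat_lit 228) (nat_lit 0) (XT.lf (nat_lit 0) (nat_lit 7864683081) (nat_lit 304) (nat_lit 2418308852) (nat_lit 76) (nat_lit 2516263601) (nat_lit 68) (nat_lit 5) (nat_lit 72) (nat_lit 5) (nat_lit 69) (nat_lit 5) (nat_lit 482) (nat_lit 355) (nat_lit 303)) (XT.lf (nat_lit 0) (nat_lit 5710481413) (nat_lit 228) (nat_lit 6227426953) (nat_lit 304) (nat_lit 1019269706) (nat_lit 65) (nat_lit 5) (nat_lit 68) (nat_lit 5) (nat_lit 69) (nat_lit 5) (nat_lit 483) (nat_lit 355) (nat_lit 302)))) (XT.nd (nat_lit 78) (nat_lit 228) (nat_lit 0) (XT.lf (nat_lit 0) (nat_lit 841187897) (nat_lit 228) (nat_lit 2075973312) (nat_lit 304) (nat_lit 10201082119) (nat_lit 61) (nat_lit 5) (nat_lit 64) (nat_lit 5) (nat_lit 65) (nat_lit 5) (nat_lit 484) (nat_lit 355) (nat_lit 301)) (XT.nd (nat_lit 78) (nat_lit 228) (nat_lit 0) (XT.lf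 (nat_lit 0) (nat_lit 6941860137) (nat_lit 304) (nat_lit 4180884314) (nat_lit 76) (nat_lit 2159193924) (nat_lit 61) (nat_lit 5) (nat_lit 65) (nat_lit 5) (nat_lit 62) (nat_lit 5) (nat_lit 485) (nat_lit 355) (nat_lit 300)) (XT.lf (nat_lit 0) (nat_lit 4050604723) (nat_lit 228) (nat_lit 6997484898) (nat_lit 304) (nat_lit 2400803810) (nat_lit 58) (nat_lit 5) (nat_lit 61) (nat_lit 5) (nat_lit 62) (nat_lit 5) (nat_lit 486) (nat_lit 355) (nat_lit 299))))))) (XT.nd (nat_lit 780) (nat_lit 988) (nat_lit 0) (XT.nd (nat_lit 390) (nat_lit 684) (nat_lit 0) (XT.nd (nat_lit 156) (nat_lit 456) (nat_lit 0) (XT.nd (nat_lit 78) (nat_lit 228) (nat_lit 0) (XT.lf (nat_lit 0) (nat_lit 1585353053) (nat_lit 304) (nat_lit 1191987688) (nat_lit 76) (nat_lit 10841857267) (nat_lit 57) (nat_lit 5) (nat_lit 61) (nat_lit 5) (nat_lit 58) (nat_lit 5) (nat_lit 487) (nat_lit 355) (nat_lit 298)) (XT.lf (nat_lit 0) (nat_lit 5637798822) (nat_lit 304) (nat_lit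 6610494658) (nat_lit 76) (nat_lit 1543930008) (nat_lit 54) (nat_lit 5) (nat_lit 58) (nat_lit 5) (nat_lit 55) (nat_lit 5) (nat_lit 488) (nat_lit 355) (nat_lit 297))) (XT.nd (nat_lit 78) (nat_lit 228) (nat_lit 0) (XT.lf (nat_lit 0) (nat_lit 1709562175) (nat_lit 228) (nat_lit 8061263520) (nat_lit 304) (nat_lit 4197899458) (nat_lit 51) (nat_lit 5) (nat_lit 54) (nat_lit 5) (nat_lit 55) (nat_lit 5) (nat_lit 489) (nat_lit 355) (nat_lit 296)) (XT.nd (nat_lit 78) (nat_lit 228) (nat_lit 0) (XT.lf (nat_lit 0) (nat_lit 10221113415) (nat_lit 228) (nat_lit 3772073818) (nat_lit 304) (nat_lit 155442333) (nat_lit 51) (nat_lit 5) (nat_lit 54) (nat_lit 5) (nat_lit 55) (nat_lit 5) (nat_lit 490) (nat_lit 355) (nat_lit 295)) (XT.lf (nat_lit 0) (nat_lit 3912216986) (nat_lit 228) (nat_lit 9795078933) (nat_lit 76) (nat_lit 624399020) (nat_lit 48) (nat_lit 5) (nat_lit 51) (nat_lit 5) (nat_lit 49) (nat_lit 5) (nat_lit 491) (nat_lit 355) (nat_lit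 294))))) (XT.nd (nat_lit 156) (nat_lit 456) (nat_lit 0) (XT.nd (nat_lit 78) (nat_lit 228) (nat_lit 0) (XT.lf (nat_lit 0) (nat_lit 8073609868) (nat_lit 228) (nat_lit 1384711096) (nat_lit 76) (nat_lit 5059796710) (nat_lit 48) (nat_lit 5) (nat_lit 51) (nat_lit 5) (nat_lit 49) (nat_lit 5) (nat_lit 492) (nat_lit 355) (nat_lit 293)) (XT.lf (nat_lit 0) (nat_lit 7225985835) (nat_lit 228) (nat_lit 5102836096) (nat_lit 304) (nat_lit 2379240830) (nat_lit 45) (nat_lit 5) (nat_lit 48) (nat_lit 5) (nat_lit 49) (nat_lit 5) (nat_lit 493) (nat_lit 355) (nat_lit 292))) (XT.nd (nat_lit 78) (nat_lit 228) (nat_lit 0) (XT.lf (nat_lit 0) (nat_lit 1065763787) (nat_lit 152) (nat_lit 658401691) (nat_lit 228) (nat_lit 13177817025) (nat_lit 42) (nat_lit 5) (nat_lit 44) (nat_lit 5) (nat_lit 45) (nat_lit 5) (nat_lit 494) (nat_lit 355) (nat_lit 291)) (XT.nd (nat_lit 78) (nat_lit 228) (nat_lit 0) (XT.lf (nat_lit 0) (nat_lit 5917386241) (nat_lit 228)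 (nat_lit 5316905542) (nat_lit 76) (nat_lit 3864387627) (nat_lit 42) (nat_lit 5) (nat_lit 45) (nat_lit 5) (nat_lit 43) (nat_lit 5) (nat_lit 495) (nat_lit 355) (nat_lit 290)) (XT.lf (nat_lit 0) (nat_lit 3350747624) (nat_lit 228) (nat_lit 6834422523) (nat_lit 304) (nat_lit 5114331425) (nat_lit 39) (nat_lit 5) (nat_lit 42) (nat_lit 5) (nat_lit 43) (nat_lit 5) (nat_lit 496) (nat_lit 355) (nat_lit 289)))))) (XT.nd (nat_lit 390) (nat_lit 456) (nat_lit 0) (XT.nd (nat_lit 156) (nat_lit 304) (nat_lit 0) (XT.nd (nat_lit 78) (nat_lit 228) (nat_lit 0) (XT.lf (nat_lit 0) (nat_lit 12202599729) (nat_lit 228) (nat_lit 2336269340) (nat_lit 304) (nat_lit 965465105) (nat_lit 39) (nat_lit 5) (nat_lit 42) (nat_lit 5) (nat_lit 43) (nat_lit 5) (nat_lit 497) (nat_lit 355) (nat_lit 288)) (XT.lf (nat_lit 0) (nat_lit 3239471819) (nat_lit 228) (nat_lit 10218877121) (nat_lit 76) (nat_lit 2254176674) (nat_lit 36) (nat_lit 5) (nat_lit 39) (nat_lit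 5) (nat_lit 37) (nat_lit 5) (nat_lit 498) (nat_lit 355) (nat_lit 287))) (XT.nd (nat_lit 78) (nat_lit 304) (nat_lit 0) (XT.lf (nat_lit 0) (nat_lit 7518825313) (nat_lit 228) (nat_lit 1497374058) (nat_lit 76) (nat_lit 6908493856) (nat_lit 36) (nat_lit 5) (nat_lit 39) (nat_lit 5) (nat_lit 37) (nat_lit 5) (nat_lit 499) (nat_lit 355) (nat_lit 286)) (XT.nd (nat_lit 78) (nat_lit 152) (nat_lit 0) (XT.lf (nat_lit 0) (nat_lit 7436662077) (nat_lit 152) (nat_lit 4461523067) (nat_lit 228) (nat_lit 4242635454) (nat_lit 34) (nat_lit 5) (nat_lit 36) (nat_lit 5) (nat_lit 37) (nat_lit 5) (nat_lit 500) (nat_lit 355) (nat_lit 285)) (XT.lf (nat_lit 0) (nat_lit 149757725) (nat_lit 152) (nat_lit 16193908675) (nat_lit 228) (nat_lit 18038127) (nat_lit 32) (nat_lit 5) (nat_lit 34) (nat_lit 5) (nat_lit 35) (nat_lit 4) (nat_lit 501) (nat_lit 355) (nat_lit 284))))) (XT.nd (nat_lit 234) (nat_lit 228) (nat_lit 0) (XT.nd (nat_lit 78) (nat_lit 152) (nat_lit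 0) (XT.lf (nat_lit 0) (nat_lit 4289418430) (nat_lit 228) (nat_lit 7404502989) (nat_lit 76) (nat_lit 4891439120) (nat_lit 31) (nat_lit 5) (nat_lit 34) (nat_lit 5) (nat_lit 32) (nat_lit 5) (nat_lit 502) (nat_lit 355) (nat_lit 283)) (XT.nd (nat_lit 78) (nat_lit 0) (nat_lit 0) (XT.lf (nat_lit 0) (nat_lit 1540735283) (nat_lit 152) (nat_lit 7119014124) (nat_lit 228) (nat_lit 8154202967) (nat_lit 29) (nat_lit 5) (nat_lit 31) (nat_lit 5) (nat_lit 32) (nat_lit 5) (nat_lit 503) (nat_lit 355) (nat_lit 282)) (XT.lf (nat_lit 0) (nat_lit 10707190814) (nat_lit 152) (nat_lit 2427218254) (nat_lit 228) (nat_lit 3912372877) (nat_lit 29) (nat_lit 5) (nat_lit 31) (nat_lit 5) (nat_lit 32) (nat_lit 5) (nat_lit 504) (nat_lit 355) (nat_lit 281)))) (XT.nd (nat_lit 78) (nat_lit 0) (nat_lit 0) (XT.lf (nat_lit 0) (nat_lit 409652228) (nat_lit 228) (nat_lit 14551080062) (nat_lit 76) (nat_lit 2323470352) (nat_lit 26) (nat_lit 5) (nat_lit 29) (nat_lit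 5) (nat_lit 27) (nat_lit 5) (nat_lit 505) (nat_lit 355) (nat_lit 280)) (XT.nd (nat_lit 53274) (nat_lit 0) (nat_lit 21888) (XT.lf (nat_lit 0) (nat_lit 4792440179) (nat_lit 228) (nat_lit 5552021000) (nat_lit 76) (nat_lit 7180863265) (nat_lit 26) (nat_lit 5) (nat_lit 29) (nat_lit 5) (nat_lit 27) (nat_lit 5) (nat_lit 506) (nat_lit 355) (nat_lit 279)) (XT.lf (nat_lit 0) (nat_lit 474682495) (nat_lit 836) (nat_lit 2849772088) (nat_lit 0) (nat_lit 474682495) (nat_lit 314) (nat_lit 5) (nat_lit 325) (nat_lit 4) (nat_lit 314) (nat_lit 4) (nat_lit 428) (nat_lit 356) (nat_lit 356))))))))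
noncomputable def xc37 : XT := (XT.nd (nat_lit 1638) (nat_lit 6688) (nat_lit 0) (XT.nd (nat_lit 780) (nat_lit 4788) (nat_lit 0) (XT.nd (nat_lit 390) (nat_lit 2736) (nat_lit 0) (XT.nd (nat_lit 156) (nat_lit 1520) (nat_lit 0) (XT.nd (nat_lit 78) (nat_lit 836) (nat_lit 0) (XT.lf (nat_lit 0) (nat_lit 4512631621) (nat_lit 836) (nat_lit 23662812) (nat_lit 0) (nat_lit 3112123965) (nat_lit 314) (nat_lit 5) (nat_lit 325) (nat_lit 4) (nat_lit 314) (nat_lit 4) (nat_lit 429) (nat_lit 356) (nat_lit 355)) (XT.lf (nat_lit 0) (nat_lit 414162299) (nat_lit 836) (nat_lit 1936946531) (nat_lit 76) (nat_lit 5348980091) (nat_lit 303) (nat_lit 5) (nat_lit 314) (nat_lit 5) (nat_lit 304) (nat_lit 4) (nat_lit 430) (nat_lit 356) (nat_lit 354))) (XT.nd (nat_lit 78) (nat_lit 836) (nat_lit 0) (XT.lf (nat_lit 0) (nat_lit 3867342196) (nat_lit 684) (nat_lit 86628501) (nat_lit 760) (nat_lit 3799220256) (nat_lit 294) (nat_lit 5) (nat_lit 303) (nat_lit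 5) (nat_lit 304) (nat_lit 4) (nat_lit 431) (nat_lit 356) (nat_lit 353)) (XT.nd (nat_lit 78) (nat_lit 76) (nat_lit 0) (XT.lf (nat_lit 0) (nat_lit 1941263363) (nat_lit 760) (nat_lit 5599673334) (nat_lit 760) (nat_lit 266920140) (nat_lit 284) (nat_lit 4) (nat_lit 294) (nat_lit 5) (nat_lit 294) (nat_lit 4) (nat_lit 432) (nat_lit 356) (nat_lit 352)) (XT.lf (nat_lit 0) (nat_lit 3255646317) (nat_lit 836) (nat_lit 24830566) (nat_lit 76) (nat_lit 4583466417) (nat_lit 283) (nat_lit 5) (nat_lit 294) (nat_lit 5) (nat_lit 284) (nat_lit 4) (nat_lit 433) (nat_lit 356) (nat_lit 351))))) (XT.nd (nat_lit 156) (nat_lit 1292) (nat_lit 0) (XT.nd (nat_lit 78) (nat_lit 760) (nat_lit 0) (XT.lf (nat_lit 0) (nat_lit 5934417740) (nat_lit 684) (nat_lit 887000371) (nat_lit 760) (nat_lit 1100198896) (nat_lit 274) (nat_lit 5) (nat_lit 283) (nat_lit 5) (nat_lit 284) (nat_lit 4) (nat_lit 434) (nat_lit 356) (nat_lit 350)) (XT.lf (nat_lit 0) (nat_lit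 2420031069) (nat_lit 760) (nat_lit 3997883357) (nat_lit 76) (nat_lit 1562744878) (nat_lit 264) (nat_lit 5) (nat_lit 274) (nat_lit 5) (nat_lit 265) (nat_lit 4) (nat_lit 435) (nat_lit 356) (nat_lit 349))) (XT.nd (nat_lit 78) (nat_lit 684) (nat_lit 0) (XT.lf (nat_lit 0) (nat_lit 1994962181) (nat_lit 608) (nat_lit 3971963786) (nat_lit 684) (nat_lit 2074416981) (nat_lit 256) (nat_lit 5) (nat_lit 264) (nat_lit 5) (nat_lit 265) (nat_lit 4) (nat_lit 436) (nat_lit 356) (nat_lit 348)) (XT.nd (nat_lit 78) (nat_lit 608) (nat_lit 0) (XT.lf (nat_lit 0) (nat_lit 1428104094) (nat_lit 684) (nat_lit 27401356) (nat_lit 76) (nat_lit 6648246900) (nat_lit 255) (nat_lit 5) (nat_lit 264) (nat_lit 5) (nat_lit 256) (nat_lit 5) (nat_lit 437) (nat_lit 356) (nat_lit 347)) (XT.lf (nat_lit 0) (nat_lit 4960224379) (nat_lit 684) (nat_lit 2072022137) (nat_lit 76) (nat_lit 1135166980) (nat_lit 247) (nat_lit 5) (nat_lit 256) (nat_lit 5) (nat_lit 248) (nat_lit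 4) (nat_lit 438) (nat_lit 356) (nat_lit 346)))))) (XT.nd (nat_lit 390) (nat_lit 2280) (nat_lit 0) (XT.nd (nat_lit 156) (nat_lit 1216) (nat_lit 0) (XT.nd (nat_lit 78) (nat_lit 608) (nat_lit 0) (XT.lf (nat_lit 0) (nat_lit 303211644) (nat_lit 684) (nat_lit 4158194400) (nat_lit 76) (nat_lit 3771384066) (nat_lit 238) (nat_lit 5) (nat_lit 247) (nat_lit 5) (nat_lit 239) (nat_lit 5) (nat_lit 439) (nat_lit 356) (nat_lit 345)) (XT.lf (nat_lit 0) (nat_lit 2001789281) (nat_lit 608) (nat_lit 1807173048) (nat_lit 684) (nat_lit 4490749111) (nat_lit 230) (nat_lit 5) (nat_lit 238) (nat_lit 5) (nat_lit 239) (nat_lit 5) (nat_lit 440) (nat_lit 356) (nat_lit 344))) (XT.nd (nat_lit 78) (nat_lit 1216) (nat_lit 0) (XT.lf (nat_lit 0) (nat_lit 7360365138) (nat_lit 684) (nat_lit 108847660) (nat_lit 76) (nat_lit 899270105) (nat_lit 230) (nat_lit 5) (nat_lit 239) (nat_lit 5) (nat_lit 231) (nat_lit 4) (nat_lit 441) (nat_lit 356) (nat_lit 343)) (XT.nd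 (nat_lit 78) (nat_lit 608) (nat_lit 0) (XT.lf (nat_lit 0) (nat_lit 2505703377) (nat_lit 608) (nat_lit 2257146827) (nat_lit 76) (nat_lit 3675572713) (nat_lit 222) (nat_lit 5) (nat_lit 230) (nat_lit 5) (nat_lit 223) (nat_lit 5) (nat_lit 442) (nat_lit 356) (nat_lit 342)) (XT.lf (nat_lit 0) (nat_lit 4059974350) (nat_lit 608) (nat_lit 1986426204) (nat_lit 684) (nat_lit 2463847092) (nat_lit 214) (nat_lit 5) (nat_lit 222) (nat_lit 5) (nat_lit 223) (nat_lit 5) (nat_lit 443) (nat_lit 356) (nat_lit 341))))) (XT.nd (nat_lit 234) (nat_lit 1140) (nat_lit 0) (XT.nd (nat_lit 78) (nat_lit 532) (nat_lit 0) (XT.lf (nat_lit 0) (nat_lit 1036669921) (nat_lit 608) (nat_lit 6696793303) (nat_lit 76) (nat_lit 850399301) (nat_lit 206) (nat_lit 5) (nat_lit 214) (nat_lit 5) (nat_lit 207) (nat_lit 5) (nat_lit 444) (nat_lit 356) (nat_lit 340)) (XT.nd (nat_lit 78) (nat_lit 532) (nat_lit 0) (XT.lf (nat_lit 0) (nat_lit 4561180980) (nat_lit 608) (nat_lit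 352859286) (nat_lit 76) (nat_lit 3744864157) (nat_lit 206) (nat_lit 5) (nat_lit 214) (nat_lit 5) (nat_lit 207) (nat_lit 5) (nat_lit 445) (nat_lit 356) (nat_lit 339)) (XT.lf (nat_lit 0) (nat_lit 6123439604) (nat_lit 532) (nat_lit 2017330664) (nat_lit 608) (nat_lit 595004672) (nat_lit 199) (nat_lit 5) (nat_lit 206) (nat_lit 5) (nat_lit 207) (nat_lit 5) (nat_lit 446) (nat_lit 356) (nat_lit 338)))) (XT.nd (nat_lit 78) (nat_lit 608) (nat_lit 0) (XT.lf (nat_lit 0) (nat_lit 2917580578) (nat_lit 532) (nat_lit 4944307655) (nat_lit 76) (nat_lit 952349426) (nat_lit 192) (nat_lit 5) (nat_lit 199) (nat_lit 5) (nat_lit 193) (nat_lit 5) (nat_lit 447) (nat_lit 356) (nat_lit 337)) (XT.nd (nat_lit 78) (nat_lit 76) (nat_lit 0) (XT.lf (nat_lit 0) (nat_lit 1550692930) (nat_lit 532) (nat_lit 4928350384) (nat_lit 608) (nat_lit 2415434215) (nat_lit 185) (nat_lit 5) (nat_lit 192) (nat_lit 5) (nat_lit 193) (nat_lit 5) (nat_lit 448) (nat_lit 356)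 (nat_lit 336)) (XT.lf (nat_lit 0) (nat_lit 1099638089) (nat_lit 608) (nat_lit 816438134) (nat_lit 76) (nat_lit 7060533915) (nat_lit 184) (nat_lit 5) (nat_lit 192) (nat_lit 5) (nat_lit 185) (nat_lit 5) (nat_lit 449) (nat_lit 356) (nat_lit 335))))))) (XT.nd (nat_lit 858) (nat_lit 2964) (nat_lit 0) (XT.nd (nat_lit 390) (nat_lit 1748) (nat_lit 0) (XT.nd (nat_lit 156) (nat_lit 1064) (nat_lit 0) (XT.nd (nat_lit 78) (nat_lit 456) (nat_lit 0) (XT.lf (nat_lit 0) (nat_lit 4645045651) (nat_lit 532) (nat_lit 3240546241) (nat_lit 76) (nat_lit 1174644011) (nat_lit 178) (nat_lit 5) (nat_lit 185) (nat_lit 5) (nat_lit 179) (nat_lit 5) (nat_lit 450) (nat_lit 356) (nat_lit 334)) (XT.lf (nat_lit 0) (nat_lit 3411438323) (nat_lit 456) (nat_lit 4837485160) (nat_lit 532) (nat_lit 896876472) (nat_lit 172) (nat_lit 5) (nat_lit 178) (nat_lit 5) (nat_lit 179) (nat_lit 5) (nat_lit 451) (nat_lit 356) (nat_lit 333))) (XT.nd (nat_lit 78) (nat_lit 532)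 (nat_lit 0) (XT.lf (nat_lit 0) (nat_lit 927305694) (nat_lit 456) (nat_lit 1704503923) (nat_lit 532) (nat_lit 6601426293) (nat_lit 165) (nat_lit 5) (nat_lit 171) (nat_lit 5) (nat_lit 172) (nat_lit 5) (nat_lit 452) (nat_lit 356) (nat_lit 332)) (XT.nd (nat_lit 78) (nat_lit 532) (nat_lit 0) (XT.lf (nat_lit 0) (nat_lit 6215289478) (nat_lit 532) (nat_lit 1612991560) (nat_lit 76) (nat_lit 1494112426) (nat_lit 165) (nat_lit 5) (nat_lit 172) (nat_lit 5) (nat_lit 166) (nat_lit 5) (nat_lit 453) (nat_lit 356) (nat_lit 331)) (XT.lf (nat_lit 0) (nat_lit 444907030) (nat_lit 532) (nat_lit 4219649155) (nat_lit 76) (nat_lit 4748858092) (nat_lit 158) (nat_lit 5) (nat_lit 165) (nat_lit 5) (nat_lit 159) (nat_lit 5) (nat_lit 454) (nat_lit 356) (nat_lit 330))))) (XT.nd (nat_lit 234) (nat_lit 836) (nat_lit 0) (XT.nd (nat_lit 78) (nat_lit 532) (nat_lit 0) (XT.lf (nat_lit 0) (nat_lit 2591694524) (nat_lit 380) (nat_lit 1411421857) (nat_lit 456)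 (nat_lit 5503208230) (nat_lit 153) (nat_lit 5) (nat_lit 158) (nat_lit 5) (nat_lit 159) (nat_lit 5) (nat_lit 455) (nat_lit 356) (nat_lit 329)) (XT.nd (nat_lit 78) (nat_lit 532) (nat_lit 0) (XT.lf (nat_lit 0) (nat_lit 7622745653) (nat_lit 456) (nat_lit 91147057) (nat_lit 76) (nat_lit 1887410136) (nat_lit 153) (nat_lit 5) (nat_lit 159) (nat_lit 5) (nat_lit 154) (nat_lit 5) (nat_lit 456) (nat_lit 356) (nat_lit 328)) (XT.lf (nat_lit 0) (nat_lit 1599758927) (nat_lit 532) (nat_lit 2832041600) (nat_lit 76) (nat_lit 5266096959) (nat_lit 146) (nat_lit 5) (nat_lit 153) (nat_lit 5) (nat_lit 147) (nat_lit 5) (nat_lit 457) (nat_lit 356) (nat_lit 327)))) (XT.nd (nat_lit 78) (nat_lit 456) (nat_lit 0) (XT.lf (nat_lit 0) (nat_lit 4134696959) (nat_lit 380) (nat_lit 1066464587) (nat_lit 456) (nat_lit 4595454603) (nat_lit 141) (nat_lit 5) (nat_lit 146) (nat_lit 5) (nat_lit 147) (nat_lit 5) (nat_lit 458) (nat_lit 356) (nat_lit 326)) (XT.nd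 (nat_lit 78) (nat_lit 76) (nat_lit 0) (XT.lf (nat_lit 0) (nat_lit 1310324014) (nat_lit 380) (nat_lit 7558139408) (nat_lit 456) (nat_lit 1028982023) (nat_lit 136) (nat_lit 5) (nat_lit 141) (nat_lit 5) (nat_lit 142) (nat_lit 5) (nat_lit 459) (nat_lit 356) (nat_lit 325)) (XT.lf (nat_lit 0) (nat_lit 2570937411) (nat_lit 456) (nat_lit 1598805558) (nat_lit 76) (nat_lit 5830296093) (nat_lit 135) (nat_lit 5) (nat_lit 141) (nat_lit 5) (nat_lit 136) (nat_lit 5) (nat_lit 460) (nat_lit 356) (nat_lit 324)))))) (XT.nd (nat_lit 390) (nat_lit 1368) (nat_lit 0) (XT.nd (nat_lit 156) (nat_lit 836) (nat_lit 0) (XT.nd (nat_lit 78) (nat_lit 380) (nat_lit 0) (XT.lf (nat_lit 0) (nat_lit 5522555686) (nat_lit 380) (nat_lit 694374562) (nat_lit 456) (nat_lit 3887874107) (nat_lit 130) (nat_lit 5) (nat_lit 135) (nat_lit 5) (nat_lit 136) (nat_lit 5) (nat_lit 461) (nat_lit 356) (nat_lit 323)) (XT.lf (nat_lit 0) (nat_lit 2538616548) (nat_lit 380) (nat_lit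 7395317138) (nat_lit 456) (nat_lit 277782092) (nat_lit 125) (nat_lit 5) (nat_lit 130) (nat_lit 5) (nat_lit 131) (nat_lit 5) (nat_lit 462) (nat_lit 356) (nat_lit 322))) (XT.nd (nat_lit 78) (nat_lit 760) (nat_lit 0) (XT.lf (nat_lit 0) (nat_lit 3347855119) (nat_lit 456) (nat_lit 555875857) (nat_lit 76) (nat_lit 6416844635) (nat_lit 124) (nat_lit 5) (nat_lit 130) (nat_lit 5) (nat_lit 125) (nat_lit 5) (nat_lit 463) (nat_lit 356) (nat_lit 321)) (XT.nd (nat_lit 78) (nat_lit 456) (nat_lit 0) (XT.lf (nat_lit 0) (nat_lit 6718564035) (nat_lit 304) (nat_lit 320721580) (nat_lit 380) (nat_lit 3392362214) (nat_lit 120) (nat_lit 5) (nat_lit 124) (nat_lit 5) (nat_lit 125) (nat_lit 5) (nat_lit 464) (nat_lit 356) (nat_lit 320)) (XT.lf (nat_lit 0) (nat_lit 258347895) (nat_lit 456) (nat_lit 6992211413) (nat_lit 76) (nat_lit 3294316934) (nat_lit 114) (nat_lit 5) (nat_lit 120) (nat_lit 5) (nat_lit 115) (nat_lit 5) (nat_lit 465) (nat_lit 356)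 (nat_lit 319))))) (XT.nd (nat_lit 234) (nat_lit 684) (nat_lit 0) (XT.nd (nat_lit 78) (nat_lit 380) (nat_lit 0) (XT.lf (nat_lit 0) (nat_lit 260995878) (nat_lit 304) (nat_lit 3658394214) (nat_lit 380) (nat_lit 6740887053) (nat_lit 110) (nat_lit 5) (nat_lit 114) (nat_lit 5) (nat_lit 115) (nat_lit 5) (nat_lit 466) (nat_lit 356) (nat_lit 318)) (XT.nd (nat_lit 78) (nat_lit 380) (nat_lit 0) (XT.lf (nat_lit 0) (nat_lit 7654996592) (nat_lit 380) (nat_lit 3095494768) (nat_lit 76) (nat_lit 27478843) (nat_lit 110) (nat_lit 5) (nat_lit 115) (nat_lit 5) (nat_lit 111) (nat_lit 5) (nat_lit 467) (nat_lit 356) (nat_lit 317)) (XT.lf (nat_lit 0) (nat_lit 567120611) (nat_lit 380) (nat_lit 6585603358) (nat_lit 76) (nat_lit 3745084810) (nat_lit 105) (nat_lit 5) (nat_lit 110) (nat_lit 5) (nat_lit 106) (nat_lit 5) (nat_lit 468) (nat_lit 356) (nat_lit 316)))) (XT.nd (nat_lit 78) (nat_lit 380) (nat_lit 0) (XT.lf (nat_lit 0) (nat_lit 809310313)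 (nat_lit 304) (nat_lit 3461189581) (nat_lit 380) (nat_lit 6749515749) (nat_lit 101) (nat_lit 5) (nat_lit 105) (nat_lit 5) (nat_lit 106) (nat_lit 5) (nat_lit 469) (nat_lit 356) (nat_lit 315)) (XT.nd (nat_lit 78) (nat_lit 380) (nat_lit 0) (XT.lf (nat_lit 0) (nat_lit 8049758342) (nat_lit 380) (nat_lit 2775799274) (nat_lit 76) (nat_lit 319082964) (nat_lit 101) (nat_lit 5) (nat_lit 106) (nat_lit 5) (nat_lit 102) (nat_lit 5) (nat_lit 470) (nat_lit 356) (nat_lit 314)) (XT.lf (nat_lit 0) (nat_lit 634770615) (nat_lit 380) (nat_lit 6497941753) (nat_lit 76) (nat_lit 4138768713) (nat_lit 96) (nat_lit 5) (nat_lit 101) (nat_lit 5) (nat_lit 97) (nat_lit 5) (nat_lit 471) (nat_lit 356) (nat_lit 313))))))))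
noncomputable def xc38 : XT := (XT.nd (nat_lit 1638) (nat_lit 1672) (nat_lit 0) (XT.nd (nat_lit 780) (nat_lit 1748) (nat_lit 0) (XT.nd (nat_lit 390) (nat_lit 988) (nat_lit 0) (XT.nd (nat_lit 156) (nat_lit 608) (nat_lit 0) (XT.nd (nat_lit 78) (nat_lit 0) (nat_lit 0) (XT.lf (nat_lit 0) (nat_lit 1034071505) (nat_lit 304) (nat_lit 3345345817) (nat_lit 380) (nat_lit 7021404682) (nat_lit 92) (nat_lit 5) (nat_lit 96) (nat_lit 5) (nat_lit 97) (nat_lit 5) (nat_lit 472) (nat_lit 356) (nat_lit 312)) (XT.lf (nat_lit 0) (nat_lit 8202785816) (nat_lit 380) (nat_lit 2800843536) (nat_lit 76) (nat_lit 529053208) (nat_lit 92) (nat_lit 5) (nat_lit 97) (nat_lit 5) (nat_lit 93) (nat_lit 5) (nat_lit 473) (nat_lit 356) (nat_lit 311))) (XT.nd (nat_lit 78) (nat_lit 228) (nat_lit 0) (XT.lf (nat_lit 0) (nat_lit 441122844) (nat_lit 380) (nat_lit 6780256900) (nat_lit 76) (nat_lit 4445525219) (nat_lit 87) (nat_lit 5) (nat_lit 92) (nat_lit 5) (nat_lit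 88) (nat_lit 5) (nat_lit 474) (nat_lit 356) (nat_lit 310)) (XT.nd (nat_lit 78) (nat_lit 0) (nat_lit 0) (XT.lf (nat_lit 0) (nat_lit 882955289) (nat_lit 228) (nat_lit 3342242622) (nat_lit 304) (nat_lit 7578538095) (nat_lit 84) (nat_lit 5) (nat_lit 87) (nat_lit 5) (nat_lit 88) (nat_lit 5) (nat_lit 475) (nat_lit 356) (nat_lit 309)) (XT.lf (nat_lit 0) (nat_lit 8092490494) (nat_lit 304) (nat_lit 3224438822) (nat_lit 76) (nat_lit 626232310) (nat_lit 84) (nat_lit 5) (nat_lit 88) (nat_lit 5) (nat_lit 85) (nat_lit 5) (nat_lit 476) (nat_lit 356) (nat_lit 308))))) (XT.nd (nat_lit 156) (nat_lit 380) (nat_lit 0) (XT.nd (nat_lit 78) (nat_lit 304) (nat_lit 0) (XT.lf (nat_lit 0) (nat_lit 4596237003) (nat_lit 304) (nat_lit 7451442320) (nat_lit 380) (nat_lit 37493935) (nat_lit 80) (nat_lit 5) (nat_lit 84) (nat_lit 5) (nat_lit 85) (nat_lit 5) (nat_lit 477) (nat_lit 356) (nat_lit 307)) (XT.lf (nat_lit 0) (nat_lit 298351227) (nat_lit 228)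 (nat_lit 3485464455) (nat_lit 304) (nat_lit 8446069671) (nat_lit 76) (nat_lit 5) (nat_lit 79) (nat_lit 5) (nat_lit 80) (nat_lit 5) (nat_lit 478) (nat_lit 356) (nat_lit 306))) (XT.nd (nat_lit 78) (nat_lit 380) (nat_lit 0) (XT.lf (nat_lit 0) (nat_lit 7694143073) (nat_lit 304) (nat_lit 4105863728) (nat_lit 76) (nat_lit 577226079) (nat_lit 76) (nat_lit 5) (nat_lit 80) (nat_lit 5) (nat_lit 77) (nat_lit 5) (nat_lit 479) (nat_lit 356) (nat_lit 305)) (XT.nd (nat_lit 78) (nat_lit 76) (nat_lit 0) (XT.lf (nat_lit 0) (nat_lit 3836832626) (nat_lit 304) (nat_lit 7853515475) (nat_lit 380) (nat_lit 837033692) (nat_lit 72) (nat_lit 5) (nat_lit 76) (nat_lit 5) (nat_lit 77) (nat_lit 5) (nat_lit 480) (nat_lit 356) (nat_lit 304)) (XT.lf (nat_lit 0) (nat_lit 3032971105) (nat_lit 380) (nat_lit 772991047) (nat_lit 76) (nat_lit 8874428362) (nat_lit 71) (nat_lit 5) (nat_lit 76) (nat_lit 5) (nat_lit 72) (nat_lit 5) (nat_lit 481) (nat_lit 356)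 (nat_lit 303)))))) (XT.nd (nat_lit 390) (nat_lit 760) (nat_lit 0) (XT.nd (nat_lit 156) (nat_lit 532) (nat_lit 0) (XT.nd (nat_lit 78) (nat_lit 228) (nat_lit 0) (XT.lf (nat_lit 0) (nat_lit 6979587478) (nat_lit 304) (nat_lit 5510505999) (nat_lit 76) (nat_lit 346054295) (nat_lit 68) (nat_lit 5) (nat_lit 72) (nat_lit 5) (nat_lit 69) (nat_lit 5) (nat_lit 482) (nat_lit 356) (nat_lit 302)) (XT.lf (nat_lit 0) (nat_lit 2544229637) (nat_lit 228) (nat_lit 8468588245) (nat_lit 304) (nat_lit 1982055920) (nat_lit 65) (nat_lit 5) (nat_lit 68) (nat_lit 5) (nat_lit 69) (nat_lit 5) (nat_lit 483) (nat_lit 356) (nat_lit 301))) (XT.nd (nat_lit 78) (nat_lit 456) (nat_lit 0) (XT.lf (nat_lit 0) (nat_lit 1942143337) (nat_lit 304) (nat_lit 2400116787) (nat_lit 76) (nat_lit 8814304586) (nat_lit 64) (nat_lit 5) (nat_lit 68) (nat_lit 5) (nat_lit 65) (nat_lit 5) (nat_lit 484) (nat_lit 356) (nat_lit 300)) (XT.nd (nat_lit 78) (nat_lit 228) (nat_lit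 0) (XT.lf (nat_lit 0) (nat_lit 5809980833) (nat_lit 228) (nat_lit 107638966) (nat_lit 304) (nat_lit 7403627793) (nat_lit 61) (nat_lit 5) (nat_lit 64) (nat_lit 5) (nat_lit 65) (nat_lit 5) (nat_lit 485) (nat_lit 356) (nat_lit 299)) (XT.lf (nat_lit 0) (nat_lit 644222064) (nat_lit 228) (nat_lit 9337878255) (nat_lit 304) (nat_lit 3506940630) (nat_lit 58) (nat_lit 5) (nat_lit 61) (nat_lit 5) (nat_lit 62) (nat_lit 5) (nat_lit 486) (nat_lit 356) (nat_lit 298))))) (XT.nd (nat_lit 234) (nat_lit 456) (nat_lit 0) (XT.nd (nat_lit 78) (nat_lit 228) (nat_lit 0) (XT.lf (nat_lit 0) (nat_lit 474826997) (nat_lit 304) (nat_lit 4663403478) (nat_lit 76) (nat_lit 8521639807) (nat_lit 57) (nat_lit 5) (nat_lit 61) (nat_lit 5) (nat_lit 58) (nat_lit 5) (nat_lit 487) (nat_lit 356) (nat_lit 297)) (XT.nd (nat_lit 78) (nat_lit 0) (nat_lit 0) (XT.lf (nat_lit 0) (nat_lit 3642683916) (nat_lit 228) (nat_lit 832860418) (nat_lit 304) (nat_lit 9358389124)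 (nat_lit 54) (nat_lit 5) (nat_lit 57) (nat_lit 5) (nat_lit 58) (nat_lit 5) (nat_lit 488) (nat_lit 356) (nat_lit 296)) (XT.lf (nat_lit 0) (nat_lit 8573615152) (nat_lit 304) (nat_lit 1919725064) (nat_lit 76) (nat_lit 3517797098) (nat_lit 54) (nat_lit 5) (nat_lit 58) (nat_lit 5) (nat_lit 55) (nat_lit 5) (nat_lit 489) (nat_lit 356) (nat_lit 295)))) (XT.nd (nat_lit 78) (nat_lit 228) (nat_lit 0) (XT.lf (nat_lit 0) (nat_lit 6535002778) (nat_lit 228) (nat_lit 6230053629) (nat_lit 304) (nat_lit 1426606733) (nat_lit 51) (nat_lit 5) (nat_lit 54) (nat_lit 5) (nat_lit 55) (nat_lit 5) (nat_lit 490) (nat_lit 356) (nat_lit 294)) (XT.nd (nat_lit 78) (nat_lit 0) (nat_lit 0) (XT.lf (nat_lit 0) (nat_lit 739115094) (nat_lit 152) (nat_lit 1871764514) (nat_lit 228) (nat_lit 11764953750) (nat_lit 48) (nat_lit 5) (nat_lit 50) (nat_lit 5) (nat_lit 51) (nat_lit 5) (nat_lit 491) (nat_lit 356) (nat_lit 293)) (XT.lf (nat_lit 0) (nat_lit 6742137294)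 (nat_lit 228) (nat_lit 5245211733) (nat_lit 76) (nat_lit 2575512604) (nat_lit 48) (nat_lit 5) (nat_lit 51) (nat_lit 5) (nat_lit 49) (nat_lit 5) (nat_lit 492) (nat_lit 356) (nat_lit 292))))))) (XT.nd (nat_lit 858) (nat_lit 380) (nat_lit 0) (XT.nd (nat_lit 390) (nat_lit 608) (nat_lit 0) (XT.nd (nat_lit 156) (nat_lit 380) (nat_lit 0) (XT.nd (nat_lit 78) (nat_lit 76) (nat_lit 0) (XT.lf (nat_lit 0) (nat_lit 3283371173) (nat_lit 228) (nat_lit 7670750253) (nat_lit 304) (nat_lit 3799552630) (nat_lit 45) (nat_lit 5) (nat_lit 48) (nat_lit 5) (nat_lit 49) (nat_lit 5) (nat_lit 493) (nat_lit 356) (nat_lit 291)) (XT.lf (nat_lit 0) (nat_lit 297962930) (nat_lit 304) (nat_lit 2957660680) (nat_lit 76) (nat_lit 11692647658) (nat_lit 44) (nat_lit 5) (nat_lit 48) (nat_lit 5) (nat_lit 45) (nat_lit 5) (nat_lit 494) (nat_lit 356) (nat_lit 290))) (XT.nd (nat_lit 78) (nat_lit 228) (nat_lit 0) (XT.lf (nat_lit 0) (nat_lit 4437200567) (nat_lit 228)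 (nat_lit 9439832664) (nat_lit 76) (nat_lit 1269017226) (nat_lit 42) (nat_lit 5) (nat_lit 45) (nat_lit 5) (nat_lit 43) (nat_lit 5) (nat_lit 495) (nat_lit 356) (nat_lit 289)) (XT.nd (nat_lit 78) (nat_lit 228) (nat_lit 0) (XT.lf (nat_lit 0) (nat_lit 8666039903) (nat_lit 228) (nat_lit 846037624) (nat_lit 76) (nat_lit 5835576550) (nat_lit 42) (nat_lit 5) (nat_lit 45) (nat_lit 5) (nat_lit 43) (nat_lit 5) (nat_lit 496) (nat_lit 356) (nat_lit 288)) (XT.lf (nat_lit 0) (nat_lit 7964855409) (nat_lit 228) (nat_lit 5032272194) (nat_lit 304) (nat_lit 2555813817) (nat_lit 39) (nat_lit 5) (nat_lit 42) (nat_lit 5) (nat_lit 43) (nat_lit 5) (nat_lit 497) (nat_lit 356) (nat_lit 287))))) (XT.nd (nat_lit 234) (nat_lit 228) (nat_lit 0) (XT.nd (nat_lit 78) (nat_lit 152) (nat_lit 0) (XT.lf (nat_lit 0) (nat_lit 1146173919) (nat_lit 152) (nat_lit 463827818) (nat_lit 228) (nat_lit 14152539636) (nat_lit 36) (nat_lit 5) (nat_lit 38) (nat_lit 5) (nat_lit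 39) (nat_lit 5) (nat_lit 498) (nat_lit 356) (nat_lit 286)) (XT.nd (nat_lit 78) (nat_lit 152) (nat_lit 0) (XT.lf (nat_lit 0) (nat_lit 5869579162) (nat_lit 228) (nat_lit 5921273779) (nat_lit 76) (nat_lit 4184253938) (nat_lit 36) (nat_lit 5) (nat_lit 39) (nat_lit 5) (nat_lit 37) (nat_lit 5) (nat_lit 499) (nat_lit 356) (nat_lit 285)) (XT.lf (nat_lit 0) (nat_lit 2924743749) (nat_lit 152) (nat_lit 7278465001) (nat_lit 228) (nat_lit 5988942429) (nat_lit 34) (nat_lit 5) (nat_lit 36) (nat_lit 5) (nat_lit 37) (nat_lit 5) (nat_lit 500) (nat_lit 356) (nat_lit 284)))) (XT.nd (nat_lit 78) (nat_lit 228) (nat_lit 0) (XT.lf (nat_lit 0) (nat_lit 11970064523) (nat_lit 152) (nat_lit 2660255989) (nat_lit 228) (nat_lit 1783084266) (nat_lit 34) (nat_lit 5) (nat_lit 36) (nat_lit 5) (nat_lit 37) (nat_lit 5) (nat_lit 501) (nat_lit 356) (nat_lit 283)) (XT.nd (nat_lit 78) (nat_lit 0) (nat_lit 0) (XT.lf (nat_lit 0) (nat_lit 2484468056) (nat_lit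 228) (nat_lit 12108941607) (nat_lit 76) (nat_lit 2045143576) (nat_lit 31) (nat_lit 5) (nat_lit 34) (nat_lit 5) (nat_lit 32) (nat_lit 5) (nat_lit 502) (nat_lit 356) (nat_lit 282)) (XT.lf (nat_lit 0) (nat_lit 6828761350) (nat_lit 228) (nat_lit 3212274740) (nat_lit 76) (nat_lit 6826631887) (nat_lit 31) (nat_lit 5) (nat_lit 34) (nat_lit 5) (nat_lit 32) (nat_lit 5) (nat_lit 503) (nat_lit 356) (nat_lit 281)))))) (XT.nd (nat_lit 53430) (nat_lit 0) (nat_lit 19532) (XT.nd (nat_lit 156) (nat_lit 228) (nat_lit 0) (XT.nd (nat_lit 78) (nat_lit 0) (nat_lit 0) (XT.lf (nat_lit 0) (nat_lit 5883313571) (nat_lit 152) (nat_lit 5383071292) (nat_lit 228) (nat_lit 5834855514) (nat_lit 29) (nat_lit 5) (nat_lit 31) (nat_lit 5) (nat_lit 32) (nat_lit 5) (nat_lit 504) (nat_lit 356) (nat_lit 280)) (XT.lf (nat_lit 0) (nat_lit 15148553829) (nat_lit 152) (nat_lit 634269369) (nat_lit 228) (nat_lit 1556863950) (nat_lit 29) (nat_lit 5) (nat_lit 31) (nat_lit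 5) (nat_lit 32) (nat_lit 5) (nat_lit 505) (nat_lit 356) (nat_lit 279))) (XT.nd (nat_lit 53118) (nat_lit 0) (nat_lit 22724) (XT.lf (nat_lit 0) (nat_lit 2812067174) (nat_lit 228) (nat_lit 10574734608) (nat_lit 76) (nat_lit 4194896824) (nat_lit 26) (nat_lit 5) (nat_lit 29) (nat_lit 5) (nat_lit 27) (nat_lit 5) (nat_lit 506) (nat_lit 356) (nat_lit 278)) (XT.nd (nat_lit 78) (nat_lit 836) (nat_lit 0) (XT.lf (nat_lit 0) (nat_lit 1421596614) (nat_lit 912) (nat_lit 907568845) (nat_lit 0) (nat_lit 1421596614) (nat_lit 336) (nat_lit 5) (nat_lit 348) (nat_lit 4) (nat_lit 336) (nat_lit 4) (nat_lit 426) (nat_lit 357) (nat_lit 357)) (XT.lf (nat_lit 0) (nat_lit 3785251248) (nat_lit 836) (nat_lit 2610644656) (nat_lit 836) (nat_lit 1153556491) (nat_lit 325) (nat_lit 4) (nat_lit 336) (nat_lit 5) (nat_lit 336) (nat_lit 4) (nat_lit 427) (nat_lit 357) (nat_lit 356))))) (XT.nd (nat_lit 234) (nat_lit 1520) (nat_lit 0) (XT.nd (nat_lit 78) (nat_lit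 836) (nat_lit 0) (XT.lf (nat_lit 0) (nat_lit 1858061649) (nat_lit 760) (nat_lit 490288658) (nat_lit 836) (nat_lit 5250530062) (nat_lit 314) (nat_lit 5) (nat_lit 324) (nat_lit 5) (nat_lit 325) (nat_lit 4) (nat_lit 428) (nat_lit 357) (nat_lit 355)) (XT.nd (nat_lit 78) (nat_lit 836) (nat_lit 0) (XT.lf (nat_lit 0) (nat_lit 5876359374) (nat_lit 836) (nat_lit 99098454) (nat_lit 0) (nat_lit 1674287188) (nat_lit 314) (nat_lit 5) (nat_lit 325) (nat_lit 4) (nat_lit 314) (nat_lit 4) (nat_lit 429) (nat_lit 357) (nat_lit 354)) (XT.lf (nat_lit 0) (nat_lit 1726284874) (nat_lit 836) (nat_lit 2061100975) (nat_lit 76) (nat_lit 3914515650) (nat_lit 303) (nat_lit 5) (nat_lit 314) (nat_lit 5) (nat_lit 304) (nat_lit 4) (nat_lit 430) (nat_lit 357) (nat_lit 353)))) (XT.nd (nat_lit 78) (nat_lit 836) (nat_lit 0) (XT.lf (nat_lit 0) (nat_lit 3704247329) (nat_lit 684) (nat_lit 1529501876) (nat_lit 760) (nat_lit 2521915584) (nat_lit 294) (nat_lit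 5) (nat_lit 303) (nat_lit 5) (nat_lit 304) (nat_lit 4) (nat_lit 431) (nat_lit 357) (nat_lit 352)) (XT.nd (nat_lit 78) (nat_lit 0) (nat_lit 0) (XT.lf (nat_lit 0) (nat_lit 955257911) (nat_lit 836) (nat_lit 6072122800) (nat_lit 76) (nat_lit 783670083) (nat_lit 283) (nat_lit 5) (nat_lit 294) (nat_lit 5) (nat_lit 284) (nat_lit 4) (nat_lit 432) (nat_lit 357) (nat_lit 351)) (XT.lf (nat_lit 0) (nat_lit 4443528887) (nat_lit 836) (nat_lit 269426148) (nat_lit 76) (nat_lit 3154777003) (nat_lit 283) (nat_lit 5) (nat_lit 294) (nat_lit 5) (nat_lit 284) (nat_lit 4) (nat_lit 433) (nat_lit 357) (nat_lit 350))))))))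
noncomputable def xc39 : XT := (XT.nd (nat_lit 1638) (nat_lit 5624) (nat_lit 0) (XT.nd (nat_lit 780) (nat_lit 4256) (nat_lit 0) (XT.nd (nat_lit 390) (nat_lit 2508) (nat_lit 0) (XT.nd (nat_lit 156) (nat_lit 1292) (nat_lit 0) (XT.nd (nat_lit 78) (nat_lit 684) (nat_lit 0) (XT.lf (nat_lit 0) (nat_lit 50528402) (nat_lit 760) (nat_lit 2276908280) (nat_lit 76) (nat_lit 5598616516) (nat_lit 273) (nat_lit 5) (nat_lit 283) (nat_lit 5) (nat_lit 274) (nat_lit 5) (nat_lit 434) (nat_lit 357) (nat_lit 349)) (XT.lf (nat_lit 0) (nat_lit 3514725502) (nat_lit 760) (nat_lit 4331529480) (nat_lit 76) (nat_lit 139542486) (nat_lit 264) (nat_lit 5) (nat_lit 274) (nat_lit 5) (nat_lit 265) (nat_lit 4) (nat_lit 435) (nat_lit 357) (nat_lit 348))) (XT.nd (nat_lit 78) (nat_lit 684) (nat_lit 0) (XT.lf (nat_lit 0) (nat_lit 1619296598) (nat_lit 608) (nat_lit 5410146801) (nat_lit 684) (nat_lit 1017693767) (nat_lit 256) (nat_lit 5) (nat_lit 264) (nat_lit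 5) (nat_lit 265) (nat_lit 4) (nat_lit 436) (nat_lit 357) (nat_lit 347)) (XT.nd (nat_lit 78) (nat_lit 608) (nat_lit 0) (XT.lf (nat_lit 0) (nat_lit 2441367341) (nat_lit 684) (nat_lit 452976023) (nat_lit 76) (nat_lit 5215670030) (nat_lit 255) (nat_lit 5) (nat_lit 264) (nat_lit 5) (nat_lit 256) (nat_lit 5) (nat_lit 437) (nat_lit 357) (nat_lit 346)) (XT.lf (nat_lit 0) (nat_lit 5634769770) (nat_lit 608) (nat_lit 299189091) (nat_lit 684) (nat_lit 2240518049) (nat_lit 247) (nat_lit 5) (nat_lit 255) (nat_lit 5) (nat_lit 256) (nat_lit 5) (nat_lit 438) (nat_lit 357) (nat_lit 345))))) (XT.nd (nat_lit 156) (nat_lit 1216) (nat_lit 0) (XT.nd (nat_lit 78) (nat_lit 608) (nat_lit 0) (XT.lf (nat_lit 0) (nat_lit 1222983002) (nat_lit 684) (nat_lit 4681240601) (nat_lit 76) (nat_lit 2336200164) (nat_lit 238) (nat_lit 5) (nat_lit 247) (nat_lit 5) (nat_lit 239) (nat_lit 5) (nat_lit 439) (nat_lit 357) (nat_lit 344)) (XT.lf (nat_lit 0) (nat_lit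 1434332548) (nat_lit 608) (nat_lit 3262107167) (nat_lit 684) (nat_lit 3611562375) (nat_lit 230) (nat_lit 5) (nat_lit 238) (nat_lit 5) (nat_lit 239) (nat_lit 5) (nat_lit 440) (nat_lit 357) (nat_lit 343))) (XT.nd (nat_lit 78) (nat_lit 1216) (nat_lit 0) (XT.lf (nat_lit 0) (nat_lit 7661488064) (nat_lit 608) (nat_lit 552151073) (nat_lit 684) (nat_lit 163829379) (nat_lit 230) (nat_lit 5) (nat_lit 238) (nat_lit 5) (nat_lit 239) (nat_lit 5) (nat_lit 441) (nat_lit 357) (nat_lit 342)) (XT.nd (nat_lit 78) (nat_lit 608) (nat_lit 0) (XT.lf (nat_lit 0) (nat_lit 3303090507) (nat_lit 608) (nat_lit 2920671259) (nat_lit 76) (nat_lit 2224264168) (nat_lit 222) (nat_lit 5) (nat_lit 230) (nat_lit 5) (nat_lit 223) (nat_lit 5) (nat_lit 442) (nat_lit 357) (nat_lit 341)) (XT.lf (nat_lit 0) (nat_lit 3350490631) (nat_lit 608) (nat_lit 3461021414) (nat_lit 684) (nat_lit 1708994398) (nat_lit 214) (nat_lit 5) (nat_lit 222) (nat_lit 5) (nat_lit 223)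 (nat_lit 5) (nat_lit 443) (nat_lit 357) (nat_lit 340)))))) (XT.nd (nat_lit 390) (nat_lit 2052) (nat_lit 0) (XT.nd (nat_lit 156) (nat_lit 1596) (nat_lit 0) (XT.nd (nat_lit 78) (nat_lit 0) (nat_lit 0) (XT.lf (nat_lit 0) (nat_lit 1121224106) (nat_lit 532) (nat_lit 622240092) (nat_lit 608) (nat_lit 6851332140) (nat_lit 206) (nat_lit 5) (nat_lit 213) (nat_lit 5) (nat_lit 214) (nat_lit 5) (nat_lit 444) (nat_lit 357) (nat_lit 339)) (XT.lf (nat_lit 0) (nat_lit 5236623666) (nat_lit 608) (nat_lit 1162639714) (nat_lit 76) (nat_lit 2271211561) (nat_lit 206) (nat_lit 5) (nat_lit 214) (nat_lit 5) (nat_lit 207) (nat_lit 5) (nat_lit 445) (nat_lit 357) (nat_lit 338))) (XT.nd (nat_lit 78) (nat_lit 988) (nat_lit 0) (XT.lf (nat_lit 0) (nat_lit 35398242) (nat_lit 608) (nat_lit 3482134858) (nat_lit 76) (nat_lit 5230464037) (nat_lit 198) (nat_lit 5) (nat_lit 206) (nat_lit 5) (nat_lit 199) (nat_lit 5) (nat_lit 446) (nat_lit 357) (nat_lit 337))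 (XT.nd (nat_lit 78) (nat_lit 532) (nat_lit 0) (XT.lf (nat_lit 0) (nat_lit 2954123481) (nat_lit 456) (nat_lit 547133585) (nat_lit 532) (nat_lit 5325913099) (nat_lit 192) (nat_lit 5) (nat_lit 198) (nat_lit 5) (nat_lit 199) (nat_lit 5) (nat_lit 447) (nat_lit 357) (nat_lit 336)) (XT.lf (nat_lit 0) (nat_lit 576050731) (nat_lit 532) (nat_lit 6450342991) (nat_lit 608) (nat_lit 1881751773) (nat_lit 185) (nat_lit 5) (nat_lit 192) (nat_lit 5) (nat_lit 193) (nat_lit 5) (nat_lit 448) (nat_lit 357) (nat_lit 335))))) (XT.nd (nat_lit 234) (nat_lit 1064) (nat_lit 0) (XT.nd (nat_lit 78) (nat_lit 912) (nat_lit 0) (XT.lf (nat_lit 0) (nat_lit 1599975575) (nat_lit 608) (nat_lit 1845003676) (nat_lit 76) (nat_lit 5545765056) (nat_lit 184) (nat_lit 5) (nat_lit 192) (nat_lit 5) (nat_lit 185) (nat_lit 5) (nat_lit 449) (nat_lit 357) (nat_lit 334)) (XT.nd (nat_lit 78) (nat_lit 456) (nat_lit 0) (XT.lf (nat_lit 0) (nat_lit 4748789192) (nat_lit 456)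 (nat_lit 356032815) (nat_lit 532) (nat_lit 3970367711) (nat_lit 178) (nat_lit 5) (nat_lit 184) (nat_lit 5) (nat_lit 185) (nat_lit 5) (nat_lit 450) (nat_lit 357) (nat_lit 333)) (XT.lf (nat_lit 0) (nat_lit 2276729406) (nat_lit 456) (nat_lit 6396669601) (nat_lit 532) (nat_lit 488069035) (nat_lit 172) (nat_lit 5) (nat_lit 178) (nat_lit 5) (nat_lit 179) (nat_lit 5) (nat_lit 451) (nat_lit 357) (nat_lit 332)))) (XT.nd (nat_lit 78) (nat_lit 988) (nat_lit 0) (XT.lf (nat_lit 0) (nat_lit 3003705304) (nat_lit 532) (nat_lit 274280159) (nat_lit 76) (nat_lit 5971504389) (nat_lit 171) (nat_lit 5) (nat_lit 178) (nat_lit 5) (nat_lit 172) (nat_lit 5) (nat_lit 452) (nat_lit 357) (nat_lit 331)) (XT.nd (nat_lit 78) (nat_lit 532) (nat_lit 0) (XT.lf (nat_lit 0) (nat_lit 6478043901) (nat_lit 456) (nat_lit 72243467) (nat_lit 532) (nat_lit 2789105776) (nat_lit 165) (nat_lit 5) (nat_lit 171) (nat_lit 5) (nat_lit 172) (nat_lit 5) (nat_lit 453) (nat_lit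 357) (nat_lit 330)) (XT.lf (nat_lit 0) (nat_lit 724751107) (nat_lit 532) (nat_lit 5539999987) (nat_lit 76) (nat_lit 3166308719) (nat_lit 158) (nat_lit 5) (nat_lit 165) (nat_lit 5) (nat_lit 159) (nat_lit 5) (nat_lit 454) (nat_lit 357) (nat_lit 329))))))) (XT.nd (nat_lit 858) (nat_lit 2280) (nat_lit 0) (XT.nd (nat_lit 390) (nat_lit 2052) (nat_lit 0) (XT.nd (nat_lit 156) (nat_lit 912) (nat_lit 0) (XT.nd (nat_lit 78) (nat_lit 0) (nat_lit 0) (XT.lf (nat_lit 0) (nat_lit 1217340376) (nat_lit 380) (nat_lit 3031944700) (nat_lit 456) (nat_lit 5275365911) (nat_lit 153) (nat_lit 5) (nat_lit 158) (nat_lit 5) (nat_lit 159) (nat_lit 5) (nat_lit 455) (nat_lit 357) (nat_lit 328)) (XT.lf (nat_lit 0) (nat_lit 7833820956) (nat_lit 456) (nat_lit 1509471956) (nat_lit 76) (nat_lit 277045366) (nat_lit 153) (nat_lit 5) (nat_lit 159) (nat_lit 5) (nat_lit 154) (nat_lit 5) (nat_lit 456) (nat_lit 357) (nat_lit 327))) (XT.nd (nat_lit 78) (nat_lit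 380) (nat_lit 0) (XT.lf (nat_lit 0) (nat_lit 1755395895) (nat_lit 532) (nat_lit 4325882736) (nat_lit 76) (nat_lit 3636313945) (nat_lit 146) (nat_lit 5) (nat_lit 153) (nat_lit 5) (nat_lit 147) (nat_lit 5) (nat_lit 457) (nat_lit 357) (nat_lit 326)) (XT.nd (nat_lit 78) (nat_lit 0) (nat_lit 0) (XT.lf (nat_lit 0) (nat_lit 2584981678) (nat_lit 380) (nat_lit 2737743894) (nat_lit 456) (nat_lit 4494273899) (nat_lit 141) (nat_lit 5) (nat_lit 146) (nat_lit 5) (nat_lit 147) (nat_lit 5) (nat_lit 458) (nat_lit 357) (nat_lit 325)) (XT.lf (nat_lit 0) (nat_lit 8946824292) (nat_lit 456) (nat_lit 301831214) (nat_lit 76) (nat_lit 670043964) (nat_lit 141) (nat_lit 5) (nat_lit 147) (nat_lit 5) (nat_lit 142) (nat_lit 5) (nat_lit 459) (nat_lit 357) (nat_lit 324))))) (XT.nd (nat_lit 234) (nat_lit 836) (nat_lit 0) (XT.nd (nat_lit 78) (nat_lit 760) (nat_lit 0) (XT.lf (nat_lit 0) (nat_lit 2601526163) (nat_lit 456) (nat_lit 3272433136) (nat_lit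 76) (nat_lit 4147848140) (nat_lit 135) (nat_lit 5) (nat_lit 141) (nat_lit 5) (nat_lit 136) (nat_lit 5) (nat_lit 460) (nat_lit 357) (nat_lit 323)) (XT.nd (nat_lit 78) (nat_lit 380) (nat_lit 0) (XT.lf (nat_lit 0) (nat_lit 3791112265) (nat_lit 380) (nat_lit 2421860895) (nat_lit 456) (nat_lit 3914296746) (nat_lit 130) (nat_lit 5) (nat_lit 135) (nat_lit 5) (nat_lit 136) (nat_lit 5) (nat_lit 461) (nat_lit 357) (nat_lit 322)) (XT.lf (nat_lit 0) (nat_lit 737027747) (nat_lit 380) (nat_lit 9146885464) (nat_lit 456) (nat_lit 351195522) (nat_lit 125) (nat_lit 5) (nat_lit 130) (nat_lit 5) (nat_lit 131) (nat_lit 5) (nat_lit 462) (nat_lit 357) (nat_lit 321)))) (XT.nd (nat_lit 78) (nat_lit 760) (nat_lit 0) (XT.lf (nat_lit 0) (nat_lit 3252322931) (nat_lit 456) (nat_lit 2415729235) (nat_lit 76) (nat_lit 4676393461) (nat_lit 124) (nat_lit 5) (nat_lit 130) (nat_lit 5) (nat_lit 125) (nat_lit 5) (nat_lit 463) (nat_lit 357) (nat_lit 320))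 (XT.nd (nat_lit 78) (nat_lit 456) (nat_lit 0) (XT.lf (nat_lit 0) (nat_lit 4798878468) (nat_lit 304) (nat_lit 2109782078) (nat_lit 380) (nat_lit 3547564938) (nat_lit 120) (nat_lit 5) (nat_lit 124) (nat_lit 5) (nat_lit 125) (nat_lit 5) (nat_lit 464) (nat_lit 357) (nat_lit 319)) (XT.lf (nat_lit 0) (nat_lit 57817146) (nat_lit 456) (nat_lit 9010013205) (nat_lit 76) (nat_lit 1502596528) (nat_lit 114) (nat_lit 5) (nat_lit 120) (nat_lit 5) (nat_lit 115) (nat_lit 5) (nat_lit 465) (nat_lit 357) (nat_lit 318)))))) (XT.nd (nat_lit 390) (nat_lit 1292) (nat_lit 0) (XT.nd (nat_lit 156) (nat_lit 684) (nat_lit 0) (XT.nd (nat_lit 78) (nat_lit 304) (nat_lit 0) (XT.lf (nat_lit 0) (nat_lit 3694741399) (nat_lit 456) (nat_lit 1795106383) (nat_lit 76) (nat_lit 5196467807) (nat_lit 114) (nat_lit 5) (nat_lit 120) (nat_lit 5) (nat_lit 115) (nat_lit 5) (nat_lit 466) (nat_lit 357) (nat_lit 317)) (XT.lf (nat_lit 0) (nat_lit 5568053546) (nat_lit 304)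 (nat_lit 1828094989) (nat_lit 380) (nat_lit 3408549439) (nat_lit 110) (nat_lit 5) (nat_lit 114) (nat_lit 5) (nat_lit 115) (nat_lit 5) (nat_lit 467) (nat_lit 357) (nat_lit 316))) (XT.nd (nat_lit 78) (nat_lit 304) (nat_lit 0) (XT.lf (nat_lit 0) (nat_lit 237011534) (nat_lit 380) (nat_lit 8803487567) (nat_lit 76) (nat_lit 1885045239) (nat_lit 105) (nat_lit 5) (nat_lit 110) (nat_lit 5) (nat_lit 106) (nat_lit 5) (nat_lit 468) (nat_lit 357) (nat_lit 315)) (XT.nd (nat_lit 78) (nat_lit 304) (nat_lit 0) (XT.lf (nat_lit 0) (nat_lit 3913342489) (nat_lit 380) (nat_lit 1453587102) (nat_lit 76) (nat_lit 5681367613) (nat_lit 105) (nat_lit 5) (nat_lit 110) (nat_lit 5) (nat_lit 106) (nat_lit 5) (nat_lit 469) (nat_lit 357) (nat_lit 314)) (XT.lf (nat_lit 0) (nat_lit 6054595051) (nat_lit 304) (nat_lit 1604755290) (nat_lit 380) (nat_lit 3514241747) (nat_lit 101) (nat_lit 5) (nat_lit 105) (nat_lit 5) (nat_lit 106) (nat_lit 5) (nat_lit 470)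 (nat_lit 357) (nat_lit 313))))) (XT.nd (nat_lit 234) (nat_lit 608) (nat_lit 0) (XT.nd (nat_lit 78) (nat_lit 304) (nat_lit 0) (XT.lf (nat_lit 0) (nat_lit 173359338) (nat_lit 380) (nat_lit 8922887695) (nat_lit 76) (nat_lit 2205195788) (nat_lit 96) (nat_lit 5) (nat_lit 101) (nat_lit 5) (nat_lit 97) (nat_lit 5) (nat_lit 471) (nat_lit 357) (nat_lit 312)) (XT.nd (nat_lit 78) (nat_lit 304) (nat_lit 0) (XT.lf (nat_lit 0) (nat_lit 3890101243) (nat_lit 380) (nat_lit 1438350663) (nat_lit 76) (nat_lit 6102894583) (nat_lit 96) (nat_lit 5) (nat_lit 101) (nat_lit 5) (nat_lit 97) (nat_lit 5) (nat_lit 472) (nat_lit 357) (nat_lit 311)) (XT.lf (nat_lit 0) (nat_lit 6210161084) (nat_lit 304) (nat_lit 1469371046) (nat_lit 380) (nat_lit 3884358227) (nat_lit 92) (nat_lit 5) (nat_lit 96) (nat_lit 5) (nat_lit 97) (nat_lit 5) (nat_lit 473) (nat_lit 357) (nat_lit 310)))) (XT.nd (nat_lit 78) (nat_lit 304) (nat_lit 0) (XT.lf (nat_lit 0) (nat_lit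 2278653723) (nat_lit 304) (nat_lit 9264885222) (nat_lit 380) (nat_lit 155579438) (nat_lit 88) (nat_lit 5) (nat_lit 92) (nat_lit 5) (nat_lit 93) (nat_lit 5) (nat_lit 474) (nat_lit 357) (nat_lit 309)) (XT.nd (nat_lit 78) (nat_lit 228) (nat_lit 0) (XT.lf (nat_lit 0) (nat_lit 3604190066) (nat_lit 380) (nat_lit 1801246950) (nat_lit 76) (nat_lit 6431063827) (nat_lit 87) (nat_lit 5) (nat_lit 92) (nat_lit 5) (nat_lit 88) (nat_lit 5) (nat_lit 475) (nat_lit 357) (nat_lit 308)) (XT.lf (nat_lit 0) (nat_lit 5981580699) (nat_lit 228) (nat_lit 1453507002) (nat_lit 304) (nat_lit 4541570872) (nat_lit 84) (nat_lit 5) (nat_lit 87) (nat_lit 5) (nat_lit 88) (nat_lit 5) (nat_lit 476) (nat_lit 357) (nat_lit 307))))))))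
noncomputable def xc40 : XT := (XT.nd (nat_lit 1638) (nat_lit 988) (nat_lit 0) (XT.nd (nat_lit 780) (nat_lit 1672) (nat_lit 0) (XT.nd (nat_lit 390) (nat_lit 760) (nat_lit 0) (XT.nd (nat_lit 156) (nat_lit 608) (nat_lit 0) (XT.nd (nat_lit 78) (nat_lit 76) (nat_lit 0) (XT.lf (nat_lit 0) (nat_lit 1765026463) (nat_lit 304) (nat_lit 9577325286) (nat_lit 380) (nat_lit 777281081) (nat_lit 80) (nat_lit 5) (nat_lit 84) (nat_lit 5) (nat_lit 85) (nat_lit 5) (nat_lit 477) (nat_lit 357) (nat_lit 306)) (XT.lf (nat_lit 0) (nat_lit 3031734567) (nat_lit 380) (nat_lit 2599359659) (nat_lit 76) (nat_lit 6633790660) (nat_lit 79) (nat_lit 5) (nat_lit 84) (nat_lit 5) (nat_lit 80) (nat_lit 5) (nat_lit 478) (nat_lit 357) (nat_lit 305))) (XT.nd (nat_lit 78) (nat_lit 380) (nat_lit 0) (XT.lf (nat_lit 0) (nat_lit 5310273249) (nat_lit 228) (nat_lit 1591011715) (nat_lit 304) (nat_lit 5511766878) (nat_lit 76) (nat_lit 5) (nat_lit 79) (nat_lit 5) (nat_lit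 80) (nat_lit 5) (nat_lit 479) (nat_lit 357) (nat_lit 304)) (XT.nd (nat_lit 78) (nat_lit 76) (nat_lit 0) (XT.lf (nat_lit 0) (nat_lit 777742338) (nat_lit 304) (nat_lit 10069985775) (nat_lit 380) (nat_lit 1716471696) (nat_lit 72) (nat_lit 5) (nat_lit 76) (nat_lit 5) (nat_lit 77) (nat_lit 5) (nat_lit 480) (nat_lit 357) (nat_lit 303)) (XT.lf (nat_lit 0) (nat_lit 2145539469) (nat_lit 380) (nat_lit 3895624381) (nat_lit 76) (nat_lit 6676553095) (nat_lit 71) (nat_lit 5) (nat_lit 76) (nat_lit 5) (nat_lit 72) (nat_lit 5) (nat_lit 481) (nat_lit 357) (nat_lit 302))))) (XT.nd (nat_lit 156) (nat_lit 532) (nat_lit 0) (XT.nd (nat_lit 78) (nat_lit 0) (nat_lit 0) (XT.lf (nat_lit 0) (nat_lit 4131610953) (nat_lit 228) (nat_lit 1918370646) (nat_lit 304) (nat_lit 6824339684) (nat_lit 68) (nat_lit 5) (nat_lit 71) (nat_lit 5) (nat_lit 72) (nat_lit 5) (nat_lit 482) (nat_lit 357) (nat_lit 301)) (XT.lf (nat_lit 0) (nat_lit 10035181495) (nat_lit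 304) (nat_lit 740778238) (nat_lit 76) (nat_lit 2258051713) (nat_lit 68) (nat_lit 5) (nat_lit 72) (nat_lit 5) (nat_lit 69) (nat_lit 5) (nat_lit 483) (nat_lit 357) (nat_lit 300))) (XT.nd (nat_lit 78) (nat_lit 228) (nat_lit 0) (XT.lf (nat_lit 0) (nat_lit 914781777) (nat_lit 304) (nat_lit 5759507639) (nat_lit 76) (nat_lit 6522026812) (nat_lit 64) (nat_lit 5) (nat_lit 68) (nat_lit 5) (nat_lit 65) (nat_lit 5) (nat_lit 484) (nat_lit 357) (nat_lit 299)) (XT.nd (nat_lit 78) (nat_lit 0) (nat_lit 0) (XT.lf (nat_lit 0) (nat_lit 2374218404) (nat_lit 228) (nat_lit 2475088580) (nat_lit 304) (nat_lit 8512514471) (nat_lit 61) (nat_lit 5) (nat_lit 64) (nat_lit 5) (nat_lit 65) (nat_lit 5) (nat_lit 485) (nat_lit 357) (nat_lit 298)) (XT.lf (nat_lit 0) (nat_lit 8875671377) (nat_lit 304) (nat_lit 2856588100) (nat_lit 76) (nat_lit 1798120913) (nat_lit 61) (nat_lit 5) (nat_lit 65) (nat_lit 5) (nat_lit 62) (nat_lit 5) (nat_lit 486) (nat_lit 357)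 (nat_lit 297)))))) (XT.nd (nat_lit 390) (nat_lit 836) (nat_lit 0) (XT.nd (nat_lit 156) (nat_lit 532) (nat_lit 0) (XT.nd (nat_lit 78) (nat_lit 76) (nat_lit 0) (XT.lf (nat_lit 0) (nat_lit 5429691139) (nat_lit 228) (nat_lit 7567755641) (nat_lit 304) (nat_lit 704572496) (nat_lit 58) (nat_lit 5) (nat_lit 61) (nat_lit 5) (nat_lit 62) (nat_lit 5) (nat_lit 487) (nat_lit 357) (nat_lit 296)) (XT.lf (nat_lit 0) (nat_lit 3263572066) (nat_lit 304) (nat_lit 40262818) (nat_lit 76) (nat_lit 10573178395) (nat_lit 57) (nat_lit 5) (nat_lit 61) (nat_lit 5) (nat_lit 58) (nat_lit 5) (nat_lit 488) (nat_lit 357) (nat_lit 295))) (XT.nd (nat_lit 78) (nat_lit 304) (nat_lit 0) (XT.lf (nat_lit 0) (nat_lit 7327245818) (nat_lit 304) (nat_lit 5661147640) (nat_lit 76) (nat_lit 1066514626) (nat_lit 54) (nat_lit 5) (nat_lit 58) (nat_lit 5) (nat_lit 55) (nat_lit 5) (nat_lit 489) (nat_lit 357) (nat_lit 294)) (XT.nd (nat_lit 78) (nat_lit 76) (nat_lit 0)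 (XT.lf (nat_lit 0) (nat_lit 2713161349) (nat_lit 228) (nat_lit 8762979228) (nat_lit 304) (nat_lit 2760147212) (nat_lit 51) (nat_lit 5) (nat_lit 54) (nat_lit 5) (nat_lit 55) (nat_lit 5) (nat_lit 490) (nat_lit 357) (nat_lit 293)) (XT.lf (nat_lit 0) (nat_lit 1272330379) (nat_lit 304) (nat_lit 3158719840) (nat_lit 76) (nat_lit 9990033754) (nat_lit 50) (nat_lit 5) (nat_lit 54) (nat_lit 5) (nat_lit 51) (nat_lit 5) (nat_lit 491) (nat_lit 357) (nat_lit 292))))) (XT.nd (nat_lit 234) (nat_lit 456) (nat_lit 0) (XT.nd (nat_lit 78) (nat_lit 228) (nat_lit 0) (XT.lf (nat_lit 0) (nat_lit 5348422948) (nat_lit 228) (nat_lit 9244342350) (nat_lit 76) (nat_lit 16453030) (nat_lit 48) (nat_lit 5) (nat_lit 51) (nat_lit 5) (nat_lit 49) (nat_lit 5) (nat_lit 492) (nat_lit 357) (nat_lit 291)) (XT.nd (nat_lit 78) (nat_lit 228) (nat_lit 0) (XT.lf (nat_lit 0) (nat_lit 9521805078) (nat_lit 228) (nat_lit 788631175) (nat_lit 76) (nat_lit 4490369264)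 (nat_lit 48) (nat_lit 5) (nat_lit 51) (nat_lit 5) (nat_lit 49) (nat_lit 5) (nat_lit 493) (nat_lit 357) (nat_lit 290)) (XT.lf (nat_lit 0) (nat_lit 7880513621) (nat_lit 228) (nat_lit 5915077298) (nat_lit 304) (nat_lit 1200300204) (nat_lit 45) (nat_lit 5) (nat_lit 48) (nat_lit 5) (nat_lit 49) (nat_lit 5) (nat_lit 494) (nat_lit 357) (nat_lit 289)))) (XT.nd (nat_lit 78) (nat_lit 228) (nat_lit 0) (XT.lf (nat_lit 0) (nat_lit 1480010417) (nat_lit 152) (nat_lit 1421910372) (nat_lit 228) (nat_lit 12292963129) (nat_lit 42) (nat_lit 5) (nat_lit 44) (nat_lit 5) (nat_lit 45) (nat_lit 5) (nat_lit 495) (nat_lit 357) (nat_lit 288)) (XT.nd (nat_lit 78) (nat_lit 228) (nat_lit 0) (XT.lf (nat_lit 0) (nat_lit 7104675889) (nat_lit 228) (nat_lit 5141172426) (nat_lit 76) (nat_lit 3151163424) (nat_lit 42) (nat_lit 5) (nat_lit 45) (nat_lit 5) (nat_lit 43) (nat_lit 5) (nat_lit 496) (nat_lit 357) (nat_lit 287)) (XT.lf (nat_lit 0) (nat_lit 3583507509)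 (nat_lit 228) (nat_lit 7807287650) (nat_lit 304) (nat_lit 4212405759) (nat_lit 39) (nat_lit 5) (nat_lit 42) (nat_lit 5) (nat_lit 43) (nat_lit 5) (nat_lit 497) (nat_lit 357) (nat_lit 286))))))) (XT.nd (nat_lit 53664) (nat_lit 0) (nat_lit 18088) (XT.nd (nat_lit 390) (nat_lit 532) (nat_lit 0) (XT.nd (nat_lit 156) (nat_lit 228) (nat_lit 0) (XT.nd (nat_lit 78) (nat_lit 228) (nat_lit 0) (XT.lf (nat_lit 0) (nat_lit 12494676192) (nat_lit 228) (nat_lit 3269366332) (nat_lit 304) (nat_lit 49448129) (nat_lit 39) (nat_lit 5) (nat_lit 42) (nat_lit 5) (nat_lit 43) (nat_lit 5) (nat_lit 498) (nat_lit 357) (nat_lit 285)) (XT.lf (nat_lit 0) (nat_lit 4154147620) (nat_lit 228) (nat_lit 10491916346) (nat_lit 76) (nat_lit 1381133543) (nat_lit 36) (nat_lit 5) (nat_lit 39) (nat_lit 5) (nat_lit 37) (nat_lit 5) (nat_lit 499) (nat_lit 357) (nat_lit 284))) (XT.nd (nat_lit 78) (nat_lit 228) (nat_lit 0) (XT.lf (nat_lit 0) (nat_lit 8452674230) (nat_lit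 228) (nat_lit 1712535775) (nat_lit 76) (nat_lit 6079736144) (nat_lit 36) (nat_lit 5) (nat_lit 39) (nat_lit 5) (nat_lit 37) (nat_lit 5) (nat_lit 500) (nat_lit 357) (nat_lit 283)) (XT.nd (nat_lit 78) (nat_lit 76) (nat_lit 0) (XT.lf (nat_lit 0) (nat_lit 7281933924) (nat_lit 152) (nat_lit 5570605341) (nat_lit 228) (nat_lit 3614207652) (nat_lit 34) (nat_lit 5) (nat_lit 36) (nat_lit 5) (nat_lit 37) (nat_lit 5) (nat_lit 501) (nat_lit 357) (nat_lit 282)) (XT.lf (nat_lit 0) (nat_lit 618634317) (nat_lit 228) (nat_lit 273588213) (nat_lit 76) (nat_lit 15801087291) (nat_lit 33) (nat_lit 5) (nat_lit 36) (nat_lit 5) (nat_lit 34) (nat_lit 5) (nat_lit 502) (nat_lit 357) (nat_lit 281))))) (XT.nd (nat_lit 156) (nat_lit 228) (nat_lit 0) (XT.nd (nat_lit 78) (nat_lit 152) (nat_lit 0) (XT.lf (nat_lit 0) (nat_lit 4939603056) (nat_lit 228) (nat_lit 8095906412) (nat_lit 76) (nat_lit 3887383688) (nat_lit 31) (nat_lit 5) (nat_lit 34) (nat_lit 5)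 (nat_lit 32) (nat_lit 5) (nat_lit 503) (nat_lit 357) (nat_lit 280)) (XT.lf (nat_lit 0) (nat_lit 907155733) (nat_lit 152) (nat_lit 8422350738) (nat_lit 228) (nat_lit 7827915551) (nat_lit 29) (nat_lit 5) (nat_lit 31) (nat_lit 5) (nat_lit 32) (nat_lit 5) (nat_lit 504) (nat_lit 357) (nat_lit 279))) (XT.nd (nat_lit 78) (nat_lit 228) (nat_lit 0) (XT.lf (nat_lit 0) (nat_lit 10145312390) (nat_lit 152) (nat_lit 3685347179) (nat_lit 228) (nat_lit 3565516953) (nat_lit 29) (nat_lit 5) (nat_lit 31) (nat_lit 5) (nat_lit 32) (nat_lit 5) (nat_lit 505) (nat_lit 357) (nat_lit 278)) (XT.nd (nat_lit 52962) (nat_lit 0) (nat_lit 24472) (XT.lf (nat_lit 0) (nat_lit 761100574) (nat_lit 228) (nat_lit 15753130957) (nat_lit 76) (nat_lit 1125592373) (nat_lit 26) (nat_lit 5) (nat_lit 29) (nat_lit 5) (nat_lit 27) (nat_lit 5) (nat_lit 506) (nat_lit 357) (nat_lit 277)) (XT.lf (nat_lit 0) (nat_lit 1041163941) (nat_lit 836) (nat_lit 1331769823) (nat_lit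 836) (nat_lit 1331769823) (nat_lit 348) (nat_lit 4) (nat_lit 359) (nat_lit 5) (nat_lit 359) (nat_lit 4) (nat_lit 424) (nat_lit 358) (nat_lit 358)))))) (XT.nd (nat_lit 390) (nat_lit 3800) (nat_lit 0) (XT.nd (nat_lit 156) (nat_lit 1672) (nat_lit 0) (XT.nd (nat_lit 78) (nat_lit 0) (nat_lit 0) (XT.lf (nat_lit 0) (nat_lit 120974875) (nat_lit 836) (nat_lit 689386214) (nat_lit 912) (nat_lit 6644927046) (nat_lit 336) (nat_lit 5) (nat_lit 347) (nat_lit 5) (nat_lit 348) (nat_lit 4) (nat_lit 425) (nat_lit 358) (nat_lit 357)) (XT.lf (nat_lit 0) (nat_lit 4296808075) (nat_lit 912) (nat_lit 1851894582) (nat_lit 0) (nat_lit 1353489982) (nat_lit 336) (nat_lit 5) (nat_lit 348) (nat_lit 4) (nat_lit 336) (nat_lit 4) (nat_lit 426) (nat_lit 358) (nat_lit 356))) (XT.nd (nat_lit 78) (nat_lit 760) (nat_lit 0) (XT.lf (nat_lit 0) (nat_lit 262778245) (nat_lit 912) (nat_lit 3841023846) (nat_lit 76) (nat_lit 3446949182) (nat_lit 324) (nat_lit 5)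 (nat_lit 336) (nat_lit 5) (nat_lit 325) (nat_lit 4) (nat_lit 427) (nat_lit 358) (nat_lit 355)) (XT.nd (nat_lit 78) (nat_lit 0) (nat_lit 0) (XT.lf (nat_lit 0) (nat_lit 1735910237) (nat_lit 760) (nat_lit 1981047086) (nat_lit 836) (nat_lit 3883739359) (nat_lit 314) (nat_lit 5) (nat_lit 324) (nat_lit 5) (nat_lit 325) (nat_lit 4) (nat_lit 428) (nat_lit 358) (nat_lit 354)) (XT.lf (nat_lit 0) (nat_lit 7203842020) (nat_lit 836) (nat_lit 249999320) (nat_lit 0) (nat_lit 198557433) (nat_lit 314) (nat_lit 5) (nat_lit 325) (nat_lit 4) (nat_lit 314) (nat_lit 4) (nat_lit 429) (nat_lit 358) (nat_lit 353))))) (XT.nd (nat_lit 234) (nat_lit 1444) (nat_lit 0) (XT.nd (nat_lit 78) (nat_lit 1520) (nat_lit 0) (XT.lf (nat_lit 0) (nat_lit 3001453903) (nat_lit 836) (nat_lit 2262077345) (nat_lit 76) (nat_lit 2441512040) (nat_lit 303) (nat_lit 5) (nat_lit 314) (nat_lit 5) (nat_lit 304) (nat_lit 4) (nat_lit 430) (nat_lit 358) (nat_lit 352)) (XT.nd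 (nat_lit 78) (nat_lit 836) (nat_lit 0) (XT.lf (nat_lit 0) (nat_lit 3464040799) (nat_lit 684) (nat_lit 3012646142) (nat_lit 760) (nat_lit 1282778358) (nat_lit 294) (nat_lit 5) (nat_lit 303) (nat_lit 5) (nat_lit 304) (nat_lit 4) (nat_lit 431) (nat_lit 358) (nat_lit 351)) (XT.lf (nat_lit 0) (nat_lit 1452041405) (nat_lit 760) (nat_lit 688532359) (nat_lit 836) (nat_lit 5674881578) (nat_lit 283) (nat_lit 5) (nat_lit 293) (nat_lit 5) (nat_lit 294) (nat_lit 5) (nat_lit 432) (nat_lit 358) (nat_lit 350)))) (XT.nd (nat_lit 78) (nat_lit 1444) (nat_lit 0) (XT.lf (nat_lit 0) (nat_lit 5594183375) (nat_lit 836) (nat_lit 592848087) (nat_lit 76) (nat_lit 1685811634) (nat_lit 283) (nat_lit 5) (nat_lit 294) (nat_lit 5) (nat_lit 284) (nat_lit 4) (nat_lit 433) (nat_lit 358) (nat_lit 349)) (XT.nd (nat_lit 78) (nat_lit 684) (nat_lit 0) (XT.lf (nat_lit 0) (nat_lit 1148860471) (nat_lit 760) (nat_lit 2653977942) (nat_lit 76) (nat_lit 4128833602)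 (nat_lit 273) (nat_lit 5) (nat_lit 283) (nat_lit 5) (nat_lit 274) (nat_lit 5) (nat_lit 434) (nat_lit 358) (nat_lit 348)) (XT.lf (nat_lit 0) (nat_lit 3236593130) (nat_lit 684) (nat_lit 1343372136) (nat_lit 760) (nat_lit 3412125380) (nat_lit 264) (nat_lit 5) (nat_lit 273) (nat_lit 5) (nat_lit 274) (nat_lit 5) (nat_lit 435) (nat_lit 358) (nat_lit 347))))))))
noncomputable def xc41 : XT := (XT.nd (nat_lit 1638) (nat_lit 5624) (nat_lit 0) (XT.nd (nat_lit 780) (nat_lit 4028) (nat_lit 0) (XT.nd (nat_lit 390) (nat_lit 1824) (nat_lit 0) (XT.nd (nat_lit 156) (nat_lit 1900) (nat_lit 0) (XT.nd (nat_lit 78) (nat_lit 76) (nat_lit 0) (XT.lf (nat_lit 0) (nat_lit 1161683715) (nat_lit 608) (nat_lit 6892151425) (nat_lit 684) (nat_lit 424435) (nat_lit 256) (nat_lit 5) (nat_lit 264) (nat_lit 5) (nat_lit 265) (nat_lit 4) (nat_lit 436) (nat_lit 358) (nat_lit 346)) (XT.lf (nat_lit 0) (nat_lit 3416274562) (nat_lit 684) (nat_lit 960839551) (nat_lit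 76) (nat_lit 3740481798) (nat_lit 255) (nat_lit 5) (nat_lit 264) (nat_lit 5) (nat_lit 256) (nat_lit 5) (nat_lit 437) (nat_lit 358) (nat_lit 345))) (XT.nd (nat_lit 78) (nat_lit 1292) (nat_lit 0) (XT.lf (nat_lit 0) (nat_lit 5083873841) (nat_lit 608) (nat_lit 1792964045) (nat_lit 684) (nat_lit 1305873666) (nat_lit 247) (nat_lit 5) (nat_lit 255) (nat_lit 5) (nat_lit 256) (nat_lit 5) (nat_lit 438) (nat_lit 358) (nat_lit 344)) (XT.nd (nat_lit 78) (nat_lit 608) (nat_lit 0) (XT.lf (nat_lit 0) (nat_lit 2103358260) (nat_lit 684) (nat_lit 5289423561) (nat_lit 76) (nat_lit 856606556) (nat_lit 238) (nat_lit 5) (nat_lit 247) (nat_lit 5) (nat_lit 239) (nat_lit 5) (nat_lit 439) (nat_lit 358) (nat_lit 343)) (XT.lf (nat_lit 0) (nat_lit 781342134) (nat_lit 608) (nat_lit 4763184500) (nat_lit 684) (nat_lit 2773096728) (nat_lit 230) (nat_lit 5) (nat_lit 238) (nat_lit 5) (nat_lit 239) (nat_lit 5) (nat_lit 440) (nat_lit 358) (nat_lit 342)))))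 (XT.nd (nat_lit 156) (nat_lit 1216) (nat_lit 0) (XT.nd (nat_lit 78) (nat_lit 532) (nat_lit 0) (XT.lf (nat_lit 0) (nat_lit 637861604) (nat_lit 684) (nat_lit 1419358853) (nat_lit 76) (nat_lit 6330350734) (nat_lit 229) (nat_lit 5) (nat_lit 238) (nat_lit 5) (nat_lit 230) (nat_lit 5) (nat_lit 441) (nat_lit 358) (nat_lit 341)) (XT.lf (nat_lit 0) (nat_lit 4060533596) (nat_lit 608) (nat_lit 3671507826) (nat_lit 76) (nat_lit 726918164) (nat_lit 222) (nat_lit 5) (nat_lit 230) (nat_lit 5) (nat_lit 223) (nat_lit 5) (nat_lit 442) (nat_lit 358) (nat_lit 340))) (XT.nd (nat_lit 78) (nat_lit 608) (nat_lit 0) (XT.lf (nat_lit 0) (nat_lit 2553262706) (nat_lit 608) (nat_lit 4983389629) (nat_lit 684) (nat_lit 995443882) (nat_lit 214) (nat_lit 5) (nat_lit 222) (nat_lit 5) (nat_lit 223) (nat_lit 5) (nat_lit 443) (nat_lit 358) (nat_lit 339)) (XT.nd (nat_lit 78) (nat_lit 0) (nat_lit 0) (XT.lf (nat_lit 0) (nat_lit 260416084) (nat_lit 532) (nat_lit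 2154637397) (nat_lit 608) (nat_lit 6191901705) (nat_lit 206) (nat_lit 5) (nat_lit 213) (nat_lit 5) (nat_lit 214) (nat_lit 5) (nat_lit 444) (nat_lit 358) (nat_lit 338)) (XT.lf (nat_lit 0) (nat_lit 5871487536) (nat_lit 608) (nat_lit 2061972436) (nat_lit 76) (nat_lit 749917812) (nat_lit 206) (nat_lit 5) (nat_lit 214) (nat_lit 5) (nat_lit 207) (nat_lit 5) (nat_lit 445) (nat_lit 358) (nat_lit 337)))))) (XT.nd (nat_lit 390) (nat_lit 1900) (nat_lit 0) (XT.nd (nat_lit 156) (nat_lit 1064) (nat_lit 0) (XT.nd (nat_lit 78) (nat_lit 456) (nat_lit 0) (XT.lf (nat_lit 0) (nat_lit 616576432) (nat_lit 608) (nat_lit 4446879234) (nat_lit 76) (nat_lit 3698025180) (nat_lit 198) (nat_lit 5) (nat_lit 206) (nat_lit 5) (nat_lit 199) (nat_lit 5) (nat_lit 446) (nat_lit 358) (nat_lit 336)) (XT.lf (nat_lit 0) (nat_lit 1940358075) (nat_lit 456) (nat_lit 2109348222) (nat_lit 532) (nat_lit 4791611095) (nat_lit 192) (nat_lit 5) (nat_lit 198) (nat_lit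 5) (nat_lit 199) (nat_lit 5) (nat_lit 447) (nat_lit 358) (nat_lit 335))) (XT.nd (nat_lit 78) (nat_lit 1064) (nat_lit 0) (XT.lf (nat_lit 0) (nat_lit 7535032757) (nat_lit 532) (nat_lit 485227814) (nat_lit 76) (nat_lit 902837117) (nat_lit 192) (nat_lit 5) (nat_lit 199) (nat_lit 5) (nat_lit 193) (nat_lit 5) (nat_lit 448) (nat_lit 358) (nat_lit 334)) (XT.nd (nat_lit 78) (nat_lit 456) (nat_lit 0) (XT.lf (nat_lit 0) (nat_lit 2058145160) (nat_lit 608) (nat_lit 2966999862) (nat_lit 76) (nat_lit 3981076643) (nat_lit 184) (nat_lit 5) (nat_lit 192) (nat_lit 5) (nat_lit 185) (nat_lit 5) (nat_lit 449) (nat_lit 358) (nat_lit 333)) (XT.lf (nat_lit 0) (nat_lit 3576050585) (nat_lit 456) (nat_lit 1954004227) (nat_lit 532) (nat_lit 3561279256) (nat_lit 178) (nat_lit 5) (nat_lit 184) (nat_lit 5) (nat_lit 185) (nat_lit 5) (nat_lit 450) (nat_lit 358) (nat_lit 332))))) (XT.nd (nat_lit 234) (nat_lit 912) (nat_lit 0) (XT.nd (nat_lit 78) (nat_lit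 532) (nat_lit 0) (XT.lf (nat_lit 0) (nat_lit 1046514181) (nat_lit 456) (nat_lit 8008635612) (nat_lit 532) (nat_lit 123340336) (nat_lit 172) (nat_lit 5) (nat_lit 178) (nat_lit 5) (nat_lit 179) (nat_lit 5) (nat_lit 451) (nat_lit 358) (nat_lit 331)) (XT.nd (nat_lit 78) (nat_lit 456) (nat_lit 0) (XT.lf (nat_lit 0) (nat_lit 3338621617) (nat_lit 532) (nat_lit 1559564765) (nat_lit 76) (nat_lit 4368786555) (nat_lit 171) (nat_lit 5) (nat_lit 178) (nat_lit 5) (nat_lit 172) (nat_lit 5) (nat_lit 452) (nat_lit 358) (nat_lit 330)) (XT.lf (nat_lit 0) (nat_lit 5140234036) (nat_lit 456) (nat_lit 1711745554) (nat_lit 532) (nat_lit 2505568749) (nat_lit 165) (nat_lit 5) (nat_lit 171) (nat_lit 5) (nat_lit 172) (nat_lit 5) (nat_lit 453) (nat_lit 358) (nat_lit 329)))) (XT.nd (nat_lit 78) (nat_lit 380) (nat_lit 0) (XT.lf (nat_lit 0) (nat_lit 960192695) (nat_lit 532) (nat_lit 6959434232) (nat_lit 76) (nat_lit 1530446131) (nat_lit 158) (nat_lit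 5) (nat_lit 165) (nat_lit 5) (nat_lit 159) (nat_lit 5) (nat_lit 454) (nat_lit 358) (nat_lit 328)) (XT.nd (nat_lit 78) (nat_lit 380) (nat_lit 0) (XT.lf (nat_lit 0) (nat_lit 4452556055) (nat_lit 532) (nat_lit 253332461) (nat_lit 76) (nat_lit 4838426316) (nat_lit 158) (nat_lit 5) (nat_lit 165) (nat_lit 5) (nat_lit 159) (nat_lit 5) (nat_lit 455) (nat_lit 358) (nat_lit 327)) (XT.lf (nat_lit 0) (nat_lit 6603645055) (nat_lit 380) (nat_lit 1405939036) (nat_lit 456) (nat_lit 1630975238) (nat_lit 153) (nat_lit 5) (nat_lit 158) (nat_lit 5) (nat_lit 159) (nat_lit 5) (nat_lit 456) (nat_lit 358) (nat_lit 326))))))) (XT.nd (nat_lit 858) (nat_lit 2356) (nat_lit 0) (XT.nd (nat_lit 390) (nat_lit 1520) (nat_lit 0) (XT.nd (nat_lit 156) (nat_lit 836) (nat_lit 0) (XT.nd (nat_lit 78) (nat_lit 380) (nat_lit 0) (XT.lf (nat_lit 0) (nat_lit 1865643055) (nat_lit 532) (nat_lit 5921410383) (nat_lit 76) (nat_lit 1951611864) (nat_lit 146) (nat_lit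 5) (nat_lit 153) (nat_lit 5) (nat_lit 147) (nat_lit 5) (nat_lit 457) (nat_lit 358) (nat_lit 325)) (XT.lf (nat_lit 0) (nat_lit 932934835) (nat_lit 380) (nat_lit 4465771358) (nat_lit 456) (nat_lit 4440057976) (nat_lit 141) (nat_lit 5) (nat_lit 146) (nat_lit 5) (nat_lit 147) (nat_lit 5) (nat_lit 458) (nat_lit 358) (nat_lit 324))) (XT.nd (nat_lit 78) (nat_lit 836) (nat_lit 0) (XT.lf (nat_lit 0) (nat_lit 7934694749) (nat_lit 380) (nat_lit 1060398404) (nat_lit 456) (nat_lit 945931761) (nat_lit 141) (nat_lit 5) (nat_lit 146) (nat_lit 5) (nat_lit 147) (nat_lit 5) (nat_lit 459) (nat_lit 358) (nat_lit 323)) (XT.nd (nat_lit 78) (nat_lit 380) (nat_lit 0) (XT.lf (nat_lit 0) (nat_lit 2585652286) (nat_lit 456) (nat_lit 5050450721) (nat_lit 76) (nat_lit 2408862306) (nat_lit 135) (nat_lit 5) (nat_lit 141) (nat_lit 5) (nat_lit 136) (nat_lit 5) (nat_lit 460) (nat_lit 358) (nat_lit 322)) (XT.lf (nat_lit 0) (nat_lit 1954589082) (nat_lit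 380) (nat_lit 4207739058) (nat_lit 456) (nat_lit 3988801197) (nat_lit 130) (nat_lit 5) (nat_lit 135) (nat_lit 5) (nat_lit 136) (nat_lit 5) (nat_lit 461) (nat_lit 358) (nat_lit 321))))) (XT.nd (nat_lit 234) (nat_lit 760) (nat_lit 0) (XT.nd (nat_lit 78) (nat_lit 760) (nat_lit 0) (XT.lf (nat_lit 0) (nat_lit 9099120367) (nat_lit 380) (nat_lit 699613435) (nat_lit 456) (nat_lit 460931064) (nat_lit 130) (nat_lit 5) (nat_lit 135) (nat_lit 5) (nat_lit 136) (nat_lit 5) (nat_lit 462) (nat_lit 358) (nat_lit 320)) (XT.nd (nat_lit 78) (nat_lit 304) (nat_lit 0) (XT.lf (nat_lit 0) (nat_lit 3109169502) (nat_lit 456) (nat_lit 4382783119) (nat_lit 76) (nat_lit 2877766313) (nat_lit 124) (nat_lit 5) (nat_lit 130) (nat_lit 5) (nat_lit 125) (nat_lit 5) (nat_lit 463) (nat_lit 358) (nat_lit 319)) (XT.lf (nat_lit 0) (nat_lit 2771256301) (nat_lit 304) (nat_lit 3958900847) (nat_lit 380) (nat_lit 3752054311) (nat_lit 120) (nat_lit 5) (nat_lit 124)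 (nat_lit 5) (nat_lit 125) (nat_lit 5) (nat_lit 464) (nat_lit 358) (nat_lit 318)))) (XT.nd (nat_lit 78) (nat_lit 760) (nat_lit 0) (XT.lf (nat_lit 0) (nat_lit 10059606986) (nat_lit 304) (nat_lit 348990079) (nat_lit 380) (nat_lit 188667343) (nat_lit 120) (nat_lit 5) (nat_lit 124) (nat_lit 5) (nat_lit 125) (nat_lit 5) (nat_lit 465) (nat_lit 358) (nat_lit 317)) (XT.nd (nat_lit 78) (nat_lit 304) (nat_lit 0) (XT.lf (nat_lit 0) (nat_lit 3422921083) (nat_lit 456) (nat_lit 3957910274) (nat_lit 76) (nat_lit 3332907806) (nat_lit 114) (nat_lit 5) (nat_lit 120) (nat_lit 5) (nat_lit 115) (nat_lit 5) (nat_lit 466) (nat_lit 358) (nat_lit 316)) (XT.lf (nat_lit 0) (nat_lit 3342538497) (nat_lit 304) (nat_lit 3745787545) (nat_lit 380) (nat_lit 3744520788) (nat_lit 110) (nat_lit 5) (nat_lit 114) (nat_lit 5) (nat_lit 115) (nat_lit 5) (nat_lit 467) (nat_lit 358) (nat_lit 315)))))) (XT.nd (nat_lit 390) (nat_lit 1292) (nat_lit 0) (XT.nd (nat_lit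 156) (nat_lit 684) (nat_lit 0) (XT.nd (nat_lit 78) (nat_lit 380) (nat_lit 0) (XT.lf (nat_lit 0) (nat_lit 10775375546) (nat_lit 304) (nat_lit 35103729) (nat_lit 380) (nat_lit 144198940) (nat_lit 110) (nat_lit 5) (nat_lit 114) (nat_lit 5) (nat_lit 115) (nat_lit 5) (nat_lit 468) (nat_lit 358) (nat_lit 314)) (XT.lf (nat_lit 0) (nat_lit 3511241437) (nat_lit 380) (nat_lit 3819039354) (nat_lit 76) (nat_lit 3747629582) (nat_lit 105) (nat_lit 5) (nat_lit 110) (nat_lit 5) (nat_lit 106) (nat_lit 5) (nat_lit 469) (nat_lit 358) (nat_lit 313))) (XT.nd (nat_lit 78) (nat_lit 380) (nat_lit 0) (XT.lf (nat_lit 0) (nat_lit 3624204587) (nat_lit 304) (nat_lit 3596317524) (nat_lit 380) (nat_lit 3983422528) (nat_lit 101) (nat_lit 5) (nat_lit 105) (nat_lit 5) (nat_lit 106) (nat_lit 5) (nat_lit 470) (nat_lit 358) (nat_lit 312)) (XT.nd (nat_lit 78) (nat_lit 380) (nat_lit 0) (XT.lf (nat_lit 0) (nat_lit 10989090817) (nat_lit 380) (nat_lit 132491338)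 (nat_lit 76) (nat_lit 211224967) (nat_lit 101) (nat_lit 5) (nat_lit 106) (nat_lit 5) (nat_lit 102) (nat_lit 5) (nat_lit 471) (nat_lit 358) (nat_lit 311)) (XT.lf (nat_lit 0) (nat_lit 3355880658) (nat_lit 380) (nat_lit 4013551404) (nat_lit 76) (nat_lit 4093760974) (nat_lit 96) (nat_lit 5) (nat_lit 101) (nat_lit 5) (nat_lit 97) (nat_lit 5) (nat_lit 472) (nat_lit 358) (nat_lit 310))))) (XT.nd (nat_lit 234) (nat_lit 608) (nat_lit 0) (XT.nd (nat_lit 78) (nat_lit 380) (nat_lit 0) (XT.lf (nat_lit 0) (nat_lit 3567706815) (nat_lit 304) (nat_lit 3540080109) (nat_lit 380) (nat_lit 4488704941) (nat_lit 92) (nat_lit 5) (nat_lit 96) (nat_lit 5) (nat_lit 97) (nat_lit 5) (nat_lit 473) (nat_lit 358) (nat_lit 309)) (XT.nd (nat_lit 78) (nat_lit 380) (nat_lit 0) (XT.lf (nat_lit 0) (nat_lit 10923296624) (nat_lit 380) (nat_lit 445554124) (nat_lit 76) (nat_lit 363843467) (nat_lit 92) (nat_lit 5) (nat_lit 97) (nat_lit 5) (nat_lit 93) (nat_lit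 5) (nat_lit 474) (nat_lit 358) (nat_lit 308)) (XT.lf (nat_lit 0) (nat_lit 2935787062) (nat_lit 380) (nat_lit 4593515108) (nat_lit 76) (nat_lit 4341326813) (nat_lit 87) (nat_lit 5) (nat_lit 92) (nat_lit 5) (nat_lit 88) (nat_lit 5) (nat_lit 475) (nat_lit 358) (nat_lit 307)))) (XT.nd (nat_lit 78) (nat_lit 380) (nat_lit 0) (XT.lf (nat_lit 0) (nat_lit 3119651248) (nat_lit 228) (nat_lit 3608639060) (nat_lit 304) (nat_lit 5283268423) (nat_lit 84) (nat_lit 5) (nat_lit 87) (nat_lit 5) (nat_lit 88) (nat_lit 5) (nat_lit 476) (nat_lit 358) (nat_lit 306)) (XT.nd (nat_lit 78) (nat_lit 380) (nat_lit 0) (XT.lf (nat_lit 0) (nat_lit 10590390761) (nat_lit 304) (nat_lit 1173191378) (nat_lit 76) (nat_lit 391858168) (nat_lit 84) (nat_lit 5) (nat_lit 88) (nat_lit 5) (nat_lit 85) (nat_lit 5) (nat_lit 477) (nat_lit 358) (nat_lit 305)) (XT.lf (nat_lit 0) (nat_lit 2226862349) (nat_lit 380) (nat_lit 5616249940) (nat_lit 76) (nat_lit 4458234969)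 (nat_lit 79) (nat_lit 5) (nat_lit 84) (nat_lit 5) (nat_lit 80) (nat_lit 5) (nat_lit 478) (nat_lit 358) (nat_lit 304))))))))
noncomputable def xc42 : XT := (XT.nd (nat_lit 1638) (nat_lit 532) (nat_lit 0) (XT.nd (nat_lit 780) (nat_lit 1596) (nat_lit 0) (XT.nd (nat_lit 390) (nat_lit 836) (nat_lit 0) (XT.nd (nat_lit 156) (nat_lit 608) (nat_lit 0) (XT.nd (nat_lit 78) (nat_lit 0) (nat_lit 0) (XT.lf (nat_lit 0) (nat_lit 2221217159) (nat_lit 228) (nat_lit 3835858996) (nat_lit 304) (nat_lit 6393228605) (nat_lit 76) (nat_lit 5) (nat_lit 79) (nat_lit 5) (nat_lit 80) (nat_lit 5) (nat_lit 479) (nat_lit 358) (nat_lit 303)) (XT.lf (nat_lit 0) (nat_lit 9964708045) (nat_lit 304) (nat_lit 2375941673) (nat_lit 76) (nat_lit 261582973) (nat_lit 76) (nat_lit 5) (nat_lit 80) (nat_lit 5) (nat_lit 77) (nat_lit 5) (nat_lit 480) (nat_lit 358) (nat_lit 302))) (XT.nd (nat_lit 78) (nat_lit 228) (nat_lit 0) (XT.lf (nat_lit 0) (nat_lit 1201686854)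 (nat_lit 380) (nat_lit 7144944257) (nat_lit 76) (nat_lit 4409939502) (nat_lit 71) (nat_lit 5) (nat_lit 76) (nat_lit 5) (nat_lit 72) (nat_lit 5) (nat_lit 481) (nat_lit 358) (nat_lit 301)) (XT.nd (nat_lit 78) (nat_lit 0) (nat_lit 0) (XT.lf (nat_lit 0) (nat_lit 807519581) (nat_lit 228) (nat_lit 4258257858) (nat_lit 304) (nat_lit 7848208066) (nat_lit 68) (nat_lit 5) (nat_lit 71) (nat_lit 5) (nat_lit 72) (nat_lit 5) (nat_lit 482) (nat_lit 358) (nat_lit 300)) (XT.lf (nat_lit 0) (nat_lit 8953324216) (nat_lit 228) (nat_lit 64195124) (nat_lit 304) (nat_lit 4056828945) (nat_lit 68) (nat_lit 5) (nat_lit 71) (nat_lit 5) (nat_lit 72) (nat_lit 5) (nat_lit 483) (nat_lit 358) (nat_lit 299))))) (XT.nd (nat_lit 156) (nat_lit 532) (nat_lit 0) (XT.nd (nat_lit 78) (nat_lit 76) (nat_lit 0) (XT.lf (nat_lit 0) (nat_lit 3987142229) (nat_lit 228) (nat_lit 9077400414) (nat_lit 304) (nat_lit 173057586) (nat_lit 65) (nat_lit 5) (nat_lit 68) (nat_lit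 5) (nat_lit 69) (nat_lit 5) (nat_lit 484) (nat_lit 358) (nat_lit 298)) (XT.lf (nat_lit 0) (nat_lit 3730043864) (nat_lit 304) (nat_lit 1177443648) (nat_lit 76) (nat_lit 8496317541) (nat_lit 64) (nat_lit 5) (nat_lit 68) (nat_lit 5) (nat_lit 65) (nat_lit 5) (nat_lit 485) (nat_lit 358) (nat_lit 297))) (XT.nd (nat_lit 78) (nat_lit 304) (nat_lit 0) (XT.lf (nat_lit 0) (nat_lit 7088053928) (nat_lit 228) (nat_lit 630660215) (nat_lit 304) (nat_lit 5854406919) (nat_lit 61) (nat_lit 5) (nat_lit 64) (nat_lit 5) (nat_lit 65) (nat_lit 5) (nat_lit 486) (nat_lit 358) (nat_lit 296)) (XT.nd (nat_lit 78) (nat_lit 76) (nat_lit 0) (XT.lf (nat_lit 0) (nat_lit 1726562876) (nat_lit 228) (nat_lit 10067947282) (nat_lit 304) (nat_lit 1951172508) (nat_lit 58) (nat_lit 5) (nat_lit 61) (nat_lit 5) (nat_lit 62) (nat_lit 5) (nat_lit 487) (nat_lit 358) (nat_lit 295)) (XT.lf (nat_lit 0) (nat_lit 2015514920) (nat_lit 304) (nat_lit 3809178531) (nat_lit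 76) (nat_lit 8096504230) (nat_lit 57) (nat_lit 5) (nat_lit 61) (nat_lit 5) (nat_lit 58) (nat_lit 5) (nat_lit 488) (nat_lit 358) (nat_lit 294)))))) (XT.nd (nat_lit 390) (nat_lit 912) (nat_lit 0) (XT.nd (nat_lit 156) (nat_lit 456) (nat_lit 0) (XT.nd (nat_lit 78) (nat_lit 0) (nat_lit 0) (XT.lf (nat_lit 0) (nat_lit 4551895686) (nat_lit 228) (nat_lit 1477828670) (nat_lit 304) (nat_lit 8070360365) (nat_lit 54) (nat_lit 5) (nat_lit 57) (nat_lit 5) (nat_lit 58) (nat_lit 5) (nat_lit 489) (nat_lit 358) (nat_lit 293)) (XT.lf (nat_lit 0) (nat_lit 10134023558) (nat_lit 304) (nat_lit 1229569302) (nat_lit 76) (nat_lit 2918766368) (nat_lit 54) (nat_lit 5) (nat_lit 58) (nat_lit 5) (nat_lit 55) (nat_lit 5) (nat_lit 490) (nat_lit 358) (nat_lit 292))) (XT.nd (nat_lit 78) (nat_lit 228) (nat_lit 0) (XT.lf (nat_lit 0) (nat_lit 7282325858) (nat_lit 228) (nat_lit 7060722660) (nat_lit 304) (nat_lit 124783638) (nat_lit 51) (nat_lit 5) (nat_lit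 54) (nat_lit 5) (nat_lit 55) (nat_lit 5) (nat_lit 491) (nat_lit 358) (nat_lit 291)) (XT.nd (nat_lit 78) (nat_lit 0) (nat_lit 0) (XT.lf (nat_lit 0) (nat_lit 1255963964) (nat_lit 152) (nat_lit 2653182529) (nat_lit 228) (nat_lit 10747714923) (nat_lit 48) (nat_lit 5) (nat_lit 50) (nat_lit 5) (nat_lit 51) (nat_lit 5) (nat_lit 492) (nat_lit 358) (nat_lit 290)) (XT.lf (nat_lit 0) (nat_lit 8048357130) (nat_lit 228) (nat_lit 4957185282) (nat_lit 76) (nat_lit 1843592295) (nat_lit 48) (nat_lit 5) (nat_lit 51) (nat_lit 5) (nat_lit 49) (nat_lit 5) (nat_lit 493) (nat_lit 358) (nat_lit 289))))) (XT.nd (nat_lit 234) (nat_lit 456) (nat_lit 0) (XT.nd (nat_lit 78) (nat_lit 228) (nat_lit 0) (XT.lf (nat_lit 0) (nat_lit 3627528670) (nat_lit 228) (nat_lit 8650388089) (nat_lit 304) (nat_lit 2767190697) (nat_lit 45) (nat_lit 5) (nat_lit 48) (nat_lit 5) (nat_lit 49) (nat_lit 5) (nat_lit 494) (nat_lit 358) (nat_lit 288)) (XT.nd (nat_lit 78) (nat_lit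 152) (nat_lit 0) (XT.lf (nat_lit 0) (nat_lit 1329387445) (nat_lit 304) (nat_lit 2860114761) (nat_lit 76) (nat_lit 11055327885) (nat_lit 44) (nat_lit 5) (nat_lit 48) (nat_lit 5) (nat_lit 45) (nat_lit 5) (nat_lit 495) (nat_lit 358) (nat_lit 287)) (XT.lf (nat_lit 0) (nat_lit 5478710532) (nat_lit 228) (nat_lit 9580286805) (nat_lit 76) (nat_lit 389031682) (nat_lit 42) (nat_lit 5) (nat_lit 45) (nat_lit 5) (nat_lit 43) (nat_lit 5) (nat_lit 496) (nat_lit 358) (nat_lit 286)))) (XT.nd (nat_lit 78) (nat_lit 456) (nat_lit 0) (XT.lf (nat_lit 0) (nat_lit 9725365438) (nat_lit 228) (nat_lit 930792403) (nat_lit 76) (nat_lit 4998852064) (nat_lit 42) (nat_lit 5) (nat_lit 45) (nat_lit 5) (nat_lit 43) (nat_lit 5) (nat_lit 497) (nat_lit 358) (nat_lit 285)) (XT.nd (nat_lit 78) (nat_lit 228) (nat_lit 0) (XT.lf (nat_lit 0) (nat_lit 7940004793) (nat_lit 228) (nat_lit 6136422319) (nat_lit 304) (nat_lit 1789318615) (nat_lit 39) (nat_lit 5) (nat_lit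 42) (nat_lit 5) (nat_lit 43) (nat_lit 5) (nat_lit 498) (nat_lit 358) (nat_lit 284)) (XT.lf (nat_lit 0) (nat_lit 859812392) (nat_lit 152) (nat_lit 1521926936) (nat_lit 228) (nat_lit 13699048591) (nat_lit 36) (nat_lit 5) (nat_lit 38) (nat_lit 5) (nat_lit 39) (nat_lit 5) (nat_lit 499) (nat_lit 358) (nat_lit 283))))))) (XT.nd (nat_lit 53508) (nat_lit 0) (nat_lit 17860) (XT.nd (nat_lit 390) (nat_lit 152) (nat_lit 0) (XT.nd (nat_lit 156) (nat_lit 228) (nat_lit 0) (XT.nd (nat_lit 78) (nat_lit 152) (nat_lit 0) (XT.lf (nat_lit 0) (nat_lit 6654586930) (nat_lit 228) (nat_lit 6459437536) (nat_lit 76) (nat_lit 3185027907) (nat_lit 36) (nat_lit 5) (nat_lit 39) (nat_lit 5) (nat_lit 37) (nat_lit 5) (nat_lit 500) (nat_lit 358) (nat_lit 282)) (XT.lf (nat_lit 0) (nat_lit 2444406792) (nat_lit 152) (nat_lit 8563148846) (nat_lit 228) (nat_lit 5514237621) (nat_lit 34) (nat_lit 5) (nat_lit 36) (nat_lit 5) (nat_lit 37) (nat_lit 5) (nat_lit 501)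 (nat_lit 358) (nat_lit 281))) (XT.nd (nat_lit 78) (nat_lit 228) (nat_lit 0) (XT.lf (nat_lit 0) (nat_lit 11559344324) (nat_lit 152) (nat_lit 3900559393) (nat_lit 228) (nat_lit 1288843184) (nat_lit 34) (nat_lit 5) (nat_lit 36) (nat_lit 5) (nat_lit 37) (nat_lit 5) (nat_lit 502) (nat_lit 358) (nat_lit 280)) (XT.nd (nat_lit 78) (nat_lit 0) (nat_lit 0) (XT.lf (nat_lit 0) (nat_lit 2981530203) (nat_lit 228) (nat_lit 13132281900) (nat_lit 76) (nat_lit 866037533) (nat_lit 31) (nat_lit 5) (nat_lit 34) (nat_lit 5) (nat_lit 32) (nat_lit 5) (nat_lit 503) (nat_lit 358) (nat_lit 279)) (XT.lf (nat_lit 0) (nat_lit 7350434369) (nat_lit 228) (nat_lit 4167845659) (nat_lit 76) (nat_lit 5696520482) (nat_lit 31) (nat_lit 5) (nat_lit 34) (nat_lit 5) (nat_lit 32) (nat_lit 5) (nat_lit 504) (nat_lit 358) (nat_lit 278))))) (XT.nd (nat_lit 52884) (nat_lit 0) (nat_lit 24244) (XT.nd (nat_lit 78) (nat_lit 0) (nat_lit 0) (XT.lf (nat_lit 0) (nat_lit 4988369972)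 (nat_lit 152) (nat_lit 6820811931) (nat_lit 228) (nat_lit 5645223203) (nat_lit 29) (nat_lit 5) (nat_lit 31) (nat_lit 5) (nat_lit 32) (nat_lit 5) (nat_lit 505) (nat_lit 358) (nat_lit 277)) (XT.lf (nat_lit 0) (nat_lit 14331621701) (nat_lit 152) (nat_lit 2023773904) (nat_lit 228) (nat_lit 1343444293) (nat_lit 29) (nat_lit 5) (nat_lit 31) (nat_lit 5) (nat_lit 32) (nat_lit 5) (nat_lit 506) (nat_lit 358) (nat_lit 276))) (XT.nd (nat_lit 78) (nat_lit 1748) (nat_lit 0) (XT.lf (nat_lit 0) (nat_lit 2999638331) (nat_lit 912) (nat_lit 330658954) (nat_lit 912) (nat_lit 330658954) (nat_lit 371) (nat_lit 4) (nat_lit 383) (nat_lit 5) (nat_lit 383) (nat_lit 4) (nat_lit 422) (nat_lit 359) (nat_lit 359)) (XT.nd (nat_lit 78) (nat_lit 836) (nat_lit 0) (XT.lf (nat_lit 0) (nat_lit 2788514269) (nat_lit 912) (nat_lit 3334443699) (nat_lit 0) (nat_lit 1242240651) (nat_lit 359) (nat_lit 5) (nat_lit 371) (nat_lit 4) (nat_lit 359) (nat_lit 4) (nat_lit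 423) (nat_lit 359) (nat_lit 358)) (XT.lf (nat_lit 0) (nat_lit 2046432157) (nat_lit 836) (nat_lit 4212937716) (nat_lit 836) (nat_lit 1150709571) (nat_lit 348) (nat_lit 4) (nat_lit 359) (nat_lit 5) (nat_lit 359) (nat_lit 4) (nat_lit 424) (nat_lit 359) (nat_lit 357)))))) (XT.nd (nat_lit 390) (nat_lit 3724) (nat_lit 0) (XT.nd (nat_lit 156) (nat_lit 1748) (nat_lit 0) (XT.nd (nat_lit 78) (nat_lit 0) (nat_lit 0) (XT.lf (nat_lit 0) (nat_lit 37856374) (nat_lit 836) (nat_lit 2232596322) (nat_lit 912) (nat_lit 5185985402) (nat_lit 336) (nat_lit 5) (nat_lit 347) (nat_lit 5) (nat_lit 348) (nat_lit 4) (nat_lit 425) (nat_lit 359) (nat_lit 356)) (XT.lf (nat_lit 0) (nat_lit 5540858551) (nat_lit 836) (nat_lit 175183423) (nat_lit 912) (nat_lit 1788133654) (nat_lit 336) (nat_lit 5) (nat_lit 347) (nat_lit 5) (nat_lit 348) (nat_lit 4) (nat_lit 426) (nat_lit 359) (nat_lit 355))) (XT.nd (nat_lit 78) (nat_lit 836) (nat_lit 0) (XT.lf (nat_lit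 0) (nat_lit 1627760818) (nat_lit 912) (nat_lit 4000221230) (nat_lit 76) (nat_lit 1925257051) (nat_lit 324) (nat_lit 5) (nat_lit 336) (nat_lit 5) (nat_lit 325) (nat_lit 4) (nat_lit 427) (nat_lit 359) (nat_lit 354)) (XT.nd (nat_lit 78) (nat_lit 76) (nat_lit 0) (XT.lf (nat_lit 0) (nat_lit 1538598583) (nat_lit 760) (nat_lit 3510878342) (nat_lit 836) (nat_lit 2554371802) (nat_lit 314) (nat_lit 5) (nat_lit 324) (nat_lit 5) (nat_lit 325) (nat_lit 4) (nat_lit 428) (nat_lit 359) (nat_lit 353)) (XT.lf (nat_lit 0) (nat_lit 836925790) (nat_lit 836) (nat_lit 490586232) (nat_lit 76) (nat_lit 6328585455) (nat_lit 313) (nat_lit 5) (nat_lit 324) (nat_lit 5) (nat_lit 314) (nat_lit 5) (nat_lit 429) (nat_lit 359) (nat_lit 352))))) (XT.nd (nat_lit 234) (nat_lit 1444) (nat_lit 0) (XT.nd (nat_lit 78) (nat_lit 1520) (nat_lit 0) (XT.lf (nat_lit 0) (nat_lit 4240169453) (nat_lit 836) (nat_lit 2539954455) (nat_lit 76) (nat_lit 929391614) (nat_lit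 303) (nat_lit 5) (nat_lit 314) (nat_lit 5) (nat_lit 304) (nat_lit 4) (nat_lit 430) (nat_lit 359) (nat_lit 351)) (XT.nd (nat_lit 78) (nat_lit 836) (nat_lit 0) (XT.lf (nat_lit 0) (nat_lit 3146628407) (nat_lit 684) (nat_lit 4536642925) (nat_lit 760) (nat_lit 81322641) (nat_lit 294) (nat_lit 5) (nat_lit 303) (nat_lit 5) (nat_lit 304) (nat_lit 4) (nat_lit 431) (nat_lit 359) (nat_lit 350)) (XT.lf (nat_lit 0) (nat_lit 1081286639) (nat_lit 760) (nat_lit 2212659389) (nat_lit 836) (nat_lit 4527141780) (nat_lit 283) (nat_lit 5) (nat_lit 293) (nat_lit 5) (nat_lit 294) (nat_lit 5) (nat_lit 432) (nat_lit 359) (nat_lit 349)))) (XT.nd (nat_lit 78) (nat_lit 1444) (nat_lit 0) (XT.lf (nat_lit 0) (nat_lit 6708061017) (nat_lit 836) (nat_lit 995223214) (nat_lit 76) (nat_lit 175994243) (nat_lit 283) (nat_lit 5) (nat_lit 294) (nat_lit 5) (nat_lit 284) (nat_lit 4) (nat_lit 433) (nat_lit 359) (nat_lit 348)) (XT.nd (nat_lit 78) (nat_lit 684) (nat_lit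 0) (XT.lf (nat_lit 0) (nat_lit 2209657334) (nat_lit 760) (nat_lit 3111412902) (nat_lit 76) (nat_lit 2617548290) (nat_lit 273) (nat_lit 5) (nat_lit 283) (nat_lit 5) (nat_lit 274) (nat_lit 5) (nat_lit 434) (nat_lit 359) (nat_lit 347)) (XT.lf (nat_lit 0) (nat_lit 2737264842) (nat_lit 684) (nat_lit 2871376532) (nat_lit 760) (nat_lit 2391050467) (nat_lit 264) (nat_lit 5) (nat_lit 273) (nat_lit 5) (nat_lit 274) (nat_lit 5) (nat_lit 435) (nat_lit 359) (nat_lit 346))))))))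
noncomputable def xc43 : XT := (XT.nd (nat_lit 1638) (nat_lit 5624) (nat_lit 0) (XT.nd (nat_lit 780) (nat_lit 4028) (nat_lit 0) (XT.nd (nat_lit 390) (nat_lit 1824) (nat_lit 0) (XT.nd (nat_lit 156) (nat_lit 1900) (nat_lit 0) (XT.nd (nat_lit 78) (nat_lit 0) (nat_lit 0) (XT.lf (nat_lit 0) (nat_lit 613123335) (nat_lit 608) (nat_lit 354142043) (nat_lit 684) (nat_lit 7095274633) (nat_lit 255) (nat_lit 5) (nat_lit 263) (nat_lit 5) (nat_lit 264) (nat_lit 5) (nat_lit 436) (nat_lit 359) (nat_lit 345)) (XT.lf (nat_lit 0) (nat_lit 4353208071) (nat_lit 684) (nat_lit 1551191100) (nat_lit 76) (nat_lit 2222103698) (nat_lit 255) (nat_lit 5) (nat_lit 264) (nat_lit 5) (nat_lit 256) (nat_lit 5) (nat_lit 437) (nat_lit 359) (nat_lit 344))) (XT.nd (nat_lit 78) (nat_lit 1292) (nat_lit 0) (XT.lf (nat_lit 0) (nat_lit 4450105102) (nat_lit 608) (nat_lit 3331657903) (nat_lit 684) (nat_lit 410507008) (nat_lit 247) (nat_lit 5) (nat_lit 255) (nat_lit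 5) (nat_lit 256) (nat_lit 5) (nat_lit 438) (nat_lit 359) (nat_lit 343)) (XT.nd (nat_lit 78) (nat_lit 608) (nat_lit 0) (XT.lf (nat_lit 0) (nat_lit 2272223195) (nat_lit 608) (nat_lit 676854054) (nat_lit 684) (nat_lit 5310522314) (nat_lit 238) (nat_lit 5) (nat_lit 246) (nat_lit 5) (nat_lit 247) (nat_lit 5) (nat_lit 439) (nat_lit 359) (nat_lit 342)) (XT.lf (nat_lit 0) (nat_lit 42561965) (nat_lit 608) (nat_lit 6310993704) (nat_lit 684) (nat_lit 1975023360) (nat_lit 230) (nat_lit 5) (nat_lit 238) (nat_lit 5) (nat_lit 239) (nat_lit 5) (nat_lit 440) (nat_lit 359) (nat_lit 341))))) (XT.nd (nat_lit 156) (nat_lit 1216) (nat_lit 0) (XT.nd (nat_lit 78) (nat_lit 532) (nat_lit 0) (XT.lf (nat_lit 0) (nat_lit 1398088991) (nat_lit 684) (nat_lit 2209949377) (nat_lit 76) (nat_lit 4790942705) (nat_lit 229) (nat_lit 5) (nat_lit 238) (nat_lit 5) (nat_lit 230) (nat_lit 5) (nat_lit 441) (nat_lit 359) (nat_lit 340)) (XT.lf (nat_lit 0) (nat_lit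 3955794332) (nat_lit 532) (nat_lit 827910692) (nat_lit 608) (nat_lit 3687415630) (nat_lit 222) (nat_lit 5) (nat_lit 229) (nat_lit 5) (nat_lit 230) (nat_lit 5) (nat_lit 442) (nat_lit 359) (nat_lit 339))) (XT.nd (nat_lit 78) (nat_lit 608) (nat_lit 0) (XT.lf (nat_lit 0) (nat_lit 1667977936) (nat_lit 608) (nat_lit 6554127855) (nat_lit 684) (nat_lit 322915721) (nat_lit 214) (nat_lit 5) (nat_lit 222) (nat_lit 5) (nat_lit 223) (nat_lit 5) (nat_lit 443) (nat_lit 359) (nat_lit 338)) (XT.nd (nat_lit 78) (nat_lit 532) (nat_lit 0) (XT.lf (nat_lit 0) (nat_lit 3050586254) (nat_lit 684) (nat_lit 680936499) (nat_lit 76) (nat_lit 4888843386) (nat_lit 213) (nat_lit 5) (nat_lit 222) (nat_lit 5) (nat_lit 214) (nat_lit 5) (nat_lit 444) (nat_lit 359) (nat_lit 337)) (XT.lf (nat_lit 0) (nat_lit 5640907841) (nat_lit 532) (nat_lit 830505910) (nat_lit 608) (nat_lit 2226096415) (nat_lit 206) (nat_lit 5) (nat_lit 213) (nat_lit 5) (nat_lit 214) (nat_lit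 5) (nat_lit 445) (nat_lit 359) (nat_lit 336)))))) (XT.nd (nat_lit 390) (nat_lit 1900) (nat_lit 0) (XT.nd (nat_lit 156) (nat_lit 1064) (nat_lit 0) (XT.nd (nat_lit 78) (nat_lit 456) (nat_lit 0) (XT.lf (nat_lit 0) (nat_lit 1156561404) (nat_lit 608) (nat_lit 5503083631) (nat_lit 76) (nat_lit 2116663585) (nat_lit 198) (nat_lit 5) (nat_lit 206) (nat_lit 5) (nat_lit 199) (nat_lit 5) (nat_lit 446) (nat_lit 359) (nat_lit 335)) (XT.lf (nat_lit 0) (nat_lit 834626999) (nat_lit 456) (nat_lit 3722250893) (nat_lit 532) (nat_lit 4299932304) (nat_lit 192) (nat_lit 5) (nat_lit 198) (nat_lit 5) (nat_lit 199) (nat_lit 5) (nat_lit 447) (nat_lit 359) (nat_lit 334))) (XT.nd (nat_lit 78) (nat_lit 1064) (nat_lit 0) (XT.lf (nat_lit 0) (nat_lit 7303402920) (nat_lit 456) (nat_lit 707504201) (nat_lit 532) (nat_lit 928317908) (nat_lit 192) (nat_lit 5) (nat_lit 198) (nat_lit 5) (nat_lit 199) (nat_lit 5) (nat_lit 448) (nat_lit 359) (nat_lit 333)) (XT.nd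 (nat_lit 78) (nat_lit 456) (nat_lit 0) (XT.lf (nat_lit 0) (nat_lit 2474326520) (nat_lit 608) (nat_lit 4182866691) (nat_lit 76) (nat_lit 2365855071) (nat_lit 184) (nat_lit 5) (nat_lit 192) (nat_lit 5) (nat_lit 185) (nat_lit 5) (nat_lit 449) (nat_lit 359) (nat_lit 332)) (XT.lf (nat_lit 0) (nat_lit 2308896427) (nat_lit 456) (nat_lit 3604286478) (nat_lit 532) (nat_lit 3195646942) (nat_lit 178) (nat_lit 5) (nat_lit 184) (nat_lit 5) (nat_lit 185) (nat_lit 5) (nat_lit 450) (nat_lit 359) (nat_lit 331))))) (XT.nd (nat_lit 234) (nat_lit 912) (nat_lit 0) (XT.nd (nat_lit 78) (nat_lit 912) (nat_lit 0) (XT.lf (nat_lit 0) (nat_lit 199838843) (nat_lit 532) (nat_lit 280463484) (nat_lit 76) (nat_lit 8716445408) (nat_lit 177) (nat_lit 5) (nat_lit 184) (nat_lit 5) (nat_lit 178) (nat_lit 5) (nat_lit 451) (nat_lit 359) (nat_lit 330)) (XT.nd (nat_lit 78) (nat_lit 456) (nat_lit 0) (XT.lf (nat_lit 0) (nat_lit 3630669210) (nat_lit 532) (nat_lit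 2941213940) (nat_lit 76) (nat_lit 2713929284) (nat_lit 171) (nat_lit 5) (nat_lit 178) (nat_lit 5) (nat_lit 172) (nat_lit 5) (nat_lit 452) (nat_lit 359) (nat_lit 329)) (XT.lf (nat_lit 0) (nat_lit 3705473959) (nat_lit 456) (nat_lit 3405180809) (nat_lit 532) (nat_lit 2266407995) (nat_lit 165) (nat_lit 5) (nat_lit 171) (nat_lit 5) (nat_lit 172) (nat_lit 5) (nat_lit 453) (nat_lit 359) (nat_lit 328)))) (XT.nd (nat_lit 78) (nat_lit 380) (nat_lit 0) (XT.lf (nat_lit 0) (nat_lit 990883475) (nat_lit 456) (nat_lit 161489142) (nat_lit 532) (nat_lit 8318067882) (nat_lit 158) (nat_lit 5) (nat_lit 164) (nat_lit 5) (nat_lit 165) (nat_lit 5) (nat_lit 454) (nat_lit 359) (nat_lit 327)) (XT.nd (nat_lit 78) (nat_lit 380) (nat_lit 0) (XT.lf (nat_lit 0) (nat_lit 4619896476) (nat_lit 532) (nat_lit 1806988087) (nat_lit 76) (nat_lit 3138301547) (nat_lit 158) (nat_lit 5) (nat_lit 165) (nat_lit 5) (nat_lit 159) (nat_lit 5) (nat_lit 455) (nat_lit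 359) (nat_lit 326)) (XT.lf (nat_lit 0) (nat_lit 4994988344) (nat_lit 380) (nat_lit 3148167185) (nat_lit 456) (nat_lit 1518957367) (nat_lit 153) (nat_lit 5) (nat_lit 158) (nat_lit 5) (nat_lit 159) (nat_lit 5) (nat_lit 456) (nat_lit 359) (nat_lit 325))))))) (XT.nd (nat_lit 858) (nat_lit 2356) (nat_lit 0) (XT.nd (nat_lit 390) (nat_lit 1520) (nat_lit 0) (XT.nd (nat_lit 156) (nat_lit 1216) (nat_lit 0) (XT.nd (nat_lit 78) (nat_lit 0) (nat_lit 0) (XT.lf (nat_lit 0) (nat_lit 1930543640) (nat_lit 532) (nat_lit 7619250238) (nat_lit 76) (nat_lit 211330049) (nat_lit 146) (nat_lit 5) (nat_lit 153) (nat_lit 5) (nat_lit 147) (nat_lit 5) (nat_lit 457) (nat_lit 359) (nat_lit 324)) (XT.lf (nat_lit 0) (nat_lit 5434470768) (nat_lit 532) (nat_lit 811309552) (nat_lit 76) (nat_lit 3616031705) (nat_lit 146) (nat_lit 5) (nat_lit 153) (nat_lit 5) (nat_lit 147) (nat_lit 5) (nat_lit 458) (nat_lit 359) (nat_lit 323))) (XT.nd (nat_lit 78) (nat_lit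 836) (nat_lit 0) (XT.lf (nat_lit 0) (nat_lit 6145724353) (nat_lit 380) (nat_lit 2856949169) (nat_lit 456) (nat_lit 961969316) (nat_lit 141) (nat_lit 5) (nat_lit 146) (nat_lit 5) (nat_lit 147) (nat_lit 5) (nat_lit 459) (nat_lit 359) (nat_lit 322)) (XT.nd (nat_lit 78) (nat_lit 380) (nat_lit 0) (XT.lf (nat_lit 0) (nat_lit 2523309555) (nat_lit 456) (nat_lit 6933555575) (nat_lit 76) (nat_lit 612656634) (nat_lit 135) (nat_lit 5) (nat_lit 141) (nat_lit 5) (nat_lit 136) (nat_lit 5) (nat_lit 460) (nat_lit 359) (nat_lit 321)) (XT.lf (nat_lit 0) (nat_lit 12265932) (nat_lit 380) (nat_lit 6052709396) (nat_lit 456) (nat_lit 4111416678) (nat_lit 130) (nat_lit 5) (nat_lit 135) (nat_lit 5) (nat_lit 136) (nat_lit 5) (nat_lit 461) (nat_lit 359) (nat_lit 320))))) (XT.nd (nat_lit 234) (nat_lit 760) (nat_lit 0) (XT.nd (nat_lit 78) (nat_lit 760) (nat_lit 0) (XT.lf (nat_lit 0) (nat_lit 7123274841) (nat_lit 380) (nat_lit 2555928469) (nat_lit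 456) (nat_lit 606173675) (nat_lit 130) (nat_lit 5) (nat_lit 135) (nat_lit 5) (nat_lit 136) (nat_lit 5) (nat_lit 462) (nat_lit 359) (nat_lit 319)) (XT.nd (nat_lit 78) (nat_lit 304) (nat_lit 0) (XT.lf (nat_lit 0) (nat_lit 2918338695) (nat_lit 456) (nat_lit 6457808902) (nat_lit 76) (nat_lit 1020257847) (nat_lit 124) (nat_lit 5) (nat_lit 130) (nat_lit 5) (nat_lit 125) (nat_lit 5) (nat_lit 463) (nat_lit 359) (nat_lit 318)) (XT.lf (nat_lit 0) (nat_lit 634902388) (nat_lit 304) (nat_lit 5868803030) (nat_lit 380) (nat_lit 4005910525) (nat_lit 120) (nat_lit 5) (nat_lit 124) (nat_lit 5) (nat_lit 125) (nat_lit 5) (nat_lit 464) (nat_lit 359) (nat_lit 317)))) (XT.nd (nat_lit 78) (nat_lit 760) (nat_lit 0) (XT.lf (nat_lit 0) (nat_lit 7890162749) (nat_lit 304) (nat_lit 2270443921) (nat_lit 380) (nat_lit 464498443) (nat_lit 120) (nat_lit 5) (nat_lit 124) (nat_lit 5) (nat_lit 125) (nat_lit 5) (nat_lit 465) (nat_lit 359) (nat_lit 316))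 (XT.nd (nat_lit 78) (nat_lit 304) (nat_lit 0) (XT.lf (nat_lit 0) (nat_lit 3102127991) (nat_lit 456) (nat_lit 6231686962) (nat_lit 76) (nat_lit 1408777562) (nat_lit 114) (nat_lit 5) (nat_lit 120) (nat_lit 5) (nat_lit 115) (nat_lit 5) (nat_lit 466) (nat_lit 359) (nat_lit 315)) (XT.lf (nat_lit 0) (nat_lit 1005241933) (nat_lit 304) (nat_lit 5725985679) (nat_lit 380) (nat_lit 4131203809) (nat_lit 110) (nat_lit 5) (nat_lit 114) (nat_lit 5) (nat_lit 115) (nat_lit 5) (nat_lit 467) (nat_lit 359) (nat_lit 314)))))) (XT.nd (nat_lit 390) (nat_lit 1292) (nat_lit 0) (XT.nd (nat_lit 156) (nat_lit 684) (nat_lit 0) (XT.nd (nat_lit 78) (nat_lit 380) (nat_lit 0) (XT.lf (nat_lit 0) (nat_lit 8405429393) (nat_lit 304) (nat_lit 2027023726) (nat_lit 380) (nat_lit 552233275) (nat_lit 110) (nat_lit 5) (nat_lit 114) (nat_lit 5) (nat_lit 115) (nat_lit 5) (nat_lit 468) (nat_lit 359) (nat_lit 313)) (XT.lf (nat_lit 0) (nat_lit 3058784472) (nat_lit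 380) (nat_lit 6298588322) (nat_lit 76) (nat_lit 1751599062) (nat_lit 105) (nat_lit 5) (nat_lit 110) (nat_lit 5) (nat_lit 106) (nat_lit 5) (nat_lit 469) (nat_lit 359) (nat_lit 312))) (XT.nd (nat_lit 78) (nat_lit 380) (nat_lit 0) (XT.lf (nat_lit 0) (nat_lit 1078858037) (nat_lit 304) (nat_lit 5652144295) (nat_lit 380) (nat_lit 4504749789) (nat_lit 101) (nat_lit 5) (nat_lit 105) (nat_lit 5) (nat_lit 106) (nat_lit 5) (nat_lit 470) (nat_lit 359) (nat_lit 311)) (XT.nd (nat_lit 78) (nat_lit 380) (nat_lit 0) (XT.lf (nat_lit 0) (nat_lit 8624185015) (nat_lit 304) (nat_lit 1853653254) (nat_lit 380) (nat_lit 887215639) (nat_lit 101) (nat_lit 5) (nat_lit 105) (nat_lit 5) (nat_lit 106) (nat_lit 5) (nat_lit 471) (nat_lit 359) (nat_lit 310)) (XT.lf (nat_lit 0) (nat_lit 2769832191) (nat_lit 380) (nat_lit 6706102634) (nat_lit 76) (nat_lit 2020573587) (nat_lit 96) (nat_lit 5) (nat_lit 101) (nat_lit 5) (nat_lit 97) (nat_lit 5) (nat_lit 472)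 (nat_lit 359) (nat_lit 309))))) (XT.nd (nat_lit 234) (nat_lit 608) (nat_lit 0) (XT.nd (nat_lit 78) (nat_lit 380) (nat_lit 0) (XT.lf (nat_lit 0) (nat_lit 806990188) (nat_lit 304) (nat_lit 5676855184) (nat_lit 380) (nat_lit 5146724112) (nat_lit 92) (nat_lit 5) (nat_lit 96) (nat_lit 5) (nat_lit 97) (nat_lit 5) (nat_lit 473) (nat_lit 359) (nat_lit 308)) (XT.nd (nat_lit 78) (nat_lit 380) (nat_lit 0) (XT.lf (nat_lit 0) (nat_lit 8497117194) (nat_lit 304) (nat_lit 1780060904) (nat_lit 380) (nat_lit 1490041571) (nat_lit 92) (nat_lit 5) (nat_lit 96) (nat_lit 5) (nat_lit 97) (nat_lit 5) (nat_lit 474) (nat_lit 359) (nat_lit 307)) (XT.lf (nat_lit 0) (nat_lit 2213994052) (nat_lit 380) (nat_lit 7506524308) (nat_lit 76) (nat_lit 2185730107) (nat_lit 87) (nat_lit 5) (nat_lit 92) (nat_lit 5) (nat_lit 88) (nat_lit 5) (nat_lit 475) (nat_lit 359) (nat_lit 306)))) (XT.nd (nat_lit 78) (nat_lit 380) (nat_lit 0) (XT.lf (nat_lit 0) (nat_lit 136014474)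 (nat_lit 228) (nat_lit 5831686716) (nat_lit 304) (nat_lit 6080256993) (nat_lit 84) (nat_lit 5) (nat_lit 87) (nat_lit 5) (nat_lit 88) (nat_lit 5) (nat_lit 476) (nat_lit 359) (nat_lit 305)) (XT.nd (nat_lit 78) (nat_lit 380) (nat_lit 0) (XT.lf (nat_lit 0) (nat_lit 7969952304) (nat_lit 228) (nat_lit 1838024684) (nat_lit 304) (nat_lit 2384303234) (nat_lit 84) (nat_lit 5) (nat_lit 87) (nat_lit 5) (nat_lit 88) (nat_lit 5) (nat_lit 477) (nat_lit 359) (nat_lit 304)) (XT.lf (nat_lit 0) (nat_lit 1366946299) (nat_lit 380) (nat_lit 8757415638) (nat_lit 76) (nat_lit 2214963573) (nat_lit 79) (nat_lit 5) (nat_lit 84) (nat_lit 5) (nat_lit 80) (nat_lit 5) (nat_lit 478) (nat_lit 359) (nat_lit 303))))))))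
noncomputable def xc44 : XT := (XT.nd (nat_lit 1638) (nat_lit 684) (nat_lit 0) (XT.nd (nat_lit 780) (nat_lit 1444) (nat_lit 0) (XT.nd (nat_lit 390) (nat_lit 836) (nat_lit 0) (XT.nd (nat_lit 156) (nat_lit 608) (nat_lit 0) (XT.nd (nat_lit 78) (nat_lit 228) (nat_lit 0) (XT.lf (nat_lit 0) (nat_lit 5163836148) (nat_lit 380) (nat_lit 980111850) (nat_lit 76) (nat_lit 6345005234) (nat_lit 79) (nat_lit 5) (nat_lit 84) (nat_lit 5) (nat_lit 80) (nat_lit 5) (nat_lit 479) (nat_lit 359) (nat_lit 302)) (XT.lf (nat_lit 0) (nat_lit 6982864702) (nat_lit 228) (nat_lit 2061702427) (nat_lit 304) (nat_lit 3596855717) (nat_lit 76) (nat_lit 5) (nat_lit 79) (nat_lit 5) (nat_lit 80) (nat_lit 5) (nat_lit 480) (nat_lit 359) (nat_lit 301))) (XT.nd (nat_lit 78) (nat_lit 228) (nat_lit 0) (XT.lf (nat_lit 0) (nat_lit 201043123) (nat_lit 380) (nat_lit 10522224918) (nat_lit 76) (nat_lit 2073698713) (nat_lit 71) (nat_lit 5) (nat_lit 76) (nat_lit 5) (nat_lit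 72) (nat_lit 5) (nat_lit 481) (nat_lit 359) (nat_lit 300)) (XT.nd (nat_lit 78) (nat_lit 228) (nat_lit 0) (XT.lf (nat_lit 0) (nat_lit 4041489443) (nat_lit 380) (nat_lit 2610915999) (nat_lit 76) (nat_lit 6302452545) (nat_lit 71) (nat_lit 5) (nat_lit 76) (nat_lit 5) (nat_lit 72) (nat_lit 5) (nat_lit 482) (nat_lit 359) (nat_lit 299)) (XT.lf (nat_lit 0) (nat_lit 5469827859) (nat_lit 228) (nat_lit 2487988765) (nat_lit 304) (nat_lit 5158115822) (nat_lit 68) (nat_lit 5) (nat_lit 71) (nat_lit 5) (nat_lit 72) (nat_lit 5) (nat_lit 483) (nat_lit 359) (nat_lit 298))))) (XT.nd (nat_lit 156) (nat_lit 532) (nat_lit 0) (XT.nd (nat_lit 78) (nat_lit 76) (nat_lit 0) (XT.lf (nat_lit 0) (nat_lit 400710427) (nat_lit 228) (nat_lit 11547149908) (nat_lit 304) (nat_lit 1332466968) (nat_lit 65) (nat_lit 5) (nat_lit 68) (nat_lit 5) (nat_lit 69) (nat_lit 5) (nat_lit 484) (nat_lit 359) (nat_lit 297)) (XT.lf (nat_lit 0) (nat_lit 2567920308) (nat_lit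 304) (nat_lit 4829169963) (nat_lit 76) (nat_lit 6049954003) (nat_lit 64) (nat_lit 5) (nat_lit 68) (nat_lit 5) (nat_lit 65) (nat_lit 5) (nat_lit 485) (nat_lit 359) (nat_lit 296))) (XT.nd (nat_lit 78) (nat_lit 304) (nat_lit 0) (XT.lf (nat_lit 0) (nat_lit 3357900994) (nat_lit 228) (nat_lit 3156902303) (nat_lit 304) (nat_lit 7102395861) (nat_lit 61) (nat_lit 5) (nat_lit 64) (nat_lit 5) (nat_lit 65) (nat_lit 5) (nat_lit 486) (nat_lit 359) (nat_lit 295)) (XT.nd (nat_lit 78) (nat_lit 304) (nat_lit 0) (XT.lf (nat_lit 0) (nat_lit 10545495557) (nat_lit 304) (nat_lit 2083495296) (nat_lit 76) (nat_lit 1161675051) (nat_lit 61) (nat_lit 5) (nat_lit 65) (nat_lit 5) (nat_lit 62) (nat_lit 5) (nat_lit 487) (nat_lit 359) (nat_lit 294)) (XT.lf (nat_lit 0) (nat_lit 707232742) (nat_lit 304) (nat_lit 7713315683) (nat_lit 76) (nat_lit 5546428581) (nat_lit 57) (nat_lit 5) (nat_lit 61) (nat_lit 5) (nat_lit 58) (nat_lit 5) (nat_lit 488) (nat_lit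 359) (nat_lit 293)))))) (XT.nd (nat_lit 390) (nat_lit 760) (nat_lit 0) (XT.nd (nat_lit 156) (nat_lit 456) (nat_lit 0) (XT.nd (nat_lit 78) (nat_lit 0) (nat_lit 0) (XT.lf (nat_lit 0) (nat_lit 566444199) (nat_lit 228) (nat_lit 4112006713) (nat_lit 304) (nat_lit 9468275848) (nat_lit 54) (nat_lit 5) (nat_lit 57) (nat_lit 5) (nat_lit 58) (nat_lit 5) (nat_lit 489) (nat_lit 359) (nat_lit 292)) (XT.lf (nat_lit 0) (nat_lit 8748603294) (nat_lit 304) (nat_lit 5273678332) (nat_lit 76) (nat_lit 307405413) (nat_lit 54) (nat_lit 5) (nat_lit 58) (nat_lit 5) (nat_lit 55) (nat_lit 5) (nat_lit 490) (nat_lit 359) (nat_lit 291))) (XT.nd (nat_lit 78) (nat_lit 228) (nat_lit 0) (XT.lf (nat_lit 0) (nat_lit 3155545981) (nat_lit 228) (nat_lit 9758578686) (nat_lit 304) (nat_lit 1601908150) (nat_lit 51) (nat_lit 5) (nat_lit 54) (nat_lit 5) (nat_lit 55) (nat_lit 5) (nat_lit 491) (nat_lit 359) (nat_lit 290)) (XT.nd (nat_lit 78) (nat_lit 152) (nat_lit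 0) (XT.lf (nat_lit 0) (nat_lit 2426561505) (nat_lit 304) (nat_lit 2954482191) (nat_lit 76) (nat_lit 9324709527) (nat_lit 50) (nat_lit 5) (nat_lit 54) (nat_lit 5) (nat_lit 51) (nat_lit 5) (nat_lit 492) (nat_lit 359) (nat_lit 289)) (XT.lf (nat_lit 0) (nat_lit 5626215385) (nat_lit 152) (nat_lit 891454464) (nat_lit 228) (nat_lit 8381321327) (nat_lit 48) (nat_lit 5) (nat_lit 50) (nat_lit 5) (nat_lit 51) (nat_lit 5) (nat_lit 493) (nat_lit 359) (nat_lit 288))))) (XT.nd (nat_lit 234) (nat_lit 304) (nat_lit 0) (XT.nd (nat_lit 78) (nat_lit 456) (nat_lit 0) (XT.lf (nat_lit 0) (nat_lit 10701601976) (nat_lit 228) (nat_lit 757939989) (nat_lit 76) (nat_lit 3636337078) (nat_lit 48) (nat_lit 5) (nat_lit 51) (nat_lit 5) (nat_lit 49) (nat_lit 5) (nat_lit 494) (nat_lit 359) (nat_lit 287)) (XT.nd (nat_lit 78) (nat_lit 228) (nat_lit 0) (XT.lf (nat_lit 0) (nat_lit 7970189367) (nat_lit 228) (nat_lit 7024419627) (nat_lit 304) (nat_lit 301592831)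 (nat_lit 45) (nat_lit 5) (nat_lit 48) (nat_lit 5) (nat_lit 49) (nat_lit 5) (nat_lit 495) (nat_lit 359) (nat_lit 286)) (XT.lf (nat_lit 0) (nat_lit 1319150782) (nat_lit 152) (nat_lit 2484486348) (nat_lit 228) (nat_lit 11696766177) (nat_lit 42) (nat_lit 5) (nat_lit 44) (nat_lit 5) (nat_lit 45) (nat_lit 5) (nat_lit 496) (nat_lit 359) (nat_lit 285)))) (XT.nd (nat_lit 78) (nat_lit 304) (nat_lit 0) (XT.lf (nat_lit 0) (nat_lit 8018280851) (nat_lit 228) (nat_lit 5543261687) (nat_lit 76) (nat_lit 2146484249) (nat_lit 42) (nat_lit 5) (nat_lit 45) (nat_lit 5) (nat_lit 43) (nat_lit 5) (nat_lit 497) (nat_lit 359) (nat_lit 284)) (XT.nd (nat_lit 78) (nat_lit 76) (nat_lit 0) (XT.lf (nat_lit 0) (nat_lit 3238785527) (nat_lit 228) (nat_lit 9084464689) (nat_lit 304) (nat_lit 3596436563) (nat_lit 39) (nat_lit 5) (nat_lit 42) (nat_lit 5) (nat_lit 43) (nat_lit 5) (nat_lit 498) (nat_lit 359) (nat_lit 283)) (XT.lf (nat_lit 0) (nat_lit 577196746)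 (nat_lit 304) (nat_lit 3922014707) (nat_lit 76) (nat_lit 11636176921) (nat_lit 38) (nat_lit 5) (nat_lit 42) (nat_lit 5) (nat_lit 39) (nat_lit 5) (nat_lit 499) (nat_lit 359) (nat_lit 282))))))) (XT.nd (nat_lit 53352) (nat_lit 0) (nat_lit 19304) (XT.nd (nat_lit 390) (nat_lit 152) (nat_lit 0) (XT.nd (nat_lit 156) (nat_lit 380) (nat_lit 0) (XT.nd (nat_lit 78) (nat_lit 0) (nat_lit 0) (XT.lf (nat_lit 0) (nat_lit 4789252343) (nat_lit 228) (nat_lit 11356181604) (nat_lit 76) (nat_lit 209436913) (nat_lit 36) (nat_lit 5) (nat_lit 39) (nat_lit 5) (nat_lit 37) (nat_lit 5) (nat_lit 500) (nat_lit 359) (nat_lit 281)) (XT.lf (nat_lit 0) (nat_lit 9111166133) (nat_lit 228) (nat_lit 2511043494) (nat_lit 76) (nat_lit 4956025364) (nat_lit 36) (nat_lit 5) (nat_lit 39) (nat_lit 5) (nat_lit 37) (nat_lit 5) (nat_lit 501) (nat_lit 359) (nat_lit 280))) (XT.nd (nat_lit 78) (nat_lit 228) (nat_lit 0) (XT.lf (nat_lit 0) (nat_lit 6544051518) (nat_lit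 152) (nat_lit 6987884318) (nat_lit 228) (nat_lit 3273886470) (nat_lit 34) (nat_lit 5) (nat_lit 36) (nat_lit 5) (nat_lit 37) (nat_lit 5) (nat_lit 502) (nat_lit 359) (nat_lit 279)) (XT.nd (nat_lit 78) (nat_lit 152) (nat_lit 0) (XT.lf (nat_lit 0) (nat_lit 976941910) (nat_lit 228) (nat_lit 1282791008) (nat_lit 76) (nat_lit 14778363496) (nat_lit 33) (nat_lit 5) (nat_lit 36) (nat_lit 5) (nat_lit 34) (nat_lit 5) (nat_lit 503) (nat_lit 359) (nat_lit 278)) (XT.lf (nat_lit 0) (nat_lit 5307865957) (nat_lit 228) (nat_lit 9385144322) (nat_lit 76) (nat_lit 2580798597) (nat_lit 31) (nat_lit 5) (nat_lit 34) (nat_lit 5) (nat_lit 32) (nat_lit 5) (nat_lit 504) (nat_lit 359) (nat_lit 277))))) (XT.nd (nat_lit 52728) (nat_lit 0) (nat_lit 25916) (XT.nd (nat_lit 78) (nat_lit 152) (nat_lit 0) (XT.lf (nat_lit 0) (nat_lit 9719703007) (nat_lit 228) (nat_lit 320042557) (nat_lit 76) (nat_lit 7474608062) (nat_lit 31) (nat_lit 5) (nat_lit 34) (nat_lit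 5) (nat_lit 32) (nat_lit 5) (nat_lit 505) (nat_lit 359) (nat_lit 276)) (XT.lf (nat_lit 0) (nat_lit 8993434493) (nat_lit 152) (nat_lit 5255973054) (nat_lit 228) (nat_lit 3509712963) (nat_lit 29) (nat_lit 5) (nat_lit 31) (nat_lit 5) (nat_lit 32) (nat_lit 5) (nat_lit 506) (nat_lit 359) (nat_lit 275))) (XT.nd (nat_lit 78) (nat_lit 988) (nat_lit 0) (XT.lf (nat_lit 0) (nat_lit 674891421) (nat_lit 1140) (nat_lit 2269486898) (nat_lit 0) (nat_lit 674891421) (nat_lit 383) (nat_lit 5) (nat_lit 398) (nat_lit 4) (nat_lit 383) (nat_lit 4) (nat_lit 420) (nat_lit 360) (nat_lit 360)) (XT.nd (nat_lit 78) (nat_lit 76) (nat_lit 0) (XT.lf (nat_lit 0) (nat_lit 664967761) (nat_lit 912) (nat_lit 4111775470) (nat_lit 912) (nat_lit 2503032399) (nat_lit 371) (nat_lit 4) (nat_lit 383) (nat_lit 5) (nat_lit 383) (nat_lit 4) (nat_lit 421) (nat_lit 360) (nat_lit 359)) (XT.lf (nat_lit 0) (nat_lit 902055702) (nat_lit 988) (nat_lit 1363789641) (nat_lit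 76) (nat_lit 5056620167) (nat_lit 370) (nat_lit 5) (nat_lit 383) (nat_lit 5) (nat_lit 371) (nat_lit 4) (nat_lit 422) (nat_lit 360) (nat_lit 358)))))) (XT.nd (nat_lit 390) (nat_lit 3116) (nat_lit 0) (XT.nd (nat_lit 156) (nat_lit 1748) (nat_lit 0) (XT.nd (nat_lit 78) (nat_lit 912) (nat_lit 0) (XT.lf (nat_lit 0) (nat_lit 3958267268) (nat_lit 836) (nat_lit 343952061) (nat_lit 912) (nat_lit 3064283196) (nat_lit 359) (nat_lit 5) (nat_lit 370) (nat_lit 5) (nat_lit 371) (nat_lit 4) (nat_lit 423) (nat_lit 360) (nat_lit 357)) (XT.lf (nat_lit 0) (nat_lit 321868313) (nat_lit 912) (nat_lit 5475483169) (nat_lit 76) (nat_lit 1614702683) (nat_lit 347) (nat_lit 5) (nat_lit 359) (nat_lit 5) (nat_lit 348) (nat_lit 4) (nat_lit 424) (nat_lit 360) (nat_lit 356))) (XT.nd (nat_lit 78) (nat_lit 1748) (nat_lit 0) (XT.lf (nat_lit 0) (nat_lit 3695969726) (nat_lit 912) (nat_lit 116886479) (nat_lit 76) (nat_lit 3646062444) (nat_lit 347) (nat_lit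 5) (nat_lit 359) (nat_lit 5) (nat_lit 348) (nat_lit 4) (nat_lit 425) (nat_lit 360) (nat_lit 355)) (XT.nd (nat_lit 78) (nat_lit 912) (nat_lit 0) (XT.lf (nat_lit 0) (nat_lit 5349852892) (nat_lit 836) (nat_lit 1759610488) (nat_lit 912) (nat_lit 397850274) (nat_lit 336) (nat_lit 5) (nat_lit 347) (nat_lit 5) (nat_lit 348) (nat_lit 4) (nat_lit 426) (nat_lit 360) (nat_lit 354)) (XT.lf (nat_lit 0) (nat_lit 2957055616) (nat_lit 912) (nat_lit 4234366078) (nat_lit 76) (nat_lit 365644951) (nat_lit 324) (nat_lit 5) (nat_lit 336) (nat_lit 5) (nat_lit 325) (nat_lit 4) (nat_lit 427) (nat_lit 360) (nat_lit 353))))) (XT.nd (nat_lit 234) (nat_lit 1520) (nat_lit 0) (XT.nd (nat_lit 78) (nat_lit 836) (nat_lit 0) (XT.lf (nat_lit 0) (nat_lit 1266049308) (nat_lit 760) (nat_lit 5080382359) (nat_lit 836) (nat_lit 1261906069) (nat_lit 314) (nat_lit 5) (nat_lit 324) (nat_lit 5) (nat_lit 325) (nat_lit 4) (nat_lit 428) (nat_lit 360) (nat_lit 352))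 (XT.nd (nat_lit 78) (nat_lit 760) (nat_lit 0) (XT.lf (nat_lit 0) (nat_lit 2082030728) (nat_lit 836) (nat_lit 811035037) (nat_lit 76) (nat_lit 4767975182) (nat_lit 313) (nat_lit 5) (nat_lit 324) (nat_lit 5) (nat_lit 314) (nat_lit 5) (nat_lit 429) (nat_lit 360) (nat_lit 351)) (XT.lf (nat_lit 0) (nat_lit 4816301785) (nat_lit 760) (nat_lit 630710499) (nat_lit 836) (nat_lit 2268225768) (nat_lit 303) (nat_lit 5) (nat_lit 313) (nat_lit 5) (nat_lit 314) (nat_lit 5) (nat_lit 430) (nat_lit 360) (nat_lit 350)))) (XT.nd (nat_lit 78) (nat_lit 760) (nat_lit 0) (XT.lf (nat_lit 0) (nat_lit 1068719998) (nat_lit 760) (nat_lit 5026198198) (nat_lit 76) (nat_lit 1675994006) (nat_lit 293) (nat_lit 5) (nat_lit 303) (nat_lit 5) (nat_lit 294) (nat_lit 5) (nat_lit 431) (nat_lit 360) (nat_lit 349)) (XT.nd (nat_lit 78) (nat_lit 0) (nat_lit 0) (XT.lf (nat_lit 0) (nat_lit 631777142) (nat_lit 760) (nat_lit 3778894138) (nat_lit 836) (nat_lit 3417382234)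 (nat_lit 283) (nat_lit 5) (nat_lit 293) (nat_lit 5) (nat_lit 294) (nat_lit 5) (nat_lit 432) (nat_lit 360) (nat_lit 348)) (XT.lf (nat_lit 0) (nat_lit 6401102609) (nat_lit 760) (nat_lit 1393543830) (nat_lit 836) (nat_lit 92213303) (nat_lit 283) (nat_lit 5) (nat_lit 293) (nat_lit 5) (nat_lit 294) (nat_lit 5) (nat_lit 433) (nat_lit 360) (nat_lit 347))))))))
noncomputable def xc45 : XT := (XT.nd (nat_lit 1638) (nat_lit 5852) (nat_lit 0) (XT.nd (nat_lit 780) (nat_lit 3724) (nat_lit 0) (XT.nd (nat_lit 390) (nat_lit 2508) (nat_lit 0) (XT.nd (nat_lit 156) (nat_lit 1368) (nat_lit 0) (XT.nd (nat_lit 78) (nat_lit 684) (nat_lit 0) (XT.lf (nat_lit 0) (nat_lit 3233334990) (nat_lit 760) (nat_lit 3649392547) (nat_lit 76) (nat_lit 1064167918) (nat_lit 273) (nat_lit 5) (nat_lit 283) (nat_lit 5) (nat_lit 274) (nat_lit 5) (nat_lit 434) (nat_lit 360) (nat_lit 346)) (XT.lf (nat_lit 0) (nat_lit 2157023714) (nat_lit 684) (nat_lit 4443215473)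 (nat_lit 760) (nat_lit 1408383210) (nat_lit 264) (nat_lit 5) (nat_lit 273) (nat_lit 5) (nat_lit 274) (nat_lit 5) (nat_lit 435) (nat_lit 360) (nat_lit 345))) (XT.nd (nat_lit 78) (nat_lit 1292) (nat_lit 0) (XT.lf (nat_lit 0) (nat_lit 1904886146) (nat_lit 760) (nat_lit 25279275) (nat_lit 76) (nat_lit 6141832278) (nat_lit 263) (nat_lit 5) (nat_lit 273) (nat_lit 5) (nat_lit 264) (nat_lit 5) (nat_lit 436) (nat_lit 360) (nat_lit 344)) (XT.nd (nat_lit 78) (nat_lit 684) (nat_lit 0) (XT.lf (nat_lit 0) (nat_lit 5252535293) (nat_lit 684) (nat_lit 2224262182) (nat_lit 76) (nat_lit 659940287) (nat_lit 255) (nat_lit 5) (nat_lit 264) (nat_lit 5) (nat_lit 256) (nat_lit 5) (nat_lit 437) (nat_lit 360) (nat_lit 343)) (XT.lf (nat_lit 0) (nat_lit 440084555) (nat_lit 684) (nat_lit 4472836320) (nat_lit 76) (nat_lit 3290177262) (nat_lit 246) (nat_lit 5) (nat_lit 255) (nat_lit 5) (nat_lit 247) (nat_lit 5) (nat_lit 438) (nat_lit 360) (nat_lit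 342))))) (XT.nd (nat_lit 156) (nat_lit 1900) (nat_lit 0) (XT.nd (nat_lit 78) (nat_lit 0) (nat_lit 0) (XT.lf (nat_lit 0) (nat_lit 1494118637) (nat_lit 608) (nat_lit 2267892168) (nat_lit 684) (nat_lit 4509019741) (nat_lit 238) (nat_lit 5) (nat_lit 246) (nat_lit 5) (nat_lit 247) (nat_lit 5) (nat_lit 439) (nat_lit 360) (nat_lit 341)) (XT.lf (nat_lit 0) (nat_lit 7128923282) (nat_lit 684) (nat_lit 772037702) (nat_lit 76) (nat_lit 439810818) (nat_lit 238) (nat_lit 5) (nat_lit 247) (nat_lit 5) (nat_lit 239) (nat_lit 5) (nat_lit 440) (nat_lit 360) (nat_lit 340))) (XT.nd (nat_lit 78) (nat_lit 1216) (nat_lit 0) (XT.lf (nat_lit 0) (nat_lit 2119299563) (nat_lit 684) (nat_lit 3086998372) (nat_lit 76) (nat_lit 3205425980) (nat_lit 229) (nat_lit 5) (nat_lit 238) (nat_lit 5) (nat_lit 230) (nat_lit 5) (nat_lit 441) (nat_lit 360) (nat_lit 339)) (XT.nd (nat_lit 78) (nat_lit 684) (nat_lit 0) (XT.lf (nat_lit 0) (nat_lit 3032346313) (nat_lit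 532) (nat_lit 2440257705) (nat_lit 608) (nat_lit 3011915577) (nat_lit 222) (nat_lit 5) (nat_lit 229) (nat_lit 5) (nat_lit 230) (nat_lit 5) (nat_lit 442) (nat_lit 360) (nat_lit 338)) (XT.lf (nat_lit 0) (nat_lit 304803147) (nat_lit 684) (nat_lit 7867003532) (nat_lit 76) (nat_lit 387440614) (nat_lit 213) (nat_lit 5) (nat_lit 222) (nat_lit 5) (nat_lit 214) (nat_lit 5) (nat_lit 443) (nat_lit 360) (nat_lit 337)))))) (XT.nd (nat_lit 390) (nat_lit 2128) (nat_lit 0) (XT.nd (nat_lit 156) (nat_lit 1064) (nat_lit 0) (XT.nd (nat_lit 78) (nat_lit 532) (nat_lit 0) (XT.lf (nat_lit 0) (nat_lit 3648105058) (nat_lit 684) (nat_lit 1707660307) (nat_lit 76) (nat_lit 3279313221) (nat_lit 213) (nat_lit 5) (nat_lit 222) (nat_lit 5) (nat_lit 214) (nat_lit 5) (nat_lit 444) (nat_lit 360) (nat_lit 336)) (XT.lf (nat_lit 0) (nat_lit 4566100218) (nat_lit 532) (nat_lit 2470398122) (nat_lit 608) (nat_lit 1676382074) (nat_lit 206) (nat_lit 5) (nat_lit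 213) (nat_lit 5) (nat_lit 214) (nat_lit 5) (nat_lit 445) (nat_lit 360) (nat_lit 335))) (XT.nd (nat_lit 78) (nat_lit 456) (nat_lit 0) (XT.lf (nat_lit 0) (nat_lit 1655564917) (nat_lit 608) (nat_lit 6651162247) (nat_lit 76) (nat_lit 485759110) (nat_lit 198) (nat_lit 5) (nat_lit 206) (nat_lit 5) (nat_lit 199) (nat_lit 5) (nat_lit 446) (nat_lit 360) (nat_lit 334)) (XT.nd (nat_lit 78) (nat_lit 456) (nat_lit 0) (XT.lf (nat_lit 0) (nat_lit 5025330848) (nat_lit 608) (nat_lit 358735955) (nat_lit 76) (nat_lit 3489540648) (nat_lit 198) (nat_lit 5) (nat_lit 206) (nat_lit 5) (nat_lit 199) (nat_lit 5) (nat_lit 447) (nat_lit 360) (nat_lit 333)) (XT.lf (nat_lit 0) (nat_lit 6071160405) (nat_lit 456) (nat_lit 2380979259) (nat_lit 532) (nat_lit 504435451) (nat_lit 192) (nat_lit 5) (nat_lit 198) (nat_lit 5) (nat_lit 199) (nat_lit 5) (nat_lit 448) (nat_lit 360) (nat_lit 332))))) (XT.nd (nat_lit 234) (nat_lit 988) (nat_lit 0) (XT.nd (nat_lit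 78) (nat_lit 532) (nat_lit 0) (XT.lf (nat_lit 0) (nat_lit 2848682863) (nat_lit 608) (nat_lit 5493080974) (nat_lit 76) (nat_lit 699466921) (nat_lit 184) (nat_lit 5) (nat_lit 192) (nat_lit 5) (nat_lit 185) (nat_lit 5) (nat_lit 449) (nat_lit 360) (nat_lit 331)) (XT.nd (nat_lit 78) (nat_lit 76) (nat_lit 0) (XT.lf (nat_lit 0) (nat_lit 946829793) (nat_lit 456) (nat_lit 5307526739) (nat_lit 532) (nat_lit 2873327382) (nat_lit 178) (nat_lit 5) (nat_lit 184) (nat_lit 5) (nat_lit 185) (nat_lit 5) (nat_lit 450) (nat_lit 360) (nat_lit 330)) (XT.lf (nat_lit 0) (nat_lit 493682706) (nat_lit 532) (nat_lit 1697571768) (nat_lit 76) (nat_lit 7024798070) (nat_lit 177) (nat_lit 5) (nat_lit 184) (nat_lit 5) (nat_lit 178) (nat_lit 5) (nat_lit 451) (nat_lit 360) (nat_lit 329)))) (XT.nd (nat_lit 78) (nat_lit 532) (nat_lit 0) (XT.lf (nat_lit 0) (nat_lit 3879962613) (nat_lit 532) (nat_lit 4419769505) (nat_lit 76) (nat_lit 1006283614) (nat_lit 171)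 (nat_lit 5) (nat_lit 178) (nat_lit 5) (nat_lit 172) (nat_lit 5) (nat_lit 452) (nat_lit 360) (nat_lit 328)) (XT.nd (nat_lit 78) (nat_lit 76) (nat_lit 0) (XT.lf (nat_lit 0) (nat_lit 2173201020) (nat_lit 456) (nat_lit 5153213323) (nat_lit 532) (nat_lit 2071529726) (nat_lit 165) (nat_lit 5) (nat_lit 171) (nat_lit 5) (nat_lit 172) (nat_lit 5) (nat_lit 453) (nat_lit 360) (nat_lit 327)) (XT.lf (nat_lit 0) (nat_lit 1314760195) (nat_lit 532) (nat_lit 610251178) (nat_lit 76) (nat_lit 7566890872) (nat_lit 164) (nat_lit 5) (nat_lit 171) (nat_lit 5) (nat_lit 165) (nat_lit 5) (nat_lit 454) (nat_lit 360) (nat_lit 326))))))) (XT.nd (nat_lit 858) (nat_lit 2508) (nat_lit 0) (XT.nd (nat_lit 390) (nat_lit 1596) (nat_lit 0) (XT.nd (nat_lit 156) (nat_lit 912) (nat_lit 0) (XT.nd (nat_lit 78) (nat_lit 380) (nat_lit 0) (XT.lf (nat_lit 0) (nat_lit 4743468181) (nat_lit 532) (nat_lit 3460201417) (nat_lit 76) (nat_lit 1383761483) (nat_lit 158) (nat_lit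 5) (nat_lit 165) (nat_lit 5) (nat_lit 159) (nat_lit 5) (nat_lit 455) (nat_lit 360) (nat_lit 325)) (XT.lf (nat_lit 0) (nat_lit 3286124464) (nat_lit 380) (nat_lit 4946640519) (nat_lit 456) (nat_lit 1452278903) (nat_lit 153) (nat_lit 5) (nat_lit 158) (nat_lit 5) (nat_lit 159) (nat_lit 5) (nat_lit 456) (nat_lit 360) (nat_lit 324))) (XT.nd (nat_lit 78) (nat_lit 380) (nat_lit 0) (XT.lf (nat_lit 0) (nat_lit 354271520) (nat_lit 456) (nat_lit 1606280621) (nat_lit 532) (nat_lit 7824216537) (nat_lit 146) (nat_lit 5) (nat_lit 152) (nat_lit 5) (nat_lit 153) (nat_lit 5) (nat_lit 457) (nat_lit 360) (nat_lit 323)) (XT.nd (nat_lit 78) (nat_lit 380) (nat_lit 0) (XT.lf (nat_lit 0) (nat_lit 5431423976) (nat_lit 532) (nat_lit 2645626381) (nat_lit 76) (nat_lit 1809073909) (nat_lit 146) (nat_lit 5) (nat_lit 153) (nat_lit 5) (nat_lit 147) (nat_lit 5) (nat_lit 458) (nat_lit 360) (nat_lit 322)) (XT.lf (nat_lit 0) (nat_lit 4253751860) (nat_lit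 380) (nat_lit 4711408328) (nat_lit 456) (nat_lit 1024490480) (nat_lit 141) (nat_lit 5) (nat_lit 146) (nat_lit 5) (nat_lit 147) (nat_lit 5) (nat_lit 459) (nat_lit 360) (nat_lit 321))))) (XT.nd (nat_lit 234) (nat_lit 760) (nat_lit 0) (XT.nd (nat_lit 78) (nat_lit 380) (nat_lit 0) (XT.lf (nat_lit 0) (nat_lit 1164669315) (nat_lit 380) (nat_lit 1257971795) (nat_lit 456) (nat_lit 7672681963) (nat_lit 135) (nat_lit 5) (nat_lit 140) (nat_lit 5) (nat_lit 141) (nat_lit 5) (nat_lit 460) (nat_lit 360) (nat_lit 320)) (XT.nd (nat_lit 78) (nat_lit 380) (nat_lit 0) (XT.lf (nat_lit 0) (nat_lit 5934099627) (nat_lit 456) (nat_lit 2009908257) (nat_lit 76) (nat_lit 2258795472) (nat_lit 135) (nat_lit 5) (nat_lit 141) (nat_lit 5) (nat_lit 136) (nat_lit 5) (nat_lit 461) (nat_lit 360) (nat_lit 319)) (XT.lf (nat_lit 0) (nat_lit 5041524954) (nat_lit 380) (nat_lit 4471836751) (nat_lit 456) (nat_lit 799131731) (nat_lit 130) (nat_lit 5) (nat_lit 135)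 (nat_lit 5) (nat_lit 136) (nat_lit 5) (nat_lit 462) (nat_lit 360) (nat_lit 318)))) (XT.nd (nat_lit 78) (nat_lit 304) (nat_lit 0) (XT.lf (nat_lit 0) (nat_lit 1776876895) (nat_lit 380) (nat_lit 908779174) (nat_lit 456) (nat_lit 7738741541) (nat_lit 124) (nat_lit 5) (nat_lit 129) (nat_lit 5) (nat_lit 130) (nat_lit 5) (nat_lit 463) (nat_lit 360) (nat_lit 317)) (XT.nd (nat_lit 78) (nat_lit 304) (nat_lit 0) (XT.lf (nat_lit 0) (nat_lit 6239676369) (nat_lit 456) (nat_lit 1589892226) (nat_lit 76) (nat_lit 2708671892) (nat_lit 124) (nat_lit 5) (nat_lit 130) (nat_lit 5) (nat_lit 125) (nat_lit 5) (nat_lit 464) (nat_lit 360) (nat_lit 316)) (XT.lf (nat_lit 0) (nat_lit 5611797810) (nat_lit 304) (nat_lit 4253203657) (nat_lit 380) (nat_lit 789365055) (nat_lit 120) (nat_lit 5) (nat_lit 124) (nat_lit 5) (nat_lit 125) (nat_lit 5) (nat_lit 465) (nat_lit 360) (nat_lit 315)))))) (XT.nd (nat_lit 390) (nat_lit 1368) (nat_lit 0) (XT.nd (nat_lit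 156) (nat_lit 684) (nat_lit 0) (XT.nd (nat_lit 78) (nat_lit 0) (nat_lit 0) (XT.lf (nat_lit 0) (nat_lit 2151689025) (nat_lit 380) (nat_lit 584341225) (nat_lit 456) (nat_lit 8036780828) (nat_lit 114) (nat_lit 5) (nat_lit 119) (nat_lit 5) (nat_lit 120) (nat_lit 5) (nat_lit 466) (nat_lit 360) (nat_lit 314)) (XT.lf (nat_lit 0) (nat_lit 6334093501) (nat_lit 456) (nat_lit 1425804539) (nat_lit 76) (nat_lit 3133377704) (nat_lit 114) (nat_lit 5) (nat_lit 120) (nat_lit 5) (nat_lit 115) (nat_lit 5) (nat_lit 467) (nat_lit 360) (nat_lit 313))) (XT.nd (nat_lit 78) (nat_lit 380) (nat_lit 0) (XT.lf (nat_lit 0) (nat_lit 5923425327) (nat_lit 304) (nat_lit 4081996010) (nat_lit 380) (nat_lit 1010712269) (nat_lit 110) (nat_lit 5) (nat_lit 114) (nat_lit 5) (nat_lit 115) (nat_lit 5) (nat_lit 468) (nat_lit 360) (nat_lit 312)) (XT.nd (nat_lit 78) (nat_lit 0) (nat_lit 0) (XT.lf (nat_lit 0) (nat_lit 2246223924) (nat_lit 304) (nat_lit 311593306)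 (nat_lit 380) (nat_lit 8583636141) (nat_lit 105) (nat_lit 5) (nat_lit 109) (nat_lit 5) (nat_lit 110) (nat_lit 5) (nat_lit 469) (nat_lit 360) (nat_lit 311)) (XT.lf (nat_lit 0) (nat_lit 6200873303) (nat_lit 380) (nat_lit 1561688753) (nat_lit 76) (nat_lit 3506259465) (nat_lit 105) (nat_lit 5) (nat_lit 110) (nat_lit 5) (nat_lit 106) (nat_lit 5) (nat_lit 470) (nat_lit 360) (nat_lit 310))))) (XT.nd (nat_lit 234) (nat_lit 684) (nat_lit 0) (XT.nd (nat_lit 78) (nat_lit 380) (nat_lit 0) (XT.lf (nat_lit 0) (nat_lit 5931313958) (nat_lit 304) (nat_lit 3986176769) (nat_lit 380) (nat_lit 1481241510) (nat_lit 101) (nat_lit 5) (nat_lit 105) (nat_lit 5) (nat_lit 106) (nat_lit 5) (nat_lit 471) (nat_lit 360) (nat_lit 309)) (XT.nd (nat_lit 78) (nat_lit 0) (nat_lit 0) (XT.lf (nat_lit 0) (nat_lit 2013457070) (nat_lit 304) (nat_lit 119041846) (nat_lit 380) (nat_lit 9398791307) (nat_lit 96) (nat_lit 5) (nat_lit 100) (nat_lit 5) (nat_lit 101)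 (nat_lit 5) (nat_lit 472) (nat_lit 360) (nat_lit 308)) (XT.lf (nat_lit 0) (nat_lit 5820922547) (nat_lit 380) (nat_lit 2045882726) (nat_lit 76) (nat_lit 3799062109) (nat_lit 96) (nat_lit 5) (nat_lit 101) (nat_lit 5) (nat_lit 97) (nat_lit 5) (nat_lit 473) (nat_lit 360) (nat_lit 307)))) (XT.nd (nat_lit 78) (nat_lit 380) (nat_lit 0) (XT.lf (nat_lit 0) (nat_lit 5585930230) (nat_lit 304) (nat_lit 3995469928) (nat_lit 380) (nat_lit 2221778723) (nat_lit 92) (nat_lit 5) (nat_lit 96) (nat_lit 5) (nat_lit 97) (nat_lit 5) (nat_lit 474) (nat_lit 360) (nat_lit 306)) (XT.nd (nat_lit 78) (nat_lit 0) (nat_lit 0) (XT.lf (nat_lit 0) (nat_lit 1401710938) (nat_lit 304) (nat_lit 37057641) (nat_lit 380) (nat_lit 10504599868) (nat_lit 87) (nat_lit 5) (nat_lit 91) (nat_lit 5) (nat_lit 92) (nat_lit 5) (nat_lit 475) (nat_lit 360) (nat_lit 305)) (XT.lf (nat_lit 0) (nat_lit 5172308531) (nat_lit 380) (nat_lit 2931541039) (nat_lit 76) (nat_lit 3981635907)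 (nat_lit 87) (nat_lit 5) (nat_lit 92) (nat_lit 5) (nat_lit 88) (nat_lit 5) (nat_lit 476) (nat_lit 360) (nat_lit 304))))))))
noncomputable def xc46 : XT := (XT.nd (nat_lit 1638) (nat_lit 988) (nat_lit 0) (XT.nd (nat_lit 780) (nat_lit 1672) (nat_lit 0) (XT.nd (nat_lit 390) (nat_lit 912) (nat_lit 0) (XT.nd (nat_lit 156) (nat_lit 228) (nat_lit 0) (XT.nd (nat_lit 78) (nat_lit 380) (nat_lit 0) (XT.lf (nat_lit 0) (nat_lit 4832762244) (nat_lit 228) (nat_lit 4141666375) (nat_lit 304) (nat_lit 3256145901) (nat_lit 84) (nat_lit 5) (nat_lit 87) (nat_lit 5) (nat_lit 88) (nat_lit 5) (nat_lit 477) (nat_lit 360) (nat_lit 303)) (XT.lf (nat_lit 0) (nat_lit 354095682) (nat_lit 304) (nat_lit 98191034) (nat_lit 380) (nat_lit 11926535070) (nat_lit 79) (nat_lit 5) (nat_lit 83) (nat_lit 5) (nat_lit 84) (nat_lit 5) (nat_lit 478) (nat_lit 360) (nat_lit 302))) (XT.nd (nat_lit 78) (nat_lit 228) (nat_lit 0) (XT.lf (nat_lit 0) (nat_lit 4230007334)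 (nat_lit 380) (nat_lit 4277207982) (nat_lit 76) (nat_lit 4021621242) (nat_lit 79) (nat_lit 5) (nat_lit 84) (nat_lit 5) (nat_lit 80) (nat_lit 5) (nat_lit 479) (nat_lit 360) (nat_lit 301)) (XT.nd (nat_lit 78) (nat_lit 0) (nat_lit 0) (XT.lf (nat_lit 0) (nat_lit 3611728865) (nat_lit 228) (nat_lit 4458953459) (nat_lit 304) (nat_lit 4611428563) (nat_lit 76) (nat_lit 5) (nat_lit 79) (nat_lit 5) (nat_lit 80) (nat_lit 5) (nat_lit 480) (nat_lit 360) (nat_lit 300)) (XT.lf (nat_lit 0) (nat_lit 11656569670) (nat_lit 228) (nat_lit 323934410) (nat_lit 304) (nat_lit 858107075) (nat_lit 76) (nat_lit 5) (nat_lit 79) (nat_lit 5) (nat_lit 80) (nat_lit 5) (nat_lit 481) (nat_lit 360) (nat_lit 299))))) (XT.nd (nat_lit 156) (nat_lit 304) (nat_lit 0) (XT.nd (nat_lit 78) (nat_lit 228) (nat_lit 0) (XT.lf (nat_lit 0) (nat_lit 2965621683) (nat_lit 380) (nat_lit 6147446726) (nat_lit 76) (nat_lit 3884108230) (nat_lit 71) (nat_lit 5) (nat_lit 76) (nat_lit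 5) (nat_lit 72) (nat_lit 5) (nat_lit 482) (nat_lit 360) (nat_lit 298)) (XT.lf (nat_lit 0) (nat_lit 1856530778) (nat_lit 228) (nat_lit 4984271398) (nat_lit 304) (nat_lit 6318275178) (nat_lit 68) (nat_lit 5) (nat_lit 71) (nat_lit 5) (nat_lit 72) (nat_lit 5) (nat_lit 483) (nat_lit 360) (nat_lit 297))) (XT.nd (nat_lit 78) (nat_lit 304) (nat_lit 0) (XT.lf (nat_lit 0) (nat_lit 10044966330) (nat_lit 228) (nat_lit 754363064) (nat_lit 304) (nat_lit 2524776404) (nat_lit 68) (nat_lit 5) (nat_lit 71) (nat_lit 5) (nat_lit 72) (nat_lit 5) (nat_lit 484) (nat_lit 360) (nat_lit 296)) (XT.nd (nat_lit 78) (nat_lit 0) (nat_lit 0) (XT.lf (nat_lit 0) (nat_lit 1347065581) (nat_lit 304) (nat_lit 8613530890) (nat_lit 76) (nat_lit 3531267903) (nat_lit 64) (nat_lit 5) (nat_lit 68) (nat_lit 5) (nat_lit 65) (nat_lit 5) (nat_lit 485) (nat_lit 360) (nat_lit 295)) (XT.lf (nat_lit 0) (nat_lit 5254922670) (nat_lit 304) (nat_lit 499425872) (nat_lit 76)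 (nat_lit 7908454301) (nat_lit 64) (nat_lit 5) (nat_lit 68) (nat_lit 5) (nat_lit 65) (nat_lit 5) (nat_lit 486) (nat_lit 360) (nat_lit 294)))))) (XT.nd (nat_lit 390) (nat_lit 912) (nat_lit 0) (XT.nd (nat_lit 156) (nat_lit 304) (nat_lit 0) (XT.nd (nat_lit 78) (nat_lit 228) (nat_lit 0) (XT.lf (nat_lit 0) (nat_lit 7822265928) (nat_lit 228) (nat_lit 1435347681) (nat_lit 304) (nat_lit 4579219014) (nat_lit 61) (nat_lit 5) (nat_lit 64) (nat_lit 5) (nat_lit 65) (nat_lit 5) (nat_lit 487) (nat_lit 360) (nat_lit 293)) (XT.lf (nat_lit 0) (nat_lit 2255722954) (nat_lit 228) (nat_lit 11087976845) (nat_lit 304) (nat_lit 670582328) (nat_lit 58) (nat_lit 5) (nat_lit 61) (nat_lit 5) (nat_lit 62) (nat_lit 5) (nat_lit 488) (nat_lit 360) (nat_lit 292))) (XT.nd (nat_lit 78) (nat_lit 228) (nat_lit 0) (XT.lf (nat_lit 0) (nat_lit 3288973438) (nat_lit 304) (nat_lit 3510349365) (nat_lit 76) (nat_lit 7395208135) (nat_lit 57) (nat_lit 5) (nat_lit 61)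 (nat_lit 5) (nat_lit 58) (nat_lit 5) (nat_lit 489) (nat_lit 360) (nat_lit 291)) (XT.nd (nat_lit 78) (nat_lit 0) (nat_lit 0) (XT.lf (nat_lit 0) (nat_lit 4906339711) (nat_lit 228) (nat_lit 2411035167) (nat_lit 304) (nat_lit 7060954136) (nat_lit 54) (nat_lit 5) (nat_lit 57) (nat_lit 5) (nat_lit 58) (nat_lit 5) (nat_lit 490) (nat_lit 360) (nat_lit 290)) (XT.lf (nat_lit 0) (nat_lit 11430372164) (nat_lit 304) (nat_lit 1096484137) (nat_lit 76) (nat_lit 2038871697) (nat_lit 54) (nat_lit 5) (nat_lit 58) (nat_lit 5) (nat_lit 55) (nat_lit 5) (nat_lit 491) (nat_lit 360) (nat_lit 289))))) (XT.nd (nat_lit 234) (nat_lit 456) (nat_lit 0) (XT.nd (nat_lit 78) (nat_lit 152) (nat_lit 0) (XT.lf (nat_lit 0) (nat_lit 889612132) (nat_lit 304) (nat_lit 7288942957) (nat_lit 76) (nat_lit 6577567319) (nat_lit 50) (nat_lit 5) (nat_lit 54) (nat_lit 5) (nat_lit 51) (nat_lit 5) (nat_lit 492) (nat_lit 360) (nat_lit 288)) (XT.nd (nat_lit 78) (nat_lit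 0) (nat_lit 0) (XT.lf (nat_lit 0) (nat_lit 1206312853) (nat_lit 152) (nat_lit 3729679658) (nat_lit 228) (nat_lit 10014264976) (nat_lit 48) (nat_lit 5) (nat_lit 50) (nat_lit 5) (nat_lit 51) (nat_lit 5) (nat_lit 493) (nat_lit 360) (nat_lit 287)) (XT.lf (nat_lit 0) (nat_lit 9085529088) (nat_lit 228) (nat_lit 5238220774) (nat_lit 76) (nat_lit 824085919) (nat_lit 48) (nat_lit 5) (nat_lit 51) (nat_lit 5) (nat_lit 49) (nat_lit 5) (nat_lit 494) (nat_lit 360) (nat_lit 286)))) (XT.nd (nat_lit 78) (nat_lit 228) (nat_lit 0) (XT.lf (nat_lit 0) (nat_lit 3403009608) (nat_lit 228) (nat_lit 9930218525) (nat_lit 304) (nat_lit 2015839057) (nat_lit 45) (nat_lit 5) (nat_lit 48) (nat_lit 5) (nat_lit 49) (nat_lit 5) (nat_lit 495) (nat_lit 360) (nat_lit 285)) (XT.nd (nat_lit 78) (nat_lit 152) (nat_lit 0) (XT.lf (nat_lit 0) (nat_lit 2087681565) (nat_lit 304) (nat_lit 3334097228) (nat_lit 76) (nat_lit 10132198690) (nat_lit 44) (nat_lit 5) (nat_lit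 48) (nat_lit 5) (nat_lit 45) (nat_lit 5) (nat_lit 496) (nat_lit 360) (nat_lit 284)) (XT.lf (nat_lit 0) (nat_lit 5454758564) (nat_lit 152) (nat_lit 796015141) (nat_lit 228) (nat_lit 9511860617) (nat_lit 42) (nat_lit 5) (nat_lit 44) (nat_lit 5) (nat_lit 45) (nat_lit 5) (nat_lit 497) (nat_lit 360) (nat_lit 283))))))) (XT.nd (nat_lit 53274) (nat_lit 0) (nat_lit 20824) (XT.nd (nat_lit 390) (nat_lit 380) (nat_lit 0) (XT.nd (nat_lit 156) (nat_lit 380) (nat_lit 0) (XT.nd (nat_lit 78) (nat_lit 228) (nat_lit 0) (XT.lf (nat_lit 0) (nat_lit 10514282867) (nat_lit 228) (nat_lit 1589698956) (nat_lit 76) (nat_lit 3871143974) (nat_lit 42) (nat_lit 5) (nat_lit 45) (nat_lit 5) (nat_lit 43) (nat_lit 5) (nat_lit 498) (nat_lit 360) (nat_lit 282)) (XT.lf (nat_lit 0) (nat_lit 7341249545) (nat_lit 228) (nat_lit 7544520633) (nat_lit 304) (nat_lit 1305647279) (nat_lit 39) (nat_lit 5) (nat_lit 42) (nat_lit 5) (nat_lit 43) (nat_lit 5) (nat_lit 499)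 (nat_lit 360) (nat_lit 281))) (XT.nd (nat_lit 78) (nat_lit 304) (nat_lit 0) (XT.lf (nat_lit 0) (nat_lit 2874751018) (nat_lit 304) (nat_lit 11228498) (nat_lit 76) (nat_lit 13526067738) (nat_lit 38) (nat_lit 5) (nat_lit 42) (nat_lit 5) (nat_lit 39) (nat_lit 5) (nat_lit 500) (nat_lit 360) (nat_lit 280)) (XT.nd (nat_lit 78) (nat_lit 152) (nat_lit 0) (XT.lf (nat_lit 0) (nat_lit 7162966276) (nat_lit 228) (nat_lit 7585675047) (nat_lit 76) (nat_lit 1887446139) (nat_lit 36) (nat_lit 5) (nat_lit 39) (nat_lit 5) (nat_lit 37) (nat_lit 5) (nat_lit 501) (nat_lit 360) (nat_lit 279)) (XT.lf (nat_lit 0) (nat_lit 1376027770) (nat_lit 152) (nat_lit 10159559385) (nat_lit 228) (nat_lit 5329052665) (nat_lit 34) (nat_lit 5) (nat_lit 36) (nat_lit 5) (nat_lit 37) (nat_lit 5) (nat_lit 502) (nat_lit 360) (nat_lit 278))))) (XT.nd (nat_lit 234) (nat_lit 152) (nat_lit 0) (XT.nd (nat_lit 78) (nat_lit 228) (nat_lit 0) (XT.lf (nat_lit 0) (nat_lit 10568393323)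 (nat_lit 152) (nat_lit 5448934292) (nat_lit 228) (nat_lit 1080006354) (nat_lit 34) (nat_lit 5) (nat_lit 36) (nat_lit 5) (nat_lit 37) (nat_lit 5) (nat_lit 503) (nat_lit 360) (nat_lit 277)) (XT.nd (nat_lit 78) (nat_lit 0) (nat_lit 0) (XT.lf (nat_lit 0) (nat_lit 2571749092) (nat_lit 152) (nat_lit 627435001) (nat_lit 228) (nat_lit 14135322486) (nat_lit 31) (nat_lit 5) (nat_lit 33) (nat_lit 5) (nat_lit 34) (nat_lit 5) (nat_lit 504) (nat_lit 360) (nat_lit 276)) (XT.lf (nat_lit 0) (nat_lit 7592709502) (nat_lit 228) (nat_lit 5718768761) (nat_lit 76) (nat_lit 4263941207) (nat_lit 31) (nat_lit 5) (nat_lit 34) (nat_lit 5) (nat_lit 32) (nat_lit 5) (nat_lit 505) (nat_lit 360) (nat_lit 275)))) (XT.nd (nat_lit 52494) (nat_lit 0) (nat_lit 28044) (XT.lf (nat_lit 0) (nat_lit 3497940998) (nat_lit 152) (nat_lit 8574833911) (nat_lit 228) (nat_lit 5748406097) (nat_lit 29) (nat_lit 5) (nat_lit 31) (nat_lit 5) (nat_lit 32) (nat_lit 5) (nat_lit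 506) (nat_lit 360) (nat_lit 274)) (XT.nd (nat_lit 78) (nat_lit 1748) (nat_lit 0) (XT.lf (nat_lit 0) (nat_lit 1684944142) (nat_lit 1748) (nat_lit 209918858) (nat_lit 0) (nat_lit 1684944142) (nat_lit 421) (nat_lit 5) (nat_lit 444) (nat_lit 4) (nat_lit 421) (nat_lit 4) (nat_lit 418) (nat_lit 361) (nat_lit 361)) (XT.lf (nat_lit 0) (nat_lit 4713359679) (nat_lit 1748) (nat_lit 2079549870) (nat_lit 1748) (nat_lit 405813579) (nat_lit 398) (nat_lit 4) (nat_lit 421) (nat_lit 5) (nat_lit 421) (nat_lit 4) (nat_lit 419) (nat_lit 361) (nat_lit 360)))))) (XT.nd (nat_lit 390) (nat_lit 3344) (nat_lit 0) (XT.nd (nat_lit 156) (nat_lit 1824) (nat_lit 0) (XT.nd (nat_lit 78) (nat_lit 912) (nat_lit 0) (XT.lf (nat_lit 0) (nat_lit 2663509836) (nat_lit 1064) (nat_lit 295977322) (nat_lit 1140) (nat_lit 4279694471) (nat_lit 383) (nat_lit 5) (nat_lit 397) (nat_lit 5) (nat_lit 398) (nat_lit 4) (nat_lit 420) (nat_lit 361) (nat_lit 359)) (XT.lf (nat_lit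 0) (nat_lit 595181764) (nat_lit 912) (nat_lit 5756405420) (nat_lit 912) (nat_lit 929545326) (nat_lit 371) (nat_lit 4) (nat_lit 383) (nat_lit 5) (nat_lit 383) (nat_lit 4) (nat_lit 421) (nat_lit 361) (nat_lit 358))) (XT.nd (nat_lit 78) (nat_lit 1748) (nat_lit 0) (XT.lf (nat_lit 0) (nat_lit 2422608359) (nat_lit 988) (nat_lit 1479464825) (nat_lit 76) (nat_lit 3422207684) (nat_lit 370) (nat_lit 5) (nat_lit 383) (nat_lit 5) (nat_lit 371) (nat_lit 4) (nat_lit 422) (nat_lit 361) (nat_lit 357)) (XT.nd (nat_lit 78) (nat_lit 912) (nat_lit 0) (XT.lf (nat_lit 0) (nat_lit 3806964400) (nat_lit 836) (nat_lit 1983160668) (nat_lit 912) (nat_lit 1578862267) (nat_lit 359) (nat_lit 5) (nat_lit 370) (nat_lit 5) (nat_lit 371) (nat_lit 4) (nat_lit 423) (nat_lit 361) (nat_lit 356)) (XT.lf (nat_lit 0) (nat_lit 1744423085) (nat_lit 912) (nat_lit 5667753767) (nat_lit 76) (nat_lit 3052801) (nat_lit 347) (nat_lit 5) (nat_lit 359) (nat_lit 5) (nat_lit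 348) (nat_lit 4) (nat_lit 424) (nat_lit 361) (nat_lit 355))))) (XT.nd (nat_lit 234) (nat_lit 1596) (nat_lit 0) (XT.nd (nat_lit 78) (nat_lit 1748) (nat_lit 0) (XT.lf (nat_lit 0) (nat_lit 5087423220) (nat_lit 912) (nat_lit 343411302) (nat_lit 76) (nat_lit 2031897201) (nat_lit 347) (nat_lit 5) (nat_lit 359) (nat_lit 5) (nat_lit 348) (nat_lit 4) (nat_lit 425) (nat_lit 361) (nat_lit 354)) (XT.nd (nat_lit 78) (nat_lit 836) (nat_lit 0) (XT.lf (nat_lit 0) (nat_lit 944377869) (nat_lit 912) (nat_lit 2431710245) (nat_lit 76) (nat_lit 4135573663) (nat_lit 335) (nat_lit 5) (nat_lit 347) (nat_lit 5) (nat_lit 336) (nat_lit 5) (nat_lit 426) (nat_lit 361) (nat_lit 353)) (XT.lf (nat_lit 0) (nat_lit 3010414485) (nat_lit 836) (nat_lit 1248877990) (nat_lit 912) (nat_lit 3302780763) (nat_lit 324) (nat_lit 5) (nat_lit 335) (nat_lit 5) (nat_lit 336) (nat_lit 5) (nat_lit 427) (nat_lit 361) (nat_lit 352)))) (XT.nd (nat_lit 78) (nat_lit 836) (nat_lit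 0) (XT.lf (nat_lit 0) (nat_lit 918155531) (nat_lit 760) (nat_lit 6690174629) (nat_lit 836) (nat_lit 5835312) (nat_lit 314) (nat_lit 5) (nat_lit 324) (nat_lit 5) (nat_lit 325) (nat_lit 4) (nat_lit 428) (nat_lit 361) (nat_lit 351)) (XT.nd (nat_lit 78) (nat_lit 760) (nat_lit 0) (XT.lf (nat_lit 0) (nat_lit 3291814289) (nat_lit 836) (nat_lit 1207244125) (nat_lit 76) (nat_lit 3168257255) (nat_lit 313) (nat_lit 5) (nat_lit 324) (nat_lit 5) (nat_lit 314) (nat_lit 5) (nat_lit 429) (nat_lit 361) (nat_lit 350)) (XT.lf (nat_lit 0) (nat_lit 4380720828) (nat_lit 760) (nat_lit 2244017915) (nat_lit 836) (nat_lit 1097428719) (nat_lit 303) (nat_lit 5) (nat_lit 313) (nat_lit 5) (nat_lit 314) (nat_lit 5) (nat_lit 430) (nat_lit 361) (nat_lit 349))))))))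
noncomputable def xc47 : XT := (XT.nd (nat_lit 1638) (nat_lit 6156) (nat_lit 0) (XT.nd (nat_lit 780) (nat_lit 4636) (nat_lit 0) (XT.nd (nat_lit 390) (nat_lit 1976) (nat_lit 0) (XT.nd (nat_lit 156) (nat_lit 1444) (nat_lit 0) (XT.nd (nat_lit 78) (nat_lit 760) (nat_lit 0) (XT.lf (nat_lit 0) (nat_lit 2181424326) (nat_lit 760) (nat_lit 5513538047) (nat_lit 76) (nat_lit 83594978) (nat_lit 293) (nat_lit 5) (nat_lit 303) (nat_lit 5) (nat_lit 294) (nat_lit 5) (nat_lit 431) (nat_lit 361) (nat_lit 348)) (XT.lf (nat_lit 0) (nat_lit 103336635) (nat_lit 760) (nat_lit 5387850818) (nat_lit 836) (nat_lit 2345167740) (nat_lit 283) (nat_lit 5) (nat_lit 293) (nat_lit 5) (nat_lit 294) (nat_lit 5) (nat_lit 432) (nat_lit 361) (nat_lit 347))) (XT.nd (nat_lit 78) (nat_lit 1368) (nat_lit 0) (XT.lf (nat_lit 0) (nat_lit 938534077) (nat_lit 836) (nat_lit 2063199938) (nat_lit 76) (nat_lit 4893884703) (nat_lit 282) (nat_lit 5) (nat_lit 293) (nat_lit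 5) (nat_lit 283) (nat_lit 5) (nat_lit 433) (nat_lit 361) (nat_lit 346)) (XT.nd (nat_lit 78) (nat_lit 684) (nat_lit 0) (XT.lf (nat_lit 0) (nat_lit 3684808759) (nat_lit 684) (nat_lit 538985574) (nat_lit 760) (nat_lit 3732641725) (nat_lit 273) (nat_lit 5) (nat_lit 282) (nat_lit 5) (nat_lit 283) (nat_lit 5) (nat_lit 434) (nat_lit 361) (nat_lit 345)) (XT.lf (nat_lit 0) (nat_lit 1495642199) (nat_lit 684) (nat_lit 6059505367) (nat_lit 760) (nat_lit 463738248) (nat_lit 264) (nat_lit 5) (nat_lit 273) (nat_lit 5) (nat_lit 274) (nat_lit 5) (nat_lit 435) (nat_lit 361) (nat_lit 344))))) (XT.nd (nat_lit 156) (nat_lit 1292) (nat_lit 0) (XT.nd (nat_lit 78) (nat_lit 608) (nat_lit 0) (XT.lf (nat_lit 0) (nat_lit 2809516596) (nat_lit 760) (nat_lit 737184505) (nat_lit 76) (nat_lit 4536001191) (nat_lit 263) (nat_lit 5) (nat_lit 273) (nat_lit 5) (nat_lit 264) (nat_lit 5) (nat_lit 436) (nat_lit 361) (nat_lit 343)) (XT.lf (nat_lit 0) (nat_lit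 5161635536) (nat_lit 608) (nat_lit 959201141) (nat_lit 684) (nat_lit 2027343374) (nat_lit 255) (nat_lit 5) (nat_lit 263) (nat_lit 5) (nat_lit 264) (nat_lit 5) (nat_lit 437) (nat_lit 361) (nat_lit 342))) (XT.nd (nat_lit 78) (nat_lit 608) (nat_lit 0) (XT.lf (nat_lit 0) (nat_lit 1247207628) (nat_lit 684) (nat_lit 5290656774) (nat_lit 76) (nat_lit 1677345403) (nat_lit 246) (nat_lit 5) (nat_lit 255) (nat_lit 5) (nat_lit 247) (nat_lit 5) (nat_lit 438) (nat_lit 361) (nat_lit 341)) (XT.nd (nat_lit 78) (nat_lit 0) (nat_lit 0) (XT.lf (nat_lit 0) (nat_lit 631094282) (nat_lit 608) (nat_lit 3905747872) (nat_lit 684) (nat_lit 3746956365) (nat_lit 238) (nat_lit 5) (nat_lit 246) (nat_lit 5) (nat_lit 247) (nat_lit 5) (nat_lit 439) (nat_lit 361) (nat_lit 340)) (XT.lf (nat_lit 0) (nat_lit 6674998856) (nat_lit 608) (nat_lit 1199478630) (nat_lit 684) (nat_lit 479658100) (nat_lit 238) (nat_lit 5) (nat_lit 246) (nat_lit 5) (nat_lit 247) (nat_lit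 5) (nat_lit 440) (nat_lit 361) (nat_lit 339)))))) (XT.nd (nat_lit 390) (nat_lit 2204) (nat_lit 0) (XT.nd (nat_lit 156) (nat_lit 1216) (nat_lit 0) (XT.nd (nat_lit 78) (nat_lit 532) (nat_lit 0) (XT.lf (nat_lit 0) (nat_lit 2801776145) (nat_lit 684) (nat_lit 4050849779) (nat_lit 76) (nat_lit 1573178786) (nat_lit 229) (nat_lit 5) (nat_lit 238) (nat_lit 5) (nat_lit 230) (nat_lit 5) (nat_lit 441) (nat_lit 361) (nat_lit 338)) (XT.lf (nat_lit 0) (nat_lit 2021623568) (nat_lit 532) (nat_lit 4101094808) (nat_lit 608) (nat_lit 2376538933) (nat_lit 222) (nat_lit 5) (nat_lit 229) (nat_lit 5) (nat_lit 230) (nat_lit 5) (nat_lit 442) (nat_lit 361) (nat_lit 337))) (XT.nd (nat_lit 78) (nat_lit 1140) (nat_lit 0) (XT.lf (nat_lit 0) (nat_lit 899097188) (nat_lit 608) (nat_lit 377600121) (nat_lit 76) (nat_lit 7297869482) (nat_lit 221) (nat_lit 5) (nat_lit 229) (nat_lit 5) (nat_lit 222) (nat_lit 5) (nat_lit 443) (nat_lit 361) (nat_lit 336)) (XT.nd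 (nat_lit 78) (nat_lit 532) (nat_lit 0) (XT.lf (nat_lit 0) (nat_lit 4206153420) (nat_lit 684) (nat_lit 2823573381) (nat_lit 76) (nat_lit 1621405314) (nat_lit 213) (nat_lit 5) (nat_lit 222) (nat_lit 5) (nat_lit 214) (nat_lit 5) (nat_lit 444) (nat_lit 361) (nat_lit 335)) (XT.lf (nat_lit 0) (nat_lit 3401593329) (nat_lit 532) (nat_lit 4160435906) (nat_lit 608) (nat_lit 1167563995) (nat_lit 206) (nat_lit 5) (nat_lit 213) (nat_lit 5) (nat_lit 214) (nat_lit 5) (nat_lit 445) (nat_lit 361) (nat_lit 334))))) (XT.nd (nat_lit 234) (nat_lit 1140) (nat_lit 0) (XT.nd (nat_lit 78) (nat_lit 456) (nat_lit 0) (XT.lf (nat_lit 0) (nat_lit 910433564) (nat_lit 532) (nat_lit 1211213091) (nat_lit 608) (nat_lit 6688216216) (nat_lit 198) (nat_lit 5) (nat_lit 205) (nat_lit 5) (nat_lit 206) (nat_lit 5) (nat_lit 446) (nat_lit 361) (nat_lit 333)) (XT.nd (nat_lit 78) (nat_lit 456) (nat_lit 0) (XT.lf (nat_lit 0) (nat_lit 5458909759) (nat_lit 608) (nat_lit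 1632803778) (nat_lit 76) (nat_lit 1799928990) (nat_lit 198) (nat_lit 5) (nat_lit 206) (nat_lit 5) (nat_lit 199) (nat_lit 5) (nat_lit 447) (nat_lit 361) (nat_lit 332)) (XT.lf (nat_lit 0) (nat_lit 4746717609) (nat_lit 456) (nat_lit 4106246090) (nat_lit 532) (nat_lit 122309846) (nat_lit 192) (nat_lit 5) (nat_lit 198) (nat_lit 5) (nat_lit 199) (nat_lit 5) (nat_lit 448) (nat_lit 361) (nat_lit 331)))) (XT.nd (nat_lit 78) (nat_lit 532) (nat_lit 0) (XT.lf (nat_lit 0) (nat_lit 2155783413) (nat_lit 532) (nat_lit 1032279826) (nat_lit 608) (nat_lit 5872578938) (nat_lit 184) (nat_lit 5) (nat_lit 191) (nat_lit 5) (nat_lit 192) (nat_lit 5) (nat_lit 449) (nat_lit 361) (nat_lit 330)) (XT.nd (nat_lit 78) (nat_lit 532) (nat_lit 0) (XT.lf (nat_lit 0) (nat_lit 6557025181) (nat_lit 608) (nat_lit 503985754) (nat_lit 76) (nat_lit 2086826412) (nat_lit 184) (nat_lit 5) (nat_lit 192) (nat_lit 5) (nat_lit 185) (nat_lit 5) (nat_lit 450) (nat_lit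 361) (nat_lit 329)) (XT.lf (nat_lit 0) (nat_lit 745382071) (nat_lit 532) (nat_lit 3210543431) (nat_lit 76) (nat_lit 5280793482) (nat_lit 177) (nat_lit 5) (nat_lit 184) (nat_lit 5) (nat_lit 178) (nat_lit 5) (nat_lit 451) (nat_lit 361) (nat_lit 328))))))) (XT.nd (nat_lit 858) (nat_lit 2584) (nat_lit 0) (XT.nd (nat_lit 390) (nat_lit 1748) (nat_lit 0) (XT.nd (nat_lit 156) (nat_lit 912) (nat_lit 0) (XT.nd (nat_lit 78) (nat_lit 456) (nat_lit 0) (XT.lf (nat_lit 0) (nat_lit 3326714226) (nat_lit 456) (nat_lit 764851283) (nat_lit 532) (nat_lit 5235925925) (nat_lit 171) (nat_lit 5) (nat_lit 177) (nat_lit 5) (nat_lit 178) (nat_lit 5) (nat_lit 452) (nat_lit 361) (nat_lit 327)) (XT.lf (nat_lit 0) (nat_lit 542814327) (nat_lit 456) (nat_lit 6956528600) (nat_lit 532) (nat_lit 1920857519) (nat_lit 165) (nat_lit 5) (nat_lit 171) (nat_lit 5) (nat_lit 172) (nat_lit 5) (nat_lit 453) (nat_lit 361) (nat_lit 326))) (XT.nd (nat_lit 78) (nat_lit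 836) (nat_lit 0) (XT.lf (nat_lit 0) (nat_lit 1440415764) (nat_lit 532) (nat_lit 2296930858) (nat_lit 76) (nat_lit 5777260153) (nat_lit 164) (nat_lit 5) (nat_lit 171) (nat_lit 5) (nat_lit 165) (nat_lit 5) (nat_lit 454) (nat_lit 361) (nat_lit 325)) (XT.nd (nat_lit 78) (nat_lit 380) (nat_lit 0) (XT.lf (nat_lit 0) (nat_lit 4394579809) (nat_lit 456) (nat_lit 431541676) (nat_lit 532) (nat_lit 4784880947) (nat_lit 158) (nat_lit 5) (nat_lit 164) (nat_lit 5) (nat_lit 165) (nat_lit 5) (nat_lit 455) (nat_lit 361) (nat_lit 324)) (XT.lf (nat_lit 0) (nat_lit 1476383273) (nat_lit 380) (nat_lit 6802064322) (nat_lit 456) (nat_lit 1430913697) (nat_lit 153) (nat_lit 5) (nat_lit 158) (nat_lit 5) (nat_lit 159) (nat_lit 5) (nat_lit 456) (nat_lit 361) (nat_lit 323))))) (XT.nd (nat_lit 234) (nat_lit 836) (nat_lit 0) (XT.nd (nat_lit 78) (nat_lit 836) (nat_lit 0) (XT.lf (nat_lit 0) (nat_lit 1956994202) (nat_lit 456) (nat_lit 1517247806) (nat_lit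 76) (nat_lit 6335340543) (nat_lit 152) (nat_lit 5) (nat_lit 158) (nat_lit 5) (nat_lit 153) (nat_lit 5) (nat_lit 457) (nat_lit 361) (nat_lit 322)) (XT.nd (nat_lit 78) (nat_lit 380) (nat_lit 0) (XT.lf (nat_lit 0) (nat_lit 5328494266) (nat_lit 456) (nat_lit 55372641) (nat_lit 532) (nat_lit 4527957473) (nat_lit 146) (nat_lit 5) (nat_lit 152) (nat_lit 5) (nat_lit 153) (nat_lit 5) (nat_lit 458) (nat_lit 361) (nat_lit 321)) (XT.lf (nat_lit 0) (nat_lit 2258035319) (nat_lit 380) (nat_lit 6624503118) (nat_lit 456) (nat_lit 1133519772) (nat_lit 141) (nat_lit 5) (nat_lit 146) (nat_lit 5) (nat_lit 147) (nat_lit 5) (nat_lit 459) (nat_lit 361) (nat_lit 320)))) (XT.nd (nat_lit 78) (nat_lit 760) (nat_lit 0) (XT.lf (nat_lit 0) (nat_lit 2285802538) (nat_lit 456) (nat_lit 904302015) (nat_lit 76) (nat_lit 6932230902) (nat_lit 140) (nat_lit 5) (nat_lit 146) (nat_lit 5) (nat_lit 141) (nat_lit 5) (nat_lit 460) (nat_lit 361) (nat_lit 319)) (XT.nd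 (nat_lit 78) (nat_lit 380) (nat_lit 0) (XT.lf (nat_lit 0) (nat_lit 5757198171) (nat_lit 456) (nat_lit 4137878610) (nat_lit 76) (nat_lit 335545996) (nat_lit 135) (nat_lit 5) (nat_lit 141) (nat_lit 5) (nat_lit 136) (nat_lit 5) (nat_lit 461) (nat_lit 361) (nat_lit 318)) (XT.lf (nat_lit 0) (nat_lit 2853054334) (nat_lit 380) (nat_lit 6448089616) (nat_lit 456) (nat_lit 1039880901) (nat_lit 130) (nat_lit 5) (nat_lit 135) (nat_lit 5) (nat_lit 136) (nat_lit 5) (nat_lit 462) (nat_lit 361) (nat_lit 317)))))) (XT.nd (nat_lit 390) (nat_lit 1368) (nat_lit 0) (XT.nd (nat_lit 156) (nat_lit 760) (nat_lit 0) (XT.nd (nat_lit 78) (nat_lit 380) (nat_lit 0) (XT.lf (nat_lit 0) (nat_lit 2415485297) (nat_lit 456) (nat_lit 493740070) (nat_lit 76) (nat_lit 7544391950) (nat_lit 129) (nat_lit 5) (nat_lit 135) (nat_lit 5) (nat_lit 130) (nat_lit 5) (nat_lit 463) (nat_lit 361) (nat_lit 316)) (XT.lf (nat_lit 0) (nat_lit 5932341865) (nat_lit 456) (nat_lit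 3915361692) (nat_lit 76) (nat_lit 720505252) (nat_lit 124) (nat_lit 5) (nat_lit 130) (nat_lit 5) (nat_lit 125) (nat_lit 5) (nat_lit 464) (nat_lit 361) (nat_lit 315))) (XT.nd (nat_lit 78) (nat_lit 456) (nat_lit 0) (XT.lf (nat_lit 0) (nat_lit 3223618692) (nat_lit 304) (nat_lit 6298046838) (nat_lit 380) (nat_lit 1163394579) (nat_lit 120) (nat_lit 5) (nat_lit 124) (nat_lit 5) (nat_lit 125) (nat_lit 5) (nat_lit 465) (nat_lit 361) (nat_lit 314)) (XT.nd (nat_lit 78) (nat_lit 380) (nat_lit 0) (XT.lf (nat_lit 0) (nat_lit 2332500155) (nat_lit 380) (nat_lit 324433385) (nat_lit 76) (nat_lit 8147312847) (nat_lit 119) (nat_lit 5) (nat_lit 124) (nat_lit 5) (nat_lit 120) (nat_lit 5) (nat_lit 466) (nat_lit 361) (nat_lit 313)) (XT.lf (nat_lit 0) (nat_lit 5894648645) (nat_lit 456) (nat_lit 3955835311) (nat_lit 76) (nat_lit 1074950329) (nat_lit 114) (nat_lit 5) (nat_lit 120) (nat_lit 5) (nat_lit 115) (nat_lit 5) (nat_lit 467) (nat_lit 361)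 (nat_lit 312))))) (XT.nd (nat_lit 234) (nat_lit 684) (nat_lit 0) (XT.nd (nat_lit 78) (nat_lit 380) (nat_lit 0) (XT.lf (nat_lit 0) (nat_lit 3328390012) (nat_lit 304) (nat_lit 6200826453) (nat_lit 380) (nat_lit 1519815718) (nat_lit 110) (nat_lit 5) (nat_lit 114) (nat_lit 5) (nat_lit 115) (nat_lit 5) (nat_lit 468) (nat_lit 361) (nat_lit 311)) (XT.nd (nat_lit 78) (nat_lit 304) (nat_lit 0) (XT.lf (nat_lit 0) (nat_lit 2020950845) (nat_lit 380) (nat_lit 438899122) (nat_lit 76) (nat_lit 8715261539) (nat_lit 109) (nat_lit 5) (nat_lit 114) (nat_lit 5) (nat_lit 110) (nat_lit 5) (nat_lit 469) (nat_lit 361) (nat_lit 310)) (XT.lf (nat_lit 0) (nat_lit 5627413123) (nat_lit 380) (nat_lit 4303549588) (nat_lit 76) (nat_lit 1372253378) (nat_lit 105) (nat_lit 5) (nat_lit 110) (nat_lit 5) (nat_lit 106) (nat_lit 5) (nat_lit 470) (nat_lit 361) (nat_lit 309)))) (XT.nd (nat_lit 78) (nat_lit 380) (nat_lit 0) (XT.lf (nat_lit 0) (nat_lit 3122064016)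 (nat_lit 304) (nat_lit 6184374792) (nat_lit 380) (nat_lit 2127444302) (nat_lit 101) (nat_lit 5) (nat_lit 105) (nat_lit 5) (nat_lit 106) (nat_lit 5) (nat_lit 471) (nat_lit 361) (nat_lit 308)) (XT.nd (nat_lit 78) (nat_lit 304) (nat_lit 0) (XT.lf (nat_lit 0) (nat_lit 1462397430) (nat_lit 380) (nat_lit 883760148) (nat_lit 76) (nat_lit 9221019200) (nat_lit 100) (nat_lit 5) (nat_lit 105) (nat_lit 5) (nat_lit 101) (nat_lit 5) (nat_lit 472) (nat_lit 361) (nat_lit 307)) (XT.lf (nat_lit 0) (nat_lit 5111315158) (nat_lit 380) (nat_lit 5007066204) (nat_lit 76) (nat_lit 1584166904) (nat_lit 96) (nat_lit 5) (nat_lit 101) (nat_lit 5) (nat_lit 97) (nat_lit 5) (nat_lit 473) (nat_lit 361) (nat_lit 306))))))))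
noncomputable def xc48 : XT := (XT.nd (nat_lit 1638) (nat_lit 1292) (nat_lit 0) (XT.nd (nat_lit 780) (nat_lit 1748) (nat_lit 0) (XT.nd (nat_lit 390) (nat_lit 988) (nat_lit 0) (XT.nd (nat_lit 156) (nat_lit 532) (nat_lit 0) (XT.nd (nat_lit 78) (nat_lit 76) (nat_lit 0) (XT.lf (nat_lit 0) (nat_lit 2554879138) (nat_lit 304) (nat_lit 6278417103) (nat_lit 380) (nat_lit 3007337583) (nat_lit 92) (nat_lit 5) (nat_lit 96) (nat_lit 5) (nat_lit 97) (nat_lit 5) (nat_lit 474) (nat_lit 361) (nat_lit 305)) (XT.lf (nat_lit 0) (nat_lit 635641961) (nat_lit 380) (nat_lit 1710248536) (nat_lit 76) (nat_lit 9635596281) (nat_lit 91) (nat_lit 5) (nat_lit 96) (nat_lit 5) (nat_lit 92) (nat_lit 5) (nat_lit 475) (nat_lit 361) (nat_lit 304))) (XT.nd (nat_lit 78) (nat_lit 228) (nat_lit 0) (XT.lf (nat_lit 0) (nat_lit 4324195202) (nat_lit 380) (nat_lit 6119780779) (nat_lit 76) (nat_lit 1680531451) (nat_lit 87) (nat_lit 5) (nat_lit 92) (nat_lit 5) (nat_lit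 88) (nat_lit 5) (nat_lit 476) (nat_lit 361) (nat_lit 303)) (XT.nd (nat_lit 78) (nat_lit 0) (nat_lit 0) (XT.lf (nat_lit 0) (nat_lit 1572078055) (nat_lit 228) (nat_lit 6514762703) (nat_lit 304) (nat_lit 4183549021) (nat_lit 84) (nat_lit 5) (nat_lit 87) (nat_lit 5) (nat_lit 88) (nat_lit 5) (nat_lit 477) (nat_lit 361) (nat_lit 302)) (XT.lf (nat_lit 0) (nat_lit 9441170162) (nat_lit 228) (nat_lit 2488000207) (nat_lit 304) (nat_lit 489938337) (nat_lit 84) (nat_lit 5) (nat_lit 87) (nat_lit 5) (nat_lit 88) (nat_lit 5) (nat_lit 478) (nat_lit 361) (nat_lit 301))))) (XT.nd (nat_lit 156) (nat_lit 380) (nat_lit 0) (XT.nd (nat_lit 78) (nat_lit 228) (nat_lit 0) (XT.lf (nat_lit 0) (nat_lit 3240801893) (nat_lit 380) (nat_lit 7700495875) (nat_lit 76) (nat_lit 1628961044) (nat_lit 79) (nat_lit 5) (nat_lit 84) (nat_lit 5) (nat_lit 80) (nat_lit 5) (nat_lit 479) (nat_lit 361) (nat_lit 300)) (XT.lf (nat_lit 0) (nat_lit 113316852) (nat_lit 228)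 (nat_lit 6927633920) (nat_lit 304) (nat_lit 5683396416) (nat_lit 76) (nat_lit 5) (nat_lit 79) (nat_lit 5) (nat_lit 80) (nat_lit 5) (nat_lit 480) (nat_lit 361) (nat_lit 299))) (XT.nd (nat_lit 78) (nat_lit 380) (nat_lit 0) (XT.lf (nat_lit 0) (nat_lit 8129108221) (nat_lit 228) (nat_lit 2804012856) (nat_lit 304) (nat_lit 1948082864) (nat_lit 76) (nat_lit 5) (nat_lit 79) (nat_lit 5) (nat_lit 80) (nat_lit 5) (nat_lit 481) (nat_lit 361) (nat_lit 298)) (XT.nd (nat_lit 78) (nat_lit 0) (nat_lit 0) (XT.lf (nat_lit 0) (nat_lit 1832509298) (nat_lit 380) (nat_lit 9814050240) (nat_lit 76) (nat_lit 1394503380) (nat_lit 71) (nat_lit 5) (nat_lit 76) (nat_lit 5) (nat_lit 72) (nat_lit 5) (nat_lit 482) (nat_lit 361) (nat_lit 297)) (XT.lf (nat_lit 0) (nat_lit 5678295995) (nat_lit 380) (nat_lit 1863222756) (nat_lit 76) (nat_lit 5662036014) (nat_lit 71) (nat_lit 5) (nat_lit 76) (nat_lit 5) (nat_lit 72) (nat_lit 5) (nat_lit 483) (nat_lit 361)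 (nat_lit 296)))))) (XT.nd (nat_lit 390) (nat_lit 988) (nat_lit 0) (XT.nd (nat_lit 156) (nat_lit 228) (nat_lit 0) (XT.nd (nat_lit 78) (nat_lit 304) (nat_lit 0) (XT.lf (nat_lit 0) (nat_lit 6271839740) (nat_lit 228) (nat_lit 3335539692) (nat_lit 304) (nat_lit 3761795843) (nat_lit 68) (nat_lit 5) (nat_lit 71) (nat_lit 5) (nat_lit 72) (nat_lit 5) (nat_lit 484) (nat_lit 361) (nat_lit 295)) (XT.lf (nat_lit 0) (nat_lit 67000917) (nat_lit 304) (nat_lit 12532010492) (nat_lit 76) (nat_lit 939271520) (nat_lit 64) (nat_lit 5) (nat_lit 68) (nat_lit 5) (nat_lit 65) (nat_lit 5) (nat_lit 485) (nat_lit 361) (nat_lit 294))) (XT.nd (nat_lit 78) (nat_lit 228) (nat_lit 0) (XT.lf (nat_lit 0) (nat_lit 3957971556) (nat_lit 304) (nat_lit 4446264752) (nat_lit 76) (nat_lit 5305325828) (nat_lit 64) (nat_lit 5) (nat_lit 68) (nat_lit 5) (nat_lit 65) (nat_lit 5) (nat_lit 486) (nat_lit 361) (nat_lit 293)) (XT.nd (nat_lit 78) (nat_lit 0) (nat_lit 0)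 (XT.lf (nat_lit 0) (nat_lit 3794802932) (nat_lit 228) (nat_lit 4123155258) (nat_lit 304) (nat_lit 5966490761) (nat_lit 61) (nat_lit 5) (nat_lit 64) (nat_lit 5) (nat_lit 65) (nat_lit 5) (nat_lit 487) (nat_lit 361) (nat_lit 292)) (XT.lf (nat_lit 0) (nat_lit 11955464858) (nat_lit 304) (nat_lit 1859368157) (nat_lit 76) (nat_lit 248039921) (nat_lit 61) (nat_lit 5) (nat_lit 65) (nat_lit 5) (nat_lit 62) (nat_lit 5) (nat_lit 488) (nat_lit 361) (nat_lit 291))))) (XT.nd (nat_lit 234) (nat_lit 456) (nat_lit 0) (XT.nd (nat_lit 78) (nat_lit 228) (nat_lit 0) (XT.lf (nat_lit 0) (nat_lit 1842227750) (nat_lit 304) (nat_lit 7717492717) (nat_lit 76) (nat_lit 4684165918) (nat_lit 57) (nat_lit 5) (nat_lit 61) (nat_lit 5) (nat_lit 58) (nat_lit 5) (nat_lit 489) (nat_lit 361) (nat_lit 290)) (XT.nd (nat_lit 78) (nat_lit 0) (nat_lit 0) (XT.lf (nat_lit 0) (nat_lit 615552710) (nat_lit 228) (nat_lit 5211089932) (nat_lit 304) (nat_lit 8601924274)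 (nat_lit 54) (nat_lit 5) (nat_lit 57) (nat_lit 5) (nat_lit 58) (nat_lit 5) (nat_lit 490) (nat_lit 361) (nat_lit 289)) (XT.lf (nat_lit 0) (nat_lit 9164949616) (nat_lit 228) (nat_lit 745288473) (nat_lit 304) (nat_lit 4706318519) (nat_lit 54) (nat_lit 5) (nat_lit 57) (nat_lit 5) (nat_lit 58) (nat_lit 5) (nat_lit 491) (nat_lit 361) (nat_lit 288)))) (XT.nd (nat_lit 78) (nat_lit 228) (nat_lit 0) (XT.lf (nat_lit 0) (nat_lit 3037793946) (nat_lit 228) (nat_lit 11050363862) (nat_lit 304) (nat_lit 719900525) (nat_lit 51) (nat_lit 5) (nat_lit 54) (nat_lit 5) (nat_lit 55) (nat_lit 5) (nat_lit 492) (nat_lit 361) (nat_lit 287)) (XT.nd (nat_lit 78) (nat_lit 152) (nat_lit 0) (XT.lf (nat_lit 0) (nat_lit 3312372604) (nat_lit 304) (nat_lit 3313090758) (nat_lit 76) (nat_lit 8377297027) (nat_lit 50) (nat_lit 5) (nat_lit 54) (nat_lit 5) (nat_lit 51) (nat_lit 5) (nat_lit 493) (nat_lit 361) (nat_lit 286)) (XT.lf (nat_lit 0) (nat_lit 5324954175)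 (nat_lit 152) (nat_lit 2094154485) (nat_lit 228) (nat_lit 7782088501) (nat_lit 48) (nat_lit 5) (nat_lit 50) (nat_lit 5) (nat_lit 51) (nat_lit 5) (nat_lit 494) (nat_lit 361) (nat_lit 285))))))) (XT.nd (nat_lit 780) (nat_lit 152) (nat_lit 0) (XT.nd (nat_lit 390) (nat_lit 456) (nat_lit 0) (XT.nd (nat_lit 156) (nat_lit 380) (nat_lit 0) (XT.nd (nat_lit 78) (nat_lit 304) (nat_lit 0) (XT.lf (nat_lit 0) (nat_lit 11615768614) (nat_lit 228) (nat_lit 1292517233) (nat_lit 76) (nat_lit 2495165923) (nat_lit 48) (nat_lit 5) (nat_lit 51) (nat_lit 5) (nat_lit 49) (nat_lit 5) (nat_lit 495) (nat_lit 361) (nat_lit 284)) (XT.lf (nat_lit 0) (nat_lit 315195034) (nat_lit 304) (nat_lit 8116297262) (nat_lit 76) (nat_lit 7177579782) (nat_lit 44) (nat_lit 5) (nat_lit 48) (nat_lit 5) (nat_lit 45) (nat_lit 5) (nat_lit 496) (nat_lit 361) (nat_lit 283))) (XT.nd (nat_lit 78) (nat_lit 228) (nat_lit 0) (XT.lf (nat_lit 0) (nat_lit 582677993) (nat_lit 152)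 (nat_lit 3848956041) (nat_lit 228) (nat_lit 11387030225) (nat_lit 42) (nat_lit 5) (nat_lit 44) (nat_lit 5) (nat_lit 45) (nat_lit 5) (nat_lit 497) (nat_lit 361) (nat_lit 282)) (XT.nd (nat_lit 78) (nat_lit 228) (nat_lit 0) (XT.lf (nat_lit 0) (nat_lit 8660357162) (nat_lit 228) (nat_lit 6524028351) (nat_lit 76) (nat_lit 847468176) (nat_lit 42) (nat_lit 5) (nat_lit 45) (nat_lit 5) (nat_lit 43) (nat_lit 5) (nat_lit 498) (nat_lit 361) (nat_lit 281)) (XT.lf (nat_lit 0) (nat_lit 2315476224) (nat_lit 228) (nat_lit 10669066697) (nat_lit 304) (nat_lit 3264550650) (nat_lit 39) (nat_lit 5) (nat_lit 42) (nat_lit 5) (nat_lit 43) (nat_lit 5) (nat_lit 499) (nat_lit 361) (nat_lit 280))))) (XT.nd (nat_lit 156) (nat_lit 228) (nat_lit 0) (XT.nd (nat_lit 78) (nat_lit 152) (nat_lit 0) (XT.lf (nat_lit 0) (nat_lit 926892654) (nat_lit 304) (nat_lit 5107518225) (nat_lit 76) (nat_lit 10435861893) (nat_lit 38) (nat_lit 5) (nat_lit 42) (nat_lit 5)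 (nat_lit 39) (nat_lit 5) (nat_lit 500) (nat_lit 361) (nat_lit 279)) (XT.lf (nat_lit 0) (nat_lit 3873670796) (nat_lit 152) (nat_lit 1280967452) (nat_lit 228) (nat_lit 11540886190) (nat_lit 36) (nat_lit 5) (nat_lit 38) (nat_lit 5) (nat_lit 39) (nat_lit 5) (nat_lit 501) (nat_lit 361) (nat_lit 278))) (XT.nd (nat_lit 78) (nat_lit 228) (nat_lit 0) (XT.lf (nat_lit 0) (nat_lit 9495699733) (nat_lit 228) (nat_lit 3894991212) (nat_lit 76) (nat_lit 3534019061) (nat_lit 36) (nat_lit 5) (nat_lit 39) (nat_lit 5) (nat_lit 37) (nat_lit 5) (nat_lit 502) (nat_lit 361) (nat_lit 277)) (XT.nd (nat_lit 78) (nat_lit 76) (nat_lit 0) (XT.lf (nat_lit 0) (nat_lit 5220666732) (nat_lit 152) (nat_lit 8716958697) (nat_lit 228) (nat_lit 3220577006) (nat_lit 34) (nat_lit 5) (nat_lit 36) (nat_lit 5) (nat_lit 37) (nat_lit 5) (nat_lit 503) (nat_lit 361) (nat_lit 276)) (XT.lf (nat_lit 0) (nat_lit 1055984270) (nat_lit 228) (nat_lit 2881321050) (nat_lit 76)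 (nat_lit 13458963656) (nat_lit 33) (nat_lit 5) (nat_lit 36) (nat_lit 5) (nat_lit 34) (nat_lit 5) (nat_lit 504) (nat_lit 361) (nat_lit 275)))))) (XT.nd (nat_lit 52650) (nat_lit 0) (nat_lit 24016) (XT.nd (nat_lit 52416) (nat_lit 0) (nat_lit 29640) (XT.nd (nat_lit 78) (nat_lit 0) (nat_lit 0) (XT.lf (nat_lit 0) (nat_lit 5394979465) (nat_lit 228) (nat_lit 11275349157) (nat_lit 76) (nat_lit 967945718) (nat_lit 31) (nat_lit 5) (nat_lit 34) (nat_lit 5) (nat_lit 32) (nat_lit 5) (nat_lit 505) (nat_lit 361) (nat_lit 274)) (XT.lf (nat_lit 0) (nat_lit 9838648877) (nat_lit 228) (nat_lit 2128724253) (nat_lit 76) (nat_lit 5917392500) (nat_lit 31) (nat_lit 5) (nat_lit 34) (nat_lit 5) (nat_lit 32) (nat_lit 5) (nat_lit 506) (nat_lit 361) (nat_lit 273))) (XT.nd (nat_lit 78) (nat_lit 1748) (nat_lit 0) (XT.lf (nat_lit 0) (nat_lit 1881050239) (nat_lit 1596) (nat_lit 830718055) (nat_lit 1596) (nat_lit 830718055) (nat_lit 444) (nat_lit 4) (nat_lit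 465) (nat_lit 5) (nat_lit 465) (nat_lit 4) (nat_lit 416) (nat_lit 362) (nat_lit 362)) (XT.nd (nat_lit 78) (nat_lit 0) (nat_lit 0) (XT.lf (nat_lit 0) (nat_lit 1663911961) (nat_lit 1672) (nat_lit 21863879) (nat_lit 1748) (nat_lit 5436241681) (nat_lit 421) (nat_lit 5) (nat_lit 443) (nat_lit 5) (nat_lit 444) (nat_lit 4) (nat_lit 417) (nat_lit 362) (nat_lit 361)) (XT.lf (nat_lit 0) (nat_lit 5043992512) (nat_lit 1748) (nat_lit 453257306) (nat_lit 0) (nat_lit 1663045203) (nat_lit 421) (nat_lit 5) (nat_lit 444) (nat_lit 4) (nat_lit 421) (nat_lit 4) (nat_lit 418) (nat_lit 362) (nat_lit 360))))) (XT.nd (nat_lit 234) (nat_lit 1748) (nat_lit 0) (XT.nd (nat_lit 78) (nat_lit 2052) (nat_lit 0) (XT.lf (nat_lit 0) (nat_lit 1217856095) (nat_lit 1824) (nat_lit 2561795929) (nat_lit 76) (nat_lit 3420267686) (nat_lit 397) (nat_lit 5) (nat_lit 421) (nat_lit 5) (nat_lit 398) (nat_lit 4) (nat_lit 419) (nat_lit 362) (nat_lit 359)) (XT.nd (nat_lit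 78) (nat_lit 988) (nat_lit 0) (XT.lf (nat_lit 0) (nat_lit 2549958274) (nat_lit 1064) (nat_lit 1994876670) (nat_lit 1140) (nat_lit 2696168087) (nat_lit 383) (nat_lit 5) (nat_lit 397) (nat_lit 5) (nat_lit 398) (nat_lit 4) (nat_lit 420) (nat_lit 362) (nat_lit 358)) (XT.lf (nat_lit 0) (nat_lit 450542286) (nat_lit 912) (nat_lit 151754692) (nat_lit 988) (nat_lit 6681450995) (nat_lit 370) (nat_lit 5) (nat_lit 382) (nat_lit 5) (nat_lit 383) (nat_lit 5) (nat_lit 421) (nat_lit 362) (nat_lit 357)))) (XT.nd (nat_lit 78) (nat_lit 1748) (nat_lit 0) (XT.lf (nat_lit 0) (nat_lit 3909609658) (nat_lit 988) (nat_lit 1665413020) (nat_lit 76) (nat_lit 1752422461) (nat_lit 370) (nat_lit 5) (nat_lit 383) (nat_lit 5) (nat_lit 371) (nat_lit 4) (nat_lit 422) (nat_lit 362) (nat_lit 356)) (XT.nd (nat_lit 78) (nat_lit 912) (nat_lit 0) (XT.lf (nat_lit 0) (nat_lit 3585123070) (nat_lit 836) (nat_lit 3659519270) (nat_lit 912) (nat_lit 128175135) (nat_lit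 359) (nat_lit 5) (nat_lit 370) (nat_lit 5) (nat_lit 371) (nat_lit 4) (nat_lit 423) (nat_lit 362) (nat_lit 355)) (XT.lf (nat_lit 0) (nat_lit 1475648334) (nat_lit 836) (nat_lit 1667784399) (nat_lit 912) (nat_lit 4276107274) (nat_lit 347) (nat_lit 5) (nat_lit 358) (nat_lit 5) (nat_lit 359) (nat_lit 5) (nat_lit 424) (nat_lit 362) (nat_lit 354))))))))
noncomputable def xc49 : XT := (XT.nd (nat_lit 1638) (nat_lit 6992) (nat_lit 0) (XT.nd (nat_lit 780) (nat_lit 5092) (nat_lit 0) (XT.nd (nat_lit 390) (nat_lit 3040) (nat_lit 0) (XT.nd (nat_lit 156) (nat_lit 1672) (nat_lit 0) (XT.nd (nat_lit 78) (nat_lit 912) (nat_lit 0) (XT.lf (nat_lit 0) (nat_lit 6445113057) (nat_lit 912) (nat_lit 642303420) (nat_lit 76) (nat_lit 380467253) (nat_lit 347) (nat_lit 5) (nat_lit 359) (nat_lit 5) (nat_lit 348) (nat_lit 4) (nat_lit 425) (nat_lit 362) (nat_lit 353)) (XT.lf (nat_lit 0) (nat_lit 2246873155) (nat_lit 912) (nat_lit 2782313661) (nat_lit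 76) (nat_lit 2488112075) (nat_lit 335) (nat_lit 5) (nat_lit 347) (nat_lit 5) (nat_lit 336) (nat_lit 5) (nat_lit 426) (nat_lit 362) (nat_lit 352))) (XT.nd (nat_lit 78) (nat_lit 836) (nat_lit 0) (XT.lf (nat_lit 0) (nat_lit 2621594672) (nat_lit 836) (nat_lit 2907938858) (nat_lit 912) (nat_lit 2038836283) (nat_lit 324) (nat_lit 5) (nat_lit 335) (nat_lit 5) (nat_lit 336) (nat_lit 5) (nat_lit 427) (nat_lit 362) (nat_lit 351)) (XT.nd (nat_lit 78) (nat_lit 0) (nat_lit 0) (XT.lf (nat_lit 0) (nat_lit 481963216) (nat_lit 760) (nat_lit 721125658) (nat_lit 836) (nat_lit 6417994020) (nat_lit 313) (nat_lit 5) (nat_lit 323) (nat_lit 5) (nat_lit 324) (nat_lit 5) (nat_lit 428) (nat_lit 362) (nat_lit 350)) (XT.lf (nat_lit 0) (nat_lit 4466750899) (nat_lit 836) (nat_lit 1679368870) (nat_lit 76) (nat_lit 1528804333) (nat_lit 313) (nat_lit 5) (nat_lit 324) (nat_lit 5) (nat_lit 314) (nat_lit 5) (nat_lit 429) (nat_lit 362) (nat_lit 349)))))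 (XT.nd (nat_lit 156) (nat_lit 1520) (nat_lit 0) (XT.nd (nat_lit 78) (nat_lit 684) (nat_lit 0) (XT.lf (nat_lit 0) (nat_lit 36778736) (nat_lit 836) (nat_lit 3861786636) (nat_lit 76) (nat_lit 3831858547) (nat_lit 302) (nat_lit 5) (nat_lit 313) (nat_lit 5) (nat_lit 303) (nat_lit 5) (nat_lit 430) (nat_lit 362) (nat_lit 348)) (XT.lf (nat_lit 0) (nat_lit 1697490764) (nat_lit 684) (nat_lit 1571002483) (nat_lit 760) (nat_lit 4518845733) (nat_lit 293) (nat_lit 5) (nat_lit 302) (nat_lit 5) (nat_lit 303) (nat_lit 5) (nat_lit 431) (nat_lit 362) (nat_lit 347))) (XT.nd (nat_lit 78) (nat_lit 1520) (nat_lit 0) (XT.lf (nat_lit 0) (nat_lit 6539192150) (nat_lit 760) (nat_lit 497628887) (nat_lit 76) (nat_lit 809109583) (nat_lit 293) (nat_lit 5) (nat_lit 303) (nat_lit 5) (nat_lit 294) (nat_lit 5) (nat_lit 432) (nat_lit 362) (nat_lit 346)) (XT.nd (nat_lit 78) (nat_lit 684) (nat_lit 0) (XT.lf (nat_lit 0) (nat_lit 1931995447) (nat_lit 836) (nat_lit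 2720804594) (nat_lit 76) (nat_lit 3252898266) (nat_lit 282) (nat_lit 5) (nat_lit 293) (nat_lit 5) (nat_lit 283) (nat_lit 5) (nat_lit 433) (nat_lit 362) (nat_lit 345)) (XT.lf (nat_lit 0) (nat_lit 2985021850) (nat_lit 684) (nat_lit 2200187278) (nat_lit 760) (nat_lit 2781959246) (nat_lit 273) (nat_lit 5) (nat_lit 282) (nat_lit 5) (nat_lit 283) (nat_lit 5) (nat_lit 434) (nat_lit 362) (nat_lit 344)))))) (XT.nd (nat_lit 390) (nat_lit 3040) (nat_lit 0) (XT.nd (nat_lit 156) (nat_lit 1292) (nat_lit 0) (XT.nd (nat_lit 78) (nat_lit 0) (nat_lit 0) (XT.lf (nat_lit 0) (nat_lit 437441498) (nat_lit 760) (nat_lit 7280503090) (nat_lit 76) (nat_lit 312483971) (nat_lit 263) (nat_lit 5) (nat_lit 273) (nat_lit 5) (nat_lit 264) (nat_lit 5) (nat_lit 435) (nat_lit 362) (nat_lit 343)) (XT.lf (nat_lit 0) (nat_lit 3677530684) (nat_lit 760) (nat_lit 1530912755) (nat_lit 76) (nat_lit 2886294168) (nat_lit 263) (nat_lit 5) (nat_lit 273) (nat_lit 5)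 (nat_lit 264) (nat_lit 5) (nat_lit 436) (nat_lit 362) (nat_lit 342))) (XT.nd (nat_lit 78) (nat_lit 684) (nat_lit 0) (XT.lf (nat_lit 0) (nat_lit 4324121294) (nat_lit 608) (nat_lit 2632739175) (nat_lit 684) (nat_lit 1204005597) (nat_lit 255) (nat_lit 5) (nat_lit 263) (nat_lit 5) (nat_lit 264) (nat_lit 5) (nat_lit 437) (nat_lit 362) (nat_lit 341)) (XT.nd (nat_lit 78) (nat_lit 0) (nat_lit 0) (XT.lf (nat_lit 0) (nat_lit 2016562601) (nat_lit 684) (nat_lit 6193281703) (nat_lit 76) (nat_lit 18818766) (nat_lit 246) (nat_lit 5) (nat_lit 255) (nat_lit 5) (nat_lit 247) (nat_lit 5) (nat_lit 438) (nat_lit 362) (nat_lit 340)) (XT.lf (nat_lit 0) (nat_lit 5275934551) (nat_lit 684) (nat_lit 313028326) (nat_lit 76) (nat_lit 2708904427) (nat_lit 246) (nat_lit 5) (nat_lit 255) (nat_lit 5) (nat_lit 247) (nat_lit 5) (nat_lit 439) (nat_lit 362) (nat_lit 339))))) (XT.nd (nat_lit 234) (nat_lit 1216) (nat_lit 0) (XT.nd (nat_lit 78) (nat_lit 1140)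 (nat_lit 0) (XT.lf (nat_lit 0) (nat_lit 214026903) (nat_lit 684) (nat_lit 2676466966) (nat_lit 76) (nat_lit 5478250920) (nat_lit 237) (nat_lit 5) (nat_lit 246) (nat_lit 5) (nat_lit 238) (nat_lit 5) (nat_lit 440) (nat_lit 362) (nat_lit 338)) (XT.nd (nat_lit 78) (nat_lit 532) (nat_lit 0) (XT.lf (nat_lit 0) (nat_lit 3338633141) (nat_lit 608) (nat_lit 107853491) (nat_lit 684) (nat_lit 4994728344) (nat_lit 229) (nat_lit 5) (nat_lit 237) (nat_lit 5) (nat_lit 238) (nat_lit 5) (nat_lit 441) (nat_lit 362) (nat_lit 337)) (XT.lf (nat_lit 0) (nat_lit 923229736) (nat_lit 532) (nat_lit 5811073309) (nat_lit 608) (nat_lit 1781036532) (nat_lit 222) (nat_lit 5) (nat_lit 229) (nat_lit 5) (nat_lit 230) (nat_lit 5) (nat_lit 442) (nat_lit 362) (nat_lit 336)))) (XT.nd (nat_lit 78) (nat_lit 1140) (nat_lit 0) (XT.lf (nat_lit 0) (nat_lit 1461603992) (nat_lit 608) (nat_lit 1529026016) (nat_lit 76) (nat_lit 5600454549) (nat_lit 221) (nat_lit 5)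 (nat_lit 229) (nat_lit 5) (nat_lit 222) (nat_lit 5) (nat_lit 443) (nat_lit 362) (nat_lit 335)) (XT.nd (nat_lit 78) (nat_lit 532) (nat_lit 0) (XT.lf (nat_lit 0) (nat_lit 4638845733) (nat_lit 608) (nat_lit 86667151) (nat_lit 684) (nat_lit 3943008882) (nat_lit 213) (nat_lit 5) (nat_lit 221) (nat_lit 5) (nat_lit 222) (nat_lit 5) (nat_lit 444) (nat_lit 362) (nat_lit 334)) (XT.lf (nat_lit 0) (nat_lit 2146930506) (nat_lit 532) (nat_lit 5901282020) (nat_lit 608) (nat_lit 699442641) (nat_lit 206) (nat_lit 5) (nat_lit 213) (nat_lit 5) (nat_lit 214) (nat_lit 5) (nat_lit 445) (nat_lit 362) (nat_lit 333))))))) (XT.nd (nat_lit 858) (nat_lit 3344) (nat_lit 0) (XT.nd (nat_lit 390) (nat_lit 1976) (nat_lit 0) (XT.nd (nat_lit 156) (nat_lit 1064) (nat_lit 0) (XT.nd (nat_lit 78) (nat_lit 532) (nat_lit 0) (XT.lf (nat_lit 0) (nat_lit 2553350322) (nat_lit 608) (nat_lit 410056121) (nat_lit 76) (nat_lit 5865071565) (nat_lit 205) (nat_lit 5) (nat_lit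 213) (nat_lit 5) (nat_lit 206) (nat_lit 5) (nat_lit 446) (nat_lit 362) (nat_lit 332)) (XT.lf (nat_lit 0) (nat_lit 5852365706) (nat_lit 608) (nat_lit 2999022385) (nat_lit 76) (nat_lit 59642784) (nat_lit 198) (nat_lit 5) (nat_lit 206) (nat_lit 5) (nat_lit 199) (nat_lit 5) (nat_lit 447) (nat_lit 362) (nat_lit 331))) (XT.nd (nat_lit 78) (nat_lit 532) (nat_lit 0) (XT.lf (nat_lit 0) (nat_lit 215346913) (nat_lit 532) (nat_lit 5667189266) (nat_lit 76) (nat_lit 3112763139) (nat_lit 191) (nat_lit 5) (nat_lit 198) (nat_lit 5) (nat_lit 192) (nat_lit 5) (nat_lit 448) (nat_lit 362) (nat_lit 330)) (XT.nd (nat_lit 78) (nat_lit 0) (nat_lit 0) (XT.lf (nat_lit 0) (nat_lit 664329368) (nat_lit 532) (nat_lit 2826513610) (nat_lit 608) (nat_lit 5590482330) (nat_lit 184) (nat_lit 5) (nat_lit 191) (nat_lit 5) (nat_lit 192) (nat_lit 5) (nat_lit 449) (nat_lit 362) (nat_lit 329)) (XT.lf (nat_lit 0) (nat_lit 6824761411) (nat_lit 608) (nat_lit 2037142357)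 (nat_lit 76) (nat_lit 307325208) (nat_lit 184) (nat_lit 5) (nat_lit 192) (nat_lit 5) (nat_lit 185) (nat_lit 5) (nat_lit 450) (nat_lit 362) (nat_lit 328))))) (XT.nd (nat_lit 234) (nat_lit 988) (nat_lit 0) (XT.nd (nat_lit 78) (nat_lit 456) (nat_lit 0) (XT.lf (nat_lit 0) (nat_lit 955035641) (nat_lit 532) (nat_lit 4819971797) (nat_lit 76) (nat_lit 3483747721) (nat_lit 177) (nat_lit 5) (nat_lit 184) (nat_lit 5) (nat_lit 178) (nat_lit 5) (nat_lit 451) (nat_lit 362) (nat_lit 327)) (XT.nd (nat_lit 78) (nat_lit 0) (nat_lit 0) (XT.lf (nat_lit 0) (nat_lit 1663342077) (nat_lit 456) (nat_lit 2604227462) (nat_lit 532) (nat_lit 5082638249) (nat_lit 171) (nat_lit 5) (nat_lit 177) (nat_lit 5) (nat_lit 178) (nat_lit 5) (nat_lit 452) (nat_lit 362) (nat_lit 326)) (XT.lf (nat_lit 0) (nat_lit 7637210747) (nat_lit 532) (nat_lit 1170766615) (nat_lit 76) (nat_lit 635709210) (nat_lit 171) (nat_lit 5) (nat_lit 178) (nat_lit 5) (nat_lit 172) (nat_lit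 5) (nat_lit 453) (nat_lit 362) (nat_lit 325)))) (XT.nd (nat_lit 78) (nat_lit 456) (nat_lit 0) (XT.lf (nat_lit 0) (nat_lit 1522955129) (nat_lit 532) (nat_lit 4082812625) (nat_lit 76) (nat_lit 3932923912) (nat_lit 164) (nat_lit 5) (nat_lit 171) (nat_lit 5) (nat_lit 165) (nat_lit 5) (nat_lit 454) (nat_lit 362) (nat_lit 324)) (XT.nd (nat_lit 78) (nat_lit 0) (nat_lit 0) (XT.lf (nat_lit 0) (nat_lit 2552767694) (nat_lit 456) (nat_lit 2321789038) (nat_lit 532) (nat_lit 4761219315) (nat_lit 158) (nat_lit 5) (nat_lit 164) (nat_lit 5) (nat_lit 165) (nat_lit 5) (nat_lit 455) (nat_lit 362) (nat_lit 323)) (XT.lf (nat_lit 0) (nat_lit 8283045229) (nat_lit 532) (nat_lit 429240550) (nat_lit 76) (nat_lit 1022732390) (nat_lit 158) (nat_lit 5) (nat_lit 165) (nat_lit 5) (nat_lit 159) (nat_lit 5) (nat_lit 456) (nat_lit 362) (nat_lit 322)))))) (XT.nd (nat_lit 390) (nat_lit 1596) (nat_lit 0) (XT.nd (nat_lit 156) (nat_lit 836) (nat_lit 0) (XT.nd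 (nat_lit 78) (nat_lit 456) (nat_lit 0) (XT.lf (nat_lit 0) (nat_lit 1911463824) (nat_lit 456) (nat_lit 3486168914) (nat_lit 76) (nat_lit 4438110630) (nat_lit 152) (nat_lit 5) (nat_lit 158) (nat_lit 5) (nat_lit 153) (nat_lit 5) (nat_lit 457) (nat_lit 362) (nat_lit 321)) (XT.lf (nat_lit 0) (nat_lit 3301583010) (nat_lit 456) (nat_lit 2002118292) (nat_lit 532) (nat_lit 4634982735) (nat_lit 146) (nat_lit 5) (nat_lit 152) (nat_lit 5) (nat_lit 153) (nat_lit 5) (nat_lit 458) (nat_lit 362) (nat_lit 320))) (XT.nd (nat_lit 78) (nat_lit 456) (nat_lit 0) (XT.lf (nat_lit 0) (nat_lit 157792097) (nat_lit 380) (nat_lit 8596983775) (nat_lit 456) (nat_lit 1289099949) (nat_lit 141) (nat_lit 5) (nat_lit 146) (nat_lit 5) (nat_lit 147) (nat_lit 5) (nat_lit 459) (nat_lit 362) (nat_lit 319)) (XT.nd (nat_lit 78) (nat_lit 380) (nat_lit 0) (XT.lf (nat_lit 0) (nat_lit 2111010458) (nat_lit 456) (nat_lit 3063000062) (nat_lit 76) (nat_lit 4976593577)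 (nat_lit 140) (nat_lit 5) (nat_lit 146) (nat_lit 5) (nat_lit 141) (nat_lit 5) (nat_lit 460) (nat_lit 362) (nat_lit 318)) (XT.lf (nat_lit 0) (nat_lit 3876170712) (nat_lit 380) (nat_lit 1668786102) (nat_lit 456) (nat_lit 4714689259) (nat_lit 135) (nat_lit 5) (nat_lit 140) (nat_lit 5) (nat_lit 141) (nat_lit 5) (nat_lit 461) (nat_lit 362) (nat_lit 317))))) (XT.nd (nat_lit 234) (nat_lit 760) (nat_lit 0) (XT.nd (nat_lit 78) (nat_lit 456) (nat_lit 0) (XT.lf (nat_lit 0) (nat_lit 557004755) (nat_lit 380) (nat_lit 8485462067) (nat_lit 456) (nat_lit 1328515596) (nat_lit 130) (nat_lit 5) (nat_lit 135) (nat_lit 5) (nat_lit 136) (nat_lit 5) (nat_lit 462) (nat_lit 362) (nat_lit 316)) (XT.nd (nat_lit 78) (nat_lit 380) (nat_lit 0) (XT.lf (nat_lit 0) (nat_lit 2110006286) (nat_lit 456) (nat_lit 2849122203) (nat_lit 76) (nat_lit 5524901815) (nat_lit 129) (nat_lit 5) (nat_lit 135) (nat_lit 5) (nat_lit 130) (nat_lit 5) (nat_lit 463) (nat_lit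 362) (nat_lit 315)) (XT.lf (nat_lit 0) (nat_lit 4239954756) (nat_lit 380) (nat_lit 1346245136) (nat_lit 456) (nat_lit 5013240399) (nat_lit 124) (nat_lit 5) (nat_lit 129) (nat_lit 5) (nat_lit 130) (nat_lit 5) (nat_lit 464) (nat_lit 362) (nat_lit 314)))) (XT.nd (nat_lit 78) (nat_lit 456) (nat_lit 0) (XT.lf (nat_lit 0) (nat_lit 724688855) (nat_lit 304) (nat_lit 8405775364) (nat_lit 380) (nat_lit 1586733692) (nat_lit 120) (nat_lit 5) (nat_lit 124) (nat_lit 5) (nat_lit 125) (nat_lit 5) (nat_lit 465) (nat_lit 362) (nat_lit 313)) (XT.nd (nat_lit 78) (nat_lit 380) (nat_lit 0) (XT.lf (nat_lit 0) (nat_lit 1894678070) (nat_lit 380) (nat_lit 2883593961) (nat_lit 76) (nat_lit 6058572767) (nat_lit 119) (nat_lit 5) (nat_lit 124) (nat_lit 5) (nat_lit 120) (nat_lit 5) (nat_lit 466) (nat_lit 362) (nat_lit 312)) (XT.lf (nat_lit 0) (nat_lit 4353003353) (nat_lit 380) (nat_lit 1060073360) (nat_lit 456) (nat_lit 5545835816) (nat_lit 114) (nat_lit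 5) (nat_lit 119) (nat_lit 5) (nat_lit 120) (nat_lit 5) (nat_lit 467) (nat_lit 362) (nat_lit 311))))))))
noncomputable def xc50 : XT := (XT.nd (nat_lit 1638) (nat_lit 2280) (nat_lit 0) (XT.nd (nat_lit 780) (nat_lit 1976) (nat_lit 0) (XT.nd (nat_lit 390) (nat_lit 988) (nat_lit 0) (XT.nd (nat_lit 156) (nat_lit 684) (nat_lit 0) (XT.nd (nat_lit 78) (nat_lit 76) (nat_lit 0) (XT.lf (nat_lit 0) (nat_lit 619305789) (nat_lit 304) (nat_lit 8384345967) (nat_lit 380) (nat_lit 2079743271) (nat_lit 110) (nat_lit 5) (nat_lit 114) (nat_lit 5) (nat_lit 115) (nat_lit 5) (nat_lit 468) (nat_lit 362) (nat_lit 310)) (XT.lf (nat_lit 0) (nat_lit 1448900231) (nat_lit 380) (nat_lit 3209137201) (nat_lit 76) (nat_lit 6551903517) (nat_lit 109) (nat_lit 5) (nat_lit 114) (nat_lit 5) (nat_lit 110) (nat_lit 5) (nat_lit 469) (nat_lit 362) (nat_lit 309))) (XT.nd (nat_lit 78) (nat_lit 380) (nat_lit 0) (XT.lf (nat_lit 0) (nat_lit 4171595700) (nat_lit 304)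 (nat_lit 837232413) (nat_lit 380) (nat_lit 6330152578) (nat_lit 105) (nat_lit 5) (nat_lit 109) (nat_lit 5) (nat_lit 110) (nat_lit 5) (nat_lit 470) (nat_lit 362) (nat_lit 308)) (XT.nd (nat_lit 78) (nat_lit 76) (nat_lit 0) (XT.lf (nat_lit 0) (nat_lit 195333522) (nat_lit 304) (nat_lit 8449109362) (nat_lit 380) (nat_lit 2826077426) (nat_lit 101) (nat_lit 5) (nat_lit 105) (nat_lit 5) (nat_lit 106) (nat_lit 5) (nat_lit 471) (nat_lit 362) (nat_lit 307)) (XT.lf (nat_lit 0) (nat_lit 754004395) (nat_lit 380) (nat_lit 3872596881) (nat_lit 76) (nat_lit 6977686086) (nat_lit 100) (nat_lit 5) (nat_lit 105) (nat_lit 5) (nat_lit 101) (nat_lit 5) (nat_lit 472) (nat_lit 362) (nat_lit 306))))) (XT.nd (nat_lit 156) (nat_lit 684) (nat_lit 0) (XT.nd (nat_lit 78) (nat_lit 0) (nat_lit 0) (XT.lf (nat_lit 0) (nat_lit 3647748228) (nat_lit 304) (nat_lit 706343235) (nat_lit 380) (nat_lit 7386548129) (nat_lit 96) (nat_lit 5) (nat_lit 100) (nat_lit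 5) (nat_lit 101) (nat_lit 5) (nat_lit 473) (nat_lit 362) (nat_lit 305)) (XT.lf (nat_lit 0) (nat_lit 8036450554) (nat_lit 380) (nat_lit 589392019) (nat_lit 76) (nat_lit 3253679066) (nat_lit 96) (nat_lit 5) (nat_lit 101) (nat_lit 5) (nat_lit 97) (nat_lit 5) (nat_lit 474) (nat_lit 362) (nat_lit 304))) (XT.nd (nat_lit 78) (nat_lit 380) (nat_lit 0) (XT.lf (nat_lit 0) (nat_lit 7094069760) (nat_lit 304) (nat_lit 4712590017) (nat_lit 380) (nat_lit 214245506) (nat_lit 92) (nat_lit 5) (nat_lit 96) (nat_lit 5) (nat_lit 97) (nat_lit 5) (nat_lit 475) (nat_lit 362) (nat_lit 303)) (XT.nd (nat_lit 78) (nat_lit 0) (nat_lit 0) (XT.lf (nat_lit 0) (nat_lit 2728695728) (nat_lit 304) (nat_lit 697981543) (nat_lit 380) (nat_lit 8738289107) (nat_lit 87) (nat_lit 5) (nat_lit 91) (nat_lit 5) (nat_lit 92) (nat_lit 5) (nat_lit 476) (nat_lit 362) (nat_lit 302)) (XT.lf (nat_lit 0) (nat_lit 7156638992) (nat_lit 380) (nat_lit 1789596170) (nat_lit 76)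 (nat_lit 3365270980) (nat_lit 87) (nat_lit 5) (nat_lit 92) (nat_lit 5) (nat_lit 88) (nat_lit 5) (nat_lit 477) (nat_lit 362) (nat_lit 301)))))) (XT.nd (nat_lit 390) (nat_lit 1064) (nat_lit 0) (XT.nd (nat_lit 156) (nat_lit 304) (nat_lit 0) (XT.nd (nat_lit 78) (nat_lit 380) (nat_lit 0) (XT.lf (nat_lit 0) (nat_lit 6026806551) (nat_lit 228) (nat_lit 4942607471) (nat_lit 304) (nat_lit 1491405804) (nat_lit 84) (nat_lit 5) (nat_lit 87) (nat_lit 5) (nat_lit 88) (nat_lit 5) (nat_lit 478) (nat_lit 362) (nat_lit 300)) (XT.lf (nat_lit 0) (nat_lit 1356322244) (nat_lit 304) (nat_lit 844995931) (nat_lit 380) (nat_lit 10411808339) (nat_lit 79) (nat_lit 5) (nat_lit 83) (nat_lit 5) (nat_lit 84) (nat_lit 5) (nat_lit 479) (nat_lit 362) (nat_lit 299))) (XT.nd (nat_lit 78) (nat_lit 304) (nat_lit 0) (XT.lf (nat_lit 0) (nat_lit 5977782209) (nat_lit 380) (nat_lit 3467659888) (nat_lit 76) (nat_lit 3322249945) (nat_lit 79) (nat_lit 5) (nat_lit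 84) (nat_lit 5) (nat_lit 80) (nat_lit 5) (nat_lit 480) (nat_lit 362) (nat_lit 298)) (XT.nd (nat_lit 78) (nat_lit 76) (nat_lit 0) (XT.lf (nat_lit 0) (nat_lit 4473568265) (nat_lit 228) (nat_lit 5356265352) (nat_lit 304) (nat_lit 3095520942) (nat_lit 76) (nat_lit 5) (nat_lit 79) (nat_lit 5) (nat_lit 80) (nat_lit 5) (nat_lit 481) (nat_lit 362) (nat_lit 297)) (XT.lf (nat_lit 0) (nat_lit 652851389) (nat_lit 304) (nat_lit 526467368) (nat_lit 76) (nat_lit 11906992407) (nat_lit 75) (nat_lit 5) (nat_lit 79) (nat_lit 5) (nat_lit 76) (nat_lit 5) (nat_lit 482) (nat_lit 362) (nat_lit 296))))) (XT.nd (nat_lit 234) (nat_lit 532) (nat_lit 0) (XT.nd (nat_lit 78) (nat_lit 228) (nat_lit 0) (XT.lf (nat_lit 0) (nat_lit 4470494659) (nat_lit 380) (nat_lit 5689573495) (nat_lit 76) (nat_lit 3089300918) (nat_lit 71) (nat_lit 5) (nat_lit 76) (nat_lit 5) (nat_lit 72) (nat_lit 5) (nat_lit 483) (nat_lit 362) (nat_lit 295)) (XT.nd (nat_lit 78) (nat_lit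 0) (nat_lit 0) (XT.lf (nat_lit 0) (nat_lit 2366588025) (nat_lit 228) (nat_lit 5990967951) (nat_lit 304) (nat_lit 5058277178) (nat_lit 68) (nat_lit 5) (nat_lit 71) (nat_lit 5) (nat_lit 72) (nat_lit 5) (nat_lit 484) (nat_lit 362) (nat_lit 294)) (XT.lf (nat_lit 0) (nat_lit 10605444880) (nat_lit 228) (nat_lit 1721726520) (nat_lit 304) (nat_lit 1258365057) (nat_lit 68) (nat_lit 5) (nat_lit 71) (nat_lit 5) (nat_lit 72) (nat_lit 5) (nat_lit 485) (nat_lit 362) (nat_lit 293)))) (XT.nd (nat_lit 78) (nat_lit 228) (nat_lit 0) (XT.lf (nat_lit 0) (nat_lit 2601639625) (nat_lit 304) (nat_lit 8528202903) (nat_lit 76) (nat_lit 2628088879) (nat_lit 64) (nat_lit 5) (nat_lit 68) (nat_lit 5) (nat_lit 65) (nat_lit 5) (nat_lit 486) (nat_lit 362) (nat_lit 292)) (XT.nd (nat_lit 78) (nat_lit 228) (nat_lit 0) (XT.lf (nat_lit 0) (nat_lit 6520757153) (nat_lit 304) (nat_lit 364162793) (nat_lit 76) (nat_lit 7048718549) (nat_lit 64) (nat_lit 5) (nat_lit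 68) (nat_lit 5) (nat_lit 65) (nat_lit 5) (nat_lit 487) (nat_lit 362) (nat_lit 291)) (XT.lf (nat_lit 0) (nat_lit 8014285277) (nat_lit 228) (nat_lit 2523862602) (nat_lit 304) (nat_lit 3574319755) (nat_lit 61) (nat_lit 5) (nat_lit 64) (nat_lit 5) (nat_lit 65) (nat_lit 5) (nat_lit 488) (nat_lit 362) (nat_lit 290))))))) (XT.nd (nat_lit 780) (nat_lit 836) (nat_lit 0) (XT.nd (nat_lit 390) (nat_lit 608) (nat_lit 0) (XT.nd (nat_lit 156) (nat_lit 532) (nat_lit 0) (XT.nd (nat_lit 78) (nat_lit 0) (nat_lit 0) (XT.lf (nat_lit 0) (nat_lit 333968764) (nat_lit 304) (nat_lit 12064064733) (nat_lit 76) (nat_lit 1896852514) (nat_lit 57) (nat_lit 5) (nat_lit 61) (nat_lit 5) (nat_lit 58) (nat_lit 5) (nat_lit 489) (nat_lit 362) (nat_lit 289)) (XT.lf (nat_lit 0) (nat_lit 4298575401) (nat_lit 304) (nat_lit 3765924945) (nat_lit 76) (nat_lit 6415465031) (nat_lit 57) (nat_lit 5) (nat_lit 61) (nat_lit 5) (nat_lit 58) (nat_lit 5) (nat_lit 490) (nat_lit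 362) (nat_lit 288))) (XT.nd (nat_lit 78) (nat_lit 304) (nat_lit 0) (XT.lf (nat_lit 0) (nat_lit 4706768774) (nat_lit 228) (nat_lit 3634951537) (nat_lit 304) (nat_lit 6327046387) (nat_lit 54) (nat_lit 5) (nat_lit 57) (nat_lit 5) (nat_lit 58) (nat_lit 5) (nat_lit 491) (nat_lit 362) (nat_lit 287)) (XT.nd (nat_lit 78) (nat_lit 304) (nat_lit 0) (XT.lf (nat_lit 0) (nat_lit 12465717782) (nat_lit 304) (nat_lit 1520049963) (nat_lit 76) (nat_lit 875581691) (nat_lit 54) (nat_lit 5) (nat_lit 58) (nat_lit 5) (nat_lit 55) (nat_lit 5) (nat_lit 492) (nat_lit 362) (nat_lit 286)) (XT.lf (nat_lit 0) (nat_lit 1633143911) (nat_lit 304) (nat_lit 7960087360) (nat_lit 76) (nat_lit 5463549790) (nat_lit 50) (nat_lit 5) (nat_lit 54) (nat_lit 5) (nat_lit 51) (nat_lit 5) (nat_lit 493) (nat_lit 362) (nat_lit 285))))) (XT.nd (nat_lit 156) (nat_lit 456) (nat_lit 0) (XT.nd (nat_lit 78) (nat_lit 0) (nat_lit 0) (XT.lf (nat_lit 0) (nat_lit 589968063) (nat_lit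 152) (nat_lit 5104062839) (nat_lit 228) (nat_lit 9562106330) (nat_lit 48) (nat_lit 5) (nat_lit 50) (nat_lit 5) (nat_lit 51) (nat_lit 5) (nat_lit 494) (nat_lit 362) (nat_lit 284)) (XT.lf (nat_lit 0) (nat_lit 9366973312) (nat_lit 152) (nat_lit 492324804) (nat_lit 228) (nat_lit 5599723953) (nat_lit 48) (nat_lit 5) (nat_lit 50) (nat_lit 5) (nat_lit 51) (nat_lit 5) (nat_lit 495) (nat_lit 362) (nat_lit 283))) (XT.nd (nat_lit 78) (nat_lit 228) (nat_lit 0) (XT.lf (nat_lit 0) (nat_lit 2609033716) (nat_lit 228) (nat_lit 11513322550) (nat_lit 304) (nat_lit 1543323320) (nat_lit 45) (nat_lit 5) (nat_lit 48) (nat_lit 5) (nat_lit 49) (nat_lit 5) (nat_lit 496) (nat_lit 362) (nat_lit 282)) (XT.nd (nat_lit 78) (nat_lit 152) (nat_lit 0) (XT.lf (nat_lit 0) (nat_lit 2574847665) (nat_lit 304) (nat_lit 4380765129) (nat_lit 76) (nat_lit 8920231791) (nat_lit 44) (nat_lit 5) (nat_lit 48) (nat_lit 5) (nat_lit 45) (nat_lit 5) (nat_lit 497) (nat_lit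 362) (nat_lit 281)) (XT.lf (nat_lit 0) (nat_lit 4466545828) (nat_lit 152) (nat_lit 2288027292) (nat_lit 228) (nat_lit 9335443041) (nat_lit 42) (nat_lit 5) (nat_lit 44) (nat_lit 5) (nat_lit 45) (nat_lit 5) (nat_lit 498) (nat_lit 362) (nat_lit 280)))))) (XT.nd (nat_lit 390) (nat_lit 380) (nat_lit 0) (XT.nd (nat_lit 156) (nat_lit 228) (nat_lit 0) (XT.nd (nat_lit 78) (nat_lit 228) (nat_lit 0) (XT.lf (nat_lit 0) (nat_lit 11034486649) (nat_lit 228) (nat_lit 2824507670) (nat_lit 76) (nat_lit 2449149317) (nat_lit 42) (nat_lit 5) (nat_lit 45) (nat_lit 5) (nat_lit 43) (nat_lit 5) (nat_lit 499) (nat_lit 362) (nat_lit 279)) (XT.lf (nat_lit 0) (nat_lit 6166589620) (nat_lit 228) (nat_lit 9260114473) (nat_lit 304) (nat_lit 1103399707) (nat_lit 39) (nat_lit 5) (nat_lit 42) (nat_lit 5) (nat_lit 43) (nat_lit 5) (nat_lit 500) (nat_lit 362) (nat_lit 278))) (XT.nd (nat_lit 78) (nat_lit 152) (nat_lit 0) (XT.lf (nat_lit 0) (nat_lit 3099589104)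 (nat_lit 304) (nat_lit 1450531358) (nat_lit 76) (nat_lit 12206164870) (nat_lit 38) (nat_lit 5) (nat_lit 42) (nat_lit 5) (nat_lit 39) (nat_lit 5) (nat_lit 501) (nat_lit 362) (nat_lit 277)) (XT.nd (nat_lit 78) (nat_lit 0) (nat_lit 0) (XT.lf (nat_lit 0) (nat_lit 7395791051) (nat_lit 228) (nat_lit 9302751275) (nat_lit 76) (nat_lit 287827750) (nat_lit 36) (nat_lit 5) (nat_lit 39) (nat_lit 5) (nat_lit 37) (nat_lit 5) (nat_lit 502) (nat_lit 362) (nat_lit 276)) (XT.lf (nat_lit 0) (nat_lit 11790067911) (nat_lit 228) (nat_lit 279698671) (nat_lit 76) (nat_lit 5151050845) (nat_lit 36) (nat_lit 5) (nat_lit 39) (nat_lit 5) (nat_lit 37) (nat_lit 5) (nat_lit 503) (nat_lit 362) (nat_lit 275))))) (XT.nd (nat_lit 52338) (nat_lit 0) (nat_lit 31312) (XT.nd (nat_lit 78) (nat_lit 228) (nat_lit 0) (XT.lf (nat_lit 0) (nat_lit 8993975113) (nat_lit 152) (nat_lit 7309414100) (nat_lit 228) (nat_lit 1155945187) (nat_lit 34) (nat_lit 5) (nat_lit 36)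 (nat_lit 5) (nat_lit 37) (nat_lit 5) (nat_lit 504) (nat_lit 362) (nat_lit 274)) (XT.nd (nat_lit 78) (nat_lit 0) (nat_lit 0) (XT.lf (nat_lit 0) (nat_lit 694776380) (nat_lit 152) (nat_lit 2446760655) (nat_lit 228) (nat_lit 14561088134) (nat_lit 31) (nat_lit 5) (nat_lit 33) (nat_lit 5) (nat_lit 34) (nat_lit 5) (nat_lit 505) (nat_lit 362) (nat_lit 273)) (XT.lf (nat_lit 0) (nat_lit 7555903745) (nat_lit 228) (nat_lit 7869071941) (nat_lit 76) (nat_lit 2524728623) (nat_lit 31) (nat_lit 5) (nat_lit 34) (nat_lit 5) (nat_lit 32) (nat_lit 5) (nat_lit 506) (nat_lit 362) (nat_lit 272)))) (XT.nd (nat_lit 78) (nat_lit 1672) (nat_lit 0) (XT.lf (nat_lit 0) (nat_lit 240862410) (nat_lit 1596) (nat_lit 3025664684) (nat_lit 0) (nat_lit 240862410) (nat_lit 465) (nat_lit 5) (nat_lit 486) (nat_lit 4) (nat_lit 465) (nat_lit 4) (nat_lit 414) (nat_lit 363) (nat_lit 363)) (XT.nd (nat_lit 78) (nat_lit 1672) (nat_lit 0) (XT.lf (nat_lit 0) (nat_lit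 3812088226) (nat_lit 1596) (nat_lit 1201432007) (nat_lit 0) (nat_lit 2035905883) (nat_lit 465) (nat_lit 5) (nat_lit 486) (nat_lit 4) (nat_lit 465) (nat_lit 4) (nat_lit 415) (nat_lit 363) (nat_lit 362)) (XT.lf (nat_lit 0) (nat_lit 79686715) (nat_lit 1672) (nat_lit 3356570415) (nat_lit 76) (nat_lit 3649390731) (nat_lit 443) (nat_lit 5) (nat_lit 465) (nat_lit 5) (nat_lit 444) (nat_lit 4) (nat_lit 416) (nat_lit 363) (nat_lit 361))))))))
noncomputable def xc51 : XT := (XT.nd (nat_lit 1638) (nat_lit 8284) (nat_lit 0) (XT.nd (nat_lit 780) (nat_lit 6080) (nat_lit 0) (XT.nd (nat_lit 390) (nat_lit 2660) (nat_lit 0) (XT.nd (nat_lit 156) (nat_lit 3876) (nat_lit 0) (XT.nd (nat_lit 78) (nat_lit 0) (nat_lit 0) (XT.lf (nat_lit 0) (nat_lit 1586099049) (nat_lit 1672) (nat_lit 1785607706) (nat_lit 1748) (nat_lit 3751456819) (nat_lit 421) (nat_lit 5) (nat_lit 443) (nat_lit 5) (nat_lit 444) (nat_lit 4) (nat_lit 417) (nat_lit 363) (nat_lit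 360)) (XT.lf (nat_lit 0) (nat_lit 6608290213) (nat_lit 1672) (nat_lit 78232114) (nat_lit 1748) (nat_lit 475805000) (nat_lit 421) (nat_lit 5) (nat_lit 443) (nat_lit 5) (nat_lit 444) (nat_lit 4) (nat_lit 418) (nat_lit 363) (nat_lit 359))) (XT.nd (nat_lit 78) (nat_lit 2052) (nat_lit 0) (XT.lf (nat_lit 0) (nat_lit 2803400515) (nat_lit 1824) (nat_lit 2709094511) (nat_lit 76) (nat_lit 1689930246) (nat_lit 397) (nat_lit 5) (nat_lit 421) (nat_lit 5) (nat_lit 398) (nat_lit 4) (nat_lit 419) (nat_lit 363) (nat_lit 358)) (XT.nd (nat_lit 78) (nat_lit 988) (nat_lit 0) (XT.lf (nat_lit 0) (nat_lit 2367924222) (nat_lit 1064) (nat_lit 3729643531) (nat_lit 1140) (nat_lit 1146614251) (nat_lit 383) (nat_lit 5) (nat_lit 397) (nat_lit 5) (nat_lit 398) (nat_lit 4) (nat_lit 420) (nat_lit 363) (nat_lit 357)) (XT.lf (nat_lit 0) (nat_lit 219671011) (nat_lit 912) (nat_lit 1878916614) (nat_lit 988) (nat_lit 5188813432) (nat_lit 370) (nat_lit 5) (nat_lit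 382) (nat_lit 5) (nat_lit 383) (nat_lit 5) (nat_lit 421) (nat_lit 363) (nat_lit 356))))) (XT.nd (nat_lit 156) (nat_lit 1748) (nat_lit 0) (XT.nd (nat_lit 78) (nat_lit 912) (nat_lit 0) (XT.lf (nat_lit 0) (nat_lit 5363642738) (nat_lit 988) (nat_lit 1921707144) (nat_lit 76) (nat_lit 46609681) (nat_lit 370) (nat_lit 5) (nat_lit 383) (nat_lit 5) (nat_lit 371) (nat_lit 4) (nat_lit 422) (nat_lit 363) (nat_lit 355)) (XT.lf (nat_lit 0) (nat_lit 1271450191) (nat_lit 912) (nat_lit 4093702972) (nat_lit 76) (nat_lit 2012673990) (nat_lit 358) (nat_lit 5) (nat_lit 370) (nat_lit 5) (nat_lit 359) (nat_lit 5) (nat_lit 423) (nat_lit 363) (nat_lit 354))) (XT.nd (nat_lit 78) (nat_lit 912) (nat_lit 0) (XT.lf (nat_lit 0) (nat_lit 1131755780) (nat_lit 836) (nat_lit 3377127325) (nat_lit 912) (nat_lit 2916315070) (nat_lit 347) (nat_lit 5) (nat_lit 358) (nat_lit 5) (nat_lit 359) (nat_lit 5) (nat_lit 424) (nat_lit 363) (nat_lit 353)) (XT.nd (nat_lit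 78) (nat_lit 836) (nat_lit 0) (XT.lf (nat_lit 0) (nat_lit 299991483) (nat_lit 912) (nat_lit 1024264694) (nat_lit 76) (nat_lit 6149908821) (nat_lit 346) (nat_lit 5) (nat_lit 358) (nat_lit 5) (nat_lit 347) (nat_lit 5) (nat_lit 425) (nat_lit 363) (nat_lit 352)) (XT.lf (nat_lit 0) (nat_lit 3515364243) (nat_lit 912) (nat_lit 3206825394) (nat_lit 76) (nat_lit 802089232) (nat_lit 335) (nat_lit 5) (nat_lit 347) (nat_lit 5) (nat_lit 336) (nat_lit 5) (nat_lit 426) (nat_lit 363) (nat_lit 351)))))) (XT.nd (nat_lit 390) (nat_lit 2888) (nat_lit 0) (XT.nd (nat_lit 156) (nat_lit 2280) (nat_lit 0) (XT.nd (nat_lit 78) (nat_lit 76) (nat_lit 0) (XT.lf (nat_lit 0) (nat_lit 2158542321) (nat_lit 836) (nat_lit 4607329037) (nat_lit 912) (nat_lit 810135594) (nat_lit 324) (nat_lit 5) (nat_lit 335) (nat_lit 5) (nat_lit 336) (nat_lit 5) (nat_lit 427) (nat_lit 363) (nat_lit 350)) (XT.lf (nat_lit 0) (nat_lit 2383556719) (nat_lit 912) (nat_lit 35677642)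 (nat_lit 76) (nat_lit 5209982033) (nat_lit 323) (nat_lit 5) (nat_lit 335) (nat_lit 5) (nat_lit 324) (nat_lit 5) (nat_lit 428) (nat_lit 363) (nat_lit 349))) (XT.nd (nat_lit 78) (nat_lit 1520) (nat_lit 0) (XT.lf (nat_lit 0) (nat_lit 5455261343) (nat_lit 760) (nat_lit 153033567) (nat_lit 836) (nat_lit 2075554448) (nat_lit 313) (nat_lit 5) (nat_lit 323) (nat_lit 5) (nat_lit 324) (nat_lit 5) (nat_lit 429) (nat_lit 363) (nat_lit 348)) (XT.nd (nat_lit 78) (nat_lit 684) (nat_lit 0) (XT.lf (nat_lit 0) (nat_lit 1121405006) (nat_lit 836) (nat_lit 4466812000) (nat_lit 76) (nat_lit 2151660621) (nat_lit 302) (nat_lit 5) (nat_lit 313) (nat_lit 5) (nat_lit 303) (nat_lit 5) (nat_lit 430) (nat_lit 363) (nat_lit 347)) (XT.lf (nat_lit 0) (nat_lit 1051469505) (nat_lit 684) (nat_lit 3269507399) (nat_lit 760) (nat_lit 3476471151) (nat_lit 293) (nat_lit 5) (nat_lit 302) (nat_lit 5) (nat_lit 303) (nat_lit 5) (nat_lit 431) (nat_lit 363) (nat_lit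 346))))) (XT.nd (nat_lit 234) (nat_lit 1368) (nat_lit 0) (XT.nd (nat_lit 78) (nat_lit 1520) (nat_lit 0) (XT.lf (nat_lit 0) (nat_lit 6675400784) (nat_lit 684) (nat_lit 883341950) (nat_lit 760) (nat_lit 297967893) (nat_lit 293) (nat_lit 5) (nat_lit 302) (nat_lit 5) (nat_lit 303) (nat_lit 5) (nat_lit 432) (nat_lit 363) (nat_lit 345)) (XT.nd (nat_lit 78) (nat_lit 684) (nat_lit 0) (XT.lf (nat_lit 0) (nat_lit 2889769791) (nat_lit 836) (nat_lit 3458230277) (nat_lit 76) (nat_lit 1569114368) (nat_lit 282) (nat_lit 5) (nat_lit 293) (nat_lit 5) (nat_lit 283) (nat_lit 5) (nat_lit 433) (nat_lit 363) (nat_lit 344)) (XT.lf (nat_lit 0) (nat_lit 2205008880) (nat_lit 684) (nat_lit 3905946411) (nat_lit 760) (nat_lit 1868281336) (nat_lit 273) (nat_lit 5) (nat_lit 282) (nat_lit 5) (nat_lit 283) (nat_lit 5) (nat_lit 434) (nat_lit 363) (nat_lit 343)))) (XT.nd (nat_lit 78) (nat_lit 1292) (nat_lit 0) (XT.lf (nat_lit 0) (nat_lit 1305366459) (nat_lit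 760) (nat_lit 88366022) (nat_lit 76) (nat_lit 6649332200) (nat_lit 272) (nat_lit 5) (nat_lit 282) (nat_lit 5) (nat_lit 273) (nat_lit 5) (nat_lit 435) (nat_lit 363) (nat_lit 342)) (XT.nd (nat_lit 78) (nat_lit 608) (nat_lit 0) (XT.lf (nat_lit 0) (nat_lit 4509268806) (nat_lit 760) (nat_lit 2406775290) (nat_lit 76) (nat_lit 1192064263) (nat_lit 263) (nat_lit 5) (nat_lit 273) (nat_lit 5) (nat_lit 264) (nat_lit 5) (nat_lit 436) (nat_lit 363) (nat_lit 341)) (XT.lf (nat_lit 0) (nat_lit 3404032966) (nat_lit 608) (nat_lit 4352559843) (nat_lit 684) (nat_lit 418294808) (nat_lit 255) (nat_lit 5) (nat_lit 263) (nat_lit 5) (nat_lit 264) (nat_lit 5) (nat_lit 437) (nat_lit 363) (nat_lit 340))))))) (XT.nd (nat_lit 858) (nat_lit 3420) (nat_lit 0) (XT.nd (nat_lit 390) (nat_lit 2888) (nat_lit 0) (XT.nd (nat_lit 156) (nat_lit 1292) (nat_lit 0) (XT.nd (nat_lit 78) (nat_lit 0) (nat_lit 0) (XT.lf (nat_lit 0) (nat_lit 1051083831) (nat_lit 608)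 (nat_lit 1708459806) (nat_lit 684) (nat_lit 5483697725) (nat_lit 246) (nat_lit 5) (nat_lit 254) (nat_lit 5) (nat_lit 255) (nat_lit 5) (nat_lit 438) (nat_lit 363) (nat_lit 339)) (XT.lf (nat_lit 0) (nat_lit 5982171079) (nat_lit 684) (nat_lit 1333381079) (nat_lit 76) (nat_lit 997638393) (nat_lit 246) (nat_lit 5) (nat_lit 255) (nat_lit 5) (nat_lit 247) (nat_lit 5) (nat_lit 439) (nat_lit 363) (nat_lit 338))) (XT.nd (nat_lit 78) (nat_lit 608) (nat_lit 0) (XT.lf (nat_lit 0) (nat_lit 863584607) (nat_lit 684) (nat_lit 3762982736) (nat_lit 76) (nat_lit 3758066533) (nat_lit 237) (nat_lit 5) (nat_lit 246) (nat_lit 5) (nat_lit 238) (nat_lit 5) (nat_lit 440) (nat_lit 363) (nat_lit 337)) (XT.nd (nat_lit 78) (nat_lit 0) (nat_lit 0) (XT.lf (nat_lit 0) (nat_lit 2205189156) (nat_lit 608) (nat_lit 1858460009) (nat_lit 684) (nat_lit 4394112286) (nat_lit 229) (nat_lit 5) (nat_lit 237) (nat_lit 5) (nat_lit 238) (nat_lit 5) (nat_lit 441) (nat_lit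 363) (nat_lit 336)) (XT.lf (nat_lit 0) (nat_lit 7309307161) (nat_lit 684) (nat_lit 259813144) (nat_lit 76) (nat_lit 963618215) (nat_lit 229) (nat_lit 5) (nat_lit 238) (nat_lit 5) (nat_lit 230) (nat_lit 5) (nat_lit 442) (nat_lit 363) (nat_lit 335))))) (XT.nd (nat_lit 234) (nat_lit 1140) (nat_lit 0) (XT.nd (nat_lit 78) (nat_lit 1140) (nat_lit 0) (XT.lf (nat_lit 0) (nat_lit 1985483812) (nat_lit 608) (nat_lit 2768998533) (nat_lit 76) (nat_lit 3854465930) (nat_lit 221) (nat_lit 5) (nat_lit 229) (nat_lit 5) (nat_lit 222) (nat_lit 5) (nat_lit 443) (nat_lit 363) (nat_lit 334)) (XT.nd (nat_lit 78) (nat_lit 532) (nat_lit 0) (XT.lf (nat_lit 0) (nat_lit 3350173314) (nat_lit 608) (nat_lit 1866644979) (nat_lit 684) (nat_lit 3470227442) (nat_lit 213) (nat_lit 5) (nat_lit 221) (nat_lit 5) (nat_lit 222) (nat_lit 5) (nat_lit 444) (nat_lit 363) (nat_lit 333)) (XT.lf (nat_lit 0) (nat_lit 801619723) (nat_lit 532) (nat_lit 7693619151) (nat_lit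 608) (nat_lit 271834435) (nat_lit 206) (nat_lit 5) (nat_lit 213) (nat_lit 5) (nat_lit 214) (nat_lit 5) (nat_lit 445) (nat_lit 363) (nat_lit 332)))) (XT.nd (nat_lit 78) (nat_lit 1064) (nat_lit 0) (XT.lf (nat_lit 0) (nat_lit 2951461101) (nat_lit 608) (nat_lit 1809703588) (nat_lit 76) (nat_lit 4087161977) (nat_lit 205) (nat_lit 5) (nat_lit 213) (nat_lit 5) (nat_lit 206) (nat_lit 5) (nat_lit 446) (nat_lit 363) (nat_lit 331)) (XT.nd (nat_lit 78) (nat_lit 532) (nat_lit 0) (XT.lf (nat_lit 0) (nat_lit 4462229916) (nat_lit 532) (nat_lit 1755017809) (nat_lit 608) (nat_lit 2714304480) (nat_lit 198) (nat_lit 5) (nat_lit 205) (nat_lit 5) (nat_lit 206) (nat_lit 5) (nat_lit 447) (nat_lit 363) (nat_lit 330)) (XT.lf (nat_lit 0) (nat_lit 510470028) (nat_lit 532) (nat_lit 7200986400) (nat_lit 76) (nat_lit 1305221708) (nat_lit 191) (nat_lit 5) (nat_lit 198) (nat_lit 5) (nat_lit 192) (nat_lit 5) (nat_lit 448) (nat_lit 363) (nat_lit 329))))))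 (XT.nd (nat_lit 390) (nat_lit 1900) (nat_lit 0) (XT.nd (nat_lit 156) (nat_lit 988) (nat_lit 0) (XT.nd (nat_lit 78) (nat_lit 532) (nat_lit 0) (XT.lf (nat_lit 0) (nat_lit 3758525966) (nat_lit 532) (nat_lit 910009888) (nat_lit 76) (nat_lit 4434724701) (nat_lit 191) (nat_lit 5) (nat_lit 198) (nat_lit 5) (nat_lit 192) (nat_lit 5) (nat_lit 449) (nat_lit 363) (nat_lit 328)) (XT.lf (nat_lit 0) (nat_lit 5516096203) (nat_lit 532) (nat_lit 1545460723) (nat_lit 608) (nat_lit 2130232527) (nat_lit 184) (nat_lit 5) (nat_lit 191) (nat_lit 5) (nat_lit 192) (nat_lit 5) (nat_lit 450) (nat_lit 363) (nat_lit 327))) (XT.nd (nat_lit 78) (nat_lit 456) (nat_lit 0) (XT.lf (nat_lit 0) (nat_lit 1122725636) (nat_lit 532) (nat_lit 6526488013) (nat_lit 76) (nat_lit 1632956063) (nat_lit 177) (nat_lit 5) (nat_lit 184) (nat_lit 5) (nat_lit 178) (nat_lit 5) (nat_lit 451) (nat_lit 363) (nat_lit 326)) (XT.nd (nat_lit 78) (nat_lit 456) (nat_lit 0) (XT.lf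 (nat_lit 0) (nat_lit 4402058224) (nat_lit 532) (nat_lit 96487559) (nat_lit 76) (nat_lit 4875747631) (nat_lit 177) (nat_lit 5) (nat_lit 184) (nat_lit 5) (nat_lit 178) (nat_lit 5) (nat_lit 452) (nat_lit 363) (nat_lit 325)) (XT.lf (nat_lit 0) (nat_lit 6484782831) (nat_lit 456) (nat_lit 1259933814) (nat_lit 532) (nat_lit 1723602118) (nat_lit 171) (nat_lit 5) (nat_lit 177) (nat_lit 5) (nat_lit 178) (nat_lit 5) (nat_lit 453) (nat_lit 363) (nat_lit 324))))) (XT.nd (nat_lit 234) (nat_lit 912) (nat_lit 0) (XT.nd (nat_lit 78) (nat_lit 456) (nat_lit 0) (XT.lf (nat_lit 0) (nat_lit 1562410660) (nat_lit 532) (nat_lit 5968596822) (nat_lit 76) (nat_lit 2033158881) (nat_lit 164) (nat_lit 5) (nat_lit 171) (nat_lit 5) (nat_lit 165) (nat_lit 5) (nat_lit 454) (nat_lit 363) (nat_lit 323)) (XT.nd (nat_lit 78) (nat_lit 0) (nat_lit 0) (XT.lf (nat_lit 0) (nat_lit 610356809) (nat_lit 456) (nat_lit 4269332412) (nat_lit 532) (nat_lit 4782254493)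 (nat_lit 158) (nat_lit 5) (nat_lit 164) (nat_lit 5) (nat_lit 165) (nat_lit 5) (nat_lit 455) (nat_lit 363) (nat_lit 322)) (XT.lf (nat_lit 0) (nat_lit 7339283133) (nat_lit 456) (nat_lit 920679255) (nat_lit 532) (nat_lit 1501794140) (nat_lit 158) (nat_lit 5) (nat_lit 164) (nat_lit 5) (nat_lit 165) (nat_lit 5) (nat_lit 456) (nat_lit 363) (nat_lit 321)))) (XT.nd (nat_lit 78) (nat_lit 456) (nat_lit 0) (XT.lf (nat_lit 0) (nat_lit 1821642987) (nat_lit 456) (nat_lit 5557910265) (nat_lit 76) (nat_lit 2483754141) (nat_lit 152) (nat_lit 5) (nat_lit 158) (nat_lit 5) (nat_lit 153) (nat_lit 5) (nat_lit 457) (nat_lit 363) (nat_lit 320)) (XT.nd (nat_lit 78) (nat_lit 0) (nat_lit 0) (XT.lf (nat_lit 0) (nat_lit 1171109089) (nat_lit 456) (nat_lit 4007884833) (nat_lit 532) (nat_lit 4787957884) (nat_lit 146) (nat_lit 5) (nat_lit 152) (nat_lit 5) (nat_lit 153) (nat_lit 5) (nat_lit 458) (nat_lit 363) (nat_lit 319)) (XT.lf (nat_lit 0) (nat_lit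 8048259101) (nat_lit 456) (nat_lit 550432747) (nat_lit 532) (nat_lit 1474085173) (nat_lit 146) (nat_lit 5) (nat_lit 152) (nat_lit 5) (nat_lit 153) (nat_lit 5) (nat_lit 459) (nat_lit 363) (nat_lit 318))))))))
noncomputable def xc52 : XT := (XT.nd (nat_lit 1638) (nat_lit 3116) (nat_lit 0) (XT.nd (nat_lit 780) (nat_lit 2280) (nat_lit 0) (XT.nd (nat_lit 390) (nat_lit 1140) (nat_lit 0) (XT.nd (nat_lit 156) (nat_lit 836) (nat_lit 0) (XT.nd (nat_lit 78) (nat_lit 380) (nat_lit 0) (XT.lf (nat_lit 0) (nat_lit 1890634518) (nat_lit 456) (nat_lit 5327546221) (nat_lit 76) (nat_lit 2962110583) (nat_lit 140) (nat_lit 5) (nat_lit 146) (nat_lit 5) (nat_lit 141) (nat_lit 5) (nat_lit 460) (nat_lit 363) (nat_lit 317)) (XT.lf (nat_lit 0) (nat_lit 1550707242) (nat_lit 380) (nat_lit 3738348070) (nat_lit 456) (nat_lit 5000994054) (nat_lit 135) (nat_lit 5) (nat_lit 140) (nat_lit 5) (nat_lit 141) (nat_lit 5) (nat_lit 461) (nat_lit 363) (nat_lit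 316))) (XT.nd (nat_lit 78) (nat_lit 836) (nat_lit 0) (XT.lf (nat_lit 0) (nat_lit 8577701066) (nat_lit 380) (nat_lit 172644088) (nat_lit 456) (nat_lit 1651770410) (nat_lit 135) (nat_lit 5) (nat_lit 140) (nat_lit 5) (nat_lit 141) (nat_lit 5) (nat_lit 462) (nat_lit 363) (nat_lit 315)) (XT.nd (nat_lit 78) (nat_lit 380) (nat_lit 0) (XT.lf (nat_lit 0) (nat_lit 1757562577) (nat_lit 456) (nat_lit 5313497241) (nat_lit 76) (nat_lit 3444819411) (nat_lit 129) (nat_lit 5) (nat_lit 135) (nat_lit 5) (nat_lit 130) (nat_lit 5) (nat_lit 463) (nat_lit 363) (nat_lit 314)) (XT.lf (nat_lit 0) (nat_lit 1712394756) (nat_lit 380) (nat_lit 3485122099) (nat_lit 456) (nat_lit 5434502281) (nat_lit 124) (nat_lit 5) (nat_lit 129) (nat_lit 5) (nat_lit 130) (nat_lit 5) (nat_lit 464) (nat_lit 363) (nat_lit 313))))) (XT.nd (nat_lit 156) (nat_lit 760) (nat_lit 0) (XT.nd (nat_lit 78) (nat_lit 380) (nat_lit 0) (XT.lf (nat_lit 0) (nat_lit 8703489101) (nat_lit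 456) (nat_lit 1861236815) (nat_lit 76) (nat_lit 185821715) (nat_lit 124) (nat_lit 5) (nat_lit 130) (nat_lit 5) (nat_lit 125) (nat_lit 5) (nat_lit 465) (nat_lit 363) (nat_lit 312)) (XT.lf (nat_lit 0) (nat_lit 1408422108) (nat_lit 380) (nat_lit 5555016082) (nat_lit 76) (nat_lit 3907460309) (nat_lit 119) (nat_lit 5) (nat_lit 124) (nat_lit 5) (nat_lit 120) (nat_lit 5) (nat_lit 466) (nat_lit 363) (nat_lit 311))) (XT.nd (nat_lit 78) (nat_lit 380) (nat_lit 0) (XT.lf (nat_lit 0) (nat_lit 1616041565) (nat_lit 380) (nat_lit 3273751862) (nat_lit 456) (nat_lit 6103918092) (nat_lit 114) (nat_lit 5) (nat_lit 119) (nat_lit 5) (nat_lit 120) (nat_lit 5) (nat_lit 467) (nat_lit 363) (nat_lit 310)) (XT.nd (nat_lit 78) (nat_lit 380) (nat_lit 0) (XT.lf (nat_lit 0) (nat_lit 8442836714) (nat_lit 456) (nat_lit 2175972203) (nat_lit 76) (nat_lit 500140385) (nat_lit 114) (nat_lit 5) (nat_lit 120) (nat_lit 5) (nat_lit 115) (nat_lit 5) (nat_lit 468)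 (nat_lit 363) (nat_lit 309)) (XT.lf (nat_lit 0) (nat_lit 826857079) (nat_lit 380) (nat_lit 6095036312) (nat_lit 76) (nat_lit 4324353649) (nat_lit 109) (nat_lit 5) (nat_lit 114) (nat_lit 5) (nat_lit 110) (nat_lit 5) (nat_lit 469) (nat_lit 363) (nat_lit 308)))))) (XT.nd (nat_lit 390) (nat_lit 1292) (nat_lit 0) (XT.nd (nat_lit 156) (nat_lit 684) (nat_lit 0) (XT.nd (nat_lit 78) (nat_lit 0) (nat_lit 0) (XT.lf (nat_lit 0) (nat_lit 1217710921) (nat_lit 304) (nat_lit 3131184761) (nat_lit 380) (nat_lit 7027153267) (nat_lit 105) (nat_lit 5) (nat_lit 109) (nat_lit 5) (nat_lit 110) (nat_lit 5) (nat_lit 470) (nat_lit 363) (nat_lit 307)) (XT.lf (nat_lit 0) (nat_lit 7949747603) (nat_lit 380) (nat_lit 2812646665) (nat_lit 76) (nat_lit 745893852) (nat_lit 105) (nat_lit 5) (nat_lit 110) (nat_lit 5) (nat_lit 106) (nat_lit 5) (nat_lit 471) (nat_lit 363) (nat_lit 306))) (XT.nd (nat_lit 78) (nat_lit 380) (nat_lit 0) (XT.lf (nat_lit 0) (nat_lit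 4662225440) (nat_lit 304) (nat_lit 6974560917) (nat_lit 380) (nat_lit 6110832) (nat_lit 101) (nat_lit 5) (nat_lit 105) (nat_lit 5) (nat_lit 106) (nat_lit 5) (nat_lit 472) (nat_lit 363) (nat_lit 305)) (XT.nd (nat_lit 78) (nat_lit 0) (nat_lit 0) (XT.lf (nat_lit 0) (nat_lit 469185720) (nat_lit 304) (nat_lit 3086045503) (nat_lit 380) (nat_lit 8224799541) (nat_lit 96) (nat_lit 5) (nat_lit 100) (nat_lit 5) (nat_lit 101) (nat_lit 5) (nat_lit 473) (nat_lit 363) (nat_lit 304)) (XT.lf (nat_lit 0) (nat_lit 7204053457) (nat_lit 380) (nat_lit 3820840530) (nat_lit 76) (nat_lit 894693527) (nat_lit 96) (nat_lit 5) (nat_lit 101) (nat_lit 5) (nat_lit 97) (nat_lit 5) (nat_lit 474) (nat_lit 363) (nat_lit 303))))) (XT.nd (nat_lit 234) (nat_lit 608) (nat_lit 0) (XT.nd (nat_lit 78) (nat_lit 380) (nat_lit 0) (XT.lf (nat_lit 0) (nat_lit 3790921991) (nat_lit 304) (nat_lit 7144162845) (nat_lit 380) (nat_lit 1126673770) (nat_lit 92) (nat_lit 5)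 (nat_lit 96) (nat_lit 5) (nat_lit 97) (nat_lit 5) (nat_lit 475) (nat_lit 363) (nat_lit 302)) (XT.nd (nat_lit 78) (nat_lit 304) (nat_lit 0) (XT.lf (nat_lit 0) (nat_lit 2490812089) (nat_lit 380) (nat_lit 673598584) (nat_lit 76) (nat_lit 9042239321) (nat_lit 91) (nat_lit 5) (nat_lit 96) (nat_lit 5) (nat_lit 92) (nat_lit 5) (nat_lit 476) (nat_lit 363) (nat_lit 301)) (XT.lf (nat_lit 0) (nat_lit 6182705958) (nat_lit 380) (nat_lit 5255098939) (nat_lit 76) (nat_lit 916149886) (nat_lit 87) (nat_lit 5) (nat_lit 92) (nat_lit 5) (nat_lit 88) (nat_lit 5) (nat_lit 477) (nat_lit 363) (nat_lit 300)))) (XT.nd (nat_lit 78) (nat_lit 380) (nat_lit 0) (XT.lf (nat_lit 0) (nat_lit 2486909276) (nat_lit 228) (nat_lit 7468340077) (nat_lit 304) (nat_lit 2548827341) (nat_lit 84) (nat_lit 5) (nat_lit 87) (nat_lit 5) (nat_lit 88) (nat_lit 5) (nat_lit 478) (nat_lit 363) (nat_lit 299)) (XT.nd (nat_lit 78) (nat_lit 304) (nat_lit 0) (XT.lf (nat_lit 0)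 (nat_lit 1131751644) (nat_lit 304) (nat_lit 2265771069) (nat_lit 76) (nat_lit 9259521699) (nat_lit 83) (nat_lit 5) (nat_lit 87) (nat_lit 5) (nat_lit 84) (nat_lit 5) (nat_lit 479) (nat_lit 363) (nat_lit 298)) (XT.lf (nat_lit 0) (nat_lit 4859517440) (nat_lit 380) (nat_lit 7175515038) (nat_lit 76) (nat_lit 777554813) (nat_lit 79) (nat_lit 5) (nat_lit 84) (nat_lit 5) (nat_lit 80) (nat_lit 5) (nat_lit 480) (nat_lit 363) (nat_lit 297))))))) (XT.nd (nat_lit 780) (nat_lit 1444) (nat_lit 0) (XT.nd (nat_lit 390) (nat_lit 836) (nat_lit 0) (XT.nd (nat_lit 156) (nat_lit 608) (nat_lit 0) (XT.nd (nat_lit 78) (nat_lit 0) (nat_lit 0) (XT.lf (nat_lit 0) (nat_lit 688516260) (nat_lit 228) (nat_lit 7981692779) (nat_lit 304) (nat_lit 4300871286) (nat_lit 76) (nat_lit 5) (nat_lit 79) (nat_lit 5) (nat_lit 80) (nat_lit 5) (nat_lit 481) (nat_lit 363) (nat_lit 296)) (XT.lf (nat_lit 0) (nat_lit 8751798836) (nat_lit 228) (nat_lit 3819867738) (nat_lit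 304) (nat_lit 560792182) (nat_lit 76) (nat_lit 5) (nat_lit 79) (nat_lit 5) (nat_lit 80) (nat_lit 5) (nat_lit 482) (nat_lit 363) (nat_lit 295))) (XT.nd (nat_lit 78) (nat_lit 228) (nat_lit 0) (XT.lf (nat_lit 0) (nat_lit 3204870692) (nat_lit 380) (nat_lit 9648370702) (nat_lit 76) (nat_lit 443537924) (nat_lit 71) (nat_lit 5) (nat_lit 76) (nat_lit 5) (nat_lit 72) (nat_lit 5) (nat_lit 483) (nat_lit 363) (nat_lit 294)) (XT.nd (nat_lit 78) (nat_lit 228) (nat_lit 0) (XT.lf (nat_lit 0) (nat_lit 7060226711) (nat_lit 380) (nat_lit 1650387504) (nat_lit 76) (nat_lit 4753266357) (nat_lit 71) (nat_lit 5) (nat_lit 76) (nat_lit 5) (nat_lit 72) (nat_lit 5) (nat_lit 484) (nat_lit 363) (nat_lit 293)) (XT.lf (nat_lit 0) (nat_lit 6539575026) (nat_lit 228) (nat_lit 4463214794) (nat_lit 304) (nat_lit 2631338110) (nat_lit 68) (nat_lit 5) (nat_lit 71) (nat_lit 5) (nat_lit 72) (nat_lit 5) (nat_lit 485) (nat_lit 363) (nat_lit 292))))) (XT.nd (nat_lit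 156) (nat_lit 532) (nat_lit 0) (XT.nd (nat_lit 78) (nat_lit 0) (nat_lit 0) (XT.lf (nat_lit 0) (nat_lit 1060254379) (nat_lit 228) (nat_lit 125958408) (nat_lit 304) (nat_lit 12621700480) (nat_lit 64) (nat_lit 5) (nat_lit 67) (nat_lit 5) (nat_lit 68) (nat_lit 5) (nat_lit 486) (nat_lit 363) (nat_lit 291)) (XT.lf (nat_lit 0) (nat_lit 5088600031) (nat_lit 304) (nat_lit 4609524555) (nat_lit 76) (nat_lit 4285833210) (nat_lit 64) (nat_lit 5) (nat_lit 68) (nat_lit 5) (nat_lit 65) (nat_lit 5) (nat_lit 487) (nat_lit 363) (nat_lit 290))) (XT.nd (nat_lit 78) (nat_lit 304) (nat_lit 0) (XT.lf (nat_lit 0) (nat_lit 3685957123) (nat_lit 228) (nat_lit 5376330786) (nat_lit 304) (nat_lit 5101375860) (nat_lit 61) (nat_lit 5) (nat_lit 64) (nat_lit 5) (nat_lit 65) (nat_lit 5) (nat_lit 488) (nat_lit 363) (nat_lit 289)) (XT.nd (nat_lit 78) (nat_lit 304) (nat_lit 0) (XT.lf (nat_lit 0) (nat_lit 12157256762) (nat_lit 228) (nat_lit 957888718) (nat_lit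 304) (nat_lit 1231829966) (nat_lit 61) (nat_lit 5) (nat_lit 64) (nat_lit 5) (nat_lit 65) (nat_lit 5) (nat_lit 489) (nat_lit 363) (nat_lit 288)) (XT.lf (nat_lit 0) (nat_lit 2712709999) (nat_lit 304) (nat_lit 8279936591) (nat_lit 76) (nat_lit 3540295245) (nat_lit 57) (nat_lit 5) (nat_lit 61) (nat_lit 5) (nat_lit 58) (nat_lit 5) (nat_lit 490) (nat_lit 363) (nat_lit 287)))))) (XT.nd (nat_lit 390) (nat_lit 760) (nat_lit 0) (XT.nd (nat_lit 156) (nat_lit 456) (nat_lit 0) (XT.nd (nat_lit 78) (nat_lit 0) (nat_lit 0) (XT.lf (nat_lit 0) (nat_lit 106634931) (nat_lit 228) (nat_lit 6604155165) (nat_lit 304) (nat_lit 8011856922) (nat_lit 54) (nat_lit 5) (nat_lit 57) (nat_lit 5) (nat_lit 58) (nat_lit 5) (nat_lit 491) (nat_lit 363) (nat_lit 286)) (XT.lf (nat_lit 0) (nat_lit 8721420306) (nat_lit 228) (nat_lit 2092540809) (nat_lit 304) (nat_lit 4101687688) (nat_lit 54) (nat_lit 5) (nat_lit 57) (nat_lit 5) (nat_lit 58) (nat_lit 5) (nat_lit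 492) (nat_lit 363) (nat_lit 285))) (XT.nd (nat_lit 78) (nat_lit 228) (nat_lit 0) (XT.lf (nat_lit 0) (nat_lit 2359437626) (nat_lit 228) (nat_lit 12641396645) (nat_lit 304) (nat_lit 111648561) (nat_lit 51) (nat_lit 5) (nat_lit 54) (nat_lit 5) (nat_lit 55) (nat_lit 5) (nat_lit 493) (nat_lit 363) (nat_lit 284)) (XT.nd (nat_lit 78) (nat_lit 152) (nat_lit 0) (XT.lf (nat_lit 0) (nat_lit 3932062066) (nat_lit 304) (nat_lit 4235384106) (nat_lit 76) (nat_lit 7144782514) (nat_lit 50) (nat_lit 5) (nat_lit 54) (nat_lit 5) (nat_lit 51) (nat_lit 5) (nat_lit 494) (nat_lit 363) (nat_lit 283)) (XT.lf (nat_lit 0) (nat_lit 4460120418) (nat_lit 152) (nat_lit 3594660987) (nat_lit 228) (nat_lit 7461185399) (nat_lit 48) (nat_lit 5) (nat_lit 50) (nat_lit 5) (nat_lit 51) (nat_lit 5) (nat_lit 495) (nat_lit 363) (nat_lit 282))))) (XT.nd (nat_lit 234) (nat_lit 456) (nat_lit 0) (XT.nd (nat_lit 78) (nat_lit 304) (nat_lit 0) (XT.lf (nat_lit 0) (nat_lit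 12266294927) (nat_lit 228) (nat_lit 2393782883) (nat_lit 76) (nat_lit 1063579685) (nat_lit 48) (nat_lit 5) (nat_lit 51) (nat_lit 5) (nat_lit 49) (nat_lit 5) (nat_lit 496) (nat_lit 363) (nat_lit 281)) (XT.nd (nat_lit 78) (nat_lit 0) (nat_lit 0) (XT.lf (nat_lit 0) (nat_lit 655621417) (nat_lit 304) (nat_lit 9486128615) (nat_lit 76) (nat_lit 5792928997) (nat_lit 44) (nat_lit 5) (nat_lit 48) (nat_lit 5) (nat_lit 45) (nat_lit 5) (nat_lit 497) (nat_lit 363) (nat_lit 280)) (XT.lf (nat_lit 0) (nat_lit 4792193072) (nat_lit 304) (nat_lit 721880933) (nat_lit 76) (nat_lit 10635641823) (nat_lit 44) (nat_lit 5) (nat_lit 48) (nat_lit 5) (nat_lit 45) (nat_lit 5) (nat_lit 498) (nat_lit 363) (nat_lit 279)))) (XT.nd (nat_lit 78) (nat_lit 304) (nat_lit 0) (XT.lf (nat_lit 0) (nat_lit 8277728220) (nat_lit 152) (nat_lit 759481928) (nat_lit 228) (nat_lit 7331333190) (nat_lit 42) (nat_lit 5) (nat_lit 44) (nat_lit 5) (nat_lit 45) (nat_lit 5) (nat_lit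 499) (nat_lit 363) (nat_lit 278)) (XT.nd (nat_lit 78) (nat_lit 76) (nat_lit 0) (XT.lf (nat_lit 0) (nat_lit 810915105) (nat_lit 228) (nat_lit 12564984122) (nat_lit 304) (nat_lit 3215676907) (nat_lit 39) (nat_lit 5) (nat_lit 42) (nat_lit 5) (nat_lit 43) (nat_lit 5) (nat_lit 500) (nat_lit 363) (nat_lit 277)) (XT.lf (nat_lit 0) (nat_lit 1001213203) (nat_lit 304) (nat_lit 6878048523) (nat_lit 76) (nat_lit 8939048242) (nat_lit 38) (nat_lit 5) (nat_lit 42) (nat_lit 5) (nat_lit 39) (nat_lit 5) (nat_lit 501) (nat_lit 363) (nat_lit 276))))))))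
noncomputable def xc53 : XT := (XT.nd (nat_lit 53586) (nat_lit 0) (nat_lit 12160) (XT.nd (nat_lit 52728) (nat_lit 0) (nat_lit 22192) (XT.nd (nat_lit 52338) (nat_lit 0) (nat_lit 31312) (XT.nd (nat_lit 156) (nat_lit 380) (nat_lit 0) (XT.nd (nat_lit 78) (nat_lit 0) (nat_lit 0) (XT.lf (nat_lit 0) (nat_lit 2161978096) (nat_lit 152) (nat_lit 3084149779) (nat_lit 228) (nat_lit 11803294528) (nat_lit 36) (nat_lit 5) (nat_lit 38) (nat_lit 5) (nat_lit 39) (nat_lit 5) (nat_lit 502) (nat_lit 363) (nat_lit 275)) (XT.lf (nat_lit 0) (nat_lit 9606897247) (nat_lit 228) (nat_lit 5868029472) (nat_lit 76) (nat_lit 1809615091) (nat_lit 36) (nat_lit 5) (nat_lit 39) (nat_lit 5) (nat_lit 37) (nat_lit 5) (nat_lit 503) (nat_lit 363) (nat_lit 274))) (XT.nd (nat_lit 78) (nat_lit 228) (nat_lit 0) (XT.lf (nat_lit 0) (nat_lit 3307871894) (nat_lit 152) (nat_lit 10762209935) (nat_lit 228) (nat_lit 3453981559) (nat_lit 34) (nat_lit 5) (nat_lit 36) (nat_lit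 5) (nat_lit 37) (nat_lit 5) (nat_lit 504) (nat_lit 363) (nat_lit 273)) (XT.nd (nat_lit 78) (nat_lit 152) (nat_lit 0) (XT.lf (nat_lit 0) (nat_lit 855931047) (nat_lit 228) (nat_lit 5073470290) (nat_lit 76) (nat_lit 11838607200) (nat_lit 33) (nat_lit 5) (nat_lit 36) (nat_lit 5) (nat_lit 34) (nat_lit 5) (nat_lit 505) (nat_lit 363) (nat_lit 272)) (XT.lf (nat_lit 0) (nat_lit 4238834265) (nat_lit 152) (nat_lit 968386510) (nat_lit 228) (nat_lit 12809130205) (nat_lit 31) (nat_lit 5) (nat_lit 33) (nat_lit 5) (nat_lit 34) (nat_lit 5) (nat_lit 506) (nat_lit 363) (nat_lit 271))))) (XT.nd (nat_lit 156) (nat_lit 3268) (nat_lit 0) (XT.nd (nat_lit 78) (nat_lit 1444) (nat_lit 0) (XT.lf (nat_lit 0) (nat_lit 1324601322) (nat_lit 1444) (nat_lit 825023471) (nat_lit 0) (nat_lit 1324601322) (nat_lit 505) (nat_lit 5) (nat_lit 524) (nat_lit 4) (nat_lit 505) (nat_lit 4) (nat_lit 412) (nat_lit 364) (nat_lit 364)) (XT.lf (nat_lit 0) (nat_lit 3118049422)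 (nat_lit 1444) (nat_lit 2855532557) (nat_lit 1444) (nat_lit 1007592448) (nat_lit 486) (nat_lit 4) (nat_lit 505) (nat_lit 5) (nat_lit 505) (nat_lit 4) (nat_lit 413) (nat_lit 364) (nat_lit 363))) (XT.nd (nat_lit 78) (nat_lit 1672) (nat_lit 0) (XT.lf (nat_lit 0) (nat_lit 922528169) (nat_lit 1520) (nat_lit 1345874933) (nat_lit 1596) (nat_lit 4746896196) (nat_lit 465) (nat_lit 5) (nat_lit 485) (nat_lit 5) (nat_lit 486) (nat_lit 4) (nat_lit 414) (nat_lit 364) (nat_lit 362)) (XT.nd (nat_lit 78) (nat_lit 1672) (nat_lit 0) (XT.lf (nat_lit 0) (nat_lit 5556924256) (nat_lit 1596) (nat_lit 1266197657) (nat_lit 0) (nat_lit 227680686) (nat_lit 465) (nat_lit 5) (nat_lit 486) (nat_lit 4) (nat_lit 465) (nat_lit 4) (nat_lit 415) (nat_lit 364) (nat_lit 361)) (XT.lf (nat_lit 0) (nat_lit 1766954899) (nat_lit 1672) (nat_lit 3467205689) (nat_lit 76) (nat_lit 1853322470) (nat_lit 443) (nat_lit 5) (nat_lit 465) (nat_lit 5) (nat_lit 444) (nat_lit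 4) (nat_lit 416) (nat_lit 364) (nat_lit 360)))))) (XT.nd (nat_lit 390) (nat_lit 4484) (nat_lit 0) (XT.nd (nat_lit 156) (nat_lit 2888) (nat_lit 0) (XT.nd (nat_lit 78) (nat_lit 76) (nat_lit 0) (XT.lf (nat_lit 0) (nat_lit 1441898992) (nat_lit 1672) (nat_lit 3583888072) (nat_lit 1748) (nat_lit 2099893697) (nat_lit 421) (nat_lit 5) (nat_lit 443) (nat_lit 5) (nat_lit 444) (nat_lit 4) (nat_lit 417) (nat_lit 364) (nat_lit 359)) (XT.lf (nat_lit 0) (nat_lit 1128285909) (nat_lit 1748) (nat_lit 740296831) (nat_lit 76) (nat_lit 5296767662) (nat_lit 420) (nat_lit 5) (nat_lit 443) (nat_lit 5) (nat_lit 421) (nat_lit 5) (nat_lit 418) (nat_lit 364) (nat_lit 358))) (XT.nd (nat_lit 78) (nat_lit 1140) (nat_lit 0) (XT.lf (nat_lit 0) (nat_lit 4281107030) (nat_lit 1748) (nat_lit 76151173) (nat_lit 1824) (nat_lit 2849025398) (nat_lit 397) (nat_lit 5) (nat_lit 420) (nat_lit 5) (nat_lit 421) (nat_lit 5) (nat_lit 419) (nat_lit 364) (nat_lit 357))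 (XT.nd (nat_lit 78) (nat_lit 0) (nat_lit 0) (XT.lf (nat_lit 0) (nat_lit 364727665) (nat_lit 1140) (nat_lit 5133783027) (nat_lit 76) (nat_lit 1750161114) (nat_lit 382) (nat_lit 5) (nat_lit 397) (nat_lit 5) (nat_lit 383) (nat_lit 5) (nat_lit 420) (nat_lit 364) (nat_lit 356)) (XT.lf (nat_lit 0) (nat_lit 3562640199) (nat_lit 1140) (nat_lit 80110818) (nat_lit 76) (nat_lit 3649652166) (nat_lit 382) (nat_lit 5) (nat_lit 397) (nat_lit 5) (nat_lit 383) (nat_lit 5) (nat_lit 421) (nat_lit 364) (nat_lit 355))))) (XT.nd (nat_lit 234) (nat_lit 1824) (nat_lit 0) (XT.nd (nat_lit 78) (nat_lit 1748) (nat_lit 0) (XT.lf (nat_lit 0) (nat_lit 5077997825) (nat_lit 912) (nat_lit 1718437215) (nat_lit 988) (nat_lit 541167726) (nat_lit 370) (nat_lit 5) (nat_lit 382) (nat_lit 5) (nat_lit 383) (nat_lit 5) (nat_lit 422) (nat_lit 364) (nat_lit 354)) (XT.nd (nat_lit 78) (nat_lit 836) (nat_lit 0) (XT.lf (nat_lit 0) (nat_lit 2636225870) (nat_lit 912)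 (nat_lit 4472414537) (nat_lit 76) (nat_lit 275533009) (nat_lit 358) (nat_lit 5) (nat_lit 370) (nat_lit 5) (nat_lit 359) (nat_lit 5) (nat_lit 423) (nat_lit 364) (nat_lit 353)) (XT.lf (nat_lit 0) (nat_lit 715683851) (nat_lit 836) (nat_lit 5125605738) (nat_lit 912) (nat_lit 1590917189) (nat_lit 347) (nat_lit 5) (nat_lit 358) (nat_lit 5) (nat_lit 359) (nat_lit 5) (nat_lit 424) (nat_lit 364) (nat_lit 352)))) (XT.nd (nat_lit 78) (nat_lit 1748) (nat_lit 0) (XT.lf (nat_lit 0) (nat_lit 1578506241) (nat_lit 912) (nat_lit 1488050622) (nat_lit 76) (nat_lit 4415049013) (nat_lit 346) (nat_lit 5) (nat_lit 358) (nat_lit 5) (nat_lit 347) (nat_lit 5) (nat_lit 425) (nat_lit 364) (nat_lit 351)) (XT.nd (nat_lit 78) (nat_lit 912) (nat_lit 0) (XT.lf (nat_lit 0) (nat_lit 3820997668) (nat_lit 836) (nat_lit 935424308) (nat_lit 912) (nat_lit 2776061006) (nat_lit 335) (nat_lit 5) (nat_lit 346) (nat_lit 5) (nat_lit 347) (nat_lit 5) (nat_lit 426)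 (nat_lit 364) (nat_lit 350)) (XT.lf (nat_lit 0) (nat_lit 378769499) (nat_lit 912) (nat_lit 5966403710) (nat_lit 76) (nat_lit 1239764600) (nat_lit 323) (nat_lit 5) (nat_lit 335) (nat_lit 5) (nat_lit 324) (nat_lit 5) (nat_lit 427) (nat_lit 364) (nat_lit 349))))))) (XT.nd (nat_lit 858) (nat_lit 4788) (nat_lit 0) (XT.nd (nat_lit 390) (nat_lit 2888) (nat_lit 0) (XT.nd (nat_lit 156) (nat_lit 1596) (nat_lit 0) (XT.nd (nat_lit 78) (nat_lit 760) (nat_lit 0) (XT.lf (nat_lit 0) (nat_lit 3533416161) (nat_lit 912) (nat_lit 621889203) (nat_lit 76) (nat_lit 3483318381) (nat_lit 323) (nat_lit 5) (nat_lit 335) (nat_lit 5) (nat_lit 324) (nat_lit 5) (nat_lit 428) (nat_lit 364) (nat_lit 348)) (XT.lf (nat_lit 0) (nat_lit 4829457403) (nat_lit 760) (nat_lit 1896770503) (nat_lit 836) (nat_lit 967680354) (nat_lit 313) (nat_lit 5) (nat_lit 323) (nat_lit 5) (nat_lit 324) (nat_lit 5) (nat_lit 429) (nat_lit 364) (nat_lit 347))) (XT.nd (nat_lit 78)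 (nat_lit 760) (nat_lit 0) (XT.lf (nat_lit 0) (nat_lit 2171268408) (nat_lit 836) (nat_lit 5149634756) (nat_lit 76) (nat_lit 429771634) (nat_lit 302) (nat_lit 5) (nat_lit 313) (nat_lit 5) (nat_lit 303) (nat_lit 5) (nat_lit 430) (nat_lit 364) (nat_lit 346)) (XT.nd (nat_lit 78) (nat_lit 76) (nat_lit 0) (XT.lf (nat_lit 0) (nat_lit 327263152) (nat_lit 684) (nat_lit 5011474917) (nat_lit 760) (nat_lit 2470161473) (nat_lit 293) (nat_lit 5) (nat_lit 302) (nat_lit 5) (nat_lit 303) (nat_lit 5) (nat_lit 431) (nat_lit 364) (nat_lit 345)) (XT.lf (nat_lit 0) (nat_lit 671792010) (nat_lit 760) (nat_lit 1953616496) (nat_lit 76) (nat_lit 5243218615) (nat_lit 292) (nat_lit 5) (nat_lit 302) (nat_lit 5) (nat_lit 293) (nat_lit 5) (nat_lit 432) (nat_lit 364) (nat_lit 344))))) (XT.nd (nat_lit 234) (nat_lit 1368) (nat_lit 0) (XT.nd (nat_lit 78) (nat_lit 760) (nat_lit 0) (XT.lf (nat_lit 0) (nat_lit 3653044292) (nat_lit 760) (nat_lit 160228727)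 (nat_lit 836) (nat_lit 4116577755) (nat_lit 282) (nat_lit 5) (nat_lit 292) (nat_lit 5) (nat_lit 293) (nat_lit 5) (nat_lit 433) (nat_lit 364) (nat_lit 343)) (XT.nd (nat_lit 78) (nat_lit 76) (nat_lit 0) (XT.lf (nat_lit 0) (nat_lit 1344463964) (nat_lit 684) (nat_lit 5656931901) (nat_lit 760) (nat_lit 991249690) (nat_lit 273) (nat_lit 5) (nat_lit 282) (nat_lit 5) (nat_lit 283) (nat_lit 5) (nat_lit 434) (nat_lit 364) (nat_lit 342)) (XT.lf (nat_lit 0) (nat_lit 2144590328) (nat_lit 760) (nat_lit 999888734) (nat_lit 76) (nat_lit 4912417662) (nat_lit 272) (nat_lit 5) (nat_lit 282) (nat_lit 5) (nat_lit 273) (nat_lit 5) (nat_lit 435) (nat_lit 364) (nat_lit 341)))) (XT.nd (nat_lit 78) (nat_lit 684) (nat_lit 0) (XT.lf (nat_lit 0) (nat_lit 4754031183) (nat_lit 684) (nat_lit 554626957) (nat_lit 760) (nat_lit 2814089636) (nat_lit 263) (nat_lit 5) (nat_lit 272) (nat_lit 5) (nat_lit 273) (nat_lit 5) (nat_lit 436) (nat_lit 364) (nat_lit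 340)) (XT.nd (nat_lit 78) (nat_lit 0) (nat_lit 0) (XT.lf (nat_lit 0) (nat_lit 325767832) (nat_lit 684) (nat_lit 5791383679) (nat_lit 76) (nat_lit 2073055827) (nat_lit 254) (nat_lit 5) (nat_lit 263) (nat_lit 5) (nat_lit 255) (nat_lit 5) (nat_lit 437) (nat_lit 364) (nat_lit 339)) (XT.lf (nat_lit 0) (nat_lit 3465894290) (nat_lit 684) (nat_lit 17614522) (nat_lit 76) (nat_lit 4775652538) (nat_lit 254) (nat_lit 5) (nat_lit 263) (nat_lit 5) (nat_lit 255) (nat_lit 5) (nat_lit 438) (nat_lit 364) (nat_lit 338)))))) (XT.nd (nat_lit 390) (nat_lit 2280) (nat_lit 0) (XT.nd (nat_lit 156) (nat_lit 1216) (nat_lit 0) (XT.nd (nat_lit 78) (nat_lit 684) (nat_lit 0) (XT.lf (nat_lit 0) (nat_lit 5886111729) (nat_lit 608) (nat_lit 770622878) (nat_lit 684) (nat_lit 1673021544) (nat_lit 246) (nat_lit 5) (nat_lit 254) (nat_lit 5) (nat_lit 255) (nat_lit 5) (nat_lit 439) (nat_lit 364) (nat_lit 337)) (XT.lf (nat_lit 0) (nat_lit 1475560540) (nat_lit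 684) (nat_lit 4935995867) (nat_lit 76) (nat_lit 1990314955) (nat_lit 237) (nat_lit 5) (nat_lit 246) (nat_lit 5) (nat_lit 238) (nat_lit 5) (nat_lit 440) (nat_lit 364) (nat_lit 336))) (XT.nd (nat_lit 78) (nat_lit 608) (nat_lit 0) (XT.lf (nat_lit 0) (nat_lit 984735344) (nat_lit 608) (nat_lit 3658420562) (nat_lit 684) (nat_lit 3832501715) (nat_lit 229) (nat_lit 5) (nat_lit 237) (nat_lit 5) (nat_lit 238) (nat_lit 5) (nat_lit 441) (nat_lit 364) (nat_lit 335)) (XT.nd (nat_lit 78) (nat_lit 608) (nat_lit 0) (XT.lf (nat_lit 0) (nat_lit 7027710544) (nat_lit 608) (nat_lit 830497096) (nat_lit 684) (nat_lit 693048291) (nat_lit 229) (nat_lit 5) (nat_lit 237) (nat_lit 5) (nat_lit 238) (nat_lit 5) (nat_lit 442) (nat_lit 364) (nat_lit 334)) (XT.lf (nat_lit 0) (nat_lit 2470942092) (nat_lit 608) (nat_lit 4098003937) (nat_lit 76) (nat_lit 2059218924) (nat_lit 221) (nat_lit 5) (nat_lit 229) (nat_lit 5) (nat_lit 222) (nat_lit 5) (nat_lit 443)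 (nat_lit 364) (nat_lit 333))))) (XT.nd (nat_lit 234) (nat_lit 1064) (nat_lit 0) (XT.nd (nat_lit 78) (nat_lit 608) (nat_lit 0) (XT.lf (nat_lit 0) (nat_lit 1971916601) (nat_lit 608) (nat_lit 3697678579) (nat_lit 684) (nat_lit 3037329451) (nat_lit 213) (nat_lit 5) (nat_lit 221) (nat_lit 5) (nat_lit 222) (nat_lit 5) (nat_lit 444) (nat_lit 364) (nat_lit 332)) (XT.nd (nat_lit 78) (nat_lit 532) (nat_lit 0) (XT.lf (nat_lit 0) (nat_lit 123005264) (nat_lit 684) (nat_lit 632258479) (nat_lit 76) (nat_lit 8032394723) (nat_lit 212) (nat_lit 5) (nat_lit 221) (nat_lit 5) (nat_lit 213) (nat_lit 5) (nat_lit 445) (nat_lit 364) (nat_lit 331)) (XT.lf (nat_lit 0) (nat_lit 3310223976) (nat_lit 608) (nat_lit 3300998218) (nat_lit 76) (nat_lit 2258312658) (nat_lit 205) (nat_lit 5) (nat_lit 213) (nat_lit 5) (nat_lit 206) (nat_lit 5) (nat_lit 446) (nat_lit 364) (nat_lit 330)))) (XT.nd (nat_lit 78) (nat_lit 532) (nat_lit 0) (XT.lf (nat_lit 0) (nat_lit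 2919812094) (nat_lit 532) (nat_lit 3623222487) (nat_lit 608) (nat_lit 2410393266) (nat_lit 198) (nat_lit 5) (nat_lit 205) (nat_lit 5) (nat_lit 206) (nat_lit 5) (nat_lit 447) (nat_lit 364) (nat_lit 329)) (XT.nd (nat_lit 78) (nat_lit 0) (nat_lit 0) (XT.lf (nat_lit 0) (nat_lit 205954542) (nat_lit 456) (nat_lit 562476778) (nat_lit 532) (nat_lit 8270929905) (nat_lit 191) (nat_lit 5) (nat_lit 197) (nat_lit 5) (nat_lit 198) (nat_lit 5) (nat_lit 448) (nat_lit 364) (nat_lit 328)) (XT.lf (nat_lit 0) (nat_lit 3990161894) (nat_lit 532) (nat_lit 2569983419) (nat_lit 76) (nat_lit 2566332318) (nat_lit 191) (nat_lit 5) (nat_lit 198) (nat_lit 5) (nat_lit 192) (nat_lit 5) (nat_lit 449) (nat_lit 364) (nat_lit 327))))))))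
noncomputable def xc54 : XT := (XT.nd (nat_lit 1638) (nat_lit 4180) (nat_lit 0) (XT.nd (nat_lit 780) (nat_lit 2812) (nat_lit 0) (XT.nd (nat_lit 390) (nat_lit 1368) (nat_lit 0) (XT.nd (nat_lit 156) (nat_lit 988) (nat_lit 0) (XT.nd (nat_lit 78) (nat_lit 532) (nat_lit 0) (XT.lf (nat_lit 0) (nat_lit 3803062575) (nat_lit 532) (nat_lit 3456779312) (nat_lit 608) (nat_lit 1955838993) (nat_lit 184) (nat_lit 5) (nat_lit 191) (nat_lit 5) (nat_lit 192) (nat_lit 5) (nat_lit 450) (nat_lit 364) (nat_lit 326)) (XT.lf (nat_lit 0) (nat_lit 974383197) (nat_lit 456) (nat_lit 275926113) (nat_lit 532) (nat_lit 8056626684) (nat_lit 177) (nat_lit 5) (nat_lit 183) (nat_lit 5) (nat_lit 184) (nat_lit 5) (nat_lit 451) (nat_lit 364) (nat_lit 325))) (XT.nd (nat_lit 78) (nat_lit 988) (nat_lit 0) (XT.lf (nat_lit 0) (nat_lit 4505887864) (nat_lit 532) (nat_lit 1931641623) (nat_lit 76) (nat_lit 2962012200) (nat_lit 177) (nat_lit 5) (nat_lit 184) (nat_lit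 5) (nat_lit 178) (nat_lit 5) (nat_lit 452) (nat_lit 364) (nat_lit 324)) (XT.nd (nat_lit 78) (nat_lit 532) (nat_lit 0) (XT.lf (nat_lit 0) (nat_lit 4594562924) (nat_lit 456) (nat_lit 3220178899) (nat_lit 532) (nat_lit 1679508075) (nat_lit 171) (nat_lit 5) (nat_lit 177) (nat_lit 5) (nat_lit 178) (nat_lit 5) (nat_lit 453) (nat_lit 364) (nat_lit 323)) (XT.lf (nat_lit 0) (nat_lit 1558797827) (nat_lit 532) (nat_lit 7955022974) (nat_lit 76) (nat_lit 77220053) (nat_lit 164) (nat_lit 5) (nat_lit 171) (nat_lit 5) (nat_lit 165) (nat_lit 5) (nat_lit 454) (nat_lit 364) (nat_lit 322))))) (XT.nd (nat_lit 156) (nat_lit 912) (nat_lit 0) (XT.nd (nat_lit 78) (nat_lit 456) (nat_lit 0) (XT.lf (nat_lit 0) (nat_lit 4850827646) (nat_lit 532) (nat_lit 1414615084) (nat_lit 76) (nat_lit 3423886834) (nat_lit 164) (nat_lit 5) (nat_lit 171) (nat_lit 5) (nat_lit 165) (nat_lit 5) (nat_lit 455) (nat_lit 364) (nat_lit 321)) (XT.lf (nat_lit 0) (nat_lit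 5265171872) (nat_lit 456) (nat_lit 2935556743) (nat_lit 532) (nat_lit 1589027464) (nat_lit 158) (nat_lit 5) (nat_lit 164) (nat_lit 5) (nat_lit 165) (nat_lit 5) (nat_lit 456) (nat_lit 364) (nat_lit 320))) (XT.nd (nat_lit 78) (nat_lit 456) (nat_lit 0) (XT.lf (nat_lit 0) (nat_lit 1687496467) (nat_lit 456) (nat_lit 7733284305) (nat_lit 76) (nat_lit 471504660) (nat_lit 152) (nat_lit 5) (nat_lit 158) (nat_lit 5) (nat_lit 153) (nat_lit 5) (nat_lit 457) (nat_lit 364) (nat_lit 319)) (XT.nd (nat_lit 78) (nat_lit 456) (nat_lit 0) (XT.lf (nat_lit 0) (nat_lit 5016602518) (nat_lit 456) (nat_lit 1049811533) (nat_lit 76) (nat_lit 3930086590) (nat_lit 152) (nat_lit 5) (nat_lit 158) (nat_lit 5) (nat_lit 153) (nat_lit 5) (nat_lit 458) (nat_lit 364) (nat_lit 318)) (XT.lf (nat_lit 0) (nat_lit 5783398360) (nat_lit 456) (nat_lit 2625564186) (nat_lit 532) (nat_lit 1693915849) (nat_lit 146) (nat_lit 5) (nat_lit 152) (nat_lit 5) (nat_lit 153)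 (nat_lit 5) (nat_lit 459) (nat_lit 364) (nat_lit 317)))))) (XT.nd (nat_lit 390) (nat_lit 1520) (nat_lit 0) (XT.nd (nat_lit 156) (nat_lit 836) (nat_lit 0) (XT.nd (nat_lit 78) (nat_lit 0) (nat_lit 0) (XT.lf (nat_lit 0) (nat_lit 1624588296) (nat_lit 456) (nat_lit 7698828550) (nat_lit 76) (nat_lit 887991926) (nat_lit 140) (nat_lit 5) (nat_lit 146) (nat_lit 5) (nat_lit 141) (nat_lit 5) (nat_lit 460) (nat_lit 364) (nat_lit 316)) (XT.lf (nat_lit 0) (nat_lit 4992914292) (nat_lit 456) (nat_lit 870734889) (nat_lit 76) (nat_lit 4458124979) (nat_lit 140) (nat_lit 5) (nat_lit 146) (nat_lit 5) (nat_lit 141) (nat_lit 5) (nat_lit 461) (nat_lit 364) (nat_lit 315))) (XT.nd (nat_lit 78) (nat_lit 456) (nat_lit 0) (XT.lf (nat_lit 0) (nat_lit 6115061524) (nat_lit 380) (nat_lit 2313587839) (nat_lit 456) (nat_lit 2005707431) (nat_lit 135) (nat_lit 5) (nat_lit 140) (nat_lit 5) (nat_lit 141) (nat_lit 5) (nat_lit 462) (nat_lit 364) (nat_lit 314))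 (XT.nd (nat_lit 78) (nat_lit 0) (nat_lit 0) (XT.lf (nat_lit 0) (nat_lit 1358015956) (nat_lit 456) (nat_lit 7887831607) (nat_lit 76) (nat_lit 1303329021) (nat_lit 129) (nat_lit 5) (nat_lit 135) (nat_lit 5) (nat_lit 130) (nat_lit 5) (nat_lit 463) (nat_lit 364) (nat_lit 313)) (XT.lf (nat_lit 0) (nat_lit 4767412300) (nat_lit 456) (nat_lit 913844599) (nat_lit 76) (nat_lit 4984675784) (nat_lit 129) (nat_lit 5) (nat_lit 135) (nat_lit 5) (nat_lit 130) (nat_lit 5) (nat_lit 464) (nat_lit 364) (nat_lit 312))))) (XT.nd (nat_lit 234) (nat_lit 760) (nat_lit 0) (XT.nd (nat_lit 78) (nat_lit 380) (nat_lit 0) (XT.lf (nat_lit 0) (nat_lit 6222921011) (nat_lit 380) (nat_lit 2023980201) (nat_lit 456) (nat_lit 2538094568) (nat_lit 124) (nat_lit 5) (nat_lit 129) (nat_lit 5) (nat_lit 130) (nat_lit 5) (nat_lit 465) (nat_lit 364) (nat_lit 311)) (XT.nd (nat_lit 78) (nat_lit 0) (nat_lit 0) (XT.lf (nat_lit 0) (nat_lit 873541579) (nat_lit 380) (nat_lit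 8339747366) (nat_lit 76) (nat_lit 1693131898) (nat_lit 119) (nat_lit 5) (nat_lit 124) (nat_lit 5) (nat_lit 120) (nat_lit 5) (nat_lit 466) (nat_lit 364) (nat_lit 310)) (XT.lf (nat_lit 0) (nat_lit 4325540925) (nat_lit 380) (nat_lit 1218947060) (nat_lit 76) (nat_lit 5485337967) (nat_lit 119) (nat_lit 5) (nat_lit 124) (nat_lit 5) (nat_lit 120) (nat_lit 5) (nat_lit 467) (nat_lit 364) (nat_lit 309)))) (XT.nd (nat_lit 78) (nat_lit 380) (nat_lit 0) (XT.lf (nat_lit 0) (nat_lit 6066274047) (nat_lit 380) (nat_lit 1782303551) (nat_lit 456) (nat_lit 3307090827) (nat_lit 114) (nat_lit 5) (nat_lit 119) (nat_lit 5) (nat_lit 120) (nat_lit 5) (nat_lit 468) (nat_lit 364) (nat_lit 308)) (XT.nd (nat_lit 78) (nat_lit 0) (nat_lit 0) (XT.lf (nat_lit 0) (nat_lit 154577450) (nat_lit 380) (nat_lit 9097728180) (nat_lit 76) (nat_lit 2031738386) (nat_lit 109) (nat_lit 5) (nat_lit 114) (nat_lit 5) (nat_lit 110) (nat_lit 5) (nat_lit 469) (nat_lit 364)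 (nat_lit 307)) (XT.lf (nat_lit 0) (nat_lit 3650366043) (nat_lit 380) (nat_lit 1829622951) (nat_lit 76) (nat_lit 5934386225) (nat_lit 109) (nat_lit 5) (nat_lit 114) (nat_lit 5) (nat_lit 110) (nat_lit 5) (nat_lit 470) (nat_lit 364) (nat_lit 306))))))) (XT.nd (nat_lit 858) (nat_lit 1900) (nat_lit 0) (XT.nd (nat_lit 390) (nat_lit 988) (nat_lit 0) (XT.nd (nat_lit 156) (nat_lit 684) (nat_lit 0) (XT.nd (nat_lit 78) (nat_lit 304) (nat_lit 0) (XT.lf (nat_lit 0) (nat_lit 5600515318) (nat_lit 304) (nat_lit 1615589386) (nat_lit 380) (nat_lit 4331216164) (nat_lit 105) (nat_lit 5) (nat_lit 109) (nat_lit 5) (nat_lit 110) (nat_lit 5) (nat_lit 471) (nat_lit 364) (nat_lit 305)) (XT.lf (nat_lit 0) (nat_lit 1468449967) (nat_lit 304) (nat_lit 9385589440) (nat_lit 380) (nat_lit 828876740) (nat_lit 101) (nat_lit 5) (nat_lit 105) (nat_lit 5) (nat_lit 106) (nat_lit 5) (nat_lit 472) (nat_lit 364) (nat_lit 304))) (XT.nd (nat_lit 78) (nat_lit 608)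 (nat_lit 0) (XT.lf (nat_lit 0) (nat_lit 2722378575) (nat_lit 380) (nat_lit 2793694633) (nat_lit 76) (nat_lit 6304504870) (nat_lit 100) (nat_lit 5) (nat_lit 105) (nat_lit 5) (nat_lit 101) (nat_lit 5) (nat_lit 473) (nat_lit 364) (nat_lit 303)) (XT.nd (nat_lit 78) (nat_lit 304) (nat_lit 0) (XT.lf (nat_lit 0) (nat_lit 4776655371) (nat_lit 304) (nat_lit 1552615791) (nat_lit 380) (nat_lit 5631706150) (nat_lit 96) (nat_lit 5) (nat_lit 100) (nat_lit 5) (nat_lit 101) (nat_lit 5) (nat_lit 474) (nat_lit 364) (nat_lit 302)) (XT.lf (nat_lit 0) (nat_lit 364765076) (nat_lit 304) (nat_lit 9645828033) (nat_lit 380) (nat_lit 2093553299) (nat_lit 92) (nat_lit 5) (nat_lit 96) (nat_lit 5) (nat_lit 97) (nat_lit 5) (nat_lit 475) (nat_lit 364) (nat_lit 301))))) (XT.nd (nat_lit 234) (nat_lit 608) (nat_lit 0) (XT.nd (nat_lit 78) (nat_lit 304) (nat_lit 0) (XT.lf (nat_lit 0) (nat_lit 1519273088) (nat_lit 380) (nat_lit 4163738202) (nat_lit 76) (nat_lit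 6566502530) (nat_lit 91) (nat_lit 5) (nat_lit 96) (nat_lit 5) (nat_lit 92) (nat_lit 5) (nat_lit 476) (nat_lit 364) (nat_lit 300)) (XT.nd (nat_lit 78) (nat_lit 0) (nat_lit 0) (XT.lf (nat_lit 0) (nat_lit 3540792803) (nat_lit 304) (nat_lit 1624205365) (nat_lit 380) (nat_lit 7232747410) (nat_lit 87) (nat_lit 5) (nat_lit 91) (nat_lit 5) (nat_lit 92) (nat_lit 5) (nat_lit 477) (nat_lit 364) (nat_lit 299)) (XT.lf (nat_lit 0) (nat_lit 8893939408) (nat_lit 380) (nat_lit 1164435125) (nat_lit 76) (nat_lit 2490368523) (nat_lit 87) (nat_lit 5) (nat_lit 92) (nat_lit 5) (nat_lit 88) (nat_lit 5) (nat_lit 478) (nat_lit 364) (nat_lit 298)))) (XT.nd (nat_lit 78) (nat_lit 304) (nat_lit 0) (XT.lf (nat_lit 0) (nat_lit 15699192) (nat_lit 304) (nat_lit 5997645219) (nat_lit 76) (nat_lit 6689004989) (nat_lit 83) (nat_lit 5) (nat_lit 87) (nat_lit 5) (nat_lit 84) (nat_lit 5) (nat_lit 479) (nat_lit 364) (nat_lit 297)) (XT.nd (nat_lit 78) (nat_lit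 0) (nat_lit 0) (XT.lf (nat_lit 0) (nat_lit 1833535059) (nat_lit 304) (nat_lit 1863546521) (nat_lit 380) (nat_lit 9161741689) (nat_lit 79) (nat_lit 5) (nat_lit 83) (nat_lit 5) (nat_lit 84) (nat_lit 5) (nat_lit 480) (nat_lit 364) (nat_lit 296)) (XT.lf (nat_lit 0) (nat_lit 7474747869) (nat_lit 380) (nat_lit 3185202465) (nat_lit 76) (nat_lit 2358029731) (nat_lit 79) (nat_lit 5) (nat_lit 84) (nat_lit 5) (nat_lit 80) (nat_lit 5) (nat_lit 481) (nat_lit 364) (nat_lit 295)))))) (XT.nd (nat_lit 390) (nat_lit 1064) (nat_lit 0) (XT.nd (nat_lit 156) (nat_lit 532) (nat_lit 0) (XT.nd (nat_lit 78) (nat_lit 76) (nat_lit 0) (XT.lf (nat_lit 0) (nat_lit 4808913257) (nat_lit 228) (nat_lit 6530029654) (nat_lit 304) (nat_lit 1841164026) (nat_lit 76) (nat_lit 5) (nat_lit 79) (nat_lit 5) (nat_lit 80) (nat_lit 5) (nat_lit 482) (nat_lit 364) (nat_lit 294)) (XT.lf (nat_lit 0) (nat_lit 1898569500) (nat_lit 304) (nat_lit 405252269) (nat_lit 76) (nat_lit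 11041629491) (nat_lit 75) (nat_lit 5) (nat_lit 79) (nat_lit 5) (nat_lit 76) (nat_lit 5) (nat_lit 483) (nat_lit 364) (nat_lit 293))) (XT.nd (nat_lit 78) (nat_lit 228) (nat_lit 0) (XT.lf (nat_lit 0) (nat_lit 5720264340) (nat_lit 380) (nat_lit 5769791586) (nat_lit 76) (nat_lit 2023172821) (nat_lit 71) (nat_lit 5) (nat_lit 76) (nat_lit 5) (nat_lit 72) (nat_lit 5) (nat_lit 484) (nat_lit 364) (nat_lit 292)) (XT.nd (nat_lit 78) (nat_lit 0) (nat_lit 0) (XT.lf (nat_lit 0) (nat_lit 2338993347) (nat_lit 228) (nat_lit 7280855796) (nat_lit 304) (nat_lit 4064489475) (nat_lit 68) (nat_lit 5) (nat_lit 71) (nat_lit 5) (nat_lit 72) (nat_lit 5) (nat_lit 485) (nat_lit 364) (nat_lit 291)) (XT.lf (nat_lit 0) (nat_lit 10635817545) (nat_lit 228) (nat_lit 2968883823) (nat_lit 304) (nat_lit 254029644) (nat_lit 68) (nat_lit 5) (nat_lit 71) (nat_lit 5) (nat_lit 72) (nat_lit 5) (nat_lit 486) (nat_lit 364) (nat_lit 290))))) (XT.nd (nat_lit 234) (nat_lit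 532) (nat_lit 0) (XT.nd (nat_lit 78) (nat_lit 228) (nat_lit 0) (XT.lf (nat_lit 0) (nat_lit 3596286817) (nat_lit 304) (nat_lit 8992716722) (nat_lit 76) (nat_lit 1446915815) (nat_lit 64) (nat_lit 5) (nat_lit 68) (nat_lit 5) (nat_lit 65) (nat_lit 5) (nat_lit 487) (nat_lit 364) (nat_lit 289)) (XT.nd (nat_lit 78) (nat_lit 228) (nat_lit 0) (XT.lf (nat_lit 0) (nat_lit 7530748438) (nat_lit 304) (nat_lit 771262906) (nat_lit 76) (nat_lit 5914401233) (nat_lit 64) (nat_lit 5) (nat_lit 68) (nat_lit 5) (nat_lit 65) (nat_lit 5) (nat_lit 488) (nat_lit 364) (nat_lit 288)) (XT.lf (nat_lit 0) (nat_lit 7664270168) (nat_lit 228) (nat_lit 3899101386) (nat_lit 304) (nat_lit 2836760060) (nat_lit 61) (nat_lit 5) (nat_lit 64) (nat_lit 5) (nat_lit 65) (nat_lit 5) (nat_lit 489) (nat_lit 364) (nat_lit 287)))) (XT.nd (nat_lit 78) (nat_lit 228) (nat_lit 0) (XT.lf (nat_lit 0) (nat_lit 1064427950) (nat_lit 304) (nat_lit 12936325510) (nat_lit 76) (nat_lit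 586843533) (nat_lit 57) (nat_lit 5) (nat_lit 61) (nat_lit 5) (nat_lit 58) (nat_lit 5) (nat_lit 490) (nat_lit 364) (nat_lit 286)) (XT.nd (nat_lit 78) (nat_lit 228) (nat_lit 0) (XT.lf (nat_lit 0) (nat_lit 5046916005) (nat_lit 304) (nat_lit 4576437440) (nat_lit 76) (nat_lit 5154263089) (nat_lit 57) (nat_lit 5) (nat_lit 61) (nat_lit 5) (nat_lit 58) (nat_lit 5) (nat_lit 491) (nat_lit 364) (nat_lit 285)) (XT.lf (nat_lit 0) (nat_lit 3952410921) (nat_lit 228) (nat_lit 5152797328) (nat_lit 304) (nat_lit 5866310112) (nat_lit 54) (nat_lit 5) (nat_lit 57) (nat_lit 5) (nat_lit 58) (nat_lit 5) (nat_lit 492) (nat_lit 364) (nat_lit 284))))))))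
noncomputable def xc55 : XT := (XT.nd (nat_lit 53430) (nat_lit 0) (nat_lit 16796) (XT.nd (nat_lit 780) (nat_lit 380) (nat_lit 0) (XT.nd (nat_lit 390) (nat_lit 532) (nat_lit 0) (XT.nd (nat_lit 156) (nat_lit 380) (nat_lit 0) (XT.nd (nat_lit 78) (nat_lit 304) (nat_lit 0) (XT.lf (nat_lit 0) (nat_lit 12664126449) (nat_lit 228) (nat_lit 581998546) (nat_lit 304) (nat_lit 1923148943) (nat_lit 54) (nat_lit 5) (nat_lit 57) (nat_lit 5) (nat_lit 58) (nat_lit 5) (nat_lit 493) (nat_lit 364) (nat_lit 283)) (XT.lf (nat_lit 0) (nat_lit 2109430942) (nat_lit 304) (nat_lit 9199616716) (nat_lit 76) (nat_lit 4060907466) (nat_lit 50) (nat_lit 5) (nat_lit 54) (nat_lit 5) (nat_lit 51) (nat_lit 5) (nat_lit 494) (nat_lit 364) (nat_lit 282))) (XT.nd (nat_lit 78) (nat_lit 380) (nat_lit 0) (XT.lf (nat_lit 0) (nat_lit 6188957130) (nat_lit 304) (nat_lit 587003552) (nat_lit 76) (nat_lit 8798598703) (nat_lit 50) (nat_lit 5) (nat_lit 54) (nat_lit 5) (nat_lit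 51) (nat_lit 5) (nat_lit 495) (nat_lit 364) (nat_lit 281)) (XT.nd (nat_lit 78) (nat_lit 228) (nat_lit 0) (XT.lf (nat_lit 0) (nat_lit 8257851272) (nat_lit 152) (nat_lit 2117646952) (nat_lit 228) (nat_lit 5407253535) (nat_lit 48) (nat_lit 5) (nat_lit 50) (nat_lit 5) (nat_lit 51) (nat_lit 5) (nat_lit 496) (nat_lit 364) (nat_lit 280)) (XT.lf (nat_lit 0) (nat_lit 1243280934) (nat_lit 228) (nat_lit 13403547119) (nat_lit 304) (nat_lit 1348263194) (nat_lit 45) (nat_lit 5) (nat_lit 48) (nat_lit 5) (nat_lit 49) (nat_lit 5) (nat_lit 497) (nat_lit 364) (nat_lit 279))))) (XT.nd (nat_lit 156) (nat_lit 304) (nat_lit 0) (XT.nd (nat_lit 78) (nat_lit 152) (nat_lit 0) (XT.lf (nat_lit 0) (nat_lit 2792114682) (nat_lit 304) (nat_lit 6002812463) (nat_lit 76) (nat_lit 7415655612) (nat_lit 44) (nat_lit 5) (nat_lit 48) (nat_lit 5) (nat_lit 45) (nat_lit 5) (nat_lit 498) (nat_lit 364) (nat_lit 278)) (XT.lf (nat_lit 0) (nat_lit 2902770157) (nat_lit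 152) (nat_lit 4085859404) (nat_lit 228) (nat_lit 9441752814) (nat_lit 42) (nat_lit 5) (nat_lit 44) (nat_lit 5) (nat_lit 45) (nat_lit 5) (nat_lit 499) (nat_lit 364) (nat_lit 277))) (XT.nd (nat_lit 78) (nat_lit 304) (nat_lit 0) (XT.lf (nat_lit 0) (nat_lit 11286902950) (nat_lit 228) (nat_lit 4638506021) (nat_lit 76) (nat_lit 728816538) (nat_lit 42) (nat_lit 5) (nat_lit 45) (nat_lit 5) (nat_lit 43) (nat_lit 5) (nat_lit 500) (nat_lit 364) (nat_lit 276)) (XT.nd (nat_lit 78) (nat_lit 76) (nat_lit 0) (XT.lf (nat_lit 0) (nat_lit 4412485074) (nat_lit 228) (nat_lit 11287522658) (nat_lit 304) (nat_lit 1181964464) (nat_lit 39) (nat_lit 5) (nat_lit 42) (nat_lit 5) (nat_lit 43) (nat_lit 5) (nat_lit 501) (nat_lit 364) (nat_lit 275)) (XT.lf (nat_lit 0) (nat_lit 3051149225) (nat_lit 304) (nat_lit 3473290522) (nat_lit 76) (nat_lit 10589346326) (nat_lit 38) (nat_lit 5) (nat_lit 42) (nat_lit 5) (nat_lit 39) (nat_lit 5) (nat_lit 502) (nat_lit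 364) (nat_lit 274)))))) (XT.nd (nat_lit 52182) (nat_lit 0) (nat_lit 31160) (XT.nd (nat_lit 156) (nat_lit 228) (nat_lit 0) (XT.nd (nat_lit 78) (nat_lit 0) (nat_lit 0) (XT.lf (nat_lit 0) (nat_lit 5724231900) (nat_lit 152) (nat_lit 1639775875) (nat_lit 228) (nat_lit 9985857793) (nat_lit 36) (nat_lit 5) (nat_lit 38) (nat_lit 5) (nat_lit 39) (nat_lit 5) (nat_lit 503) (nat_lit 364) (nat_lit 273)) (XT.lf (nat_lit 0) (nat_lit 11782109371) (nat_lit 228) (nat_lit 2505212410) (nat_lit 76) (nat_lit 3302968857) (nat_lit 36) (nat_lit 5) (nat_lit 39) (nat_lit 5) (nat_lit 37) (nat_lit 5) (nat_lit 504) (nat_lit 364) (nat_lit 272))) (XT.nd (nat_lit 78) (nat_lit 76) (nat_lit 0) (XT.lf (nat_lit 0) (nat_lit 6831311077) (nat_lit 152) (nat_lit 9486809726) (nat_lit 228) (nat_lit 1516816081) (nat_lit 34) (nat_lit 5) (nat_lit 36) (nat_lit 5) (nat_lit 37) (nat_lit 5) (nat_lit 505) (nat_lit 364) (nat_lit 271)) (XT.nd (nat_lit 51870) (nat_lit 0)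 (nat_lit 37316) (XT.lf (nat_lit 0) (nat_lit 2814160299) (nat_lit 228) (nat_lit 1759387104) (nat_lit 76) (nat_lit 13510734747) (nat_lit 33) (nat_lit 5) (nat_lit 36) (nat_lit 5) (nat_lit 34) (nat_lit 5) (nat_lit 506) (nat_lit 364) (nat_lit 270)) (XT.lf (nat_lit 0) (nat_lit 1409327307) (nat_lit 1292) (nat_lit 1016959913) (nat_lit 1292) (nat_lit 1016959913) (nat_lit 524) (nat_lit 4) (nat_lit 541) (nat_lit 5) (nat_lit 541) (nat_lit 4) (nat_lit 410) (nat_lit 365) (nat_lit 365))))) (XT.nd (nat_lit 234) (nat_lit 3192) (nat_lit 0) (XT.nd (nat_lit 78) (nat_lit 1520) (nat_lit 0) (XT.lf (nat_lit 0) (nat_lit 566364992) (nat_lit 1368) (nat_lit 665794355) (nat_lit 1444) (nat_lit 5685107900) (nat_lit 505) (nat_lit 5) (nat_lit 523) (nat_lit 5) (nat_lit 524) (nat_lit 4) (nat_lit 411) (nat_lit 365) (nat_lit 364)) (XT.nd (nat_lit 78) (nat_lit 1520) (nat_lit 0) (XT.lf (nat_lit 0) (nat_lit 4500311756) (nat_lit 1444) (nat_lit 1681364070) (nat_lit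 0) (nat_lit 767472735) (nat_lit 505) (nat_lit 5) (nat_lit 524) (nat_lit 4) (nat_lit 505) (nat_lit 4) (nat_lit 412) (nat_lit 365) (nat_lit 363)) (XT.lf (nat_lit 0) (nat_lit 797989355) (nat_lit 1520) (nat_lit 3932606511) (nat_lit 76) (nat_lit 2251860727) (nat_lit 485) (nat_lit 5) (nat_lit 505) (nat_lit 5) (nat_lit 486) (nat_lit 4) (nat_lit 413) (nat_lit 365) (nat_lit 362)))) (XT.nd (nat_lit 78) (nat_lit 1672) (nat_lit 0) (XT.lf (nat_lit 0) (nat_lit 814125181) (nat_lit 1520) (nat_lit 3213029538) (nat_lit 1596) (nat_lit 2989987563) (nat_lit 465) (nat_lit 5) (nat_lit 485) (nat_lit 5) (nat_lit 486) (nat_lit 4) (nat_lit 414) (nat_lit 365) (nat_lit 361)) (XT.nd (nat_lit 78) (nat_lit 1596) (nat_lit 0) (XT.lf (nat_lit 0) (nat_lit 225373095) (nat_lit 1596) (nat_lit 1407850866) (nat_lit 76) (nat_lit 5420090214) (nat_lit 464) (nat_lit 5) (nat_lit 485) (nat_lit 5) (nat_lit 465) (nat_lit 5) (nat_lit 415) (nat_lit 365) (nat_lit 360))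 (XT.lf (nat_lit 0) (nat_lit 3422820149) (nat_lit 1672) (nat_lit 3644034285) (nat_lit 76) (nat_lit 23840322) (nat_lit 443) (nat_lit 5) (nat_lit 465) (nat_lit 5) (nat_lit 444) (nat_lit 4) (nat_lit 416) (nat_lit 365) (nat_lit 359))))))) (XT.nd (nat_lit 858) (nat_lit 5244) (nat_lit 0) (XT.nd (nat_lit 390) (nat_lit 4484) (nat_lit 0) (XT.nd (nat_lit 156) (nat_lit 2888) (nat_lit 0) (XT.nd (nat_lit 78) (nat_lit 76) (nat_lit 0) (XT.lf (nat_lit 0) (nat_lit 1231255244) (nat_lit 1672) (nat_lit 5417410184) (nat_lit 1748) (nat_lit 480904643) (nat_lit 421) (nat_lit 5) (nat_lit 443) (nat_lit 5) (nat_lit 444) (nat_lit 4) (nat_lit 417) (nat_lit 365) (nat_lit 358)) (XT.lf (nat_lit 0) (nat_lit 2694618166) (nat_lit 1748) (nat_lit 996624451) (nat_lit 76) (nat_lit 3478432513) (nat_lit 420) (nat_lit 5) (nat_lit 443) (nat_lit 5) (nat_lit 421) (nat_lit 5) (nat_lit 418) (nat_lit 365) (nat_lit 357))) (XT.nd (nat_lit 78) (nat_lit 1140) (nat_lit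 0) (XT.lf (nat_lit 0) (nat_lit 3990295749) (nat_lit 1748) (nat_lit 1900599254) (nat_lit 1824) (nat_lit 1320384080) (nat_lit 397) (nat_lit 5) (nat_lit 420) (nat_lit 5) (nat_lit 421) (nat_lit 5) (nat_lit 419) (nat_lit 365) (nat_lit 356)) (XT.nd (nat_lit 78) (nat_lit 0) (nat_lit 0) (XT.lf (nat_lit 0) (nat_lit 1785537087) (nat_lit 1064) (nat_lit 43435951) (nat_lit 1140) (nat_lit 5425398893) (nat_lit 382) (nat_lit 5) (nat_lit 396) (nat_lit 5) (nat_lit 397) (nat_lit 5) (nat_lit 420) (nat_lit 365) (nat_lit 355)) (XT.lf (nat_lit 0) (nat_lit 4996382927) (nat_lit 1140) (nat_lit 446185503) (nat_lit 76) (nat_lit 1856160801) (nat_lit 382) (nat_lit 5) (nat_lit 397) (nat_lit 5) (nat_lit 383) (nat_lit 5) (nat_lit 421) (nat_lit 365) (nat_lit 354))))) (XT.nd (nat_lit 234) (nat_lit 1824) (nat_lit 0) (XT.nd (nat_lit 78) (nat_lit 1672) (nat_lit 0) (XT.lf (nat_lit 0) (nat_lit 842158413) (nat_lit 988) (nat_lit 2674170389) (nat_lit 76) (nat_lit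 3828149531) (nat_lit 369) (nat_lit 5) (nat_lit 382) (nat_lit 5) (nat_lit 370) (nat_lit 5) (nat_lit 422) (nat_lit 365) (nat_lit 353)) (XT.nd (nat_lit 78) (nat_lit 836) (nat_lit 0) (XT.lf (nat_lit 0) (nat_lit 2458666618) (nat_lit 836) (nat_lit 1519567569) (nat_lit 912) (nat_lit 3413443887) (nat_lit 358) (nat_lit 5) (nat_lit 369) (nat_lit 5) (nat_lit 370) (nat_lit 5) (nat_lit 423) (nat_lit 365) (nat_lit 352)) (XT.lf (nat_lit 0) (nat_lit 227269381) (nat_lit 836) (nat_lit 6913905315) (nat_lit 912) (nat_lit 299393867) (nat_lit 347) (nat_lit 5) (nat_lit 358) (nat_lit 5) (nat_lit 359) (nat_lit 5) (nat_lit 424) (nat_lit 365) (nat_lit 351)))) (XT.nd (nat_lit 78) (nat_lit 1748) (nat_lit 0) (XT.lf (nat_lit 0) (nat_lit 2824169147) (nat_lit 912) (nat_lit 2024682926) (nat_lit 76) (nat_lit 2641540412) (nat_lit 346) (nat_lit 5) (nat_lit 358) (nat_lit 5) (nat_lit 347) (nat_lit 5) (nat_lit 425) (nat_lit 365) (nat_lit 350)) (XT.nd (nat_lit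 78) (nat_lit 912) (nat_lit 0) (XT.lf (nat_lit 0) (nat_lit 3245970225) (nat_lit 836) (nat_lit 2724026438) (nat_lit 912) (nat_lit 1571928510) (nat_lit 335) (nat_lit 5) (nat_lit 346) (nat_lit 5) (nat_lit 347) (nat_lit 5) (nat_lit 426) (nat_lit 365) (nat_lit 349)) (XT.lf (nat_lit 0) (nat_lit 995243668) (nat_lit 836) (nat_lit 531412163) (nat_lit 912) (nat_lit 6068390164) (nat_lit 323) (nat_lit 5) (nat_lit 334) (nat_lit 5) (nat_lit 335) (nat_lit 5) (nat_lit 427) (nat_lit 365) (nat_lit 348)))))) (XT.nd (nat_lit 390) (nat_lit 2888) (nat_lit 0) (XT.nd (nat_lit 156) (nat_lit 1520) (nat_lit 0) (XT.nd (nat_lit 78) (nat_lit 836) (nat_lit 0) (XT.lf (nat_lit 0) (nat_lit 4649988902) (nat_lit 912) (nat_lit 1283222388) (nat_lit 76) (nat_lit 1716159935) (nat_lit 323) (nat_lit 5) (nat_lit 335) (nat_lit 5) (nat_lit 324) (nat_lit 5) (nat_lit 428) (nat_lit 365) (nat_lit 347)) (XT.lf (nat_lit 0) (nat_lit 104239172) (nat_lit 836) (nat_lit 3577834616)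 (nat_lit 76) (nat_lit 4023218408) (nat_lit 312) (nat_lit 5) (nat_lit 323) (nat_lit 5) (nat_lit 313) (nat_lit 5) (nat_lit 429) (nat_lit 365) (nat_lit 346))) (XT.nd (nat_lit 78) (nat_lit 760) (nat_lit 0) (XT.lf (nat_lit 0) (nat_lit 1843341900) (nat_lit 760) (nat_lit 1352218251) (nat_lit 836) (nat_lit 4567083924) (nat_lit 302) (nat_lit 5) (nat_lit 312) (nat_lit 5) (nat_lit 313) (nat_lit 5) (nat_lit 430) (nat_lit 365) (nat_lit 345)) (XT.nd (nat_lit 78) (nat_lit 760) (nat_lit 0) (XT.lf (nat_lit 0) (nat_lit 6325262554) (nat_lit 836) (nat_lit 469177179) (nat_lit 76) (nat_lit 1027196460) (nat_lit 302) (nat_lit 5) (nat_lit 313) (nat_lit 5) (nat_lit 303) (nat_lit 5) (nat_lit 431) (nat_lit 365) (nat_lit 344)) (XT.lf (nat_lit 0) (nat_lit 1602976067) (nat_lit 760) (nat_lit 2806813728) (nat_lit 76) (nat_lit 3472055739) (nat_lit 292) (nat_lit 5) (nat_lit 302) (nat_lit 5) (nat_lit 293) (nat_lit 5) (nat_lit 432) (nat_lit 365) (nat_lit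 343))))) (XT.nd (nat_lit 234) (nat_lit 1368) (nat_lit 0) (XT.nd (nat_lit 78) (nat_lit 760) (nat_lit 0) (XT.lf (nat_lit 0) (nat_lit 2757293876) (nat_lit 760) (nat_lit 1955146179) (nat_lit 836) (nat_lit 3231280808) (nat_lit 282) (nat_lit 5) (nat_lit 292) (nat_lit 5) (nat_lit 293) (nat_lit 5) (nat_lit 433) (nat_lit 365) (nat_lit 342)) (XT.nd (nat_lit 78) (nat_lit 76) (nat_lit 0) (XT.lf (nat_lit 0) (nat_lit 403049632) (nat_lit 684) (nat_lit 7453830406) (nat_lit 760) (nat_lit 150520376) (nat_lit 273) (nat_lit 5) (nat_lit 282) (nat_lit 5) (nat_lit 283) (nat_lit 5) (nat_lit 434) (nat_lit 365) (nat_lit 341)) (XT.lf (nat_lit 0) (nat_lit 2948503770) (nat_lit 760) (nat_lit 1992766103) (nat_lit 76) (nat_lit 3130799013) (nat_lit 272) (nat_lit 5) (nat_lit 282) (nat_lit 5) (nat_lit 273) (nat_lit 5) (nat_lit 435) (nat_lit 365) (nat_lit 340)))) (XT.nd (nat_lit 78) (nat_lit 684) (nat_lit 0) (XT.lf (nat_lit 0) (nat_lit 3716914982) (nat_lit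 684) (nat_lit 2363639074) (nat_lit 760) (nat_lit 2058016703) (nat_lit 263) (nat_lit 5) (nat_lit 272) (nat_lit 5) (nat_lit 273) (nat_lit 5) (nat_lit 436) (nat_lit 365) (nat_lit 339)) (XT.nd (nat_lit 78) (nat_lit 0) (nat_lit 0) (XT.lf (nat_lit 0) (nat_lit 1027804676) (nat_lit 684) (nat_lit 6899063469) (nat_lit 76) (nat_lit 279956464) (nat_lit 254) (nat_lit 5) (nat_lit 263) (nat_lit 5) (nat_lit 255) (nat_lit 5) (nat_lit 437) (nat_lit 365) (nat_lit 338)) (XT.lf (nat_lit 0) (nat_lit 4143027564) (nat_lit 684) (nat_lit 1156341689) (nat_lit 76) (nat_lit 2976917309) (nat_lit 254) (nat_lit 5) (nat_lit 263) (nat_lit 5) (nat_lit 255) (nat_lit 5) (nat_lit 438) (nat_lit 365) (nat_lit 337))))))))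
noncomputable def xc56 : XT := (XT.nd (nat_lit 1638) (nat_lit 4788) (nat_lit 0) (XT.nd (nat_lit 780) (nat_lit 3876) (nat_lit 0) (XT.nd (nat_lit 390) (nat_lit 1824) (nat_lit 0) (XT.nd (nat_lit 156) (nat_lit 1216) (nat_lit 0) (XT.nd (nat_lit 78) (nat_lit 684) (nat_lit 0) (XT.lf (nat_lit 0) (nat_lit 4701408360) (nat_lit 608) (nat_lit 2600352375) (nat_lit 684) (nat_lit 1045772444) (nat_lit 246) (nat_lit 5) (nat_lit 254) (nat_lit 5) (nat_lit 255) (nat_lit 5) (nat_lit 439) (nat_lit 365) (nat_lit 336)) (XT.lf (nat_lit 0) (nat_lit 2050194694) (nat_lit 684) (nat_lit 6195966364) (nat_lit 76) (nat_lit 174302950) (nat_lit 237) (nat_lit 5) (nat_lit 246) (nat_lit 5) (nat_lit 238) (nat_lit 5) (nat_lit 440) (nat_lit 365) (nat_lit 335))) (XT.nd (nat_lit 78) (nat_lit 1216) (nat_lit 0) (XT.lf (nat_lit 0) (nat_lit 5187332587) (nat_lit 684) (nat_lit 318967986) (nat_lit 76) (nat_lit 2988567961) (nat_lit 237) (nat_lit 5) (nat_lit 246) (nat_lit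 5) (nat_lit 238) (nat_lit 5) (nat_lit 441) (nat_lit 365) (nat_lit 334)) (XT.nd (nat_lit 78) (nat_lit 608) (nat_lit 0) (XT.lf (nat_lit 0) (nat_lit 5689153193) (nat_lit 608) (nat_lit 2687341803) (nat_lit 684) (nat_lit 194498571) (nat_lit 229) (nat_lit 5) (nat_lit 237) (nat_lit 5) (nat_lit 238) (nat_lit 5) (nat_lit 442) (nat_lit 365) (nat_lit 333)) (XT.lf (nat_lit 0) (nat_lit 2918169206) (nat_lit 608) (nat_lit 5516563404) (nat_lit 76) (nat_lit 214009512) (nat_lit 221) (nat_lit 5) (nat_lit 229) (nat_lit 5) (nat_lit 222) (nat_lit 5) (nat_lit 443) (nat_lit 365) (nat_lit 332))))) (XT.nd (nat_lit 156) (nat_lit 1140) (nat_lit 0) (XT.nd (nat_lit 78) (nat_lit 76) (nat_lit 0) (XT.lf (nat_lit 0) (nat_lit 503535099) (nat_lit 608) (nat_lit 5580486002) (nat_lit 684) (nat_lit 2644145147) (nat_lit 213) (nat_lit 5) (nat_lit 221) (nat_lit 5) (nat_lit 222) (nat_lit 5) (nat_lit 444) (nat_lit 365) (nat_lit 331)) (XT.lf (nat_lit 0) (nat_lit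 487863965) (nat_lit 684) (nat_lit 2155113277) (nat_lit 76) (nat_lit 6166343258) (nat_lit 212) (nat_lit 5) (nat_lit 221) (nat_lit 5) (nat_lit 213) (nat_lit 5) (nat_lit 445) (nat_lit 365) (nat_lit 330))) (XT.nd (nat_lit 78) (nat_lit 608) (nat_lit 0) (XT.lf (nat_lit 0) (nat_lit 3629779639) (nat_lit 608) (nat_lit 4884524832) (nat_lit 76) (nat_lit 377806412) (nat_lit 205) (nat_lit 5) (nat_lit 213) (nat_lit 5) (nat_lit 206) (nat_lit 5) (nat_lit 446) (nat_lit 365) (nat_lit 329)) (XT.nd (nat_lit 78) (nat_lit 76) (nat_lit 0) (XT.lf (nat_lit 0) (nat_lit 1284550391) (nat_lit 532) (nat_lit 5544911259) (nat_lit 608) (nat_lit 2147212582) (nat_lit 198) (nat_lit 5) (nat_lit 205) (nat_lit 5) (nat_lit 206) (nat_lit 5) (nat_lit 447) (nat_lit 365) (nat_lit 328)) (XT.lf (nat_lit 0) (nat_lit 1004402819) (nat_lit 608) (nat_lit 1487357925) (nat_lit 76) (nat_lit 6571295321) (nat_lit 197) (nat_lit 5) (nat_lit 205) (nat_lit 5) (nat_lit 198) (nat_lit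 5) (nat_lit 448) (nat_lit 365) (nat_lit 327)))))) (XT.nd (nat_lit 390) (nat_lit 1900) (nat_lit 0) (XT.nd (nat_lit 156) (nat_lit 988) (nat_lit 0) (XT.nd (nat_lit 78) (nat_lit 532) (nat_lit 0) (XT.lf (nat_lit 0) (nat_lit 4181528333) (nat_lit 532) (nat_lit 4324954993) (nat_lit 76) (nat_lit 644588577) (nat_lit 191) (nat_lit 5) (nat_lit 198) (nat_lit 5) (nat_lit 192) (nat_lit 5) (nat_lit 449) (nat_lit 365) (nat_lit 326)) (XT.lf (nat_lit 0) (nat_lit 1994376272) (nat_lit 532) (nat_lit 5423295906) (nat_lit 608) (nat_lit 1823280886) (nat_lit 184) (nat_lit 5) (nat_lit 191) (nat_lit 5) (nat_lit 192) (nat_lit 5) (nat_lit 450) (nat_lit 365) (nat_lit 325))) (XT.nd (nat_lit 78) (nat_lit 912) (nat_lit 0) (XT.lf (nat_lit 0) (nat_lit 1353093722) (nat_lit 608) (nat_lit 903306720) (nat_lit 76) (nat_lit 7076358136) (nat_lit 183) (nat_lit 5) (nat_lit 191) (nat_lit 5) (nat_lit 184) (nat_lit 5) (nat_lit 451) (nat_lit 365) (nat_lit 324)) (XT.nd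 (nat_lit 78) (nat_lit 456) (nat_lit 0) (XT.lf (nat_lit 0) (nat_lit 4568299657) (nat_lit 532) (nat_lit 3864654812) (nat_lit 76) (nat_lit 993224027) (nat_lit 177) (nat_lit 5) (nat_lit 184) (nat_lit 5) (nat_lit 178) (nat_lit 5) (nat_lit 452) (nat_lit 365) (nat_lit 323)) (XT.lf (nat_lit 0) (nat_lit 2605784917) (nat_lit 456) (nat_lit 5237346526) (nat_lit 532) (nat_lit 1678442349) (nat_lit 171) (nat_lit 5) (nat_lit 177) (nat_lit 5) (nat_lit 178) (nat_lit 5) (nat_lit 453) (nat_lit 365) (nat_lit 322))))) (XT.nd (nat_lit 234) (nat_lit 912) (nat_lit 0) (XT.nd (nat_lit 78) (nat_lit 912) (nat_lit 0) (XT.lf (nat_lit 0) (nat_lit 1527684084) (nat_lit 532) (nat_lit 430808466) (nat_lit 76) (nat_lit 7660521753) (nat_lit 170) (nat_lit 5) (nat_lit 177) (nat_lit 5) (nat_lit 171) (nat_lit 5) (nat_lit 454) (nat_lit 365) (nat_lit 321)) (XT.nd (nat_lit 78) (nat_lit 456) (nat_lit 0) (XT.lf (nat_lit 0) (nat_lit 4783276503) (nat_lit 532) (nat_lit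 3532404145) (nat_lit 76) (nat_lit 1402357372) (nat_lit 164) (nat_lit 5) (nat_lit 171) (nat_lit 5) (nat_lit 165) (nat_lit 5) (nat_lit 455) (nat_lit 365) (nat_lit 320)) (XT.lf (nat_lit 0) (nat_lit 3089493532) (nat_lit 456) (nat_lit 5009098648) (nat_lit 532) (nat_lit 1720570195) (nat_lit 158) (nat_lit 5) (nat_lit 164) (nat_lit 5) (nat_lit 165) (nat_lit 5) (nat_lit 456) (nat_lit 365) (nat_lit 319)))) (XT.nd (nat_lit 78) (nat_lit 836) (nat_lit 0) (XT.lf (nat_lit 0) (nat_lit 1520151183) (nat_lit 532) (nat_lit 99861164) (nat_lit 76) (nat_lit 8302452914) (nat_lit 157) (nat_lit 5) (nat_lit 164) (nat_lit 5) (nat_lit 158) (nat_lit 5) (nat_lit 457) (nat_lit 365) (nat_lit 318)) (XT.nd (nat_lit 78) (nat_lit 456) (nat_lit 0) (XT.lf (nat_lit 0) (nat_lit 4817841172) (nat_lit 456) (nat_lit 3359266720) (nat_lit 76) (nat_lit 1850206681) (nat_lit 152) (nat_lit 5) (nat_lit 158) (nat_lit 5) (nat_lit 153) (nat_lit 5) (nat_lit 458) (nat_lit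 365) (nat_lit 317)) (XT.lf (nat_lit 0) (nat_lit 3413851067) (nat_lit 456) (nat_lit 4761125718) (nat_lit 532) (nat_lit 1959425698) (nat_lit 146) (nat_lit 5) (nat_lit 152) (nat_lit 5) (nat_lit 153) (nat_lit 5) (nat_lit 459) (nat_lit 365) (nat_lit 316))))))) (XT.nd (nat_lit 780) (nat_lit 2356) (nat_lit 0) (XT.nd (nat_lit 390) (nat_lit 1140) (nat_lit 0) (XT.nd (nat_lit 156) (nat_lit 836) (nat_lit 0) (XT.nd (nat_lit 78) (nat_lit 0) (nat_lit 0) (XT.lf (nat_lit 0) (nat_lit 57826507) (nat_lit 380) (nat_lit 1263142110) (nat_lit 456) (nat_lit 8922836010) (nat_lit 140) (nat_lit 5) (nat_lit 145) (nat_lit 5) (nat_lit 146) (nat_lit 5) (nat_lit 460) (nat_lit 365) (nat_lit 315)) (XT.lf (nat_lit 0) (nat_lit 4661459556) (nat_lit 456) (nat_lit 3378920556) (nat_lit 76) (nat_lit 2314351945) (nat_lit 140) (nat_lit 5) (nat_lit 146) (nat_lit 5) (nat_lit 141) (nat_lit 5) (nat_lit 461) (nat_lit 365) (nat_lit 314))) (XT.nd (nat_lit 78) (nat_lit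 456) (nat_lit 0) (XT.lf (nat_lit 0) (nat_lit 3544498486) (nat_lit 380) (nat_lit 4516757418) (nat_lit 456) (nat_lit 2406782797) (nat_lit 135) (nat_lit 5) (nat_lit 140) (nat_lit 5) (nat_lit 141) (nat_lit 5) (nat_lit 462) (nat_lit 365) (nat_lit 313)) (XT.nd (nat_lit 78) (nat_lit 0) (nat_lit 0) (XT.lf (nat_lit 0) (nat_lit 4758364) (nat_lit 380) (nat_lit 912375119) (nat_lit 456) (nat_lit 9666683468) (nat_lit 129) (nat_lit 5) (nat_lit 134) (nat_lit 5) (nat_lit 135) (nat_lit 5) (nat_lit 463) (nat_lit 365) (nat_lit 312)) (XT.lf (nat_lit 0) (nat_lit 4301547326) (nat_lit 456) (nat_lit 3628017075) (nat_lit 76) (nat_lit 2771513233) (nat_lit 129) (nat_lit 5) (nat_lit 135) (nat_lit 5) (nat_lit 130) (nat_lit 5) (nat_lit 464) (nat_lit 365) (nat_lit 311))))) (XT.nd (nat_lit 156) (nat_lit 684) (nat_lit 0) (XT.nd (nat_lit 78) (nat_lit 76) (nat_lit 0) (XT.lf (nat_lit 0) (nat_lit 3443999300) (nat_lit 380) (nat_lit 4300309279) (nat_lit 456)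 (nat_lit 3076571543) (nat_lit 124) (nat_lit 5) (nat_lit 129) (nat_lit 5) (nat_lit 130) (nat_lit 5) (nat_lit 465) (nat_lit 365) (nat_lit 310)) (XT.lf (nat_lit 0) (nat_lit 295621043) (nat_lit 456) (nat_lit 295455200) (nat_lit 76) (nat_lit 10352233631) (nat_lit 123) (nat_lit 5) (nat_lit 129) (nat_lit 5) (nat_lit 124) (nat_lit 5) (nat_lit 466) (nat_lit 365) (nat_lit 309))) (XT.nd (nat_lit 78) (nat_lit 380) (nat_lit 0) (XT.lf (nat_lit 0) (nat_lit 3723316700) (nat_lit 380) (nat_lit 4146572368) (nat_lit 76) (nat_lit 3197316547) (nat_lit 119) (nat_lit 5) (nat_lit 124) (nat_lit 5) (nat_lit 120) (nat_lit 5) (nat_lit 467) (nat_lit 365) (nat_lit 308)) (XT.nd (nat_lit 78) (nat_lit 0) (nat_lit 0) (XT.lf (nat_lit 0) (nat_lit 3071436781) (nat_lit 380) (nat_lit 4137325677) (nat_lit 456) (nat_lit 3985041917) (nat_lit 114) (nat_lit 5) (nat_lit 119) (nat_lit 5) (nat_lit 120) (nat_lit 5) (nat_lit 468) (nat_lit 365) (nat_lit 307)) (XT.lf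 (nat_lit 0) (nat_lit 10433958285) (nat_lit 380) (nat_lit 321483505) (nat_lit 456) (nat_lit 567671680) (nat_lit 114) (nat_lit 5) (nat_lit 119) (nat_lit 5) (nat_lit 120) (nat_lit 5) (nat_lit 469) (nat_lit 365) (nat_lit 306)))))) (XT.nd (nat_lit 390) (nat_lit 988) (nat_lit 0) (XT.nd (nat_lit 156) (nat_lit 684) (nat_lit 0) (XT.nd (nat_lit 78) (nat_lit 304) (nat_lit 0) (XT.lf (nat_lit 0) (nat_lit 2909602159) (nat_lit 380) (nat_lit 4978394422) (nat_lit 76) (nat_lit 3566045215) (nat_lit 109) (nat_lit 5) (nat_lit 114) (nat_lit 5) (nat_lit 110) (nat_lit 5) (nat_lit 470) (nat_lit 365) (nat_lit 305)) (XT.lf (nat_lit 0) (nat_lit 2381973940) (nat_lit 304) (nat_lit 4054838464) (nat_lit 380) (nat_lit 5150949738) (nat_lit 105) (nat_lit 5) (nat_lit 109) (nat_lit 5) (nat_lit 110) (nat_lit 5) (nat_lit 471) (nat_lit 365) (nat_lit 304))) (XT.nd (nat_lit 78) (nat_lit 684) (nat_lit 0) (XT.lf (nat_lit 0) (nat_lit 9901731872) (nat_lit 304) (nat_lit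 130966274) (nat_lit 380) (nat_lit 1691504302) (nat_lit 105) (nat_lit 5) (nat_lit 109) (nat_lit 5) (nat_lit 110) (nat_lit 5) (nat_lit 472) (nat_lit 365) (nat_lit 303)) (XT.nd (nat_lit 78) (nat_lit 304) (nat_lit 0) (XT.lf (nat_lit 0) (nat_lit 1840663301) (nat_lit 380) (nat_lit 6171550487) (nat_lit 76) (nat_lit 3850374522) (nat_lit 100) (nat_lit 5) (nat_lit 105) (nat_lit 5) (nat_lit 101) (nat_lit 5) (nat_lit 473) (nat_lit 365) (nat_lit 302)) (XT.lf (nat_lit 0) (nat_lit 1326371950) (nat_lit 304) (nat_lit 4081643618) (nat_lit 380) (nat_lit 6595766596) (nat_lit 96) (nat_lit 5) (nat_lit 100) (nat_lit 5) (nat_lit 101) (nat_lit 5) (nat_lit 474) (nat_lit 365) (nat_lit 301))))) (XT.nd (nat_lit 234) (nat_lit 608) (nat_lit 0) (XT.nd (nat_lit 78) (nat_lit 380) (nat_lit 0) (XT.lf (nat_lit 0) (nat_lit 9003374501) (nat_lit 304) (nat_lit 50459128) (nat_lit 380) (nat_lit 3093831448) (nat_lit 96) (nat_lit 5) (nat_lit 100) (nat_lit 5) (nat_lit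 101) (nat_lit 5) (nat_lit 475) (nat_lit 365) (nat_lit 300)) (XT.nd (nat_lit 78) (nat_lit 0) (nat_lit 0) (XT.lf (nat_lit 0) (nat_lit 493962771) (nat_lit 380) (nat_lit 7778879142) (nat_lit 76) (nat_lit 4021087082) (nat_lit 91) (nat_lit 5) (nat_lit 96) (nat_lit 5) (nat_lit 92) (nat_lit 5) (nat_lit 476) (nat_lit 365) (nat_lit 299)) (XT.lf (nat_lit 0) (nat_lit 4100031748) (nat_lit 380) (nat_lit 147576471) (nat_lit 76) (nat_lit 8195349179) (nat_lit 91) (nat_lit 5) (nat_lit 96) (nat_lit 5) (nat_lit 92) (nat_lit 5) (nat_lit 477) (nat_lit 365) (nat_lit 298)))) (XT.nd (nat_lit 78) (nat_lit 304) (nat_lit 0) (XT.lf (nat_lit 0) (nat_lit 7684075178) (nat_lit 304) (nat_lit 111029988) (nat_lit 380) (nat_lit 4799530522) (nat_lit 87) (nat_lit 5) (nat_lit 91) (nat_lit 5) (nat_lit 92) (nat_lit 5) (nat_lit 478) (nat_lit 365) (nat_lit 297)) (XT.nd (nat_lit 78) (nat_lit 76) (nat_lit 0) (XT.lf (nat_lit 0) (nat_lit 2882925348) (nat_lit 228)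 (nat_lit 8694711182) (nat_lit 304) (nat_lit 1171446724) (nat_lit 84) (nat_lit 5) (nat_lit 87) (nat_lit 5) (nat_lit 88) (nat_lit 5) (nat_lit 479) (nat_lit 365) (nat_lit 296)) (XT.lf (nat_lit 0) (nat_lit 2497180213) (nat_lit 304) (nat_lit 2077819293) (nat_lit 76) (nat_lit 8331275372) (nat_lit 83) (nat_lit 5) (nat_lit 87) (nat_lit 5) (nat_lit 84) (nat_lit 5) (nat_lit 480) (nat_lit 365) (nat_lit 295))))))))
noncomputable def xc57 : XT := (XT.nd (nat_lit 1638) (nat_lit 684) (nat_lit 0) (XT.nd (nat_lit 780) (nat_lit 1444) (nat_lit 0) (XT.nd (nat_lit 390) (nat_lit 760) (nat_lit 0) (XT.nd (nat_lit 156) (nat_lit 380) (nat_lit 0) (XT.nd (nat_lit 78) (nat_lit 228) (nat_lit 0) (XT.lf (nat_lit 0) (nat_lit 5883407098) (nat_lit 304) (nat_lit 346189181) (nat_lit 380) (nat_lit 6836743591) (nat_lit 79) (nat_lit 5) (nat_lit 83) (nat_lit 5) (nat_lit 84) (nat_lit 5) (nat_lit 481) (nat_lit 365) (nat_lit 294)) (XT.lf (nat_lit 0) (nat_lit 734021807)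 (nat_lit 228) (nat_lit 9315248290) (nat_lit 304) (nat_lit 3180090198) (nat_lit 76) (nat_lit 5) (nat_lit 79) (nat_lit 5) (nat_lit 80) (nat_lit 5) (nat_lit 482) (nat_lit 365) (nat_lit 293))) (XT.nd (nat_lit 78) (nat_lit 304) (nat_lit 0) (XT.lf (nat_lit 0) (nat_lit 561422773) (nat_lit 304) (nat_lit 4546711675) (nat_lit 76) (nat_lit 8287062659) (nat_lit 75) (nat_lit 5) (nat_lit 79) (nat_lit 5) (nat_lit 76) (nat_lit 5) (nat_lit 483) (nat_lit 365) (nat_lit 292)) (XT.nd (nat_lit 78) (nat_lit 0) (nat_lit 0) (XT.lf (nat_lit 0) (nat_lit 3534679803) (nat_lit 304) (nat_lit 792241885) (nat_lit 380) (nat_lit 9237179773) (nat_lit 71) (nat_lit 5) (nat_lit 75) (nat_lit 5) (nat_lit 76) (nat_lit 5) (nat_lit 484) (nat_lit 365) (nat_lit 291)) (XT.lf (nat_lit 0) (nat_lit 8190779041) (nat_lit 380) (nat_lit 1971744002) (nat_lit 76) (nat_lit 3573405730) (nat_lit 71) (nat_lit 5) (nat_lit 76) (nat_lit 5) (nat_lit 72) (nat_lit 5) (nat_lit 485)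 (nat_lit 365) (nat_lit 290))))) (XT.nd (nat_lit 156) (nat_lit 228) (nat_lit 0) (XT.nd (nat_lit 78) (nat_lit 304) (nat_lit 0) (XT.lf (nat_lit 0) (nat_lit 6273470292) (nat_lit 228) (nat_lit 5873928533) (nat_lit 304) (nat_lit 1763489825) (nat_lit 68) (nat_lit 5) (nat_lit 71) (nat_lit 5) (nat_lit 72) (nat_lit 5) (nat_lit 486) (nat_lit 365) (nat_lit 289)) (XT.lf (nat_lit 0) (nat_lit 564226604) (nat_lit 228) (nat_lit 1488671126) (nat_lit 304) (nat_lit 12036452509) (nat_lit 64) (nat_lit 5) (nat_lit 67) (nat_lit 5) (nat_lit 68) (nat_lit 5) (nat_lit 487) (nat_lit 365) (nat_lit 288))) (XT.nd (nat_lit 78) (nat_lit 228) (nat_lit 0) (XT.lf (nat_lit 0) (nat_lit 5962699227) (nat_lit 304) (nat_lit 5319186606) (nat_lit 76) (nat_lit 2988453502) (nat_lit 64) (nat_lit 5) (nat_lit 68) (nat_lit 5) (nat_lit 65) (nat_lit 5) (nat_lit 488) (nat_lit 365) (nat_lit 287)) (XT.nd (nat_lit 78) (nat_lit 0) (nat_lit 0) (XT.lf (nat_lit 0) (nat_lit 3030890401)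 (nat_lit 228) (nat_lit 6919648295) (nat_lit 304) (nat_lit 4504417967) (nat_lit 61) (nat_lit 5) (nat_lit 64) (nat_lit 5) (nat_lit 65) (nat_lit 5) (nat_lit 489) (nat_lit 365) (nat_lit 286)) (XT.lf (nat_lit 0) (nat_lit 11570529333) (nat_lit 228) (nat_lit 2453865406) (nat_lit 304) (nat_lit 618751588) (nat_lit 61) (nat_lit 5) (nat_lit 64) (nat_lit 5) (nat_lit 65) (nat_lit 5) (nat_lit 490) (nat_lit 365) (nat_lit 285)))))) (XT.nd (nat_lit 390) (nat_lit 608) (nat_lit 0) (XT.nd (nat_lit 156) (nat_lit 532) (nat_lit 0) (XT.nd (nat_lit 78) (nat_lit 0) (nat_lit 0) (XT.lf (nat_lit 0) (nat_lit 3320963378) (nat_lit 304) (nat_lit 9401818802) (nat_lit 76) (nat_lit 2111484265) (nat_lit 57) (nat_lit 5) (nat_lit 61) (nat_lit 5) (nat_lit 58) (nat_lit 5) (nat_lit 491) (nat_lit 365) (nat_lit 284)) (XT.lf (nat_lit 0) (nat_lit 7339272824) (nat_lit 304) (nat_lit 949110092) (nat_lit 76) (nat_lit 6740587430) (nat_lit 57) (nat_lit 5) (nat_lit 61)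 (nat_lit 5) (nat_lit 58) (nat_lit 5) (nat_lit 492) (nat_lit 365) (nat_lit 283))) (XT.nd (nat_lit 78) (nat_lit 304) (nat_lit 0) (XT.lf (nat_lit 0) (nat_lit 7725849078) (nat_lit 228) (nat_lit 3733899275) (nat_lit 304) (nat_lit 3767388767) (nat_lit 54) (nat_lit 5) (nat_lit 57) (nat_lit 5) (nat_lit 58) (nat_lit 5) (nat_lit 493) (nat_lit 365) (nat_lit 282)) (XT.nd (nat_lit 78) (nat_lit 0) (nat_lit 0) (XT.lf (nat_lit 0) (nat_lit 221592309) (nat_lit 304) (nat_lit 14312414061) (nat_lit 76) (nat_lit 895409423) (nat_lit 50) (nat_lit 5) (nat_lit 54) (nat_lit 5) (nat_lit 51) (nat_lit 5) (nat_lit 494) (nat_lit 365) (nat_lit 281)) (XT.lf (nat_lit 0) (nat_lit 4287162524) (nat_lit 304) (nat_lit 5723718623) (nat_lit 76) (nat_lit 5623420261) (nat_lit 50) (nat_lit 5) (nat_lit 54) (nat_lit 5) (nat_lit 51) (nat_lit 5) (nat_lit 495) (nat_lit 365) (nat_lit 280))))) (XT.nd (nat_lit 234) (nat_lit 152) (nat_lit 0) (XT.nd (nat_lit 78) (nat_lit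 304) (nat_lit 0) (XT.lf (nat_lit 0) (nat_lit 3029111589) (nat_lit 152) (nat_lit 5396961257) (nat_lit 228) (nat_lit 7417375742) (nat_lit 48) (nat_lit 5) (nat_lit 50) (nat_lit 5) (nat_lit 51) (nat_lit 5) (nat_lit 496) (nat_lit 365) (nat_lit 279)) (XT.nd (nat_lit 78) (nat_lit 304) (nat_lit 0) (XT.lf (nat_lit 0) (nat_lit 11987530063) (nat_lit 152) (nat_lit 671238592) (nat_lit 228) (nat_lit 3397794249) (nat_lit 48) (nat_lit 5) (nat_lit 50) (nat_lit 5) (nat_lit 51) (nat_lit 5) (nat_lit 497) (nat_lit 365) (nat_lit 278)) (XT.lf (nat_lit 0) (nat_lit 724553828) (nat_lit 304) (nat_lit 11436899267) (nat_lit 76) (nat_lit 4111767718) (nat_lit 44) (nat_lit 5) (nat_lit 48) (nat_lit 5) (nat_lit 45) (nat_lit 5) (nat_lit 498) (nat_lit 365) (nat_lit 277)))) (XT.nd (nat_lit 78) (nat_lit 152) (nat_lit 0) (XT.lf (nat_lit 0) (nat_lit 4888884347) (nat_lit 304) (nat_lit 2592458559) (nat_lit 76) (nat_lit 9012323236) (nat_lit 44) (nat_lit 5) (nat_lit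 48) (nat_lit 5) (nat_lit 45) (nat_lit 5) (nat_lit 499) (nat_lit 365) (nat_lit 276)) (XT.nd (nat_lit 78) (nat_lit 0) (nat_lit 0) (XT.lf (nat_lit 0) (nat_lit 6468009331) (nat_lit 152) (nat_lit 2684072971) (nat_lit 228) (nat_lit 7566130467) (nat_lit 42) (nat_lit 5) (nat_lit 44) (nat_lit 5) (nat_lit 45) (nat_lit 5) (nat_lit 500) (nat_lit 365) (nat_lit 275)) (XT.lf (nat_lit 0) (nat_lit 13506084186) (nat_lit 228) (nat_lit 1262326009) (nat_lit 76) (nat_lit 2178733265) (nat_lit 42) (nat_lit 5) (nat_lit 45) (nat_lit 5) (nat_lit 43) (nat_lit 5) (nat_lit 501) (nat_lit 365) (nat_lit 274))))))) (XT.nd (nat_lit 52494) (nat_lit 0) (nat_lit 24624) (XT.nd (nat_lit 52026) (nat_lit 0) (nat_lit 34352) (XT.nd (nat_lit 156) (nat_lit 380) (nat_lit 0) (XT.nd (nat_lit 78) (nat_lit 0) (nat_lit 0) (XT.lf (nat_lit 0) (nat_lit 800317523) (nat_lit 304) (nat_lit 9238187549) (nat_lit 76) (nat_lit 7141174792) (nat_lit 38) (nat_lit 5) (nat_lit 42) (nat_lit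 5) (nat_lit 39) (nat_lit 5) (nat_lit 502) (nat_lit 365) (nat_lit 273)) (XT.lf (nat_lit 0) (nat_lit 5063260021) (nat_lit 304) (nat_lit 137989924) (nat_lit 76) (nat_lit 12215509568) (nat_lit 38) (nat_lit 5) (nat_lit 42) (nat_lit 5) (nat_lit 39) (nat_lit 5) (nat_lit 503) (nat_lit 365) (nat_lit 272))) (XT.nd (nat_lit 78) (nat_lit 228) (nat_lit 0) (XT.lf (nat_lit 0) (nat_lit 9221083167) (nat_lit 152) (nat_lit 224996517) (nat_lit 228) (nat_lit 8211812334) (nat_lit 36) (nat_lit 5) (nat_lit 38) (nat_lit 5) (nat_lit 39) (nat_lit 5) (nat_lit 504) (nat_lit 365) (nat_lit 271)) (XT.nd (nat_lit 78) (nat_lit 76) (nat_lit 0) (XT.lf (nat_lit 0) (nat_lit 800216434) (nat_lit 152) (nat_lit 13128799650) (nat_lit 228) (nat_lit 3974585443) (nat_lit 34) (nat_lit 5) (nat_lit 36) (nat_lit 5) (nat_lit 37) (nat_lit 5) (nat_lit 505) (nat_lit 365) (nat_lit 270)) (XT.lf (nat_lit 0) (nat_lit 376188417) (nat_lit 228) (nat_lit 7865072211) (nat_lit 76)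 (nat_lit 9912255741) (nat_lit 33) (nat_lit 5) (nat_lit 36) (nat_lit 5) (nat_lit 34) (nat_lit 5) (nat_lit 506) (nat_lit 365) (nat_lit 269))))) (XT.nd (nat_lit 234) (nat_lit 2964) (nat_lit 0) (XT.nd (nat_lit 78) (nat_lit 1292) (nat_lit 0) (XT.lf (nat_lit 0) (nat_lit 130761528) (nat_lit 1292) (nat_lit 3152934988) (nat_lit 0) (nat_lit 130761528) (nat_lit 541) (nat_lit 5) (nat_lit 558) (nat_lit 4) (nat_lit 541) (nat_lit 4) (nat_lit 408) (nat_lit 366) (nat_lit 366)) (XT.nd (nat_lit 78) (nat_lit 1292) (nat_lit 0) (XT.lf (nat_lit 0) (nat_lit 3513165273) (nat_lit 1292) (nat_lit 1791967066) (nat_lit 0) (nat_lit 1552116446) (nat_lit 541) (nat_lit 5) (nat_lit 558) (nat_lit 4) (nat_lit 541) (nat_lit 4) (nat_lit 409) (nat_lit 366) (nat_lit 365)) (XT.lf (nat_lit 0) (nat_lit 2788328997) (nat_lit 1292) (nat_lit 3991256552) (nat_lit 1292) (nat_lit 107610835) (nat_lit 524) (nat_lit 4) (nat_lit 541) (nat_lit 5) (nat_lit 541) (nat_lit 4)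 (nat_lit 410) (nat_lit 366) (nat_lit 364)))) (XT.nd (nat_lit 78) (nat_lit 1520) (nat_lit 0) (XT.lf (nat_lit 0) (nat_lit 491652296) (nat_lit 1368) (nat_lit 2607455092) (nat_lit 1444) (nat_lit 3819314312) (nat_lit 505) (nat_lit 5) (nat_lit 523) (nat_lit 5) (nat_lit 524) (nat_lit 4) (nat_lit 411) (nat_lit 366) (nat_lit 363)) (XT.nd (nat_lit 78) (nat_lit 1520) (nat_lit 0) (XT.lf (nat_lit 0) (nat_lit 5168222398) (nat_lit 1368) (nat_lit 1160840540) (nat_lit 1444) (nat_lit 622024143) (nat_lit 505) (nat_lit 5) (nat_lit 523) (nat_lit 5) (nat_lit 524) (nat_lit 4) (nat_lit 412) (nat_lit 366) (nat_lit 362)) (XT.lf (nat_lit 0) (nat_lit 2559722298) (nat_lit 1520) (nat_lit 4072685200) (nat_lit 76) (nat_lit 352592162) (nat_lit 485) (nat_lit 5) (nat_lit 505) (nat_lit 5) (nat_lit 486) (nat_lit 4) (nat_lit 413) (nat_lit 366) (nat_lit 361)))))) (XT.nd (nat_lit 390) (nat_lit 4788) (nat_lit 0) (XT.nd (nat_lit 156) (nat_lit 3344) (nat_lit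 0) (XT.nd (nat_lit 78) (nat_lit 76) (nat_lit 0) (XT.lf (nat_lit 0) (nat_lit 641430790) (nat_lit 1520) (nat_lit 5114069343) (nat_lit 1596) (nat_lit 1264871934) (nat_lit 465) (nat_lit 5) (nat_lit 485) (nat_lit 5) (nat_lit 486) (nat_lit 4) (nat_lit 414) (nat_lit 366) (nat_lit 360)) (XT.lf (nat_lit 0) (nat_lit 1895805009) (nat_lit 1596) (nat_lit 1625571017) (nat_lit 76) (nat_lit 3535603325) (nat_lit 464) (nat_lit 5) (nat_lit 485) (nat_lit 5) (nat_lit 465) (nat_lit 5) (nat_lit 415) (nat_lit 366) (nat_lit 359))) (XT.nd (nat_lit 78) (nat_lit 1748) (nat_lit 0) (XT.lf (nat_lit 0) (nat_lit 3195812819) (nat_lit 1596) (nat_lit 1864222775) (nat_lit 1672) (nat_lit 2035006542) (nat_lit 443) (nat_lit 5) (nat_lit 464) (nat_lit 5) (nat_lit 465) (nat_lit 5) (nat_lit 416) (nat_lit 366) (nat_lit 358)) (XT.nd (nat_lit 78) (nat_lit 0) (nat_lit 0) (XT.lf (nat_lit 0) (nat_lit 945787524) (nat_lit 1672) (nat_lit 146803567) (nat_lit 1748) (nat_lit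 6042079238) (nat_lit 420) (nat_lit 5) (nat_lit 442) (nat_lit 5) (nat_lit 443) (nat_lit 5) (nat_lit 417) (nat_lit 366) (nat_lit 357)) (XT.lf (nat_lit 0) (nat_lit 4230046287) (nat_lit 1748) (nat_lit 1320031254) (nat_lit 76) (nat_lit 1625287454) (nat_lit 420) (nat_lit 5) (nat_lit 443) (nat_lit 5) (nat_lit 421) (nat_lit 5) (nat_lit 418) (nat_lit 366) (nat_lit 356))))) (XT.nd (nat_lit 234) (nat_lit 1900) (nat_lit 0) (XT.nd (nat_lit 78) (nat_lit 1064) (nat_lit 0) (XT.lf (nat_lit 0) (nat_lit 173847993) (nat_lit 1824) (nat_lit 3586656577) (nat_lit 76) (nat_lit 3457108590) (nat_lit 396) (nat_lit 5) (nat_lit 420) (nat_lit 5) (nat_lit 397) (nat_lit 5) (nat_lit 419) (nat_lit 366) (nat_lit 355)) (XT.nd (nat_lit 78) (nat_lit 0) (nat_lit 0) (XT.lf (nat_lit 0) (nat_lit 1375629790) (nat_lit 1064) (nat_lit 1897578525) (nat_lit 1140) (nat_lit 3987995704) (nat_lit 382) (nat_lit 5) (nat_lit 396) (nat_lit 5) (nat_lit 397) (nat_lit 5) (nat_lit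 420) (nat_lit 366) (nat_lit 354)) (XT.lf (nat_lit 0) (nat_lit 6398951813) (nat_lit 1140) (nat_lit 881577626) (nat_lit 76) (nat_lit 25880770) (nat_lit 382) (nat_lit 5) (nat_lit 397) (nat_lit 5) (nat_lit 383) (nat_lit 5) (nat_lit 421) (nat_lit 366) (nat_lit 353)))) (XT.nd (nat_lit 78) (nat_lit 912) (nat_lit 0) (XT.lf (nat_lit 0) (nat_lit 2186414911) (nat_lit 988) (nat_lit 3163020008) (nat_lit 76) (nat_lit 2003204962) (nat_lit 369) (nat_lit 5) (nat_lit 382) (nat_lit 5) (nat_lit 370) (nat_lit 5) (nat_lit 422) (nat_lit 366) (nat_lit 352)) (XT.nd (nat_lit 78) (nat_lit 76) (nat_lit 0) (XT.lf (nat_lit 0) (nat_lit 1932628176) (nat_lit 836) (nat_lit 3357570830) (nat_lit 912) (nat_lit 2110301112) (nat_lit 358) (nat_lit 5) (nat_lit 369) (nat_lit 5) (nat_lit 370) (nat_lit 5) (nat_lit 423) (nat_lit 366) (nat_lit 351)) (XT.lf (nat_lit 0) (nat_lit 956912721) (nat_lit 912) (nat_lit 344087025) (nat_lit 76) (nat_lit 6148948054) (nat_lit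 357) (nat_lit 5) (nat_lit 369) (nat_lit 5) (nat_lit 358) (nat_lit 5) (nat_lit 424) (nat_lit 366) (nat_lit 350))))))))
noncomputable def xc58 : XT := (XT.nd (nat_lit 1638) (nat_lit 6688) (nat_lit 0) (XT.nd (nat_lit 780) (nat_lit 5244) (nat_lit 0) (XT.nd (nat_lit 390) (nat_lit 2356) (nat_lit 0) (XT.nd (nat_lit 156) (nat_lit 1748) (nat_lit 0) (XT.nd (nat_lit 78) (nat_lit 836) (nat_lit 0) (XT.lf (nat_lit 0) (nat_lit 4037468697) (nat_lit 912) (nat_lit 2634372049) (nat_lit 76) (nat_lit 828687524) (nat_lit 346) (nat_lit 5) (nat_lit 358) (nat_lit 5) (nat_lit 347) (nat_lit 5) (nat_lit 425) (nat_lit 366) (nat_lit 349)) (XT.lf (nat_lit 0) (nat_lit 2597528087) (nat_lit 836) (nat_lit 4553759225) (nat_lit 912) (nat_lit 401427370) (nat_lit 335) (nat_lit 5) (nat_lit 346) (nat_lit 5) (nat_lit 347) (nat_lit 5) (nat_lit 426) (nat_lit 366) (nat_lit 348))) (XT.nd (nat_lit 78) (nat_lit 836) (nat_lit 0) (XT.lf (nat_lit 0) (nat_lit 288716149)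 (nat_lit 836) (nat_lit 2360858545) (nat_lit 912) (nat_lit 4956766458) (nat_lit 323) (nat_lit 5) (nat_lit 334) (nat_lit 5) (nat_lit 335) (nat_lit 5) (nat_lit 427) (nat_lit 366) (nat_lit 347)) (XT.nd (nat_lit 78) (nat_lit 836) (nat_lit 0) (XT.lf (nat_lit 0) (nat_lit 5640907885) (nat_lit 836) (nat_lit 93411416) (nat_lit 912) (nat_lit 1927131616) (nat_lit 323) (nat_lit 5) (nat_lit 334) (nat_lit 5) (nat_lit 335) (nat_lit 5) (nat_lit 428) (nat_lit 366) (nat_lit 346)) (XT.lf (nat_lit 0) (nat_lit 1129766879) (nat_lit 836) (nat_lit 4374394104) (nat_lit 76) (nat_lit 2213737143) (nat_lit 312) (nat_lit 5) (nat_lit 323) (nat_lit 5) (nat_lit 313) (nat_lit 5) (nat_lit 429) (nat_lit 366) (nat_lit 345))))) (XT.nd (nat_lit 156) (nat_lit 1596) (nat_lit 0) (XT.nd (nat_lit 78) (nat_lit 0) (nat_lit 0) (XT.lf (nat_lit 0) (nat_lit 1005459727) (nat_lit 760) (nat_lit 3183549974) (nat_lit 836) (nat_lit 3586893898) (nat_lit 302) (nat_lit 5) (nat_lit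 312) (nat_lit 5) (nat_lit 313) (nat_lit 5) (nat_lit 430) (nat_lit 366) (nat_lit 344)) (XT.lf (nat_lit 0) (nat_lit 6491335725) (nat_lit 760) (nat_lit 794307101) (nat_lit 836) (nat_lit 549926070) (nat_lit 302) (nat_lit 5) (nat_lit 312) (nat_lit 5) (nat_lit 313) (nat_lit 5) (nat_lit 431) (nat_lit 366) (nat_lit 343))) (XT.nd (nat_lit 78) (nat_lit 836) (nat_lit 0) (XT.lf (nat_lit 0) (nat_lit 2499857349) (nat_lit 760) (nat_lit 3739301522) (nat_lit 76) (nat_lit 1657250870) (nat_lit 292) (nat_lit 5) (nat_lit 302) (nat_lit 5) (nat_lit 293) (nat_lit 5) (nat_lit 432) (nat_lit 366) (nat_lit 342)) (XT.nd (nat_lit 78) (nat_lit 76) (nat_lit 0) (XT.lf (nat_lit 0) (nat_lit 1781811220) (nat_lit 760) (nat_lit 3795489170) (nat_lit 836) (nat_lit 2381636212) (nat_lit 282) (nat_lit 5) (nat_lit 292) (nat_lit 5) (nat_lit 293) (nat_lit 5) (nat_lit 433) (nat_lit 366) (nat_lit 341)) (XT.lf (nat_lit 0) (nat_lit 658114778) (nat_lit 836) (nat_lit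 624160849) (nat_lit 76) (nat_lit 6740897231) (nat_lit 281) (nat_lit 5) (nat_lit 292) (nat_lit 5) (nat_lit 282) (nat_lit 5) (nat_lit 434) (nat_lit 366) (nat_lit 340)))))) (XT.nd (nat_lit 390) (nat_lit 2584) (nat_lit 0) (XT.nd (nat_lit 156) (nat_lit 1292) (nat_lit 0) (XT.nd (nat_lit 78) (nat_lit 684) (nat_lit 0) (XT.lf (nat_lit 0) (nat_lit 3717422043) (nat_lit 760) (nat_lit 3067387491) (nat_lit 76) (nat_lit 1303777577) (nat_lit 272) (nat_lit 5) (nat_lit 282) (nat_lit 5) (nat_lit 273) (nat_lit 5) (nat_lit 435) (nat_lit 366) (nat_lit 339)) (XT.lf (nat_lit 0) (nat_lit 2597577132) (nat_lit 684) (nat_lit 4219839597) (nat_lit 760) (nat_lit 1338323636) (nat_lit 263) (nat_lit 5) (nat_lit 272) (nat_lit 5) (nat_lit 273) (nat_lit 5) (nat_lit 436) (nat_lit 366) (nat_lit 338))) (XT.nd (nat_lit 78) (nat_lit 608) (nat_lit 0) (XT.lf (nat_lit 0) (nat_lit 122716675) (nat_lit 608) (nat_lit 1581126088) (nat_lit 684) (nat_lit 6520752186) (nat_lit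 254) (nat_lit 5) (nat_lit 262) (nat_lit 5) (nat_lit 263) (nat_lit 5) (nat_lit 437) (nat_lit 366) (nat_lit 337)) (XT.nd (nat_lit 78) (nat_lit 608) (nat_lit 0) (XT.lf (nat_lit 0) (nat_lit 4784384667) (nat_lit 684) (nat_lit 2379329381) (nat_lit 76) (nat_lit 1131046148) (nat_lit 254) (nat_lit 5) (nat_lit 263) (nat_lit 5) (nat_lit 255) (nat_lit 5) (nat_lit 438) (nat_lit 366) (nat_lit 336)) (XT.lf (nat_lit 0) (nat_lit 3431929454) (nat_lit 608) (nat_lit 4479009551) (nat_lit 684) (nat_lit 455720871) (nat_lit 246) (nat_lit 5) (nat_lit 254) (nat_lit 5) (nat_lit 255) (nat_lit 5) (nat_lit 439) (nat_lit 366) (nat_lit 335))))) (XT.nd (nat_lit 234) (nat_lit 1216) (nat_lit 0) (XT.nd (nat_lit 78) (nat_lit 684) (nat_lit 0) (XT.lf (nat_lit 0) (nat_lit 885685409) (nat_lit 608) (nat_lit 1713149912) (nat_lit 684) (nat_lit 5841361327) (nat_lit 237) (nat_lit 5) (nat_lit 245) (nat_lit 5) (nat_lit 246) (nat_lit 5) (nat_lit 440) (nat_lit 366)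 (nat_lit 334)) (XT.nd (nat_lit 78) (nat_lit 684) (nat_lit 0) (XT.lf (nat_lit 0) (nat_lit 5701258231) (nat_lit 684) (nat_lit 1696603536) (nat_lit 76) (nat_lit 1117442643) (nat_lit 237) (nat_lit 5) (nat_lit 246) (nat_lit 5) (nat_lit 238) (nat_lit 5) (nat_lit 441) (nat_lit 366) (nat_lit 333)) (XT.lf (nat_lit 0) (nat_lit 262458981) (nat_lit 684) (nat_lit 4330617883) (nat_lit 76) (nat_lit 3998974565) (nat_lit 228) (nat_lit 5) (nat_lit 237) (nat_lit 5) (nat_lit 229) (nat_lit 5) (nat_lit 442) (nat_lit 366) (nat_lit 332)))) (XT.nd (nat_lit 78) (nat_lit 684) (nat_lit 0) (XT.lf (nat_lit 0) (nat_lit 1634168283) (nat_lit 532) (nat_lit 1704237294) (nat_lit 608) (nat_lit 5332060978) (nat_lit 221) (nat_lit 5) (nat_lit 228) (nat_lit 5) (nat_lit 229) (nat_lit 5) (nat_lit 443) (nat_lit 366) (nat_lit 331)) (XT.nd (nat_lit 78) (nat_lit 684) (nat_lit 0) (XT.lf (nat_lit 0) (nat_lit 6467111888) (nat_lit 608) (nat_lit 1041703337) (nat_lit 76)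 (nat_lit 1241826623) (nat_lit 221) (nat_lit 5) (nat_lit 229) (nat_lit 5) (nat_lit 222) (nat_lit 5) (nat_lit 444) (nat_lit 366) (nat_lit 330)) (XT.lf (nat_lit 0) (nat_lit 814136292) (nat_lit 684) (nat_lit 3769181358) (nat_lit 76) (nat_lit 4249031828) (nat_lit 212) (nat_lit 5) (nat_lit 221) (nat_lit 5) (nat_lit 213) (nat_lit 5) (nat_lit 445) (nat_lit 366) (nat_lit 329))))))) (XT.nd (nat_lit 780) (nat_lit 3040) (nat_lit 0) (XT.nd (nat_lit 390) (nat_lit 1520) (nat_lit 0) (XT.nd (nat_lit 156) (nat_lit 1596) (nat_lit 0) (XT.nd (nat_lit 78) (nat_lit 0) (nat_lit 0) (XT.lf (nat_lit 0) (nat_lit 2344723693) (nat_lit 532) (nat_lit 1575760595) (nat_lit 608) (nat_lit 4995374707) (nat_lit 205) (nat_lit 5) (nat_lit 212) (nat_lit 5) (nat_lit 213) (nat_lit 5) (nat_lit 446) (nat_lit 366) (nat_lit 328)) (XT.lf (nat_lit 0) (nat_lit 7079525273) (nat_lit 608) (nat_lit 438370755) (nat_lit 76) (nat_lit 1483346766) (nat_lit 205) (nat_lit 5) (nat_lit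 213) (nat_lit 5) (nat_lit 206) (nat_lit 5) (nat_lit 447) (nat_lit 366) (nat_lit 327))) (XT.nd (nat_lit 78) (nat_lit 988) (nat_lit 0) (XT.lf (nat_lit 0) (nat_lit 1202056638) (nat_lit 608) (nat_lit 3271974529) (nat_lit 76) (nat_lit 4614069187) (nat_lit 197) (nat_lit 5) (nat_lit 205) (nat_lit 5) (nat_lit 198) (nat_lit 5) (nat_lit 448) (nat_lit 366) (nat_lit 326)) (XT.nd (nat_lit 78) (nat_lit 532) (nat_lit 0) (XT.lf (nat_lit 0) (nat_lit 2992506728) (nat_lit 456) (nat_lit 1348951890) (nat_lit 532) (nat_lit 4835419234) (nat_lit 191) (nat_lit 5) (nat_lit 197) (nat_lit 5) (nat_lit 198) (nat_lit 5) (nat_lit 449) (nat_lit 366) (nat_lit 325)) (XT.lf (nat_lit 0) (nat_lit 89328005) (nat_lit 532) (nat_lit 7445781687) (nat_lit 608) (nat_lit 1732506223) (nat_lit 184) (nat_lit 5) (nat_lit 191) (nat_lit 5) (nat_lit 192) (nat_lit 5) (nat_lit 450) (nat_lit 366) (nat_lit 324))))) (XT.nd (nat_lit 156) (nat_lit 988) (nat_lit 0) (XT.nd (nat_lit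 78) (nat_lit 456) (nat_lit 0) (XT.lf (nat_lit 0) (nat_lit 1421394691) (nat_lit 608) (nat_lit 2865108742) (nat_lit 76) (nat_lit 5073338645) (nat_lit 183) (nat_lit 5) (nat_lit 191) (nat_lit 5) (nat_lit 184) (nat_lit 5) (nat_lit 451) (nat_lit 366) (nat_lit 323)) (XT.lf (nat_lit 0) (nat_lit 3551007956) (nat_lit 456) (nat_lit 1045095575) (nat_lit 532) (nat_lit 4857975048) (nat_lit 177) (nat_lit 5) (nat_lit 183) (nat_lit 5) (nat_lit 184) (nat_lit 5) (nat_lit 452) (nat_lit 366) (nat_lit 322))) (XT.nd (nat_lit 78) (nat_lit 532) (nat_lit 0) (XT.lf (nat_lit 0) (nat_lit 517668898) (nat_lit 456) (nat_lit 7312227742) (nat_lit 532) (nat_lit 1720404521) (nat_lit 171) (nat_lit 5) (nat_lit 177) (nat_lit 5) (nat_lit 178) (nat_lit 5) (nat_lit 453) (nat_lit 366) (nat_lit 321)) (XT.nd (nat_lit 78) (nat_lit 456) (nat_lit 0) (XT.lf (nat_lit 0) (nat_lit 1465652658) (nat_lit 532) (nat_lit 2576567888) (nat_lit 76) (nat_lit 5605945225) (nat_lit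 170) (nat_lit 5) (nat_lit 177) (nat_lit 5) (nat_lit 171) (nat_lit 5) (nat_lit 454) (nat_lit 366) (nat_lit 320)) (XT.lf (nat_lit 0) (nat_lit 3991772545) (nat_lit 456) (nat_lit 685726103) (nat_lit 532) (nat_lit 5070571902) (nat_lit 164) (nat_lit 5) (nat_lit 170) (nat_lit 5) (nat_lit 171) (nat_lit 5) (nat_lit 455) (nat_lit 366) (nat_lit 319)))))) (XT.nd (nat_lit 390) (nat_lit 1596) (nat_lit 0) (XT.nd (nat_lit 156) (nat_lit 912) (nat_lit 0) (XT.nd (nat_lit 78) (nat_lit 76) (nat_lit 0) (XT.lf (nat_lit 0) (nat_lit 811394906) (nat_lit 456) (nat_lit 7142118123) (nat_lit 532) (nat_lit 1896473918) (nat_lit 158) (nat_lit 5) (nat_lit 164) (nat_lit 5) (nat_lit 165) (nat_lit 5) (nat_lit 456) (nat_lit 366) (nat_lit 318)) (XT.lf (nat_lit 0) (nat_lit 1326566681) (nat_lit 532) (nat_lit 2436503631) (nat_lit 76) (nat_lit 6190647901) (nat_lit 157) (nat_lit 5) (nat_lit 164) (nat_lit 5) (nat_lit 158) (nat_lit 5) (nat_lit 457) (nat_lit 366)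 (nat_lit 317))) (XT.nd (nat_lit 78) (nat_lit 532) (nat_lit 0) (XT.lf (nat_lit 0) (nat_lit 4284097025) (nat_lit 380) (nat_lit 292832559) (nat_lit 456) (nat_lit 5482590150) (nat_lit 152) (nat_lit 5) (nat_lit 157) (nat_lit 5) (nat_lit 158) (nat_lit 5) (nat_lit 458) (nat_lit 366) (nat_lit 316)) (XT.nd (nat_lit 78) (nat_lit 76) (nat_lit 0) (XT.lf (nat_lit 0) (nat_lit 938687988) (nat_lit 456) (nat_lit 6957954819) (nat_lit 532) (nat_lit 2270718841) (nat_lit 146) (nat_lit 5) (nat_lit 152) (nat_lit 5) (nat_lit 153) (nat_lit 5) (nat_lit 459) (nat_lit 366) (nat_lit 315)) (XT.lf (nat_lit 0) (nat_lit 993996997) (nat_lit 532) (nat_lit 2477554985) (nat_lit 76) (nat_lit 6805652797) (nat_lit 145) (nat_lit 5) (nat_lit 152) (nat_lit 5) (nat_lit 146) (nat_lit 5) (nat_lit 460) (nat_lit 366) (nat_lit 314))))) (XT.nd (nat_lit 234) (nat_lit 760) (nat_lit 0) (XT.nd (nat_lit 78) (nat_lit 456) (nat_lit 0) (XT.lf (nat_lit 0) (nat_lit 4284492902)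 (nat_lit 456) (nat_lit 5995171164) (nat_lit 76) (nat_lit 109473280) (nat_lit 140) (nat_lit 5) (nat_lit 146) (nat_lit 5) (nat_lit 141) (nat_lit 5) (nat_lit 461) (nat_lit 366) (nat_lit 313)) (XT.nd (nat_lit 78) (nat_lit 76) (nat_lit 0) (XT.lf (nat_lit 0) (nat_lit 865003889) (nat_lit 380) (nat_lit 6783016813) (nat_lit 456) (nat_lit 2855153793) (nat_lit 135) (nat_lit 5) (nat_lit 140) (nat_lit 5) (nat_lit 141) (nat_lit 5) (nat_lit 462) (nat_lit 366) (nat_lit 312)) (XT.lf (nat_lit 0) (nat_lit 455800647) (nat_lit 456) (nat_lit 2735195293) (nat_lit 76) (nat_lit 7428396807) (nat_lit 134) (nat_lit 5) (nat_lit 140) (nat_lit 5) (nat_lit 135) (nat_lit 5) (nat_lit 463) (nat_lit 366) (nat_lit 311)))) (XT.nd (nat_lit 78) (nat_lit 380) (nat_lit 0) (XT.lf (nat_lit 0) (nat_lit 3788621239) (nat_lit 456) (nat_lit 6453645419) (nat_lit 76) (nat_lit 495423476) (nat_lit 129) (nat_lit 5) (nat_lit 135) (nat_lit 5) (nat_lit 130) (nat_lit 5) (nat_lit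 464) (nat_lit 366) (nat_lit 310)) (XT.nd (nat_lit 78) (nat_lit 0) (nat_lit 0) (XT.lf (nat_lit 0) (nat_lit 552702871) (nat_lit 380) (nat_lit 6641588723) (nat_lit 456) (nat_lit 3663947587) (nat_lit 124) (nat_lit 5) (nat_lit 129) (nat_lit 5) (nat_lit 130) (nat_lit 5) (nat_lit 465) (nat_lit 366) (nat_lit 309)) (XT.lf (nat_lit 0) (nat_lit 7730976360) (nat_lit 380) (nat_lit 2943766652) (nat_lit 456) (nat_lit 306332238) (nat_lit 124) (nat_lit 5) (nat_lit 129) (nat_lit 5) (nat_lit 130) (nat_lit 5) (nat_lit 466) (nat_lit 366) (nat_lit 308))))))))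
noncomputable def xc59 : XT := (XT.nd (nat_lit 1638) (nat_lit 2508) (nat_lit 0) (XT.nd (nat_lit 780) (nat_lit 1900) (nat_lit 0) (XT.nd (nat_lit 390) (nat_lit 1292) (nat_lit 0) (XT.nd (nat_lit 156) (nat_lit 760) (nat_lit 0) (XT.nd (nat_lit 78) (nat_lit 0) (nat_lit 0) (XT.lf (nat_lit 0) (nat_lit 3072392172) (nat_lit 380) (nat_lit 7189177122) (nat_lit 76) (nat_lit 844505721) (nat_lit 119) (nat_lit 5) (nat_lit 124) (nat_lit 5) (nat_lit 120) (nat_lit 5) (nat_lit 467) (nat_lit 366) (nat_lit 307)) (XT.lf (nat_lit 0) (nat_lit 6520105495) (nat_lit 380) (nat_lit 38836818) (nat_lit 76) (nat_lit 4674490494) (nat_lit 119) (nat_lit 5) (nat_lit 124) (nat_lit 5) (nat_lit 120) (nat_lit 5) (nat_lit 468) (nat_lit 366) (nat_lit 306))) (XT.nd (nat_lit 78) (nat_lit 380) (nat_lit 0) (XT.lf (nat_lit 0) (nat_lit 7295962337) (nat_lit 380) (nat_lit 2752948547) (nat_lit 456) (nat_lit 1314192791) (nat_lit 114) (nat_lit 5) (nat_lit 119) (nat_lit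 5) (nat_lit 120) (nat_lit 5) (nat_lit 469) (nat_lit 366) (nat_lit 305)) (XT.nd (nat_lit 78) (nat_lit 0) (nat_lit 0) (XT.lf (nat_lit 0) (nat_lit 2118407346) (nat_lit 380) (nat_lit 8245808802) (nat_lit 76) (nat_lit 1131006210) (nat_lit 109) (nat_lit 5) (nat_lit 114) (nat_lit 5) (nat_lit 110) (nat_lit 5) (nat_lit 470) (nat_lit 366) (nat_lit 304)) (XT.lf (nat_lit 0) (nat_lit 5612866443) (nat_lit 380) (nat_lit 943698257) (nat_lit 76) (nat_lit 5073037075) (nat_lit 109) (nat_lit 5) (nat_lit 114) (nat_lit 5) (nat_lit 110) (nat_lit 5) (nat_lit 471) (nat_lit 366) (nat_lit 303))))) (XT.nd (nat_lit 156) (nat_lit 608) (nat_lit 0) (XT.nd (nat_lit 78) (nat_lit 380) (nat_lit 0) (XT.lf (nat_lit 0) (nat_lit 6536678367) (nat_lit 304) (nat_lit 2648744155) (nat_lit 380) (nat_lit 2581090120) (nat_lit 105) (nat_lit 5) (nat_lit 109) (nat_lit 5) (nat_lit 110) (nat_lit 5) (nat_lit 472) (nat_lit 366) (nat_lit 302)) (XT.lf (nat_lit 0) (nat_lit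 906693363) (nat_lit 380) (nat_lit 9671859946) (nat_lit 76) (nat_lit 1327585548) (nat_lit 100) (nat_lit 5) (nat_lit 105) (nat_lit 5) (nat_lit 101) (nat_lit 5) (nat_lit 473) (nat_lit 366) (nat_lit 301))) (XT.nd (nat_lit 78) (nat_lit 608) (nat_lit 0) (XT.lf (nat_lit 0) (nat_lit 4448631210) (nat_lit 380) (nat_lit 2217976722) (nat_lit 76) (nat_lit 5381236810) (nat_lit 100) (nat_lit 5) (nat_lit 105) (nat_lit 5) (nat_lit 101) (nat_lit 5) (nat_lit 474) (nat_lit 366) (nat_lit 300)) (XT.nd (nat_lit 78) (nat_lit 304) (nat_lit 0) (XT.lf (nat_lit 0) (nat_lit 5403081764) (nat_lit 304) (nat_lit 2660130433) (nat_lit 380) (nat_lit 4129143864) (nat_lit 96) (nat_lit 5) (nat_lit 100) (nat_lit 5) (nat_lit 101) (nat_lit 5) (nat_lit 475) (nat_lit 366) (nat_lit 299)) (XT.lf (nat_lit 0) (nat_lit 815544675) (nat_lit 304) (nat_lit 10930989006) (nat_lit 380) (nat_lit 593302211) (nat_lit 92) (nat_lit 5) (nat_lit 96) (nat_lit 5) (nat_lit 97) (nat_lit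 5) (nat_lit 476) (nat_lit 366) (nat_lit 298)))))) (XT.nd (nat_lit 390) (nat_lit 912) (nat_lit 0) (XT.nd (nat_lit 156) (nat_lit 608) (nat_lit 0) (XT.nd (nat_lit 78) (nat_lit 304) (nat_lit 0) (XT.lf (nat_lit 0) (nat_lit 3004207906) (nat_lit 380) (nat_lit 3915401337) (nat_lit 76) (nat_lit 5569662351) (nat_lit 91) (nat_lit 5) (nat_lit 96) (nat_lit 5) (nat_lit 92) (nat_lit 5) (nat_lit 477) (nat_lit 366) (nat_lit 297)) (XT.lf (nat_lit 0) (nat_lit 3840085795) (nat_lit 304) (nat_lit 2818218070) (nat_lit 380) (nat_lit 5983468955) (nat_lit 87) (nat_lit 5) (nat_lit 91) (nat_lit 5) (nat_lit 92) (nat_lit 5) (nat_lit 478) (nat_lit 366) (nat_lit 296))) (XT.nd (nat_lit 78) (nat_lit 608) (nat_lit 0) (XT.lf (nat_lit 0) (nat_lit 10388605767) (nat_lit 380) (nat_lit 1054272606) (nat_lit 76) (nat_lit 1354389925) (nat_lit 87) (nat_lit 5) (nat_lit 92) (nat_lit 5) (nat_lit 88) (nat_lit 5) (nat_lit 479) (nat_lit 366) (nat_lit 295)) (XT.nd (nat_lit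 78) (nat_lit 304) (nat_lit 0) (XT.lf (nat_lit 0) (nat_lit 1253312052) (nat_lit 304) (nat_lit 6095155658) (nat_lit 76) (nat_lit 5606613632) (nat_lit 83) (nat_lit 5) (nat_lit 87) (nat_lit 5) (nat_lit 84) (nat_lit 5) (nat_lit 480) (nat_lit 366) (nat_lit 294)) (XT.lf (nat_lit 0) (nat_lit 1786970049) (nat_lit 304) (nat_lit 3156576259) (nat_lit 380) (nat_lit 8172446792) (nat_lit 79) (nat_lit 5) (nat_lit 83) (nat_lit 5) (nat_lit 84) (nat_lit 5) (nat_lit 481) (nat_lit 366) (nat_lit 293))))) (XT.nd (nat_lit 234) (nat_lit 608) (nat_lit 0) (XT.nd (nat_lit 78) (nat_lit 304) (nat_lit 0) (XT.lf (nat_lit 0) (nat_lit 8724700969) (nat_lit 380) (nat_lit 3428905163) (nat_lit 76) (nat_lit 1126180844) (nat_lit 79) (nat_lit 5) (nat_lit 84) (nat_lit 5) (nat_lit 80) (nat_lit 5) (nat_lit 482) (nat_lit 366) (nat_lit 292)) (XT.nd (nat_lit 78) (nat_lit 76) (nat_lit 0) (XT.lf (nat_lit 0) (nat_lit 4618468276) (nat_lit 228) (nat_lit 7983192123) (nat_lit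 304) (nat_lit 844798773) (nat_lit 76) (nat_lit 5) (nat_lit 79) (nat_lit 5) (nat_lit 80) (nat_lit 5) (nat_lit 483) (nat_lit 366) (nat_lit 291)) (XT.lf (nat_lit 0) (nat_lit 2893662320) (nat_lit 304) (nat_lit 812470265) (nat_lit 76) (nat_lit 9910105882) (nat_lit 75) (nat_lit 5) (nat_lit 79) (nat_lit 5) (nat_lit 76) (nat_lit 5) (nat_lit 484) (nat_lit 366) (nat_lit 290)))) (XT.nd (nat_lit 78) (nat_lit 304) (nat_lit 0) (XT.lf (nat_lit 0) (nat_lit 6718124678) (nat_lit 380) (nat_lit 6388054226) (nat_lit 76) (nat_lit 682677609) (nat_lit 71) (nat_lit 5) (nat_lit 76) (nat_lit 5) (nat_lit 72) (nat_lit 5) (nat_lit 485) (nat_lit 366) (nat_lit 289)) (XT.nd (nat_lit 78) (nat_lit 76) (nat_lit 0) (XT.lf (nat_lit 0) (nat_lit 1773561331) (nat_lit 228) (nat_lit 8857167240) (nat_lit 304) (nat_lit 3333970914) (nat_lit 68) (nat_lit 5) (nat_lit 71) (nat_lit 5) (nat_lit 72) (nat_lit 5) (nat_lit 486) (nat_lit 366) (nat_lit 288)) (XT.lf (nat_lit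 0) (nat_lit 484582764) (nat_lit 304) (nat_lit 4011315345) (nat_lit 76) (nat_lit 9647838189) (nat_lit 67) (nat_lit 5) (nat_lit 71) (nat_lit 5) (nat_lit 68) (nat_lit 5) (nat_lit 487) (nat_lit 366) (nat_lit 287))))))) (XT.nd (nat_lit 858) (nat_lit 1064) (nat_lit 0) (XT.nd (nat_lit 390) (nat_lit 684) (nat_lit 0) (XT.nd (nat_lit 156) (nat_lit 532) (nat_lit 0) (XT.nd (nat_lit 78) (nat_lit 0) (nat_lit 0) (XT.lf (nat_lit 0) (nat_lit 4317899746) (nat_lit 228) (nat_lit 15796489) (nat_lit 304) (nat_lit 9992245537) (nat_lit 64) (nat_lit 5) (nat_lit 67) (nat_lit 5) (nat_lit 68) (nat_lit 5) (nat_lit 488) (nat_lit 366) (nat_lit 286)) (XT.lf (nat_lit 0) (nat_lit 8287342171) (nat_lit 304) (nat_lit 1721817502) (nat_lit 76) (nat_lit 4502085866) (nat_lit 64) (nat_lit 5) (nat_lit 68) (nat_lit 5) (nat_lit 65) (nat_lit 5) (nat_lit 489) (nat_lit 366) (nat_lit 285))) (XT.nd (nat_lit 78) (nat_lit 304) (nat_lit 0) (XT.lf (nat_lit 0) (nat_lit 6770894250)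 (nat_lit 228) (nat_lit 5564690273) (nat_lit 304) (nat_lit 2364365470) (nat_lit 61) (nat_lit 5) (nat_lit 64) (nat_lit 5) (nat_lit 65) (nat_lit 5) (nat_lit 490) (nat_lit 366) (nat_lit 284)) (XT.nd (nat_lit 78) (nat_lit 0) (nat_lit 0) (XT.lf (nat_lit 0) (nat_lit 513043575) (nat_lit 228) (nat_lit 1025175571) (nat_lit 304) (nat_lit 13354280545) (nat_lit 57) (nat_lit 5) (nat_lit 60) (nat_lit 5) (nat_lit 61) (nat_lit 5) (nat_lit 491) (nat_lit 366) (nat_lit 283)) (XT.lf (nat_lit 0) (nat_lit 5535832155) (nat_lit 304) (nat_lit 5943917829) (nat_lit 76) (nat_lit 3607869910) (nat_lit 57) (nat_lit 5) (nat_lit 61) (nat_lit 5) (nat_lit 58) (nat_lit 5) (nat_lit 492) (nat_lit 366) (nat_lit 282))))) (XT.nd (nat_lit 234) (nat_lit 152) (nat_lit 0) (XT.nd (nat_lit 78) (nat_lit 304) (nat_lit 0) (XT.lf (nat_lit 0) (nat_lit 2640993187) (nat_lit 228) (nat_lit 6968535221) (nat_lit 304) (nat_lit 5677196169) (nat_lit 54) (nat_lit 5) (nat_lit 57)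 (nat_lit 5) (nat_lit 58) (nat_lit 5) (nat_lit 493) (nat_lit 366) (nat_lit 281)) (XT.nd (nat_lit 78) (nat_lit 304) (nat_lit 0) (XT.lf (nat_lit 0) (nat_lit 11431298333) (nat_lit 228) (nat_lit 2345722590) (nat_lit 304) (nat_lit 1712548588) (nat_lit 54) (nat_lit 5) (nat_lit 57) (nat_lit 5) (nat_lit 58) (nat_lit 5) (nat_lit 494) (nat_lit 366) (nat_lit 280)) (XT.lf (nat_lit 0) (nat_lit 2319693727) (nat_lit 304) (nat_lit 11010534472) (nat_lit 76) (nat_lit 2365567264) (nat_lit 50) (nat_lit 5) (nat_lit 54) (nat_lit 5) (nat_lit 51) (nat_lit 5) (nat_lit 495) (nat_lit 366) (nat_lit 279)))) (XT.nd (nat_lit 78) (nat_lit 152) (nat_lit 0) (XT.lf (nat_lit 0) (nat_lit 6425523002) (nat_lit 304) (nat_lit 2320420574) (nat_lit 76) (nat_lit 7159662835) (nat_lit 50) (nat_lit 5) (nat_lit 54) (nat_lit 5) (nat_lit 51) (nat_lit 5) (nat_lit 496) (nat_lit 366) (nat_lit 278)) (XT.nd (nat_lit 78) (nat_lit 0) (nat_lit 0) (XT.lf (nat_lit 0) (nat_lit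 6584323002) (nat_lit 152) (nat_lit 4045330581) (nat_lit 228) (nat_lit 5489640555) (nat_lit 48) (nat_lit 5) (nat_lit 50) (nat_lit 5) (nat_lit 51) (nat_lit 5) (nat_lit 497) (nat_lit 366) (nat_lit 277)) (XT.lf (nat_lit 0) (nat_lit 14911945580) (nat_lit 228) (nat_lit 688932810) (nat_lit 76) (nat_lit 736499823) (nat_lit 48) (nat_lit 5) (nat_lit 51) (nat_lit 5) (nat_lit 49) (nat_lit 5) (nat_lit 498) (nat_lit 366) (nat_lit 276)))))) (XT.nd (nat_lit 390) (nat_lit 304) (nat_lit 0) (XT.nd (nat_lit 156) (nat_lit 304) (nat_lit 0) (XT.nd (nat_lit 78) (nat_lit 152) (nat_lit 0) (XT.lf (nat_lit 0) (nat_lit 2739954092) (nat_lit 304) (nat_lit 8204450827) (nat_lit 76) (nat_lit 5613958477) (nat_lit 44) (nat_lit 5) (nat_lit 48) (nat_lit 5) (nat_lit 45) (nat_lit 5) (nat_lit 499) (nat_lit 366) (nat_lit 275)) (XT.lf (nat_lit 0) (nat_lit 758966273) (nat_lit 152) (nat_lit 6194299146) (nat_lit 228) (nat_lit 9830644282) (nat_lit 42) (nat_lit 5)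 (nat_lit 44) (nat_lit 5) (nat_lit 45) (nat_lit 5) (nat_lit 500) (nat_lit 366) (nat_lit 274))) (XT.nd (nat_lit 78) (nat_lit 304) (nat_lit 0) (XT.lf (nat_lit 0) (nat_lit 9968365069) (nat_lit 152) (nat_lit 1311857063) (nat_lit 228) (nat_lit 5733161070) (nat_lit 42) (nat_lit 5) (nat_lit 44) (nat_lit 5) (nat_lit 45) (nat_lit 5) (nat_lit 501) (nat_lit 366) (nat_lit 273)) (XT.nd (nat_lit 78) (nat_lit 76) (nat_lit 0) (XT.lf (nat_lit 0) (nat_lit 2073873261) (nat_lit 228) (nat_lit 13631832917) (nat_lit 304) (nat_lit 1541504008) (nat_lit 39) (nat_lit 5) (nat_lit 42) (nat_lit 5) (nat_lit 43) (nat_lit 5) (nat_lit 502) (nat_lit 366) (nat_lit 272)) (XT.lf (nat_lit 0) (nat_lit 2729155060) (nat_lit 304) (nat_lit 6084945017) (nat_lit 76) (nat_lit 8670641735) (nat_lit 38) (nat_lit 5) (nat_lit 42) (nat_lit 5) (nat_lit 39) (nat_lit 5) (nat_lit 503) (nat_lit 366) (nat_lit 271))))) (XT.nd (nat_lit 51714) (nat_lit 0) (nat_lit 38532) (XT.nd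 (nat_lit 78) (nat_lit 152) (nat_lit 0) (XT.lf (nat_lit 0) (nat_lit 3173425502) (nat_lit 152) (nat_lit 3887028395) (nat_lit 228) (nat_lit 10666452600) (nat_lit 36) (nat_lit 5) (nat_lit 38) (nat_lit 5) (nat_lit 39) (nat_lit 5) (nat_lit 504) (nat_lit 366) (nat_lit 270)) (XT.nd (nat_lit 78) (nat_lit 152) (nat_lit 0) (XT.lf (nat_lit 0) (nat_lit 11502206325) (nat_lit 228) (nat_lit 5324605857) (nat_lit 76) (nat_lit 1146629231) (nat_lit 36) (nat_lit 5) (nat_lit 39) (nat_lit 5) (nat_lit 37) (nat_lit 5) (nat_lit 505) (nat_lit 366) (nat_lit 269)) (XT.lf (nat_lit 0) (nat_lit 4074094569) (nat_lit 152) (nat_lit 11986708125) (nat_lit 228) (nat_lit 2163547577) (nat_lit 34) (nat_lit 5) (nat_lit 36) (nat_lit 5) (nat_lit 37) (nat_lit 5) (nat_lit 506) (nat_lit 366) (nat_lit 268)))) (XT.nd (nat_lit 78) (nat_lit 2432) (nat_lit 0) (XT.lf (nat_lit 0) (nat_lit 1296043404) (nat_lit 1140) (nat_lit 795414318) (nat_lit 0) (nat_lit 1296043404) (nat_lit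 573) (nat_lit 5) (nat_lit 588) (nat_lit 4) (nat_lit 573) (nat_lit 4) (nat_lit 406) (nat_lit 367) (nat_lit 367)) (XT.nd (nat_lit 78) (nat_lit 1292) (nat_lit 0) (XT.lf (nat_lit 0) (nat_lit 2838584236) (nat_lit 1140) (nat_lit 3001600365) (nat_lit 1140) (nat_lit 961325165) (nat_lit 558) (nat_lit 4) (nat_lit 573) (nat_lit 5) (nat_lit 573) (nat_lit 4) (nat_lit 407) (nat_lit 367) (nat_lit 366)) (XT.lf (nat_lit 0) (nat_lit 481595461) (nat_lit 1216) (nat_lit 1757087937) (nat_lit 1292) (nat_lit 4590716670) (nat_lit 541) (nat_lit 5) (nat_lit 557) (nat_lit 5) (nat_lit 558) (nat_lit 4) (nat_lit 408) (nat_lit 367) (nat_lit 365))))))))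
noncomputable def xc60 : XT := (XT.nd (nat_lit 1638) (nat_lit 9196) (nat_lit 0) (XT.nd (nat_lit 780) (nat_lit 8208) (nat_lit 0) (XT.nd (nat_lit 390) (nat_lit 4940) (nat_lit 0) (XT.nd (nat_lit 156) (nat_lit 2888) (nat_lit 0) (XT.nd (nat_lit 78) (nat_lit 1368) (nat_lit 0) (XT.lf (nat_lit 0) (nat_lit 5003292860) (nat_lit 1216) (nat_lit 444670848) (nat_lit 1292) (nat_lit 1410637657) (nat_lit 541) (nat_lit 5) (nat_lit 557) (nat_lit 5) (nat_lit 558) (nat_lit 4) (nat_lit 409) (nat_lit 367) (nat_lit 364)) (XT.lf (nat_lit 0) (nat_lit 1764970310) (nat_lit 1368) (nat_lit 4203574405) (nat_lit 76) (nat_lit 920526062) (nat_lit 523) (nat_lit 5) (nat_lit 541) (nat_lit 5) (nat_lit 524) (nat_lit 4) (nat_lit 410) (nat_lit 367) (nat_lit 363))) (XT.nd (nat_lit 78) (nat_lit 1520) (nat_lit 0) (XT.lf (nat_lit 0) (nat_lit 354846269) (nat_lit 1368) (nat_lit 4581589775) (nat_lit 1444) (nat_lit 1984543027) (nat_lit 505) (nat_lit 5) (nat_lit 523)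 (nat_lit 5) (nat_lit 524) (nat_lit 4) (nat_lit 411) (nat_lit 367) (nat_lit 362)) (XT.nd (nat_lit 78) (nat_lit 1444) (nat_lit 0) (XT.lf (nat_lit 0) (nat_lit 1164109309) (nat_lit 1444) (nat_lit 1959967703) (nat_lit 76) (nat_lit 3830083958) (nat_lit 504) (nat_lit 5) (nat_lit 523) (nat_lit 5) (nat_lit 505) (nat_lit 5) (nat_lit 412) (nat_lit 367) (nat_lit 361)) (XT.lf (nat_lit 0) (nat_lit 2701462471) (nat_lit 1444) (nat_lit 1600440661) (nat_lit 1520) (nat_lit 2686824507) (nat_lit 485) (nat_lit 5) (nat_lit 504) (nat_lit 5) (nat_lit 505) (nat_lit 5) (nat_lit 413) (nat_lit 367) (nat_lit 360))))) (XT.nd (nat_lit 156) (nat_lit 3344) (nat_lit 0) (XT.nd (nat_lit 78) (nat_lit 0) (nat_lit 0) (XT.lf (nat_lit 0) (nat_lit 401387984) (nat_lit 1520) (nat_lit 22255639) (nat_lit 1596) (nat_lit 6601287684) (nat_lit 464) (nat_lit 5) (nat_lit 484) (nat_lit 5) (nat_lit 485) (nat_lit 5) (nat_lit 414) (nat_lit 367) (nat_lit 359)) (XT.lf (nat_lit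 0) (nat_lit 3536157130) (nat_lit 1596) (nat_lit 1908236425) (nat_lit 76) (nat_lit 1617630152) (nat_lit 464) (nat_lit 5) (nat_lit 485) (nat_lit 5) (nat_lit 465) (nat_lit 5) (nat_lit 415) (nat_lit 367) (nat_lit 358))) (XT.nd (nat_lit 78) (nat_lit 1748) (nat_lit 0) (XT.lf (nat_lit 0) (nat_lit 2879592805) (nat_lit 1596) (nat_lit 3787928158) (nat_lit 1672) (nat_lit 433240389) (nat_lit 443) (nat_lit 5) (nat_lit 464) (nat_lit 5) (nat_lit 465) (nat_lit 5) (nat_lit 416) (nat_lit 367) (nat_lit 357)) (XT.nd (nat_lit 78) (nat_lit 0) (nat_lit 0) (XT.lf (nat_lit 0) (nat_lit 579000499) (nat_lit 1672) (nat_lit 2061350466) (nat_lit 1748) (nat_lit 4500507405) (nat_lit 420) (nat_lit 5) (nat_lit 442) (nat_lit 5) (nat_lit 443) (nat_lit 5) (nat_lit 417) (nat_lit 367) (nat_lit 356)) (XT.lf (nat_lit 0) (nat_lit 5470010646) (nat_lit 1672) (nat_lit 266894611) (nat_lit 1748) (nat_lit 1445482311) (nat_lit 420) (nat_lit 5) (nat_lit 442) (nat_lit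 5) (nat_lit 443) (nat_lit 5) (nat_lit 418) (nat_lit 367) (nat_lit 355)))))) (XT.nd (nat_lit 390) (nat_lit 3496) (nat_lit 0) (XT.nd (nat_lit 156) (nat_lit 1824) (nat_lit 0) (XT.nd (nat_lit 78) (nat_lit 1064) (nat_lit 0) (XT.lf (nat_lit 0) (nat_lit 1619664262) (nat_lit 1824) (nat_lit 4029563728) (nat_lit 76) (nat_lit 1575915847) (nat_lit 396) (nat_lit 5) (nat_lit 420) (nat_lit 5) (nat_lit 397) (nat_lit 5) (nat_lit 419) (nat_lit 367) (nat_lit 354)) (XT.lf (nat_lit 0) (nat_lit 896750645) (nat_lit 1064) (nat_lit 3789735000) (nat_lit 1140) (nat_lit 2582915390) (nat_lit 382) (nat_lit 5) (nat_lit 396) (nat_lit 5) (nat_lit 397) (nat_lit 5) (nat_lit 420) (nat_lit 367) (nat_lit 353))) (XT.nd (nat_lit 78) (nat_lit 1748) (nat_lit 0) (XT.lf (nat_lit 0) (nat_lit 461672526) (nat_lit 1140) (nat_lit 1401613049) (nat_lit 76) (nat_lit 5451860448) (nat_lit 381) (nat_lit 5) (nat_lit 396) (nat_lit 5) (nat_lit 382) (nat_lit 5) (nat_lit 421)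 (nat_lit 367) (nat_lit 352)) (XT.nd (nat_lit 78) (nat_lit 836) (nat_lit 0) (XT.lf (nat_lit 0) (nat_lit 3499226438) (nat_lit 988) (nat_lit 3722831882) (nat_lit 76) (nat_lit 140102562) (nat_lit 369) (nat_lit 5) (nat_lit 382) (nat_lit 5) (nat_lit 370) (nat_lit 5) (nat_lit 422) (nat_lit 367) (nat_lit 351)) (XT.lf (nat_lit 0) (nat_lit 1335286236) (nat_lit 836) (nat_lit 5235535871) (nat_lit 912) (nat_lit 839857157) (nat_lit 358) (nat_lit 5) (nat_lit 369) (nat_lit 5) (nat_lit 370) (nat_lit 5) (nat_lit 423) (nat_lit 367) (nat_lit 350))))) (XT.nd (nat_lit 234) (nat_lit 1672) (nat_lit 0) (XT.nd (nat_lit 78) (nat_lit 1748) (nat_lit 0) (XT.lf (nat_lit 0) (nat_lit 2182549067) (nat_lit 912) (nat_lit 989744984) (nat_lit 76) (nat_lit 4288244652) (nat_lit 357) (nat_lit 5) (nat_lit 369) (nat_lit 5) (nat_lit 358) (nat_lit 5) (nat_lit 424) (nat_lit 367) (nat_lit 349)) (XT.nd (nat_lit 78) (nat_lit 912) (nat_lit 0) (XT.lf (nat_lit 0) (nat_lit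 4187787063) (nat_lit 836) (nat_lit 1037831924) (nat_lit 912) (nat_lit 2286263453) (nat_lit 346) (nat_lit 5) (nat_lit 357) (nat_lit 5) (nat_lit 358) (nat_lit 5) (nat_lit 425) (nat_lit 367) (nat_lit 348)) (XT.lf (nat_lit 0) (nat_lit 726249952) (nat_lit 912) (nat_lit 5694216740) (nat_lit 76) (nat_lit 1144293492) (nat_lit 334) (nat_lit 5) (nat_lit 346) (nat_lit 5) (nat_lit 335) (nat_lit 5) (nat_lit 426) (nat_lit 367) (nat_lit 347)))) (XT.nd (nat_lit 78) (nat_lit 1672) (nat_lit 0) (XT.lf (nat_lit 0) (nat_lit 3743011024) (nat_lit 912) (nat_lit 486540191) (nat_lit 76) (nat_lit 3389375601) (nat_lit 334) (nat_lit 5) (nat_lit 346) (nat_lit 5) (nat_lit 335) (nat_lit 5) (nat_lit 427) (nat_lit 367) (nat_lit 346)) (XT.nd (nat_lit 78) (nat_lit 836) (nat_lit 0) (XT.lf (nat_lit 0) (nat_lit 4829548651) (nat_lit 836) (nat_lit 1968243373) (nat_lit 912) (nat_lit 876856344) (nat_lit 323) (nat_lit 5) (nat_lit 334) (nat_lit 5) (nat_lit 335)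 (nat_lit 5) (nat_lit 428) (nat_lit 367) (nat_lit 345)) (XT.lf (nat_lit 0) (nat_lit 2121996238) (nat_lit 836) (nat_lit 5248158875) (nat_lit 76) (nat_lit 361701540) (nat_lit 312) (nat_lit 5) (nat_lit 323) (nat_lit 5) (nat_lit 313) (nat_lit 5) (nat_lit 429) (nat_lit 367) (nat_lit 344))))))) (XT.nd (nat_lit 780) (nat_lit 4104) (nat_lit 0) (XT.nd (nat_lit 390) (nat_lit 2736) (nat_lit 0) (XT.nd (nat_lit 156) (nat_lit 1520) (nat_lit 0) (XT.nd (nat_lit 78) (nat_lit 76) (nat_lit 0) (XT.lf (nat_lit 0) (nat_lit 89948937) (nat_lit 760) (nat_lit 5059230264) (nat_lit 836) (nat_lit 2641335916) (nat_lit 302) (nat_lit 5) (nat_lit 312) (nat_lit 5) (nat_lit 313) (nat_lit 5) (nat_lit 430) (nat_lit 367) (nat_lit 343)) (XT.lf (nat_lit 0) (nat_lit 364465389) (nat_lit 836) (nat_lit 2306824030) (nat_lit 76) (nat_lit 5179370510) (nat_lit 301) (nat_lit 5) (nat_lit 312) (nat_lit 5) (nat_lit 302) (nat_lit 5) (nat_lit 431) (nat_lit 367) (nat_lit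 342))) (XT.nd (nat_lit 78) (nat_lit 836) (nat_lit 0) (XT.lf (nat_lit 0) (nat_lit 3159524989) (nat_lit 684) (nat_lit 204590925) (nat_lit 760) (nat_lit 4548182974) (nat_lit 292) (nat_lit 5) (nat_lit 301) (nat_lit 5) (nat_lit 302) (nat_lit 5) (nat_lit 432) (nat_lit 367) (nat_lit 341)) (XT.nd (nat_lit 78) (nat_lit 76) (nat_lit 0) (XT.lf (nat_lit 0) (nat_lit 726213782) (nat_lit 760) (nat_lit 5681979405) (nat_lit 836) (nat_lit 1567310773) (nat_lit 282) (nat_lit 5) (nat_lit 292) (nat_lit 5) (nat_lit 293) (nat_lit 5) (nat_lit 433) (nat_lit 367) (nat_lit 340)) (XT.lf (nat_lit 0) (nat_lit 1436703908) (nat_lit 836) (nat_lit 1731370497) (nat_lit 76) (nat_lit 4872071665) (nat_lit 281) (nat_lit 5) (nat_lit 292) (nat_lit 5) (nat_lit 282) (nat_lit 5) (nat_lit 434) (nat_lit 367) (nat_lit 339))))) (XT.nd (nat_lit 156) (nat_lit 1368) (nat_lit 0) (XT.nd (nat_lit 78) (nat_lit 684) (nat_lit 0) (XT.lf (nat_lit 0) (nat_lit 3878462836) (nat_lit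 684) (nat_lit 576929659) (nat_lit 760) (nat_lit 3650990469) (nat_lit 272) (nat_lit 5) (nat_lit 281) (nat_lit 5) (nat_lit 282) (nat_lit 5) (nat_lit 435) (nat_lit 367) (nat_lit 338)) (XT.lf (nat_lit 0) (nat_lit 1395578677) (nat_lit 684) (nat_lit 6123956447) (nat_lit 760) (nat_lit 654728201) (nat_lit 263) (nat_lit 5) (nat_lit 272) (nat_lit 5) (nat_lit 273) (nat_lit 5) (nat_lit 436) (nat_lit 367) (nat_lit 337))) (XT.nd (nat_lit 78) (nat_lit 1292) (nat_lit 0) (XT.lf (nat_lit 0) (nat_lit 2353491685) (nat_lit 760) (nat_lit 1133437086) (nat_lit 76) (nat_lit 4756609667) (nat_lit 262) (nat_lit 5) (nat_lit 272) (nat_lit 5) (nat_lit 263) (nat_lit 5) (nat_lit 437) (nat_lit 367) (nat_lit 336)) (XT.nd (nat_lit 78) (nat_lit 684) (nat_lit 0) (XT.lf (nat_lit 0) (nat_lit 4622414282) (nat_lit 608) (nat_lit 772820494) (nat_lit 684) (nat_lit 2919254370) (nat_lit 254) (nat_lit 5) (nat_lit 262) (nat_lit 5) (nat_lit 263) (nat_lit 5) (nat_lit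 438) (nat_lit 367) (nat_lit 335)) (XT.lf (nat_lit 0) (nat_lit 96087613) (nat_lit 684) (nat_lit 6310598720) (nat_lit 76) (nat_lit 1980444764) (nat_lit 245) (nat_lit 5) (nat_lit 254) (nat_lit 5) (nat_lit 246) (nat_lit 5) (nat_lit 439) (nat_lit 367) (nat_lit 334)))))) (XT.nd (nat_lit 390) (nat_lit 2280) (nat_lit 0) (XT.nd (nat_lit 156) (nat_lit 1216) (nat_lit 0) (XT.nd (nat_lit 78) (nat_lit 608) (nat_lit 0) (XT.lf (nat_lit 0) (nat_lit 3115558124) (nat_lit 684) (nat_lit 534141171) (nat_lit 76) (nat_lit 4811500513) (nat_lit 245) (nat_lit 5) (nat_lit 254) (nat_lit 5) (nat_lit 246) (nat_lit 5) (nat_lit 440) (nat_lit 367) (nat_lit 333)) (XT.lf (nat_lit 0) (nat_lit 5370084262) (nat_lit 608) (nat_lit 813941208) (nat_lit 684) (nat_lit 2352969974) (nat_lit 237) (nat_lit 5) (nat_lit 245) (nat_lit 5) (nat_lit 246) (nat_lit 5) (nat_lit 441) (nat_lit 367) (nat_lit 332))) (XT.nd (nat_lit 78) (nat_lit 532) (nat_lit 0) (XT.lf (nat_lit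 0) (nat_lit 679439367) (nat_lit 684) (nat_lit 5869735265) (nat_lit 76) (nat_lit 2065277354) (nat_lit 228) (nat_lit 5) (nat_lit 237) (nat_lit 5) (nat_lit 229) (nat_lit 5) (nat_lit 442) (nat_lit 367) (nat_lit 331)) (XT.nd (nat_lit 78) (nat_lit 0) (nat_lit 0) (XT.lf (nat_lit 0) (nat_lit 45051784) (nat_lit 532) (nat_lit 3677441153) (nat_lit 608) (nat_lit 4971040295) (nat_lit 221) (nat_lit 5) (nat_lit 228) (nat_lit 5) (nat_lit 229) (nat_lit 5) (nat_lit 443) (nat_lit 367) (nat_lit 330)) (XT.lf (nat_lit 0) (nat_lit 6099189580) (nat_lit 532) (nat_lit 721518915) (nat_lit 608) (nat_lit 1953617940) (nat_lit 221) (nat_lit 5) (nat_lit 228) (nat_lit 5) (nat_lit 229) (nat_lit 5) (nat_lit 444) (nat_lit 367) (nat_lit 329))))) (XT.nd (nat_lit 234) (nat_lit 1064) (nat_lit 0) (XT.nd (nat_lit 78) (nat_lit 532) (nat_lit 0) (XT.lf (nat_lit 0) (nat_lit 1101950195) (nat_lit 684) (nat_lit 5475095689) (nat_lit 76) (nat_lit 2279708546) (nat_lit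 212) (nat_lit 5) (nat_lit 221) (nat_lit 5) (nat_lit 213) (nat_lit 5) (nat_lit 445) (nat_lit 367) (nat_lit 328)) (XT.nd (nat_lit 78) (nat_lit 0) (nat_lit 0) (XT.lf (nat_lit 0) (nat_lit 586845087) (nat_lit 532) (nat_lit 3588207200) (nat_lit 608) (nat_lit 4765884208) (nat_lit 205) (nat_lit 5) (nat_lit 212) (nat_lit 5) (nat_lit 213) (nat_lit 5) (nat_lit 446) (nat_lit 367) (nat_lit 327)) (XT.lf (nat_lit 0) (nat_lit 6786228283) (nat_lit 532) (nat_lit 516515162) (nat_lit 608) (nat_lit 1724211323) (nat_lit 205) (nat_lit 5) (nat_lit 212) (nat_lit 5) (nat_lit 213) (nat_lit 5) (nat_lit 447) (nat_lit 367) (nat_lit 326)))) (XT.nd (nat_lit 78) (nat_lit 456) (nat_lit 0) (XT.lf (nat_lit 0) (nat_lit 1360133096) (nat_lit 608) (nat_lit 5151296250) (nat_lit 76) (nat_lit 2603101311) (nat_lit 197) (nat_lit 5) (nat_lit 205) (nat_lit 5) (nat_lit 198) (nat_lit 5) (nat_lit 448) (nat_lit 367) (nat_lit 325)) (XT.nd (nat_lit 78) (nat_lit 0) (nat_lit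 0) (XT.lf (nat_lit 0) (nat_lit 1059187758) (nat_lit 456) (nat_lit 3406667750) (nat_lit 532) (nat_lit 4738133286) (nat_lit 191) (nat_lit 5) (nat_lit 197) (nat_lit 5) (nat_lit 198) (nat_lit 5) (nat_lit 449) (nat_lit 367) (nat_lit 324)) (XT.lf (nat_lit 0) (nat_lit 7406233583) (nat_lit 456) (nat_lit 219813432) (nat_lit 532) (nat_lit 1669355944) (nat_lit 191) (nat_lit 5) (nat_lit 197) (nat_lit 5) (nat_lit 198) (nat_lit 5) (nat_lit 450) (nat_lit 367) (nat_lit 323))))))))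
noncomputable def xc61 : XT := (XT.nd (nat_lit 1638) (nat_lit 3952) (nat_lit 0) (XT.nd (nat_lit 780) (nat_lit 2736) (nat_lit 0) (XT.nd (nat_lit 390) (nat_lit 1444) (nat_lit 0) (XT.nd (nat_lit 156) (nat_lit 988) (nat_lit 0) (XT.nd (nat_lit 78) (nat_lit 456) (nat_lit 0) (XT.lf (nat_lit 0) (nat_lit 1448912662) (nat_lit 608) (nat_lit 4924571414) (nat_lit 76) (nat_lit 3014839569) (nat_lit 183) (nat_lit 5) (nat_lit 191) (nat_lit 5) (nat_lit 184) (nat_lit 5) (nat_lit 451) (nat_lit 367) (nat_lit 322)) (XT.lf (nat_lit 0) (nat_lit 1435443320) (nat_lit 456) (nat_lit 3153985818) (nat_lit 532) (nat_lit 4893821366) (nat_lit 177) (nat_lit 5) (nat_lit 183) (nat_lit 5) (nat_lit 184) (nat_lit 5) (nat_lit 452) (nat_lit 367) (nat_lit 321))) (XT.nd (nat_lit 78) (nat_lit 988) (nat_lit 0) (XT.lf (nat_lit 0) (nat_lit 7785878891) (nat_lit 532) (nat_lit 1648693731) (nat_lit 76) (nat_lit 145653714) (nat_lit 177) (nat_lit 5) (nat_lit 184) (nat_lit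 5) (nat_lit 178) (nat_lit 5) (nat_lit 453) (nat_lit 367) (nat_lit 320)) (XT.nd (nat_lit 78) (nat_lit 456) (nat_lit 0) (XT.lf (nat_lit 0) (nat_lit 1361545718) (nat_lit 532) (nat_lit 4823047135) (nat_lit 76) (nat_lit 3494136505) (nat_lit 170) (nat_lit 5) (nat_lit 177) (nat_lit 5) (nat_lit 171) (nat_lit 5) (nat_lit 454) (nat_lit 367) (nat_lit 319)) (XT.lf (nat_lit 0) (nat_lit 1687010878) (nat_lit 456) (nat_lit 2851597877) (nat_lit 532) (nat_lit 5240727057) (nat_lit 164) (nat_lit 5) (nat_lit 170) (nat_lit 5) (nat_lit 171) (nat_lit 5) (nat_lit 455) (nat_lit 367) (nat_lit 318))))) (XT.nd (nat_lit 156) (nat_lit 912) (nat_lit 0) (XT.nd (nat_lit 78) (nat_lit 532) (nat_lit 0) (XT.lf (nat_lit 0) (nat_lit 7775627862) (nat_lit 532) (nat_lit 1549426317) (nat_lit 76) (nat_lit 556983831) (nat_lit 164) (nat_lit 5) (nat_lit 171) (nat_lit 5) (nat_lit 165) (nat_lit 5) (nat_lit 456) (nat_lit 367) (nat_lit 317)) (XT.lf (nat_lit 0) (nat_lit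 1089526829) (nat_lit 532) (nat_lit 4877035742) (nat_lit 76) (nat_lit 4019836774) (nat_lit 157) (nat_lit 5) (nat_lit 164) (nat_lit 5) (nat_lit 158) (nat_lit 5) (nat_lit 457) (nat_lit 367) (nat_lit 316))) (XT.nd (nat_lit 78) (nat_lit 532) (nat_lit 0) (XT.lf (nat_lit 0) (nat_lit 1783022238) (nat_lit 380) (nat_lit 2521417219) (nat_lit 456) (nat_lit 5788475971) (nat_lit 152) (nat_lit 5) (nat_lit 157) (nat_lit 5) (nat_lit 158) (nat_lit 5) (nat_lit 458) (nat_lit 367) (nat_lit 315)) (XT.nd (nat_lit 78) (nat_lit 532) (nat_lit 0) (XT.lf (nat_lit 0) (nat_lit 7584519306) (nat_lit 456) (nat_lit 1621512481) (nat_lit 76) (nat_lit 995523671) (nat_lit 152) (nat_lit 5) (nat_lit 158) (nat_lit 5) (nat_lit 153) (nat_lit 5) (nat_lit 459) (nat_lit 367) (nat_lit 314)) (XT.lf (nat_lit 0) (nat_lit 622477622) (nat_lit 532) (nat_lit 5119355211) (nat_lit 76) (nat_lit 4570210843) (nat_lit 145) (nat_lit 5) (nat_lit 152) (nat_lit 5) (nat_lit 146) (nat_lit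 5) (nat_lit 460) (nat_lit 367) (nat_lit 313)))))) (XT.nd (nat_lit 390) (nat_lit 1520) (nat_lit 0) (XT.nd (nat_lit 156) (nat_lit 836) (nat_lit 0) (XT.nd (nat_lit 78) (nat_lit 0) (nat_lit 0) (XT.lf (nat_lit 0) (nat_lit 1690013699) (nat_lit 380) (nat_lit 2186046062) (nat_lit 456) (nat_lit 6548659892) (nat_lit 140) (nat_lit 5) (nat_lit 145) (nat_lit 5) (nat_lit 146) (nat_lit 5) (nat_lit 461) (nat_lit 367) (nat_lit 312)) (XT.lf (nat_lit 0) (nat_lit 7201276659) (nat_lit 456) (nat_lit 1899233239) (nat_lit 76) (nat_lit 1439018156) (nat_lit 140) (nat_lit 5) (nat_lit 146) (nat_lit 5) (nat_lit 141) (nat_lit 5) (nat_lit 462) (nat_lit 367) (nat_lit 311))) (XT.nd (nat_lit 78) (nat_lit 456) (nat_lit 0) (XT.lf (nat_lit 0) (nat_lit 5070409517) (nat_lit 380) (nat_lit 5533345812) (nat_lit 456) (nat_lit 52672112) (nat_lit 135) (nat_lit 5) (nat_lit 140) (nat_lit 5) (nat_lit 141) (nat_lit 5) (nat_lit 463) (nat_lit 367) (nat_lit 310)) (XT.nd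 (nat_lit 78) (nat_lit 0) (nat_lit 0) (XT.lf (nat_lit 0) (nat_lit 1371569348) (nat_lit 380) (nat_lit 1868998320) (nat_lit 456) (nat_lit 7534974175) (nat_lit 129) (nat_lit 5) (nat_lit 134) (nat_lit 5) (nat_lit 135) (nat_lit 5) (nat_lit 464) (nat_lit 367) (nat_lit 309)) (XT.lf (nat_lit 0) (nat_lit 6612555241) (nat_lit 456) (nat_lit 2419942355) (nat_lit 76) (nat_lit 1864271600) (nat_lit 129) (nat_lit 5) (nat_lit 135) (nat_lit 5) (nat_lit 130) (nat_lit 5) (nat_lit 465) (nat_lit 367) (nat_lit 308))))) (XT.nd (nat_lit 234) (nat_lit 760) (nat_lit 0) (XT.nd (nat_lit 78) (nat_lit 380) (nat_lit 0) (XT.lf (nat_lit 0) (nat_lit 4699146217) (nat_lit 380) (nat_lit 5360156956) (nat_lit 456) (nat_lit 960980719) (nat_lit 124) (nat_lit 5) (nat_lit 129) (nat_lit 5) (nat_lit 130) (nat_lit 5) (nat_lit 466) (nat_lit 367) (nat_lit 307)) (XT.nd (nat_lit 78) (nat_lit 0) (nat_lit 0) (XT.lf (nat_lit 0) (nat_lit 787932414) (nat_lit 304) (nat_lit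 1594935040) (nat_lit 380) (nat_lit 8763374835) (nat_lit 119) (nat_lit 5) (nat_lit 123) (nat_lit 5) (nat_lit 124) (nat_lit 5) (nat_lit 467) (nat_lit 367) (nat_lit 306)) (XT.lf (nat_lit 0) (nat_lit 5802783606) (nat_lit 380) (nat_lit 3224463608) (nat_lit 76) (nat_lit 2246913106) (nat_lit 119) (nat_lit 5) (nat_lit 124) (nat_lit 5) (nat_lit 120) (nat_lit 5) (nat_lit 468) (nat_lit 367) (nat_lit 305)))) (XT.nd (nat_lit 78) (nat_lit 380) (nat_lit 0) (XT.lf (nat_lit 0) (nat_lit 4041327473) (nat_lit 380) (nat_lit 5252030474) (nat_lit 456) (nat_lit 2111242074) (nat_lit 114) (nat_lit 5) (nat_lit 119) (nat_lit 5) (nat_lit 120) (nat_lit 5) (nat_lit 469) (nat_lit 367) (nat_lit 304)) (XT.nd (nat_lit 78) (nat_lit 304) (nat_lit 0) (XT.lf (nat_lit 0) (nat_lit 1286173539) (nat_lit 456) (nat_lit 103049631) (nat_lit 76) (nat_lit 10148515840) (nat_lit 113) (nat_lit 5) (nat_lit 119) (nat_lit 5) (nat_lit 114) (nat_lit 5) (nat_lit 470) (nat_lit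 367) (nat_lit 303)) (XT.lf (nat_lit 0) (nat_lit 4753983573) (nat_lit 380) (nat_lit 4357524926) (nat_lit 76) (nat_lit 2561146879) (nat_lit 109) (nat_lit 5) (nat_lit 114) (nat_lit 5) (nat_lit 110) (nat_lit 5) (nat_lit 471) (nat_lit 367) (nat_lit 302))))))) (XT.nd (nat_lit 858) (nat_lit 1672) (nat_lit 0) (XT.nd (nat_lit 390) (nat_lit 1292) (nat_lit 0) (XT.nd (nat_lit 156) (nat_lit 684) (nat_lit 0) (XT.nd (nat_lit 78) (nat_lit 0) (nat_lit 0) (XT.lf (nat_lit 0) (nat_lit 3051169961) (nat_lit 304) (nat_lit 5236124892) (nat_lit 380) (nat_lit 3523060177) (nat_lit 105) (nat_lit 5) (nat_lit 109) (nat_lit 5) (nat_lit 110) (nat_lit 5) (nat_lit 472) (nat_lit 367) (nat_lit 301)) (XT.lf (nat_lit 0) (nat_lit 10614994545) (nat_lit 304) (nat_lit 1272277402) (nat_lit 380) (nat_lit 63624443) (nat_lit 105) (nat_lit 5) (nat_lit 109) (nat_lit 5) (nat_lit 110) (nat_lit 5) (nat_lit 473) (nat_lit 367) (nat_lit 300))) (XT.nd (nat_lit 78) (nat_lit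 304) (nat_lit 0) (XT.lf (nat_lit 0) (nat_lit 3445567077) (nat_lit 380) (nat_lit 5868233641) (nat_lit 76) (nat_lit 2779485100) (nat_lit 100) (nat_lit 5) (nat_lit 105) (nat_lit 5) (nat_lit 101) (nat_lit 5) (nat_lit 474) (nat_lit 367) (nat_lit 299)) (XT.nd (nat_lit 78) (nat_lit 0) (nat_lit 0) (XT.lf (nat_lit 0) (nat_lit 1678365518) (nat_lit 304) (nat_lit 5341448952) (nat_lit 380) (nat_lit 5218792933) (nat_lit 96) (nat_lit 5) (nat_lit 100) (nat_lit 5) (nat_lit 101) (nat_lit 5) (nat_lit 475) (nat_lit 367) (nat_lit 298)) (XT.lf (nat_lit 0) (nat_lit 9404052256) (nat_lit 304) (nat_lit 1268555978) (nat_lit 380) (nat_lit 1714093078) (nat_lit 96) (nat_lit 5) (nat_lit 100) (nat_lit 5) (nat_lit 101) (nat_lit 5) (nat_lit 476) (nat_lit 367) (nat_lit 297))))) (XT.nd (nat_lit 234) (nat_lit 608) (nat_lit 0) (XT.nd (nat_lit 78) (nat_lit 304) (nat_lit 0) (XT.lf (nat_lit 0) (nat_lit 1854107733) (nat_lit 380) (nat_lit 7810597508) (nat_lit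 76) (nat_lit 2872460873) (nat_lit 91) (nat_lit 5) (nat_lit 96) (nat_lit 5) (nat_lit 92) (nat_lit 5) (nat_lit 477) (nat_lit 367) (nat_lit 296)) (XT.nd (nat_lit 78) (nat_lit 304) (nat_lit 0) (XT.lf (nat_lit 0) (nat_lit 5467565690) (nat_lit 380) (nat_lit 130718795) (nat_lit 76) (nat_lit 7092198935) (nat_lit 91) (nat_lit 5) (nat_lit 96) (nat_lit 5) (nat_lit 92) (nat_lit 5) (nat_lit 478) (nat_lit 367) (nat_lit 295)) (XT.lf (nat_lit 0) (nat_lit 7754463668) (nat_lit 304) (nat_lit 1418072978) (nat_lit 380) (nat_lit 3673952127) (nat_lit 87) (nat_lit 5) (nat_lit 91) (nat_lit 5) (nat_lit 92) (nat_lit 5) (nat_lit 479) (nat_lit 367) (nat_lit 294)))) (XT.nd (nat_lit 78) (nat_lit 380) (nat_lit 0) (XT.lf (nat_lit 0) (nat_lit 2761088462) (nat_lit 228) (nat_lit 10196866560) (nat_lit 304) (nat_lit 47538697) (nat_lit 84) (nat_lit 5) (nat_lit 87) (nat_lit 5) (nat_lit 88) (nat_lit 5) (nat_lit 480) (nat_lit 367) (nat_lit 293)) (XT.nd (nat_lit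 78) (nat_lit 304) (nat_lit 0) (XT.lf (nat_lit 0) (nat_lit 3616437408) (nat_lit 304) (nat_lit 2410284953) (nat_lit 76) (nat_lit 7140229990) (nat_lit 83) (nat_lit 5) (nat_lit 87) (nat_lit 5) (nat_lit 84) (nat_lit 5) (nat_lit 481) (nat_lit 367) (nat_lit 292)) (XT.lf (nat_lit 0) (nat_lit 5604438704) (nat_lit 304) (nat_lit 1754746843) (nat_lit 380) (nat_lit 5972331817) (nat_lit 79) (nat_lit 5) (nat_lit 83) (nat_lit 5) (nat_lit 84) (nat_lit 5) (nat_lit 482) (nat_lit 367) (nat_lit 291)))))) (XT.nd (nat_lit 390) (nat_lit 836) (nat_lit 0) (XT.nd (nat_lit 156) (nat_lit 532) (nat_lit 0) (XT.nd (nat_lit 78) (nat_lit 76) (nat_lit 0) (XT.lf (nat_lit 0) (nat_lit 249925288) (nat_lit 228) (nat_lit 10931558862) (nat_lit 304) (nat_lit 2317801574) (nat_lit 76) (nat_lit 5) (nat_lit 79) (nat_lit 5) (nat_lit 80) (nat_lit 5) (nat_lit 483) (nat_lit 367) (nat_lit 290)) (XT.lf (nat_lit 0) (nat_lit 1425107602) (nat_lit 304) (nat_lit 5248783821)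 (nat_lit 76) (nat_lit 6995665117) (nat_lit 75) (nat_lit 5) (nat_lit 79) (nat_lit 5) (nat_lit 76) (nat_lit 5) (nat_lit 484) (nat_lit 367) (nat_lit 289))) (XT.nd (nat_lit 78) (nat_lit 228) (nat_lit 0) (XT.lf (nat_lit 0) (nat_lit 2885767094) (nat_lit 304) (nat_lit 2315388187) (nat_lit 380) (nat_lit 8641990377) (nat_lit 71) (nat_lit 5) (nat_lit 75) (nat_lit 5) (nat_lit 76) (nat_lit 5) (nat_lit 485) (nat_lit 367) (nat_lit 288)) (XT.nd (nat_lit 78) (nat_lit 228) (nat_lit 0) (XT.lf (nat_lit 0) (nat_lit 9072701695) (nat_lit 380) (nat_lit 2828090175) (nat_lit 76) (nat_lit 2119020636) (nat_lit 71) (nat_lit 5) (nat_lit 76) (nat_lit 5) (nat_lit 72) (nat_lit 5) (nat_lit 486) (nat_lit 367) (nat_lit 287)) (XT.lf (nat_lit 0) (nat_lit 5472496344) (nat_lit 228) (nat_lit 7571313341) (nat_lit 304) (nat_lit 1155765786) (nat_lit 68) (nat_lit 5) (nat_lit 71) (nat_lit 5) (nat_lit 72) (nat_lit 5) (nat_lit 487) (nat_lit 367) (nat_lit 286)))))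 (XT.nd (nat_lit 234) (nat_lit 304) (nat_lit 0) (XT.nd (nat_lit 78) (nat_lit 456) (nat_lit 0) (XT.lf (nat_lit 0) (nat_lit 2666276853) (nat_lit 304) (nat_lit 470652916) (nat_lit 76) (nat_lit 11245848403) (nat_lit 67) (nat_lit 5) (nat_lit 71) (nat_lit 5) (nat_lit 68) (nat_lit 5) (nat_lit 488) (nat_lit 367) (nat_lit 285)) (XT.nd (nat_lit 78) (nat_lit 228) (nat_lit 0) (XT.lf (nat_lit 0) (nat_lit 6582411587) (nat_lit 304) (nat_lit 6576968023) (nat_lit 76) (nat_lit 1409455068) (nat_lit 64) (nat_lit 5) (nat_lit 68) (nat_lit 5) (nat_lit 65) (nat_lit 5) (nat_lit 489) (nat_lit 367) (nat_lit 284)) (XT.lf (nat_lit 0) (nat_lit 1827647675) (nat_lit 228) (nat_lit 8757058658) (nat_lit 304) (nat_lit 4173754220) (nat_lit 61) (nat_lit 5) (nat_lit 64) (nat_lit 5) (nat_lit 65) (nat_lit 5) (nat_lit 490) (nat_lit 367) (nat_lit 283)))) (XT.nd (nat_lit 78) (nat_lit 304) (nat_lit 0) (XT.lf (nat_lit 0) (nat_lit 10442823132) (nat_lit 228) (nat_lit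 4240621730) (nat_lit 304) (nat_lit 268111011) (nat_lit 61) (nat_lit 5) (nat_lit 64) (nat_lit 5) (nat_lit 65) (nat_lit 5) (nat_lit 491) (nat_lit 367) (nat_lit 282)) (XT.nd (nat_lit 78) (nat_lit 0) (nat_lit 0) (XT.lf (nat_lit 0) (nat_lit 3668517336) (nat_lit 304) (nat_lit 11085807615) (nat_lit 76) (nat_lit 393678284) (nat_lit 57) (nat_lit 5) (nat_lit 61) (nat_lit 5) (nat_lit 58) (nat_lit 5) (nat_lit 492) (nat_lit 367) (nat_lit 281)) (XT.lf (nat_lit 0) (nat_lit 7711571394) (nat_lit 304) (nat_lit 2558435027) (nat_lit 76) (nat_lit 5077716621) (nat_lit 57) (nat_lit 5) (nat_lit 61) (nat_lit 5) (nat_lit 58) (nat_lit 5) (nat_lit 493) (nat_lit 367) (nat_lit 280))))))))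
noncomputable def xc62 : XT := (XT.nd (nat_lit 53040) (nat_lit 0) (nat_lit 18620) (XT.nd (nat_lit 780) (nat_lit 152) (nat_lit 0) (XT.nd (nat_lit 390) (nat_lit 760) (nat_lit 0) (XT.nd (nat_lit 156) (nat_lit 380) (nat_lit 0) (XT.nd (nat_lit 78) (nat_lit 76) (nat_lit 0) (XT.lf (nat_lit 0) (nat_lit 6175119202) (nat_lit 228) (nat_lit 5673734680) (nat_lit 304) (nat_lit 3702320530) (nat_lit 54) (nat_lit 5) (nat_lit 57) (nat_lit 5) (nat_lit 58) (nat_lit 5) (nat_lit 494) (nat_lit 367) (nat_lit 279)) (XT.lf (nat_lit 0) (nat_lit 296727250) (nat_lit 304) (nat_lit 687868355) (nat_lit 76) (nat_lit 14774251100) (nat_lit 53) (nat_lit 5) (nat_lit 57) (nat_lit 5) (nat_lit 54) (nat_lit 5) (nat_lit 495) (nat_lit 367) (nat_lit 278))) (XT.nd (nat_lit 78) (nat_lit 152) (nat_lit 0) (XT.lf (nat_lit 0) (nat_lit 4378457432) (nat_lit 304) (nat_lit 7781948670) (nat_lit 76) (nat_lit 3808735638) (nat_lit 50) (nat_lit 5) (nat_lit 54) (nat_lit 5) (nat_lit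 51) (nat_lit 5) (nat_lit 496) (nat_lit 367) (nat_lit 277)) (XT.nd (nat_lit 78) (nat_lit 0) (nat_lit 0) (XT.lf (nat_lit 0) (nat_lit 1027824143) (nat_lit 152) (nat_lit 7505794233) (nat_lit 228) (nat_lit 7650192548) (nat_lit 48) (nat_lit 5) (nat_lit 50) (nat_lit 5) (nat_lit 51) (nat_lit 5) (nat_lit 497) (nat_lit 367) (nat_lit 276)) (XT.lf (nat_lit 0) (nat_lit 10074937934) (nat_lit 152) (nat_lit 2723344170) (nat_lit 228) (nat_lit 3603967485) (nat_lit 48) (nat_lit 5) (nat_lit 50) (nat_lit 5) (nat_lit 51) (nat_lit 5) (nat_lit 498) (nat_lit 367) (nat_lit 275))))) (XT.nd (nat_lit 156) (nat_lit 456) (nat_lit 0) (XT.nd (nat_lit 78) (nat_lit 0) (nat_lit 0) (XT.lf (nat_lit 0) (nat_lit 522149369) (nat_lit 304) (nat_lit 13973477780) (nat_lit 76) (nat_lit 2129249291) (nat_lit 44) (nat_lit 5) (nat_lit 48) (nat_lit 5) (nat_lit 45) (nat_lit 5) (nat_lit 499) (nat_lit 367) (nat_lit 274)) (XT.lf (nat_lit 0) (nat_lit 4717964619) (nat_lit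 304) (nat_lit 5041755505) (nat_lit 76) (nat_lit 7091054452) (nat_lit 44) (nat_lit 5) (nat_lit 48) (nat_lit 5) (nat_lit 45) (nat_lit 5) (nat_lit 500) (nat_lit 367) (nat_lit 273))) (XT.nd (nat_lit 78) (nat_lit 304) (nat_lit 0) (XT.lf (nat_lit 0) (nat_lit 4079043198) (nat_lit 152) (nat_lit 4920246534) (nat_lit 228) (nat_lit 8081872847) (nat_lit 42) (nat_lit 5) (nat_lit 44) (nat_lit 5) (nat_lit 45) (nat_lit 5) (nat_lit 501) (nat_lit 367) (nat_lit 272)) (XT.nd (nat_lit 78) (nat_lit 304) (nat_lit 0) (XT.lf (nat_lit 0) (nat_lit 13375604808) (nat_lit 228) (nat_lit 3908361514) (nat_lit 76) (nat_lit 32008453) (nat_lit 42) (nat_lit 5) (nat_lit 45) (nat_lit 5) (nat_lit 43) (nat_lit 5) (nat_lit 502) (nat_lit 367) (nat_lit 271)) (XT.lf (nat_lit 0) (nat_lit 323612048) (nat_lit 304) (nat_lit 12194039849) (nat_lit 76) (nat_lit 5036930539) (nat_lit 38) (nat_lit 5) (nat_lit 42) (nat_lit 5) (nat_lit 39) (nat_lit 5) (nat_lit 503) (nat_lit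 367) (nat_lit 270)))))) (XT.nd (nat_lit 51792) (nat_lit 0) (nat_lit 35568) (XT.nd (nat_lit 51558) (nat_lit 0) (nat_lit 40812) (XT.nd (nat_lit 78) (nat_lit 152) (nat_lit 0) (XT.lf (nat_lit 0) (nat_lit 4622291782) (nat_lit 304) (nat_lit 2998256487) (nat_lit 76) (nat_lit 10176852962) (nat_lit 38) (nat_lit 5) (nat_lit 42) (nat_lit 5) (nat_lit 39) (nat_lit 5) (nat_lit 504) (nat_lit 367) (nat_lit 269)) (XT.lf (nat_lit 0) (nat_lit 6424173631) (nat_lit 152) (nat_lit 2600686827) (nat_lit 228) (nat_lit 9019861057) (nat_lit 36) (nat_lit 5) (nat_lit 38) (nat_lit 5) (nat_lit 39) (nat_lit 5) (nat_lit 505) (nat_lit 367) (nat_lit 268))) (XT.nd (nat_lit 78) (nat_lit 1140) (nat_lit 0) (XT.lf (nat_lit 0) (nat_lit 1606618666) (nat_lit 988) (nat_lit 878044859) (nat_lit 988) (nat_lit 878044859) (nat_lit 588) (nat_lit 4) (nat_lit 601) (nat_lit 5) (nat_lit 601) (nat_lit 4) (nat_lit 404) (nat_lit 368) (nat_lit 368)) (XT.nd (nat_lit 78) (nat_lit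 0) (nat_lit 0) (XT.lf (nat_lit 0) (nat_lit 791223486) (nat_lit 1064) (nat_lit 651314040) (nat_lit 1140) (nat_lit 5307446274) (nat_lit 573) (nat_lit 5) (nat_lit 587) (nat_lit 5) (nat_lit 588) (nat_lit 4) (nat_lit 405) (nat_lit 368) (nat_lit 367)) (XT.lf (nat_lit 0) (nat_lit 4638569442) (nat_lit 1140) (nat_lit 1619933906) (nat_lit 0) (nat_lit 517213538) (nat_lit 573) (nat_lit 5) (nat_lit 588) (nat_lit 4) (nat_lit 573) (nat_lit 4) (nat_lit 406) (nat_lit 368) (nat_lit 366))))) (XT.nd (nat_lit 234) (nat_lit 2736) (nat_lit 0) (XT.nd (nat_lit 78) (nat_lit 1292) (nat_lit 0) (XT.lf (nat_lit 0) (nat_lit 1035672207) (nat_lit 1216) (nat_lit 4029567848) (nat_lit 76) (nat_lit 1737556272) (nat_lit 557) (nat_lit 5) (nat_lit 573) (nat_lit 5) (nat_lit 558) (nat_lit 4) (nat_lit 407) (nat_lit 368) (nat_lit 365)) (XT.nd (nat_lit 78) (nat_lit 76) (nat_lit 0) (XT.lf (nat_lit 0) (nat_lit 378544225) (nat_lit 1216) (nat_lit 3810177933) (nat_lit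 1292) (nat_lit 2642548015) (nat_lit 541) (nat_lit 5) (nat_lit 557) (nat_lit 5) (nat_lit 558) (nat_lit 4) (nat_lit 408) (nat_lit 368) (nat_lit 364)) (XT.lf (nat_lit 0) (nat_lit 497033577) (nat_lit 1292) (nat_lit 1992811133) (nat_lit 76) (nat_lit 4371246445) (nat_lit 540) (nat_lit 5) (nat_lit 557) (nat_lit 5) (nat_lit 541) (nat_lit 5) (nat_lit 409) (nat_lit 368) (nat_lit 363)))) (XT.nd (nat_lit 78) (nat_lit 1444) (nat_lit 0) (XT.lf (nat_lit 0) (nat_lit 2514163221) (nat_lit 1292) (nat_lit 1099977181) (nat_lit 1368) (nat_lit 3278057126) (nat_lit 523) (nat_lit 5) (nat_lit 540) (nat_lit 5) (nat_lit 541) (nat_lit 5) (nat_lit 410) (nat_lit 368) (nat_lit 362)) (XT.nd (nat_lit 78) (nat_lit 76) (nat_lit 0) (XT.lf (nat_lit 0) (nat_lit 155893261) (nat_lit 1368) (nat_lit 6588972576) (nat_lit 1444) (nat_lit 180074528) (nat_lit 505) (nat_lit 5) (nat_lit 523) (nat_lit 5) (nat_lit 524) (nat_lit 4) (nat_lit 411) (nat_lit 368) (nat_lit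 361)) (XT.lf (nat_lit 0) (nat_lit 2912821258) (nat_lit 1444) (nat_lit 2203877872) (nat_lit 76) (nat_lit 1841849599) (nat_lit 504) (nat_lit 5) (nat_lit 523) (nat_lit 5) (nat_lit 505) (nat_lit 5) (nat_lit 412) (nat_lit 368) (nat_lit 360))))))) (XT.nd (nat_lit 858) (nat_lit 5776) (nat_lit 0) (XT.nd (nat_lit 390) (nat_lit 4788) (nat_lit 0) (XT.nd (nat_lit 156) (nat_lit 3344) (nat_lit 0) (XT.nd (nat_lit 78) (nat_lit 1596) (nat_lit 0) (XT.lf (nat_lit 0) (nat_lit 2425223436) (nat_lit 1444) (nat_lit 3592136724) (nat_lit 1520) (nat_lit 976438933) (nat_lit 485) (nat_lit 5) (nat_lit 504) (nat_lit 5) (nat_lit 505) (nat_lit 5) (nat_lit 413) (nat_lit 368) (nat_lit 359)) (XT.lf (nat_lit 0) (nat_lit 75751456) (nat_lit 1520) (nat_lit 2002478335) (nat_lit 1596) (nat_lit 4952236094) (nat_lit 464) (nat_lit 5) (nat_lit 484) (nat_lit 5) (nat_lit 485) (nat_lit 5) (nat_lit 414) (nat_lit 368) (nat_lit 358))) (XT.nd (nat_lit 78) (nat_lit 3344)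 (nat_lit 0) (XT.lf (nat_lit 0) (nat_lit 4810246066) (nat_lit 1520) (nat_lit 339027863) (nat_lit 1596) (nat_lit 1919131267) (nat_lit 464) (nat_lit 5) (nat_lit 484) (nat_lit 5) (nat_lit 485) (nat_lit 5) (nat_lit 415) (nat_lit 368) (nat_lit 357)) (XT.nd (nat_lit 78) (nat_lit 1672) (nat_lit 0) (XT.lf (nat_lit 0) (nat_lit 1122968357) (nat_lit 1672) (nat_lit 4617209330) (nat_lit 76) (nat_lit 1367532335) (nat_lit 442) (nat_lit 5) (nat_lit 464) (nat_lit 5) (nat_lit 443) (nat_lit 5) (nat_lit 416) (nat_lit 368) (nat_lit 356)) (XT.lf (nat_lit 0) (nat_lit 145403672) (nat_lit 1672) (nat_lit 4012641753) (nat_lit 1748) (nat_lit 2990378516) (nat_lit 420) (nat_lit 5) (nat_lit 442) (nat_lit 5) (nat_lit 443) (nat_lit 5) (nat_lit 417) (nat_lit 368) (nat_lit 355))))) (XT.nd (nat_lit 234) (nat_lit 1900) (nat_lit 0) (XT.nd (nat_lit 78) (nat_lit 2812) (nat_lit 0) (XT.lf (nat_lit 0) (nat_lit 33970711) (nat_lit 1748) (nat_lit 2183236618) (nat_lit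 76) (nat_lit 4973349848) (nat_lit 419) (nat_lit 5) (nat_lit 442) (nat_lit 5) (nat_lit 420) (nat_lit 5) (nat_lit 418) (nat_lit 368) (nat_lit 354)) (XT.nd (nat_lit 78) (nat_lit 1064) (nat_lit 0) (XT.lf (nat_lit 0) (nat_lit 2690443454) (nat_lit 1748) (nat_lit 346756707) (nat_lit 1824) (nat_lit 4196800334) (nat_lit 396) (nat_lit 5) (nat_lit 419) (nat_lit 5) (nat_lit 420) (nat_lit 5) (nat_lit 419) (nat_lit 368) (nat_lit 353)) (XT.lf (nat_lit 0) (nat_lit 348711854) (nat_lit 1064) (nat_lit 5720647400) (nat_lit 1140) (nat_lit 1209606940) (nat_lit 382) (nat_lit 5) (nat_lit 396) (nat_lit 5) (nat_lit 397) (nat_lit 5) (nat_lit 420) (nat_lit 368) (nat_lit 352)))) (XT.nd (nat_lit 78) (nat_lit 1824) (nat_lit 0) (XT.lf (nat_lit 0) (nat_lit 1788291757) (nat_lit 1140) (nat_lit 1997446924) (nat_lit 76) (nat_lit 3539382399) (nat_lit 381) (nat_lit 5) (nat_lit 396) (nat_lit 5) (nat_lit 382) (nat_lit 5) (nat_lit 421) (nat_lit 368) (nat_lit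 351)) (XT.nd (nat_lit 78) (nat_lit 912) (nat_lit 0) (XT.lf (nat_lit 0) (nat_lit 3007396326) (nat_lit 912) (nat_lit 1785302866) (nat_lit 988) (nat_lit 2580114052) (nat_lit 369) (nat_lit 5) (nat_lit 381) (nat_lit 5) (nat_lit 382) (nat_lit 5) (nat_lit 422) (nat_lit 368) (nat_lit 350)) (XT.lf (nat_lit 0) (nat_lit 393161284) (nat_lit 912) (nat_lit 6758399545) (nat_lit 76) (nat_lit 270606942) (nat_lit 357) (nat_lit 5) (nat_lit 369) (nat_lit 5) (nat_lit 358) (nat_lit 5) (nat_lit 423) (nat_lit 368) (nat_lit 349)))))) (XT.nd (nat_lit 390) (nat_lit 3116) (nat_lit 0) (XT.nd (nat_lit 156) (nat_lit 1824) (nat_lit 0) (XT.nd (nat_lit 78) (nat_lit 836) (nat_lit 0) (XT.lf (nat_lit 0) (nat_lit 3376958996) (nat_lit 912) (nat_lit 1707506672) (nat_lit 76) (nat_lit 2388017903) (nat_lit 357) (nat_lit 5) (nat_lit 369) (nat_lit 5) (nat_lit 358) (nat_lit 5) (nat_lit 424) (nat_lit 368) (nat_lit 348)) (XT.lf (nat_lit 0) (nat_lit 3431377215) (nat_lit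 836) (nat_lit 2956688003) (nat_lit 912) (nat_lit 1136414646) (nat_lit 346) (nat_lit 5) (nat_lit 357) (nat_lit 5) (nat_lit 358) (nat_lit 5) (nat_lit 425) (nat_lit 368) (nat_lit 347))) (XT.nd (nat_lit 78) (nat_lit 912) (nat_lit 0) (XT.lf (nat_lit 0) (nat_lit 1062137378) (nat_lit 836) (nat_lit 759156941) (nat_lit 912) (nat_lit 5756721221) (nat_lit 334) (nat_lit 5) (nat_lit 345) (nat_lit 5) (nat_lit 346) (nat_lit 5) (nat_lit 426) (nat_lit 368) (nat_lit 346)) (XT.nd (nat_lit 78) (nat_lit 912) (nat_lit 0) (XT.lf (nat_lit 0) (nat_lit 4806556181) (nat_lit 912) (nat_lit 1332520999) (nat_lit 76) (nat_lit 1493747493) (nat_lit 334) (nat_lit 5) (nat_lit 346) (nat_lit 5) (nat_lit 335) (nat_lit 5) (nat_lit 427) (nat_lit 368) (nat_lit 345)) (XT.lf (nat_lit 0) (nat_lit 138498454) (nat_lit 912) (nat_lit 3746836447) (nat_lit 76) (nat_lit 3803841441) (nat_lit 322) (nat_lit 5) (nat_lit 334) (nat_lit 5) (nat_lit 323) (nat_lit 5) (nat_lit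 428) (nat_lit 368) (nat_lit 344))))) (XT.nd (nat_lit 234) (nat_lit 1520) (nat_lit 0) (XT.nd (nat_lit 78) (nat_lit 836) (nat_lit 0) (XT.lf (nat_lit 0) (nat_lit 1537410306) (nat_lit 760) (nat_lit 1553995620) (nat_lit 836) (nat_lit 4655565531) (nat_lit 312) (nat_lit 5) (nat_lit 322) (nat_lit 5) (nat_lit 323) (nat_lit 5) (nat_lit 429) (nat_lit 368) (nat_lit 343)) (XT.nd (nat_lit 78) (nat_lit 836) (nat_lit 0) (XT.lf (nat_lit 0) (nat_lit 6082311629) (nat_lit 836) (nat_lit 891699281) (nat_lit 76) (nat_lit 832356119) (nat_lit 312) (nat_lit 5) (nat_lit 323) (nat_lit 5) (nat_lit 313) (nat_lit 5) (nat_lit 430) (nat_lit 368) (nat_lit 342)) (XT.lf (nat_lit 0) (nat_lit 1238341941) (nat_lit 836) (nat_lit 3351522021) (nat_lit 76) (nat_lit 3277167354) (nat_lit 301) (nat_lit 5) (nat_lit 312) (nat_lit 5) (nat_lit 302) (nat_lit 5) (nat_lit 431) (nat_lit 368) (nat_lit 341)))) (XT.nd (nat_lit 78) (nat_lit 836) (nat_lit 0) (XT.lf (nat_lit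 0) (nat_lit 2071822789) (nat_lit 684) (nat_lit 2134138602) (nat_lit 760) (nat_lit 3723360401) (nat_lit 292) (nat_lit 5) (nat_lit 301) (nat_lit 5) (nat_lit 302) (nat_lit 5) (nat_lit 432) (nat_lit 368) (nat_lit 340)) (XT.nd (nat_lit 78) (nat_lit 836) (nat_lit 0) (XT.lf (nat_lit 0) (nat_lit 7208105709) (nat_lit 760) (nat_lit 404536323) (nat_lit 76) (nat_lit 380734174) (nat_lit 292) (nat_lit 5) (nat_lit 302) (nat_lit 5) (nat_lit 293) (nat_lit 5) (nat_lit 433) (nat_lit 368) (nat_lit 339)) (XT.lf (nat_lit 0) (nat_lit 2181243553) (nat_lit 836) (nat_lit 2919656276) (nat_lit 76) (nat_lit 2957572083) (nat_lit 281) (nat_lit 5) (nat_lit 292) (nat_lit 5) (nat_lit 282) (nat_lit 5) (nat_lit 434) (nat_lit 368) (nat_lit 338))))))))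
noncomputable def xc63 : XT := (XT.nd (nat_lit 1638) (nat_lit 6004) (nat_lit 0) (XT.nd (nat_lit 780) (nat_lit 3876) (nat_lit 0) (XT.nd (nat_lit 390) (nat_lit 1824) (nat_lit 0) (XT.nd (nat_lit 156) (nat_lit 1368) (nat_lit 0) (XT.nd (nat_lit 78) (nat_lit 684) (nat_lit 0) (XT.lf (nat_lit 0) (nat_lit 2645403073) (nat_lit 684) (nat_lit 2522439908) (nat_lit 760) (nat_lit 2957517675) (nat_lit 272) (nat_lit 5) (nat_lit 281) (nat_lit 5) (nat_lit 282) (nat_lit 5) (nat_lit 435) (nat_lit 368) (nat_lit 337)) (XT.lf (nat_lit 0) (nat_lit 110448245) (nat_lit 684) (nat_lit 8076736338) (nat_lit 760) (nat_lit 6962321) (nat_lit 263) (nat_lit 5) (nat_lit 272) (nat_lit 5) (nat_lit 273) (nat_lit 5) (nat_lit 436) (nat_lit 368) (nat_lit 336))) (XT.nd (nat_lit 78) (nat_lit 1292) (nat_lit 0) (XT.lf (nat_lit 0) (nat_lit 2969051921) (nat_lit 760) (nat_lit 2471661274) (nat_lit 76) (nat_lit 2823108395) (nat_lit 262) (nat_lit 5) (nat_lit 272) (nat_lit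 5) (nat_lit 263) (nat_lit 5) (nat_lit 437) (nat_lit 368) (nat_lit 335)) (XT.nd (nat_lit 78) (nat_lit 684) (nat_lit 0) (XT.lf (nat_lit 0) (nat_lit 3237592166) (nat_lit 608) (nat_lit 2740966488) (nat_lit 684) (nat_lit 2356867670) (nat_lit 254) (nat_lit 5) (nat_lit 262) (nat_lit 5) (nat_lit 263) (nat_lit 5) (nat_lit 438) (nat_lit 368) (nat_lit 334)) (XT.lf (nat_lit 0) (nat_lit 605651973) (nat_lit 684) (nat_lit 7776357108) (nat_lit 76) (nat_lit 26904035) (nat_lit 245) (nat_lit 5) (nat_lit 254) (nat_lit 5) (nat_lit 246) (nat_lit 5) (nat_lit 439) (nat_lit 368) (nat_lit 333))))) (XT.nd (nat_lit 156) (nat_lit 1216) (nat_lit 0) (XT.nd (nat_lit 78) (nat_lit 608) (nat_lit 0) (XT.lf (nat_lit 0) (nat_lit 3602222125) (nat_lit 684) (nat_lit 2028706929) (nat_lit 76) (nat_lit 2852519542) (nat_lit 245) (nat_lit 5) (nat_lit 254) (nat_lit 5) (nat_lit 246) (nat_lit 5) (nat_lit 440) (nat_lit 368) (nat_lit 332)) (XT.lf (nat_lit 0) (nat_lit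 3827038664) (nat_lit 608) (nat_lit 2811181001) (nat_lit 684) (nat_lit 1921682555) (nat_lit 237) (nat_lit 5) (nat_lit 245) (nat_lit 5) (nat_lit 246) (nat_lit 5) (nat_lit 441) (nat_lit 368) (nat_lit 331))) (XT.nd (nat_lit 78) (nat_lit 532) (nat_lit 0) (XT.lf (nat_lit 0) (nat_lit 1059156994) (nat_lit 684) (nat_lit 7498533283) (nat_lit 76) (nat_lit 80539006) (nat_lit 228) (nat_lit 5) (nat_lit 237) (nat_lit 5) (nat_lit 229) (nat_lit 5) (nat_lit 442) (nat_lit 368) (nat_lit 330)) (XT.nd (nat_lit 78) (nat_lit 532) (nat_lit 0) (XT.lf (nat_lit 0) (nat_lit 4079785283) (nat_lit 684) (nat_lit 1612922948) (nat_lit 76) (nat_lit 3025058898) (nat_lit 228) (nat_lit 5) (nat_lit 237) (nat_lit 5) (nat_lit 229) (nat_lit 5) (nat_lit 443) (nat_lit 368) (nat_lit 329)) (XT.lf (nat_lit 0) (nat_lit 4391382164) (nat_lit 532) (nat_lit 2754124166) (nat_lit 608) (nat_lit 1653711829) (nat_lit 221) (nat_lit 5) (nat_lit 228) (nat_lit 5) (nat_lit 229)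 (nat_lit 5) (nat_lit 444) (nat_lit 368) (nat_lit 328)))))) (XT.nd (nat_lit 390) (nat_lit 2052) (nat_lit 0) (XT.nd (nat_lit 156) (nat_lit 1140) (nat_lit 0) (XT.nd (nat_lit 78) (nat_lit 0) (nat_lit 0) (XT.lf (nat_lit 0) (nat_lit 1351418542) (nat_lit 684) (nat_lit 7273525257) (nat_lit 76) (nat_lit 257601129) (nat_lit 212) (nat_lit 5) (nat_lit 221) (nat_lit 5) (nat_lit 213) (nat_lit 5) (nat_lit 445) (nat_lit 368) (nat_lit 327)) (XT.lf (nat_lit 0) (nat_lit 4399305946) (nat_lit 684) (nat_lit 1247623589) (nat_lit 76) (nat_lit 3320309230) (nat_lit 212) (nat_lit 5) (nat_lit 221) (nat_lit 5) (nat_lit 213) (nat_lit 5) (nat_lit 446) (nat_lit 368) (nat_lit 326))) (XT.nd (nat_lit 78) (nat_lit 608) (nat_lit 0) (XT.lf (nat_lit 0) (nat_lit 4907023278) (nat_lit 532) (nat_lit 2590598163) (nat_lit 608) (nat_lit 1556230443) (nat_lit 205) (nat_lit 5) (nat_lit 212) (nat_lit 5) (nat_lit 213) (nat_lit 5) (nat_lit 447) (nat_lit 368) (nat_lit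 325)) (XT.nd (nat_lit 78) (nat_lit 0) (nat_lit 0) (XT.lf (nat_lit 0) (nat_lit 1478694183) (nat_lit 608) (nat_lit 7126060078) (nat_lit 76) (nat_lit 537603081) (nat_lit 197) (nat_lit 5) (nat_lit 205) (nat_lit 5) (nat_lit 198) (nat_lit 5) (nat_lit 448) (nat_lit 368) (nat_lit 324)) (XT.lf (nat_lit 0) (nat_lit 4556826727) (nat_lit 608) (nat_lit 957547331) (nat_lit 76) (nat_lit 3718000128) (nat_lit 197) (nat_lit 5) (nat_lit 205) (nat_lit 5) (nat_lit 198) (nat_lit 5) (nat_lit 449) (nat_lit 368) (nat_lit 323))))) (XT.nd (nat_lit 234) (nat_lit 988) (nat_lit 0) (XT.nd (nat_lit 78) (nat_lit 608) (nat_lit 0) (XT.lf (nat_lit 0) (nat_lit 5348878102) (nat_lit 456) (nat_lit 2341352580) (nat_lit 532) (nat_lit 1634100192) (nat_lit 191) (nat_lit 5) (nat_lit 197) (nat_lit 5) (nat_lit 198) (nat_lit 5) (nat_lit 450) (nat_lit 368) (nat_lit 322)) (XT.nd (nat_lit 78) (nat_lit 0) (nat_lit 0) (XT.lf (nat_lit 0) (nat_lit 1435658426) (nat_lit 608)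 (nat_lit 7082502366) (nat_lit 76) (nat_lit 900053653) (nat_lit 183) (nat_lit 5) (nat_lit 191) (nat_lit 5) (nat_lit 184) (nat_lit 5) (nat_lit 451) (nat_lit 368) (nat_lit 321)) (XT.lf (nat_lit 0) (nat_lit 4546799448) (nat_lit 608) (nat_lit 769113684) (nat_lit 76) (nat_lit 4197822065) (nat_lit 183) (nat_lit 5) (nat_lit 191) (nat_lit 5) (nat_lit 184) (nat_lit 5) (nat_lit 452) (nat_lit 368) (nat_lit 320)))) (XT.nd (nat_lit 78) (nat_lit 532) (nat_lit 0) (XT.lf (nat_lit 0) (nat_lit 5690114837) (nat_lit 456) (nat_lit 2027274492) (nat_lit 532) (nat_lit 1893845155) (nat_lit 177) (nat_lit 5) (nat_lit 183) (nat_lit 5) (nat_lit 184) (nat_lit 5) (nat_lit 453) (nat_lit 368) (nat_lit 319)) (XT.nd (nat_lit 78) (nat_lit 0) (nat_lit 0) (XT.lf (nat_lit 0) (nat_lit 1215322437) (nat_lit 532) (nat_lit 7171127181) (nat_lit 76) (nat_lit 1324267433) (nat_lit 170) (nat_lit 5) (nat_lit 177) (nat_lit 5) (nat_lit 171) (nat_lit 5) (nat_lit 454) (nat_lit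 368) (nat_lit 318)) (XT.lf (nat_lit 0) (nat_lit 4362001976) (nat_lit 532) (nat_lit 710699575) (nat_lit 76) (nat_lit 4739235521) (nat_lit 170) (nat_lit 5) (nat_lit 177) (nat_lit 5) (nat_lit 171) (nat_lit 5) (nat_lit 455) (nat_lit 368) (nat_lit 317))))))) (XT.nd (nat_lit 858) (nat_lit 2508) (nat_lit 0) (XT.nd (nat_lit 390) (nat_lit 1596) (nat_lit 0) (XT.nd (nat_lit 156) (nat_lit 912) (nat_lit 0) (XT.nd (nat_lit 78) (nat_lit 532) (nat_lit 0) (XT.lf (nat_lit 0) (nat_lit 5901870068) (nat_lit 456) (nat_lit 1669584267) (nat_lit 532) (nat_lit 2343742052) (nat_lit 164) (nat_lit 5) (nat_lit 170) (nat_lit 5) (nat_lit 171) (nat_lit 5) (nat_lit 456) (nat_lit 368) (nat_lit 316)) (XT.lf (nat_lit 0) (nat_lit 808938671) (nat_lit 532) (nat_lit 7422414568) (nat_lit 76) (nat_lit 1789168236) (nat_lit 157) (nat_lit 5) (nat_lit 164) (nat_lit 5) (nat_lit 158) (nat_lit 5) (nat_lit 457) (nat_lit 368) (nat_lit 315))) (XT.nd (nat_lit 78) (nat_lit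 912) (nat_lit 0) (XT.lf (nat_lit 0) (nat_lit 3993439797) (nat_lit 532) (nat_lit 812937942) (nat_lit 76) (nat_lit 5321273497) (nat_lit 157) (nat_lit 5) (nat_lit 164) (nat_lit 5) (nat_lit 158) (nat_lit 5) (nat_lit 458) (nat_lit 368) (nat_lit 314)) (XT.nd (nat_lit 78) (nat_lit 532) (nat_lit 0) (XT.lf (nat_lit 0) (nat_lit 5952941996) (nat_lit 380) (nat_lit 1290038830) (nat_lit 456) (nat_lit 2993926557) (nat_lit 152) (nat_lit 5) (nat_lit 157) (nat_lit 5) (nat_lit 158) (nat_lit 5) (nat_lit 459) (nat_lit 368) (nat_lit 313)) (XT.lf (nat_lit 0) (nat_lit 205889353) (nat_lit 532) (nat_lit 7869368576) (nat_lit 76) (nat_lit 2273084565) (nat_lit 145) (nat_lit 5) (nat_lit 152) (nat_lit 5) (nat_lit 146) (nat_lit 5) (nat_lit 460) (nat_lit 368) (nat_lit 312))))) (XT.nd (nat_lit 234) (nat_lit 836) (nat_lit 0) (XT.nd (nat_lit 78) (nat_lit 760) (nat_lit 0) (XT.lf (nat_lit 0) (nat_lit 3430231229) (nat_lit 532) (nat_lit 1109041383) (nat_lit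 76) (nat_lit 5922335696) (nat_lit 145) (nat_lit 5) (nat_lit 152) (nat_lit 5) (nat_lit 146) (nat_lit 5) (nat_lit 461) (nat_lit 368) (nat_lit 311)) (XT.nd (nat_lit 78) (nat_lit 380) (nat_lit 0) (XT.lf (nat_lit 0) (nat_lit 5809457662) (nat_lit 380) (nat_lit 911144174) (nat_lit 456) (nat_lit 3856516733) (nat_lit 140) (nat_lit 5) (nat_lit 145) (nat_lit 5) (nat_lit 146) (nat_lit 5) (nat_lit 462) (nat_lit 368) (nat_lit 310)) (XT.lf (nat_lit 0) (nat_lit 2143023322) (nat_lit 380) (nat_lit 7937351870) (nat_lit 456) (nat_lit 614501708) (nat_lit 135) (nat_lit 5) (nat_lit 140) (nat_lit 5) (nat_lit 141) (nat_lit 5) (nat_lit 463) (nat_lit 368) (nat_lit 309)))) (XT.nd (nat_lit 78) (nat_lit 760) (nat_lit 0) (XT.lf (nat_lit 0) (nat_lit 2659475016) (nat_lit 456) (nat_lit 1635154001) (nat_lit 76) (nat_lit 6519972520) (nat_lit 134) (nat_lit 5) (nat_lit 140) (nat_lit 5) (nat_lit 135) (nat_lit 5) (nat_lit 464) (nat_lit 368) (nat_lit 308))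 (XT.nd (nat_lit 78) (nat_lit 380) (nat_lit 0) (XT.lf (nat_lit 0) (nat_lit 5434510962) (nat_lit 380) (nat_lit 556379025) (nat_lit 456) (nat_lit 4945754915) (nat_lit 129) (nat_lit 5) (nat_lit 134) (nat_lit 5) (nat_lit 135) (nat_lit 5) (nat_lit 465) (nat_lit 368) (nat_lit 307)) (XT.lf (nat_lit 0) (nat_lit 1553159065) (nat_lit 380) (nat_lit 7843178533) (nat_lit 456) (nat_lit 1664652475) (nat_lit 124) (nat_lit 5) (nat_lit 129) (nat_lit 5) (nat_lit 130) (nat_lit 5) (nat_lit 466) (nat_lit 368) (nat_lit 306)))))) (XT.nd (nat_lit 390) (nat_lit 1368) (nat_lit 0) (XT.nd (nat_lit 156) (nat_lit 760) (nat_lit 0) (XT.nd (nat_lit 78) (nat_lit 304) (nat_lit 0) (XT.lf (nat_lit 0) (nat_lit 1666098899) (nat_lit 456) (nat_lit 2430734830) (nat_lit 76) (nat_lit 7090656923) (nat_lit 123) (nat_lit 5) (nat_lit 129) (nat_lit 5) (nat_lit 124) (nat_lit 5) (nat_lit 467) (nat_lit 368) (nat_lit 305)) (XT.lf (nat_lit 0) (nat_lit 4787767935) (nat_lit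 304) (nat_lit 250431716) (nat_lit 380) (nat_lit 6278169551) (nat_lit 119) (nat_lit 5) (nat_lit 123) (nat_lit 5) (nat_lit 124) (nat_lit 5) (nat_lit 468) (nat_lit 368) (nat_lit 304))) (XT.nd (nat_lit 78) (nat_lit 380) (nat_lit 0) (XT.lf (nat_lit 0) (nat_lit 668777364) (nat_lit 380) (nat_lit 7819709318) (nat_lit 456) (nat_lit 2959132096) (nat_lit 114) (nat_lit 5) (nat_lit 119) (nat_lit 5) (nat_lit 120) (nat_lit 5) (nat_lit 469) (nat_lit 368) (nat_lit 303)) (XT.nd (nat_lit 78) (nat_lit 304) (nat_lit 0) (XT.lf (nat_lit 0) (nat_lit 432687557) (nat_lit 456) (nat_lit 3538976586) (nat_lit 76) (nat_lit 7609542018) (nat_lit 113) (nat_lit 5) (nat_lit 119) (nat_lit 5) (nat_lit 114) (nat_lit 5) (nat_lit 470) (nat_lit 368) (nat_lit 302)) (XT.lf (nat_lit 0) (nat_lit 3825035479) (nat_lit 304) (nat_lit 19452441) (nat_lit 380) (nat_lit 7872758693) (nat_lit 109) (nat_lit 5) (nat_lit 113) (nat_lit 5) (nat_lit 114) (nat_lit 5) (nat_lit 471)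 (nat_lit 368) (nat_lit 301))))) (XT.nd (nat_lit 234) (nat_lit 684) (nat_lit 0) (XT.nd (nat_lit 78) (nat_lit 684) (nat_lit 0) (XT.lf (nat_lit 0) (nat_lit 7341573894) (nat_lit 380) (nat_lit 548866070) (nat_lit 76) (nat_lit 3965234623) (nat_lit 109) (nat_lit 5) (nat_lit 114) (nat_lit 5) (nat_lit 110) (nat_lit 5) (nat_lit 472) (nat_lit 368) (nat_lit 300)) (XT.nd (nat_lit 78) (nat_lit 380) (nat_lit 0) (XT.lf (nat_lit 0) (nat_lit 6982372390) (nat_lit 304) (nat_lit 3939434022) (nat_lit 380) (nat_lit 1074808165) (nat_lit 105) (nat_lit 5) (nat_lit 109) (nat_lit 5) (nat_lit 110) (nat_lit 5) (nat_lit 473) (nat_lit 368) (nat_lit 299)) (XT.lf (nat_lit 0) (nat_lit 2389818126) (nat_lit 380) (nat_lit 9643225885) (nat_lit 76) (nat_lit 107251435) (nat_lit 100) (nat_lit 5) (nat_lit 105) (nat_lit 5) (nat_lit 101) (nat_lit 5) (nat_lit 474) (nat_lit 368) (nat_lit 298)))) (XT.nd (nat_lit 78) (nat_lit 684) (nat_lit 0) (XT.lf (nat_lit 0) (nat_lit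 5937334865) (nat_lit 380) (nat_lit 2143745656) (nat_lit 76) (nat_lit 4205074648) (nat_lit 100) (nat_lit 5) (nat_lit 105) (nat_lit 5) (nat_lit 101) (nat_lit 5) (nat_lit 475) (nat_lit 368) (nat_lit 297)) (XT.nd (nat_lit 78) (nat_lit 380) (nat_lit 0) (XT.lf (nat_lit 0) (nat_lit 5528510139) (nat_lit 304) (nat_lit 4031829829) (nat_lit 380) (nat_lit 2874508337) (nat_lit 96) (nat_lit 5) (nat_lit 100) (nat_lit 5) (nat_lit 101) (nat_lit 5) (nat_lit 476) (nat_lit 368) (nat_lit 296)) (XT.lf (nat_lit 0) (nat_lit 649280208) (nat_lit 380) (nat_lit 11834692510) (nat_lit 76) (nat_lit 102687020) (nat_lit 91) (nat_lit 5) (nat_lit 96) (nat_lit 5) (nat_lit 92) (nat_lit 5) (nat_lit 477) (nat_lit 368) (nat_lit 295))))))))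
noncomputable def xc64 : XT := (XT.nd (nat_lit 1638) (nat_lit 912) (nat_lit 0) (XT.nd (nat_lit 780) (nat_lit 1520) (nat_lit 0) (XT.nd (nat_lit 390) (nat_lit 836) (nat_lit 0) (XT.nd (nat_lit 156) (nat_lit 608) (nat_lit 0) (XT.nd (nat_lit 78) (nat_lit 304) (nat_lit 0) (XT.lf (nat_lit 0) (nat_lit 4247340501) (nat_lit 380) (nat_lit 4179563802) (nat_lit 76) (nat_lit 4313383951) (nat_lit 91) (nat_lit 5) (nat_lit 96) (nat_lit 5) (nat_lit 92) (nat_lit 5) (nat_lit 478) (nat_lit 368) (nat_lit 294)) (XT.lf (nat_lit 0) (nat_lit 3627224466) (nat_lit 304) (nat_lit 4283194466) (nat_lit 380) (nat_lit 4986715716) (nat_lit 87) (nat_lit 5) (nat_lit 91) (nat_lit 5) (nat_lit 92) (nat_lit 5) (nat_lit 479) (nat_lit 368) (nat_lit 293))) (XT.nd (nat_lit 78) (nat_lit 608) (nat_lit 0) (XT.lf (nat_lit 0) (nat_lit 11598111339) (nat_lit 304) (nat_lit 46483021) (nat_lit 380) (nat_lit 1412573223) (nat_lit 87) (nat_lit 5) (nat_lit 91) (nat_lit 5) (nat_lit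 92) (nat_lit 5) (nat_lit 480) (nat_lit 368) (nat_lit 292)) (XT.nd (nat_lit 78) (nat_lit 304) (nat_lit 0) (XT.lf (nat_lit 0) (nat_lit 2244361294) (nat_lit 304) (nat_lit 6716847342) (nat_lit 76) (nat_lit 4258096725) (nat_lit 83) (nat_lit 5) (nat_lit 87) (nat_lit 5) (nat_lit 84) (nat_lit 5) (nat_lit 481) (nat_lit 368) (nat_lit 291)) (XT.lf (nat_lit 0) (nat_lit 1216415001) (nat_lit 304) (nat_lit 4727518357) (nat_lit 380) (nat_lit 7440803487) (nat_lit 79) (nat_lit 5) (nat_lit 83) (nat_lit 5) (nat_lit 84) (nat_lit 5) (nat_lit 482) (nat_lit 368) (nat_lit 290))))) (XT.nd (nat_lit 156) (nat_lit 608) (nat_lit 0) (XT.nd (nat_lit 78) (nat_lit 228) (nat_lit 0) (XT.lf (nat_lit 0) (nat_lit 9351407577) (nat_lit 304) (nat_lit 381767057) (nat_lit 380) (nat_lit 3819994609) (nat_lit 79) (nat_lit 5) (nat_lit 83) (nat_lit 5) (nat_lit 84) (nat_lit 5) (nat_lit 483) (nat_lit 368) (nat_lit 289)) (XT.lf (nat_lit 0) (nat_lit 3901490755) (nat_lit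 228) (nat_lit 9719404432) (nat_lit 304) (nat_lit 103626938) (nat_lit 76) (nat_lit 5) (nat_lit 79) (nat_lit 5) (nat_lit 80) (nat_lit 5) (nat_lit 484) (nat_lit 368) (nat_lit 288))) (XT.nd (nat_lit 78) (nat_lit 532) (nat_lit 0) (XT.lf (nat_lit 0) (nat_lit 3640750344) (nat_lit 304) (nat_lit 1749211055) (nat_lit 76) (nat_lit 8508826614) (nat_lit 75) (nat_lit 5) (nat_lit 79) (nat_lit 5) (nat_lit 76) (nat_lit 5) (nat_lit 485) (nat_lit 368) (nat_lit 287)) (XT.nd (nat_lit 78) (nat_lit 228) (nat_lit 0) (XT.lf (nat_lit 0) (nat_lit 6524316744) (nat_lit 304) (nat_lit 948366275) (nat_lit 380) (nat_lit 6603566787) (nat_lit 71) (nat_lit 5) (nat_lit 75) (nat_lit 5) (nat_lit 76) (nat_lit 5) (nat_lit 486) (nat_lit 368) (nat_lit 286)) (XT.lf (nat_lit 0) (nat_lit 668643677) (nat_lit 228) (nat_lit 10723854217) (nat_lit 304) (nat_lit 2864543358) (nat_lit 68) (nat_lit 5) (nat_lit 71) (nat_lit 5) (nat_lit 72) (nat_lit 5) (nat_lit 487) (nat_lit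 368) (nat_lit 285)))))) (XT.nd (nat_lit 390) (nat_lit 912) (nat_lit 0) (XT.nd (nat_lit 156) (nat_lit 304) (nat_lit 0) (XT.nd (nat_lit 78) (nat_lit 228) (nat_lit 0) (XT.lf (nat_lit 0) (nat_lit 965994285) (nat_lit 304) (nat_lit 5344075715) (nat_lit 76) (nat_lit 8130676678) (nat_lit 67) (nat_lit 5) (nat_lit 71) (nat_lit 5) (nat_lit 68) (nat_lit 5) (nat_lit 488) (nat_lit 368) (nat_lit 284)) (XT.lf (nat_lit 0) (nat_lit 3040090573) (nat_lit 228) (nat_lit 1786911032) (nat_lit 304) (nat_lit 9800906595) (nat_lit 64) (nat_lit 5) (nat_lit 67) (nat_lit 5) (nat_lit 68) (nat_lit 5) (nat_lit 489) (nat_lit 368) (nat_lit 283))) (XT.nd (nat_lit 78) (nat_lit 304) (nat_lit 0) (XT.lf (nat_lit 0) (nat_lit 8792247091) (nat_lit 304) (nat_lit 3218378365) (nat_lit 76) (nat_lit 2807652023) (nat_lit 64) (nat_lit 5) (nat_lit 68) (nat_lit 5) (nat_lit 65) (nat_lit 5) (nat_lit 490) (nat_lit 368) (nat_lit 282)) (XT.nd (nat_lit 78) (nat_lit 76) (nat_lit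 0) (XT.lf (nat_lit 0) (nat_lit 5331368272) (nat_lit 228) (nat_lit 7524981842) (nat_lit 304) (nat_lit 2155717766) (nat_lit 61) (nat_lit 5) (nat_lit 64) (nat_lit 5) (nat_lit 65) (nat_lit 5) (nat_lit 491) (nat_lit 368) (nat_lit 281)) (XT.lf (nat_lit 0) (nat_lit 1763397571) (nat_lit 304) (nat_lit 1170577787) (nat_lit 76) (nat_lit 12275632662) (nat_lit 60) (nat_lit 5) (nat_lit 64) (nat_lit 5) (nat_lit 61) (nat_lit 5) (nat_lit 492) (nat_lit 368) (nat_lit 280))))) (XT.nd (nat_lit 234) (nat_lit 456) (nat_lit 0) (XT.nd (nat_lit 78) (nat_lit 228) (nat_lit 0) (XT.lf (nat_lit 0) (nat_lit 5766419639) (nat_lit 304) (nat_lit 7871875573) (nat_lit 76) (nat_lit 1771835489) (nat_lit 57) (nat_lit 5) (nat_lit 61) (nat_lit 5) (nat_lit 58) (nat_lit 5) (nat_lit 493) (nat_lit 368) (nat_lit 279)) (XT.nd (nat_lit 78) (nat_lit 0) (nat_lit 0) (XT.lf (nat_lit 0) (nat_lit 768761258) (nat_lit 228) (nat_lit 9086868123) (nat_lit 304) (nat_lit 5758916336)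 (nat_lit 54) (nat_lit 5) (nat_lit 57) (nat_lit 5) (nat_lit 58) (nat_lit 5) (nat_lit 494) (nat_lit 368) (nat_lit 278)) (XT.lf (nat_lit 0) (nat_lit 9644744376) (nat_lit 228) (nat_lit 4408728745) (nat_lit 304) (nat_lit 1769043254) (nat_lit 54) (nat_lit 5) (nat_lit 57) (nat_lit 5) (nat_lit 58) (nat_lit 5) (nat_lit 495) (nat_lit 368) (nat_lit 277)))) (XT.nd (nat_lit 78) (nat_lit 152) (nat_lit 0) (XT.lf (nat_lit 0) (nat_lit 2264406365) (nat_lit 304) (nat_lit 13397341817) (nat_lit 76) (nat_lit 372724648) (nat_lit 50) (nat_lit 5) (nat_lit 54) (nat_lit 5) (nat_lit 51) (nat_lit 5) (nat_lit 496) (nat_lit 368) (nat_lit 276)) (XT.nd (nat_lit 78) (nat_lit 152) (nat_lit 0) (XT.lf (nat_lit 0) (nat_lit 6400253638) (nat_lit 304) (nat_lit 4622712123) (nat_lit 76) (nat_lit 5226564550) (nat_lit 50) (nat_lit 5) (nat_lit 54) (nat_lit 5) (nat_lit 51) (nat_lit 5) (nat_lit 497) (nat_lit 368) (nat_lit 275)) (XT.lf (nat_lit 0) (nat_lit 4341447755)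 (nat_lit 152) (nat_lit 6280524802) (nat_lit 228) (nat_lit 5846857300) (nat_lit 48) (nat_lit 5) (nat_lit 50) (nat_lit 5) (nat_lit 51) (nat_lit 5) (nat_lit 498) (nat_lit 368) (nat_lit 274))))))) (XT.nd (nat_lit 52026) (nat_lit 0) (nat_lit 32528) (XT.nd (nat_lit 390) (nat_lit 456) (nat_lit 0) (XT.nd (nat_lit 156) (nat_lit 152) (nat_lit 0) (XT.nd (nat_lit 78) (nat_lit 304) (nat_lit 0) (XT.lf (nat_lit 0) (nat_lit 13504933878) (nat_lit 152) (nat_lit 1429394077) (nat_lit 228) (nat_lit 1758067326) (nat_lit 48) (nat_lit 5) (nat_lit 50) (nat_lit 5) (nat_lit 51) (nat_lit 5) (nat_lit 499) (nat_lit 368) (nat_lit 273)) (XT.lf (nat_lit 0) (nat_lit 2418093773) (nat_lit 304) (nat_lit 10991394063) (nat_lit 76) (nat_lit 3509889969) (nat_lit 44) (nat_lit 5) (nat_lit 48) (nat_lit 5) (nat_lit 45) (nat_lit 5) (nat_lit 500) (nat_lit 368) (nat_lit 272))) (XT.nd (nat_lit 78) (nat_lit 152) (nat_lit 0) (XT.lf (nat_lit 0) (nat_lit 6660854711) (nat_lit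 304) (nat_lit 1944989367) (nat_lit 76) (nat_lit 8544694847) (nat_lit 44) (nat_lit 5) (nat_lit 48) (nat_lit 5) (nat_lit 45) (nat_lit 5) (nat_lit 501) (nat_lit 368) (nat_lit 271)) (XT.nd (nat_lit 78) (nat_lit 0) (nat_lit 0) (XT.lf (nat_lit 0) (nat_lit 7337188459) (nat_lit 152) (nat_lit 3674996529) (nat_lit 228) (nat_lit 6373667628) (nat_lit 42) (nat_lit 5) (nat_lit 44) (nat_lit 5) (nat_lit 45) (nat_lit 5) (nat_lit 502) (nat_lit 368) (nat_lit 270)) (XT.lf (nat_lit 0) (nat_lit 15448639807) (nat_lit 228) (nat_lit 844593732) (nat_lit 76) (nat_lit 1332680642) (nat_lit 42) (nat_lit 5) (nat_lit 45) (nat_lit 5) (nat_lit 43) (nat_lit 5) (nat_lit 503) (nat_lit 368) (nat_lit 269))))) (XT.nd (nat_lit 51402) (nat_lit 0) (nat_lit 41876) (XT.nd (nat_lit 78) (nat_lit 152) (nat_lit 0) (XT.lf (nat_lit 0) (nat_lit 2132587839) (nat_lit 304) (nat_lit 9292442773) (nat_lit 76) (nat_lit 6444334240) (nat_lit 38) (nat_lit 5) (nat_lit 42) (nat_lit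 5) (nat_lit 39) (nat_lit 5) (nat_lit 504) (nat_lit 368) (nat_lit 268)) (XT.lf (nat_lit 0) (nat_lit 25920167) (nat_lit 152) (nat_lit 6456146085) (nat_lit 228) (nat_lit 11635682351) (nat_lit 36) (nat_lit 5) (nat_lit 38) (nat_lit 5) (nat_lit 39) (nat_lit 5) (nat_lit 505) (nat_lit 368) (nat_lit 267))) (XT.nd (nat_lit 78) (nat_lit 1064) (nat_lit 0) (XT.lf (nat_lit 0) (nat_lit 355816621) (nat_lit 988) (nat_lit 2628372059) (nat_lit 0) (nat_lit 355816621) (nat_lit 601) (nat_lit 5) (nat_lit 614) (nat_lit 4) (nat_lit 601) (nat_lit 4) (nat_lit 402) (nat_lit 369) (nat_lit 369)) (XT.nd (nat_lit 78) (nat_lit 1064) (nat_lit 0) (XT.lf (nat_lit 0) (nat_lit 3898459664) (nat_lit 988) (nat_lit 1070570078) (nat_lit 0) (nat_lit 1733303300) (nat_lit 601) (nat_lit 5) (nat_lit 614) (nat_lit 4) (nat_lit 601) (nat_lit 4) (nat_lit 403) (nat_lit 369) (nat_lit 368)) (XT.lf (nat_lit 0) (nat_lit 368557716) (nat_lit 1064) (nat_lit 3543372095) (nat_lit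 76) (nat_lit 2814159843) (nat_lit 587) (nat_lit 5) (nat_lit 601) (nat_lit 5) (nat_lit 588) (nat_lit 4) (nat_lit 404) (nat_lit 369) (nat_lit 367)))))) (XT.nd (nat_lit 390) (nat_lit 5776) (nat_lit 0) (XT.nd (nat_lit 156) (nat_lit 2508) (nat_lit 0) (XT.nd (nat_lit 78) (nat_lit 0) (nat_lit 0) (XT.lf (nat_lit 0) (nat_lit 719714091) (nat_lit 1064) (nat_lit 2789520303) (nat_lit 1140) (nat_lit 3241915308) (nat_lit 573) (nat_lit 5) (nat_lit 587) (nat_lit 5) (nat_lit 588) (nat_lit 4) (nat_lit 405) (nat_lit 369) (nat_lit 366)) (XT.lf (nat_lit 0) (nat_lit 5059951240) (nat_lit 1064) (nat_lit 1607952634) (nat_lit 1140) (nat_lit 109748387) (nat_lit 573) (nat_lit 5) (nat_lit 587) (nat_lit 5) (nat_lit 588) (nat_lit 4) (nat_lit 406) (nat_lit 369) (nat_lit 365))) (XT.nd (nat_lit 78) (nat_lit 1292) (nat_lit 0) (XT.lf (nat_lit 0) (nat_lit 2640929567) (nat_lit 1140) (nat_lit 353075450) (nat_lit 1216) (nat_lit 3811334315) (nat_lit 557) (nat_lit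 5) (nat_lit 572) (nat_lit 5) (nat_lit 573) (nat_lit 5) (nat_lit 407) (nat_lit 369) (nat_lit 364)) (XT.nd (nat_lit 78) (nat_lit 76) (nat_lit 0) (XT.lf (nat_lit 0) (nat_lit 215606950) (nat_lit 1216) (nat_lit 5895076561) (nat_lit 1292) (nat_lit 723878039) (nat_lit 541) (nat_lit 5) (nat_lit 557) (nat_lit 5) (nat_lit 558) (nat_lit 4) (nat_lit 408) (nat_lit 369) (nat_lit 363)) (XT.lf (nat_lit 0) (nat_lit 2357748083) (nat_lit 1292) (nat_lit 2200017925) (nat_lit 76) (nat_lit 2307043344) (nat_lit 540) (nat_lit 5) (nat_lit 557) (nat_lit 5) (nat_lit 541) (nat_lit 5) (nat_lit 409) (nat_lit 369) (nat_lit 362))))) (XT.nd (nat_lit 234) (nat_lit 3040) (nat_lit 0) (XT.nd (nat_lit 78) (nat_lit 1444) (nat_lit 0) (XT.lf (nat_lit 0) (nat_lit 2275869536) (nat_lit 1292) (nat_lit 3165289418) (nat_lit 1368) (nat_lit 1455450425) (nat_lit 523) (nat_lit 5) (nat_lit 540) (nat_lit 5) (nat_lit 541) (nat_lit 5) (nat_lit 410) (nat_lit 369) (nat_lit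 361)) (XT.nd (nat_lit 78) (nat_lit 1368) (nat_lit 0) (XT.lf (nat_lit 0) (nat_lit 1585825157) (nat_lit 1368) (nat_lit 125517242) (nat_lit 76) (nat_lit 5218518795) (nat_lit 522) (nat_lit 5) (nat_lit 540) (nat_lit 5) (nat_lit 523) (nat_lit 5) (nat_lit 411) (nat_lit 369) (nat_lit 360)) (XT.lf (nat_lit 0) (nat_lit 4452477575) (nat_lit 1368) (nat_lit 181657295) (nat_lit 1444) (nat_lit 2330174391) (nat_lit 504) (nat_lit 5) (nat_lit 522) (nat_lit 5) (nat_lit 523) (nat_lit 5) (nat_lit 412) (nat_lit 369) (nat_lit 359)))) (XT.nd (nat_lit 78) (nat_lit 1520) (nat_lit 0) (XT.lf (nat_lit 0) (nat_lit 694948519) (nat_lit 1520) (nat_lit 4918979330) (nat_lit 76) (nat_lit 1386243115) (nat_lit 484) (nat_lit 5) (nat_lit 504) (nat_lit 5) (nat_lit 485) (nat_lit 5) (nat_lit 413) (nat_lit 369) (nat_lit 358)) (XT.nd (nat_lit 78) (nat_lit 1520) (nat_lit 0) (XT.lf (nat_lit 0) (nat_lit 3705678907) (nat_lit 1520) (nat_lit 310368046) (nat_lit 76) (nat_lit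 3021304176) (nat_lit 484) (nat_lit 5) (nat_lit 504) (nat_lit 5) (nat_lit 485) (nat_lit 5) (nat_lit 414) (nat_lit 369) (nat_lit 357)) (XT.lf (nat_lit 0) (nat_lit 4391806017) (nat_lit 1520) (nat_lit 2352652520) (nat_lit 1596) (nat_lit 331494374) (nat_lit 464) (nat_lit 5) (nat_lit 484) (nat_lit 5) (nat_lit 485) (nat_lit 5) (nat_lit 415) (nat_lit 369) (nat_lit 356))))))))
noncomputable def xc65 : XT := (XT.nd (nat_lit 1638) (nat_lit 8664) (nat_lit 0) (XT.nd (nat_lit 780) (nat_lit 5700) (nat_lit 0) (XT.nd (nat_lit 390) (nat_lit 3724) (nat_lit 0) (XT.nd (nat_lit 156) (nat_lit 3572) (nat_lit 0) (XT.nd (nat_lit 78) (nat_lit 0) (nat_lit 0) (XT.lf (nat_lit 0) (nat_lit 2029154638) (nat_lit 1596) (nat_lit 618733737) (nat_lit 1672) (nat_lit 4468017611) (nat_lit 442) (nat_lit 5) (nat_lit 463) (nat_lit 5) (nat_lit 464) (nat_lit 5) (nat_lit 416) (nat_lit 369) (nat_lit 355)) (XT.lf (nat_lit 0) (nat_lit 5648575665) (nat_lit 1672) (nat_lit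 350514836) (nat_lit 76) (nat_lit 1158233390) (nat_lit 442) (nat_lit 5) (nat_lit 464) (nat_lit 5) (nat_lit 443) (nat_lit 5) (nat_lit 417) (nat_lit 369) (nat_lit 354))) (XT.nd (nat_lit 78) (nat_lit 1824) (nat_lit 0) (XT.lf (nat_lit 0) (nat_lit 1464604711) (nat_lit 1748) (nat_lit 2731067309) (nat_lit 76) (nat_lit 3004239561) (nat_lit 419) (nat_lit 5) (nat_lit 442) (nat_lit 5) (nat_lit 420) (nat_lit 5) (nat_lit 418) (nat_lit 369) (nat_lit 353)) (XT.nd (nat_lit 78) (nat_lit 76) (nat_lit 0) (XT.lf (nat_lit 0) (nat_lit 2106817720) (nat_lit 1748) (nat_lit 2328557399) (nat_lit 1824) (nat_lit 2808644217) (nat_lit 396) (nat_lit 5) (nat_lit 419) (nat_lit 5) (nat_lit 420) (nat_lit 5) (nat_lit 419) (nat_lit 369) (nat_lit 352)) (XT.lf (nat_lit 0) (nat_lit 135132195) (nat_lit 1824) (nat_lit 268694252) (nat_lit 76) (nat_lit 6885971573) (nat_lit 395) (nat_lit 5) (nat_lit 419) (nat_lit 5) (nat_lit 396) (nat_lit 5) (nat_lit 420) (nat_lit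 369) (nat_lit 351))))) (XT.nd (nat_lit 156) (nat_lit 1748) (nat_lit 0) (XT.nd (nat_lit 78) (nat_lit 912) (nat_lit 0) (XT.lf (nat_lit 0) (nat_lit 3084649621) (nat_lit 1140) (nat_lit 2663249692) (nat_lit 76) (nat_lit 1588561238) (nat_lit 381) (nat_lit 5) (nat_lit 396) (nat_lit 5) (nat_lit 382) (nat_lit 5) (nat_lit 421) (nat_lit 369) (nat_lit 350)) (XT.lf (nat_lit 0) (nat_lit 2304195738) (nat_lit 912) (nat_lit 3752731243) (nat_lit 988) (nat_lit 1327882429) (nat_lit 369) (nat_lit 5) (nat_lit 381) (nat_lit 5) (nat_lit 382) (nat_lit 5) (nat_lit 422) (nat_lit 369) (nat_lit 349))) (XT.nd (nat_lit 78) (nat_lit 1672) (nat_lit 0) (XT.lf (nat_lit 0) (nat_lit 1595468455) (nat_lit 988) (nat_lit 94839711) (nat_lit 76) (nat_lit 5744376736) (nat_lit 368) (nat_lit 5) (nat_lit 381) (nat_lit 5) (nat_lit 369) (nat_lit 5) (nat_lit 423) (nat_lit 369) (nat_lit 348)) (XT.nd (nat_lit 78) (nat_lit 836) (nat_lit 0) (XT.lf (nat_lit 0) (nat_lit 4540610903)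 (nat_lit 912) (nat_lit 2497653566) (nat_lit 76) (nat_lit 447522620) (nat_lit 357) (nat_lit 5) (nat_lit 369) (nat_lit 5) (nat_lit 358) (nat_lit 5) (nat_lit 424) (nat_lit 369) (nat_lit 347)) (XT.lf (nat_lit 0) (nat_lit 2602190974) (nat_lit 836) (nat_lit 4917620384) (nat_lit 912) (nat_lit 18623161) (nat_lit 346) (nat_lit 5) (nat_lit 357) (nat_lit 5) (nat_lit 358) (nat_lit 5) (nat_lit 425) (nat_lit 369) (nat_lit 346)))))) (XT.nd (nat_lit 390) (nat_lit 3116) (nat_lit 0) (XT.nd (nat_lit 156) (nat_lit 1672) (nat_lit 0) (XT.nd (nat_lit 78) (nat_lit 0) (nat_lit 0) (XT.lf (nat_lit 0) (nat_lit 171718958) (nat_lit 836) (nat_lit 2720555865) (nat_lit 912) (nat_lit 4700205759) (nat_lit 334) (nat_lit 5) (nat_lit 345) (nat_lit 5) (nat_lit 346) (nat_lit 5) (nat_lit 426) (nat_lit 369) (nat_lit 345)) (XT.lf (nat_lit 0) (nat_lit 5391753464) (nat_lit 836) (nat_lit 449920424) (nat_lit 912) (nat_lit 1806345351) (nat_lit 334) (nat_lit 5) (nat_lit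 345) (nat_lit 5) (nat_lit 346) (nat_lit 5) (nat_lit 427) (nat_lit 369) (nat_lit 344))) (XT.nd (nat_lit 78) (nat_lit 760) (nat_lit 0) (XT.lf (nat_lit 0) (nat_lit 1110100742) (nat_lit 912) (nat_lit 4730676259) (nat_lit 76) (nat_lit 1864172148) (nat_lit 322) (nat_lit 5) (nat_lit 334) (nat_lit 5) (nat_lit 323) (nat_lit 5) (nat_lit 428) (nat_lit 369) (nat_lit 343)) (XT.nd (nat_lit 78) (nat_lit 0) (nat_lit 0) (XT.lf (nat_lit 0) (nat_lit 511843279) (nat_lit 760) (nat_lit 3519108546) (nat_lit 836) (nat_lit 3732445129) (nat_lit 312) (nat_lit 5) (nat_lit 322) (nat_lit 5) (nat_lit 323) (nat_lit 5) (nat_lit 429) (nat_lit 369) (nat_lit 342)) (XT.lf (nat_lit 0) (nat_lit 5866595581) (nat_lit 760) (nat_lit 1124703804) (nat_lit 836) (nat_lit 832115639) (nat_lit 312) (nat_lit 5) (nat_lit 322) (nat_lit 5) (nat_lit 323) (nat_lit 5) (nat_lit 430) (nat_lit 369) (nat_lit 341))))) (XT.nd (nat_lit 234) (nat_lit 1596) (nat_lit 0) (XT.nd (nat_lit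 78) (nat_lit 684) (nat_lit 0) (XT.lf (nat_lit 0) (nat_lit 2079258662) (nat_lit 836) (nat_lit 4475166346) (nat_lit 76) (nat_lit 1330335879) (nat_lit 301) (nat_lit 5) (nat_lit 312) (nat_lit 5) (nat_lit 302) (nat_lit 5) (nat_lit 431) (nat_lit 369) (nat_lit 340)) (XT.nd (nat_lit 78) (nat_lit 0) (nat_lit 0) (XT.lf (nat_lit 0) (nat_lit 904696095) (nat_lit 684) (nat_lit 4110124853) (nat_lit 760) (nat_lit 2932882240) (nat_lit 292) (nat_lit 5) (nat_lit 301) (nat_lit 5) (nat_lit 302) (nat_lit 5) (nat_lit 432) (nat_lit 369) (nat_lit 339)) (XT.lf (nat_lit 0) (nat_lit 6396278187) (nat_lit 684) (nat_lit 1594001104) (nat_lit 760) (nat_lit 22022501) (nat_lit 292) (nat_lit 5) (nat_lit 301) (nat_lit 5) (nat_lit 302) (nat_lit 5) (nat_lit 433) (nat_lit 369) (nat_lit 338)))) (XT.nd (nat_lit 78) (nat_lit 760) (nat_lit 0) (XT.lf (nat_lit 0) (nat_lit 2892025689) (nat_lit 836) (nat_lit 4189484181) (nat_lit 76) (nat_lit 996647699) (nat_lit 281)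 (nat_lit 5) (nat_lit 292) (nat_lit 5) (nat_lit 282) (nat_lit 5) (nat_lit 434) (nat_lit 369) (nat_lit 337)) (XT.nd (nat_lit 78) (nat_lit 76) (nat_lit 0) (XT.lf (nat_lit 0) (nat_lit 1330285813) (nat_lit 684) (nat_lit 4516189594) (nat_lit 760) (nat_lit 2299223768) (nat_lit 272) (nat_lit 5) (nat_lit 281) (nat_lit 5) (nat_lit 282) (nat_lit 5) (nat_lit 435) (nat_lit 369) (nat_lit 336)) (XT.lf (nat_lit 0) (nat_lit 617801554) (nat_lit 760) (nat_lit 1258085974) (nat_lit 76) (nat_lit 6339022556) (nat_lit 271) (nat_lit 5) (nat_lit 281) (nat_lit 5) (nat_lit 272) (nat_lit 5) (nat_lit 436) (nat_lit 369) (nat_lit 335))))))) (XT.nd (nat_lit 858) (nat_lit 3648) (nat_lit 0) (XT.nd (nat_lit 390) (nat_lit 2432) (nat_lit 0) (XT.nd (nat_lit 156) (nat_lit 1292) (nat_lit 0) (XT.nd (nat_lit 78) (nat_lit 608) (nat_lit 0) (XT.lf (nat_lit 0) (nat_lit 3549968110) (nat_lit 760) (nat_lit 3894090133) (nat_lit 76) (nat_lit 841410050) (nat_lit 262) (nat_lit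 5) (nat_lit 272) (nat_lit 5) (nat_lit 263) (nat_lit 5) (nat_lit 437) (nat_lit 369) (nat_lit 334)) (XT.lf (nat_lit 0) (nat_lit 1768011316) (nat_lit 608) (nat_lit 4759132646) (nat_lit 684) (nat_lit 1830584799) (nat_lit 254) (nat_lit 5) (nat_lit 262) (nat_lit 5) (nat_lit 263) (nat_lit 5) (nat_lit 438) (nat_lit 369) (nat_lit 333))) (XT.nd (nat_lit 78) (nat_lit 1216) (nat_lit 0) (XT.lf (nat_lit 0) (nat_lit 1098067080) (nat_lit 684) (nat_lit 898867105) (nat_lit 76) (nat_lit 6434761101) (nat_lit 253) (nat_lit 5) (nat_lit 262) (nat_lit 5) (nat_lit 254) (nat_lit 5) (nat_lit 439) (nat_lit 369) (nat_lit 332)) (XT.nd (nat_lit 78) (nat_lit 608) (nat_lit 0) (XT.lf (nat_lit 0) (nat_lit 4053267718) (nat_lit 684) (nat_lit 3610213892) (nat_lit 76) (nat_lit 843585138) (nat_lit 245) (nat_lit 5) (nat_lit 254) (nat_lit 5) (nat_lit 246) (nat_lit 5) (nat_lit 440) (nat_lit 369) (nat_lit 331)) (XT.lf (nat_lit 0) (nat_lit 2196457592) (nat_lit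 608) (nat_lit 4860209742) (nat_lit 684) (nat_lit 1527513418) (nat_lit 237) (nat_lit 5) (nat_lit 245) (nat_lit 5) (nat_lit 246) (nat_lit 5) (nat_lit 441) (nat_lit 369) (nat_lit 330))))) (XT.nd (nat_lit 234) (nat_lit 1216) (nat_lit 0) (XT.nd (nat_lit 78) (nat_lit 1140) (nat_lit 0) (XT.lf (nat_lit 0) (nat_lit 1418313146) (nat_lit 684) (nat_lit 559942612) (nat_lit 76) (nat_lit 6684805835) (nat_lit 236) (nat_lit 5) (nat_lit 245) (nat_lit 5) (nat_lit 237) (nat_lit 5) (nat_lit 442) (nat_lit 369) (nat_lit 329)) (XT.nd (nat_lit 78) (nat_lit 532) (nat_lit 0) (XT.lf (nat_lit 0) (nat_lit 4400690259) (nat_lit 684) (nat_lit 3360065692) (nat_lit 76) (nat_lit 982616449) (nat_lit 228) (nat_lit 5) (nat_lit 237) (nat_lit 5) (nat_lit 229) (nat_lit 5) (nat_lit 443) (nat_lit 369) (nat_lit 328)) (XT.lf (nat_lit 0) (nat_lit 2593179845) (nat_lit 532) (nat_lit 4840283008) (nat_lit 608) (nat_lit 1392027328) (nat_lit 221) (nat_lit 5) (nat_lit 228)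 (nat_lit 5) (nat_lit 229) (nat_lit 5) (nat_lit 444) (nat_lit 369) (nat_lit 327)))) (XT.nd (nat_lit 78) (nat_lit 1140) (nat_lit 0) (XT.lf (nat_lit 0) (nat_lit 1576337965) (nat_lit 608) (nat_lit 264134332) (nat_lit 76) (nat_lit 7068984811) (nat_lit 220) (nat_lit 5) (nat_lit 228) (nat_lit 5) (nat_lit 221) (nat_lit 5) (nat_lit 445) (nat_lit 369) (nat_lit 326)) (XT.nd (nat_lit 78) (nat_lit 532) (nat_lit 0) (XT.lf (nat_lit 0) (nat_lit 4589541763) (nat_lit 684) (nat_lit 3167060454) (nat_lit 76) (nat_lit 1238249733) (nat_lit 212) (nat_lit 5) (nat_lit 221) (nat_lit 5) (nat_lit 213) (nat_lit 5) (nat_lit 446) (nat_lit 369) (nat_lit 325)) (XT.lf (nat_lit 0) (nat_lit 2934474121) (nat_lit 532) (nat_lit 4720002702) (nat_lit 608) (nat_lit 1427663044) (nat_lit 205) (nat_lit 5) (nat_lit 212) (nat_lit 5) (nat_lit 213) (nat_lit 5) (nat_lit 447) (nat_lit 369) (nat_lit 324)))))) (XT.nd (nat_lit 390) (nat_lit 1976) (nat_lit 0) (XT.nd (nat_lit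 156) (nat_lit 1064) (nat_lit 0) (XT.nd (nat_lit 78) (nat_lit 532) (nat_lit 0) (XT.lf (nat_lit 0) (nat_lit 1568436630) (nat_lit 608) (nat_lit 35600343) (nat_lit 76) (nat_lit 7567341341) (nat_lit 204) (nat_lit 5) (nat_lit 212) (nat_lit 5) (nat_lit 205) (nat_lit 5) (nat_lit 448) (nat_lit 369) (nat_lit 323)) (XT.lf (nat_lit 0) (nat_lit 4615612154) (nat_lit 608) (nat_lit 3056056923) (nat_lit 76) (nat_lit 1590351995) (nat_lit 197) (nat_lit 5) (nat_lit 205) (nat_lit 5) (nat_lit 198) (nat_lit 5) (nat_lit 449) (nat_lit 369) (nat_lit 322))) (XT.nd (nat_lit 78) (nat_lit 608) (nat_lit 0) (XT.lf (nat_lit 0) (nat_lit 3195132296) (nat_lit 456) (nat_lit 4519991655) (nat_lit 532) (nat_lit 1639538294) (nat_lit 191) (nat_lit 5) (nat_lit 197) (nat_lit 5) (nat_lit 198) (nat_lit 5) (nat_lit 450) (nat_lit 369) (nat_lit 321)) (XT.nd (nat_lit 78) (nat_lit 0) (nat_lit 0) (XT.lf (nat_lit 0) (nat_lit 101243583) (nat_lit 532) (nat_lit 1288750625)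 (nat_lit 608) (nat_lit 8059364645) (nat_lit 183) (nat_lit 5) (nat_lit 190) (nat_lit 5) (nat_lit 191) (nat_lit 5) (nat_lit 451) (nat_lit 369) (nat_lit 320)) (XT.lf (nat_lit 0) (nat_lit 4473105450) (nat_lit 608) (nat_lit 3053614023) (nat_lit 76) (nat_lit 2018726986) (nat_lit 183) (nat_lit 5) (nat_lit 191) (nat_lit 5) (nat_lit 184) (nat_lit 5) (nat_lit 452) (nat_lit 369) (nat_lit 319))))) (XT.nd (nat_lit 234) (nat_lit 988) (nat_lit 0) (XT.nd (nat_lit 78) (nat_lit 532) (nat_lit 0) (XT.lf (nat_lit 0) (nat_lit 3348179140) (nat_lit 456) (nat_lit 4261033970) (nat_lit 532) (nat_lit 2034428416) (nat_lit 177) (nat_lit 5) (nat_lit 183) (nat_lit 5) (nat_lit 184) (nat_lit 5) (nat_lit 453) (nat_lit 369) (nat_lit 318)) (XT.nd (nat_lit 78) (nat_lit 0) (nat_lit 0) (XT.lf (nat_lit 0) (nat_lit 116342797) (nat_lit 456) (nat_lit 916533419) (nat_lit 532) (nat_lit 8711146164) (nat_lit 170) (nat_lit 5) (nat_lit 176) (nat_lit 5) (nat_lit 177)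 (nat_lit 5) (nat_lit 454) (nat_lit 369) (nat_lit 317)) (XT.lf (nat_lit 0) (nat_lit 4154555694) (nat_lit 532) (nat_lit 3188266879) (nat_lit 76) (nat_lit 2502925611) (nat_lit 170) (nat_lit 5) (nat_lit 177) (nat_lit 5) (nat_lit 171) (nat_lit 5) (nat_lit 455) (nat_lit 369) (nat_lit 316)))) (XT.nd (nat_lit 78) (nat_lit 532) (nat_lit 0) (XT.lf (nat_lit 0) (nat_lit 3364588961) (nat_lit 456) (nat_lit 3964269577) (nat_lit 532) (nat_lit 2620857619) (nat_lit 164) (nat_lit 5) (nat_lit 170) (nat_lit 5) (nat_lit 171) (nat_lit 5) (nat_lit 456) (nat_lit 369) (nat_lit 315)) (XT.nd (nat_lit 78) (nat_lit 456) (nat_lit 0) (XT.lf (nat_lit 0) (nat_lit 488132098) (nat_lit 532) (nat_lit 20636312) (nat_lit 76) (nat_lit 9547260775) (nat_lit 163) (nat_lit 5) (nat_lit 170) (nat_lit 5) (nat_lit 164) (nat_lit 5) (nat_lit 457) (nat_lit 369) (nat_lit 314)) (XT.lf (nat_lit 0) (nat_lit 3650727671) (nat_lit 532) (nat_lit 3490825100) (nat_lit 76) (nat_lit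 3022049628) (nat_lit 157) (nat_lit 5) (nat_lit 164) (nat_lit 5) (nat_lit 158) (nat_lit 5) (nat_lit 458) (nat_lit 369) (nat_lit 313))))))))
noncomputable def xc66 : XT := (XT.nd (nat_lit 1638) (nat_lit 3344) (nat_lit 0) (XT.nd (nat_lit 780) (nat_lit 2128) (nat_lit 0) (XT.nd (nat_lit 390) (nat_lit 1596) (nat_lit 0) (XT.nd (nat_lit 156) (nat_lit 912) (nat_lit 0) (XT.nd (nat_lit 78) (nat_lit 0) (nat_lit 0) (XT.lf (nat_lit 0) (nat_lit 3212979116) (nat_lit 380) (nat_lit 3651396372) (nat_lit 456) (nat_lit 3409206159) (nat_lit 152) (nat_lit 5) (nat_lit 157) (nat_lit 5) (nat_lit 158) (nat_lit 5) (nat_lit 459) (nat_lit 369) (nat_lit 312)) (XT.lf (nat_lit 0) (nat_lit 10045721822) (nat_lit 380) (nat_lit 83806991) (nat_lit 456) (nat_lit 256497387) (nat_lit 152) (nat_lit 5) (nat_lit 157) (nat_lit 5) (nat_lit 158) (nat_lit 5) (nat_lit 460) (nat_lit 369) (nat_lit 311))) (XT.nd (nat_lit 78) (nat_lit 380) (nat_lit 0) (XT.lf (nat_lit 0)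 (nat_lit 2950501310) (nat_lit 532) (nat_lit 3994696210) (nat_lit 76) (nat_lit 3554546880) (nat_lit 145) (nat_lit 5) (nat_lit 152) (nat_lit 5) (nat_lit 146) (nat_lit 5) (nat_lit 461) (nat_lit 369) (nat_lit 310)) (XT.nd (nat_lit 78) (nat_lit 0) (nat_lit 0) (XT.lf (nat_lit 0) (nat_lit 2859277469) (nat_lit 380) (nat_lit 3344881701) (nat_lit 456) (nat_lit 4411834584) (nat_lit 140) (nat_lit 5) (nat_lit 145) (nat_lit 5) (nat_lit 146) (nat_lit 5) (nat_lit 462) (nat_lit 369) (nat_lit 309)) (XT.lf (nat_lit 0) (nat_lit 9516782817) (nat_lit 456) (nat_lit 884298597) (nat_lit 76) (nat_lit 333618408) (nat_lit 140) (nat_lit 5) (nat_lit 146) (nat_lit 5) (nat_lit 141) (nat_lit 5) (nat_lit 463) (nat_lit 369) (nat_lit 308))))) (XT.nd (nat_lit 156) (nat_lit 760) (nat_lit 0) (XT.nd (nat_lit 78) (nat_lit 380) (nat_lit 0) (XT.lf (nat_lit 0) (nat_lit 2040738500) (nat_lit 456) (nat_lit 4736237318) (nat_lit 76) (nat_lit 4077996259) (nat_lit 134)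 (nat_lit 5) (nat_lit 140) (nat_lit 5) (nat_lit 135) (nat_lit 5) (nat_lit 464) (nat_lit 369) (nat_lit 307)) (XT.lf (nat_lit 0) (nat_lit 2266360550) (nat_lit 380) (nat_lit 3068185110) (nat_lit 456) (nat_lit 5643226405) (nat_lit 129) (nat_lit 5) (nat_lit 134) (nat_lit 5) (nat_lit 135) (nat_lit 5) (nat_lit 465) (nat_lit 369) (nat_lit 306))) (XT.nd (nat_lit 78) (nat_lit 760) (nat_lit 0) (XT.lf (nat_lit 0) (nat_lit 8696677191) (nat_lit 456) (nat_lit 1685815217) (nat_lit 76) (nat_lit 720495532) (nat_lit 129) (nat_lit 5) (nat_lit 135) (nat_lit 5) (nat_lit 130) (nat_lit 5) (nat_lit 466) (nat_lit 369) (nat_lit 305)) (XT.nd (nat_lit 78) (nat_lit 304) (nat_lit 0) (XT.lf (nat_lit 0) (nat_lit 906130913) (nat_lit 456) (nat_lit 5755138452) (nat_lit 76) (nat_lit 4568880406) (nat_lit 123) (nat_lit 5) (nat_lit 129) (nat_lit 5) (nat_lit 124) (nat_lit 5) (nat_lit 467) (nat_lit 369) (nat_lit 304)) (XT.lf (nat_lit 0) (nat_lit 1393658940) (nat_lit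 304) (nat_lit 2845994395) (nat_lit 380) (nat_lit 7120150681) (nat_lit 119) (nat_lit 5) (nat_lit 123) (nat_lit 5) (nat_lit 124) (nat_lit 5) (nat_lit 468) (nat_lit 369) (nat_lit 303)))))) (XT.nd (nat_lit 390) (nat_lit 1064) (nat_lit 0) (XT.nd (nat_lit 156) (nat_lit 684) (nat_lit 0) (XT.nd (nat_lit 78) (nat_lit 380) (nat_lit 0) (XT.lf (nat_lit 0) (nat_lit 7652310311) (nat_lit 380) (nat_lit 2785986266) (nat_lit 76) (nat_lit 1053513664) (nat_lit 119) (nat_lit 5) (nat_lit 124) (nat_lit 5) (nat_lit 120) (nat_lit 5) (nat_lit 469) (nat_lit 369) (nat_lit 302)) (XT.lf (nat_lit 0) (nat_lit 4528210867) (nat_lit 380) (nat_lit 6620708036) (nat_lit 456) (nat_lit 477231735) (nat_lit 114) (nat_lit 5) (nat_lit 119) (nat_lit 5) (nat_lit 120) (nat_lit 5) (nat_lit 470) (nat_lit 369) (nat_lit 301))) (XT.nd (nat_lit 78) (nat_lit 304) (nat_lit 0) (XT.lf (nat_lit 0) (nat_lit 196726013) (nat_lit 304) (nat_lit 2704477123) (nat_lit 380) (nat_lit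 8861846227) (nat_lit 109) (nat_lit 5) (nat_lit 113) (nat_lit 5) (nat_lit 114) (nat_lit 5) (nat_lit 471) (nat_lit 369) (nat_lit 300)) (XT.nd (nat_lit 78) (nat_lit 304) (nat_lit 0) (XT.lf (nat_lit 0) (nat_lit 6364886746) (nat_lit 380) (nat_lit 4230505597) (nat_lit 76) (nat_lit 1306756780) (nat_lit 109) (nat_lit 5) (nat_lit 114) (nat_lit 5) (nat_lit 110) (nat_lit 5) (nat_lit 472) (nat_lit 369) (nat_lit 299)) (XT.lf (nat_lit 0) (nat_lit 3227009751) (nat_lit 304) (nat_lit 6678070932) (nat_lit 380) (nat_lit 2138812869) (nat_lit 105) (nat_lit 5) (nat_lit 109) (nat_lit 5) (nat_lit 110) (nat_lit 5) (nat_lit 473) (nat_lit 369) (nat_lit 298))))) (XT.nd (nat_lit 234) (nat_lit 380) (nat_lit 0) (XT.nd (nat_lit 78) (nat_lit 608) (nat_lit 0) (XT.lf (nat_lit 0) (nat_lit 1307231759) (nat_lit 380) (nat_lit 1355223949) (nat_lit 76) (nat_lit 9525911126) (nat_lit 104) (nat_lit 5) (nat_lit 109) (nat_lit 5) (nat_lit 105) (nat_lit 5) (nat_lit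 474) (nat_lit 369) (nat_lit 297)) (XT.nd (nat_lit 78) (nat_lit 304) (nat_lit 0) (XT.lf (nat_lit 0) (nat_lit 4812963946) (nat_lit 380) (nat_lit 6069568189) (nat_lit 76) (nat_lit 1452533569) (nat_lit 100) (nat_lit 5) (nat_lit 105) (nat_lit 5) (nat_lit 101) (nat_lit 5) (nat_lit 475) (nat_lit 369) (nat_lit 296)) (XT.lf (nat_lit 0) (nat_lit 1526062854) (nat_lit 304) (nat_lit 6868700897) (nat_lit 380) (nat_lit 4089822582) (nat_lit 96) (nat_lit 5) (nat_lit 100) (nat_lit 5) (nat_lit 101) (nat_lit 5) (nat_lit 476) (nat_lit 369) (nat_lit 295)))) (XT.nd (nat_lit 78) (nat_lit 380) (nat_lit 0) (XT.lf (nat_lit 0) (nat_lit 9307455304) (nat_lit 304) (nat_lit 2751020730) (nat_lit 380) (nat_lit 578422519) (nat_lit 96) (nat_lit 5) (nat_lit 100) (nat_lit 5) (nat_lit 101) (nat_lit 5) (nat_lit 477) (nat_lit 369) (nat_lit 294)) (XT.nd (nat_lit 78) (nat_lit 0) (nat_lit 0) (XT.lf (nat_lit 0) (nat_lit 2972217395) (nat_lit 380) (nat_lit 8358400423)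 (nat_lit 76) (nat_lit 1461087682) (nat_lit 91) (nat_lit 5) (nat_lit 96) (nat_lit 5) (nat_lit 92) (nat_lit 5) (nat_lit 478) (nat_lit 369) (nat_lit 293)) (XT.lf (nat_lit 0) (nat_lit 6596945725) (nat_lit 380) (nat_lit 622972787) (nat_lit 76) (nat_lit 5729403514) (nat_lit 91) (nat_lit 5) (nat_lit 96) (nat_lit 5) (nat_lit 92) (nat_lit 5) (nat_lit 479) (nat_lit 369) (nat_lit 292))))))) (XT.nd (nat_lit 780) (nat_lit 1520) (nat_lit 0) (XT.nd (nat_lit 390) (nat_lit 912) (nat_lit 0) (XT.nd (nat_lit 156) (nat_lit 304) (nat_lit 0) (XT.nd (nat_lit 78) (nat_lit 304) (nat_lit 0) (XT.lf (nat_lit 0) (nat_lit 7316002679) (nat_lit 304) (nat_lit 2996356967) (nat_lit 380) (nat_lit 2797373612) (nat_lit 87) (nat_lit 5) (nat_lit 91) (nat_lit 5) (nat_lit 92) (nat_lit 5) (nat_lit 480) (nat_lit 369) (nat_lit 291)) (XT.lf (nat_lit 0) (nat_lit 815177705) (nat_lit 304) (nat_lit 11157842400) (nat_lit 76) (nat_lit 1300284603) (nat_lit 83) (nat_lit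 5) (nat_lit 87) (nat_lit 5) (nat_lit 84) (nat_lit 5) (nat_lit 481) (nat_lit 369) (nat_lit 290))) (XT.nd (nat_lit 78) (nat_lit 304) (nat_lit 0) (XT.lf (nat_lit 0) (nat_lit 4492453843) (nat_lit 304) (nat_lit 3263976297) (nat_lit 76) (nat_lit 5682754861) (nat_lit 83) (nat_lit 5) (nat_lit 87) (nat_lit 5) (nat_lit 84) (nat_lit 5) (nat_lit 482) (nat_lit 369) (nat_lit 289)) (XT.nd (nat_lit 78) (nat_lit 0) (nat_lit 0) (XT.lf (nat_lit 0) (nat_lit 4804351240) (nat_lit 304) (nat_lit 3441603310) (nat_lit 380) (nat_lit 5362380494) (nat_lit 79) (nat_lit 5) (nat_lit 83) (nat_lit 5) (nat_lit 84) (nat_lit 5) (nat_lit 483) (nat_lit 369) (nat_lit 288)) (XT.lf (nat_lit 0) (nat_lit 12074432832) (nat_lit 380) (nat_lit 755090622) (nat_lit 76) (nat_lit 951352097) (nat_lit 79) (nat_lit 5) (nat_lit 84) (nat_lit 5) (nat_lit 80) (nat_lit 5) (nat_lit 484) (nat_lit 369) (nat_lit 287))))) (XT.nd (nat_lit 156) (nat_lit 304) (nat_lit 0) (XT.nd (nat_lit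 78) (nat_lit 304) (nat_lit 0) (XT.lf (nat_lit 0) (nat_lit 2039942270) (nat_lit 304) (nat_lit 6484934705) (nat_lit 76) (nat_lit 5430855535) (nat_lit 75) (nat_lit 5) (nat_lit 79) (nat_lit 5) (nat_lit 76) (nat_lit 5) (nat_lit 485) (nat_lit 369) (nat_lit 286)) (XT.lf (nat_lit 0) (nat_lit 1702715577) (nat_lit 304) (nat_lit 4124116187) (nat_lit 380) (nat_lit 8307266020) (nat_lit 71) (nat_lit 5) (nat_lit 75) (nat_lit 5) (nat_lit 76) (nat_lit 5) (nat_lit 486) (nat_lit 369) (nat_lit 285))) (XT.nd (nat_lit 78) (nat_lit 304) (nat_lit 0) (XT.lf (nat_lit 0) (nat_lit 9708013841) (nat_lit 380) (nat_lit 4221665393) (nat_lit 76) (nat_lit 385985221) (nat_lit 71) (nat_lit 5) (nat_lit 76) (nat_lit 5) (nat_lit 72) (nat_lit 5) (nat_lit 487) (nat_lit 369) (nat_lit 284)) (XT.nd (nat_lit 78) (nat_lit 76) (nat_lit 0) (XT.lf (nat_lit 0) (nat_lit 4134180298) (nat_lit 228) (nat_lit 9559716323) (nat_lit 304) (nat_lit 806429379) (nat_lit 68) (nat_lit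 5) (nat_lit 71) (nat_lit 5) (nat_lit 72) (nat_lit 5) (nat_lit 488) (nat_lit 369) (nat_lit 283)) (XT.lf (nat_lit 0) (nat_lit 3032040574) (nat_lit 304) (nat_lit 2038912903) (nat_lit 76) (nat_lit 9617303459) (nat_lit 67) (nat_lit 5) (nat_lit 71) (nat_lit 5) (nat_lit 68) (nat_lit 5) (nat_lit 489) (nat_lit 369) (nat_lit 282)))))) (XT.nd (nat_lit 390) (nat_lit 760) (nat_lit 0) (XT.nd (nat_lit 156) (nat_lit 304) (nat_lit 0) (XT.nd (nat_lit 78) (nat_lit 228) (nat_lit 0) (XT.lf (nat_lit 0) (nat_lit 6490489050) (nat_lit 228) (nat_lit 461654609) (nat_lit 304) (nat_lit 7927387774) (nat_lit 64) (nat_lit 5) (nat_lit 67) (nat_lit 5) (nat_lit 68) (nat_lit 5) (nat_lit 490) (nat_lit 369) (nat_lit 281)) (XT.lf (nat_lit 0) (nat_lit 72812066) (nat_lit 228) (nat_lit 10893241439) (nat_lit 304) (nat_lit 4108274519) (nat_lit 61) (nat_lit 5) (nat_lit 64) (nat_lit 5) (nat_lit 65) (nat_lit 5) (nat_lit 491) (nat_lit 369) (nat_lit 280))) (XT.nd (nat_lit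 78) (nat_lit 304) (nat_lit 0) (XT.lf (nat_lit 0) (nat_lit 8770528937) (nat_lit 228) (nat_lit 6322907479) (nat_lit 304) (nat_lit 178924838) (nat_lit 61) (nat_lit 5) (nat_lit 64) (nat_lit 5) (nat_lit 65) (nat_lit 5) (nat_lit 492) (nat_lit 369) (nat_lit 279)) (XT.nd (nat_lit 78) (nat_lit 0) (nat_lit 0) (XT.lf (nat_lit 0) (nat_lit 2127408775) (nat_lit 228) (nat_lit 1639398547) (nat_lit 304) (nat_lit 11707294768) (nat_lit 57) (nat_lit 5) (nat_lit 60) (nat_lit 5) (nat_lit 61) (nat_lit 5) (nat_lit 493) (nat_lit 369) (nat_lit 278)) (XT.lf (nat_lit 0) (nat_lit 7827664945) (nat_lit 304) (nat_lit 4727075296) (nat_lit 76) (nat_lit 3124346055) (nat_lit 57) (nat_lit 5) (nat_lit 61) (nat_lit 5) (nat_lit 58) (nat_lit 5) (nat_lit 494) (nat_lit 369) (nat_lit 277))))) (XT.nd (nat_lit 234) (nat_lit 228) (nat_lit 0) (XT.nd (nat_lit 78) (nat_lit 304) (nat_lit 0) (XT.lf (nat_lit 0) (nat_lit 4064649022) (nat_lit 228) (nat_lit 7917153890) (nat_lit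 304) (nat_lit 3906130264) (nat_lit 54) (nat_lit 5) (nat_lit 57) (nat_lit 5) (nat_lit 58) (nat_lit 5) (nat_lit 495) (nat_lit 369) (nat_lit 276)) (XT.nd (nat_lit 78) (nat_lit 228) (nat_lit 0) (XT.lf (nat_lit 0) (nat_lit 123313963) (nat_lit 304) (nat_lit 3047809310) (nat_lit 76) (nat_lit 12929686563) (nat_lit 53) (nat_lit 5) (nat_lit 57) (nat_lit 5) (nat_lit 54) (nat_lit 5) (nat_lit 496) (nat_lit 369) (nat_lit 275)) (XT.lf (nat_lit 0) (nat_lit 4205995529) (nat_lit 304) (nat_lit 10415410692) (nat_lit 76) (nat_lit 1695526395) (nat_lit 50) (nat_lit 5) (nat_lit 54) (nat_lit 5) (nat_lit 51) (nat_lit 5) (nat_lit 497) (nat_lit 369) (nat_lit 274)))) (XT.nd (nat_lit 78) (nat_lit 228) (nat_lit 0) (XT.lf (nat_lit 0) (nat_lit 8387377374) (nat_lit 304) (nat_lit 1529011501) (nat_lit 76) (nat_lit 6620651972) (nat_lit 50) (nat_lit 5) (nat_lit 54) (nat_lit 5) (nat_lit 51) (nat_lit 5) (nat_lit 498) (nat_lit 369) (nat_lit 273)) (XT.nd (nat_lit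 78) (nat_lit 76) (nat_lit 0) (XT.lf (nat_lit 0) (nat_lit 7593470029) (nat_lit 152) (nat_lit 5084157870) (nat_lit 228) (nat_lit 4083422379) (nat_lit 48) (nat_lit 5) (nat_lit 50) (nat_lit 5) (nat_lit 51) (nat_lit 5) (nat_lit 499) (nat_lit 369) (nat_lit 272)) (XT.lf (nat_lit 0) (nat_lit 49614010) (nat_lit 228) (nat_lit 111978710) (nat_lit 76) (nat_lit 16828216314) (nat_lit 47) (nat_lit 5) (nat_lit 50) (nat_lit 5) (nat_lit 48) (nat_lit 5) (nat_lit 500) (nat_lit 369) (nat_lit 271))))))))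
noncomputable def xc67 : XT := (XT.nd (nat_lit 52728) (nat_lit 0) (nat_lit 17024) (XT.nd (nat_lit 51870) (nat_lit 0) (nat_lit 32300) (XT.nd (nat_lit 51480) (nat_lit 0) (nat_lit 41724) (XT.nd (nat_lit 156) (nat_lit 304) (nat_lit 0) (XT.nd (nat_lit 78) (nat_lit 152) (nat_lit 0) (XT.lf (nat_lit 0) (nat_lit 4278740747) (nat_lit 304) (nat_lit 8076318761) (nat_lit 76) (nat_lit 4866185127) (nat_lit 44) (nat_lit 5) (nat_lit 48) (nat_lit 5) (nat_lit 45) (nat_lit 5) (nat_lit 501) (nat_lit 369) (nat_lit 270)) (XT.lf (nat_lit 0) (nat_lit 1104024822) (nat_lit 152) (nat_lit 7473965141) (nat_lit 228) (nat_lit 8879611745) (nat_lit 42) (nat_lit 5) (nat_lit 44) (nat_lit 5) (nat_lit 45) (nat_lit 5) (nat_lit 502) (nat_lit 369) (nat_lit 269))) (XT.nd (nat_lit 78) (nat_lit 304) (nat_lit 0) (XT.lf (nat_lit 0) (nat_lit 10537146759) (nat_lit 152) (nat_lit 2457017282) (nat_lit 228) (nat_lit 4703906575) (nat_lit 42) (nat_lit 5) (nat_lit 44) (nat_lit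 5) (nat_lit 45) (nat_lit 5) (nat_lit 503) (nat_lit 369) (nat_lit 268)) (XT.nd (nat_lit 78) (nat_lit 76) (nat_lit 0) (XT.lf (nat_lit 0) (nat_lit 2187128827) (nat_lit 228) (nat_lit 15320096315) (nat_lit 304) (nat_lit 435955910) (nat_lit 39) (nat_lit 5) (nat_lit 42) (nat_lit 5) (nat_lit 43) (nat_lit 5) (nat_lit 504) (nat_lit 369) (nat_lit 267)) (XT.lf (nat_lit 0) (nat_lit 3907749736) (nat_lit 304) (nat_lit 6454956495) (nat_lit 76) (nat_lit 7829146617) (nat_lit 38) (nat_lit 5) (nat_lit 42) (nat_lit 5) (nat_lit 39) (nat_lit 5) (nat_lit 505) (nat_lit 369) (nat_lit 266))))) (XT.nd (nat_lit 156) (nat_lit 2052) (nat_lit 0) (XT.nd (nat_lit 78) (nat_lit 836) (nat_lit 0) (XT.lf (nat_lit 0) (nat_lit 1610423022) (nat_lit 836) (nat_lit 98380985) (nat_lit 0) (nat_lit 1610423022) (nat_lit 625) (nat_lit 5) (nat_lit 636) (nat_lit 4) (nat_lit 625) (nat_lit 4) (nat_lit 400) (nat_lit 370) (nat_lit 370)) (XT.lf (nat_lit 0) (nat_lit 3919824872)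 (nat_lit 836) (nat_lit 2495830519) (nat_lit 836) (nat_lit 243201837) (nat_lit 614) (nat_lit 4) (nat_lit 625) (nat_lit 5) (nat_lit 625) (nat_lit 4) (nat_lit 401) (nat_lit 370) (nat_lit 369))) (XT.nd (nat_lit 78) (nat_lit 1064) (nat_lit 0) (XT.lf (nat_lit 0) (nat_lit 1385774812) (nat_lit 912) (nat_lit 1508711814) (nat_lit 988) (nat_lit 3786060157) (nat_lit 601) (nat_lit 5) (nat_lit 613) (nat_lit 5) (nat_lit 614) (nat_lit 4) (nat_lit 402) (nat_lit 370) (nat_lit 368)) (XT.nd (nat_lit 78) (nat_lit 1064) (nat_lit 0) (XT.lf (nat_lit 0) (nat_lit 5574218232) (nat_lit 912) (nat_lit 465614822) (nat_lit 988) (nat_lit 663889353) (nat_lit 601) (nat_lit 5) (nat_lit 613) (nat_lit 5) (nat_lit 614) (nat_lit 4) (nat_lit 403) (nat_lit 370) (nat_lit 367)) (XT.lf (nat_lit 0) (nat_lit 2442607245) (nat_lit 1064) (nat_lit 3643332243) (nat_lit 76) (nat_lit 642041681) (nat_lit 587) (nat_lit 5) (nat_lit 601) (nat_lit 5) (nat_lit 588) (nat_lit 4)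 (nat_lit 404) (nat_lit 370) (nat_lit 366)))))) (XT.nd (nat_lit 390) (nat_lit 5852) (nat_lit 0) (XT.nd (nat_lit 156) (nat_lit 2432) (nat_lit 0) (XT.nd (nat_lit 78) (nat_lit 76) (nat_lit 0) (XT.lf (nat_lit 0) (nat_lit 590632405) (nat_lit 1064) (nat_lit 4958034170) (nat_lit 1140) (nat_lit 1205089214) (nat_lit 573) (nat_lit 5) (nat_lit 587) (nat_lit 5) (nat_lit 588) (nat_lit 4) (nat_lit 405) (nat_lit 370) (nat_lit 365)) (XT.lf (nat_lit 0) (nat_lit 1868267904) (nat_lit 1140) (nat_lit 1889615855) (nat_lit 76) (nat_lit 3022816431) (nat_lit 572) (nat_lit 5) (nat_lit 587) (nat_lit 5) (nat_lit 573) (nat_lit 5) (nat_lit 406) (nat_lit 370) (nat_lit 364))) (XT.nd (nat_lit 78) (nat_lit 1292) (nat_lit 0) (XT.lf (nat_lit 0) (nat_lit 2438475192) (nat_lit 1140) (nat_lit 2497914014) (nat_lit 1216) (nat_lit 1872688602) (nat_lit 557) (nat_lit 5) (nat_lit 572) (nat_lit 5) (nat_lit 573) (nat_lit 5) (nat_lit 407) (nat_lit 370) (nat_lit 363))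 (XT.nd (nat_lit 78) (nat_lit 1216) (nat_lit 0) (XT.lf (nat_lit 0) (nat_lit 1158570416) (nat_lit 1216) (nat_lit 22525891) (nat_lit 76) (nat_lit 5657871414) (nat_lit 556) (nat_lit 5) (nat_lit 572) (nat_lit 5) (nat_lit 557) (nat_lit 5) (nat_lit 408) (nat_lit 370) (nat_lit 362)) (XT.lf (nat_lit 0) (nat_lit 4190736317) (nat_lit 1292) (nat_lit 2467851343) (nat_lit 76) (nat_lit 211352929) (nat_lit 540) (nat_lit 5) (nat_lit 557) (nat_lit 5) (nat_lit 541) (nat_lit 5) (nat_lit 409) (nat_lit 370) (nat_lit 361))))) (XT.nd (nat_lit 234) (nat_lit 3116) (nat_lit 0) (XT.nd (nat_lit 78) (nat_lit 1368) (nat_lit 0) (XT.lf (nat_lit 0) (nat_lit 333820865) (nat_lit 1368) (nat_lit 4927926290) (nat_lit 76) (nat_lit 1640638103) (nat_lit 522) (nat_lit 5) (nat_lit 540) (nat_lit 5) (nat_lit 523) (nat_lit 5) (nat_lit 410) (nat_lit 370) (nat_lit 360)) (XT.nd (nat_lit 78) (nat_lit 1368) (nat_lit 0) (XT.lf (nat_lit 0) (nat_lit 3324706194) (nat_lit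 1368) (nat_lit 469821030) (nat_lit 76) (nat_lit 3141565487) (nat_lit 522) (nat_lit 5) (nat_lit 540) (nat_lit 5) (nat_lit 523) (nat_lit 5) (nat_lit 411) (nat_lit 370) (nat_lit 359)) (XT.lf (nat_lit 0) (nat_lit 4076112603) (nat_lit 1368) (nat_lit 2263771692) (nat_lit 1444) (nat_lit 631337346) (nat_lit 504) (nat_lit 5) (nat_lit 522) (nat_lit 5) (nat_lit 523) (nat_lit 5) (nat_lit 412) (nat_lit 370) (nat_lit 358)))) (XT.nd (nat_lit 78) (nat_lit 1596) (nat_lit 0) (XT.lf (nat_lit 0) (nat_lit 1663213653) (nat_lit 1444) (nat_lit 665917872) (nat_lit 1520) (nat_lit 4678596213) (nat_lit 484) (nat_lit 5) (nat_lit 503) (nat_lit 5) (nat_lit 504) (nat_lit 5) (nat_lit 413) (nat_lit 370) (nat_lit 357)) (XT.nd (nat_lit 78) (nat_lit 1596) (nat_lit 0) (XT.lf (nat_lit 0) (nat_lit 5305498787) (nat_lit 1520) (nat_lit 759405346) (nat_lit 76) (nat_lit 980708214) (nat_lit 484) (nat_lit 5) (nat_lit 504) (nat_lit 5) (nat_lit 485) (nat_lit 5) (nat_lit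 414) (nat_lit 370) (nat_lit 356)) (XT.lf (nat_lit 0) (nat_lit 1210721700) (nat_lit 1596) (nat_lit 3183689743) (nat_lit 76) (nat_lit 2690311909) (nat_lit 463) (nat_lit 5) (nat_lit 484) (nat_lit 5) (nat_lit 464) (nat_lit 5) (nat_lit 415) (nat_lit 370) (nat_lit 355))))))) (XT.nd (nat_lit 858) (nat_lit 6308) (nat_lit 0) (XT.nd (nat_lit 390) (nat_lit 3800) (nat_lit 0) (XT.nd (nat_lit 156) (nat_lit 3572) (nat_lit 0) (XT.nd (nat_lit 78) (nat_lit 0) (nat_lit 0) (XT.lf (nat_lit 0) (nat_lit 1492920656) (nat_lit 1596) (nat_lit 2660096892) (nat_lit 1672) (nat_lit 2972286808) (nat_lit 442) (nat_lit 5) (nat_lit 463) (nat_lit 5) (nat_lit 464) (nat_lit 5) (nat_lit 416) (nat_lit 370) (nat_lit 354)) (XT.lf (nat_lit 0) (nat_lit 6251022344) (nat_lit 1596) (nat_lit 866201099) (nat_lit 1672) (nat_lit 50244319) (nat_lit 442) (nat_lit 5) (nat_lit 463) (nat_lit 5) (nat_lit 464) (nat_lit 5) (nat_lit 417) (nat_lit 370) (nat_lit 353))) (XT.nd (nat_lit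 78) (nat_lit 1824) (nat_lit 0) (XT.lf (nat_lit 0) (nat_lit 2865938484) (nat_lit 1748) (nat_lit 3346698799) (nat_lit 76) (nat_lit 998004866) (nat_lit 419) (nat_lit 5) (nat_lit 442) (nat_lit 5) (nat_lit 420) (nat_lit 5) (nat_lit 418) (nat_lit 370) (nat_lit 352)) (XT.nd (nat_lit 78) (nat_lit 76) (nat_lit 0) (XT.lf (nat_lit 0) (nat_lit 1455049262) (nat_lit 1748) (nat_lit 4349320313) (nat_lit 1824) (nat_lit 1451042073) (nat_lit 396) (nat_lit 5) (nat_lit 419) (nat_lit 5) (nat_lit 420) (nat_lit 5) (nat_lit 419) (nat_lit 370) (nat_lit 351)) (XT.lf (nat_lit 0) (nat_lit 1446996578) (nat_lit 1824) (nat_lit 968462463) (nat_lit 76) (nat_lit 4886128029) (nat_lit 395) (nat_lit 5) (nat_lit 419) (nat_lit 5) (nat_lit 396) (nat_lit 5) (nat_lit 420) (nat_lit 370) (nat_lit 350))))) (XT.nd (nat_lit 234) (nat_lit 1748) (nat_lit 0) (XT.nd (nat_lit 78) (nat_lit 988) (nat_lit 0) (XT.lf (nat_lit 0) (nat_lit 3947193040) (nat_lit 1064) (nat_lit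 406702033) (nat_lit 1140) (nat_lit 2995221000) (nat_lit 381) (nat_lit 5) (nat_lit 395) (nat_lit 5) (nat_lit 396) (nat_lit 5) (nat_lit 421) (nat_lit 370) (nat_lit 349)) (XT.nd (nat_lit 78) (nat_lit 76) (nat_lit 0) (XT.lf (nat_lit 0) (nat_lit 1530391635) (nat_lit 912) (nat_lit 5761092220) (nat_lit 988) (nat_lit 106688668) (nat_lit 369) (nat_lit 5) (nat_lit 381) (nat_lit 5) (nat_lit 382) (nat_lit 5) (nat_lit 422) (nat_lit 370) (nat_lit 348)) (XT.lf (nat_lit 0) (nat_lit 2773783800) (nat_lit 988) (nat_lit 917747025) (nat_lit 76) (nat_lit 3756909140) (nat_lit 368) (nat_lit 5) (nat_lit 381) (nat_lit 5) (nat_lit 369) (nat_lit 5) (nat_lit 423) (nat_lit 370) (nat_lit 347)))) (XT.nd (nat_lit 78) (nat_lit 912) (nat_lit 0) (XT.lf (nat_lit 0) (nat_lit 4129664986) (nat_lit 836) (nat_lit 1554388257) (nat_lit 912) (nat_lit 1816199389) (nat_lit 357) (nat_lit 5) (nat_lit 368) (nat_lit 5) (nat_lit 369) (nat_lit 5) (nat_lit 424) (nat_lit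 370) (nat_lit 346)) (XT.nd (nat_lit 78) (nat_lit 0) (nat_lit 0) (XT.lf (nat_lit 0) (nat_lit 1053548249) (nat_lit 912) (nat_lit 5860779946) (nat_lit 76) (nat_lit 639285057) (nat_lit 345) (nat_lit 5) (nat_lit 357) (nat_lit 5) (nat_lit 346) (nat_lit 5) (nat_lit 425) (nat_lit 370) (nat_lit 345)) (XT.lf (nat_lit 0) (nat_lit 3937234370) (nat_lit 912) (nat_lit 782976837) (nat_lit 76) (nat_lit 2887997311) (nat_lit 345) (nat_lit 5) (nat_lit 357) (nat_lit 5) (nat_lit 346) (nat_lit 5) (nat_lit 426) (nat_lit 370) (nat_lit 344)))))) (XT.nd (nat_lit 390) (nat_lit 2964) (nat_lit 0) (XT.nd (nat_lit 156) (nat_lit 1596) (nat_lit 0) (XT.nd (nat_lit 78) (nat_lit 912) (nat_lit 0) (XT.lf (nat_lit 0) (nat_lit 4399048766) (nat_lit 836) (nat_lit 2456908495) (nat_lit 912) (nat_lit 808415467) (nat_lit 334) (nat_lit 5) (nat_lit 345) (nat_lit 5) (nat_lit 346) (nat_lit 5) (nat_lit 427) (nat_lit 370) (nat_lit 343)) (XT.lf (nat_lit 0) (nat_lit 1929976063)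 (nat_lit 836) (nat_lit 120638870) (nat_lit 912) (nat_lit 5671456237) (nat_lit 322) (nat_lit 5) (nat_lit 333) (nat_lit 5) (nat_lit 334) (nat_lit 5) (nat_lit 428) (nat_lit 370) (nat_lit 342))) (XT.nd (nat_lit 78) (nat_lit 1596) (nat_lit 0) (XT.lf (nat_lit 0) (nat_lit 4942459792) (nat_lit 912) (nat_lit 583227491) (nat_lit 76) (nat_lit 2255423152) (nat_lit 322) (nat_lit 5) (nat_lit 334) (nat_lit 5) (nat_lit 323) (nat_lit 5) (nat_lit 429) (nat_lit 370) (nat_lit 341)) (XT.nd (nat_lit 78) (nat_lit 760) (nat_lit 0) (XT.lf (nat_lit 0) (nat_lit 32243356) (nat_lit 836) (nat_lit 3105686158) (nat_lit 76) (nat_lit 4703774407) (nat_lit 311) (nat_lit 5) (nat_lit 322) (nat_lit 5) (nat_lit 312) (nat_lit 5) (nat_lit 430) (nat_lit 370) (nat_lit 340)) (XT.lf (nat_lit 0) (nat_lit 2221216333) (nat_lit 760) (nat_lit 670683511) (nat_lit 836) (nat_lit 5011868659) (nat_lit 301) (nat_lit 5) (nat_lit 311) (nat_lit 5) (nat_lit 312) (nat_lit 5) (nat_lit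 431) (nat_lit 370) (nat_lit 339))))) (XT.nd (nat_lit 234) (nat_lit 1444) (nat_lit 0) (XT.nd (nat_lit 78) (nat_lit 1520) (nat_lit 0) (XT.lf (nat_lit 0) (nat_lit 5793234307) (nat_lit 836) (nat_lit 337823294) (nat_lit 76) (nat_lit 1836348231) (nat_lit 301) (nat_lit 5) (nat_lit 312) (nat_lit 5) (nat_lit 302) (nat_lit 5) (nat_lit 432) (nat_lit 370) (nat_lit 338)) (XT.nd (nat_lit 78) (nat_lit 760) (nat_lit 0) (XT.lf (nat_lit 0) (nat_lit 700915036) (nat_lit 760) (nat_lit 2915316383) (nat_lit 76) (nat_lit 4416209650) (nat_lit 291) (nat_lit 5) (nat_lit 301) (nat_lit 5) (nat_lit 292) (nat_lit 5) (nat_lit 433) (nat_lit 370) (nat_lit 337)) (XT.lf (nat_lit 0) (nat_lit 2551071080) (nat_lit 760) (nat_lit 1024912384) (nat_lit 836) (nat_lit 4523094209) (nat_lit 281) (nat_lit 5) (nat_lit 291) (nat_lit 5) (nat_lit 292) (nat_lit 5) (nat_lit 434) (nat_lit 370) (nat_lit 336)))) (XT.nd (nat_lit 78) (nat_lit 1444) (nat_lit 0) (XT.lf (nat_lit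 0) (nat_lit 6491993542) (nat_lit 836) (nat_lit 66520650) (nat_lit 76) (nat_lit 1608883554) (nat_lit 281) (nat_lit 5) (nat_lit 292) (nat_lit 5) (nat_lit 282) (nat_lit 5) (nat_lit 435) (nat_lit 370) (nat_lit 335)) (XT.nd (nat_lit 78) (nat_lit 684) (nat_lit 0) (XT.lf (nat_lit 0) (nat_lit 1209966682) (nat_lit 760) (nat_lit 2709157187) (nat_lit 76) (nat_lit 4317882540) (nat_lit 271) (nat_lit 5) (nat_lit 281) (nat_lit 5) (nat_lit 272) (nat_lit 5) (nat_lit 436) (nat_lit 370) (nat_lit 334)) (XT.lf (nat_lit 0) (nat_lit 2899224981) (nat_lit 684) (nat_lit 1205067176) (nat_lit 760) (nat_lit 4204038398) (nat_lit 262) (nat_lit 5) (nat_lit 271) (nat_lit 5) (nat_lit 272) (nat_lit 5) (nat_lit 437) (nat_lit 370) (nat_lit 333))))))))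
noncomputable def xc68 : XT := (XT.nd (nat_lit 1638) (nat_lit 5016) (nat_lit 0) (XT.nd (nat_lit 780) (nat_lit 3648) (nat_lit 0) (XT.nd (nat_lit 390) (nat_lit 2356) (nat_lit 0) (XT.nd (nat_lit 156) (nat_lit 1292) (nat_lit 0) (XT.nd (nat_lit 78) (nat_lit 76) (nat_lit 0) (XT.lf (nat_lit 0) (nat_lit 213095427) (nat_lit 608) (nat_lit 6828110407) (nat_lit 684) (nat_lit 1340199371) (nat_lit 254) (nat_lit 5) (nat_lit 262) (nat_lit 5) (nat_lit 263) (nat_lit 5) (nat_lit 438) (nat_lit 370) (nat_lit 332)) (XT.lf (nat_lit 0) (nat_lit 1559785403) (nat_lit 684) (nat_lit 2508099166) (nat_lit 76) (nat_lit 4387876786) (nat_lit 253) (nat_lit 5) (nat_lit 262) (nat_lit 5) (nat_lit 254) (nat_lit 5) (nat_lit 439) (nat_lit 370) (nat_lit 331))) (XT.nd (nat_lit 78) (nat_lit 684) (nat_lit 0) (XT.lf (nat_lit 0) (nat_lit 3244620658) (nat_lit 608) (nat_lit 1232251718) (nat_lit 684) (nat_lit 4055031136) (nat_lit 245) (nat_lit 5) (nat_lit 253) (nat_lit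 5) (nat_lit 254) (nat_lit 5) (nat_lit 440) (nat_lit 370) (nat_lit 330)) (XT.nd (nat_lit 78) (nat_lit 76) (nat_lit 0) (XT.lf (nat_lit 0) (nat_lit 477701603) (nat_lit 608) (nat_lit 6961830973) (nat_lit 684) (nat_lit 1170307987) (nat_lit 237) (nat_lit 5) (nat_lit 245) (nat_lit 5) (nat_lit 246) (nat_lit 5) (nat_lit 441) (nat_lit 370) (nat_lit 329)) (XT.lf (nat_lit 0) (nat_lit 1749353027) (nat_lit 684) (nat_lit 2333938268) (nat_lit 76) (nat_lit 4605821277) (nat_lit 236) (nat_lit 5) (nat_lit 245) (nat_lit 5) (nat_lit 237) (nat_lit 5) (nat_lit 442) (nat_lit 370) (nat_lit 328))))) (XT.nd (nat_lit 156) (nat_lit 1216) (nat_lit 0) (XT.nd (nat_lit 78) (nat_lit 532) (nat_lit 0) (XT.lf (nat_lit 0) (nat_lit 3565248163) (nat_lit 608) (nat_lit 1127110994) (nat_lit 684) (nat_lit 4077859421) (nat_lit 228) (nat_lit 5) (nat_lit 236) (nat_lit 5) (nat_lit 237) (nat_lit 5) (nat_lit 443) (nat_lit 370) (nat_lit 327)) (XT.lf (nat_lit 0) (nat_lit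 703877446) (nat_lit 532) (nat_lit 6980813541) (nat_lit 608) (nat_lit 1168461816) (nat_lit 221) (nat_lit 5) (nat_lit 228) (nat_lit 5) (nat_lit 229) (nat_lit 5) (nat_lit 444) (nat_lit 370) (nat_lit 326))) (XT.nd (nat_lit 78) (nat_lit 1140) (nat_lit 0) (XT.lf (nat_lit 0) (nat_lit 1776206426) (nat_lit 608) (nat_lit 2209594045) (nat_lit 76) (nat_lit 4951712860) (nat_lit 220) (nat_lit 5) (nat_lit 228) (nat_lit 5) (nat_lit 221) (nat_lit 5) (nat_lit 445) (nat_lit 370) (nat_lit 325)) (XT.nd (nat_lit 78) (nat_lit 532) (nat_lit 0) (XT.lf (nat_lit 0) (nat_lit 3837921714) (nat_lit 608) (nat_lit 910010832) (nat_lit 684) (nat_lit 4275812368) (nat_lit 212) (nat_lit 5) (nat_lit 220) (nat_lit 5) (nat_lit 221) (nat_lit 5) (nat_lit 446) (nat_lit 370) (nat_lit 324)) (XT.lf (nat_lit 0) (nat_lit 867807261) (nat_lit 532) (nat_lit 6905563840) (nat_lit 608) (nat_lit 1338458707) (nat_lit 205) (nat_lit 5) (nat_lit 212) (nat_lit 5) (nat_lit 213)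 (nat_lit 5) (nat_lit 447) (nat_lit 370) (nat_lit 323)))))) (XT.nd (nat_lit 390) (nat_lit 1976) (nat_lit 0) (XT.nd (nat_lit 156) (nat_lit 1064) (nat_lit 0) (XT.nd (nat_lit 78) (nat_lit 532) (nat_lit 0) (XT.lf (nat_lit 0) (nat_lit 1636385406) (nat_lit 608) (nat_lit 2159342110) (nat_lit 76) (nat_lit 5405737644) (nat_lit 204) (nat_lit 5) (nat_lit 212) (nat_lit 5) (nat_lit 205) (nat_lit 5) (nat_lit 448) (nat_lit 370) (nat_lit 322)) (XT.lf (nat_lit 0) (nat_lit 4038041634) (nat_lit 532) (nat_lit 601219777) (nat_lit 608) (nat_lit 4653739137) (nat_lit 197) (nat_lit 5) (nat_lit 204) (nat_lit 5) (nat_lit 205) (nat_lit 5) (nat_lit 449) (nat_lit 370) (nat_lit 321))) (XT.nd (nat_lit 78) (nat_lit 608) (nat_lit 0) (XT.lf (nat_lit 0) (nat_lit 944151557) (nat_lit 456) (nat_lit 6756585027) (nat_lit 532) (nat_lit 1685672381) (nat_lit 191) (nat_lit 5) (nat_lit 197) (nat_lit 5) (nat_lit 198) (nat_lit 5) (nat_lit 450) (nat_lit 370) (nat_lit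 320)) (XT.nd (nat_lit 78) (nat_lit 532) (nat_lit 0) (XT.lf (nat_lit 0) (nat_lit 1324367480) (nat_lit 532) (nat_lit 2209062945) (nat_lit 76) (nat_lit 5948089352) (nat_lit 190) (nat_lit 5) (nat_lit 197) (nat_lit 5) (nat_lit 191) (nat_lit 5) (nat_lit 451) (nat_lit 370) (nat_lit 319)) (XT.lf (nat_lit 0) (nat_lit 4139339244) (nat_lit 532) (nat_lit 221094643) (nat_lit 608) (nat_lit 5218120526) (nat_lit 183) (nat_lit 5) (nat_lit 190) (nat_lit 5) (nat_lit 191) (nat_lit 5) (nat_lit 452) (nat_lit 370) (nat_lit 318))))) (XT.nd (nat_lit 234) (nat_lit 988) (nat_lit 0) (XT.nd (nat_lit 78) (nat_lit 532) (nat_lit 0) (XT.lf (nat_lit 0) (nat_lit 905784524) (nat_lit 456) (nat_lit 6554565042) (nat_lit 532) (nat_lit 2217129770) (nat_lit 177) (nat_lit 5) (nat_lit 183) (nat_lit 5) (nat_lit 184) (nat_lit 5) (nat_lit 453) (nat_lit 370) (nat_lit 317)) (XT.nd (nat_lit 78) (nat_lit 456) (nat_lit 0) (XT.lf (nat_lit 0) (nat_lit 832988763) (nat_lit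 532) (nat_lit 2386509420) (nat_lit 76) (nat_lit 6558783157) (nat_lit 176) (nat_lit 5) (nat_lit 183) (nat_lit 5) (nat_lit 177) (nat_lit 5) (nat_lit 454) (nat_lit 370) (nat_lit 316)) (XT.lf (nat_lit 0) (nat_lit 3905235363) (nat_lit 532) (nat_lit 5768788079) (nat_lit 76) (nat_lit 206978027) (nat_lit 170) (nat_lit 5) (nat_lit 177) (nat_lit 5) (nat_lit 171) (nat_lit 5) (nat_lit 455) (nat_lit 370) (nat_lit 315)))) (XT.nd (nat_lit 78) (nat_lit 532) (nat_lit 0) (XT.lf (nat_lit 0) (nat_lit 723511014) (nat_lit 456) (nat_lit 6320569954) (nat_lit 532) (nat_lit 2941603177) (nat_lit 164) (nat_lit 5) (nat_lit 170) (nat_lit 5) (nat_lit 171) (nat_lit 5) (nat_lit 456) (nat_lit 370) (nat_lit 314)) (XT.nd (nat_lit 78) (nat_lit 456) (nat_lit 0) (XT.lf (nat_lit 0) (nat_lit 153350042) (nat_lit 532) (nat_lit 2721595555) (nat_lit 76) (nat_lit 7217463430) (nat_lit 163) (nat_lit 5) (nat_lit 170) (nat_lit 5) (nat_lit 164) (nat_lit 5) (nat_lit 457)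 (nat_lit 370) (nat_lit 313)) (XT.lf (nat_lit 0) (nat_lit 3264592120) (nat_lit 532) (nat_lit 6275074046) (nat_lit 76) (nat_lit 661348381) (nat_lit 157) (nat_lit 5) (nat_lit 164) (nat_lit 5) (nat_lit 158) (nat_lit 5) (nat_lit 458) (nat_lit 370) (nat_lit 312))))))) (XT.nd (nat_lit 780) (nat_lit 2432) (nat_lit 0) (XT.nd (nat_lit 390) (nat_lit 1292) (nat_lit 0) (XT.nd (nat_lit 156) (nat_lit 912) (nat_lit 0) (XT.nd (nat_lit 78) (nat_lit 0) (nat_lit 0) (XT.lf (nat_lit 0) (nat_lit 365760330) (nat_lit 380) (nat_lit 6076244991) (nat_lit 456) (nat_lit 3869718300) (nat_lit 152) (nat_lit 5) (nat_lit 157) (nat_lit 5) (nat_lit 158) (nat_lit 5) (nat_lit 459) (nat_lit 370) (nat_lit 311)) (XT.lf (nat_lit 0) (nat_lit 7173043587) (nat_lit 380) (nat_lit 2516549187) (nat_lit 456) (nat_lit 734931751) (nat_lit 152) (nat_lit 5) (nat_lit 157) (nat_lit 5) (nat_lit 158) (nat_lit 5) (nat_lit 460) (nat_lit 370) (nat_lit 310))) (XT.nd (nat_lit 78)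 (nat_lit 380) (nat_lit 0) (XT.lf (nat_lit 0) (nat_lit 2425709187) (nat_lit 532) (nat_lit 6990247243) (nat_lit 76) (nat_lit 1123405909) (nat_lit 145) (nat_lit 5) (nat_lit 152) (nat_lit 5) (nat_lit 146) (nat_lit 5) (nat_lit 461) (nat_lit 370) (nat_lit 309)) (XT.nd (nat_lit 78) (nat_lit 380) (nat_lit 0) (XT.lf (nat_lit 0) (nat_lit 5643588779) (nat_lit 532) (nat_lit 199100190) (nat_lit 76) (nat_lit 4813643031) (nat_lit 145) (nat_lit 5) (nat_lit 152) (nat_lit 5) (nat_lit 146) (nat_lit 5) (nat_lit 462) (nat_lit 370) (nat_lit 308)) (XT.lf (nat_lit 0) (nat_lit 6766456318) (nat_lit 380) (nat_lit 2169211610) (nat_lit 456) (nat_lit 1839785680) (nat_lit 140) (nat_lit 5) (nat_lit 145) (nat_lit 5) (nat_lit 146) (nat_lit 5) (nat_lit 463) (nat_lit 370) (nat_lit 307))))) (XT.nd (nat_lit 156) (nat_lit 836) (nat_lit 0) (XT.nd (nat_lit 78) (nat_lit 0) (nat_lit 0) (XT.lf (nat_lit 0) (nat_lit 1375210339) (nat_lit 456) (nat_lit 7950885091)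 (nat_lit 76) (nat_lit 1570751962) (nat_lit 134) (nat_lit 5) (nat_lit 140) (nat_lit 5) (nat_lit 135) (nat_lit 5) (nat_lit 464) (nat_lit 370) (nat_lit 306)) (XT.lf (nat_lit 0) (nat_lit 4637598787) (nat_lit 456) (nat_lit 1003026862) (nat_lit 76) (nat_lit 5379654487) (nat_lit 134) (nat_lit 5) (nat_lit 140) (nat_lit 5) (nat_lit 135) (nat_lit 5) (nat_lit 465) (nat_lit 370) (nat_lit 305))) (XT.nd (nat_lit 78) (nat_lit 456) (nat_lit 0) (XT.lf (nat_lit 0) (nat_lit 6114439179) (nat_lit 380) (nat_lit 1857414356) (nat_lit 456) (nat_lit 3174204307) (nat_lit 129) (nat_lit 5) (nat_lit 134) (nat_lit 5) (nat_lit 135) (nat_lit 5) (nat_lit 466) (nat_lit 370) (nat_lit 304)) (XT.nd (nat_lit 78) (nat_lit 0) (nat_lit 0) (XT.lf (nat_lit 0) (nat_lit 97549690) (nat_lit 456) (nat_lit 9196916014) (nat_lit 76) (nat_lit 1979872986) (nat_lit 123) (nat_lit 5) (nat_lit 129) (nat_lit 5) (nat_lit 124) (nat_lit 5) (nat_lit 467) (nat_lit 370) (nat_lit 303))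 (XT.lf (nat_lit 0) (nat_lit 3405806375) (nat_lit 456) (nat_lit 2091093789) (nat_lit 76) (nat_lit 5907602134) (nat_lit 123) (nat_lit 5) (nat_lit 129) (nat_lit 5) (nat_lit 124) (nat_lit 5) (nat_lit 468) (nat_lit 370) (nat_lit 302)))))) (XT.nd (nat_lit 390) (nat_lit 1368) (nat_lit 0) (XT.nd (nat_lit 156) (nat_lit 380) (nat_lit 0) (XT.nd (nat_lit 78) (nat_lit 380) (nat_lit 0) (XT.lf (nat_lit 0) (nat_lit 5175816739) (nat_lit 304) (nat_lit 1605899913) (nat_lit 380) (nat_lit 4755530773) (nat_lit 119) (nat_lit 5) (nat_lit 123) (nat_lit 5) (nat_lit 124) (nat_lit 5) (nat_lit 469) (nat_lit 370) (nat_lit 301)) (XT.lf (nat_lit 0) (nat_lit 891174285) (nat_lit 380) (nat_lit 9337312766) (nat_lit 456) (nat_lit 1444101425) (nat_lit 114) (nat_lit 5) (nat_lit 119) (nat_lit 5) (nat_lit 120) (nat_lit 5) (nat_lit 470) (nat_lit 370) (nat_lit 300))) (XT.nd (nat_lit 78) (nat_lit 304) (nat_lit 0) (XT.lf (nat_lit 0) (nat_lit 1929984801) (nat_lit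 456) (nat_lit 3507422371) (nat_lit 76) (nat_lit 6372549907) (nat_lit 113) (nat_lit 5) (nat_lit 119) (nat_lit 5) (nat_lit 114) (nat_lit 5) (nat_lit 471) (nat_lit 370) (nat_lit 299)) (XT.nd (nat_lit 78) (nat_lit 0) (nat_lit 0) (XT.lf (nat_lit 0) (nat_lit 3905441282) (nat_lit 304) (nat_lit 1440954528) (nat_lit 380) (nat_lit 6603610148) (nat_lit 109) (nat_lit 5) (nat_lit 113) (nat_lit 5) (nat_lit 114) (nat_lit 5) (nat_lit 472) (nat_lit 370) (nat_lit 298)) (XT.lf (nat_lit 0) (nat_lit 8840932935) (nat_lit 380) (nat_lit 644007543) (nat_lit 76) (nat_lit 2607726638) (nat_lit 109) (nat_lit 5) (nat_lit 114) (nat_lit 5) (nat_lit 110) (nat_lit 5) (nat_lit 473) (nat_lit 370) (nat_lit 297))))) (XT.nd (nat_lit 234) (nat_lit 684) (nat_lit 0) (XT.nd (nat_lit 78) (nat_lit 304) (nat_lit 0) (XT.lf (nat_lit 0) (nat_lit 189334434) (nat_lit 380) (nat_lit 5300444265) (nat_lit 76) (nat_lit 6747901116) (nat_lit 104) (nat_lit 5) (nat_lit 109) (nat_lit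 5) (nat_lit 105) (nat_lit 5) (nat_lit 474) (nat_lit 370) (nat_lit 296)) (XT.nd (nat_lit 78) (nat_lit 0) (nat_lit 0) (XT.lf (nat_lit 0) (nat_lit 2253712642) (nat_lit 304) (nat_lit 1390680298) (nat_lit 380) (nat_lit 8741002604) (nat_lit 100) (nat_lit 5) (nat_lit 104) (nat_lit 5) (nat_lit 105) (nat_lit 5) (nat_lit 475) (nat_lit 370) (nat_lit 295)) (XT.lf (nat_lit 0) (nat_lit 7192334967) (nat_lit 380) (nat_lit 2570695989) (nat_lit 76) (nat_lit 2772565694) (nat_lit 100) (nat_lit 5) (nat_lit 105) (nat_lit 5) (nat_lit 101) (nat_lit 5) (nat_lit 476) (nat_lit 370) (nat_lit 294)))) (XT.nd (nat_lit 78) (nat_lit 380) (nat_lit 0) (XT.lf (nat_lit 0) (nat_lit 5153030153) (nat_lit 304) (nat_lit 5671324233) (nat_lit 380) (nat_lit 1864191597) (nat_lit 96) (nat_lit 5) (nat_lit 100) (nat_lit 5) (nat_lit 101) (nat_lit 5) (nat_lit 477) (nat_lit 370) (nat_lit 293)) (XT.nd (nat_lit 78) (nat_lit 0) (nat_lit 0) (XT.lf (nat_lit 0) (nat_lit 166051557)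 (nat_lit 304) (nat_lit 1485288240) (nat_lit 380) (nat_lit 11193222655) (nat_lit 91) (nat_lit 5) (nat_lit 95) (nat_lit 5) (nat_lit 96) (nat_lit 5) (nat_lit 478) (nat_lit 370) (nat_lit 292)) (XT.lf (nat_lit 0) (nat_lit 5251915089) (nat_lit 380) (nat_lit 4956762264) (nat_lit 76) (nat_lit 2793987753) (nat_lit 91) (nat_lit 5) (nat_lit 96) (nat_lit 5) (nat_lit 92) (nat_lit 5) (nat_lit 479) (nat_lit 370) (nat_lit 291))))))))
noncomputable def xc69 : XT := (XT.nd (nat_lit 1638) (nat_lit 760) (nat_lit 0) (XT.nd (nat_lit 780) (nat_lit 1444) (nat_lit 0) (XT.nd (nat_lit 390) (nat_lit 912) (nat_lit 0) (XT.nd (nat_lit 156) (nat_lit 608) (nat_lit 0) (XT.nd (nat_lit 78) (nat_lit 0) (nat_lit 0) (XT.lf (nat_lit 0) (nat_lit 2901450376) (nat_lit 304) (nat_lit 6022991370) (nat_lit 380) (nat_lit 4239495345) (nat_lit 87) (nat_lit 5) (nat_lit 91) (nat_lit 5) (nat_lit 92) (nat_lit 5) (nat_lit 480) (nat_lit 370) (nat_lit 290)) (XT.lf (nat_lit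 0) (nat_lit 10938133694) (nat_lit 304) (nat_lit 1737078619) (nat_lit 380) (nat_lit 653132293) (nat_lit 87) (nat_lit 5) (nat_lit 91) (nat_lit 5) (nat_lit 92) (nat_lit 5) (nat_lit 481) (nat_lit 370) (nat_lit 289))) (XT.nd (nat_lit 78) (nat_lit 304) (nat_lit 0) (XT.lf (nat_lit 0) (nat_lit 2991486478) (nat_lit 304) (nat_lit 7864128667) (nat_lit 76) (nat_lit 2639521866) (nat_lit 83) (nat_lit 5) (nat_lit 87) (nat_lit 5) (nat_lit 84) (nat_lit 5) (nat_lit 482) (nat_lit 370) (nat_lit 288)) (XT.nd (nat_lit 78) (nat_lit 0) (nat_lit 0) (XT.lf (nat_lit 0) (nat_lit 120233393) (nat_lit 304) (nat_lit 6580502337) (nat_lit 380) (nat_lit 6964439132) (nat_lit 79) (nat_lit 5) (nat_lit 83) (nat_lit 5) (nat_lit 84) (nat_lit 5) (nat_lit 483) (nat_lit 370) (nat_lit 287)) (XT.lf (nat_lit 0) (nat_lit 8325666965) (nat_lit 304) (nat_lit 2183575116) (nat_lit 380) (nat_lit 3328875449) (nat_lit 79) (nat_lit 5) (nat_lit 83) (nat_lit 5) (nat_lit 84)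 (nat_lit 5) (nat_lit 484) (nat_lit 370) (nat_lit 286))))) (XT.nd (nat_lit 156) (nat_lit 608) (nat_lit 0) (XT.nd (nat_lit 78) (nat_lit 0) (nat_lit 0) (XT.lf (nat_lit 0) (nat_lit 379366978) (nat_lit 304) (nat_lit 11361108355) (nat_lit 76) (nat_lit 2273900875) (nat_lit 75) (nat_lit 5) (nat_lit 79) (nat_lit 5) (nat_lit 76) (nat_lit 5) (nat_lit 485) (nat_lit 370) (nat_lit 285)) (XT.lf (nat_lit 0) (nat_lit 4141732542) (nat_lit 304) (nat_lit 3217986896) (nat_lit 76) (nat_lit 6833515090) (nat_lit 75) (nat_lit 5) (nat_lit 79) (nat_lit 5) (nat_lit 76) (nat_lit 5) (nat_lit 486) (nat_lit 370) (nat_lit 284))) (XT.nd (nat_lit 78) (nat_lit 304) (nat_lit 0) (XT.lf (nat_lit 0) (nat_lit 5111070033) (nat_lit 304) (nat_lit 2874786391) (nat_lit 380) (nat_lit 6389688454) (nat_lit 71) (nat_lit 5) (nat_lit 75) (nat_lit 5) (nat_lit 76) (nat_lit 5) (nat_lit 487) (nat_lit 370) (nat_lit 283)) (XT.nd (nat_lit 78) (nat_lit 304) (nat_lit 0) (XT.lf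 (nat_lit 0) (nat_lit 11913090816) (nat_lit 380) (nat_lit 966012428) (nat_lit 76) (nat_lit 1682278616) (nat_lit 71) (nat_lit 5) (nat_lit 76) (nat_lit 5) (nat_lit 72) (nat_lit 5) (nat_lit 488) (nat_lit 370) (nat_lit 282)) (XT.lf (nat_lit 0) (nat_lit 1194824540) (nat_lit 304) (nat_lit 7222986528) (nat_lit 76) (nat_lit 6332133483) (nat_lit 67) (nat_lit 5) (nat_lit 71) (nat_lit 5) (nat_lit 68) (nat_lit 5) (nat_lit 489) (nat_lit 370) (nat_lit 281)))))) (XT.nd (nat_lit 390) (nat_lit 684) (nat_lit 0) (XT.nd (nat_lit 156) (nat_lit 532) (nat_lit 0) (XT.nd (nat_lit 78) (nat_lit 0) (nat_lit 0) (XT.lf (nat_lit 0) (nat_lit 1215804824) (nat_lit 228) (nat_lit 3852019895) (nat_lit 304) (nat_lit 9874338715) (nat_lit 64) (nat_lit 5) (nat_lit 67) (nat_lit 5) (nat_lit 68) (nat_lit 5) (nat_lit 490) (nat_lit 370) (nat_lit 280)) (XT.lf (nat_lit 0) (nat_lit 9046451501) (nat_lit 304) (nat_lit 5264939391) (nat_lit 76) (nat_lit 826277073) (nat_lit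 64) (nat_lit 5) (nat_lit 68) (nat_lit 5) (nat_lit 65) (nat_lit 5) (nat_lit 491) (nat_lit 370) (nat_lit 279))) (XT.nd (nat_lit 78) (nat_lit 304) (nat_lit 0) (XT.lf (nat_lit 0) (nat_lit 3341457816) (nat_lit 228) (nat_lit 9785053327) (nat_lit 304) (nat_lit 2210138752) (nat_lit 61) (nat_lit 5) (nat_lit 64) (nat_lit 5) (nat_lit 65) (nat_lit 5) (nat_lit 492) (nat_lit 370) (nat_lit 278)) (XT.nd (nat_lit 78) (nat_lit 228) (nat_lit 0) (XT.lf (nat_lit 0) (nat_lit 1735899298) (nat_lit 304) (nat_lit 3401765629) (nat_lit 76) (nat_lit 10401518388) (nat_lit 60) (nat_lit 5) (nat_lit 64) (nat_lit 5) (nat_lit 61) (nat_lit 5) (nat_lit 493) (nat_lit 370) (nat_lit 277)) (XT.lf (nat_lit 0) (nat_lit 5377632468) (nat_lit 228) (nat_lit 363777622) (nat_lit 304) (nat_lit 10003866474) (nat_lit 57) (nat_lit 5) (nat_lit 60) (nat_lit 5) (nat_lit 61) (nat_lit 5) (nat_lit 494) (nat_lit 370) (nat_lit 276))))) (XT.nd (nat_lit 234) (nat_lit 152) (nat_lit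 0) (XT.nd (nat_lit 78) (nat_lit 532) (nat_lit 0) (XT.lf (nat_lit 0) (nat_lit 9854572833) (nat_lit 304) (nat_lit 1647608932) (nat_lit 76) (nat_lit 4452763248) (nat_lit 57) (nat_lit 5) (nat_lit 61) (nat_lit 5) (nat_lit 58) (nat_lit 5) (nat_lit 495) (nat_lit 370) (nat_lit 275)) (XT.nd (nat_lit 78) (nat_lit 304) (nat_lit 0) (XT.lf (nat_lit 0) (nat_lit 7299068242) (nat_lit 228) (nat_lit 6776523884) (nat_lit 304) (nat_lit 2092706928) (nat_lit 54) (nat_lit 5) (nat_lit 57) (nat_lit 5) (nat_lit 58) (nat_lit 5) (nat_lit 496) (nat_lit 370) (nat_lit 274)) (XT.lf (nat_lit 0) (nat_lit 7249041) (nat_lit 228) (nat_lit 1948713538) (nat_lit 304) (nat_lit 14429962111) (nat_lit 50) (nat_lit 5) (nat_lit 53) (nat_lit 5) (nat_lit 54) (nat_lit 5) (nat_lit 497) (nat_lit 370) (nat_lit 273)))) (XT.nd (nat_lit 78) (nat_lit 152) (nat_lit 0) (XT.lf (nat_lit 0) (nat_lit 6112780795) (nat_lit 304) (nat_lit 7500037667) (nat_lit 76) (nat_lit 2993707640)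 (nat_lit 50) (nat_lit 5) (nat_lit 54) (nat_lit 5) (nat_lit 51) (nat_lit 5) (nat_lit 498) (nat_lit 370) (nat_lit 272)) (XT.nd (nat_lit 78) (nat_lit 0) (nat_lit 0) (XT.lf (nat_lit 0) (nat_lit 1522812819) (nat_lit 152) (nat_lit 8829126033) (nat_lit 228) (nat_lit 6479620398) (nat_lit 48) (nat_lit 5) (nat_lit 50) (nat_lit 5) (nat_lit 51) (nat_lit 5) (nat_lit 499) (nat_lit 370) (nat_lit 271)) (XT.lf (nat_lit 0) (nat_lit 10787624434) (nat_lit 152) (nat_lit 3915197593) (nat_lit 228) (nat_lit 2357735898) (nat_lit 48) (nat_lit 5) (nat_lit 50) (nat_lit 5) (nat_lit 51) (nat_lit 5) (nat_lit 500) (nat_lit 370) (nat_lit 270))))))) (XT.nd (nat_lit 51792) (nat_lit 0) (nat_lit 33896) (XT.nd (nat_lit 51324) (nat_lit 0) (nat_lit 42712) (XT.nd (nat_lit 156) (nat_lit 456) (nat_lit 0) (XT.nd (nat_lit 78) (nat_lit 0) (nat_lit 0) (XT.lf (nat_lit 0) (nat_lit 1825529824) (nat_lit 304) (nat_lit 14370846808) (nat_lit 76) (nat_lit 1097460479) (nat_lit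 44) (nat_lit 5) (nat_lit 48) (nat_lit 5) (nat_lit 45) (nat_lit 5) (nat_lit 501) (nat_lit 370) (nat_lit 269)) (XT.lf (nat_lit 0) (nat_lit 6106227422) (nat_lit 304) (nat_lit 5224674063) (nat_lit 76) (nat_lit 6199665460) (nat_lit 44) (nat_lit 5) (nat_lit 48) (nat_lit 5) (nat_lit 45) (nat_lit 5) (nat_lit 502) (nat_lit 370) (nat_lit 268))) (XT.nd (nat_lit 78) (nat_lit 304) (nat_lit 0) (XT.lf (nat_lit 0) (nat_lit 4119452898) (nat_lit 152) (nat_lit 6357288388) (nat_lit 228) (nat_lit 7295209464) (nat_lit 42) (nat_lit 5) (nat_lit 44) (nat_lit 5) (nat_lit 45) (nat_lit 5) (nat_lit 503) (nat_lit 370) (nat_lit 267)) (XT.nd (nat_lit 78) (nat_lit 304) (nat_lit 0) (XT.lf (nat_lit 0) (nat_lit 13682544183) (nat_lit 152) (nat_lit 1264828161) (nat_lit 228) (nat_lit 3070539103) (nat_lit 42) (nat_lit 5) (nat_lit 44) (nat_lit 5) (nat_lit 45) (nat_lit 5) (nat_lit 504) (nat_lit 370) (nat_lit 266)) (XT.lf (nat_lit 0) (nat_lit 1259696317) (nat_lit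 304) (nat_lit 13104232091) (nat_lit 76) (nat_lit 3903959005) (nat_lit 38) (nat_lit 5) (nat_lit 42) (nat_lit 5) (nat_lit 39) (nat_lit 5) (nat_lit 505) (nat_lit 370) (nat_lit 265))))) (XT.nd (nat_lit 234) (nat_lit 1900) (nat_lit 0) (XT.nd (nat_lit 78) (nat_lit 836) (nat_lit 0) (XT.lf (nat_lit 0) (nat_lit 2495933697) (nat_lit 684) (nat_lit 402296096) (nat_lit 684) (nat_lit 402296096) (nat_lit 636) (nat_lit 4) (nat_lit 645) (nat_lit 5) (nat_lit 645) (nat_lit 4) (nat_lit 398) (nat_lit 371) (nat_lit 371)) (XT.nd (nat_lit 78) (nat_lit 0) (nat_lit 0) (XT.lf (nat_lit 0) (nat_lit 2340922137) (nat_lit 836) (nat_lit 4235246286) (nat_lit 0) (nat_lit 43240881) (nat_lit 625) (nat_lit 5) (nat_lit 636) (nat_lit 4) (nat_lit 625) (nat_lit 4) (nat_lit 399) (nat_lit 371) (nat_lit 370)) (XT.lf (nat_lit 0) (nat_lit 5482983724) (nat_lit 836) (nat_lit 223532449) (nat_lit 0) (nat_lit 932673787) (nat_lit 625) (nat_lit 5) (nat_lit 636) (nat_lit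 4) (nat_lit 625) (nat_lit 4) (nat_lit 400) (nat_lit 371) (nat_lit 369)))) (XT.nd (nat_lit 78) (nat_lit 988) (nat_lit 0) (XT.lf (nat_lit 0) (nat_lit 1956278153) (nat_lit 912) (nat_lit 2807087558) (nat_lit 76) (nat_lit 1896698460) (nat_lit 613) (nat_lit 5) (nat_lit 625) (nat_lit 5) (nat_lit 614) (nat_lit 4) (nat_lit 401) (nat_lit 371) (nat_lit 368)) (XT.nd (nat_lit 78) (nat_lit 76) (nat_lit 0) (XT.lf (nat_lit 0) (nat_lit 1288306178) (nat_lit 912) (nat_lit 3767254203) (nat_lit 988) (nat_lit 1626889681) (nat_lit 601) (nat_lit 5) (nat_lit 613) (nat_lit 5) (nat_lit 614) (nat_lit 4) (nat_lit 402) (nat_lit 371) (nat_lit 367)) (XT.lf (nat_lit 0) (nat_lit 1441344805) (nat_lit 988) (nat_lit 1265444656) (nat_lit 76) (nat_lit 3999351236) (nat_lit 600) (nat_lit 5) (nat_lit 613) (nat_lit 5) (nat_lit 601) (nat_lit 5) (nat_lit 403) (nat_lit 371) (nat_lit 366)))))) (XT.nd (nat_lit 390) (nat_lit 5472) (nat_lit 0) (XT.nd (nat_lit 156) (nat_lit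 1216) (nat_lit 0) (XT.nd (nat_lit 78) (nat_lit 1140) (nat_lit 0) (XT.lf (nat_lit 0) (nat_lit 2920159113) (nat_lit 988) (nat_lit 1580002965) (nat_lit 1064) (nat_lit 2230952845) (nat_lit 587) (nat_lit 5) (nat_lit 600) (nat_lit 5) (nat_lit 601) (nat_lit 5) (nat_lit 404) (nat_lit 371) (nat_lit 365)) (XT.lf (nat_lit 0) (nat_lit 395955888) (nat_lit 1064) (nat_lit 399929093) (nat_lit 1140) (nat_lit 5961761792) (nat_lit 572) (nat_lit 5) (nat_lit 586) (nat_lit 5) (nat_lit 587) (nat_lit 5) (nat_lit 405) (nat_lit 371) (nat_lit 364))) (XT.nd (nat_lit 78) (nat_lit 1216) (nat_lit 0) (XT.lf (nat_lit 0) (nat_lit 3817962268) (nat_lit 1140) (nat_lit 2120582746) (nat_lit 76) (nat_lit 846620115) (nat_lit 572) (nat_lit 5) (nat_lit 587) (nat_lit 5) (nat_lit 573) (nat_lit 5) (nat_lit 406) (nat_lit 371) (nat_lit 363)) (XT.nd (nat_lit 78) (nat_lit 0) (nat_lit 0) (XT.lf (nat_lit 0) (nat_lit 37416113) (nat_lit 1216) (nat_lit 4637042130) (nat_lit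 76) (nat_lit 2139778681) (nat_lit 556) (nat_lit 5) (nat_lit 572) (nat_lit 5) (nat_lit 557) (nat_lit 5) (nat_lit 407) (nat_lit 371) (nat_lit 362)) (XT.lf (nat_lit 0) (nat_lit 3012110816) (nat_lit 1216) (nat_lit 328032910) (nat_lit 76) (nat_lit 3504399745) (nat_lit 556) (nat_lit 5) (nat_lit 572) (nat_lit 5) (nat_lit 557) (nat_lit 5) (nat_lit 408) (nat_lit 371) (nat_lit 361))))) (XT.nd (nat_lit 234) (nat_lit 2888) (nat_lit 0) (XT.nd (nat_lit 78) (nat_lit 1368) (nat_lit 0) (XT.lf (nat_lit 0) (nat_lit 4067208752) (nat_lit 1216) (nat_lit 1942117864) (nat_lit 1292) (nat_lit 866908073) (nat_lit 540) (nat_lit 5) (nat_lit 556) (nat_lit 5) (nat_lit 557) (nat_lit 5) (nat_lit 409) (nat_lit 371) (nat_lit 360)) (XT.nd (nat_lit 78) (nat_lit 0) (nat_lit 0) (XT.lf (nat_lit 0) (nat_lit 1599424351) (nat_lit 1292) (nat_lit 479869039) (nat_lit 1368) (nat_lit 4830030334) (nat_lit 522) (nat_lit 5) (nat_lit 539) (nat_lit 5) (nat_lit 540) (nat_lit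 5) (nat_lit 410) (nat_lit 371) (nat_lit 359)) (XT.lf (nat_lit 0) (nat_lit 5036375091) (nat_lit 1368) (nat_lit 875803575) (nat_lit 76) (nat_lit 1031546816) (nat_lit 522) (nat_lit 5) (nat_lit 540) (nat_lit 5) (nat_lit 523) (nat_lit 5) (nat_lit 411) (nat_lit 371) (nat_lit 358)))) (XT.nd (nat_lit 78) (nat_lit 1444) (nat_lit 0) (XT.lf (nat_lit 0) (nat_lit 1025462239) (nat_lit 1444) (nat_lit 3348489264) (nat_lit 76) (nat_lit 2605444498) (nat_lit 503) (nat_lit 5) (nat_lit 522) (nat_lit 5) (nat_lit 504) (nat_lit 5) (nat_lit 412) (nat_lit 371) (nat_lit 357)) (XT.nd (nat_lit 78) (nat_lit 0) (nat_lit 0) (XT.lf (nat_lit 0) (nat_lit 1172465555) (nat_lit 1444) (nat_lit 2772117548) (nat_lit 1520) (nat_lit 3071915553) (nat_lit 484) (nat_lit 5) (nat_lit 503) (nat_lit 5) (nat_lit 504) (nat_lit 5) (nat_lit 413) (nat_lit 371) (nat_lit 356)) (XT.lf (nat_lit 0) (nat_lit 5775383940) (nat_lit 1444) (nat_lit 1109645599) (nat_lit 1520) (nat_lit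 170088987) (nat_lit 484) (nat_lit 5) (nat_lit 503) (nat_lit 5) (nat_lit 504) (nat_lit 5) (nat_lit 414) (nat_lit 371) (nat_lit 355))))))))
noncomputable def xc70 : XT := (XT.nd (nat_lit 1638) (nat_lit 8892) (nat_lit 0) (XT.nd (nat_lit 780) (nat_lit 5776) (nat_lit 0) (XT.nd (nat_lit 390) (nat_lit 2964) (nat_lit 0) (XT.nd (nat_lit 156) (nat_lit 3496) (nat_lit 0) (XT.nd (nat_lit 78) (nat_lit 1596) (nat_lit 0) (XT.lf (nat_lit 0) (nat_lit 2720246969) (nat_lit 1596) (nat_lit 3750980989) (nat_lit 76) (nat_lit 623612052) (nat_lit 463) (nat_lit 5) (nat_lit 484) (nat_lit 5) (nat_lit 464) (nat_lit 5) (nat_lit 415) (nat_lit 371) (nat_lit 354)) (XT.lf (nat_lit 0) (nat_lit 890765322) (nat_lit 1596) (nat_lit 4739183878) (nat_lit 1672) (nat_lit 1506139560) (nat_lit 442) (nat_lit 5) (nat_lit 463) (nat_lit 5) (nat_lit 464) (nat_lit 5) (nat_lit 416) (nat_lit 371) (nat_lit 353))) (XT.nd (nat_lit 78) (nat_lit 3420) (nat_lit 0) (XT.lf (nat_lit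 0) (nat_lit 1368834834) (nat_lit 1672) (nat_lit 1565761419) (nat_lit 76) (nat_lit 4244057273) (nat_lit 441) (nat_lit 5) (nat_lit 463) (nat_lit 5) (nat_lit 442) (nat_lit 5) (nat_lit 417) (nat_lit 371) (nat_lit 352)) (XT.nd (nat_lit 78) (nat_lit 1748) (nat_lit 0) (XT.lf (nat_lit 0) (nat_lit 3185360419) (nat_lit 1672) (nat_lit 1060043658) (nat_lit 1748) (nat_lit 2977211361) (nat_lit 419) (nat_lit 5) (nat_lit 441) (nat_lit 5) (nat_lit 442) (nat_lit 5) (nat_lit 418) (nat_lit 371) (nat_lit 351)) (XT.lf (nat_lit 0) (nat_lit 734882482) (nat_lit 1748) (nat_lit 6409837905) (nat_lit 1824) (nat_lit 123461509) (nat_lit 396) (nat_lit 5) (nat_lit 419) (nat_lit 5) (nat_lit 420) (nat_lit 5) (nat_lit 419) (nat_lit 371) (nat_lit 350))))) (XT.nd (nat_lit 156) (nat_lit 1824) (nat_lit 0) (XT.nd (nat_lit 78) (nat_lit 1064) (nat_lit 0) (XT.lf (nat_lit 0) (nat_lit 2729780815) (nat_lit 1824) (nat_lit 1737267052) (nat_lit 76) (nat_lit 2847698852)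 (nat_lit 395) (nat_lit 5) (nat_lit 419) (nat_lit 5) (nat_lit 396) (nat_lit 5) (nat_lit 420) (nat_lit 371) (nat_lit 349)) (XT.lf (nat_lit 0) (nat_lit 3141102680) (nat_lit 1064) (nat_lit 2463495048) (nat_lit 1140) (nat_lit 1758333445) (nat_lit 381) (nat_lit 5) (nat_lit 395) (nat_lit 5) (nat_lit 396) (nat_lit 5) (nat_lit 421) (nat_lit 371) (nat_lit 348))) (XT.nd (nat_lit 78) (nat_lit 836) (nat_lit 0) (XT.lf (nat_lit 0) (nat_lit 675876768) (nat_lit 912) (nat_lit 396427082) (nat_lit 988) (nat_lit 6340411739) (nat_lit 368) (nat_lit 5) (nat_lit 380) (nat_lit 5) (nat_lit 381) (nat_lit 5) (nat_lit 422) (nat_lit 371) (nat_lit 347)) (XT.nd (nat_lit 78) (nat_lit 836) (nat_lit 0) (XT.lf (nat_lit 0) (nat_lit 3922467679) (nat_lit 988) (nat_lit 1812189764) (nat_lit 76) (nat_lit 1728902942) (nat_lit 368) (nat_lit 5) (nat_lit 381) (nat_lit 5) (nat_lit 369) (nat_lit 5) (nat_lit 423) (nat_lit 371) (nat_lit 346)) (XT.lf (nat_lit 0) (nat_lit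 3196248976) (nat_lit 836) (nat_lit 3604608643) (nat_lit 912) (nat_lit 715165790) (nat_lit 357) (nat_lit 5) (nat_lit 368) (nat_lit 5) (nat_lit 369) (nat_lit 5) (nat_lit 424) (nat_lit 371) (nat_lit 345)))))) (XT.nd (nat_lit 390) (nat_lit 3116) (nat_lit 0) (XT.nd (nat_lit 156) (nat_lit 1748) (nat_lit 0) (XT.nd (nat_lit 78) (nat_lit 0) (nat_lit 0) (XT.lf (nat_lit 0) (nat_lit 700812167) (nat_lit 836) (nat_lit 1402988458) (nat_lit 912) (nat_lit 5466179520) (nat_lit 345) (nat_lit 5) (nat_lit 356) (nat_lit 5) (nat_lit 357) (nat_lit 5) (nat_lit 425) (nat_lit 371) (nat_lit 344)) (XT.lf (nat_lit 0) (nat_lit 4953031826) (nat_lit 912) (nat_lit 1809497263) (nat_lit 76) (nat_lit 862747450) (nat_lit 345) (nat_lit 5) (nat_lit 357) (nat_lit 5) (nat_lit 346) (nat_lit 5) (nat_lit 426) (nat_lit 371) (nat_lit 343))) (XT.nd (nat_lit 78) (nat_lit 836) (nat_lit 0) (XT.lf (nat_lit 0) (nat_lit 155817934) (nat_lit 912) (nat_lit 4351289102) (nat_lit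 76) (nat_lit 3174960564) (nat_lit 333) (nat_lit 5) (nat_lit 345) (nat_lit 5) (nat_lit 334) (nat_lit 5) (nat_lit 427) (nat_lit 371) (nat_lit 342)) (XT.nd (nat_lit 78) (nat_lit 0) (nat_lit 0) (XT.lf (nat_lit 0) (nat_lit 797032030) (nat_lit 836) (nat_lit 2175150238) (nat_lit 912) (nat_lit 4768131404) (nat_lit 322) (nat_lit 5) (nat_lit 333) (nat_lit 5) (nat_lit 334) (nat_lit 5) (nat_lit 428) (nat_lit 371) (nat_lit 341)) (XT.lf (nat_lit 0) (nat_lit 5826276374) (nat_lit 912) (nat_lit 1748253475) (nat_lit 76) (nat_lit 225589216) (nat_lit 322) (nat_lit 5) (nat_lit 334) (nat_lit 5) (nat_lit 323) (nat_lit 5) (nat_lit 429) (nat_lit 371) (nat_lit 340))))) (XT.nd (nat_lit 234) (nat_lit 1520) (nat_lit 0) (XT.nd (nat_lit 78) (nat_lit 760) (nat_lit 0) (XT.lf (nat_lit 0) (nat_lit 853715237) (nat_lit 836) (nat_lit 4338254019) (nat_lit 76) (nat_lit 2669281560) (nat_lit 311) (nat_lit 5) (nat_lit 322) (nat_lit 5) (nat_lit 312) (nat_lit 5)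 (nat_lit 430) (nat_lit 371) (nat_lit 339)) (XT.nd (nat_lit 78) (nat_lit 0) (nat_lit 0) (XT.lf (nat_lit 0) (nat_lit 945114895) (nat_lit 760) (nat_lit 2736169027) (nat_lit 836) (nat_lit 4242683702) (nat_lit 301) (nat_lit 5) (nat_lit 311) (nat_lit 5) (nat_lit 312) (nat_lit 5) (nat_lit 431) (nat_lit 371) (nat_lit 338)) (XT.lf (nat_lit 0) (nat_lit 6339182985) (nat_lit 760) (nat_lit 207845531) (nat_lit 836) (nat_lit 1441298503) (nat_lit 301) (nat_lit 5) (nat_lit 311) (nat_lit 5) (nat_lit 312) (nat_lit 5) (nat_lit 432) (nat_lit 371) (nat_lit 337)))) (XT.nd (nat_lit 78) (nat_lit 760) (nat_lit 0) (XT.lf (nat_lit 0) (nat_lit 1390736567) (nat_lit 760) (nat_lit 4295733275) (nat_lit 76) (nat_lit 2367475910) (nat_lit 291) (nat_lit 5) (nat_lit 301) (nat_lit 5) (nat_lit 292) (nat_lit 5) (nat_lit 433) (nat_lit 371) (nat_lit 336)) (XT.nd (nat_lit 78) (nat_lit 0) (nat_lit 0) (XT.lf (nat_lit 0) (nat_lit 1125264312) (nat_lit 760) (nat_lit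 3108336327) (nat_lit 836) (nat_lit 3887635479) (nat_lit 281) (nat_lit 5) (nat_lit 291) (nat_lit 5) (nat_lit 292) (nat_lit 5) (nat_lit 434) (nat_lit 371) (nat_lit 335)) (XT.lf (nat_lit 0) (nat_lit 6659352212) (nat_lit 760) (nat_lit 457004461) (nat_lit 836) (nat_lit 1073874084) (nat_lit 281) (nat_lit 5) (nat_lit 291) (nat_lit 5) (nat_lit 292) (nat_lit 5) (nat_lit 435) (nat_lit 371) (nat_lit 334))))))) (XT.nd (nat_lit 858) (nat_lit 3648) (nat_lit 0) (XT.nd (nat_lit 390) (nat_lit 2508) (nat_lit 0) (XT.nd (nat_lit 156) (nat_lit 1292) (nat_lit 0) (XT.nd (nat_lit 78) (nat_lit 684) (nat_lit 0) (XT.lf (nat_lit 0) (nat_lit 1768361937) (nat_lit 760) (nat_lit 4243960233) (nat_lit 76) (nat_lit 2248153169) (nat_lit 271) (nat_lit 5) (nat_lit 281) (nat_lit 5) (nat_lit 272) (nat_lit 5) (nat_lit 436) (nat_lit 371) (nat_lit 333)) (XT.lf (nat_lit 0) (nat_lit 1317119037) (nat_lit 684) (nat_lit 3313158275) (nat_lit 760) (nat_lit 3702179313)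 (nat_lit 262) (nat_lit 5) (nat_lit 271) (nat_lit 5) (nat_lit 272) (nat_lit 5) (nat_lit 437) (nat_lit 371) (nat_lit 332))) (XT.nd (nat_lit 78) (nat_lit 1292) (nat_lit 0) (XT.lf (nat_lit 0) (nat_lit 6993663116) (nat_lit 684) (nat_lit 540059166) (nat_lit 760) (nat_lit 872487130) (nat_lit 262) (nat_lit 5) (nat_lit 271) (nat_lit 5) (nat_lit 272) (nat_lit 5) (nat_lit 438) (nat_lit 371) (nat_lit 331)) (XT.nd (nat_lit 78) (nat_lit 608) (nat_lit 0) (XT.lf (nat_lit 0) (nat_lit 1986702861) (nat_lit 684) (nat_lit 4203889159) (nat_lit 76) (nat_lit 2290614444) (nat_lit 253) (nat_lit 5) (nat_lit 262) (nat_lit 5) (nat_lit 254) (nat_lit 5) (nat_lit 439) (nat_lit 371) (nat_lit 330)) (XT.lf (nat_lit 0) (nat_lit 1499554127) (nat_lit 608) (nat_lit 3371533403) (nat_lit 684) (nat_lit 3686923394) (nat_lit 245) (nat_lit 5) (nat_lit 253) (nat_lit 5) (nat_lit 254) (nat_lit 5) (nat_lit 440) (nat_lit 371) (nat_lit 329))))) (XT.nd (nat_lit 234) (nat_lit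 1216) (nat_lit 0) (XT.nd (nat_lit 78) (nat_lit 1292) (nat_lit 0) (XT.lf (nat_lit 0) (nat_lit 7321094662) (nat_lit 608) (nat_lit 477606422) (nat_lit 684) (nat_lit 837955918) (nat_lit 245) (nat_lit 5) (nat_lit 253) (nat_lit 5) (nat_lit 254) (nat_lit 5) (nat_lit 441) (nat_lit 371) (nat_lit 328)) (XT.nd (nat_lit 78) (nat_lit 608) (nat_lit 0) (XT.lf (nat_lit 0) (nat_lit 2044473421) (nat_lit 684) (nat_lit 4197400597) (nat_lit 76) (nat_lit 2474677074) (nat_lit 236) (nat_lit 5) (nat_lit 245) (nat_lit 5) (nat_lit 237) (nat_lit 5) (nat_lit 442) (nat_lit 371) (nat_lit 327)) (XT.lf (nat_lit 0) (nat_lit 1650471110) (nat_lit 608) (nat_lit 3303929824) (nat_lit 684) (nat_lit 3843925365) (nat_lit 228) (nat_lit 5) (nat_lit 236) (nat_lit 5) (nat_lit 237) (nat_lit 5) (nat_lit 443) (nat_lit 371) (nat_lit 326)))) (XT.nd (nat_lit 78) (nat_lit 1216) (nat_lit 0) (XT.lf (nat_lit 0) (nat_lit 7619617138) (nat_lit 608) (nat_lit 289846851) (nat_lit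 684) (nat_lit 972549390) (nat_lit 228) (nat_lit 5) (nat_lit 236) (nat_lit 5) (nat_lit 237) (nat_lit 5) (nat_lit 444) (nat_lit 371) (nat_lit 325)) (XT.nd (nat_lit 78) (nat_lit 608) (nat_lit 0) (XT.lf (nat_lit 0) (nat_lit 1938949515) (nat_lit 608) (nat_lit 4247519007) (nat_lit 76) (nat_lit 2780499132) (nat_lit 220) (nat_lit 5) (nat_lit 228) (nat_lit 5) (nat_lit 221) (nat_lit 5) (nat_lit 445) (nat_lit 371) (nat_lit 324)) (XT.lf (nat_lit 0) (nat_lit 1746575331) (nat_lit 608) (nat_lit 3130563276) (nat_lit 684) (nat_lit 4176738419) (nat_lit 212) (nat_lit 5) (nat_lit 220) (nat_lit 5) (nat_lit 221) (nat_lit 5) (nat_lit 446) (nat_lit 371) (nat_lit 323)))))) (XT.nd (nat_lit 390) (nat_lit 1976) (nat_lit 0) (XT.nd (nat_lit 156) (nat_lit 1064) (nat_lit 0) (XT.nd (nat_lit 78) (nat_lit 608) (nat_lit 0) (XT.lf (nat_lit 0) (nat_lit 7862751032) (nat_lit 684) (nat_lit 1276819498) (nat_lit 76) (nat_lit 3194821) (nat_lit 212) (nat_lit 5)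 (nat_lit 221) (nat_lit 5) (nat_lit 213) (nat_lit 5) (nat_lit 447) (nat_lit 371) (nat_lit 322)) (XT.lf (nat_lit 0) (nat_lit 1665915732) (nat_lit 608) (nat_lit 4378644691) (nat_lit 76) (nat_lit 3188402282) (nat_lit 204) (nat_lit 5) (nat_lit 212) (nat_lit 5) (nat_lit 205) (nat_lit 5) (nat_lit 448) (nat_lit 371) (nat_lit 321))) (XT.nd (nat_lit 78) (nat_lit 532) (nat_lit 0) (XT.lf (nat_lit 0) (nat_lit 1763138397) (nat_lit 532) (nat_lit 2871577479) (nat_lit 608) (nat_lit 4690470247) (nat_lit 197) (nat_lit 5) (nat_lit 204) (nat_lit 5) (nat_lit 205) (nat_lit 5) (nat_lit 449) (nat_lit 371) (nat_lit 320)) (XT.nd (nat_lit 78) (nat_lit 532) (nat_lit 0) (XT.lf (nat_lit 0) (nat_lit 7656184787) (nat_lit 608) (nat_lit 1386520719) (nat_lit 76) (nat_lit 376695541) (nat_lit 197) (nat_lit 5) (nat_lit 205) (nat_lit 5) (nat_lit 198) (nat_lit 5) (nat_lit 450) (nat_lit 371) (nat_lit 319)) (XT.lf (nat_lit 0) (nat_lit 1219599171) (nat_lit 532)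 (nat_lit 4616802168) (nat_lit 76) (nat_lit 3678691552) (nat_lit 190) (nat_lit 5) (nat_lit 197) (nat_lit 5) (nat_lit 191) (nat_lit 5) (nat_lit 451) (nat_lit 371) (nat_lit 318))))) (XT.nd (nat_lit 234) (nat_lit 912) (nat_lit 0) (XT.nd (nat_lit 78) (nat_lit 532) (nat_lit 0) (XT.lf (nat_lit 0) (nat_lit 1673743512) (nat_lit 532) (nat_lit 2547228317) (nat_lit 608) (nat_lit 5391855589) (nat_lit 183) (nat_lit 5) (nat_lit 190) (nat_lit 5) (nat_lit 191) (nat_lit 5) (nat_lit 452) (nat_lit 371) (nat_lit 317)) (XT.nd (nat_lit 78) (nat_lit 532) (nat_lit 0) (XT.lf (nat_lit 0) (nat_lit 7281375473) (nat_lit 608) (nat_lit 1616543798) (nat_lit 76) (nat_lit 814629206) (nat_lit 183) (nat_lit 5) (nat_lit 191) (nat_lit 5) (nat_lit 184) (nat_lit 5) (nat_lit 453) (nat_lit 371) (nat_lit 316)) (XT.lf (nat_lit 0) (nat_lit 592589423) (nat_lit 532) (nat_lit 4989907320) (nat_lit 76) (nat_lit 4231470469) (nat_lit 176) (nat_lit 5) (nat_lit 183) (nat_lit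 5) (nat_lit 177) (nat_lit 5) (nat_lit 454) (nat_lit 371) (nat_lit 315)))) (XT.nd (nat_lit 78) (nat_lit 456) (nat_lit 0) (XT.lf (nat_lit 0) (nat_lit 1450011284) (nat_lit 456) (nat_lit 2178073426) (nat_lit 532) (nat_lit 6289343214) (nat_lit 170) (nat_lit 5) (nat_lit 176) (nat_lit 5) (nat_lit 177) (nat_lit 5) (nat_lit 455) (nat_lit 371) (nat_lit 314)) (XT.nd (nat_lit 78) (nat_lit 456) (nat_lit 0) (XT.lf (nat_lit 0) (nat_lit 6730140705) (nat_lit 532) (nat_lit 1995875356) (nat_lit 76) (nat_lit 1296835778) (nat_lit 170) (nat_lit 5) (nat_lit 177) (nat_lit 5) (nat_lit 171) (nat_lit 5) (nat_lit 456) (nat_lit 371) (nat_lit 313)) (XT.lf (nat_lit 0) (nat_lit 4600688873) (nat_lit 456) (nat_lit 5302294772) (nat_lit 532) (nat_lit 227236460) (nat_lit 164) (nat_lit 5) (nat_lit 170) (nat_lit 5) (nat_lit 171) (nat_lit 5) (nat_lit 457) (nat_lit 371) (nat_lit 312))))))))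
noncomputable def xc71 : XT := (XT.nd (nat_lit 1638) (nat_lit 3572) (nat_lit 0) (XT.nd (nat_lit 780) (nat_lit 2584) (nat_lit 0) (XT.nd (nat_lit 390) (nat_lit 1216) (nat_lit 0) (XT.nd (nat_lit 156) (nat_lit 912) (nat_lit 0) (XT.nd (nat_lit 78) (nat_lit 0) (nat_lit 0) (XT.lf (nat_lit 0) (nat_lit 1061303400) (nat_lit 456) (nat_lit 1785168818) (nat_lit 532) (nat_lit 7393198322) (nat_lit 157) (nat_lit 5) (nat_lit 163) (nat_lit 5) (nat_lit 164) (nat_lit 5) (nat_lit 458) (nat_lit 371) (nat_lit 311)) (XT.lf (nat_lit 0) (nat_lit 5992519588) (nat_lit 532) (nat_lit 2555864820) (nat_lit 76) (nat_lit 1802627556) (nat_lit 157) (nat_lit 5) (nat_lit 164) (nat_lit 5) (nat_lit 158) (nat_lit 5) (nat_lit 459) (nat_lit 371) (nat_lit 310))) (XT.nd (nat_lit 78) (nat_lit 532) (nat_lit 0) (XT.lf (nat_lit 0) (nat_lit 4192492094) (nat_lit 380) (nat_lit 5013578603) (nat_lit 456) (nat_lit 1258427832) (nat_lit 152) (nat_lit 5) (nat_lit 157) (nat_lit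 5) (nat_lit 158) (nat_lit 5) (nat_lit 460) (nat_lit 371) (nat_lit 309)) (XT.nd (nat_lit 78) (nat_lit 0) (nat_lit 0) (XT.lf (nat_lit 0) (nat_lit 474401337) (nat_lit 456) (nat_lit 1390274303) (nat_lit 532) (nat_lit 8715621487) (nat_lit 145) (nat_lit 5) (nat_lit 151) (nat_lit 5) (nat_lit 152) (nat_lit 5) (nat_lit 461) (nat_lit 371) (nat_lit 308)) (XT.lf (nat_lit 0) (nat_lit 5056652235) (nat_lit 532) (nat_lit 3330552243) (nat_lit 76) (nat_lit 2310585020) (nat_lit 145) (nat_lit 5) (nat_lit 152) (nat_lit 5) (nat_lit 146) (nat_lit 5) (nat_lit 462) (nat_lit 371) (nat_lit 307))))) (XT.nd (nat_lit 156) (nat_lit 760) (nat_lit 0) (XT.nd (nat_lit 78) (nat_lit 76) (nat_lit 0) (XT.lf (nat_lit 0) (nat_lit 3568722184) (nat_lit 380) (nat_lit 4742701886) (nat_lit 456) (nat_lit 2506237742) (nat_lit 140) (nat_lit 5) (nat_lit 145) (nat_lit 5) (nat_lit 146) (nat_lit 5) (nat_lit 463) (nat_lit 371) (nat_lit 306)) (XT.lf (nat_lit 0) (nat_lit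 671478474) (nat_lit 456) (nat_lit 342294089) (nat_lit 76) (nat_lit 9926294363) (nat_lit 139) (nat_lit 5) (nat_lit 145) (nat_lit 5) (nat_lit 140) (nat_lit 5) (nat_lit 464) (nat_lit 371) (nat_lit 305))) (XT.nd (nat_lit 78) (nat_lit 380) (nat_lit 0) (XT.lf (nat_lit 0) (nat_lit 3908641523) (nat_lit 456) (nat_lit 4357025143) (nat_lit 76) (nat_lit 2798341808) (nat_lit 134) (nat_lit 5) (nat_lit 140) (nat_lit 5) (nat_lit 135) (nat_lit 5) (nat_lit 465) (nat_lit 371) (nat_lit 304)) (XT.nd (nat_lit 78) (nat_lit 0) (nat_lit 0) (XT.lf (nat_lit 0) (nat_lit 2691503972) (nat_lit 380) (nat_lit 4513112975) (nat_lit 456) (nat_lit 3985939033) (nat_lit 129) (nat_lit 5) (nat_lit 134) (nat_lit 5) (nat_lit 135) (nat_lit 5) (nat_lit 466) (nat_lit 371) (nat_lit 303)) (XT.lf (nat_lit 0) (nat_lit 9891813909) (nat_lit 380) (nat_lit 671826719) (nat_lit 456) (nat_lit 756059571) (nat_lit 129) (nat_lit 5) (nat_lit 134) (nat_lit 5) (nat_lit 135) (nat_lit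 5) (nat_lit 467) (nat_lit 371) (nat_lit 302)))))) (XT.nd (nat_lit 390) (nat_lit 1064) (nat_lit 0) (XT.nd (nat_lit 156) (nat_lit 760) (nat_lit 0) (XT.nd (nat_lit 78) (nat_lit 304) (nat_lit 0) (XT.lf (nat_lit 0) (nat_lit 2532395629) (nat_lit 456) (nat_lit 5675807832) (nat_lit 76) (nat_lit 3242356838) (nat_lit 123) (nat_lit 5) (nat_lit 129) (nat_lit 5) (nat_lit 124) (nat_lit 5) (nat_lit 468) (nat_lit 371) (nat_lit 301)) (XT.lf (nat_lit 0) (nat_lit 1519410203) (nat_lit 304) (nat_lit 4349568439) (nat_lit 380) (nat_lit 5715117219) (nat_lit 119) (nat_lit 5) (nat_lit 123) (nat_lit 5) (nat_lit 124) (nat_lit 5) (nat_lit 469) (nat_lit 371) (nat_lit 300))) (XT.nd (nat_lit 78) (nat_lit 760) (nat_lit 0) (XT.lf (nat_lit 0) (nat_lit 8887834246) (nat_lit 304) (nat_lit 391368191) (nat_lit 380) (nat_lit 2440969222) (nat_lit 119) (nat_lit 5) (nat_lit 123) (nat_lit 5) (nat_lit 124) (nat_lit 5) (nat_lit 470) (nat_lit 371) (nat_lit 299)) (XT.nd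 (nat_lit 78) (nat_lit 304) (nat_lit 0) (XT.lf (nat_lit 0) (nat_lit 909449705) (nat_lit 456) (nat_lit 7331287007) (nat_lit 76) (nat_lit 3617671490) (nat_lit 113) (nat_lit 5) (nat_lit 119) (nat_lit 5) (nat_lit 114) (nat_lit 5) (nat_lit 471) (nat_lit 371) (nat_lit 298)) (XT.lf (nat_lit 0) (nat_lit 7023136) (nat_lit 304) (nat_lit 4278386094) (nat_lit 380) (nat_lit 7713860476) (nat_lit 109) (nat_lit 5) (nat_lit 113) (nat_lit 5) (nat_lit 114) (nat_lit 5) (nat_lit 472) (nat_lit 371) (nat_lit 297))))) (XT.nd (nat_lit 234) (nat_lit 684) (nat_lit 0) (XT.nd (nat_lit 78) (nat_lit 380) (nat_lit 0) (XT.lf (nat_lit 0) (nat_lit 7544469704) (nat_lit 304) (nat_lit 203325966) (nat_lit 380) (nat_lit 4394781732) (nat_lit 109) (nat_lit 5) (nat_lit 113) (nat_lit 5) (nat_lit 114) (nat_lit 5) (nat_lit 473) (nat_lit 371) (nat_lit 296)) (XT.nd (nat_lit 78) (nat_lit 76) (nat_lit 0) (XT.lf (nat_lit 0) (nat_lit 2909829808) (nat_lit 304) (nat_lit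 8384358020) (nat_lit 380) (nat_lit 994275244) (nat_lit 105) (nat_lit 5) (nat_lit 109) (nat_lit 5) (nat_lit 110) (nat_lit 5) (nat_lit 474) (nat_lit 371) (nat_lit 295)) (XT.lf (nat_lit 0) (nat_lit 2444477936) (nat_lit 380) (nat_lit 1870685283) (nat_lit 76) (nat_lit 8121734923) (nat_lit 104) (nat_lit 5) (nat_lit 109) (nat_lit 5) (nat_lit 105) (nat_lit 5) (nat_lit 475) (nat_lit 371) (nat_lit 294)))) (XT.nd (nat_lit 78) (nat_lit 380) (nat_lit 0) (XT.lf (nat_lit 0) (nat_lit 5811293132) (nat_lit 304) (nat_lit 136005749) (nat_lit 380) (nat_lit 6640706043) (nat_lit 100) (nat_lit 5) (nat_lit 104) (nat_lit 5) (nat_lit 105) (nat_lit 5) (nat_lit 476) (nat_lit 371) (nat_lit 293)) (XT.nd (nat_lit 78) (nat_lit 76) (nat_lit 0) (XT.lf (nat_lit 0) (nat_lit 868971122) (nat_lit 304) (nat_lit 8667308213) (nat_lit 380) (nat_lit 3205538893) (nat_lit 96) (nat_lit 5) (nat_lit 100) (nat_lit 5) (nat_lit 101) (nat_lit 5) (nat_lit 477) (nat_lit 371)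 (nat_lit 292)) (XT.lf (nat_lit 0) (nat_lit 312202776) (nat_lit 380) (nat_lit 4187532209) (nat_lit 76) (nat_lit 8398584593) (nat_lit 95) (nat_lit 5) (nat_lit 100) (nat_lit 5) (nat_lit 96) (nat_lit 5) (nat_lit 478) (nat_lit 371) (nat_lit 291))))))) (XT.nd (nat_lit 858) (nat_lit 1520) (nat_lit 0) (XT.nd (nat_lit 390) (nat_lit 1140) (nat_lit 0) (XT.nd (nat_lit 156) (nat_lit 608) (nat_lit 0) (XT.nd (nat_lit 78) (nat_lit 0) (nat_lit 0) (XT.lf (nat_lit 0) (nat_lit 3632784384) (nat_lit 304) (nat_lit 219892519) (nat_lit 380) (nat_lit 9204950360) (nat_lit 91) (nat_lit 5) (nat_lit 95) (nat_lit 5) (nat_lit 96) (nat_lit 5) (nat_lit 479) (nat_lit 371) (nat_lit 290)) (XT.lf (nat_lit 0) (nat_lit 7490991594) (nat_lit 380) (nat_lit 1625672435) (nat_lit 76) (nat_lit 4102922408) (nat_lit 91) (nat_lit 5) (nat_lit 96) (nat_lit 5) (nat_lit 92) (nat_lit 5) (nat_lit 480) (nat_lit 371) (nat_lit 289))) (XT.nd (nat_lit 78) (nat_lit 304) (nat_lit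 0) (XT.lf (nat_lit 0) (nat_lit 6367137188) (nat_lit 304) (nat_lit 4850112485) (nat_lit 380) (nat_lit 2167237418) (nat_lit 87) (nat_lit 5) (nat_lit 91) (nat_lit 5) (nat_lit 92) (nat_lit 5) (nat_lit 481) (nat_lit 371) (nat_lit 288)) (XT.nd (nat_lit 78) (nat_lit 0) (nat_lit 0) (XT.lf (nat_lit 0) (nat_lit 947741580) (nat_lit 228) (nat_lit 487971528) (nat_lit 304) (nat_lit 12116996298) (nat_lit 83) (nat_lit 5) (nat_lit 86) (nat_lit 5) (nat_lit 87) (nat_lit 5) (nat_lit 482) (nat_lit 371) (nat_lit 287)) (XT.lf (nat_lit 0) (nat_lit 5127445791) (nat_lit 304) (nat_lit 4641105031) (nat_lit 76) (nat_lit 3954549491) (nat_lit 83) (nat_lit 5) (nat_lit 87) (nat_lit 5) (nat_lit 84) (nat_lit 5) (nat_lit 483) (nat_lit 371) (nat_lit 286))))) (XT.nd (nat_lit 234) (nat_lit 532) (nat_lit 0) (XT.nd (nat_lit 78) (nat_lit 304) (nat_lit 0) (XT.lf (nat_lit 0) (nat_lit 3480705414) (nat_lit 304) (nat_lit 5411268992) (nat_lit 380) (nat_lit 5004950801)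 (nat_lit 79) (nat_lit 5) (nat_lit 83) (nat_lit 5) (nat_lit 84) (nat_lit 5) (nat_lit 484) (nat_lit 371) (nat_lit 285)) (XT.nd (nat_lit 78) (nat_lit 304) (nat_lit 0) (XT.lf (nat_lit 0) (nat_lit 11784403200) (nat_lit 304) (nat_lit 951909960) (nat_lit 380) (nat_lit 1337828337) (nat_lit 79) (nat_lit 5) (nat_lit 83) (nat_lit 5) (nat_lit 84) (nat_lit 5) (nat_lit 485) (nat_lit 371) (nat_lit 284)) (XT.lf (nat_lit 0) (nat_lit 2407534147) (nat_lit 304) (nat_lit 8258284931) (nat_lit 76) (nat_lit 3588047955) (nat_lit 75) (nat_lit 5) (nat_lit 79) (nat_lit 5) (nat_lit 76) (nat_lit 5) (nat_lit 486) (nat_lit 371) (nat_lit 283)))) (XT.nd (nat_lit 78) (nat_lit 532) (nat_lit 0) (XT.lf (nat_lit 0) (nat_lit 6205527811) (nat_lit 304) (nat_lit 17596054) (nat_lit 76) (nat_lit 8213978591) (nat_lit 75) (nat_lit 5) (nat_lit 79) (nat_lit 5) (nat_lit 76) (nat_lit 5) (nat_lit 487) (nat_lit 371) (nat_lit 282)) (XT.nd (nat_lit 78) (nat_lit 228) (nat_lit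 0) (XT.lf (nat_lit 0) (nat_lit 8456563391) (nat_lit 304) (nat_lit 1652185887) (nat_lit 380) (nat_lit 4514672836) (nat_lit 71) (nat_lit 5) (nat_lit 75) (nat_lit 5) (nat_lit 76) (nat_lit 5) (nat_lit 488) (nat_lit 371) (nat_lit 281)) (XT.lf (nat_lit 0) (nat_lit 2254623772) (nat_lit 228) (nat_lit 11844197725) (nat_lit 304) (nat_lit 714475732) (nat_lit 68) (nat_lit 5) (nat_lit 71) (nat_lit 5) (nat_lit 72) (nat_lit 5) (nat_lit 489) (nat_lit 371) (nat_lit 280)))))) (XT.nd (nat_lit 390) (nat_lit 912) (nat_lit 0) (XT.nd (nat_lit 156) (nat_lit 304) (nat_lit 0) (XT.nd (nat_lit 78) (nat_lit 228) (nat_lit 0) (XT.lf (nat_lit 0) (nat_lit 3147397034) (nat_lit 304) (nat_lit 4152200684) (nat_lit 76) (nat_lit 7706423407) (nat_lit 67) (nat_lit 5) (nat_lit 71) (nat_lit 5) (nat_lit 68) (nat_lit 5) (nat_lit 490) (nat_lit 371) (nat_lit 279)) (XT.lf (nat_lit 0) (nat_lit 4434213564) (nat_lit 228) (nat_lit 2646564642) (nat_lit 304) (nat_lit 8121654596)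 (nat_lit 64) (nat_lit 5) (nat_lit 67) (nat_lit 5) (nat_lit 68) (nat_lit 5) (nat_lit 491) (nat_lit 371) (nat_lit 278))) (XT.nd (nat_lit 78) (nat_lit 304) (nat_lit 0) (XT.lf (nat_lit 0) (nat_lit 11109658772) (nat_lit 304) (nat_lit 2209120796) (nat_lit 76) (nat_lit 2083660937) (nat_lit 64) (nat_lit 5) (nat_lit 68) (nat_lit 5) (nat_lit 65) (nat_lit 5) (nat_lit 492) (nat_lit 371) (nat_lit 277)) (XT.nd (nat_lit 78) (nat_lit 76) (nat_lit 0) (XT.lf (nat_lit 0) (nat_lit 6548607531) (nat_lit 228) (nat_lit 8706193704) (nat_lit 304) (nat_lit 350937780) (nat_lit 61) (nat_lit 5) (nat_lit 64) (nat_lit 5) (nat_lit 65) (nat_lit 5) (nat_lit 493) (nat_lit 371) (nat_lit 276)) (XT.lf (nat_lit 0) (nat_lit 3612225386) (nat_lit 304) (nat_lit 366265377) (nat_lit 76) (nat_lit 11834328139) (nat_lit 60) (nat_lit 5) (nat_lit 64) (nat_lit 5) (nat_lit 61) (nat_lit 5) (nat_lit 494) (nat_lit 371) (nat_lit 275))))) (XT.nd (nat_lit 234) (nat_lit 456)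 (nat_lit 0) (XT.nd (nat_lit 78) (nat_lit 228) (nat_lit 0) (XT.lf (nat_lit 0) (nat_lit 7687510138) (nat_lit 304) (nat_lit 7460815434) (nat_lit 76) (nat_lit 874921364) (nat_lit 57) (nat_lit 5) (nat_lit 61) (nat_lit 5) (nat_lit 58) (nat_lit 5) (nat_lit 495) (nat_lit 371) (nat_lit 274)) (XT.nd (nat_lit 78) (nat_lit 0) (nat_lit 0) (XT.lf (nat_lit 0) (nat_lit 1388405350) (nat_lit 228) (nat_lit 10469999827) (nat_lit 304) (nat_lit 4379200268) (nat_lit 54) (nat_lit 5) (nat_lit 57) (nat_lit 5) (nat_lit 58) (nat_lit 5) (nat_lit 496) (nat_lit 371) (nat_lit 273)) (XT.lf (nat_lit 0) (nat_lit 10475736112) (nat_lit 228) (nat_lit 5663521986) (nat_lit 304) (nat_lit 316466159) (nat_lit 54) (nat_lit 5) (nat_lit 57) (nat_lit 5) (nat_lit 58) (nat_lit 5) (nat_lit 497) (nat_lit 371) (nat_lit 272)))) (XT.nd (nat_lit 78) (nat_lit 152) (nat_lit 0) (XT.lf (nat_lit 0) (nat_lit 3042119507) (nat_lit 228) (nat_lit 731734662) (nat_lit 304) (nat_lit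 12903927432) (nat_lit 50) (nat_lit 5) (nat_lit 53) (nat_lit 5) (nat_lit 54) (nat_lit 5) (nat_lit 498) (nat_lit 371) (nat_lit 271)) (XT.nd (nat_lit 78) (nat_lit 152) (nat_lit 0) (XT.lf (nat_lit 0) (nat_lit 7986925451) (nat_lit 304) (nat_lit 4647653530) (nat_lit 76) (nat_lit 4268759337) (nat_lit 50) (nat_lit 5) (nat_lit 54) (nat_lit 5) (nat_lit 51) (nat_lit 5) (nat_lit 499) (nat_lit 371) (nat_lit 270)) (XT.lf (nat_lit 0) (nat_lit 4535901433) (nat_lit 152) (nat_lit 7759979697) (nat_lit 228) (nat_lit 4837296209) (nat_lit 48) (nat_lit 5) (nat_lit 50) (nat_lit 5) (nat_lit 51) (nat_lit 5) (nat_lit 500) (nat_lit 371) (nat_lit 269))))))))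
noncomputable def xc72 : XT := (XT.nd (nat_lit 52416) (nat_lit 0) (nat_lit 19684) (XT.nd (nat_lit 51558) (nat_lit 0) (nat_lit 36480) (XT.nd (nat_lit 51168) (nat_lit 0) (nat_lit 44232) (XT.nd (nat_lit 156) (nat_lit 152) (nat_lit 0) (XT.nd (nat_lit 78) (nat_lit 304) (nat_lit 0) (XT.lf (nat_lit 0) (nat_lit 13927526293) (nat_lit 152) (nat_lit 2772198745) (nat_lit 228) (nat_lit 667717482) (nat_lit 48) (nat_lit 5) (nat_lit 50) (nat_lit 5) (nat_lit 51) (nat_lit 5) (nat_lit 501) (nat_lit 371) (nat_lit 268)) (XT.lf (nat_lit 0) (nat_lit 3569797145) (nat_lit 304) (nat_lit 11704174458) (nat_lit 76) (nat_lit 2331327954) (nat_lit 44) (nat_lit 5) (nat_lit 48) (nat_lit 5) (nat_lit 45) (nat_lit 5) (nat_lit 502) (nat_lit 371) (nat_lit 267))) (XT.nd (nat_lit 78) (nat_lit 152) (nat_lit 0) (XT.lf (nat_lit 0) (nat_lit 7902623269) (nat_lit 304) (nat_lit 2433001577) (nat_lit 76) (nat_lit 7511813931) (nat_lit 44) (nat_lit 5) (nat_lit 48) (nat_lit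 5) (nat_lit 45) (nat_lit 5) (nat_lit 503) (nat_lit 371) (nat_lit 266)) (XT.nd (nat_lit 78) (nat_lit 0) (nat_lit 0) (XT.lf (nat_lit 0) (nat_lit 7078954200) (nat_lit 152) (nat_lit 5267444482) (nat_lit 228) (nat_lit 5747539533) (nat_lit 42) (nat_lit 5) (nat_lit 44) (nat_lit 5) (nat_lit 45) (nat_lit 5) (nat_lit 504) (nat_lit 371) (nat_lit 265)) (XT.lf (nat_lit 0) (nat_lit 16776893345) (nat_lit 152) (nat_lit 96997594) (nat_lit 228) (nat_lit 1471583099) (nat_lit 42) (nat_lit 5) (nat_lit 44) (nat_lit 5) (nat_lit 45) (nat_lit 5) (nat_lit 505) (nat_lit 371) (nat_lit 264))))) (XT.nd (nat_lit 156) (nat_lit 912) (nat_lit 0) (XT.nd (nat_lit 78) (nat_lit 684) (nat_lit 0) (XT.lf (nat_lit 0) (nat_lit 927851468) (nat_lit 684) (nat_lit 1428041048) (nat_lit 0) (nat_lit 927851468) (nat_lit 645) (nat_lit 5) (nat_lit 654) (nat_lit 4) (nat_lit 645) (nat_lit 4) (nat_lit 396) (nat_lit 372) (nat_lit 372)) (XT.lf (nat_lit 0) (nat_lit 1022820948)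 (nat_lit 684) (nat_lit 3975802289) (nat_lit 684) (nat_lit 1585294711) (nat_lit 636) (nat_lit 4) (nat_lit 645) (nat_lit 5) (nat_lit 645) (nat_lit 4) (nat_lit 397) (nat_lit 372) (nat_lit 371))) (XT.nd (nat_lit 78) (nat_lit 836) (nat_lit 0) (XT.lf (nat_lit 0) (nat_lit 1528969552) (nat_lit 760) (nat_lit 1645623962) (nat_lit 76) (nat_lit 3427000786) (nat_lit 635) (nat_lit 5) (nat_lit 645) (nat_lit 5) (nat_lit 636) (nat_lit 4) (nat_lit 398) (nat_lit 372) (nat_lit 370)) (XT.nd (nat_lit 78) (nat_lit 76) (nat_lit 0) (XT.lf (nat_lit 0) (nat_lit 2316265212) (nat_lit 760) (nat_lit 2311501582) (nat_lit 836) (nat_lit 1992828874) (nat_lit 625) (nat_lit 5) (nat_lit 635) (nat_lit 5) (nat_lit 636) (nat_lit 4) (nat_lit 399) (nat_lit 372) (nat_lit 369)) (XT.lf (nat_lit 0) (nat_lit 1073585435) (nat_lit 836) (nat_lit 320012384) (nat_lit 76) (nat_lit 5247476972) (nat_lit 624) (nat_lit 5) (nat_lit 635) (nat_lit 5) (nat_lit 625) (nat_lit 5)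 (nat_lit 400) (nat_lit 372) (nat_lit 368)))))) (XT.nd (nat_lit 390) (nat_lit 3800) (nat_lit 0) (XT.nd (nat_lit 156) (nat_lit 2128) (nat_lit 0) (XT.nd (nat_lit 78) (nat_lit 988) (nat_lit 0) (XT.lf (nat_lit 0) (nat_lit 3728294848) (nat_lit 836) (nat_lit 400943445) (nat_lit 912) (nat_lit 2533417511) (nat_lit 613) (nat_lit 5) (nat_lit 624) (nat_lit 5) (nat_lit 625) (nat_lit 5) (nat_lit 401) (nat_lit 372) (nat_lit 367)) (XT.lf (nat_lit 0) (nat_lit 498579506) (nat_lit 988) (nat_lit 5553497158) (nat_lit 76) (nat_lit 633672558) (nat_lit 600) (nat_lit 5) (nat_lit 613) (nat_lit 5) (nat_lit 601) (nat_lit 5) (nat_lit 402) (nat_lit 372) (nat_lit 366))) (XT.nd (nat_lit 78) (nat_lit 2128) (nat_lit 0) (XT.lf (nat_lit 0) (nat_lit 3511824654) (nat_lit 988) (nat_lit 1461694317) (nat_lit 76) (nat_lit 1736404903) (nat_lit 600) (nat_lit 5) (nat_lit 613) (nat_lit 5) (nat_lit 601) (nat_lit 5) (nat_lit 403) (nat_lit 372) (nat_lit 365)) (XT.nd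 (nat_lit 78) (nat_lit 1140) (nat_lit 0) (XT.lf (nat_lit 0) (nat_lit 2695141104) (nat_lit 988) (nat_lit 3841047320) (nat_lit 1064) (nat_lit 199420535) (nat_lit 587) (nat_lit 5) (nat_lit 600) (nat_lit 5) (nat_lit 601) (nat_lit 5) (nat_lit 404) (nat_lit 372) (nat_lit 364)) (XT.lf (nat_lit 0) (nat_lit 123578003) (nat_lit 1064) (nat_lit 2642678380) (nat_lit 1140) (nat_lit 3996331907) (nat_lit 572) (nat_lit 5) (nat_lit 586) (nat_lit 5) (nat_lit 587) (nat_lit 5) (nat_lit 405) (nat_lit 372) (nat_lit 363))))) (XT.nd (nat_lit 234) (nat_lit 2584) (nat_lit 0) (XT.nd (nat_lit 78) (nat_lit 1216) (nat_lit 0) (XT.lf (nat_lit 0) (nat_lit 4371953998) (nat_lit 1064) (nat_lit 1378535026) (nat_lit 1140) (nat_lit 1040395049) (nat_lit 572) (nat_lit 5) (nat_lit 586) (nat_lit 5) (nat_lit 587) (nat_lit 5) (nat_lit 406) (nat_lit 372) (nat_lit 362)) (XT.nd (nat_lit 78) (nat_lit 0) (nat_lit 0) (XT.lf (nat_lit 0) (nat_lit 1844673650) (nat_lit 1140)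 (nat_lit 51685578) (nat_lit 1216) (nat_lit 4924218056) (nat_lit 556) (nat_lit 5) (nat_lit 571) (nat_lit 5) (nat_lit 572) (nat_lit 5) (nat_lit 407) (nat_lit 372) (nat_lit 361)) (XT.lf (nat_lit 0) (nat_lit 4839342210) (nat_lit 1216) (nat_lit 692939985) (nat_lit 76) (nat_lit 1319255221) (nat_lit 556) (nat_lit 5) (nat_lit 572) (nat_lit 5) (nat_lit 557) (nat_lit 5) (nat_lit 408) (nat_lit 372) (nat_lit 360)))) (XT.nd (nat_lit 78) (nat_lit 1292) (nat_lit 0) (XT.lf (nat_lit 0) (nat_lit 907255040) (nat_lit 1292) (nat_lit 3218638354) (nat_lit 76) (nat_lit 2757901469) (nat_lit 539) (nat_lit 5) (nat_lit 556) (nat_lit 5) (nat_lit 540) (nat_lit 5) (nat_lit 409) (nat_lit 372) (nat_lit 359)) (XT.nd (nat_lit 78) (nat_lit 0) (nat_lit 0) (XT.lf (nat_lit 0) (nat_lit 1152200112) (nat_lit 1292) (nat_lit 2656439290) (nat_lit 1368) (nat_lit 3108819106) (nat_lit 522) (nat_lit 5) (nat_lit 539) (nat_lit 5) (nat_lit 540) (nat_lit 5) (nat_lit 410)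 (nat_lit 372) (nat_lit 358)) (XT.lf (nat_lit 0) (nat_lit 5601673864) (nat_lit 1292) (nat_lit 1127147415) (nat_lit 1368) (nat_lit 223794859) (nat_lit 522) (nat_lit 5) (nat_lit 539) (nat_lit 5) (nat_lit 540) (nat_lit 5) (nat_lit 411) (nat_lit 372) (nat_lit 357))))))) (XT.nd (nat_lit 780) (nat_lit 6080) (nat_lit 0) (XT.nd (nat_lit 390) (nat_lit 4636) (nat_lit 0) (XT.nd (nat_lit 156) (nat_lit 3192) (nat_lit 0) (XT.nd (nat_lit 78) (nat_lit 1444) (nat_lit 0) (XT.lf (nat_lit 0) (nat_lit 2646591192) (nat_lit 1444) (nat_lit 3869319912) (nat_lit 76) (nat_lit 472981047) (nat_lit 503) (nat_lit 5) (nat_lit 522) (nat_lit 5) (nat_lit 504) (nat_lit 5) (nat_lit 412) (nat_lit 372) (nat_lit 356)) (XT.lf (nat_lit 0) (nat_lit 618057310) (nat_lit 1444) (nat_lit 4914759431) (nat_lit 1520) (nat_lit 1493852815) (nat_lit 484) (nat_lit 5) (nat_lit 503) (nat_lit 5) (nat_lit 504) (nat_lit 5) (nat_lit 413) (nat_lit 372) (nat_lit 355))) (XT.nd (nat_lit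 78) (nat_lit 3116) (nat_lit 0) (XT.lf (nat_lit 0) (nat_lit 1360409316) (nat_lit 1520) (nat_lit 1879991490) (nat_lit 76) (nat_lit 3825303952) (nat_lit 483) (nat_lit 5) (nat_lit 503) (nat_lit 5) (nat_lit 484) (nat_lit 5) (nat_lit 414) (nat_lit 372) (nat_lit 354)) (XT.nd (nat_lit 78) (nat_lit 1596) (nat_lit 0) (XT.lf (nat_lit 0) (nat_lit 2712329098) (nat_lit 1520) (nat_lit 1499427188) (nat_lit 1596) (nat_lit 2894398907) (nat_lit 463) (nat_lit 5) (nat_lit 483) (nat_lit 5) (nat_lit 484) (nat_lit 5) (nat_lit 415) (nat_lit 372) (nat_lit 353)) (XT.lf (nat_lit 0) (nat_lit 222452496) (nat_lit 1596) (nat_lit 6856810022) (nat_lit 1672) (nat_lit 69000906) (nat_lit 442) (nat_lit 5) (nat_lit 463) (nat_lit 5) (nat_lit 464) (nat_lit 5) (nat_lit 416) (nat_lit 372) (nat_lit 352))))) (XT.nd (nat_lit 156) (nat_lit 2888) (nat_lit 0) (XT.nd (nat_lit 78) (nat_lit 1672) (nat_lit 0) (XT.lf (nat_lit 0) (nat_lit 2759185674) (nat_lit 1672) (nat_lit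 2282230044) (nat_lit 76) (nat_lit 2149799602) (nat_lit 441) (nat_lit 5) (nat_lit 463) (nat_lit 5) (nat_lit 442) (nat_lit 5) (nat_lit 417) (nat_lit 372) (nat_lit 351)) (XT.lf (nat_lit 0) (nat_lit 2432895357) (nat_lit 1672) (nat_lit 3170582408) (nat_lit 1748) (nat_lit 1632359674) (nat_lit 419) (nat_lit 5) (nat_lit 441) (nat_lit 5) (nat_lit 442) (nat_lit 5) (nat_lit 418) (nat_lit 372) (nat_lit 350))) (XT.nd (nat_lit 78) (nat_lit 2812) (nat_lit 0) (XT.lf (nat_lit 0) (nat_lit 1167699454) (nat_lit 1748) (nat_lit 69019987) (nat_lit 76) (nat_lit 6045293388) (nat_lit 418) (nat_lit 5) (nat_lit 441) (nat_lit 5) (nat_lit 419) (nat_lit 5) (nat_lit 419) (nat_lit 372) (nat_lit 349)) (XT.nd (nat_lit 78) (nat_lit 1064) (nat_lit 0) (XT.lf (nat_lit 0) (nat_lit 3983987961) (nat_lit 1824) (nat_lit 2575409510) (nat_lit 76) (nat_lit 769884659) (nat_lit 395) (nat_lit 5) (nat_lit 419) (nat_lit 5) (nat_lit 396) (nat_lit 5) (nat_lit 420) (nat_lit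 372) (nat_lit 348)) (XT.lf (nat_lit 0) (nat_lit 2265283746) (nat_lit 1064) (nat_lit 4561513250) (nat_lit 1140) (nat_lit 551323291) (nat_lit 381) (nat_lit 5) (nat_lit 395) (nat_lit 5) (nat_lit 396) (nat_lit 5) (nat_lit 421) (nat_lit 372) (nat_lit 347)))))) (XT.nd (nat_lit 390) (nat_lit 3344) (nat_lit 0) (XT.nd (nat_lit 156) (nat_lit 1748) (nat_lit 0) (XT.nd (nat_lit 78) (nat_lit 912) (nat_lit 0) (XT.lf (nat_lit 0) (nat_lit 2232936189) (nat_lit 1140) (nat_lit 258210552) (nat_lit 76) (nat_lit 4937225202) (nat_lit 380) (nat_lit 5) (nat_lit 395) (nat_lit 5) (nat_lit 381) (nat_lit 5) (nat_lit 422) (nat_lit 372) (nat_lit 346)) (XT.lf (nat_lit 0) (nat_lit 4699248893) (nat_lit 912) (nat_lit 344961382) (nat_lit 988) (nat_lit 2435797026) (nat_lit 368) (nat_lit 5) (nat_lit 380) (nat_lit 5) (nat_lit 381) (nat_lit 5) (nat_lit 423) (nat_lit 372) (nat_lit 345))) (XT.nd (nat_lit 78) (nat_lit 836) (nat_lit 0) (XT.lf (nat_lit 0) (nat_lit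 350692753) (nat_lit 912) (nat_lit 5344949119) (nat_lit 76) (nat_lit 1837476472) (nat_lit 356) (nat_lit 5) (nat_lit 368) (nat_lit 5) (nat_lit 357) (nat_lit 5) (nat_lit 424) (nat_lit 372) (nat_lit 344)) (XT.nd (nat_lit 78) (nat_lit 836) (nat_lit 0) (XT.lf (nat_lit 0) (nat_lit 3130566334) (nat_lit 912) (nat_lit 364578353) (nat_lit 76) (nat_lit 4092443823) (nat_lit 356) (nat_lit 5) (nat_lit 368) (nat_lit 5) (nat_lit 357) (nat_lit 5) (nat_lit 425) (nat_lit 372) (nat_lit 343)) (XT.lf (nat_lit 0) (nat_lit 4725125524) (nat_lit 836) (nat_lit 1221757566) (nat_lit 912) (nat_lit 1696671897) (nat_lit 345) (nat_lit 5) (nat_lit 356) (nat_lit 5) (nat_lit 357) (nat_lit 5) (nat_lit 426) (nat_lit 372) (nat_lit 342))))) (XT.nd (nat_lit 234) (nat_lit 1596) (nat_lit 0) (XT.nd (nat_lit 78) (nat_lit 836) (nat_lit 0) (XT.lf (nat_lit 0) (nat_lit 1078611827) (nat_lit 912) (nat_lit 5518607436) (nat_lit 76) (nat_lit 1103811120) (nat_lit 333) (nat_lit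 5) (nat_lit 345) (nat_lit 5) (nat_lit 334) (nat_lit 5) (nat_lit 427) (nat_lit 372) (nat_lit 341)) (XT.nd (nat_lit 78) (nat_lit 836) (nat_lit 0) (XT.lf (nat_lit 0) (nat_lit 3865578038) (nat_lit 912) (nat_lit 407083992) (nat_lit 76) (nat_lit 3487213501) (nat_lit 333) (nat_lit 5) (nat_lit 345) (nat_lit 5) (nat_lit 334) (nat_lit 5) (nat_lit 428) (nat_lit 372) (nat_lit 340)) (XT.lf (nat_lit 0) (nat_lit 4817682306) (nat_lit 836) (nat_lit 1873909295) (nat_lit 912) (nat_lit 1128661829) (nat_lit 322) (nat_lit 5) (nat_lit 333) (nat_lit 5) (nat_lit 334) (nat_lit 5) (nat_lit 429) (nat_lit 372) (nat_lit 339)))) (XT.nd (nat_lit 78) (nat_lit 760) (nat_lit 0) (XT.lf (nat_lit 0) (nat_lit 1643535493) (nat_lit 836) (nat_lit 5649603737) (nat_lit 76) (nat_lit 589032190) (nat_lit 311) (nat_lit 5) (nat_lit 322) (nat_lit 5) (nat_lit 312) (nat_lit 5) (nat_lit 430) (nat_lit 372) (nat_lit 338)) (XT.nd (nat_lit 78) (nat_lit 760) (nat_lit 0) (XT.lf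 (nat_lit 0) (nat_lit 4441632077) (nat_lit 836) (nat_lit 404902015) (nat_lit 76) (nat_lit 3098953847) (nat_lit 311) (nat_lit 5) (nat_lit 322) (nat_lit 5) (nat_lit 312) (nat_lit 5) (nat_lit 431) (nat_lit 372) (nat_lit 337)) (XT.lf (nat_lit 0) (nat_lit 4957686139) (nat_lit 760) (nat_lit 2323979025) (nat_lit 836) (nat_lit 728706465) (nat_lit 301) (nat_lit 5) (nat_lit 311) (nat_lit 5) (nat_lit 312) (nat_lit 5) (nat_lit 432) (nat_lit 372) (nat_lit 336))))))))
noncomputable def xc73 : XT := (XT.nd (nat_lit 1638) (nat_lit 6004) (nat_lit 0) (XT.nd (nat_lit 780) (nat_lit 4028) (nat_lit 0) (XT.nd (nat_lit 390) (nat_lit 2660) (nat_lit 0) (XT.nd (nat_lit 156) (nat_lit 1520) (nat_lit 0) (XT.nd (nat_lit 78) (nat_lit 0) (nat_lit 0) (XT.lf (nat_lit 0) (nat_lit 2048001439) (nat_lit 760) (nat_lit 5757672637) (nat_lit 76) (nat_lit 271153057) (nat_lit 291) (nat_lit 5) (nat_lit 301) (nat_lit 5) (nat_lit 292) (nat_lit 5) (nat_lit 433) (nat_lit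 372) (nat_lit 335)) (XT.lf (nat_lit 0) (nat_lit 4861062416) (nat_lit 760) (nat_lit 377599921) (nat_lit 76) (nat_lit 2906060708) (nat_lit 291) (nat_lit 5) (nat_lit 301) (nat_lit 5) (nat_lit 292) (nat_lit 5) (nat_lit 434) (nat_lit 372) (nat_lit 334))) (XT.nd (nat_lit 78) (nat_lit 760) (nat_lit 0) (XT.lf (nat_lit 0) (nat_lit 5125475196) (nat_lit 760) (nat_lit 2593634257) (nat_lit 836) (nat_lit 495111710) (nat_lit 281) (nat_lit 5) (nat_lit 291) (nat_lit 5) (nat_lit 292) (nat_lit 5) (nat_lit 435) (nat_lit 372) (nat_lit 333)) (XT.nd (nat_lit 78) (nat_lit 0) (nat_lit 0) (XT.lf (nat_lit 0) (nat_lit 2293206299) (nat_lit 760) (nat_lit 5863096994) (nat_lit 76) (nat_lit 129022786) (nat_lit 271) (nat_lit 5) (nat_lit 281) (nat_lit 5) (nat_lit 272) (nat_lit 5) (nat_lit 436) (nat_lit 372) (nat_lit 332)) (XT.lf (nat_lit 0) (nat_lit 5124866124) (nat_lit 760) (nat_lit 345324617) (nat_lit 76) (nat_lit 2887730498) (nat_lit 271) (nat_lit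 5) (nat_lit 281) (nat_lit 5) (nat_lit 272) (nat_lit 5) (nat_lit 437) (nat_lit 372) (nat_lit 331))))) (XT.nd (nat_lit 156) (nat_lit 1292) (nat_lit 0) (XT.nd (nat_lit 78) (nat_lit 684) (nat_lit 0) (XT.lf (nat_lit 0) (nat_lit 5300768903) (nat_lit 684) (nat_lit 2703824035) (nat_lit 760) (nat_lit 427564041) (nat_lit 262) (nat_lit 5) (nat_lit 271) (nat_lit 5) (nat_lit 272) (nat_lit 5) (nat_lit 438) (nat_lit 372) (nat_lit 330)) (XT.lf (nat_lit 0) (nat_lit 2378986874) (nat_lit 684) (nat_lit 5986902099) (nat_lit 76) (nat_lit 142151618) (nat_lit 253) (nat_lit 5) (nat_lit 262) (nat_lit 5) (nat_lit 254) (nat_lit 5) (nat_lit 439) (nat_lit 372) (nat_lit 329))) (XT.nd (nat_lit 78) (nat_lit 1292) (nat_lit 0) (XT.lf (nat_lit 0) (nat_lit 5232682330) (nat_lit 684) (nat_lit 328997966) (nat_lit 76) (nat_lit 3023786634) (nat_lit 253) (nat_lit 5) (nat_lit 262) (nat_lit 5) (nat_lit 254) (nat_lit 5) (nat_lit 440) (nat_lit 372) (nat_lit 328))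 (XT.nd (nat_lit 78) (nat_lit 684) (nat_lit 0) (XT.lf (nat_lit 0) (nat_lit 5462468338) (nat_lit 608) (nat_lit 2674953942) (nat_lit 684) (nat_lit 527156136) (nat_lit 245) (nat_lit 5) (nat_lit 253) (nat_lit 5) (nat_lit 254) (nat_lit 5) (nat_lit 441) (nat_lit 372) (nat_lit 327)) (XT.lf (nat_lit 0) (nat_lit 2303790062) (nat_lit 684) (nat_lit 6151060370) (nat_lit 76) (nat_lit 290537484) (nat_lit 236) (nat_lit 5) (nat_lit 245) (nat_lit 5) (nat_lit 237) (nat_lit 5) (nat_lit 442) (nat_lit 372) (nat_lit 326)))))) (XT.nd (nat_lit 390) (nat_lit 2204) (nat_lit 0) (XT.nd (nat_lit 156) (nat_lit 1216) (nat_lit 0) (XT.nd (nat_lit 78) (nat_lit 608) (nat_lit 0) (XT.lf (nat_lit 0) (nat_lit 5182759844) (nat_lit 684) (nat_lit 350523198) (nat_lit 76) (nat_lit 3294506714) (nat_lit 236) (nat_lit 5) (nat_lit 245) (nat_lit 5) (nat_lit 237) (nat_lit 5) (nat_lit 443) (nat_lit 372) (nat_lit 325)) (XT.lf (nat_lit 0) (nat_lit 5588445250) (nat_lit 608)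 (nat_lit 2527061005) (nat_lit 684) (nat_lit 796424245) (nat_lit 228) (nat_lit 5) (nat_lit 236) (nat_lit 5) (nat_lit 237) (nat_lit 5) (nat_lit 444) (nat_lit 372) (nat_lit 324))) (XT.nd (nat_lit 78) (nat_lit 608) (nat_lit 0) (XT.lf (nat_lit 0) (nat_lit 2064631051) (nat_lit 608) (nat_lit 6378708404) (nat_lit 76) (nat_lit 554492171) (nat_lit 220) (nat_lit 5) (nat_lit 228) (nat_lit 5) (nat_lit 221) (nat_lit 5) (nat_lit 445) (nat_lit 372) (nat_lit 323)) (XT.nd (nat_lit 78) (nat_lit 608) (nat_lit 0) (XT.lf (nat_lit 0) (nat_lit 4971912943) (nat_lit 608) (nat_lit 433004085) (nat_lit 76) (nat_lit 3680449024) (nat_lit 220) (nat_lit 5) (nat_lit 228) (nat_lit 5) (nat_lit 221) (nat_lit 5) (nat_lit 446) (nat_lit 372) (nat_lit 322)) (XT.lf (nat_lit 0) (nat_lit 5655317763) (nat_lit 608) (nat_lit 2279989905) (nat_lit 684) (nat_lit 1239397837) (nat_lit 212) (nat_lit 5) (nat_lit 220) (nat_lit 5) (nat_lit 221) (nat_lit 5) (nat_lit 447) (nat_lit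 372) (nat_lit 321))))) (XT.nd (nat_lit 234) (nat_lit 1064) (nat_lit 0) (XT.nd (nat_lit 78) (nat_lit 532) (nat_lit 0) (XT.lf (nat_lit 0) (nat_lit 1657039189) (nat_lit 608) (nat_lit 6694378402) (nat_lit 76) (nat_lit 914465711) (nat_lit 204) (nat_lit 5) (nat_lit 212) (nat_lit 5) (nat_lit 205) (nat_lit 5) (nat_lit 448) (nat_lit 372) (nat_lit 320)) (XT.nd (nat_lit 78) (nat_lit 532) (nat_lit 0) (XT.lf (nat_lit 0) (nat_lit 4595464731) (nat_lit 608) (nat_lit 600978886) (nat_lit 76) (nat_lit 4162276978) (nat_lit 204) (nat_lit 5) (nat_lit 212) (nat_lit 5) (nat_lit 205) (nat_lit 5) (nat_lit 449) (nat_lit 372) (nat_lit 319)) (XT.lf (nat_lit 0) (nat_lit 5638210662) (nat_lit 532) (nat_lit 1953571969) (nat_lit 608) (nat_lit 1861662167) (nat_lit 197) (nat_lit 5) (nat_lit 204) (nat_lit 5) (nat_lit 205) (nat_lit 5) (nat_lit 450) (nat_lit 372) (nat_lit 318)))) (XT.nd (nat_lit 78) (nat_lit 532) (nat_lit 0) (XT.lf (nat_lit 0) (nat_lit 1074990855)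 (nat_lit 532) (nat_lit 7124246126) (nat_lit 76) (nat_lit 1350867531) (nat_lit 190) (nat_lit 5) (nat_lit 197) (nat_lit 5) (nat_lit 191) (nat_lit 5) (nat_lit 451) (nat_lit 372) (nat_lit 317)) (XT.nd (nat_lit 78) (nat_lit 532) (nat_lit 0) (XT.lf (nat_lit 0) (nat_lit 4047177377) (nat_lit 532) (nat_lit 880671281) (nat_lit 76) (nat_lit 4720580001) (nat_lit 190) (nat_lit 5) (nat_lit 197) (nat_lit 5) (nat_lit 191) (nat_lit 5) (nat_lit 452) (nat_lit 372) (nat_lit 316)) (XT.lf (nat_lit 0) (nat_lit 5510498031) (nat_lit 532) (nat_lit 1567808436) (nat_lit 608) (nat_lit 2670434523) (nat_lit 183) (nat_lit 5) (nat_lit 190) (nat_lit 5) (nat_lit 191) (nat_lit 5) (nat_lit 453) (nat_lit 372) (nat_lit 315))))))) (XT.nd (nat_lit 858) (nat_lit 2736) (nat_lit 0) (XT.nd (nat_lit 390) (nat_lit 1748) (nat_lit 0) (XT.nd (nat_lit 156) (nat_lit 988) (nat_lit 0) (XT.nd (nat_lit 78) (nat_lit 0) (nat_lit 0) (XT.lf (nat_lit 0) (nat_lit 310828548) (nat_lit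 532) (nat_lit 7696397699) (nat_lit 76) (nat_lit 1843882850) (nat_lit 176) (nat_lit 5) (nat_lit 183) (nat_lit 5) (nat_lit 177) (nat_lit 5) (nat_lit 454) (nat_lit 372) (nat_lit 314)) (XT.lf (nat_lit 0) (nat_lit 3319168405) (nat_lit 532) (nat_lit 1300260629) (nat_lit 76) (nat_lit 5335689332) (nat_lit 176) (nat_lit 5) (nat_lit 183) (nat_lit 5) (nat_lit 177) (nat_lit 5) (nat_lit 455) (nat_lit 372) (nat_lit 313))) (XT.nd (nat_lit 78) (nat_lit 532) (nat_lit 0) (XT.lf (nat_lit 0) (nat_lit 5243525789) (nat_lit 456) (nat_lit 1143059587) (nat_lit 532) (nat_lit 3674655026) (nat_lit 170) (nat_lit 5) (nat_lit 176) (nat_lit 5) (nat_lit 177) (nat_lit 5) (nat_lit 456) (nat_lit 372) (nat_lit 312)) (XT.nd (nat_lit 78) (nat_lit 76) (nat_lit 0) (XT.lf (nat_lit 0) (nat_lit 1724120794) (nat_lit 456) (nat_lit 7791955878) (nat_lit 532) (nat_lit 653404265) (nat_lit 164) (nat_lit 5) (nat_lit 170) (nat_lit 5) (nat_lit 171) (nat_lit 5) (nat_lit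 457) (nat_lit 372) (nat_lit 311)) (XT.lf (nat_lit 0) (nat_lit 2401812083) (nat_lit 532) (nat_lit 1890174156) (nat_lit 76) (nat_lit 5987487138) (nat_lit 163) (nat_lit 5) (nat_lit 170) (nat_lit 5) (nat_lit 164) (nat_lit 5) (nat_lit 458) (nat_lit 372) (nat_lit 310))))) (XT.nd (nat_lit 234) (nat_lit 836) (nat_lit 0) (XT.nd (nat_lit 78) (nat_lit 456) (nat_lit 0) (XT.lf (nat_lit 0) (nat_lit 4806311485) (nat_lit 456) (nat_lit 700241383) (nat_lit 532) (nat_lit 4885092999) (nat_lit 157) (nat_lit 5) (nat_lit 163) (nat_lit 5) (nat_lit 164) (nat_lit 5) (nat_lit 459) (nat_lit 372) (nat_lit 309)) (XT.nd (nat_lit 78) (nat_lit 76) (nat_lit 0) (XT.lf (nat_lit 0) (nat_lit 1102898499) (nat_lit 380) (nat_lit 7575874468) (nat_lit 456) (nat_lit 1827190922) (nat_lit 152) (nat_lit 5) (nat_lit 157) (nat_lit 5) (nat_lit 158) (nat_lit 5) (nat_lit 460) (nat_lit 372) (nat_lit 308)) (XT.lf (nat_lit 0) (nat_lit 1283624838) (nat_lit 456) (nat_lit 2683403842)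 (nat_lit 76) (nat_lit 6655207256) (nat_lit 151) (nat_lit 5) (nat_lit 157) (nat_lit 5) (nat_lit 152) (nat_lit 5) (nat_lit 461) (nat_lit 372) (nat_lit 307)))) (XT.nd (nat_lit 78) (nat_lit 380) (nat_lit 0) (XT.lf (nat_lit 0) (nat_lit 4165218463) (nat_lit 456) (nat_lit 261031369) (nat_lit 532) (nat_lit 6314470066) (nat_lit 145) (nat_lit 5) (nat_lit 151) (nat_lit 5) (nat_lit 152) (nat_lit 5) (nat_lit 462) (nat_lit 372) (nat_lit 306)) (XT.nd (nat_lit 78) (nat_lit 0) (nat_lit 0) (XT.lf (nat_lit 0) (nat_lit 258183566) (nat_lit 380) (nat_lit 7383428017) (nat_lit 456) (nat_lit 3219773299) (nat_lit 140) (nat_lit 5) (nat_lit 145) (nat_lit 5) (nat_lit 146) (nat_lit 5) (nat_lit 463) (nat_lit 372) (nat_lit 305)) (XT.lf (nat_lit 0) (nat_lit 7268031302) (nat_lit 380) (nat_lit 3666656605) (nat_lit 456) (nat_lit 49515963) (nat_lit 140) (nat_lit 5) (nat_lit 145) (nat_lit 5) (nat_lit 146) (nat_lit 5) (nat_lit 464) (nat_lit 372) (nat_lit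 304)))))) (XT.nd (nat_lit 390) (nat_lit 1444) (nat_lit 0) (XT.nd (nat_lit 156) (nat_lit 836) (nat_lit 0) (XT.nd (nat_lit 78) (nat_lit 0) (nat_lit 0) (XT.lf (nat_lit 0) (nat_lit 3132673287) (nat_lit 456) (nat_lit 7826673312) (nat_lit 76) (nat_lit 149921924) (nat_lit 134) (nat_lit 5) (nat_lit 140) (nat_lit 5) (nat_lit 135) (nat_lit 5) (nat_lit 465) (nat_lit 372) (nat_lit 303)) (XT.lf (nat_lit 0) (nat_lit 6395433133) (nat_lit 456) (nat_lit 837016810) (nat_lit 76) (nat_lit 4004034526) (nat_lit 134) (nat_lit 5) (nat_lit 140) (nat_lit 5) (nat_lit 135) (nat_lit 5) (nat_lit 466) (nat_lit 372) (nat_lit 302))) (XT.nd (nat_lit 78) (nat_lit 456) (nat_lit 0) (XT.lf (nat_lit 0) (nat_lit 6328751645) (nat_lit 380) (nat_lit 3404614524) (nat_lit 456) (nat_lit 1632688380) (nat_lit 129) (nat_lit 5) (nat_lit 134) (nat_lit 5) (nat_lit 135) (nat_lit 5) (nat_lit 467) (nat_lit 372) (nat_lit 301)) (XT.nd (nat_lit 78) (nat_lit 0) (nat_lit 0) (XT.lf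 (nat_lit 0) (nat_lit 1610030025) (nat_lit 456) (nat_lit 9380167044) (nat_lit 76) (nat_lit 507979982) (nat_lit 123) (nat_lit 5) (nat_lit 129) (nat_lit 5) (nat_lit 124) (nat_lit 5) (nat_lit 468) (nat_lit 372) (nat_lit 300)) (XT.lf (nat_lit 0) (nat_lit 4921466210) (nat_lit 456) (nat_lit 2228148958) (nat_lit 76) (nat_lit 4482604198) (nat_lit 123) (nat_lit 5) (nat_lit 129) (nat_lit 5) (nat_lit 124) (nat_lit 5) (nat_lit 469) (nat_lit 372) (nat_lit 299))))) (XT.nd (nat_lit 234) (nat_lit 684) (nat_lit 0) (XT.nd (nat_lit 78) (nat_lit 456) (nat_lit 0) (XT.lf (nat_lit 0) (nat_lit 5087544655) (nat_lit 304) (nat_lit 3214354200) (nat_lit 380) (nat_lit 3466995871) (nat_lit 119) (nat_lit 5) (nat_lit 123) (nat_lit 5) (nat_lit 124) (nat_lit 5) (nat_lit 470) (nat_lit 372) (nat_lit 298)) (XT.nd (nat_lit 78) (nat_lit 76) (nat_lit 0) (XT.lf (nat_lit 0) (nat_lit 628412096) (nat_lit 380) (nat_lit 11115780272) (nat_lit 456) (nat_lit 164233587)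 (nat_lit 114) (nat_lit 5) (nat_lit 119) (nat_lit 5) (nat_lit 120) (nat_lit 5) (nat_lit 471) (nat_lit 372) (nat_lit 297)) (XT.lf (nat_lit 0) (nat_lit 3198990792) (nat_lit 456) (nat_lit 3963695251) (nat_lit 76) (nat_lit 4886924046) (nat_lit 113) (nat_lit 5) (nat_lit 119) (nat_lit 5) (nat_lit 114) (nat_lit 5) (nat_lit 472) (nat_lit 372) (nat_lit 296)))) (XT.nd (nat_lit 78) (nat_lit 380) (nat_lit 0) (XT.lf (nat_lit 0) (nat_lit 3498261243) (nat_lit 304) (nat_lit 3122338470) (nat_lit 380) (nat_lit 5573137079) (nat_lit 109) (nat_lit 5) (nat_lit 113) (nat_lit 5) (nat_lit 114) (nat_lit 5) (nat_lit 473) (nat_lit 372) (nat_lit 295)) (XT.nd (nat_lit 78) (nat_lit 380) (nat_lit 0) (XT.lf (nat_lit 0) (nat_lit 10114683181) (nat_lit 380) (nat_lit 1229356106) (nat_lit 76) (nat_lit 996632735) (nat_lit 109) (nat_lit 5) (nat_lit 114) (nat_lit 5) (nat_lit 110) (nat_lit 5) (nat_lit 474) (nat_lit 372) (nat_lit 294)) (XT.lf (nat_lit 0) (nat_lit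 1206352712) (nat_lit 380) (nat_lit 6093182240) (nat_lit 76) (nat_lit 5190186652) (nat_lit 104) (nat_lit 5) (nat_lit 109) (nat_lit 5) (nat_lit 105) (nat_lit 5) (nat_lit 475) (nat_lit 372) (nat_lit 293))))))))
noncomputable def xc74 : XT := (XT.nd (nat_lit 1638) (nat_lit 1140) (nat_lit 0) (XT.nd (nat_lit 780) (nat_lit 1672) (nat_lit 0) (XT.nd (nat_lit 390) (nat_lit 912) (nat_lit 0) (XT.nd (nat_lit 156) (nat_lit 684) (nat_lit 0) (XT.nd (nat_lit 78) (nat_lit 0) (nat_lit 0) (XT.lf (nat_lit 0) (nat_lit 1510176945) (nat_lit 304) (nat_lit 3156929503) (nat_lit 380) (nat_lit 7974566475) (nat_lit 100) (nat_lit 5) (nat_lit 104) (nat_lit 5) (nat_lit 105) (nat_lit 5) (nat_lit 476) (nat_lit 372) (nat_lit 292)) (XT.lf (nat_lit 0) (nat_lit 8216771346) (nat_lit 380) (nat_lit 3499890114) (nat_lit 76) (nat_lit 1079614207) (nat_lit 100) (nat_lit 5) (nat_lit 105) (nat_lit 5) (nat_lit 101) (nat_lit 5) (nat_lit 477) (nat_lit 372) (nat_lit 291)))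 (XT.nd (nat_lit 78) (nat_lit 380) (nat_lit 0) (XT.lf (nat_lit 0) (nat_lit 4275361974) (nat_lit 304) (nat_lit 7582888998) (nat_lit 380) (nat_lit 1095309263) (nat_lit 96) (nat_lit 5) (nat_lit 100) (nat_lit 5) (nat_lit 101) (nat_lit 5) (nat_lit 478) (nat_lit 372) (nat_lit 290)) (XT.nd (nat_lit 78) (nat_lit 304) (nat_lit 0) (XT.lf (nat_lit 0) (nat_lit 2422195403) (nat_lit 380) (nat_lit 920313709) (nat_lit 76) (nat_lit 9771250678) (nat_lit 95) (nat_lit 5) (nat_lit 100) (nat_lit 5) (nat_lit 96) (nat_lit 5) (nat_lit 479) (nat_lit 372) (nat_lit 289)) (XT.lf (nat_lit 0) (nat_lit 6020468517) (nat_lit 380) (nat_lit 6248917735) (nat_lit 76) (nat_lit 1007136434) (nat_lit 91) (nat_lit 5) (nat_lit 96) (nat_lit 5) (nat_lit 92) (nat_lit 5) (nat_lit 480) (nat_lit 372) (nat_lit 288))))) (XT.nd (nat_lit 156) (nat_lit 608) (nat_lit 0) (XT.nd (nat_lit 78) (nat_lit 0) (nat_lit 0) (XT.lf (nat_lit 0) (nat_lit 1660618683) (nat_lit 304) (nat_lit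 8042145480) (nat_lit 380) (nat_lit 3739541261) (nat_lit 87) (nat_lit 5) (nat_lit 91) (nat_lit 5) (nat_lit 92) (nat_lit 5) (nat_lit 481) (nat_lit 372) (nat_lit 287)) (XT.lf (nat_lit 0) (nat_lit 9769814231) (nat_lit 304) (nat_lit 3703997940) (nat_lit 380) (nat_lit 137295128) (nat_lit 87) (nat_lit 5) (nat_lit 91) (nat_lit 5) (nat_lit 92) (nat_lit 5) (nat_lit 482) (nat_lit 372) (nat_lit 286))) (XT.nd (nat_lit 78) (nat_lit 304) (nat_lit 0) (XT.lf (nat_lit 0) (nat_lit 3496616932) (nat_lit 304) (nat_lit 9539809888) (nat_lit 76) (nat_lit 746284310) (nat_lit 83) (nat_lit 5) (nat_lit 87) (nat_lit 5) (nat_lit 84) (nat_lit 5) (nat_lit 483) (nat_lit 372) (nat_lit 285)) (XT.nd (nat_lit 78) (nat_lit 304) (nat_lit 0) (XT.lf (nat_lit 0) (nat_lit 7225505649) (nat_lit 304) (nat_lit 1484882331) (nat_lit 76) (nat_lit 5246863461) (nat_lit 83) (nat_lit 5) (nat_lit 87) (nat_lit 5) (nat_lit 84) (nat_lit 5) (nat_lit 484) (nat_lit 372) (nat_lit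 284)) (XT.lf (nat_lit 0) (nat_lit 6777989027) (nat_lit 304) (nat_lit 4269164314) (nat_lit 380) (nat_lit 3087770777) (nat_lit 79) (nat_lit 5) (nat_lit 83) (nat_lit 5) (nat_lit 84) (nat_lit 5) (nat_lit 485) (nat_lit 372) (nat_lit 283)))))) (XT.nd (nat_lit 390) (nat_lit 760) (nat_lit 0) (XT.nd (nat_lit 156) (nat_lit 608) (nat_lit 0) (XT.nd (nat_lit 78) (nat_lit 0) (nat_lit 0) (XT.lf (nat_lit 0) (nat_lit 612501344) (nat_lit 304) (nat_lit 13442486537) (nat_lit 76) (nat_lit 261252302) (nat_lit 75) (nat_lit 5) (nat_lit 79) (nat_lit 5) (nat_lit 76) (nat_lit 5) (nat_lit 486) (nat_lit 372) (nat_lit 282)) (XT.lf (nat_lit 0) (nat_lit 4397803083) (nat_lit 304) (nat_lit 5222714767) (nat_lit 76) (nat_lit 4879214012) (nat_lit 75) (nat_lit 5) (nat_lit 79) (nat_lit 5) (nat_lit 76) (nat_lit 5) (nat_lit 487) (nat_lit 372) (nat_lit 281))) (XT.nd (nat_lit 78) (nat_lit 304) (nat_lit 0) (XT.lf (nat_lit 0) (nat_lit 3161491894) (nat_lit 304)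 (nat_lit 5092710477) (nat_lit 380) (nat_lit 6432787964) (nat_lit 71) (nat_lit 5) (nat_lit 75) (nat_lit 5) (nat_lit 76) (nat_lit 5) (nat_lit 488) (nat_lit 372) (nat_lit 280)) (XT.nd (nat_lit 78) (nat_lit 304) (nat_lit 0) (XT.lf (nat_lit 0) (nat_lit 11743026414) (nat_lit 304) (nat_lit 454841070) (nat_lit 380) (nat_lit 2679928434) (nat_lit 71) (nat_lit 5) (nat_lit 75) (nat_lit 5) (nat_lit 76) (nat_lit 5) (nat_lit 489) (nat_lit 372) (nat_lit 279)) (XT.lf (nat_lit 0) (nat_lit 1171651465) (nat_lit 304) (nat_lit 9652913755) (nat_lit 76) (nat_lit 4246933450) (nat_lit 67) (nat_lit 5) (nat_lit 71) (nat_lit 5) (nat_lit 68) (nat_lit 5) (nat_lit 490) (nat_lit 372) (nat_lit 278))))) (XT.nd (nat_lit 234) (nat_lit 304) (nat_lit 0) (XT.nd (nat_lit 78) (nat_lit 456) (nat_lit 0) (XT.lf (nat_lit 0) (nat_lit 5064128137) (nat_lit 304) (nat_lit 1144851026) (nat_lit 76) (nat_lit 9059751467) (nat_lit 67) (nat_lit 5) (nat_lit 71) (nat_lit 5)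 (nat_lit 68) (nat_lit 5) (nat_lit 491) (nat_lit 372) (nat_lit 277)) (XT.nd (nat_lit 78) (nat_lit 228) (nat_lit 0) (XT.lf (nat_lit 0) (nat_lit 7592959969) (nat_lit 228) (nat_lit 1466801154) (nat_lit 304) (nat_lit 6409644308) (nat_lit 64) (nat_lit 5) (nat_lit 67) (nat_lit 5) (nat_lit 68) (nat_lit 5) (nat_lit 492) (nat_lit 372) (nat_lit 276)) (XT.lf (nat_lit 0) (nat_lit 795497219) (nat_lit 228) (nat_lit 12350706707) (nat_lit 304) (nat_lit 2527676114) (nat_lit 61) (nat_lit 5) (nat_lit 64) (nat_lit 5) (nat_lit 65) (nat_lit 5) (nat_lit 493) (nat_lit 372) (nat_lit 275)))) (XT.nd (nat_lit 78) (nat_lit 228) (nat_lit 0) (XT.lf (nat_lit 0) (nat_lit 1452236268) (nat_lit 304) (nat_lit 6193268096) (nat_lit 76) (nat_lit 8235976227) (nat_lit 60) (nat_lit 5) (nat_lit 64) (nat_lit 5) (nat_lit 61) (nat_lit 5) (nat_lit 494) (nat_lit 372) (nat_lit 274)) (XT.nd (nat_lit 78) (nat_lit 0) (nat_lit 0) (XT.lf (nat_lit 0) (nat_lit 2644108773) (nat_lit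 228) (nat_lit 2827624644) (nat_lit 304) (nat_lit 10621292943) (nat_lit 57) (nat_lit 5) (nat_lit 60) (nat_lit 5) (nat_lit 61) (nat_lit 5) (nat_lit 495) (nat_lit 372) (nat_lit 273)) (XT.lf (nat_lit 0) (nat_lit 9603737243) (nat_lit 304) (nat_lit 4619093236) (nat_lit 76) (nat_lit 2085334161) (nat_lit 57) (nat_lit 5) (nat_lit 61) (nat_lit 5) (nat_lit 58) (nat_lit 5) (nat_lit 496) (nat_lit 372) (nat_lit 272))))))) (XT.nd (nat_lit 51402) (nat_lit 0) (nat_lit 41344) (XT.nd (nat_lit 390) (nat_lit 456) (nat_lit 0) (XT.nd (nat_lit 156) (nat_lit 380) (nat_lit 0) (XT.nd (nat_lit 78) (nat_lit 76) (nat_lit 0) (XT.lf (nat_lit 0) (nat_lit 4387434736) (nat_lit 228) (nat_lit 9455348475) (nat_lit 304) (nat_lit 2684338286) (nat_lit 54) (nat_lit 5) (nat_lit 57) (nat_lit 5) (nat_lit 58) (nat_lit 5) (nat_lit 497) (nat_lit 372) (nat_lit 271)) (XT.lf (nat_lit 0) (nat_lit 1406015379) (nat_lit 304) (nat_lit 3161291601) (nat_lit 76) (nat_lit 12182801605)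 (nat_lit 53) (nat_lit 5) (nat_lit 57) (nat_lit 5) (nat_lit 54) (nat_lit 5) (nat_lit 498) (nat_lit 372) (nat_lit 270))) (XT.nd (nat_lit 78) (nat_lit 152) (nat_lit 0) (XT.lf (nat_lit 0) (nat_lit 5562023602) (nat_lit 304) (nat_lit 10960014813) (nat_lit 76) (nat_lit 454769946) (nat_lit 50) (nat_lit 5) (nat_lit 54) (nat_lit 5) (nat_lit 51) (nat_lit 5) (nat_lit 499) (nat_lit 372) (nat_lit 269)) (XT.nd (nat_lit 78) (nat_lit 152) (nat_lit 0) (XT.lf (nat_lit 0) (nat_lit 9830525012) (nat_lit 304) (nat_lit 1854807976) (nat_lit 76) (nat_lit 5522125243) (nat_lit 50) (nat_lit 5) (nat_lit 54) (nat_lit 5) (nat_lit 51) (nat_lit 5) (nat_lit 500) (nat_lit 372) (nat_lit 268)) (XT.lf (nat_lit 0) (nat_lit 7493432570) (nat_lit 152) (nat_lit 6717823605) (nat_lit 228) (nat_lit 3230931218) (nat_lit 48) (nat_lit 5) (nat_lit 50) (nat_lit 5) (nat_lit 51) (nat_lit 5) (nat_lit 501) (nat_lit 372) (nat_lit 267))))) (XT.nd (nat_lit 156) (nat_lit 152)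 (nat_lit 0) (XT.nd (nat_lit 78) (nat_lit 228) (nat_lit 0) (XT.lf (nat_lit 0) (nat_lit 975678497) (nat_lit 228) (nat_lit 671538782) (nat_lit 76) (nat_lit 16034452091) (nat_lit 47) (nat_lit 5) (nat_lit 50) (nat_lit 5) (nat_lit 48) (nat_lit 5) (nat_lit 502) (nat_lit 372) (nat_lit 266)) (XT.lf (nat_lit 0) (nat_lit 5282635538) (nat_lit 304) (nat_lit 9098879547) (nat_lit 76) (nat_lit 3542812515) (nat_lit 44) (nat_lit 5) (nat_lit 48) (nat_lit 5) (nat_lit 45) (nat_lit 5) (nat_lit 503) (nat_lit 372) (nat_lit 265))) (XT.nd (nat_lit 78) (nat_lit 0) (nat_lit 0) (XT.lf (nat_lit 0) (nat_lit 306056693) (nat_lit 152) (nat_lit 9365863468) (nat_lit 228) (nat_lit 8499998288) (nat_lit 42) (nat_lit 5) (nat_lit 44) (nat_lit 5) (nat_lit 45) (nat_lit 5) (nat_lit 504) (nat_lit 372) (nat_lit 264)) (XT.nd (nat_lit 50700) (nat_lit 0) (nat_lit 46512) (XT.lf (nat_lit 0) (nat_lit 9985923753) (nat_lit 152) (nat_lit 4203060891) (nat_lit 228) (nat_lit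 4234679749) (nat_lit 42) (nat_lit 5) (nat_lit 44) (nat_lit 5) (nat_lit 45) (nat_lit 5) (nat_lit 505) (nat_lit 372) (nat_lit 263)) (XT.lf (nat_lit 0) (nat_lit 1307431890) (nat_lit 532) (nat_lit 980788600) (nat_lit 532) (nat_lit 980788600) (nat_lit 654) (nat_lit 4) (nat_lit 661) (nat_lit 5) (nat_lit 661) (nat_lit 4) (nat_lit 394) (nat_lit 373) (nat_lit 373)))))) (XT.nd (nat_lit 390) (nat_lit 2888) (nat_lit 0) (XT.nd (nat_lit 156) (nat_lit 1596) (nat_lit 0) (XT.nd (nat_lit 78) (nat_lit 608) (nat_lit 0) (XT.lf (nat_lit 0) (nat_lit 1156576606) (nat_lit 608) (nat_lit 150799339) (nat_lit 76) (nat_lit 5245179796) (nat_lit 653) (nat_lit 5) (nat_lit 661) (nat_lit 5) (nat_lit 654) (nat_lit 4) (nat_lit 395) (nat_lit 373) (nat_lit 372)) (XT.lf (nat_lit 0) (nat_lit 3682521114) (nat_lit 608) (nat_lit 578826869) (nat_lit 684) (nat_lit 2306820000) (nat_lit 645) (nat_lit 5) (nat_lit 653) (nat_lit 5) (nat_lit 654) (nat_lit 4) (nat_lit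 396) (nat_lit 373) (nat_lit 371))) (XT.nd (nat_lit 78) (nat_lit 836) (nat_lit 0) (XT.lf (nat_lit 0) (nat_lit 768820010) (nat_lit 760) (nat_lit 5619443766) (nat_lit 76) (nat_lit 197055282) (nat_lit 635) (nat_lit 5) (nat_lit 645) (nat_lit 5) (nat_lit 636) (nat_lit 4) (nat_lit 397) (nat_lit 373) (nat_lit 370)) (XT.nd (nat_lit 78) (nat_lit 836) (nat_lit 0) (XT.lf (nat_lit 0) (nat_lit 3826855332) (nat_lit 760) (nat_lit 1739893671) (nat_lit 76) (nat_lit 1036774332) (nat_lit 635) (nat_lit 5) (nat_lit 645) (nat_lit 5) (nat_lit 636) (nat_lit 4) (nat_lit 398) (nat_lit 373) (nat_lit 369)) (XT.lf (nat_lit 0) (nat_lit 263364620) (nat_lit 836) (nat_lit 4429711296) (nat_lit 76) (nat_lit 1930149235) (nat_lit 624) (nat_lit 5) (nat_lit 635) (nat_lit 5) (nat_lit 625) (nat_lit 5) (nat_lit 399) (nat_lit 373) (nat_lit 368))))) (XT.nd (nat_lit 234) (nat_lit 1064) (nat_lit 0) (XT.nd (nat_lit 78) (nat_lit 1824) (nat_lit 0) (XT.lf (nat_lit 0)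 (nat_lit 3269168727) (nat_lit 836) (nat_lit 483776009) (nat_lit 76) (nat_lit 2891213828) (nat_lit 624) (nat_lit 5) (nat_lit 635) (nat_lit 5) (nat_lit 625) (nat_lit 5) (nat_lit 400) (nat_lit 373) (nat_lit 367)) (XT.nd (nat_lit 78) (nat_lit 988) (nat_lit 0) (XT.lf (nat_lit 0) (nat_lit 3537078269) (nat_lit 836) (nat_lit 2752703876) (nat_lit 912) (nat_lit 376681342) (nat_lit 613) (nat_lit 5) (nat_lit 624) (nat_lit 5) (nat_lit 625) (nat_lit 5) (nat_lit 401) (nat_lit 373) (nat_lit 366)) (XT.lf (nat_lit 0) (nat_lit 899114766) (nat_lit 912) (nat_lit 1688665735) (nat_lit 988) (nat_lit 4102303555) (nat_lit 600) (nat_lit 5) (nat_lit 612) (nat_lit 5) (nat_lit 613) (nat_lit 5) (nat_lit 402) (nat_lit 373) (nat_lit 365)))) (XT.nd (nat_lit 78) (nat_lit 1064) (nat_lit 0) (XT.lf (nat_lit 0) (nat_lit 4997409342) (nat_lit 912) (nat_lit 563317262) (nat_lit 988) (nat_lit 1154359874) (nat_lit 600) (nat_lit 5) (nat_lit 612) (nat_lit 5) (nat_lit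 613) (nat_lit 5) (nat_lit 403) (nat_lit 373) (nat_lit 364)) (XT.nd (nat_lit 78) (nat_lit 0) (nat_lit 0) (XT.lf (nat_lit 0) (nat_lit 1782029018) (nat_lit 1064) (nat_lit 4339458298) (nat_lit 76) (nat_lit 619827724) (nat_lit 586) (nat_lit 5) (nat_lit 600) (nat_lit 5) (nat_lit 587) (nat_lit 5) (nat_lit 404) (nat_lit 373) (nat_lit 363)) (XT.lf (nat_lit 0) (nat_lit 4712181740) (nat_lit 1064) (nat_lit 203919624) (nat_lit 76) (nat_lit 1852845819) (nat_lit 586) (nat_lit 5) (nat_lit 600) (nat_lit 5) (nat_lit 587) (nat_lit 5) (nat_lit 405) (nat_lit 373) (nat_lit 362))))))))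
noncomputable def xc75 : XT := (XT.nd (nat_lit 1638) (nat_lit 10716) (nat_lit 0) (XT.nd (nat_lit 780) (nat_lit 8968) (nat_lit 0) (XT.nd (nat_lit 390) (nat_lit 4484) (nat_lit 0) (XT.nd (nat_lit 156) (nat_lit 2584) (nat_lit 0) (XT.nd (nat_lit 78) (nat_lit 1140) (nat_lit 0) (XT.lf (nat_lit 0) (nat_lit 854156805) (nat_lit 1140) (nat_lit 2787219135) (nat_lit 76) (nat_lit 3156434437) (nat_lit 571) (nat_lit 5) (nat_lit 586) (nat_lit 5) (nat_lit 572) (nat_lit 5) (nat_lit 406) (nat_lit 373) (nat_lit 361)) (XT.lf (nat_lit 0) (nat_lit 1438949103) (nat_lit 1140) (nat_lit 2304436354) (nat_lit 1216) (nat_lit 3084679995) (nat_lit 556) (nat_lit 5) (nat_lit 571) (nat_lit 5) (nat_lit 572) (nat_lit 5) (nat_lit 407) (nat_lit 373) (nat_lit 360))) (XT.nd (nat_lit 78) (nat_lit 2584) (nat_lit 0) (XT.lf (nat_lit 0) (nat_lit 5736533218) (nat_lit 1140) (nat_lit 910358593) (nat_lit 1216) (nat_lit 212942274) (nat_lit 556) (nat_lit 5) (nat_lit 571)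 (nat_lit 5) (nat_lit 572) (nat_lit 5) (nat_lit 408) (nat_lit 373) (nat_lit 359)) (XT.nd (nat_lit 78) (nat_lit 1292) (nat_lit 0) (XT.lf (nat_lit 0) (nat_lit 2643605952) (nat_lit 1292) (nat_lit 3694942198) (nat_lit 76) (nat_lit 554114065) (nat_lit 539) (nat_lit 5) (nat_lit 556) (nat_lit 5) (nat_lit 540) (nat_lit 5) (nat_lit 409) (nat_lit 373) (nat_lit 358)) (XT.lf (nat_lit 0) (nat_lit 643620414) (nat_lit 1292) (nat_lit 4868122990) (nat_lit 1368) (nat_lit 1415265270) (nat_lit 522) (nat_lit 5) (nat_lit 539) (nat_lit 5) (nat_lit 540) (nat_lit 5) (nat_lit 410) (nat_lit 373) (nat_lit 357))))) (XT.nd (nat_lit 156) (nat_lit 3040) (nat_lit 0) (XT.nd (nat_lit 78) (nat_lit 1368) (nat_lit 0) (XT.lf (nat_lit 0) (nat_lit 1420747139) (nat_lit 1368) (nat_lit 1904464422) (nat_lit 76) (nat_lit 3637375784) (nat_lit 521) (nat_lit 5) (nat_lit 539) (nat_lit 5) (nat_lit 522) (nat_lit 5) (nat_lit 411) (nat_lit 373) (nat_lit 356)) (XT.lf (nat_lit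 0) (nat_lit 2534716121) (nat_lit 1368) (nat_lit 1717399729) (nat_lit 1444) (nat_lit 2747456937) (nat_lit 503) (nat_lit 5) (nat_lit 521) (nat_lit 5) (nat_lit 522) (nat_lit 5) (nat_lit 412) (nat_lit 373) (nat_lit 355))) (XT.nd (nat_lit 78) (nat_lit 2964) (nat_lit 0) (XT.lf (nat_lit 0) (nat_lit 55848887) (nat_lit 1444) (nat_lit 964227) (nat_lit 76) (nat_lit 6981416510) (nat_lit 502) (nat_lit 5) (nat_lit 521) (nat_lit 5) (nat_lit 503) (nat_lit 5) (nat_lit 413) (nat_lit 373) (nat_lit 354)) (XT.nd (nat_lit 78) (nat_lit 1520) (nat_lit 0) (XT.lf (nat_lit 0) (nat_lit 2861615571) (nat_lit 1520) (nat_lit 2545932151) (nat_lit 76) (nat_lit 1670117060) (nat_lit 483) (nat_lit 5) (nat_lit 503) (nat_lit 5) (nat_lit 484) (nat_lit 5) (nat_lit 414) (nat_lit 373) (nat_lit 353)) (XT.lf (nat_lit 0) (nat_lit 2011693654) (nat_lit 1520) (nat_lit 3668751227) (nat_lit 1596) (nat_lit 1438336251) (nat_lit 463) (nat_lit 5) (nat_lit 483) (nat_lit 5)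 (nat_lit 484) (nat_lit 5) (nat_lit 415) (nat_lit 373) (nat_lit 352)))))) (XT.nd (nat_lit 390) (nat_lit 3800) (nat_lit 0) (XT.nd (nat_lit 156) (nat_lit 3496) (nat_lit 0) (XT.nd (nat_lit 78) (nat_lit 1596) (nat_lit 0) (XT.lf (nat_lit 0) (nat_lit 1337713206) (nat_lit 1596) (nat_lit 526524155) (nat_lit 76) (nat_lit 5297109983) (nat_lit 462) (nat_lit 5) (nat_lit 483) (nat_lit 5) (nat_lit 463) (nat_lit 5) (nat_lit 416) (nat_lit 373) (nat_lit 351)) (XT.lf (nat_lit 0) (nat_lit 4122012397) (nat_lit 1672) (nat_lit 3065806042) (nat_lit 76) (nat_lit 17346154) (nat_lit 441) (nat_lit 5) (nat_lit 463) (nat_lit 5) (nat_lit 442) (nat_lit 5) (nat_lit 417) (nat_lit 373) (nat_lit 350))) (XT.nd (nat_lit 78) (nat_lit 1824) (nat_lit 0) (XT.lf (nat_lit 0) (nat_lit 1612950217) (nat_lit 1672) (nat_lit 5321176085) (nat_lit 1748) (nat_lit 316318350) (nat_lit 419) (nat_lit 5) (nat_lit 441) (nat_lit 5) (nat_lit 442) (nat_lit 5) (nat_lit 418) (nat_lit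 373) (nat_lit 349)) (XT.nd (nat_lit 78) (nat_lit 1748) (nat_lit 0) (XT.lf (nat_lit 0) (nat_lit 2439798081) (nat_lit 1748) (nat_lit 937932260) (nat_lit 76) (nat_lit 3919266277) (nat_lit 418) (nat_lit 5) (nat_lit 441) (nat_lit 5) (nat_lit 419) (nat_lit 5) (nat_lit 419) (nat_lit 373) (nat_lit 348)) (XT.lf (nat_lit 0) (nat_lit 3852933822) (nat_lit 1748) (nat_lit 1366045310) (nat_lit 1824) (nat_lit 2126042484) (nat_lit 395) (nat_lit 5) (nat_lit 418) (nat_lit 5) (nat_lit 419) (nat_lit 5) (nat_lit 420) (nat_lit 373) (nat_lit 347))))) (XT.nd (nat_lit 234) (nat_lit 1748) (nat_lit 0) (XT.nd (nat_lit 78) (nat_lit 912) (nat_lit 0) (XT.lf (nat_lit 0) (nat_lit 618068985) (nat_lit 1140) (nat_lit 6079362838) (nat_lit 76) (nat_lit 697176226) (nat_lit 380) (nat_lit 5) (nat_lit 395) (nat_lit 5) (nat_lit 381) (nat_lit 5) (nat_lit 421) (nat_lit 373) (nat_lit 346)) (XT.nd (nat_lit 78) (nat_lit 912) (nat_lit 0) (XT.lf (nat_lit 0) (nat_lit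 3369451273) (nat_lit 1140) (nat_lit 1254177499) (nat_lit 76) (nat_lit 2821685037) (nat_lit 380) (nat_lit 5) (nat_lit 395) (nat_lit 5) (nat_lit 381) (nat_lit 5) (nat_lit 422) (nat_lit 373) (nat_lit 345)) (XT.lf (nat_lit 0) (nat_lit 3664355114) (nat_lit 912) (nat_lit 2484507412) (nat_lit 988) (nat_lit 1348736413) (nat_lit 368) (nat_lit 5) (nat_lit 380) (nat_lit 5) (nat_lit 381) (nat_lit 5) (nat_lit 423) (nat_lit 373) (nat_lit 344)))) (XT.nd (nat_lit 78) (nat_lit 836) (nat_lit 0) (XT.lf (nat_lit 0) (nat_lit 1101004900) (nat_lit 836) (nat_lit 278273582) (nat_lit 912) (nat_lit 6172186730) (nat_lit 356) (nat_lit 5) (nat_lit 367) (nat_lit 5) (nat_lit 368) (nat_lit 5) (nat_lit 424) (nat_lit 373) (nat_lit 343)) (XT.nd (nat_lit 78) (nat_lit 836) (nat_lit 0) (XT.lf (nat_lit 0) (nat_lit 4132675552) (nat_lit 912) (nat_lit 1494146757) (nat_lit 76) (nat_lit 1979654392) (nat_lit 356) (nat_lit 5) (nat_lit 368) (nat_lit 5) (nat_lit 357)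 (nat_lit 5) (nat_lit 425) (nat_lit 373) (nat_lit 342)) (XT.lf (nat_lit 0) (nat_lit 3554851960) (nat_lit 836) (nat_lit 3362356102) (nat_lit 912) (nat_lit 745882363) (nat_lit 345) (nat_lit 5) (nat_lit 356) (nat_lit 5) (nat_lit 357) (nat_lit 5) (nat_lit 426) (nat_lit 373) (nat_lit 341))))))) (XT.nd (nat_lit 858) (nat_lit 5092) (nat_lit 0) (XT.nd (nat_lit 390) (nat_lit 3040) (nat_lit 0) (XT.nd (nat_lit 156) (nat_lit 1672) (nat_lit 0) (XT.nd (nat_lit 78) (nat_lit 0) (nat_lit 0) (XT.lf (nat_lit 0) (nat_lit 952094169) (nat_lit 836) (nat_lit 1025494629) (nat_lit 912) (nat_lit 5743651529) (nat_lit 333) (nat_lit 5) (nat_lit 344) (nat_lit 5) (nat_lit 345) (nat_lit 5) (nat_lit 427) (nat_lit 373) (nat_lit 340)) (XT.lf (nat_lit 0) (nat_lit 4734148520) (nat_lit 912) (nat_lit 1676792436) (nat_lit 76) (nat_lit 1369763544) (nat_lit 333) (nat_lit 5) (nat_lit 345) (nat_lit 5) (nat_lit 334) (nat_lit 5) (nat_lit 428) (nat_lit 373) (nat_lit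 339))) (XT.nd (nat_lit 78) (nat_lit 836) (nat_lit 0) (XT.lf (nat_lit 0) (nat_lit 3505442114) (nat_lit 836) (nat_lit 4022917392) (nat_lit 912) (nat_lit 313369627) (nat_lit 322) (nat_lit 5) (nat_lit 333) (nat_lit 5) (nat_lit 334) (nat_lit 5) (nat_lit 429) (nat_lit 373) (nat_lit 338)) (XT.nd (nat_lit 78) (nat_lit 0) (nat_lit 0) (XT.lf (nat_lit 0) (nat_lit 853904999) (nat_lit 760) (nat_lit 1558225897) (nat_lit 836) (nat_lit 5492140708) (nat_lit 311) (nat_lit 5) (nat_lit 321) (nat_lit 5) (nat_lit 322) (nat_lit 5) (nat_lit 430) (nat_lit 373) (nat_lit 337)) (XT.lf (nat_lit 0) (nat_lit 5177232219) (nat_lit 836) (nat_lit 1821304553) (nat_lit 76) (nat_lit 969721321) (nat_lit 311) (nat_lit 5) (nat_lit 322) (nat_lit 5) (nat_lit 312) (nat_lit 5) (nat_lit 431) (nat_lit 373) (nat_lit 336))))) (XT.nd (nat_lit 234) (nat_lit 1520) (nat_lit 0) (XT.nd (nat_lit 78) (nat_lit 760) (nat_lit 0) (XT.lf (nat_lit 0) (nat_lit 3496873102) (nat_lit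 760) (nat_lit 4488478004) (nat_lit 836) (nat_lit 48438829) (nat_lit 301) (nat_lit 5) (nat_lit 311) (nat_lit 5) (nat_lit 312) (nat_lit 5) (nat_lit 432) (nat_lit 373) (nat_lit 335)) (XT.nd (nat_lit 78) (nat_lit 0) (nat_lit 0) (XT.lf (nat_lit 0) (nat_lit 786813692) (nat_lit 684) (nat_lit 1898479899) (nat_lit 760) (nat_lit 5415554070) (nat_lit 291) (nat_lit 5) (nat_lit 300) (nat_lit 5) (nat_lit 301) (nat_lit 5) (nat_lit 433) (nat_lit 373) (nat_lit 334)) (XT.lf (nat_lit 0) (nat_lit 5463972367) (nat_lit 760) (nat_lit 1947288816) (nat_lit 76) (nat_lit 758179334) (nat_lit 291) (nat_lit 5) (nat_lit 301) (nat_lit 5) (nat_lit 292) (nat_lit 5) (nat_lit 434) (nat_lit 373) (nat_lit 333)))) (XT.nd (nat_lit 78) (nat_lit 684) (nat_lit 0) (XT.lf (nat_lit 0) (nat_lit 49653557) (nat_lit 836) (nat_lit 4730475755) (nat_lit 76) (nat_lit 3459454225) (nat_lit 280) (nat_lit 5) (nat_lit 291) (nat_lit 5) (nat_lit 281) (nat_lit 5) (nat_lit 435)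 (nat_lit 373) (nat_lit 332)) (XT.nd (nat_lit 78) (nat_lit 0) (nat_lit 0) (XT.lf (nat_lit 0) (nat_lit 730674194) (nat_lit 684) (nat_lit 2067454681) (nat_lit 760) (nat_lit 5513171032) (nat_lit 271) (nat_lit 5) (nat_lit 280) (nat_lit 5) (nat_lit 281) (nat_lit 5) (nat_lit 436) (nat_lit 373) (nat_lit 331)) (XT.lf (nat_lit 0) (nat_lit 5595087040) (nat_lit 760) (nat_lit 2074952247) (nat_lit 76) (nat_lit 714558403) (nat_lit 271) (nat_lit 5) (nat_lit 281) (nat_lit 5) (nat_lit 272) (nat_lit 5) (nat_lit 437) (nat_lit 373) (nat_lit 330)))))) (XT.nd (nat_lit 390) (nat_lit 2432) (nat_lit 0) (XT.nd (nat_lit 156) (nat_lit 1292) (nat_lit 0) (XT.nd (nat_lit 78) (nat_lit 684) (nat_lit 0) (XT.lf (nat_lit 0) (nat_lit 3522801144) (nat_lit 684) (nat_lit 4919607815) (nat_lit 760) (nat_lit 17080993) (nat_lit 262) (nat_lit 5) (nat_lit 271) (nat_lit 5) (nat_lit 272) (nat_lit 5) (nat_lit 438) (nat_lit 373) (nat_lit 329)) (XT.lf (nat_lit 0) (nat_lit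 664624411) (nat_lit 608) (nat_lit 2085708670) (nat_lit 684) (nat_lit 5785670340) (nat_lit 253) (nat_lit 5) (nat_lit 261) (nat_lit 5) (nat_lit 262) (nat_lit 5) (nat_lit 439) (nat_lit 373) (nat_lit 328))) (XT.nd (nat_lit 78) (nat_lit 1292) (nat_lit 0) (XT.lf (nat_lit 0) (nat_lit 5569944465) (nat_lit 684) (nat_lit 2225298007) (nat_lit 76) (nat_lit 818876907) (nat_lit 253) (nat_lit 5) (nat_lit 262) (nat_lit 5) (nat_lit 254) (nat_lit 5) (nat_lit 440) (nat_lit 373) (nat_lit 327)) (XT.nd (nat_lit 78) (nat_lit 684) (nat_lit 0) (XT.lf (nat_lit 0) (nat_lit 3515769408) (nat_lit 608) (nat_lit 4926136269) (nat_lit 684) (nat_lit 251988545) (nat_lit 245) (nat_lit 5) (nat_lit 253) (nat_lit 5) (nat_lit 254) (nat_lit 5) (nat_lit 441) (nat_lit 373) (nat_lit 326)) (XT.lf (nat_lit 0) (nat_lit 566882183) (nat_lit 608) (nat_lit 1973334658) (nat_lit 684) (nat_lit 6235161267) (nat_lit 236) (nat_lit 5) (nat_lit 244) (nat_lit 5) (nat_lit 245)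 (nat_lit 5) (nat_lit 442) (nat_lit 373) (nat_lit 325))))) (XT.nd (nat_lit 234) (nat_lit 1216) (nat_lit 0) (XT.nd (nat_lit 78) (nat_lit 1216) (nat_lit 0) (XT.lf (nat_lit 0) (nat_lit 5386529545) (nat_lit 684) (nat_lit 2420331174) (nat_lit 76) (nat_lit 1051579703) (nat_lit 236) (nat_lit 5) (nat_lit 245) (nat_lit 5) (nat_lit 237) (nat_lit 5) (nat_lit 443) (nat_lit 373) (nat_lit 324)) (XT.nd (nat_lit 78) (nat_lit 608) (nat_lit 0) (XT.lf (nat_lit 0) (nat_lit 3466111685) (nat_lit 608) (nat_lit 4819928908) (nat_lit 684) (nat_lit 657212468) (nat_lit 228) (nat_lit 5) (nat_lit 236) (nat_lit 5) (nat_lit 237) (nat_lit 5) (nat_lit 444) (nat_lit 373) (nat_lit 323)) (XT.lf (nat_lit 0) (nat_lit 414529065) (nat_lit 532) (nat_lit 1750134290) (nat_lit 608) (nat_lit 6865226738) (nat_lit 220) (nat_lit 5) (nat_lit 227) (nat_lit 5) (nat_lit 228) (nat_lit 5) (nat_lit 445) (nat_lit 373) (nat_lit 322)))) (XT.nd (nat_lit 78) (nat_lit 1216) (nat_lit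 0) (XT.lf (nat_lit 0) (nat_lit 5041398612) (nat_lit 608) (nat_lit 2683277373) (nat_lit 76) (nat_lit 1393366240) (nat_lit 220) (nat_lit 5) (nat_lit 228) (nat_lit 5) (nat_lit 221) (nat_lit 5) (nat_lit 446) (nat_lit 373) (nat_lit 321)) (XT.nd (nat_lit 78) (nat_lit 608) (nat_lit 0) (XT.lf (nat_lit 0) (nat_lit 3350320196) (nat_lit 608) (nat_lit 4620700113) (nat_lit 684) (nat_lit 1237043470) (nat_lit 212) (nat_lit 5) (nat_lit 220) (nat_lit 5) (nat_lit 221) (nat_lit 5) (nat_lit 447) (nat_lit 373) (nat_lit 320)) (XT.lf (nat_lit 0) (nat_lit 183279916) (nat_lit 532) (nat_lit 1435794510) (nat_lit 608) (nat_lit 7680978994) (nat_lit 204) (nat_lit 5) (nat_lit 211) (nat_lit 5) (nat_lit 212) (nat_lit 5) (nat_lit 448) (nat_lit 373) (nat_lit 319))))))))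
noncomputable def xc76 : XT := (XT.nd (nat_lit 1638) (nat_lit 3952) (nat_lit 0) (XT.nd (nat_lit 780) (nat_lit 3040) (nat_lit 0) (XT.nd (nat_lit 390) (nat_lit 1520) (nat_lit 0) (XT.nd (nat_lit 156) (nat_lit 1064) (nat_lit 0) (XT.nd (nat_lit 78) (nat_lit 532) (nat_lit 0) (XT.lf (nat_lit 0) (nat_lit 4529621820) (nat_lit 608) (nat_lit 3038816266) (nat_lit 76) (nat_lit 1825016447) (nat_lit 204) (nat_lit 5) (nat_lit 212) (nat_lit 5) (nat_lit 205) (nat_lit 5) (nat_lit 449) (nat_lit 373) (nat_lit 318)) (XT.lf (nat_lit 0) (nat_lit 3143374222) (nat_lit 532) (nat_lit 4348175191) (nat_lit 608) (nat_lit 1997323265) (nat_lit 197) (nat_lit 5) (nat_lit 204) (nat_lit 5) (nat_lit 205) (nat_lit 5) (nat_lit 450) (nat_lit 373) (nat_lit 317))) (XT.nd (nat_lit 78) (nat_lit 988) (nat_lit 0) (XT.lf (nat_lit 0) (nat_lit 898295402) (nat_lit 608) (nat_lit 150760323) (nat_lit 76) (nat_lit 8537356452) (nat_lit 196) (nat_lit 5) (nat_lit 204) (nat_lit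 5) (nat_lit 197) (nat_lit 5) (nat_lit 451) (nat_lit 373) (nat_lit 316)) (XT.nd (nat_lit 78) (nat_lit 532) (nat_lit 0) (XT.lf (nat_lit 0) (nat_lit 3844712459) (nat_lit 532) (nat_lit 3513332096) (nat_lit 76) (nat_lit 2327212939) (nat_lit 190) (nat_lit 5) (nat_lit 197) (nat_lit 5) (nat_lit 191) (nat_lit 5) (nat_lit 452) (nat_lit 373) (nat_lit 315)) (XT.lf (nat_lit 0) (nat_lit 2818483100) (nat_lit 532) (nat_lit 4022272372) (nat_lit 608) (nat_lit 2945521744) (nat_lit 183) (nat_lit 5) (nat_lit 190) (nat_lit 5) (nat_lit 191) (nat_lit 5) (nat_lit 453) (nat_lit 373) (nat_lit 314))))) (XT.nd (nat_lit 156) (nat_lit 988) (nat_lit 0) (XT.nd (nat_lit 78) (nat_lit 532) (nat_lit 0) (XT.lf (nat_lit 0) (nat_lit 9276301656) (nat_lit 532) (nat_lit 608810465) (nat_lit 608) (nat_lit 4448579) (nat_lit 183) (nat_lit 5) (nat_lit 190) (nat_lit 5) (nat_lit 191) (nat_lit 5) (nat_lit 454) (nat_lit 373) (nat_lit 313)) (XT.lf (nat_lit 0) (nat_lit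 2978542367) (nat_lit 532) (nat_lit 4135183655) (nat_lit 76) (nat_lit 2880358011) (nat_lit 176) (nat_lit 5) (nat_lit 183) (nat_lit 5) (nat_lit 177) (nat_lit 5) (nat_lit 455) (nat_lit 373) (nat_lit 312))) (XT.nd (nat_lit 78) (nat_lit 532) (nat_lit 0) (XT.lf (nat_lit 0) (nat_lit 2346809057) (nat_lit 456) (nat_lit 3663290784) (nat_lit 532) (nat_lit 4090828655) (nat_lit 170) (nat_lit 5) (nat_lit 176) (nat_lit 5) (nat_lit 177) (nat_lit 5) (nat_lit 456) (nat_lit 373) (nat_lit 311)) (XT.nd (nat_lit 78) (nat_lit 532) (nat_lit 0) (XT.lf (nat_lit 0) (nat_lit 8966729907) (nat_lit 456) (nat_lit 129227865) (nat_lit 532) (nat_lit 1114089061) (nat_lit 170) (nat_lit 5) (nat_lit 176) (nat_lit 5) (nat_lit 177) (nat_lit 5) (nat_lit 457) (nat_lit 373) (nat_lit 310)) (XT.lf (nat_lit 0) (nat_lit 1921242496) (nat_lit 532) (nat_lit 4934996221) (nat_lit 76) (nat_lit 3464383846) (nat_lit 163) (nat_lit 5) (nat_lit 170) (nat_lit 5) (nat_lit 164)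 (nat_lit 5) (nat_lit 458) (nat_lit 373) (nat_lit 309)))))) (XT.nd (nat_lit 390) (nat_lit 1672) (nat_lit 0) (XT.nd (nat_lit 156) (nat_lit 912) (nat_lit 0) (XT.nd (nat_lit 78) (nat_lit 0) (nat_lit 0) (XT.lf (nat_lit 0) (nat_lit 1697167235) (nat_lit 456) (nat_lit 3292106050) (nat_lit 532) (nat_lit 5444260805) (nat_lit 157) (nat_lit 5) (nat_lit 163) (nat_lit 5) (nat_lit 164) (nat_lit 5) (nat_lit 459) (nat_lit 373) (nat_lit 308)) (XT.lf (nat_lit 0) (nat_lit 8121107584) (nat_lit 532) (nat_lit 2069446941) (nat_lit 76) (nat_lit 358110046) (nat_lit 157) (nat_lit 5) (nat_lit 164) (nat_lit 5) (nat_lit 158) (nat_lit 5) (nat_lit 460) (nat_lit 373) (nat_lit 307))) (XT.nd (nat_lit 78) (nat_lit 456) (nat_lit 0) (XT.lf (nat_lit 0) (nat_lit 661087523) (nat_lit 456) (nat_lit 5945978290) (nat_lit 76) (nat_lit 4058554226) (nat_lit 151) (nat_lit 5) (nat_lit 157) (nat_lit 5) (nat_lit 152) (nat_lit 5) (nat_lit 461) (nat_lit 373) (nat_lit 306))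 (XT.nd (nat_lit 78) (nat_lit 0) (nat_lit 0) (XT.lf (nat_lit 0) (nat_lit 835700011) (nat_lit 456) (nat_lit 2930375250) (nat_lit 532) (nat_lit 7018785955) (nat_lit 145) (nat_lit 5) (nat_lit 151) (nat_lit 5) (nat_lit 152) (nat_lit 5) (nat_lit 462) (nat_lit 373) (nat_lit 305)) (XT.lf (nat_lit 0) (nat_lit 6946526541) (nat_lit 532) (nat_lit 3124929121) (nat_lit 76) (nat_lit 834773128) (nat_lit 145) (nat_lit 5) (nat_lit 152) (nat_lit 5) (nat_lit 146) (nat_lit 5) (nat_lit 463) (nat_lit 373) (nat_lit 304))))) (XT.nd (nat_lit 234) (nat_lit 836) (nat_lit 0) (XT.nd (nat_lit 78) (nat_lit 456) (nat_lit 0) (XT.lf (nat_lit 0) (nat_lit 3820145938) (nat_lit 380) (nat_lit 6383156068) (nat_lit 456) (nat_lit 826476085) (nat_lit 140) (nat_lit 5) (nat_lit 145) (nat_lit 5) (nat_lit 146) (nat_lit 5) (nat_lit 464) (nat_lit 373) (nat_lit 303)) (XT.nd (nat_lit 78) (nat_lit 380) (nat_lit 0) (XT.lf (nat_lit 0) (nat_lit 2328057682) (nat_lit 456) (nat_lit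 270877690) (nat_lit 76) (nat_lit 8556769301) (nat_lit 139) (nat_lit 5) (nat_lit 145) (nat_lit 5) (nat_lit 140) (nat_lit 5) (nat_lit 465) (nat_lit 373) (nat_lit 302)) (XT.lf (nat_lit 0) (nat_lit 5556717713) (nat_lit 456) (nat_lit 4446786351) (nat_lit 76) (nat_lit 1280102599) (nat_lit 134) (nat_lit 5) (nat_lit 140) (nat_lit 5) (nat_lit 135) (nat_lit 5) (nat_lit 466) (nat_lit 373) (nat_lit 301)))) (XT.nd (nat_lit 78) (nat_lit 456) (nat_lit 0) (XT.lf (nat_lit 0) (nat_lit 2648051374) (nat_lit 380) (nat_lit 6207572504) (nat_lit 456) (nat_lit 2558337372) (nat_lit 129) (nat_lit 5) (nat_lit 134) (nat_lit 5) (nat_lit 135) (nat_lit 5) (nat_lit 467) (nat_lit 373) (nat_lit 300)) (XT.nd (nat_lit 78) (nat_lit 380) (nat_lit 0) (XT.lf (nat_lit 0) (nat_lit 664323606) (nat_lit 456) (nat_lit 1651713877) (nat_lit 76) (nat_lit 9230814232) (nat_lit 128) (nat_lit 5) (nat_lit 134) (nat_lit 5) (nat_lit 129) (nat_lit 5) (nat_lit 468) (nat_lit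 373) (nat_lit 299)) (XT.lf (nat_lit 0) (nat_lit 3934801869) (nat_lit 456) (nat_lit 6076422316) (nat_lit 76) (nat_lit 1670492742) (nat_lit 123) (nat_lit 5) (nat_lit 129) (nat_lit 5) (nat_lit 124) (nat_lit 5) (nat_lit 469) (nat_lit 373) (nat_lit 298))))))) (XT.nd (nat_lit 780) (nat_lit 1824) (nat_lit 0) (XT.nd (nat_lit 390) (nat_lit 1064) (nat_lit 0) (XT.nd (nat_lit 156) (nat_lit 760) (nat_lit 0) (XT.nd (nat_lit 78) (nat_lit 0) (nat_lit 0) (XT.lf (nat_lit 0) (nat_lit 1165463591) (nat_lit 304) (nat_lit 6109617772) (nat_lit 380) (nat_lit 4544117653) (nat_lit 119) (nat_lit 5) (nat_lit 123) (nat_lit 5) (nat_lit 124) (nat_lit 5) (nat_lit 470) (nat_lit 373) (nat_lit 297)) (XT.lf (nat_lit 0) (nat_lit 8589666797) (nat_lit 304) (nat_lit 2103895408) (nat_lit 380) (nat_lit 1265647887) (nat_lit 119) (nat_lit 5) (nat_lit 123) (nat_lit 5) (nat_lit 124) (nat_lit 5) (nat_lit 471) (nat_lit 373) (nat_lit 296))) (XT.nd (nat_lit 78) (nat_lit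 304) (nat_lit 0) (XT.lf (nat_lit 0) (nat_lit 2061494549) (nat_lit 456) (nat_lit 8059215226) (nat_lit 76) (nat_lit 1980841473) (nat_lit 113) (nat_lit 5) (nat_lit 119) (nat_lit 5) (nat_lit 114) (nat_lit 5) (nat_lit 472) (nat_lit 373) (nat_lit 295)) (XT.nd (nat_lit 78) (nat_lit 304) (nat_lit 0) (XT.lf (nat_lit 0) (nat_lit 5446123331) (nat_lit 456) (nat_lit 665213009) (nat_lit 76) (nat_lit 6135084601) (nat_lit 113) (nat_lit 5) (nat_lit 119) (nat_lit 5) (nat_lit 114) (nat_lit 5) (nat_lit 473) (nat_lit 373) (nat_lit 294)) (XT.lf (nat_lit 0) (nat_lit 6923760535) (nat_lit 304) (nat_lit 1991383332) (nat_lit 380) (nat_lit 3478716884) (nat_lit 109) (nat_lit 5) (nat_lit 113) (nat_lit 5) (nat_lit 114) (nat_lit 5) (nat_lit 474) (nat_lit 373) (nat_lit 293))))) (XT.nd (nat_lit 156) (nat_lit 684) (nat_lit 0) (XT.nd (nat_lit 78) (nat_lit 76) (nat_lit 0) (XT.lf (nat_lit 0) (nat_lit 2098616273) (nat_lit 304) (nat_lit 10359320020) (nat_lit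 380) (nat_lit 86231811) (nat_lit 105) (nat_lit 5) (nat_lit 109) (nat_lit 5) (nat_lit 110) (nat_lit 5) (nat_lit 475) (nat_lit 373) (nat_lit 292)) (XT.lf (nat_lit 0) (nat_lit 3351983574) (nat_lit 380) (nat_lit 2883212854) (nat_lit 76) (nat_lit 6461410707) (nat_lit 104) (nat_lit 5) (nat_lit 109) (nat_lit 5) (nat_lit 105) (nat_lit 5) (nat_lit 476) (nat_lit 373) (nat_lit 291))) (XT.nd (nat_lit 78) (nat_lit 380) (nat_lit 0) (XT.lf (nat_lit 0) (nat_lit 4850293561) (nat_lit 304) (nat_lit 2011550861) (nat_lit 380) (nat_lit 5990164605) (nat_lit 100) (nat_lit 5) (nat_lit 104) (nat_lit 5) (nat_lit 105) (nat_lit 5) (nat_lit 477) (nat_lit 373) (nat_lit 290)) (XT.nd (nat_lit 78) (nat_lit 380) (nat_lit 0) (XT.lf (nat_lit 0) (nat_lit 10448991421) (nat_lit 380) (nat_lit 290903666) (nat_lit 76) (nat_lit 2270488169) (nat_lit 100) (nat_lit 5) (nat_lit 105) (nat_lit 5) (nat_lit 101) (nat_lit 5) (nat_lit 478) (nat_lit 373) (nat_lit 289)) (XT.lf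 (nat_lit 0) (nat_lit 959935632) (nat_lit 380) (nat_lit 5559244656) (nat_lit 76) (nat_lit 6651903893) (nat_lit 95) (nat_lit 5) (nat_lit 100) (nat_lit 5) (nat_lit 96) (nat_lit 5) (nat_lit 479) (nat_lit 373) (nat_lit 288)))))) (XT.nd (nat_lit 390) (nat_lit 912) (nat_lit 0) (XT.nd (nat_lit 156) (nat_lit 608) (nat_lit 0) (XT.nd (nat_lit 78) (nat_lit 0) (nat_lit 0) (XT.lf (nat_lit 0) (nat_lit 2312455210) (nat_lit 304) (nat_lit 2195255544) (nat_lit 380) (nat_lit 8827149117) (nat_lit 91) (nat_lit 5) (nat_lit 95) (nat_lit 5) (nat_lit 96) (nat_lit 5) (nat_lit 480) (nat_lit 373) (nat_lit 287)) (XT.lf (nat_lit 0) (nat_lit 8151829749) (nat_lit 380) (nat_lit 3141518389) (nat_lit 76) (nat_lit 2208060781) (nat_lit 91) (nat_lit 5) (nat_lit 96) (nat_lit 5) (nat_lit 92) (nat_lit 5) (nat_lit 481) (nat_lit 373) (nat_lit 286))) (XT.nd (nat_lit 78) (nat_lit 304) (nat_lit 0) (XT.lf (nat_lit 0) (nat_lit 4904943114) (nat_lit 304) (nat_lit 6984246434)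 (nat_lit 380) (nat_lit 1781697735) (nat_lit 87) (nat_lit 5) (nat_lit 91) (nat_lit 5) (nat_lit 92) (nat_lit 5) (nat_lit 482) (nat_lit 373) (nat_lit 285)) (XT.nd (nat_lit 78) (nat_lit 228) (nat_lit 0) (XT.lf (nat_lit 0) (nat_lit 1828438755) (nat_lit 380) (nat_lit 742524303) (nat_lit 76) (nat_lit 11272651050) (nat_lit 86) (nat_lit 5) (nat_lit 91) (nat_lit 5) (nat_lit 87) (nat_lit 5) (nat_lit 483) (nat_lit 373) (nat_lit 284)) (XT.lf (nat_lit 0) (nat_lit 5522932547) (nat_lit 304) (nat_lit 6545268047) (nat_lit 76) (nat_lit 1950644290) (nat_lit 83) (nat_lit 5) (nat_lit 87) (nat_lit 5) (nat_lit 84) (nat_lit 5) (nat_lit 484) (nat_lit 373) (nat_lit 283))))) (XT.nd (nat_lit 234) (nat_lit 304) (nat_lit 0) (XT.nd (nat_lit 78) (nat_lit 304) (nat_lit 0) (XT.lf (nat_lit 0) (nat_lit 1629673918) (nat_lit 304) (nat_lit 7668945587) (nat_lit 380) (nat_lit 4898819788) (nat_lit 79) (nat_lit 5) (nat_lit 83) (nat_lit 5) (nat_lit 84) (nat_lit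 5) (nat_lit 485) (nat_lit 373) (nat_lit 282)) (XT.nd (nat_lit 78) (nat_lit 304) (nat_lit 0) (XT.lf (nat_lit 0) (nat_lit 10015883972) (nat_lit 304) (nat_lit 3152769383) (nat_lit 380) (nat_lit 1210580557) (nat_lit 79) (nat_lit 5) (nat_lit 83) (nat_lit 5) (nat_lit 84) (nat_lit 5) (nat_lit 486) (nat_lit 373) (nat_lit 281)) (XT.lf (nat_lit 0) (nat_lit 2528788873) (nat_lit 304) (nat_lit 10573359932) (nat_lit 76) (nat_lit 1461972541) (nat_lit 75) (nat_lit 5) (nat_lit 79) (nat_lit 5) (nat_lit 76) (nat_lit 5) (nat_lit 487) (nat_lit 373) (nat_lit 280)))) (XT.nd (nat_lit 78) (nat_lit 304) (nat_lit 0) (XT.lf (nat_lit 0) (nat_lit 6352462578) (nat_lit 304) (nat_lit 2250721675) (nat_lit 76) (nat_lit 6148852403) (nat_lit 75) (nat_lit 5) (nat_lit 79) (nat_lit 5) (nat_lit 76) (nat_lit 5) (nat_lit 488) (nat_lit 373) (nat_lit 279)) (XT.nd (nat_lit 78) (nat_lit 0) (nat_lit 0) (XT.lf (nat_lit 0) (nat_lit 6280929335) (nat_lit 304) (nat_lit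 3988301417) (nat_lit 380) (nat_lit 4674151705) (nat_lit 71) (nat_lit 5) (nat_lit 75) (nat_lit 5) (nat_lit 76) (nat_lit 5) (nat_lit 489) (nat_lit 373) (nat_lit 278)) (XT.lf (nat_lit 0) (nat_lit 14260161851) (nat_lit 380) (nat_lit 169233656) (nat_lit 76) (nat_lit 709247629) (nat_lit 71) (nat_lit 5) (nat_lit 76) (nat_lit 5) (nat_lit 72) (nat_lit 5) (nat_lit 490) (nat_lit 373) (nat_lit 277))))))))
noncomputable def xc77 : XT := (XT.nd (nat_lit 52104) (nat_lit 0) (nat_lit 28576) (XT.nd (nat_lit 780) (nat_lit 608) (nat_lit 0) (XT.nd (nat_lit 390) (nat_lit 760) (nat_lit 0) (XT.nd (nat_lit 156) (nat_lit 304) (nat_lit 0) (XT.nd (nat_lit 78) (nat_lit 228) (nat_lit 0) (XT.lf (nat_lit 0) (nat_lit 3012518968) (nat_lit 304) (nat_lit 6816174314) (nat_lit 76) (nat_lit 5507557993) (nat_lit 67) (nat_lit 5) (nat_lit 71) (nat_lit 5) (nat_lit 68) (nat_lit 5) (nat_lit 491) (nat_lit 373) (nat_lit 276)) (XT.lf (nat_lit 0) (nat_lit 1826598032)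 (nat_lit 228) (nat_lit 5132470656) (nat_lit 304) (nat_lit 8578841159) (nat_lit 64) (nat_lit 5) (nat_lit 67) (nat_lit 5) (nat_lit 68) (nat_lit 5) (nat_lit 492) (nat_lit 373) (nat_lit 275))) (XT.nd (nat_lit 78) (nat_lit 304) (nat_lit 0) (XT.lf (nat_lit 0) (nat_lit 10695667048) (nat_lit 228) (nat_lit 311309437) (nat_lit 304) (nat_lit 4736180734) (nat_lit 64) (nat_lit 5) (nat_lit 67) (nat_lit 5) (nat_lit 68) (nat_lit 5) (nat_lit 493) (nat_lit 373) (nat_lit 274)) (XT.nd (nat_lit 78) (nat_lit 76) (nat_lit 0) (XT.lf (nat_lit 0) (nat_lit 3770601363) (nat_lit 228) (nat_lit 11396673837) (nat_lit 304) (nat_lit 784609774) (nat_lit 61) (nat_lit 5) (nat_lit 64) (nat_lit 5) (nat_lit 65) (nat_lit 5) (nat_lit 494) (nat_lit 373) (nat_lit 273)) (XT.lf (nat_lit 0) (nat_lit 3216669440) (nat_lit 304) (nat_lit 3392602579) (nat_lit 76) (nat_lit 9554832719) (nat_lit 60) (nat_lit 5) (nat_lit 64) (nat_lit 5) (nat_lit 61) (nat_lit 5) (nat_lit 495)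 (nat_lit 373) (nat_lit 272))))) (XT.nd (nat_lit 156) (nat_lit 532) (nat_lit 0) (XT.nd (nat_lit 78) (nat_lit 0) (nat_lit 0) (XT.lf (nat_lit 0) (nat_lit 5602281493) (nat_lit 228) (nat_lit 1699110887) (nat_lit 304) (nat_lit 9078798162) (nat_lit 57) (nat_lit 5) (nat_lit 60) (nat_lit 5) (nat_lit 61) (nat_lit 5) (nat_lit 496) (nat_lit 373) (nat_lit 271)) (XT.lf (nat_lit 0) (nat_lit 11489849763) (nat_lit 304) (nat_lit 1836678382) (nat_lit 76) (nat_lit 3273632895) (nat_lit 57) (nat_lit 5) (nat_lit 61) (nat_lit 5) (nat_lit 58) (nat_lit 5) (nat_lit 497) (nat_lit 373) (nat_lit 270))) (XT.nd (nat_lit 78) (nat_lit 304) (nat_lit 0) (XT.lf (nat_lit 0) (nat_lit 7331067013) (nat_lit 228) (nat_lit 8467935502) (nat_lit 304) (nat_lit 1024793614) (nat_lit 54) (nat_lit 5) (nat_lit 57) (nat_lit 5) (nat_lit 58) (nat_lit 5) (nat_lit 498) (nat_lit 373) (nat_lit 269)) (XT.nd (nat_lit 78) (nat_lit 228) (nat_lit 0) (XT.lf (nat_lit 0) (nat_lit 3091745588)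 (nat_lit 304) (nat_lit 402333172) (nat_lit 76) (nat_lit 13557610166) (nat_lit 53) (nat_lit 5) (nat_lit 57) (nat_lit 5) (nat_lit 54) (nat_lit 5) (nat_lit 499) (nat_lit 373) (nat_lit 268)) (XT.lf (nat_lit 0) (nat_lit 7324108243) (nat_lit 304) (nat_lit 8350000771) (nat_lit 76) (nat_lit 1608954285) (nat_lit 50) (nat_lit 5) (nat_lit 54) (nat_lit 5) (nat_lit 51) (nat_lit 5) (nat_lit 500) (nat_lit 373) (nat_lit 267)))))) (XT.nd (nat_lit 50856) (nat_lit 0) (nat_lit 45068) (XT.nd (nat_lit 156) (nat_lit 456) (nat_lit 0) (XT.nd (nat_lit 78) (nat_lit 0) (nat_lit 0) (XT.lf (nat_lit 0) (nat_lit 893554540) (nat_lit 152) (nat_lit 10757857196) (nat_lit 228) (nat_lit 5867450972) (nat_lit 48) (nat_lit 5) (nat_lit 50) (nat_lit 5) (nat_lit 51) (nat_lit 5) (nat_lit 501) (nat_lit 373) (nat_lit 266)) (XT.lf (nat_lit 0) (nat_lit 10398792482) (nat_lit 152) (nat_lit 5701319171) (nat_lit 228) (nat_lit 1658572800) (nat_lit 48) (nat_lit 5) (nat_lit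 50) (nat_lit 5) (nat_lit 51) (nat_lit 5) (nat_lit 502) (nat_lit 373) (nat_lit 265))) (XT.nd (nat_lit 78) (nat_lit 152) (nat_lit 0) (XT.lf (nat_lit 0) (nat_lit 2064866049) (nat_lit 228) (nat_lit 527563669) (nat_lit 304) (nat_lit 15410684072) (nat_lit 44) (nat_lit 5) (nat_lit 47) (nat_lit 5) (nat_lit 48) (nat_lit 5) (nat_lit 503) (nat_lit 373) (nat_lit 264)) (XT.nd (nat_lit 78) (nat_lit 152) (nat_lit 0) (XT.lf (nat_lit 0) (nat_lit 6965991488) (nat_lit 304) (nat_lit 6551735262) (nat_lit 76) (nat_lit 4733293911) (nat_lit 44) (nat_lit 5) (nat_lit 48) (nat_lit 5) (nat_lit 45) (nat_lit 5) (nat_lit 504) (nat_lit 373) (nat_lit 263)) (XT.lf (nat_lit 0) (nat_lit 3023344953) (nat_lit 152) (nat_lit 8406384187) (nat_lit 228) (nat_lit 7074105535) (nat_lit 42) (nat_lit 5) (nat_lit 44) (nat_lit 5) (nat_lit 45) (nat_lit 5) (nat_lit 505) (nat_lit 373) (nat_lit 262))))) (XT.nd (nat_lit 234) (nat_lit 1368) (nat_lit 0) (XT.nd (nat_lit 78)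 (nat_lit 608) (nat_lit 0) (XT.lf (nat_lit 0) (nat_lit 425668571) (nat_lit 532) (nat_lit 2404974250) (nat_lit 0) (nat_lit 425668571) (nat_lit 661) (nat_lit 5) (nat_lit 668) (nat_lit 4) (nat_lit 661) (nat_lit 4) (nat_lit 392) (nat_lit 374) (nat_lit 374)) (XT.nd (nat_lit 78) (nat_lit 608) (nat_lit 0) (XT.lf (nat_lit 0) (nat_lit 3961398789) (nat_lit 532) (nat_lit 1139007068) (nat_lit 0) (nat_lit 1424573023) (nat_lit 661) (nat_lit 5) (nat_lit 668) (nat_lit 4) (nat_lit 661) (nat_lit 4) (nat_lit 393) (nat_lit 374) (nat_lit 373)) (XT.lf (nat_lit 0) (nat_lit 530633686) (nat_lit 608) (nat_lit 3952029803) (nat_lit 76) (nat_lit 2056048497) (nat_lit 653) (nat_lit 5) (nat_lit 661) (nat_lit 5) (nat_lit 654) (nat_lit 4) (nat_lit 394) (nat_lit 374) (nat_lit 372)))) (XT.nd (nat_lit 78) (nat_lit 1368) (nat_lit 0) (XT.lf (nat_lit 0) (nat_lit 3586717537) (nat_lit 608) (nat_lit 217058154) (nat_lit 76) (nat_lit 2749972567) (nat_lit 653) (nat_lit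 5) (nat_lit 661) (nat_lit 5) (nat_lit 654) (nat_lit 4) (nat_lit 395) (nat_lit 374) (nat_lit 371)) (XT.nd (nat_lit 78) (nat_lit 684) (nat_lit 0) (XT.lf (nat_lit 0) (nat_lit 84035282) (nat_lit 684) (nat_lit 2979767566) (nat_lit 76) (nat_lit 3506297151) (nat_lit 644) (nat_lit 5) (nat_lit 653) (nat_lit 5) (nat_lit 645) (nat_lit 5) (nat_lit 396) (nat_lit 374) (nat_lit 370)) (XT.lf (nat_lit 0) (nat_lit 831824038) (nat_lit 684) (nat_lit 2260075863) (nat_lit 760) (nat_lit 3495827074) (nat_lit 635) (nat_lit 5) (nat_lit 644) (nat_lit 5) (nat_lit 645) (nat_lit 5) (nat_lit 397) (nat_lit 374) (nat_lit 369))))))) (XT.nd (nat_lit 858) (nat_lit 10412) (nat_lit 0) (XT.nd (nat_lit 390) (nat_lit 3420) (nat_lit 0) (XT.nd (nat_lit 156) (nat_lit 1824) (nat_lit 0) (XT.nd (nat_lit 78) (nat_lit 836) (nat_lit 0) (XT.lf (nat_lit 0) (nat_lit 4710874504) (nat_lit 684) (nat_lit 1398725599) (nat_lit 760) (nat_lit 497162390) (nat_lit 635) (nat_lit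 5) (nat_lit 644) (nat_lit 5) (nat_lit 645) (nat_lit 5) (nat_lit 398) (nat_lit 374) (nat_lit 368)) (XT.lf (nat_lit 0) (nat_lit 2001779149) (nat_lit 760) (nat_lit 469655853) (nat_lit 836) (nat_lit 4155587674) (nat_lit 624) (nat_lit 5) (nat_lit 634) (nat_lit 5) (nat_lit 635) (nat_lit 5) (nat_lit 399) (nat_lit 374) (nat_lit 367))) (XT.nd (nat_lit 78) (nat_lit 1824) (nat_lit 0) (XT.lf (nat_lit 0) (nat_lit 5440391857) (nat_lit 836) (nat_lit 701204037) (nat_lit 76) (nat_lit 507120261) (nat_lit 624) (nat_lit 5) (nat_lit 635) (nat_lit 5) (nat_lit 625) (nat_lit 5) (nat_lit 400) (nat_lit 374) (nat_lit 366)) (XT.nd (nat_lit 78) (nat_lit 912) (nat_lit 0) (XT.lf (nat_lit 0) (nat_lit 1731529308) (nat_lit 912) (nat_lit 3391150188) (nat_lit 76) (nat_lit 1548830952) (nat_lit 612) (nat_lit 5) (nat_lit 624) (nat_lit 5) (nat_lit 613) (nat_lit 5) (nat_lit 401) (nat_lit 374) (nat_lit 365)) (XT.lf (nat_lit 0) (nat_lit 606310080) (nat_lit 912)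 (nat_lit 4049958373) (nat_lit 988) (nat_lit 2039531090) (nat_lit 600) (nat_lit 5) (nat_lit 612) (nat_lit 5) (nat_lit 613) (nat_lit 5) (nat_lit 402) (nat_lit 374) (nat_lit 364))))) (XT.nd (nat_lit 234) (nat_lit 2356) (nat_lit 0) (XT.nd (nat_lit 78) (nat_lit 988) (nat_lit 0) (XT.lf (nat_lit 0) (nat_lit 863866666) (nat_lit 988) (nat_lit 2047140943) (nat_lit 76) (nat_lit 3810349977) (nat_lit 599) (nat_lit 5) (nat_lit 612) (nat_lit 5) (nat_lit 600) (nat_lit 5) (nat_lit 403) (nat_lit 374) (nat_lit 363)) (XT.nd (nat_lit 78) (nat_lit 0) (nat_lit 0) (XT.lf (nat_lit 0) (nat_lit 2039698591) (nat_lit 988) (nat_lit 1706969053) (nat_lit 1064) (nat_lit 3001558104) (nat_lit 586) (nat_lit 5) (nat_lit 599) (nat_lit 5) (nat_lit 600) (nat_lit 5) (nat_lit 404) (nat_lit 374) (nat_lit 362)) (XT.lf (nat_lit 0) (nat_lit 6186750626) (nat_lit 988) (nat_lit 450434612) (nat_lit 1064) (nat_lit 139485487) (nat_lit 586) (nat_lit 5) (nat_lit 599) (nat_lit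 5) (nat_lit 600) (nat_lit 5) (nat_lit 405) (nat_lit 374) (nat_lit 361)))) (XT.nd (nat_lit 78) (nat_lit 1216) (nat_lit 0) (XT.lf (nat_lit 0) (nat_lit 2709564051) (nat_lit 1140) (nat_lit 3220990001) (nat_lit 76) (nat_lit 875484795) (nat_lit 571) (nat_lit 5) (nat_lit 586) (nat_lit 5) (nat_lit 572) (nat_lit 5) (nat_lit 406) (nat_lit 374) (nat_lit 360)) (XT.nd (nat_lit 78) (nat_lit 76) (nat_lit 0) (XT.lf (nat_lit 0) (nat_lit 974221087) (nat_lit 1140) (nat_lit 4590920543) (nat_lit 1216) (nat_lit 1271844282) (nat_lit 556) (nat_lit 5) (nat_lit 571) (nat_lit 5) (nat_lit 572) (nat_lit 5) (nat_lit 407) (nat_lit 374) (nat_lit 359)) (XT.lf (nat_lit 0) (nat_lit 1548498791) (nat_lit 1216) (nat_lit 1632457894) (nat_lit 76) (nat_lit 3688216576) (nat_lit 555) (nat_lit 5) (nat_lit 571) (nat_lit 5) (nat_lit 556) (nat_lit 5) (nat_lit 408) (nat_lit 374) (nat_lit 358)))))) (XT.nd (nat_lit 390) (nat_lit 6384) (nat_lit 0) (XT.nd (nat_lit 156)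 (nat_lit 1444) (nat_lit 0) (XT.nd (nat_lit 78) (nat_lit 1368) (nat_lit 0) (XT.lf (nat_lit 0) (nat_lit 2659158313) (nat_lit 1216) (nat_lit 1706114150) (nat_lit 1292) (nat_lit 2537458787) (nat_lit 539) (nat_lit 5) (nat_lit 555) (nat_lit 5) (nat_lit 556) (nat_lit 5) (nat_lit 409) (nat_lit 374) (nat_lit 357)) (XT.lf (nat_lit 0) (nat_lit 70639360) (nat_lit 1292) (nat_lit 178519235) (nat_lit 1368) (nat_lit 6688763559) (nat_lit 521) (nat_lit 5) (nat_lit 538) (nat_lit 5) (nat_lit 539) (nat_lit 5) (nat_lit 410) (nat_lit 374) (nat_lit 356))) (XT.nd (nat_lit 78) (nat_lit 1444) (nat_lit 0) (XT.lf (nat_lit 0) (nat_lit 3036297849) (nat_lit 1368) (nat_lit 2521731509) (nat_lit 76) (nat_lit 1415910767) (nat_lit 521) (nat_lit 5) (nat_lit 539) (nat_lit 5) (nat_lit 522) (nat_lit 5) (nat_lit 411) (nat_lit 374) (nat_lit 355)) (XT.nd (nat_lit 78) (nat_lit 76) (nat_lit 0) (XT.lf (nat_lit 0) (nat_lit 1884069829) (nat_lit 1368) (nat_lit 3950791292)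 (nat_lit 1444) (nat_lit 1176737069) (nat_lit 503) (nat_lit 5) (nat_lit 521) (nat_lit 5) (nat_lit 522) (nat_lit 5) (nat_lit 412) (nat_lit 374) (nat_lit 354)) (XT.lf (nat_lit 0) (nat_lit 1577585021) (nat_lit 1444) (nat_lit 698909552) (nat_lit 76) (nat_lit 4774140032) (nat_lit 502) (nat_lit 5) (nat_lit 521) (nat_lit 5) (nat_lit 503) (nat_lit 5) (nat_lit 413) (nat_lit 374) (nat_lit 353))))) (XT.nd (nat_lit 234) (nat_lit 3344) (nat_lit 0) (XT.nd (nat_lit 78) (nat_lit 1596) (nat_lit 0) (XT.lf (nat_lit 0) (nat_lit 3810808841) (nat_lit 1444) (nat_lit 528974849) (nat_lit 1520) (nat_lit 2751172995) (nat_lit 483) (nat_lit 5) (nat_lit 502) (nat_lit 5) (nat_lit 503) (nat_lit 5) (nat_lit 414) (nat_lit 374) (nat_lit 352)) (XT.nd (nat_lit 78) (nat_lit 76) (nat_lit 0) (XT.lf (nat_lit 0) (nat_lit 1245862694) (nat_lit 1520) (nat_lit 5876923302) (nat_lit 1596) (nat_lit 10018835) (nat_lit 463) (nat_lit 5) (nat_lit 483) (nat_lit 5) (nat_lit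 484) (nat_lit 5) (nat_lit 415) (nat_lit 374) (nat_lit 351)) (XT.lf (nat_lit 0) (nat_lit 2720060223) (nat_lit 1596) (nat_lit 1340870236) (nat_lit 76) (nat_lit 3114814532) (nat_lit 462) (nat_lit 5) (nat_lit 483) (nat_lit 5) (nat_lit 463) (nat_lit 5) (nat_lit 416) (nat_lit 374) (nat_lit 350)))) (XT.nd (nat_lit 78) (nat_lit 1748) (nat_lit 0) (XT.lf (nat_lit 0) (nat_lit 3289254710) (nat_lit 1596) (nat_lit 2182766705) (nat_lit 1672) (nat_lit 1748201960) (nat_lit 441) (nat_lit 5) (nat_lit 462) (nat_lit 5) (nat_lit 463) (nat_lit 5) (nat_lit 417) (nat_lit 374) (nat_lit 349)) (XT.nd (nat_lit 78) (nat_lit 0) (nat_lit 0) (XT.lf (nat_lit 0) (nat_lit 717160173) (nat_lit 1672) (nat_lit 243106479) (nat_lit 1748) (nat_lit 6306018442) (nat_lit 418) (nat_lit 5) (nat_lit 440) (nat_lit 5) (nat_lit 441) (nat_lit 5) (nat_lit 418) (nat_lit 374) (nat_lit 348)) (XT.lf (nat_lit 0) (nat_lit 3684496714) (nat_lit 1748) (nat_lit 1875347211) (nat_lit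 76) (nat_lit 1753520363) (nat_lit 418) (nat_lit 5) (nat_lit 441) (nat_lit 5) (nat_lit 419) (nat_lit 5) (nat_lit 419) (nat_lit 374) (nat_lit 347))))))))
noncomputable def xc78 : XT := (XT.nd (nat_lit 1638) (nat_lit 7752) (nat_lit 0) (XT.nd (nat_lit 780) (nat_lit 5168) (nat_lit 0) (XT.nd (nat_lit 390) (nat_lit 3496) (nat_lit 0) (XT.nd (nat_lit 156) (nat_lit 988) (nat_lit 0) (XT.nd (nat_lit 78) (nat_lit 1140) (nat_lit 0) (XT.lf (nat_lit 0) (nat_lit 2877918502) (nat_lit 1748) (nat_lit 3553782355) (nat_lit 1824) (nat_lit 930341248) (nat_lit 395) (nat_lit 5) (nat_lit 418) (nat_lit 5) (nat_lit 419) (nat_lit 5) (nat_lit 420) (nat_lit 374) (nat_lit 346)) (XT.lf (nat_lit 0) (nat_lit 281504422) (nat_lit 1064) (nat_lit 1479771115) (nat_lit 1140) (nat_lit 5650946759) (nat_lit 380) (nat_lit 5) (nat_lit 394) (nat_lit 5) (nat_lit 395) (nat_lit 5) (nat_lit 421) (nat_lit 374) (nat_lit 345))) (XT.nd (nat_lit 78) (nat_lit 988) (nat_lit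 0) (XT.lf (nat_lit 0) (nat_lit 4477906554) (nat_lit 1140) (nat_lit 2321278893) (nat_lit 76) (nat_lit 664450149) (nat_lit 380) (nat_lit 5) (nat_lit 395) (nat_lit 5) (nat_lit 381) (nat_lit 5) (nat_lit 422) (nat_lit 374) (nat_lit 344)) (XT.nd (nat_lit 78) (nat_lit 76) (nat_lit 0) (XT.lf (nat_lit 0) (nat_lit 2557885293) (nat_lit 912) (nat_lit 4667597973) (nat_lit 988) (nat_lit 291086421) (nat_lit 368) (nat_lit 5) (nat_lit 380) (nat_lit 5) (nat_lit 381) (nat_lit 5) (nat_lit 423) (nat_lit 374) (nat_lit 343)) (XT.lf (nat_lit 0) (nat_lit 2391408185) (nat_lit 988) (nat_lit 70773247) (nat_lit 76) (nat_lit 5108761962) (nat_lit 367) (nat_lit 5) (nat_lit 380) (nat_lit 5) (nat_lit 368) (nat_lit 5) (nat_lit 424) (nat_lit 374) (nat_lit 342))))) (XT.nd (nat_lit 156) (nat_lit 1748) (nat_lit 0) (XT.nd (nat_lit 78) (nat_lit 912) (nat_lit 0) (XT.lf (nat_lit 0) (nat_lit 4928029718) (nat_lit 836) (nat_lit 179104271) (nat_lit 912) (nat_lit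 2519585881) (nat_lit 356) (nat_lit 5) (nat_lit 367) (nat_lit 5) (nat_lit 368) (nat_lit 5) (nat_lit 425) (nat_lit 374) (nat_lit 341)) (XT.lf (nat_lit 0) (nat_lit 172415939) (nat_lit 912) (nat_lit 5374849206) (nat_lit 76) (nat_lit 2136716202) (nat_lit 344) (nat_lit 5) (nat_lit 356) (nat_lit 5) (nat_lit 345) (nat_lit 5) (nat_lit 426) (nat_lit 374) (nat_lit 340))) (XT.nd (nat_lit 78) (nat_lit 1748) (nat_lit 0) (XT.lf (nat_lit 0) (nat_lit 2856349887) (nat_lit 912) (nat_lit 356866461) (nat_lit 76) (nat_lit 4529424038) (nat_lit 344) (nat_lit 5) (nat_lit 356) (nat_lit 5) (nat_lit 345) (nat_lit 5) (nat_lit 427) (nat_lit 374) (nat_lit 339)) (XT.nd (nat_lit 78) (nat_lit 912) (nat_lit 0) (XT.lf (nat_lit 0) (nat_lit 4774545068) (nat_lit 836) (nat_lit 803732769) (nat_lit 912) (nat_lit 2224530041) (nat_lit 333) (nat_lit 5) (nat_lit 344) (nat_lit 5) (nat_lit 345) (nat_lit 5) (nat_lit 428) (nat_lit 374) (nat_lit 338)) (XT.lf (nat_lit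 0) (nat_lit 464664664) (nat_lit 912) (nat_lit 5751497049) (nat_lit 76) (nat_lit 1648361422) (nat_lit 321) (nat_lit 5) (nat_lit 333) (nat_lit 5) (nat_lit 322) (nat_lit 5) (nat_lit 429) (nat_lit 374) (nat_lit 337)))))) (XT.nd (nat_lit 390) (nat_lit 2888) (nat_lit 0) (XT.nd (nat_lit 156) (nat_lit 1520) (nat_lit 0) (XT.nd (nat_lit 78) (nat_lit 760) (nat_lit 0) (XT.lf (nat_lit 0) (nat_lit 3157813106) (nat_lit 912) (nat_lit 599512123) (nat_lit 76) (nat_lit 4170274595) (nat_lit 321) (nat_lit 5) (nat_lit 333) (nat_lit 5) (nat_lit 322) (nat_lit 5) (nat_lit 430) (nat_lit 374) (nat_lit 336)) (XT.lf (nat_lit 0) (nat_lit 4667267484) (nat_lit 760) (nat_lit 1222908957) (nat_lit 836) (nat_lit 2102074500) (nat_lit 311) (nat_lit 5) (nat_lit 321) (nat_lit 5) (nat_lit 322) (nat_lit 5) (nat_lit 431) (nat_lit 374) (nat_lit 335))) (XT.nd (nat_lit 78) (nat_lit 684) (nat_lit 0) (XT.lf (nat_lit 0) (nat_lit 591905070) (nat_lit 836) (nat_lit 6106314226)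 (nat_lit 76) (nat_lit 1360293940) (nat_lit 300) (nat_lit 5) (nat_lit 311) (nat_lit 5) (nat_lit 301) (nat_lit 5) (nat_lit 432) (nat_lit 374) (nat_lit 334)) (XT.nd (nat_lit 78) (nat_lit 684) (nat_lit 0) (XT.lf (nat_lit 0) (nat_lit 3298022160) (nat_lit 836) (nat_lit 818111030) (nat_lit 76) (nat_lit 4009980383) (nat_lit 300) (nat_lit 5) (nat_lit 311) (nat_lit 5) (nat_lit 301) (nat_lit 5) (nat_lit 433) (nat_lit 374) (nat_lit 333)) (XT.lf (nat_lit 0) (nat_lit 4586712639) (nat_lit 684) (nat_lit 1458014724) (nat_lit 760) (nat_lit 2150627654) (nat_lit 291) (nat_lit 5) (nat_lit 300) (nat_lit 5) (nat_lit 301) (nat_lit 5) (nat_lit 434) (nat_lit 374) (nat_lit 332))))) (XT.nd (nat_lit 234) (nat_lit 1368) (nat_lit 0) (XT.nd (nat_lit 78) (nat_lit 684) (nat_lit 0) (XT.lf (nat_lit 0) (nat_lit 555236420) (nat_lit 836) (nat_lit 6459384461) (nat_lit 76) (nat_lit 1251653487) (nat_lit 280) (nat_lit 5) (nat_lit 291) (nat_lit 5) (nat_lit 281)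 (nat_lit 5) (nat_lit 435) (nat_lit 374) (nat_lit 331)) (XT.nd (nat_lit 78) (nat_lit 684) (nat_lit 0) (XT.lf (nat_lit 0) (nat_lit 3277877462) (nat_lit 836) (nat_lit 1032601668) (nat_lit 76) (nat_lit 4028036883) (nat_lit 280) (nat_lit 5) (nat_lit 291) (nat_lit 5) (nat_lit 281) (nat_lit 5) (nat_lit 436) (nat_lit 374) (nat_lit 330)) (XT.lf (nat_lit 0) (nat_lit 4512820730) (nat_lit 684) (nat_lit 1529683844) (nat_lit 760) (nat_lit 2369964267) (nat_lit 271) (nat_lit 5) (nat_lit 280) (nat_lit 5) (nat_lit 281) (nat_lit 5) (nat_lit 437) (nat_lit 374) (nat_lit 329)))) (XT.nd (nat_lit 78) (nat_lit 608) (nat_lit 0) (XT.lf (nat_lit 0) (nat_lit 354413024) (nat_lit 760) (nat_lit 6831488119) (nat_lit 76) (nat_lit 1302271273) (nat_lit 261) (nat_lit 5) (nat_lit 271) (nat_lit 5) (nat_lit 262) (nat_lit 5) (nat_lit 438) (nat_lit 374) (nat_lit 328)) (XT.nd (nat_lit 78) (nat_lit 608) (nat_lit 0) (XT.lf (nat_lit 0) (nat_lit 3096936760) (nat_lit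 760) (nat_lit 1263650611) (nat_lit 76) (nat_lit 4204597559) (nat_lit 261) (nat_lit 5) (nat_lit 271) (nat_lit 5) (nat_lit 262) (nat_lit 5) (nat_lit 439) (nat_lit 374) (nat_lit 327)) (XT.lf (nat_lit 0) (nat_lit 4424762209) (nat_lit 608) (nat_lit 1457974023) (nat_lit 684) (nat_lit 2761248676) (nat_lit 253) (nat_lit 5) (nat_lit 261) (nat_lit 5) (nat_lit 262) (nat_lit 5) (nat_lit 440) (nat_lit 374) (nat_lit 326))))))) (XT.nd (nat_lit 858) (nat_lit 3420) (nat_lit 0) (XT.nd (nat_lit 390) (nat_lit 2356) (nat_lit 0) (XT.nd (nat_lit 156) (nat_lit 1292) (nat_lit 0) (XT.nd (nat_lit 78) (nat_lit 76) (nat_lit 0) (XT.lf (nat_lit 0) (nat_lit 1480234461) (nat_lit 608) (nat_lit 7232036218) (nat_lit 684) (nat_lit 12345234) (nat_lit 245) (nat_lit 5) (nat_lit 253) (nat_lit 5) (nat_lit 254) (nat_lit 5) (nat_lit 441) (nat_lit 374) (nat_lit 325)) (XT.lf (nat_lit 0) (nat_lit 2753385306) (nat_lit 684) (nat_lit 1532853215) (nat_lit 76) (nat_lit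 4520304129) (nat_lit 244) (nat_lit 5) (nat_lit 253) (nat_lit 5) (nat_lit 245) (nat_lit 5) (nat_lit 442) (nat_lit 374) (nat_lit 324))) (XT.nd (nat_lit 78) (nat_lit 684) (nat_lit 0) (XT.lf (nat_lit 0) (nat_lit 4300732720) (nat_lit 608) (nat_lit 1262538510) (nat_lit 684) (nat_lit 3327069459) (nat_lit 236) (nat_lit 5) (nat_lit 244) (nat_lit 5) (nat_lit 245) (nat_lit 5) (nat_lit 443) (nat_lit 374) (nat_lit 323)) (XT.nd (nat_lit 78) (nat_lit 76) (nat_lit 0) (XT.lf (nat_lit 0) (nat_lit 1251784153) (nat_lit 608) (nat_lit 7169349725) (nat_lit 684) (nat_lit 554859466) (nat_lit 228) (nat_lit 5) (nat_lit 236) (nat_lit 5) (nat_lit 237) (nat_lit 5) (nat_lit 444) (nat_lit 374) (nat_lit 322)) (XT.lf (nat_lit 0) (nat_lit 2243994480) (nat_lit 684) (nat_lit 1862946446) (nat_lit 76) (nat_lit 4956116523) (nat_lit 227) (nat_lit 5) (nat_lit 236) (nat_lit 5) (nat_lit 228) (nat_lit 5) (nat_lit 445) (nat_lit 374) (nat_lit 321))))) (XT.nd (nat_lit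 234) (nat_lit 1140) (nat_lit 0) (XT.nd (nat_lit 78) (nat_lit 684) (nat_lit 0) (XT.lf (nat_lit 0) (nat_lit 4117735364) (nat_lit 532) (nat_lit 962798700) (nat_lit 608) (nat_lit 4071486071) (nat_lit 220) (nat_lit 5) (nat_lit 227) (nat_lit 5) (nat_lit 228) (nat_lit 5) (nat_lit 446) (nat_lit 374) (nat_lit 320)) (XT.nd (nat_lit 78) (nat_lit 76) (nat_lit 0) (XT.lf (nat_lit 0) (nat_lit 950070673) (nat_lit 608) (nat_lit 7019811269) (nat_lit 684) (nat_lit 1272971735) (nat_lit 212) (nat_lit 5) (nat_lit 220) (nat_lit 5) (nat_lit 221) (nat_lit 5) (nat_lit 447) (nat_lit 374) (nat_lit 319)) (XT.lf (nat_lit 0) (nat_lit 1564068327) (nat_lit 684) (nat_lit 2278035789) (nat_lit 76) (nat_lit 5493141106) (nat_lit 211) (nat_lit 5) (nat_lit 220) (nat_lit 5) (nat_lit 212) (nat_lit 5) (nat_lit 448) (nat_lit 374) (nat_lit 318)))) (XT.nd (nat_lit 78) (nat_lit 608) (nat_lit 0) (XT.lf (nat_lit 0) (nat_lit 3851348272) (nat_lit 532) (nat_lit 578119119)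 (nat_lit 608) (nat_lit 5000088046) (nat_lit 204) (nat_lit 5) (nat_lit 211) (nat_lit 5) (nat_lit 212) (nat_lit 5) (nat_lit 449) (nat_lit 374) (nat_lit 317)) (XT.nd (nat_lit 78) (nat_lit 76) (nat_lit 0) (XT.lf (nat_lit 0) (nat_lit 549920468) (nat_lit 532) (nat_lit 6803047097) (nat_lit 608) (nat_lit 2172780580) (nat_lit 197) (nat_lit 5) (nat_lit 204) (nat_lit 5) (nat_lit 205) (nat_lit 5) (nat_lit 450) (nat_lit 374) (nat_lit 316)) (XT.lf (nat_lit 0) (nat_lit 707377328) (nat_lit 608) (nat_lit 2803838365) (nat_lit 76) (nat_lit 6112455753) (nat_lit 196) (nat_lit 5) (nat_lit 204) (nat_lit 5) (nat_lit 197) (nat_lit 5) (nat_lit 451) (nat_lit 374) (nat_lit 315)))))) (XT.nd (nat_lit 390) (nat_lit 1900) (nat_lit 0) (XT.nd (nat_lit 156) (nat_lit 532) (nat_lit 0) (XT.nd (nat_lit 78) (nat_lit 532) (nat_lit 0) (XT.lf (nat_lit 0) (nat_lit 3475475320) (nat_lit 456) (nat_lit 127986277) (nat_lit 532) (nat_lit 6120067492) (nat_lit 190) (nat_lit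 5) (nat_lit 196) (nat_lit 5) (nat_lit 197) (nat_lit 5) (nat_lit 452) (nat_lit 374) (nat_lit 314)) (XT.lf (nat_lit 0) (nat_lit 24370784) (nat_lit 532) (nat_lit 6538899140) (nat_lit 608) (nat_lit 3262009135) (nat_lit 183) (nat_lit 5) (nat_lit 190) (nat_lit 5) (nat_lit 191) (nat_lit 5) (nat_lit 453) (nat_lit 374) (nat_lit 313))) (XT.nd (nat_lit 78) (nat_lit 532) (nat_lit 0) (XT.lf (nat_lit 0) (nat_lit 6458768119) (nat_lit 532) (nat_lit 3131782387) (nat_lit 608) (nat_lit 338359008) (nat_lit 183) (nat_lit 5) (nat_lit 190) (nat_lit 5) (nat_lit 191) (nat_lit 5) (nat_lit 454) (nat_lit 374) (nat_lit 312)) (XT.nd (nat_lit 78) (nat_lit 0) (nat_lit 0) (XT.lf (nat_lit 0) (nat_lit 2596658585) (nat_lit 532) (nat_lit 7074886686) (nat_lit 76) (nat_lit 362983224) (nat_lit 176) (nat_lit 5) (nat_lit 183) (nat_lit 5) (nat_lit 177) (nat_lit 5) (nat_lit 455) (nat_lit 374) (nat_lit 311)) (XT.lf (nat_lit 0) (nat_lit 5596261281) (nat_lit 532)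 (nat_lit 647008821) (nat_lit 76) (nat_lit 3898747086) (nat_lit 176) (nat_lit 5) (nat_lit 183) (nat_lit 5) (nat_lit 177) (nat_lit 5) (nat_lit 456) (nat_lit 374) (nat_lit 310))))) (XT.nd (nat_lit 234) (nat_lit 912) (nat_lit 0) (XT.nd (nat_lit 78) (nat_lit 532) (nat_lit 0) (XT.lf (nat_lit 0) (nat_lit 5941131123) (nat_lit 456) (nat_lit 2720190998) (nat_lit 532) (nat_lit 1590234379) (nat_lit 170) (nat_lit 5) (nat_lit 176) (nat_lit 5) (nat_lit 177) (nat_lit 5) (nat_lit 457) (nat_lit 374) (nat_lit 309)) (XT.nd (nat_lit 78) (nat_lit 0) (nat_lit 0) (XT.lf (nat_lit 0) (nat_lit 1397684313) (nat_lit 532) (nat_lit 8088276027) (nat_lit 76) (nat_lit 877311707) (nat_lit 163) (nat_lit 5) (nat_lit 170) (nat_lit 5) (nat_lit 164) (nat_lit 5) (nat_lit 458) (nat_lit 374) (nat_lit 308)) (XT.lf (nat_lit 0) (nat_lit 4438496587) (nat_lit 532) (nat_lit 1501454751) (nat_lit 76) (nat_lit 4536781351) (nat_lit 163) (nat_lit 5) (nat_lit 170) (nat_lit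 5) (nat_lit 164) (nat_lit 5) (nat_lit 459) (nat_lit 374) (nat_lit 307)))) (XT.nd (nat_lit 78) (nat_lit 456) (nat_lit 0) (XT.lf (nat_lit 0) (nat_lit 5240113544) (nat_lit 456) (nat_lit 2301952728) (nat_lit 532) (nat_lit 3050366840) (nat_lit 157) (nat_lit 5) (nat_lit 163) (nat_lit 5) (nat_lit 164) (nat_lit 5) (nat_lit 460) (nat_lit 374) (nat_lit 306)) (XT.nd (nat_lit 78) (nat_lit 76) (nat_lit 0) (XT.lf (nat_lit 0) (nat_lit 1389662737) (nat_lit 380) (nat_lit 9314520732) (nat_lit 456) (nat_lit 6343761) (nat_lit 152) (nat_lit 5) (nat_lit 157) (nat_lit 5) (nat_lit 158) (nat_lit 5) (nat_lit 461) (nat_lit 374) (nat_lit 305)) (XT.lf (nat_lit 0) (nat_lit 3077595557) (nat_lit 456) (nat_lit 2572925723) (nat_lit 76) (nat_lit 5179674964) (nat_lit 151) (nat_lit 5) (nat_lit 157) (nat_lit 5) (nat_lit 152) (nat_lit 5) (nat_lit 462) (nat_lit 374) (nat_lit 304))))))))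
noncomputable def xc79 : XT := (XT.nd (nat_lit 1638) (nat_lit 3192) (nat_lit 0) (XT.nd (nat_lit 780) (nat_lit 2432) (nat_lit 0) (XT.nd (nat_lit 390) (nat_lit 1216) (nat_lit 0) (XT.nd (nat_lit 156) (nat_lit 456) (nat_lit 0) (XT.nd (nat_lit 78) (nat_lit 380) (nat_lit 0) (XT.lf (nat_lit 0) (nat_lit 4321412643) (nat_lit 456) (nat_lit 1898670186) (nat_lit 532) (nat_lit 4732244566) (nat_lit 145) (nat_lit 5) (nat_lit 151) (nat_lit 5) (nat_lit 152) (nat_lit 5) (nat_lit 463) (nat_lit 374) (nat_lit 303)) (XT.lf (nat_lit 0) (nat_lit 257270607) (nat_lit 380) (nat_lit 9168842222) (nat_lit 456) (nat_lit 1650782985) (nat_lit 140) (nat_lit 5) (nat_lit 145) (nat_lit 5) (nat_lit 146) (nat_lit 5) (nat_lit 464) (nat_lit 374) (nat_lit 302))) (XT.nd (nat_lit 78) (nat_lit 380) (nat_lit 0) (XT.lf (nat_lit 0) (nat_lit 1499326608) (nat_lit 456) (nat_lit 3898066730) (nat_lit 76) (nat_lit 5805844848) (nat_lit 139) (nat_lit 5) (nat_lit 145) (nat_lit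 5) (nat_lit 140) (nat_lit 5) (nat_lit 465) (nat_lit 374) (nat_lit 301)) (XT.nd (nat_lit 78) (nat_lit 0) (nat_lit 0) (XT.lf (nat_lit 0) (nat_lit 3147618410) (nat_lit 380) (nat_lit 1533001603) (nat_lit 456) (nat_lit 6651471464) (nat_lit 134) (nat_lit 5) (nat_lit 139) (nat_lit 5) (nat_lit 140) (nat_lit 5) (nat_lit 466) (nat_lit 374) (nat_lit 300)) (XT.lf (nat_lit 0) (nat_lit 7937547339) (nat_lit 456) (nat_lit 1136625165) (nat_lit 76) (nat_lit 2389117028) (nat_lit 134) (nat_lit 5) (nat_lit 140) (nat_lit 5) (nat_lit 135) (nat_lit 5) (nat_lit 467) (nat_lit 374) (nat_lit 299))))) (XT.nd (nat_lit 156) (nat_lit 380) (nat_lit 0) (XT.nd (nat_lit 78) (nat_lit 456) (nat_lit 0) (XT.lf (nat_lit 0) (nat_lit 6077746834) (nat_lit 380) (nat_lit 5202104963) (nat_lit 456) (nat_lit 316862683) (nat_lit 129) (nat_lit 5) (nat_lit 134) (nat_lit 5) (nat_lit 135) (nat_lit 5) (nat_lit 468) (nat_lit 374) (nat_lit 298)) (XT.lf (nat_lit 0) (nat_lit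 1677820565) (nat_lit 380) (nat_lit 1228891890) (nat_lit 456) (nat_lit 8825933225) (nat_lit 123) (nat_lit 5) (nat_lit 128) (nat_lit 5) (nat_lit 129) (nat_lit 5) (nat_lit 469) (nat_lit 374) (nat_lit 297))) (XT.nd (nat_lit 78) (nat_lit 380) (nat_lit 0) (XT.lf (nat_lit 0) (nat_lit 6217045815) (nat_lit 456) (nat_lit 2842175994) (nat_lit 76) (nat_lit 2811508479) (nat_lit 123) (nat_lit 5) (nat_lit 129) (nat_lit 5) (nat_lit 124) (nat_lit 5) (nat_lit 470) (nat_lit 374) (nat_lit 296)) (XT.nd (nat_lit 78) (nat_lit 76) (nat_lit 0) (XT.lf (nat_lit 0) (nat_lit 4522470165) (nat_lit 304) (nat_lit 5080098485) (nat_lit 380) (nat_lit 2408835397) (nat_lit 119) (nat_lit 5) (nat_lit 123) (nat_lit 5) (nat_lit 124) (nat_lit 5) (nat_lit 471) (nat_lit 374) (nat_lit 295)) (XT.lf (nat_lit 0) (nat_lit 879860593) (nat_lit 380) (nat_lit 131079335) (nat_lit 76) (nat_lit 11144025902) (nat_lit 118) (nat_lit 5) (nat_lit 123) (nat_lit 5) (nat_lit 119)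 (nat_lit 5) (nat_lit 472) (nat_lit 374) (nat_lit 294)))))) (XT.nd (nat_lit 390) (nat_lit 1064) (nat_lit 0) (XT.nd (nat_lit 156) (nat_lit 684) (nat_lit 0) (XT.nd (nat_lit 78) (nat_lit 304) (nat_lit 0) (XT.lf (nat_lit 0) (nat_lit 4243070247) (nat_lit 456) (nat_lit 4908873896) (nat_lit 76) (nat_lit 3148323081) (nat_lit 113) (nat_lit 5) (nat_lit 119) (nat_lit 5) (nat_lit 114) (nat_lit 5) (nat_lit 473) (nat_lit 374) (nat_lit 293)) (XT.lf (nat_lit 0) (nat_lit 2602204875) (nat_lit 304) (nat_lit 5068114404) (nat_lit 380) (nat_lit 4778226441) (nat_lit 109) (nat_lit 5) (nat_lit 113) (nat_lit 5) (nat_lit 114) (nat_lit 5) (nat_lit 474) (nat_lit 374) (nat_lit 292))) (XT.nd (nat_lit 78) (nat_lit 684) (nat_lit 0) (XT.lf (nat_lit 0) (nat_lit 10287470336) (nat_lit 304) (nat_lit 884150341) (nat_lit 380) (nat_lit 1428065408) (nat_lit 109) (nat_lit 5) (nat_lit 113) (nat_lit 5) (nat_lit 114) (nat_lit 5) (nat_lit 475) (nat_lit 374) (nat_lit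 291)) (XT.nd (nat_lit 78) (nat_lit 304) (nat_lit 0) (XT.lf (nat_lit 0) (nat_lit 1993102810) (nat_lit 380) (nat_lit 7387388825) (nat_lit 76) (nat_lit 3372503702) (nat_lit 104) (nat_lit 5) (nat_lit 109) (nat_lit 5) (nat_lit 105) (nat_lit 5) (nat_lit 476) (nat_lit 374) (nat_lit 290)) (XT.lf (nat_lit 0) (nat_lit 265053000) (nat_lit 304) (nat_lit 5194814374) (nat_lit 380) (nat_lit 7449394789) (nat_lit 100) (nat_lit 5) (nat_lit 104) (nat_lit 5) (nat_lit 105) (nat_lit 5) (nat_lit 477) (nat_lit 374) (nat_lit 289))))) (XT.nd (nat_lit 234) (nat_lit 684) (nat_lit 0) (XT.nd (nat_lit 78) (nat_lit 380) (nat_lit 0) (XT.lf (nat_lit 0) (nat_lit 8128684550) (nat_lit 304) (nat_lit 890192844) (nat_lit 380) (nat_lit 4049324685) (nat_lit 100) (nat_lit 5) (nat_lit 104) (nat_lit 5) (nat_lit 105) (nat_lit 5) (nat_lit 478) (nat_lit 374) (nat_lit 288)) (XT.nd (nat_lit 78) (nat_lit 76) (nat_lit 0) (XT.lf (nat_lit 0) (nat_lit 2892876146) (nat_lit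 304) (nat_lit 9771463740) (nat_lit 380) (nat_lit 565681301) (nat_lit 96) (nat_lit 5) (nat_lit 100) (nat_lit 5) (nat_lit 101) (nat_lit 5) (nat_lit 479) (nat_lit 374) (nat_lit 287)) (XT.lf (nat_lit 0) (nat_lit 2961543610) (nat_lit 380) (nat_lit 2512736482) (nat_lit 76) (nat_lit 7920152404) (nat_lit 95) (nat_lit 5) (nat_lit 100) (nat_lit 5) (nat_lit 96) (nat_lit 5) (nat_lit 480) (nat_lit 374) (nat_lit 286)))) (XT.nd (nat_lit 78) (nat_lit 380) (nat_lit 0) (XT.lf (nat_lit 0) (nat_lit 5495623085) (nat_lit 304) (nat_lit 1066147336) (nat_lit 380) (nat_lit 7000091691) (nat_lit 91) (nat_lit 5) (nat_lit 95) (nat_lit 5) (nat_lit 96) (nat_lit 5) (nat_lit 481) (nat_lit 374) (nat_lit 285)) (XT.nd (nat_lit 78) (nat_lit 380) (nat_lit 0) (XT.lf (nat_lit 0) (nat_lit 10247730494) (nat_lit 380) (nat_lit 97488222) (nat_lit 76) (nat_lit 3387152425) (nat_lit 91) (nat_lit 5) (nat_lit 96) (nat_lit 5) (nat_lit 92) (nat_lit 5) (nat_lit 482) (nat_lit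 374) (nat_lit 284)) (XT.lf (nat_lit 0) (nat_lit 134584435) (nat_lit 380) (nat_lit 5817027075) (nat_lit 76) (nat_lit 7953975072) (nat_lit 86) (nat_lit 5) (nat_lit 91) (nat_lit 5) (nat_lit 87) (nat_lit 5) (nat_lit 483) (nat_lit 374) (nat_lit 283))))))) (XT.nd (nat_lit 858) (nat_lit 1520) (nat_lit 0) (XT.nd (nat_lit 390) (nat_lit 836) (nat_lit 0) (XT.nd (nat_lit 156) (nat_lit 608) (nat_lit 0) (XT.nd (nat_lit 78) (nat_lit 0) (nat_lit 0) (XT.lf (nat_lit 0) (nat_lit 2324520196) (nat_lit 228) (nat_lit 1445855635) (nat_lit 304) (nat_lit 10311618092) (nat_lit 83) (nat_lit 5) (nat_lit 86) (nat_lit 5) (nat_lit 87) (nat_lit 5) (nat_lit 484) (nat_lit 374) (nat_lit 282)) (XT.lf (nat_lit 0) (nat_lit 7513805727) (nat_lit 304) (nat_lit 3614525927) (nat_lit 76) (nat_lit 3132904287) (nat_lit 83) (nat_lit 5) (nat_lit 87) (nat_lit 5) (nat_lit 84) (nat_lit 5) (nat_lit 485) (nat_lit 374) (nat_lit 281))) (XT.nd (nat_lit 78) (nat_lit 304) (nat_lit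 0) (XT.lf (nat_lit 0) (nat_lit 4703772459) (nat_lit 304) (nat_lit 6644110560) (nat_lit 380) (nat_lit 3095869090) (nat_lit 79) (nat_lit 5) (nat_lit 83) (nat_lit 5) (nat_lit 84) (nat_lit 5) (nat_lit 486) (nat_lit 374) (nat_lit 280)) (XT.nd (nat_lit 78) (nat_lit 228) (nat_lit 0) (XT.lf (nat_lit 0) (nat_lit 620614209) (nat_lit 380) (nat_lit 1435934208) (nat_lit 76) (nat_lit 12573290503) (nat_lit 78) (nat_lit 5) (nat_lit 83) (nat_lit 5) (nat_lit 79) (nat_lit 5) (nat_lit 487) (nat_lit 374) (nat_lit 279)) (XT.lf (nat_lit 0) (nat_lit 4409466056) (nat_lit 304) (nat_lit 7768702240) (nat_lit 76) (nat_lit 2640284650) (nat_lit 75) (nat_lit 5) (nat_lit 79) (nat_lit 5) (nat_lit 76) (nat_lit 5) (nat_lit 488) (nat_lit 374) (nat_lit 278))))) (XT.nd (nat_lit 234) (nat_lit 228) (nat_lit 0) (XT.nd (nat_lit 78) (nat_lit 304) (nat_lit 0) (XT.lf (nat_lit 0) (nat_lit 670036729) (nat_lit 304) (nat_lit 7608042487) (nat_lit 380) (nat_lit 6732684865)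 (nat_lit 71) (nat_lit 5) (nat_lit 75) (nat_lit 5) (nat_lit 76) (nat_lit 5) (nat_lit 489) (nat_lit 374) (nat_lit 277)) (XT.nd (nat_lit 78) (nat_lit 304) (nat_lit 0) (XT.lf (nat_lit 0) (nat_lit 9344079258) (nat_lit 304) (nat_lit 2908644848) (nat_lit 380) (nat_lit 2953628571) (nat_lit 71) (nat_lit 5) (nat_lit 75) (nat_lit 5) (nat_lit 76) (nat_lit 5) (nat_lit 490) (nat_lit 374) (nat_lit 276)) (XT.lf (nat_lit 0) (nat_lit 896356291) (nat_lit 304) (nat_lit 12640135854) (nat_lit 76) (nat_lit 1869104866) (nat_lit 67) (nat_lit 5) (nat_lit 71) (nat_lit 5) (nat_lit 68) (nat_lit 5) (nat_lit 491) (nat_lit 374) (nat_lit 275)))) (XT.nd (nat_lit 78) (nat_lit 228) (nat_lit 0) (XT.lf (nat_lit 0) (nat_lit 4819630625) (nat_lit 304) (nat_lit 4040350821) (nat_lit 76) (nat_lit 6747741711) (nat_lit 67) (nat_lit 5) (nat_lit 71) (nat_lit 5) (nat_lit 68) (nat_lit 5) (nat_lit 492) (nat_lit 374) (nat_lit 274)) (XT.nd (nat_lit 78) (nat_lit 0) (nat_lit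 0) (XT.lf (nat_lit 0) (nat_lit 4756118110) (nat_lit 228) (nat_lit 4073524246) (nat_lit 304) (nat_lit 6984088120) (nat_lit 64) (nat_lit 5) (nat_lit 67) (nat_lit 5) (nat_lit 68) (nat_lit 5) (nat_lit 493) (nat_lit 374) (nat_lit 273)) (XT.lf (nat_lit 0) (nat_lit 12929891760) (nat_lit 304) (nat_lit 2283256917) (nat_lit 76) (nat_lit 810512523) (nat_lit 64) (nat_lit 5) (nat_lit 68) (nat_lit 5) (nat_lit 65) (nat_lit 5) (nat_lit 494) (nat_lit 374) (nat_lit 272)))))) (XT.nd (nat_lit 390) (nat_lit 684) (nat_lit 0) (XT.nd (nat_lit 156) (nat_lit 532) (nat_lit 0) (XT.nd (nat_lit 78) (nat_lit 0) (nat_lit 0) (XT.lf (nat_lit 0) (nat_lit 911555356) (nat_lit 304) (nat_lit 9552526056) (nat_lit 76) (nat_lit 5772626099) (nat_lit 60) (nat_lit 5) (nat_lit 64) (nat_lit 5) (nat_lit 61) (nat_lit 5) (nat_lit 495) (nat_lit 374) (nat_lit 271)) (XT.lf (nat_lit 0) (nat_lit 4949004026) (nat_lit 304) (nat_lit 649486850) (nat_lit 76) (nat_lit 10855249796)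 (nat_lit 60) (nat_lit 5) (nat_lit 64) (nat_lit 5) (nat_lit 61) (nat_lit 5) (nat_lit 496) (nat_lit 374) (nat_lit 270))) (XT.nd (nat_lit 78) (nat_lit 304) (nat_lit 0) (XT.lf (nat_lit 0) (nat_lit 8506801694) (nat_lit 228) (nat_lit 594044423) (nat_lit 304) (nat_lit 7573599192) (nat_lit 57) (nat_lit 5) (nat_lit 60) (nat_lit 5) (nat_lit 61) (nat_lit 5) (nat_lit 497) (nat_lit 374) (nat_lit 269)) (XT.nd (nat_lit 78) (nat_lit 76) (nat_lit 0) (XT.lf (nat_lit 0) (nat_lit 901577255) (nat_lit 228) (nat_lit 12452179365) (nat_lit 304) (nat_lit 3545450419) (nat_lit 54) (nat_lit 5) (nat_lit 57) (nat_lit 5) (nat_lit 58) (nat_lit 5) (nat_lit 498) (nat_lit 374) (nat_lit 268)) (XT.lf (nat_lit 0) (nat_lit 593527419) (nat_lit 304) (nat_lit 6908949671) (nat_lit 76) (nat_lit 9625164195) (nat_lit 53) (nat_lit 5) (nat_lit 57) (nat_lit 5) (nat_lit 54) (nat_lit 5) (nat_lit 499) (nat_lit 374) (nat_lit 267))))) (XT.nd (nat_lit 234) (nat_lit 304) (nat_lit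 0) (XT.nd (nat_lit 78) (nat_lit 152) (nat_lit 0) (XT.lf (nat_lit 0) (nat_lit 2332810803) (nat_lit 228) (nat_lit 2429158741) (nat_lit 304) (nat_lit 12598326218) (nat_lit 50) (nat_lit 5) (nat_lit 53) (nat_lit 5) (nat_lit 54) (nat_lit 5) (nat_lit 500) (nat_lit 374) (nat_lit 266)) (XT.nd (nat_lit 78) (nat_lit 152) (nat_lit 0) (XT.lf (nat_lit 0) (nat_lit 9057330286) (nat_lit 304) (nat_lit 5797648289) (nat_lit 76) (nat_lit 2741757112) (nat_lit 50) (nat_lit 5) (nat_lit 54) (nat_lit 5) (nat_lit 51) (nat_lit 5) (nat_lit 501) (nat_lit 374) (nat_lit 265)) (XT.lf (nat_lit 0) (nat_lit 3612887651) (nat_lit 152) (nat_lit 9844719334) (nat_lit 228) (nat_lit 4379920537) (nat_lit 48) (nat_lit 5) (nat_lit 50) (nat_lit 5) (nat_lit 51) (nat_lit 5) (nat_lit 502) (nat_lit 374) (nat_lit 264)))) (XT.nd (nat_lit 78) (nat_lit 304) (nat_lit 0) (XT.lf (nat_lit 0) (nat_lit 13255260509) (nat_lit 152) (nat_lit 4709173980) (nat_lit 228) (nat_lit 118333026)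 (nat_lit 48) (nat_lit 5) (nat_lit 50) (nat_lit 5) (nat_lit 51) (nat_lit 5) (nat_lit 503) (nat_lit 374) (nat_lit 263)) (XT.nd (nat_lit 78) (nat_lit 0) (nat_lit 0) (XT.lf (nat_lit 0) (nat_lit 4187552395) (nat_lit 304) (nat_lit 13577909215) (nat_lit 76) (nat_lit 566614243) (nat_lit 44) (nat_lit 5) (nat_lit 48) (nat_lit 5) (nat_lit 45) (nat_lit 5) (nat_lit 504) (nat_lit 374) (nat_lit 262)) (XT.lf (nat_lit 0) (nat_lit 8621750417) (nat_lit 304) (nat_lit 4059623220) (nat_lit 76) (nat_lit 5904108527) (nat_lit 44) (nat_lit 5) (nat_lit 48) (nat_lit 5) (nat_lit 45) (nat_lit 5) (nat_lit 505) (nat_lit 374) (nat_lit 261))))))))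
noncomputable def xc80 : XT := (XT.nd (nat_lit 1638) (nat_lit 17252) (nat_lit 0) (XT.nd (nat_lit 780) (nat_lit 6536) (nat_lit 0) (XT.nd (nat_lit 390) (nat_lit 2204) (nat_lit 0) (XT.nd (nat_lit 156) (nat_lit 1064) (nat_lit 0) (XT.nd (nat_lit 78) (nat_lit 76) (nat_lit 0) (XT.lf (nat_lit 0) (nat_lit 480392091) (nat_lit 380) (nat_lit 1382553882) (nat_lit 380) (nat_lit 1382553882) (nat_lit 668) (nat_lit 4) (nat_lit 673) (nat_lit 5) (nat_lit 673) (nat_lit 4) (nat_lit 390) (nat_lit 375) (nat_lit 375)) (XT.lf (nat_lit 0) (nat_lit 343551511) (nat_lit 456) (nat_lit 1945339473) (nat_lit 76) (nat_lit 4212599161) (nat_lit 667) (nat_lit 5) (nat_lit 673) (nat_lit 5) (nat_lit 668) (nat_lit 4) (nat_lit 391) (nat_lit 375) (nat_lit 374))) (XT.nd (nat_lit 78) (nat_lit 608) (nat_lit 0) (XT.lf (nat_lit 0) (nat_lit 1667104797) (nat_lit 456) (nat_lit 1745756888) (nat_lit 532) (nat_lit 3100310042) (nat_lit 661) (nat_lit 5) (nat_lit 667) (nat_lit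 5) (nat_lit 668) (nat_lit 4) (nat_lit 392) (nat_lit 375) (nat_lit 373)) (XT.nd (nat_lit 78) (nat_lit 608) (nat_lit 0) (XT.lf (nat_lit 0) (nat_lit 5330799525) (nat_lit 456) (nat_lit 1151626761) (nat_lit 532) (nat_lit 43939112) (nat_lit 661) (nat_lit 5) (nat_lit 667) (nat_lit 5) (nat_lit 668) (nat_lit 4) (nat_lit 393) (nat_lit 375) (nat_lit 372)) (XT.lf (nat_lit 0) (nat_lit 2493222109) (nat_lit 532) (nat_lit 482947422) (nat_lit 608) (nat_lit 3564449541) (nat_lit 653) (nat_lit 5) (nat_lit 660) (nat_lit 5) (nat_lit 661) (nat_lit 5) (nat_lit 394) (nat_lit 375) (nat_lit 371))))) (XT.nd (nat_lit 156) (nat_lit 1520) (nat_lit 0) (XT.nd (nat_lit 78) (nat_lit 684) (nat_lit 0) (XT.lf (nat_lit 0) (nat_lit 5993486866) (nat_lit 608) (nat_lit 333453969) (nat_lit 76) (nat_lit 229515880) (nat_lit 653) (nat_lit 5) (nat_lit 661) (nat_lit 5) (nat_lit 654) (nat_lit 4) (nat_lit 395) (nat_lit 375) (nat_lit 370)) (XT.lf (nat_lit 0) (nat_lit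 2420449949) (nat_lit 684) (nat_lit 3140537726) (nat_lit 76) (nat_lit 1012255964) (nat_lit 644) (nat_lit 5) (nat_lit 653) (nat_lit 5) (nat_lit 645) (nat_lit 5) (nat_lit 396) (nat_lit 375) (nat_lit 369))) (XT.nd (nat_lit 78) (nat_lit 836) (nat_lit 0) (XT.lf (nat_lit 0) (nat_lit 644578463) (nat_lit 684) (nat_lit 4747867754) (nat_lit 760) (nat_lit 1199166305) (nat_lit 635) (nat_lit 5) (nat_lit 644) (nat_lit 5) (nat_lit 645) (nat_lit 5) (nat_lit 397) (nat_lit 375) (nat_lit 368)) (XT.nd (nat_lit 78) (nat_lit 760) (nat_lit 0) (XT.lf (nat_lit 0) (nat_lit 1741519787) (nat_lit 760) (nat_lit 2123044729) (nat_lit 76) (nat_lit 2746560996) (nat_lit 634) (nat_lit 5) (nat_lit 644) (nat_lit 5) (nat_lit 635) (nat_lit 5) (nat_lit 398) (nat_lit 375) (nat_lit 367)) (XT.lf (nat_lit 0) (nat_lit 1744150877) (nat_lit 760) (nat_lit 2924069465) (nat_lit 836) (nat_lit 1963831448) (nat_lit 624) (nat_lit 5) (nat_lit 634) (nat_lit 5) (nat_lit 635)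 (nat_lit 5) (nat_lit 399) (nat_lit 375) (nat_lit 366)))))) (XT.nd (nat_lit 390) (nat_lit 3648) (nat_lit 0) (XT.nd (nat_lit 156) (nat_lit 1976) (nat_lit 0) (XT.nd (nat_lit 78) (nat_lit 836) (nat_lit 0) (XT.lf (nat_lit 0) (nat_lit 933736569) (nat_lit 836) (nat_lit 991062495) (nat_lit 76) (nat_lit 4729576678) (nat_lit 623) (nat_lit 5) (nat_lit 634) (nat_lit 5) (nat_lit 624) (nat_lit 5) (nat_lit 400) (nat_lit 375) (nat_lit 365)) (XT.lf (nat_lit 0) (nat_lit 2961675313) (nat_lit 836) (nat_lit 854316224) (nat_lit 912) (nat_lit 2861878408) (nat_lit 612) (nat_lit 5) (nat_lit 623) (nat_lit 5) (nat_lit 624) (nat_lit 5) (nat_lit 401) (nat_lit 375) (nat_lit 364))) (XT.nd (nat_lit 78) (nat_lit 1064) (nat_lit 0) (XT.lf (nat_lit 0) (nat_lit 257975456) (nat_lit 912) (nat_lit 6442710177) (nat_lit 988) (nat_lit 2295668) (nat_lit 600) (nat_lit 5) (nat_lit 612) (nat_lit 5) (nat_lit 613) (nat_lit 5) (nat_lit 402) (nat_lit 375) (nat_lit 363))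 (XT.nd (nat_lit 78) (nat_lit 988) (nat_lit 0) (XT.lf (nat_lit 0) (nat_lit 2842391292) (nat_lit 988) (nat_lit 2440438934) (nat_lit 76) (nat_lit 1446104951) (nat_lit 599) (nat_lit 5) (nat_lit 612) (nat_lit 5) (nat_lit 600) (nat_lit 5) (nat_lit 403) (nat_lit 375) (nat_lit 362)) (XT.lf (nat_lit 0) (nat_lit 1616780894) (nat_lit 988) (nat_lit 4074300722) (nat_lit 1064) (nat_lit 1065424066) (nat_lit 586) (nat_lit 5) (nat_lit 599) (nat_lit 5) (nat_lit 600) (nat_lit 5) (nat_lit 404) (nat_lit 375) (nat_lit 361))))) (XT.nd (nat_lit 234) (nat_lit 1292) (nat_lit 0) (XT.nd (nat_lit 78) (nat_lit 2280) (nat_lit 0) (XT.lf (nat_lit 0) (nat_lit 1741955970) (nat_lit 1064) (nat_lit 1057130492) (nat_lit 76) (nat_lit 3986272829) (nat_lit 585) (nat_lit 5) (nat_lit 599) (nat_lit 5) (nat_lit 586) (nat_lit 5) (nat_lit 405) (nat_lit 375) (nat_lit 360)) (XT.nd (nat_lit 78) (nat_lit 1216) (nat_lit 0) (XT.lf (nat_lit 0) (nat_lit 3092399223) (nat_lit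 1064) (nat_lit 1457261552) (nat_lit 1140) (nat_lit 2265857801) (nat_lit 571) (nat_lit 5) (nat_lit 585) (nat_lit 5) (nat_lit 586) (nat_lit 5) (nat_lit 406) (nat_lit 375) (nat_lit 359)) (XT.lf (nat_lit 0) (nat_lit 446485075) (nat_lit 1140) (nat_lit 62164217) (nat_lit 1216) (nat_lit 6338617924) (nat_lit 555) (nat_lit 5) (nat_lit 570) (nat_lit 5) (nat_lit 571) (nat_lit 5) (nat_lit 407) (nat_lit 375) (nat_lit 358)))) (XT.nd (nat_lit 78) (nat_lit 1292) (nat_lit 0) (XT.lf (nat_lit 0) (nat_lit 3282092840) (nat_lit 1216) (nat_lit 2202957667) (nat_lit 76) (nat_lit 1394861160) (nat_lit 555) (nat_lit 5) (nat_lit 571) (nat_lit 5) (nat_lit 556) (nat_lit 5) (nat_lit 408) (nat_lit 375) (nat_lit 357)) (XT.nd (nat_lit 78) (nat_lit 76) (nat_lit 0) (XT.lf (nat_lit 0) (nat_lit 2056610515) (nat_lit 1216) (nat_lit 4009113026) (nat_lit 1292) (nat_lit 848426500) (nat_lit 539) (nat_lit 5) (nat_lit 555) (nat_lit 5) (nat_lit 556) (nat_lit 5) (nat_lit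 409) (nat_lit 375) (nat_lit 356)) (XT.lf (nat_lit 0) (nat_lit 1886559094) (nat_lit 1292) (nat_lit 579609165) (nat_lit 76) (nat_lit 4483559800) (nat_lit 538) (nat_lit 5) (nat_lit 555) (nat_lit 5) (nat_lit 539) (nat_lit 5) (nat_lit 410) (nat_lit 375) (nat_lit 355))))))) (XT.nd (nat_lit 780) (nat_lit 6308) (nat_lit 0) (XT.nd (nat_lit 390) (nat_lit 5168) (nat_lit 0) (XT.nd (nat_lit 156) (nat_lit 3040) (nat_lit 0) (XT.nd (nat_lit 78) (nat_lit 1444) (nat_lit 0) (XT.lf (nat_lit 0) (nat_lit 3779530182) (nat_lit 1292) (nat_lit 852430290) (nat_lit 1368) (nat_lit 2354636830) (nat_lit 521) (nat_lit 5) (nat_lit 538) (nat_lit 5) (nat_lit 539) (nat_lit 5) (nat_lit 411) (nat_lit 375) (nat_lit 354)) (XT.lf (nat_lit 0) (nat_lit 362483446) (nat_lit 1444) (nat_lit 5856867909) (nat_lit 76) (nat_lit 805636260) (nat_lit 502) (nat_lit 5) (nat_lit 521) (nat_lit 5) (nat_lit 503) (nat_lit 5) (nat_lit 412) (nat_lit 375) (nat_lit 353))) (XT.nd (nat_lit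 78) (nat_lit 3040) (nat_lit 0) (XT.lf (nat_lit 0) (nat_lit 3073545497) (nat_lit 1444) (nat_lit 1460473057) (nat_lit 76) (nat_lit 2530424774) (nat_lit 502) (nat_lit 5) (nat_lit 521) (nat_lit 5) (nat_lit 503) (nat_lit 5) (nat_lit 413) (nat_lit 375) (nat_lit 352)) (XT.nd (nat_lit 78) (nat_lit 1596) (nat_lit 0) (XT.lf (nat_lit 0) (nat_lit 3014702494) (nat_lit 1444) (nat_lit 2788591526) (nat_lit 1520) (nat_lit 1302135647) (nat_lit 483) (nat_lit 5) (nat_lit 502) (nat_lit 5) (nat_lit 503) (nat_lit 5) (nat_lit 414) (nat_lit 375) (nat_lit 351)) (XT.lf (nat_lit 0) (nat_lit 398830482) (nat_lit 1520) (nat_lit 980403710) (nat_lit 1596) (nat_lit 5768689650) (nat_lit 462) (nat_lit 5) (nat_lit 482) (nat_lit 5) (nat_lit 483) (nat_lit 5) (nat_lit 415) (nat_lit 375) (nat_lit 350))))) (XT.nd (nat_lit 156) (nat_lit 3572) (nat_lit 0) (XT.nd (nat_lit 78) (nat_lit 1596) (nat_lit 0) (XT.lf (nat_lit 0) (nat_lit 4076112736) (nat_lit 1596) (nat_lit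 2221444448) (nat_lit 76) (nat_lit 893981275) (nat_lit 462) (nat_lit 5) (nat_lit 483) (nat_lit 5) (nat_lit 463) (nat_lit 5) (nat_lit 416) (nat_lit 375) (nat_lit 349)) (XT.lf (nat_lit 0) (nat_lit 2372417414) (nat_lit 1596) (nat_lit 4423523715) (nat_lit 1672) (nat_lit 440732465) (nat_lit 441) (nat_lit 5) (nat_lit 462) (nat_lit 5) (nat_lit 463) (nat_lit 5) (nat_lit 417) (nat_lit 375) (nat_lit 348))) (XT.nd (nat_lit 78) (nat_lit 3496) (nat_lit 0) (XT.lf (nat_lit 0) (nat_lit 2219924434) (nat_lit 1672) (nat_lit 258460295) (nat_lit 76) (nat_lit 4804807631) (nat_lit 440) (nat_lit 5) (nat_lit 462) (nat_lit 5) (nat_lit 441) (nat_lit 5) (nat_lit 418) (nat_lit 375) (nat_lit 347)) (XT.nd (nat_lit 78) (nat_lit 1824) (nat_lit 0) (XT.lf (nat_lit 0) (nat_lit 4446451320) (nat_lit 1672) (nat_lit 458811053) (nat_lit 1748) (nat_lit 2425800306) (nat_lit 418) (nat_lit 5) (nat_lit 440) (nat_lit 5) (nat_lit 441) (nat_lit 5) (nat_lit 419) (nat_lit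 375) (nat_lit 346)) (XT.lf (nat_lit 0) (nat_lit 234002341) (nat_lit 1824) (nat_lit 5548380429) (nat_lit 76) (nat_lit 1598038014) (nat_lit 394) (nat_lit 5) (nat_lit 418) (nat_lit 5) (nat_lit 395) (nat_lit 5) (nat_lit 420) (nat_lit 375) (nat_lit 345)))))) (XT.nd (nat_lit 390) (nat_lit 3420) (nat_lit 0) (XT.nd (nat_lit 156) (nat_lit 1824) (nat_lit 0) (XT.nd (nat_lit 78) (nat_lit 1064) (nat_lit 0) (XT.lf (nat_lit 0) (nat_lit 2886605453) (nat_lit 1824) (nat_lit 816995620) (nat_lit 76) (nat_lit 3727427850) (nat_lit 394) (nat_lit 5) (nat_lit 418) (nat_lit 5) (nat_lit 395) (nat_lit 5) (nat_lit 421) (nat_lit 375) (nat_lit 344)) (XT.lf (nat_lit 0) (nat_lit 4013108442) (nat_lit 1064) (nat_lit 1555729102) (nat_lit 1140) (nat_lit 1914304928) (nat_lit 380) (nat_lit 5) (nat_lit 394) (nat_lit 5) (nat_lit 395) (nat_lit 5) (nat_lit 422) (nat_lit 375) (nat_lit 343))) (XT.nd (nat_lit 78) (nat_lit 836) (nat_lit 0) (XT.lf (nat_lit 0) (nat_lit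 727894383) (nat_lit 988) (nat_lit 6162310242) (nat_lit 76) (nat_lit 646626582) (nat_lit 367) (nat_lit 5) (nat_lit 380) (nat_lit 5) (nat_lit 368) (nat_lit 5) (nat_lit 423) (nat_lit 375) (nat_lit 342)) (XT.nd (nat_lit 78) (nat_lit 836) (nat_lit 0) (XT.lf (nat_lit 0) (nat_lit 3382551176) (nat_lit 988) (nat_lit 1300828959) (nat_lit 76) (nat_lit 2908278946) (nat_lit 367) (nat_lit 5) (nat_lit 380) (nat_lit 5) (nat_lit 368) (nat_lit 5) (nat_lit 424) (nat_lit 375) (nat_lit 341)) (XT.lf (nat_lit 0) (nat_lit 3657248721) (nat_lit 836) (nat_lit 2409228326) (nat_lit 912) (nat_lit 1581605845) (nat_lit 356) (nat_lit 5) (nat_lit 367) (nat_lit 5) (nat_lit 368) (nat_lit 5) (nat_lit 425) (nat_lit 375) (nat_lit 340))))) (XT.nd (nat_lit 234) (nat_lit 1672) (nat_lit 0) (XT.nd (nat_lit 78) (nat_lit 836) (nat_lit 0) (XT.lf (nat_lit 0) (nat_lit 983439424) (nat_lit 836) (nat_lit 68489559) (nat_lit 912) (nat_lit 6654227785) (nat_lit 344) (nat_lit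 5) (nat_lit 355) (nat_lit 5) (nat_lit 356) (nat_lit 5) (nat_lit 426) (nat_lit 375) (nat_lit 339)) (XT.nd (nat_lit 78) (nat_lit 836) (nat_lit 0) (XT.lf (nat_lit 0) (nat_lit 3712307266) (nat_lit 912) (nat_lit 1728819568) (nat_lit 76) (nat_lit 2324170768) (nat_lit 344) (nat_lit 5) (nat_lit 356) (nat_lit 5) (nat_lit 345) (nat_lit 5) (nat_lit 427) (nat_lit 375) (nat_lit 338)) (XT.lf (nat_lit 0) (nat_lit 3359991158) (nat_lit 836) (nat_lit 3042402006) (nat_lit 912) (nat_lit 1423719242) (nat_lit 333) (nat_lit 5) (nat_lit 344) (nat_lit 5) (nat_lit 345) (nat_lit 5) (nat_lit 428) (nat_lit 375) (nat_lit 337)))) (XT.nd (nat_lit 78) (nat_lit 760) (nat_lit 0) (XT.lf (nat_lit 0) (nat_lit 637330648) (nat_lit 836) (nat_lit 574617603) (nat_lit 912) (nat_lit 6676645981) (nat_lit 321) (nat_lit 5) (nat_lit 332) (nat_lit 5) (nat_lit 333) (nat_lit 5) (nat_lit 429) (nat_lit 375) (nat_lit 336)) (XT.nd (nat_lit 78) (nat_lit 760) (nat_lit 0) (XT.lf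 (nat_lit 0) (nat_lit 3879112889) (nat_lit 912) (nat_lit 2120031558) (nat_lit 76) (nat_lit 1953056018) (nat_lit 321) (nat_lit 5) (nat_lit 333) (nat_lit 5) (nat_lit 322) (nat_lit 5) (nat_lit 430) (nat_lit 375) (nat_lit 335)) (XT.lf (nat_lit 0) (nat_lit 3102218525) (nat_lit 760) (nat_lit 3477279690) (nat_lit 836) (nat_lit 1438002601) (nat_lit 311) (nat_lit 5) (nat_lit 321) (nat_lit 5) (nat_lit 322) (nat_lit 5) (nat_lit 431) (nat_lit 375) (nat_lit 334))))))))
noncomputable def xc81 : XT := (XT.nd (nat_lit 1638) (nat_lit 5852) (nat_lit 0) (XT.nd (nat_lit 780) (nat_lit 4712) (nat_lit 0) (XT.nd (nat_lit 390) (nat_lit 2128) (nat_lit 0) (XT.nd (nat_lit 156) (nat_lit 1520) (nat_lit 0) (XT.nd (nat_lit 78) (nat_lit 0) (nat_lit 0) (XT.lf (nat_lit 0) (nat_lit 321061154) (nat_lit 760) (nat_lit 884911644) (nat_lit 836) (nat_lit 6878539276) (nat_lit 300) (nat_lit 5) (nat_lit 310) (nat_lit 5) (nat_lit 311) (nat_lit 5) (nat_lit 432) (nat_lit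 375) (nat_lit 333)) (XT.lf (nat_lit 0) (nat_lit 3884901777) (nat_lit 836) (nat_lit 2493907811) (nat_lit 76) (nat_lit 1773855701) (nat_lit 300) (nat_lit 5) (nat_lit 311) (nat_lit 5) (nat_lit 301) (nat_lit 5) (nat_lit 433) (nat_lit 375) (nat_lit 332))) (XT.nd (nat_lit 78) (nat_lit 836) (nat_lit 0) (XT.lf (nat_lit 0) (nat_lit 2864400443) (nat_lit 684) (nat_lit 3735001910) (nat_lit 760) (nat_lit 1623157411) (nat_lit 291) (nat_lit 5) (nat_lit 300) (nat_lit 5) (nat_lit 301) (nat_lit 5) (nat_lit 434) (nat_lit 375) (nat_lit 331)) (XT.nd (nat_lit 78) (nat_lit 0) (nat_lit 0) (XT.lf (nat_lit 0) (nat_lit 14676121) (nat_lit 760) (nat_lit 1020276817) (nat_lit 836) (nat_lit 7259282991) (nat_lit 280) (nat_lit 5) (nat_lit 290) (nat_lit 5) (nat_lit 291) (nat_lit 5) (nat_lit 435) (nat_lit 375) (nat_lit 330)) (XT.lf (nat_lit 0) (nat_lit 3730292946) (nat_lit 836) (nat_lit 2870450972) (nat_lit 76) (nat_lit 1766288100) (nat_lit 280) (nat_lit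 5) (nat_lit 291) (nat_lit 5) (nat_lit 281) (nat_lit 5) (nat_lit 436) (nat_lit 375) (nat_lit 329))))) (XT.nd (nat_lit 156) (nat_lit 1368) (nat_lit 0) (XT.nd (nat_lit 78) (nat_lit 76) (nat_lit 0) (XT.lf (nat_lit 0) (nat_lit 2626408964) (nat_lit 684) (nat_lit 3835991963) (nat_lit 760) (nat_lit 1979242558) (nat_lit 271) (nat_lit 5) (nat_lit 280) (nat_lit 5) (nat_lit 281) (nat_lit 5) (nat_lit 437) (nat_lit 375) (nat_lit 328)) (XT.lf (nat_lit 0) (nat_lit 700461652) (nat_lit 760) (nat_lit 298483405) (nat_lit 76) (nat_lit 7519150177) (nat_lit 270) (nat_lit 5) (nat_lit 280) (nat_lit 5) (nat_lit 271) (nat_lit 5) (nat_lit 438) (nat_lit 375) (nat_lit 327))) (XT.nd (nat_lit 78) (nat_lit 684) (nat_lit 0) (XT.lf (nat_lit 0) (nat_lit 3414570769) (nat_lit 760) (nat_lit 3270413122) (nat_lit 76) (nat_lit 1910699931) (nat_lit 261) (nat_lit 5) (nat_lit 271) (nat_lit 5) (nat_lit 262) (nat_lit 5) (nat_lit 439) (nat_lit 375) (nat_lit 326))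 (XT.nd (nat_lit 78) (nat_lit 76) (nat_lit 0) (XT.lf (nat_lit 0) (nat_lit 2367325013) (nat_lit 608) (nat_lit 3800126102) (nat_lit 684) (nat_lit 2507698694) (nat_lit 253) (nat_lit 5) (nat_lit 261) (nat_lit 5) (nat_lit 262) (nat_lit 5) (nat_lit 440) (nat_lit 375) (nat_lit 325)) (XT.lf (nat_lit 0) (nat_lit 199080474) (nat_lit 684) (nat_lit 643263787) (nat_lit 76) (nat_lit 7914191783) (nat_lit 252) (nat_lit 5) (nat_lit 261) (nat_lit 5) (nat_lit 253) (nat_lit 5) (nat_lit 441) (nat_lit 375) (nat_lit 324)))))) (XT.nd (nat_lit 390) (nat_lit 2280) (nat_lit 0) (XT.nd (nat_lit 156) (nat_lit 1216) (nat_lit 0) (XT.nd (nat_lit 78) (nat_lit 608) (nat_lit 0) (XT.lf (nat_lit 0) (nat_lit 2935654038) (nat_lit 684) (nat_lit 3715495858) (nat_lit 76) (nat_lit 2187898371) (nat_lit 244) (nat_lit 5) (nat_lit 253) (nat_lit 5) (nat_lit 245) (nat_lit 5) (nat_lit 442) (nat_lit 375) (nat_lit 323)) (XT.lf (nat_lit 0) (nat_lit 2065233935) (nat_lit 608)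 (nat_lit 3646903465) (nat_lit 684) (nat_lit 3211384005) (nat_lit 236) (nat_lit 5) (nat_lit 244) (nat_lit 5) (nat_lit 245) (nat_lit 5) (nat_lit 443) (nat_lit 375) (nat_lit 322))) (XT.nd (nat_lit 78) (nat_lit 1216) (nat_lit 0) (XT.lf (nat_lit 0) (nat_lit 7964710555) (nat_lit 608) (nat_lit 566660060) (nat_lit 684) (nat_lit 478582943) (nat_lit 236) (nat_lit 5) (nat_lit 244) (nat_lit 5) (nat_lit 245) (nat_lit 5) (nat_lit 444) (nat_lit 375) (nat_lit 321)) (XT.nd (nat_lit 78) (nat_lit 532) (nat_lit 0) (XT.lf (nat_lit 0) (nat_lit 2290053565) (nat_lit 684) (nat_lit 4228562576) (nat_lit 76) (nat_lit 2578982600) (nat_lit 227) (nat_lit 5) (nat_lit 236) (nat_lit 5) (nat_lit 228) (nat_lit 5) (nat_lit 445) (nat_lit 375) (nat_lit 320)) (XT.lf (nat_lit 0) (nat_lit 1697008285) (nat_lit 532) (nat_lit 3395617127) (nat_lit 608) (nat_lit 4094621880) (nat_lit 220) (nat_lit 5) (nat_lit 227) (nat_lit 5) (nat_lit 228) (nat_lit 5) (nat_lit 446)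 (nat_lit 375) (nat_lit 319))))) (XT.nd (nat_lit 234) (nat_lit 1064) (nat_lit 0) (XT.nd (nat_lit 78) (nat_lit 1216) (nat_lit 0) (XT.lf (nat_lit 0) (nat_lit 7751527708) (nat_lit 532) (nat_lit 191648795) (nat_lit 608) (nat_lit 1335686649) (nat_lit 220) (nat_lit 5) (nat_lit 227) (nat_lit 5) (nat_lit 228) (nat_lit 5) (nat_lit 447) (nat_lit 375) (nat_lit 318)) (XT.nd (nat_lit 78) (nat_lit 532) (nat_lit 0) (XT.lf (nat_lit 0) (nat_lit 1472817732) (nat_lit 684) (nat_lit 4833864932) (nat_lit 76) (nat_lit 3065173477) (nat_lit 211) (nat_lit 5) (nat_lit 220) (nat_lit 5) (nat_lit 212) (nat_lit 5) (nat_lit 448) (nat_lit 375) (nat_lit 317)) (XT.lf (nat_lit 0) (nat_lit 1238075844) (nat_lit 532) (nat_lit 3065527694) (nat_lit 608) (nat_lit 5163261098) (nat_lit 204) (nat_lit 5) (nat_lit 211) (nat_lit 5) (nat_lit 212) (nat_lit 5) (nat_lit 449) (nat_lit 375) (nat_lit 316)))) (XT.nd (nat_lit 78) (nat_lit 1064) (nat_lit 0) (XT.lf (nat_lit 0)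 (nat_lit 7189897607) (nat_lit 608) (nat_lit 2115059613) (nat_lit 76) (nat_lit 258850143) (nat_lit 204) (nat_lit 5) (nat_lit 212) (nat_lit 5) (nat_lit 205) (nat_lit 5) (nat_lit 450) (nat_lit 375) (nat_lit 315)) (XT.nd (nat_lit 78) (nat_lit 456) (nat_lit 0) (XT.lf (nat_lit 0) (nat_lit 477465340) (nat_lit 608) (nat_lit 5557285590) (nat_lit 76) (nat_lit 3627639933) (nat_lit 196) (nat_lit 5) (nat_lit 204) (nat_lit 5) (nat_lit 197) (nat_lit 5) (nat_lit 451) (nat_lit 375) (nat_lit 314)) (XT.lf (nat_lit 0) (nat_lit 662170693) (nat_lit 456) (nat_lit 2676040879) (nat_lit 532) (nat_lit 6424749250) (nat_lit 190) (nat_lit 5) (nat_lit 196) (nat_lit 5) (nat_lit 197) (nat_lit 5) (nat_lit 452) (nat_lit 375) (nat_lit 313))))))) (XT.nd (nat_lit 858) (nat_lit 2432) (nat_lit 0) (XT.nd (nat_lit 390) (nat_lit 1900) (nat_lit 0) (XT.nd (nat_lit 156) (nat_lit 988) (nat_lit 0) (XT.nd (nat_lit 78) (nat_lit 532) (nat_lit 0) (XT.lf (nat_lit 0) (nat_lit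 6264394007) (nat_lit 532) (nat_lit 2835255590) (nat_lit 76) (nat_lit 765739162) (nat_lit 190) (nat_lit 5) (nat_lit 197) (nat_lit 5) (nat_lit 191) (nat_lit 5) (nat_lit 453) (nat_lit 375) (nat_lit 312)) (XT.lf (nat_lit 0) (nat_lit 3538500707) (nat_lit 532) (nat_lit 5717779641) (nat_lit 608) (nat_lit 713452092) (nat_lit 183) (nat_lit 5) (nat_lit 190) (nat_lit 5) (nat_lit 191) (nat_lit 5) (nat_lit 454) (nat_lit 375) (nat_lit 311))) (XT.nd (nat_lit 78) (nat_lit 912) (nat_lit 0) (XT.lf (nat_lit 0) (nat_lit 2188338248) (nat_lit 608) (nat_lit 58162060) (nat_lit 76) (nat_lit 7829667888) (nat_lit 182) (nat_lit 5) (nat_lit 190) (nat_lit 5) (nat_lit 183) (nat_lit 5) (nat_lit 455) (nat_lit 375) (nat_lit 310)) (XT.nd (nat_lit 78) (nat_lit 456) (nat_lit 0) (XT.lf (nat_lit 0) (nat_lit 5156580057) (nat_lit 532) (nat_lit 3715523139) (nat_lit 76) (nat_lit 1312185942) (nat_lit 176) (nat_lit 5) (nat_lit 183) (nat_lit 5) (nat_lit 177) (nat_lit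 5) (nat_lit 456) (nat_lit 375) (nat_lit 309)) (XT.lf (nat_lit 0) (nat_lit 2809109925) (nat_lit 456) (nat_lit 5376127246) (nat_lit 532) (nat_lit 2109324289) (nat_lit 170) (nat_lit 5) (nat_lit 176) (nat_lit 5) (nat_lit 177) (nat_lit 5) (nat_lit 457) (nat_lit 375) (nat_lit 308))))) (XT.nd (nat_lit 234) (nat_lit 912) (nat_lit 0) (XT.nd (nat_lit 78) (nat_lit 912) (nat_lit 0) (XT.lf (nat_lit 0) (nat_lit 848813338) (nat_lit 532) (nat_lit 943186608) (nat_lit 76) (nat_lit 8615080990) (nat_lit 169) (nat_lit 5) (nat_lit 176) (nat_lit 5) (nat_lit 170) (nat_lit 5) (nat_lit 458) (nat_lit 375) (nat_lit 307)) (XT.nd (nat_lit 78) (nat_lit 456) (nat_lit 0) (XT.lf (nat_lit 0) (nat_lit 3855862745) (nat_lit 532) (nat_lit 4787059789) (nat_lit 76) (nat_lit 1878298949) (nat_lit 163) (nat_lit 5) (nat_lit 170) (nat_lit 5) (nat_lit 164) (nat_lit 5) (nat_lit 459) (nat_lit 375) (nat_lit 306)) (XT.lf (nat_lit 0) (nat_lit 1888362522) (nat_lit 456)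 (nat_lit 5033737778) (nat_lit 532) (nat_lit 3715572808) (nat_lit 157) (nat_lit 5) (nat_lit 163) (nat_lit 5) (nat_lit 164) (nat_lit 5) (nat_lit 460) (nat_lit 375) (nat_lit 305)))) (XT.nd (nat_lit 78) (nat_lit 912) (nat_lit 0) (XT.lf (nat_lit 0) (nat_lit 8717659916) (nat_lit 456) (nat_lit 1333001930) (nat_lit 532) (nat_lit 705780962) (nat_lit 157) (nat_lit 5) (nat_lit 163) (nat_lit 5) (nat_lit 164) (nat_lit 5) (nat_lit 461) (nat_lit 375) (nat_lit 304)) (XT.nd (nat_lit 78) (nat_lit 456) (nat_lit 0) (XT.lf (nat_lit 0) (nat_lit 2349777249) (nat_lit 456) (nat_lit 6083737680) (nat_lit 76) (nat_lit 2443443100) (nat_lit 151) (nat_lit 5) (nat_lit 157) (nat_lit 5) (nat_lit 152) (nat_lit 5) (nat_lit 462) (nat_lit 375) (nat_lit 303)) (XT.lf (nat_lit 0) (nat_lit 741718126) (nat_lit 456) (nat_lit 4712208814) (nat_lit 532) (nat_lit 5545933202) (nat_lit 145) (nat_lit 5) (nat_lit 151) (nat_lit 5) (nat_lit 152) (nat_lit 5) (nat_lit 463)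 (nat_lit 375) (nat_lit 302)))))) (XT.nd (nat_lit 390) (nat_lit 1216) (nat_lit 0) (XT.nd (nat_lit 156) (nat_lit 760) (nat_lit 0) (XT.nd (nat_lit 78) (nat_lit 456) (nat_lit 0) (XT.lf (nat_lit 0) (nat_lit 7742134082) (nat_lit 456) (nat_lit 888669186) (nat_lit 532) (nat_lit 2494212498) (nat_lit 145) (nat_lit 5) (nat_lit 151) (nat_lit 5) (nat_lit 152) (nat_lit 5) (nat_lit 464) (nat_lit 375) (nat_lit 301)) (XT.lf (nat_lit 0) (nat_lit 623849427) (nat_lit 456) (nat_lit 7642453301) (nat_lit 76) (nat_lit 2986031089) (nat_lit 139) (nat_lit 5) (nat_lit 145) (nat_lit 5) (nat_lit 140) (nat_lit 5) (nat_lit 465) (nat_lit 375) (nat_lit 300))) (XT.nd (nat_lit 78) (nat_lit 760) (nat_lit 0) (XT.lf (nat_lit 0) (nat_lit 3770062896) (nat_lit 456) (nat_lit 659722111) (nat_lit 76) (nat_lit 6952107589) (nat_lit 139) (nat_lit 5) (nat_lit 145) (nat_lit 5) (nat_lit 140) (nat_lit 5) (nat_lit 466) (nat_lit 375) (nat_lit 299)) (XT.nd (nat_lit 78) (nat_lit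 380) (nat_lit 0) (XT.lf (nat_lit 0) (nat_lit 6505058930) (nat_lit 380) (nat_lit 487376971) (nat_lit 456) (nat_lit 4521349650) (nat_lit 134) (nat_lit 5) (nat_lit 139) (nat_lit 5) (nat_lit 140) (nat_lit 5) (nat_lit 467) (nat_lit 375) (nat_lit 298)) (XT.lf (nat_lit 0) (nat_lit 2135759031) (nat_lit 380) (nat_lit 8155966255) (nat_lit 456) (nat_lit 1356349255) (nat_lit 129) (nat_lit 5) (nat_lit 134) (nat_lit 5) (nat_lit 135) (nat_lit 5) (nat_lit 468) (nat_lit 375) (nat_lit 297))))) (XT.nd (nat_lit 234) (nat_lit 456) (nat_lit 0) (XT.nd (nat_lit 78) (nat_lit 684) (nat_lit 0) (XT.lf (nat_lit 0) (nat_lit 1855753451) (nat_lit 456) (nat_lit 2352186020) (nat_lit 76) (nat_lit 7576706956) (nat_lit 128) (nat_lit 5) (nat_lit 134) (nat_lit 5) (nat_lit 129) (nat_lit 5) (nat_lit 469) (nat_lit 375) (nat_lit 296)) (XT.nd (nat_lit 78) (nat_lit 304) (nat_lit 0) (XT.lf (nat_lit 0) (nat_lit 4964893064) (nat_lit 380) (nat_lit 153150727) (nat_lit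 456) (nat_lit 6805651627) (nat_lit 123) (nat_lit 5) (nat_lit 128) (nat_lit 5) (nat_lit 129) (nat_lit 5) (nat_lit 470) (nat_lit 375) (nat_lit 295)) (XT.lf (nat_lit 0) (nat_lit 330784731) (nat_lit 304) (nat_lit 8130731131) (nat_lit 380) (nat_lit 3603697787) (nat_lit 119) (nat_lit 5) (nat_lit 123) (nat_lit 5) (nat_lit 124) (nat_lit 5) (nat_lit 471) (nat_lit 375) (nat_lit 294)))) (XT.nd (nat_lit 78) (nat_lit 456) (nat_lit 0) (XT.lf (nat_lit 0) (nat_lit 7817165343) (nat_lit 304) (nat_lit 4074711179) (nat_lit 380) (nat_lit 317292181) (nat_lit 119) (nat_lit 5) (nat_lit 123) (nat_lit 5) (nat_lit 124) (nat_lit 5) (nat_lit 472) (nat_lit 375) (nat_lit 293)) (XT.nd (nat_lit 78) (nat_lit 0) (nat_lit 0) (XT.lf (nat_lit 0) (nat_lit 2988255643) (nat_lit 456) (nat_lit 9280265924) (nat_lit 76) (nat_lit 87229451) (nat_lit 113) (nat_lit 5) (nat_lit 119) (nat_lit 5) (nat_lit 114) (nat_lit 5) (nat_lit 473) (nat_lit 375) (nat_lit 292)) (XT.lf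 (nat_lit 0) (nat_lit 6385165222) (nat_lit 456) (nat_lit 1824116315) (nat_lit 76) (nat_lit 4295357958) (nat_lit 113) (nat_lit 5) (nat_lit 119) (nat_lit 5) (nat_lit 114) (nat_lit 5) (nat_lit 474) (nat_lit 375) (nat_lit 291))))))))
noncomputable def xc82 : XT := (XT.nd (nat_lit 1638) (nat_lit 1292) (nat_lit 0) (XT.nd (nat_lit 780) (nat_lit 1900) (nat_lit 0) (XT.nd (nat_lit 390) (nat_lit 1064) (nat_lit 0) (XT.nd (nat_lit 156) (nat_lit 304) (nat_lit 0) (XT.nd (nat_lit 78) (nat_lit 380) (nat_lit 0) (XT.lf (nat_lit 0) (nat_lit 5816243668) (nat_lit 304) (nat_lit 4044907420) (nat_lit 380) (nat_lit 2795138212) (nat_lit 109) (nat_lit 5) (nat_lit 113) (nat_lit 5) (nat_lit 114) (nat_lit 5) (nat_lit 475) (nat_lit 375) (nat_lit 290)) (XT.lf (nat_lit 0) (nat_lit 580126192) (nat_lit 380) (nat_lit 12023923552) (nat_lit 76) (nat_lit 207005998) (nat_lit 104) (nat_lit 5) (nat_lit 109) (nat_lit 5) (nat_lit 105) (nat_lit 5) (nat_lit 476) (nat_lit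 375) (nat_lit 289))) (XT.nd (nat_lit 78) (nat_lit 304) (nat_lit 0) (XT.lf (nat_lit 0) (nat_lit 4032105287) (nat_lit 380) (nat_lit 4395475921) (nat_lit 76) (nat_lit 4540040019) (nat_lit 104) (nat_lit 5) (nat_lit 109) (nat_lit 5) (nat_lit 105) (nat_lit 5) (nat_lit 477) (nat_lit 375) (nat_lit 288)) (XT.nd (nat_lit 78) (nat_lit 0) (nat_lit 0) (XT.lf (nat_lit 0) (nat_lit 3389359078) (nat_lit 304) (nat_lit 4159897882) (nat_lit 380) (nat_lit 5578144240) (nat_lit 100) (nat_lit 5) (nat_lit 104) (nat_lit 5) (nat_lit 105) (nat_lit 5) (nat_lit 478) (nat_lit 375) (nat_lit 287)) (XT.lf (nat_lit 0) (nat_lit 11141973514) (nat_lit 380) (nat_lit 1942552469) (nat_lit 76) (nat_lit 205752079) (nat_lit 100) (nat_lit 5) (nat_lit 105) (nat_lit 5) (nat_lit 101) (nat_lit 5) (nat_lit 479) (nat_lit 375) (nat_lit 286))))) (XT.nd (nat_lit 156) (nat_lit 380) (nat_lit 0) (XT.nd (nat_lit 78) (nat_lit 304) (nat_lit 0) (XT.lf (nat_lit 0) (nat_lit 1374110959)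 (nat_lit 380) (nat_lit 7444364192) (nat_lit 76) (nat_lit 4636933768) (nat_lit 95) (nat_lit 5) (nat_lit 100) (nat_lit 5) (nat_lit 96) (nat_lit 5) (nat_lit 480) (nat_lit 375) (nat_lit 285)) (XT.lf (nat_lit 0) (nat_lit 478358543) (nat_lit 304) (nat_lit 4450951657) (nat_lit 380) (nat_lit 8694431559) (nat_lit 91) (nat_lit 5) (nat_lit 95) (nat_lit 5) (nat_lit 96) (nat_lit 5) (nat_lit 481) (nat_lit 375) (nat_lit 284))) (XT.nd (nat_lit 78) (nat_lit 380) (nat_lit 0) (XT.lf (nat_lit 0) (nat_lit 8580910105) (nat_lit 380) (nat_lit 5174561529) (nat_lit 76) (nat_lit 39468975) (nat_lit 91) (nat_lit 5) (nat_lit 96) (nat_lit 5) (nat_lit 92) (nat_lit 5) (nat_lit 482) (nat_lit 375) (nat_lit 283)) (XT.nd (nat_lit 78) (nat_lit 76) (nat_lit 0) (XT.lf (nat_lit 0) (nat_lit 2925143145) (nat_lit 304) (nat_lit 9404342608) (nat_lit 380) (nat_lit 1639603996) (nat_lit 87) (nat_lit 5) (nat_lit 91) (nat_lit 5) (nat_lit 92) (nat_lit 5) (nat_lit 483)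 (nat_lit 375) (nat_lit 282)) (XT.lf (nat_lit 0) (nat_lit 1990487862) (nat_lit 380) (nat_lit 2941790671) (nat_lit 76) (nat_lit 9213977995) (nat_lit 86) (nat_lit 5) (nat_lit 91) (nat_lit 5) (nat_lit 87) (nat_lit 5) (nat_lit 484) (nat_lit 375) (nat_lit 281)))))) (XT.nd (nat_lit 390) (nat_lit 1064) (nat_lit 0) (XT.nd (nat_lit 156) (nat_lit 608) (nat_lit 0) (XT.nd (nat_lit 78) (nat_lit 0) (nat_lit 0) (XT.lf (nat_lit 0) (nat_lit 5342906119) (nat_lit 228) (nat_lit 339047000) (nat_lit 304) (nat_lit 8644587140) (nat_lit 83) (nat_lit 5) (nat_lit 86) (nat_lit 5) (nat_lit 87) (nat_lit 5) (nat_lit 485) (nat_lit 375) (nat_lit 280)) (XT.lf (nat_lit 0) (nat_lit 9471477583) (nat_lit 304) (nat_lit 744056468) (nat_lit 76) (nat_lit 4294415804) (nat_lit 83) (nat_lit 5) (nat_lit 87) (nat_lit 5) (nat_lit 84) (nat_lit 5) (nat_lit 486) (nat_lit 375) (nat_lit 279))) (XT.nd (nat_lit 78) (nat_lit 304) (nat_lit 0) (XT.lf (nat_lit 0) (nat_lit 7721247623)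 (nat_lit 304) (nat_lit 5644530315) (nat_lit 380) (nat_lit 1330674693) (nat_lit 79) (nat_lit 5) (nat_lit 83) (nat_lit 5) (nat_lit 84) (nat_lit 5) (nat_lit 487) (nat_lit 375) (nat_lit 278)) (XT.nd (nat_lit 78) (nat_lit 0) (nat_lit 0) (XT.lf (nat_lit 0) (nat_lit 1444201215) (nat_lit 228) (nat_lit 965995008) (nat_lit 304) (nat_lit 12476354121) (nat_lit 75) (nat_lit 5) (nat_lit 78) (nat_lit 5) (nat_lit 79) (nat_lit 5) (nat_lit 488) (nat_lit 375) (nat_lit 277)) (XT.lf (nat_lit 0) (nat_lit 6256691715) (nat_lit 304) (nat_lit 5025071200) (nat_lit 76) (nat_lit 3797543109) (nat_lit 75) (nat_lit 5) (nat_lit 79) (nat_lit 5) (nat_lit 76) (nat_lit 5) (nat_lit 489) (nat_lit 375) (nat_lit 276))))) (XT.nd (nat_lit 234) (nat_lit 456) (nat_lit 0) (XT.nd (nat_lit 78) (nat_lit 304) (nat_lit 0) (XT.lf (nat_lit 0) (nat_lit 3563370147) (nat_lit 304) (nat_lit 6623514517) (nat_lit 380) (nat_lit 5088901143) (nat_lit 71) (nat_lit 5) (nat_lit 75)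 (nat_lit 5) (nat_lit 76) (nat_lit 5) (nat_lit 490) (nat_lit 375) (nat_lit 275)) (XT.nd (nat_lit 78) (nat_lit 304) (nat_lit 0) (XT.lf (nat_lit 0) (nat_lit 12354424258) (nat_lit 304) (nat_lit 1852416940) (nat_lit 380) (nat_lit 1269135044) (nat_lit 71) (nat_lit 5) (nat_lit 75) (nat_lit 5) (nat_lit 76) (nat_lit 5) (nat_lit 491) (nat_lit 375) (nat_lit 274)) (XT.lf (nat_lit 0) (nat_lit 2626892513) (nat_lit 304) (nat_lit 10037892513) (nat_lit 76) (nat_lit 3014362021) (nat_lit 67) (nat_lit 5) (nat_lit 71) (nat_lit 5) (nat_lit 68) (nat_lit 5) (nat_lit 492) (nat_lit 375) (nat_lit 273)))) (XT.nd (nat_lit 78) (nat_lit 456) (nat_lit 0) (XT.lf (nat_lit 0) (nat_lit 6595051762) (nat_lit 304) (nat_lit 1322093075) (nat_lit 76) (nat_lit 7968848562) (nat_lit 67) (nat_lit 5) (nat_lit 71) (nat_lit 5) (nat_lit 68) (nat_lit 5) (nat_lit 493) (nat_lit 375) (nat_lit 272)) (XT.nd (nat_lit 78) (nat_lit 228) (nat_lit 0) (XT.lf (nat_lit 0) (nat_lit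 7631890335) (nat_lit 228) (nat_lit 3038505088) (nat_lit 304) (nat_lit 5426028761) (nat_lit 64) (nat_lit 5) (nat_lit 67) (nat_lit 5) (nat_lit 68) (nat_lit 5) (nat_lit 494) (nat_lit 375) (nat_lit 271)) (XT.lf (nat_lit 0) (nat_lit 428642582) (nat_lit 228) (nat_lit 14401266526) (nat_lit 304) (nat_lit 1481105066) (nat_lit 61) (nat_lit 5) (nat_lit 64) (nat_lit 5) (nat_lit 65) (nat_lit 5) (nat_lit 495) (nat_lit 375) (nat_lit 270))))))) (XT.nd (nat_lit 50934) (nat_lit 0) (nat_lit 44840) (XT.nd (nat_lit 390) (nat_lit 684) (nat_lit 0) (XT.nd (nat_lit 156) (nat_lit 304) (nat_lit 0) (XT.nd (nat_lit 78) (nat_lit 228) (nat_lit 0) (XT.lf (nat_lit 0) (nat_lit 2565081755) (nat_lit 304) (nat_lit 6987725812) (nat_lit 76) (nat_lit 6975647663) (nat_lit 60) (nat_lit 5) (nat_lit 64) (nat_lit 5) (nat_lit 61) (nat_lit 5) (nat_lit 496) (nat_lit 375) (nat_lit 269)) (XT.lf (nat_lit 0) (nat_lit 2066439615) (nat_lit 228) (nat_lit 4598191866) (nat_lit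 304) (nat_lit 10085576031) (nat_lit 57) (nat_lit 5) (nat_lit 60) (nat_lit 5) (nat_lit 61) (nat_lit 5) (nat_lit 497) (nat_lit 375) (nat_lit 268))) (XT.nd (nat_lit 78) (nat_lit 304) (nat_lit 0) (XT.lf (nat_lit 0) (nat_lit 10875258603) (nat_lit 304) (nat_lit 5618077264) (nat_lit 76) (nat_lit 482480805) (nat_lit 57) (nat_lit 5) (nat_lit 61) (nat_lit 5) (nat_lit 58) (nat_lit 5) (nat_lit 498) (nat_lit 375) (nat_lit 267)) (XT.nd (nat_lit 78) (nat_lit 76) (nat_lit 0) (XT.lf (nat_lit 0) (nat_lit 3610771685) (nat_lit 228) (nat_lit 11592561933) (nat_lit 304) (nat_lit 2001943180) (nat_lit 54) (nat_lit 5) (nat_lit 57) (nat_lit 5) (nat_lit 58) (nat_lit 5) (nat_lit 499) (nat_lit 375) (nat_lit 266)) (XT.lf (nat_lit 0) (nat_lit 2167400799) (nat_lit 304) (nat_lit 4387721404) (nat_lit 76) (nat_lit 10883577770) (nat_lit 53) (nat_lit 5) (nat_lit 57) (nat_lit 5) (nat_lit 54) (nat_lit 5) (nat_lit 500) (nat_lit 375) (nat_lit 265))))) (XT.nd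 (nat_lit 156) (nat_lit 456) (nat_lit 0) (XT.nd (nat_lit 78) (nat_lit 0) (nat_lit 0) (XT.lf (nat_lit 0) (nat_lit 5021378180) (nat_lit 228) (nat_lit 1384359120) (nat_lit 304) (nat_lit 11270544711) (nat_lit 50) (nat_lit 5) (nat_lit 53) (nat_lit 5) (nat_lit 54) (nat_lit 5) (nat_lit 501) (nat_lit 375) (nat_lit 264)) (XT.lf (nat_lit 0) (nat_lit 10763601726) (nat_lit 304) (nat_lit 3299844529) (nat_lit 76) (nat_lit 3854477434) (nat_lit 50) (nat_lit 5) (nat_lit 54) (nat_lit 5) (nat_lit 51) (nat_lit 5) (nat_lit 502) (nat_lit 375) (nat_lit 263))) (XT.nd (nat_lit 78) (nat_lit 304) (nat_lit 0) (XT.lf (nat_lit 0) (nat_lit 6281706362) (nat_lit 152) (nat_lit 8957131785) (nat_lit 228) (nat_lit 2924958920) (nat_lit 48) (nat_lit 5) (nat_lit 50) (nat_lit 5) (nat_lit 51) (nat_lit 5) (nat_lit 503) (nat_lit 375) (nat_lit 262)) (XT.nd (nat_lit 78) (nat_lit 228) (nat_lit 0) (XT.lf (nat_lit 0) (nat_lit 1373362797) (nat_lit 228) (nat_lit 2357561091)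 (nat_lit 76) (nat_lit 14683434932) (nat_lit 47) (nat_lit 5) (nat_lit 50) (nat_lit 5) (nat_lit 48) (nat_lit 5) (nat_lit 504) (nat_lit 375) (nat_lit 261)) (XT.lf (nat_lit 0) (nat_lit 5758008443) (nat_lit 304) (nat_lit 11277754902) (nat_lit 76) (nat_lit 1632994309) (nat_lit 44) (nat_lit 5) (nat_lit 48) (nat_lit 5) (nat_lit 45) (nat_lit 5) (nat_lit 505) (nat_lit 375) (nat_lit 260)))))) (XT.nd (nat_lit 390) (nat_lit 2052) (nat_lit 0) (XT.nd (nat_lit 156) (nat_lit 912) (nat_lit 0) (XT.nd (nat_lit 78) (nat_lit 0) (nat_lit 0) (XT.lf (nat_lit 0) (nat_lit 103487269) (nat_lit 380) (nat_lit 3029830154) (nat_lit 0) (nat_lit 103487269) (nat_lit 673) (nat_lit 5) (nat_lit 678) (nat_lit 4) (nat_lit 673) (nat_lit 4) (nat_lit 388) (nat_lit 376) (nat_lit 376)) (XT.lf (nat_lit 0) (nat_lit 3297643191) (nat_lit 380) (nat_lit 2578698911) (nat_lit 0) (nat_lit 605543394) (nat_lit 673) (nat_lit 5) (nat_lit 678) (nat_lit 4) (nat_lit 673) (nat_lit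 4) (nat_lit 389) (nat_lit 376) (nat_lit 375))) (XT.nd (nat_lit 78) (nat_lit 532) (nat_lit 0) (XT.lf (nat_lit 0) (nat_lit 937241708) (nat_lit 380) (nat_lit 5442978047) (nat_lit 380) (nat_lit 111564723) (nat_lit 668) (nat_lit 4) (nat_lit 673) (nat_lit 5) (nat_lit 673) (nat_lit 4) (nat_lit 390) (nat_lit 376) (nat_lit 374)) (XT.nd (nat_lit 78) (nat_lit 456) (nat_lit 0) (XT.lf (nat_lit 0) (nat_lit 2924987881) (nat_lit 456) (nat_lit 2010500084) (nat_lit 76) (nat_lit 1567216661) (nat_lit 667) (nat_lit 5) (nat_lit 673) (nat_lit 5) (nat_lit 668) (nat_lit 4) (nat_lit 391) (nat_lit 376) (nat_lit 373)) (XT.lf (nat_lit 0) (nat_lit 1577628723) (nat_lit 456) (nat_lit 4379514887) (nat_lit 532) (nat_lit 558013321) (nat_lit 661) (nat_lit 5) (nat_lit 667) (nat_lit 5) (nat_lit 668) (nat_lit 4) (nat_lit 392) (nat_lit 376) (nat_lit 372))))) (XT.nd (nat_lit 234) (nat_lit 1368) (nat_lit 0) (XT.nd (nat_lit 78) (nat_lit 608) (nat_lit 0) (XT.lf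 (nat_lit 0) (nat_lit 2429320370) (nat_lit 532) (nat_lit 1326746446) (nat_lit 76) (nat_lit 2772711343) (nat_lit 660) (nat_lit 5) (nat_lit 667) (nat_lit 5) (nat_lit 661) (nat_lit 5) (nat_lit 393) (nat_lit 376) (nat_lit 371)) (XT.nd (nat_lit 78) (nat_lit 76) (nat_lit 0) (XT.lf (nat_lit 0) (nat_lit 2336665434) (nat_lit 532) (nat_lit 3075611204) (nat_lit 608) (nat_lit 1131507052) (nat_lit 653) (nat_lit 5) (nat_lit 660) (nat_lit 5) (nat_lit 661) (nat_lit 5) (nat_lit 394) (nat_lit 376) (nat_lit 370)) (XT.lf (nat_lit 0) (nat_lit 1808659602) (nat_lit 608) (nat_lit 527176101) (nat_lit 76) (nat_lit 4224303597) (nat_lit 652) (nat_lit 5) (nat_lit 660) (nat_lit 5) (nat_lit 653) (nat_lit 5) (nat_lit 395) (nat_lit 376) (nat_lit 369)))) (XT.nd (nat_lit 78) (nat_lit 760) (nat_lit 0) (XT.lf (nat_lit 0) (nat_lit 3214732270) (nat_lit 608) (nat_lit 1528788238) (nat_lit 684) (nat_lit 1834180663) (nat_lit 644) (nat_lit 5) (nat_lit 652) (nat_lit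 5) (nat_lit 653) (nat_lit 5) (nat_lit 396) (nat_lit 376) (nat_lit 368)) (XT.nd (nat_lit 78) (nat_lit 0) (nat_lit 0) (XT.lf (nat_lit 0) (nat_lit 393847422) (nat_lit 684) (nat_lit 669487504) (nat_lit 760) (nat_lit 5533441949) (nat_lit 634) (nat_lit 5) (nat_lit 643) (nat_lit 5) (nat_lit 644) (nat_lit 5) (nat_lit 397) (nat_lit 376) (nat_lit 367)) (XT.lf (nat_lit 0) (nat_lit 3950243210) (nat_lit 760) (nat_lit 2406243934) (nat_lit 76) (nat_lit 260431139) (nat_lit 634) (nat_lit 5) (nat_lit 644) (nat_lit 5) (nat_lit 635) (nat_lit 5) (nat_lit 398) (nat_lit 376) (nat_lit 366))))))))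
noncomputable def xc83 : XT := (XT.nd (nat_lit 1638) (nat_lit 12616) (nat_lit 0) (XT.nd (nat_lit 780) (nat_lit 10412) (nat_lit 0) (XT.nd (nat_lit 390) (nat_lit 3344) (nat_lit 0) (XT.nd (nat_lit 156) (nat_lit 1824) (nat_lit 0) (XT.nd (nat_lit 78) (nat_lit 0) (nat_lit 0) (XT.lf (nat_lit 0) (nat_lit 200648825) (nat_lit 836) (nat_lit 5206408164) (nat_lit 76) (nat_lit 1231485040) (nat_lit 623) (nat_lit 5) (nat_lit 634) (nat_lit 5) (nat_lit 624) (nat_lit 5) (nat_lit 399) (nat_lit 376) (nat_lit 365)) (XT.lf (nat_lit 0) (nat_lit 3039677450) (nat_lit 836) (nat_lit 1346020626) (nat_lit 76) (nat_lit 2275590352) (nat_lit 623) (nat_lit 5) (nat_lit 634) (nat_lit 5) (nat_lit 624) (nat_lit 5) (nat_lit 400) (nat_lit 376) (nat_lit 364))) (XT.nd (nat_lit 78) (nat_lit 988) (nat_lit 0) (XT.lf (nat_lit 0) (nat_lit 2578455514) (nat_lit 836) (nat_lit 3308848207) (nat_lit 912) (nat_lit 798192846) (nat_lit 612) (nat_lit 5) (nat_lit 623) (nat_lit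 5) (nat_lit 624) (nat_lit 5) (nat_lit 401) (nat_lit 376) (nat_lit 363)) (XT.nd (nat_lit 78) (nat_lit 912) (nat_lit 0) (XT.lf (nat_lit 0) (nat_lit 1999065217) (nat_lit 912) (nat_lit 171441765) (nat_lit 76) (nat_lit 4540559579) (nat_lit 611) (nat_lit 5) (nat_lit 623) (nat_lit 5) (nat_lit 612) (nat_lit 5) (nat_lit 402) (nat_lit 376) (nat_lit 362)) (XT.lf (nat_lit 0) (nat_lit 3841370754) (nat_lit 912) (nat_lit 962004750) (nat_lit 988) (nat_lit 1934471697) (nat_lit 599) (nat_lit 5) (nat_lit 611) (nat_lit 5) (nat_lit 612) (nat_lit 5) (nat_lit 403) (nat_lit 376) (nat_lit 361))))) (XT.nd (nat_lit 156) (nat_lit 2280) (nat_lit 0) (XT.nd (nat_lit 78) (nat_lit 0) (nat_lit 0) (XT.lf (nat_lit 0) (nat_lit 834624271) (nat_lit 1064) (nat_lit 5634633423) (nat_lit 76) (nat_lit 296872132) (nat_lit 585) (nat_lit 5) (nat_lit 599) (nat_lit 5) (nat_lit 586) (nat_lit 5) (nat_lit 404) (nat_lit 376) (nat_lit 360)) (XT.lf (nat_lit 0) (nat_lit 3597512245)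 (nat_lit 1064) (nat_lit 1582826888) (nat_lit 76) (nat_lit 1615135299) (nat_lit 585) (nat_lit 5) (nat_lit 599) (nat_lit 5) (nat_lit 586) (nat_lit 5) (nat_lit 405) (nat_lit 376) (nat_lit 359))) (XT.nd (nat_lit 78) (nat_lit 1216) (nat_lit 0) (XT.lf (nat_lit 0) (nat_lit 2536003319) (nat_lit 1064) (nat_lit 3835680813) (nat_lit 1140) (nat_lit 454638840) (nat_lit 571) (nat_lit 5) (nat_lit 585) (nat_lit 5) (nat_lit 586) (nat_lit 5) (nat_lit 406) (nat_lit 376) (nat_lit 358)) (XT.nd (nat_lit 78) (nat_lit 1140) (nat_lit 0) (XT.lf (nat_lit 0) (nat_lit 2263516964) (nat_lit 1140) (nat_lit 161991450) (nat_lit 76) (nat_lit 4432997818) (nat_lit 570) (nat_lit 5) (nat_lit 585) (nat_lit 5) (nat_lit 571) (nat_lit 5) (nat_lit 407) (nat_lit 376) (nat_lit 357)) (XT.lf (nat_lit 0) (nat_lit 4052179751) (nat_lit 1140) (nat_lit 945270059) (nat_lit 1216) (nat_lit 1894508611) (nat_lit 555) (nat_lit 5) (nat_lit 570) (nat_lit 5) (nat_lit 571) (nat_lit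 5) (nat_lit 408) (nat_lit 376) (nat_lit 356)))))) (XT.nd (nat_lit 390) (nat_lit 6384) (nat_lit 0) (XT.nd (nat_lit 156) (nat_lit 2736) (nat_lit 0) (XT.nd (nat_lit 78) (nat_lit 0) (nat_lit 0) (XT.lf (nat_lit 0) (nat_lit 804295895) (nat_lit 1292) (nat_lit 5538728669) (nat_lit 76) (nat_lit 583865583) (nat_lit 538) (nat_lit 5) (nat_lit 555) (nat_lit 5) (nat_lit 539) (nat_lit 5) (nat_lit 409) (nat_lit 376) (nat_lit 355)) (XT.lf (nat_lit 0) (nat_lit 3499702079) (nat_lit 1292) (nat_lit 1290217805) (nat_lit 76) (nat_lit 2173023665) (nat_lit 538) (nat_lit 5) (nat_lit 555) (nat_lit 5) (nat_lit 539) (nat_lit 5) (nat_lit 410) (nat_lit 376) (nat_lit 354))) (XT.nd (nat_lit 78) (nat_lit 1444) (nat_lit 0) (XT.lf (nat_lit 0) (nat_lit 3035724283) (nat_lit 1292) (nat_lit 3176655632) (nat_lit 1368) (nat_lit 788103538) (nat_lit 521) (nat_lit 5) (nat_lit 538) (nat_lit 5) (nat_lit 539) (nat_lit 5) (nat_lit 411) (nat_lit 376) (nat_lit 353))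 (XT.nd (nat_lit 78) (nat_lit 0) (nat_lit 0) (XT.lf (nat_lit 0) (nat_lit 371472335) (nat_lit 1368) (nat_lit 1498795046) (nat_lit 1444) (nat_lit 5169182608) (nat_lit 502) (nat_lit 5) (nat_lit 520) (nat_lit 5) (nat_lit 521) (nat_lit 5) (nat_lit 412) (nat_lit 376) (nat_lit 352)) (XT.lf (nat_lit 0) (nat_lit 4544316965) (nat_lit 1444) (nat_lit 2285953395) (nat_lit 76) (nat_lit 249390847) (nat_lit 502) (nat_lit 5) (nat_lit 521) (nat_lit 5) (nat_lit 503) (nat_lit 5) (nat_lit 413) (nat_lit 376) (nat_lit 351))))) (XT.nd (nat_lit 234) (nat_lit 3344) (nat_lit 0) (XT.nd (nat_lit 78) (nat_lit 1520) (nat_lit 0) (XT.lf (nat_lit 0) (nat_lit 118844339) (nat_lit 1520) (nat_lit 4967782268) (nat_lit 76) (nat_lit 2034666911) (nat_lit 482) (nat_lit 5) (nat_lit 502) (nat_lit 5) (nat_lit 483) (nat_lit 5) (nat_lit 414) (nat_lit 376) (nat_lit 350)) (XT.nd (nat_lit 78) (nat_lit 1520) (nat_lit 0) (XT.lf (nat_lit 0) (nat_lit 2753983491) (nat_lit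 1520) (nat_lit 515750789) (nat_lit 76) (nat_lit 3894481760) (nat_lit 482) (nat_lit 5) (nat_lit 502) (nat_lit 5) (nat_lit 483) (nat_lit 5) (nat_lit 415) (nat_lit 376) (nat_lit 349)) (XT.lf (nat_lit 0) (nat_lit 4030973502) (nat_lit 1520) (nat_lit 1384417586) (nat_lit 1596) (nat_lit 1793163084) (nat_lit 462) (nat_lit 5) (nat_lit 482) (nat_lit 5) (nat_lit 483) (nat_lit 5) (nat_lit 416) (nat_lit 376) (nat_lit 348)))) (XT.nd (nat_lit 78) (nat_lit 1672) (nat_lit 0) (XT.lf (nat_lit 0) (nat_lit 828640425) (nat_lit 1672) (nat_lit 5871372043) (nat_lit 76) (nat_lit 554402482) (nat_lit 440) (nat_lit 5) (nat_lit 462) (nat_lit 5) (nat_lit 441) (nat_lit 5) (nat_lit 417) (nat_lit 376) (nat_lit 347)) (XT.nd (nat_lit 78) (nat_lit 1672) (nat_lit 0) (XT.lf (nat_lit 0) (nat_lit 3458019258) (nat_lit 1672) (nat_lit 1292396813) (nat_lit 76) (nat_lit 2550983652) (nat_lit 440) (nat_lit 5) (nat_lit 462) (nat_lit 5) (nat_lit 441) (nat_lit 5) (nat_lit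 418) (nat_lit 376) (nat_lit 346)) (XT.lf (nat_lit 0) (nat_lit 3374972828) (nat_lit 1672) (nat_lit 2736429795) (nat_lit 1748) (nat_lit 1238519530) (nat_lit 418) (nat_lit 5) (nat_lit 440) (nat_lit 5) (nat_lit 441) (nat_lit 5) (nat_lit 419) (nat_lit 376) (nat_lit 345))))))) (XT.nd (nat_lit 858) (nat_lit 5244) (nat_lit 0) (XT.nd (nat_lit 390) (nat_lit 3496) (nat_lit 0) (XT.nd (nat_lit 156) (nat_lit 2052) (nat_lit 0) (XT.nd (nat_lit 78) (nat_lit 0) (nat_lit 0) (XT.lf (nat_lit 0) (nat_lit 706132963) (nat_lit 1748) (nat_lit 656850501) (nat_lit 1824) (nat_lit 6037009702) (nat_lit 394) (nat_lit 5) (nat_lit 417) (nat_lit 5) (nat_lit 418) (nat_lit 5) (nat_lit 420) (nat_lit 376) (nat_lit 344)) (XT.lf (nat_lit 0) (nat_lit 3986827389) (nat_lit 1824) (nat_lit 1982240924) (nat_lit 76) (nat_lit 1482120446) (nat_lit 394) (nat_lit 5) (nat_lit 418) (nat_lit 5) (nat_lit 395) (nat_lit 5) (nat_lit 421) (nat_lit 376) (nat_lit 343))) (XT.nd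 (nat_lit 78) (nat_lit 988) (nat_lit 0) (XT.lf (nat_lit 0) (nat_lit 2808505495) (nat_lit 1064) (nat_lit 3828718709) (nat_lit 1140) (nat_lit 866726838) (nat_lit 380) (nat_lit 5) (nat_lit 394) (nat_lit 5) (nat_lit 395) (nat_lit 5) (nat_lit 422) (nat_lit 376) (nat_lit 342)) (XT.nd (nat_lit 78) (nat_lit 0) (nat_lit 0) (XT.lf (nat_lit 0) (nat_lit 106223458) (nat_lit 912) (nat_lit 1619129072) (nat_lit 988) (nat_lit 5832890395) (nat_lit 367) (nat_lit 5) (nat_lit 379) (nat_lit 5) (nat_lit 380) (nat_lit 5) (nat_lit 423) (nat_lit 376) (nat_lit 341)) (XT.lf (nat_lit 0) (nat_lit 4345947684) (nat_lit 988) (nat_lit 2604084488) (nat_lit 76) (nat_lit 663731194) (nat_lit 367) (nat_lit 5) (nat_lit 380) (nat_lit 5) (nat_lit 368) (nat_lit 5) (nat_lit 424) (nat_lit 376) (nat_lit 340))))) (XT.nd (nat_lit 234) (nat_lit 1748) (nat_lit 0) (XT.nd (nat_lit 78) (nat_lit 912) (nat_lit 0) (XT.lf (nat_lit 0) (nat_lit 2312773130) (nat_lit 836) (nat_lit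 4685283767) (nat_lit 912) (nat_lit 672777726) (nat_lit 356) (nat_lit 5) (nat_lit 367) (nat_lit 5) (nat_lit 368) (nat_lit 5) (nat_lit 425) (nat_lit 376) (nat_lit 339)) (XT.nd (nat_lit 78) (nat_lit 836) (nat_lit 0) (XT.lf (nat_lit 0) (nat_lit 1919503987) (nat_lit 912) (nat_lit 426334098) (nat_lit 76) (nat_lit 5383549756) (nat_lit 355) (nat_lit 5) (nat_lit 367) (nat_lit 5) (nat_lit 356) (nat_lit 5) (nat_lit 426) (nat_lit 376) (nat_lit 338)) (XT.lf (nat_lit 0) (nat_lit 4539614979) (nat_lit 912) (nat_lit 3176790058) (nat_lit 76) (nat_lit 72939457) (nat_lit 344) (nat_lit 5) (nat_lit 356) (nat_lit 5) (nat_lit 345) (nat_lit 5) (nat_lit 427) (nat_lit 376) (nat_lit 337)))) (XT.nd (nat_lit 78) (nat_lit 912) (nat_lit 0) (XT.lf (nat_lit 0) (nat_lit 1868887444) (nat_lit 836) (nat_lit 5328918641) (nat_lit 912) (nat_lit 653001375) (nat_lit 333) (nat_lit 5) (nat_lit 344) (nat_lit 5) (nat_lit 345) (nat_lit 5) (nat_lit 428) (nat_lit 376)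 (nat_lit 336)) (XT.nd (nat_lit 78) (nat_lit 836) (nat_lit 0) (XT.lf (nat_lit 0) (nat_lit 1946334806) (nat_lit 912) (nat_lit 915556225) (nat_lit 76) (nat_lit 5051832507) (nat_lit 332) (nat_lit 5) (nat_lit 344) (nat_lit 5) (nat_lit 333) (nat_lit 5) (nat_lit 429) (nat_lit 376) (nat_lit 335)) (XT.lf (nat_lit 0) (nat_lit 4256651507) (nat_lit 836) (nat_lit 316170268) (nat_lit 912) (nat_lit 3405331223) (nat_lit 321) (nat_lit 5) (nat_lit 332) (nat_lit 5) (nat_lit 333) (nat_lit 5) (nat_lit 430) (nat_lit 376) (nat_lit 334)))))) (XT.nd (nat_lit 390) (nat_lit 2888) (nat_lit 0) (XT.nd (nat_lit 156) (nat_lit 1520) (nat_lit 0) (XT.nd (nat_lit 78) (nat_lit 76) (nat_lit 0) (XT.lf (nat_lit 0) (nat_lit 1457700260) (nat_lit 760) (nat_lit 5781387858) (nat_lit 836) (nat_lit 805057097) (nat_lit 311) (nat_lit 5) (nat_lit 321) (nat_lit 5) (nat_lit 322) (nat_lit 5) (nat_lit 431) (nat_lit 376) (nat_lit 333)) (XT.lf (nat_lit 0) (nat_lit 1807262222)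 (nat_lit 836) (nat_lit 1382091718) (nat_lit 76) (nat_lit 4922196556) (nat_lit 310) (nat_lit 5) (nat_lit 321) (nat_lit 5) (nat_lit 311) (nat_lit 5) (nat_lit 432) (nat_lit 376) (nat_lit 332))) (XT.nd (nat_lit 78) (nat_lit 760) (nat_lit 0) (XT.lf (nat_lit 0) (nat_lit 3925626631) (nat_lit 760) (nat_lit 518795810) (nat_lit 836) (nat_lit 3736125585) (nat_lit 300) (nat_lit 5) (nat_lit 310) (nat_lit 5) (nat_lit 311) (nat_lit 5) (nat_lit 433) (nat_lit 376) (nat_lit 331)) (XT.nd (nat_lit 78) (nat_lit 76) (nat_lit 0) (XT.lf (nat_lit 0) (nat_lit 1059627479) (nat_lit 684) (nat_lit 6063599355) (nat_lit 760) (nat_lit 1127938352) (nat_lit 291) (nat_lit 5) (nat_lit 300) (nat_lit 5) (nat_lit 301) (nat_lit 5) (nat_lit 434) (nat_lit 376) (nat_lit 330)) (XT.lf (nat_lit 0) (nat_lit 1503081313) (nat_lit 760) (nat_lit 1845694395) (nat_lit 76) (nat_lit 4974421676) (nat_lit 290) (nat_lit 5) (nat_lit 300) (nat_lit 5) (nat_lit 291) (nat_lit 5)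 (nat_lit 435) (nat_lit 376) (nat_lit 329))))) (XT.nd (nat_lit 234) (nat_lit 1368) (nat_lit 0) (XT.nd (nat_lit 78) (nat_lit 760) (nat_lit 0) (XT.lf (nat_lit 0) (nat_lit 3600105747) (nat_lit 760) (nat_lit 554301873) (nat_lit 836) (nat_lit 4242474385) (nat_lit 280) (nat_lit 5) (nat_lit 290) (nat_lit 5) (nat_lit 291) (nat_lit 5) (nat_lit 436) (nat_lit 376) (nat_lit 328)) (XT.nd (nat_lit 78) (nat_lit 76) (nat_lit 0) (XT.lf (nat_lit 0) (nat_lit 654465441) (nat_lit 684) (nat_lit 6195774281) (nat_lit 760) (nat_lit 1621987363) (nat_lit 271) (nat_lit 5) (nat_lit 280) (nat_lit 5) (nat_lit 281) (nat_lit 5) (nat_lit 437) (nat_lit 376) (nat_lit 327)) (XT.lf (nat_lit 0) (nat_lit 1033258745) (nat_lit 760) (nat_lit 2326801703) (nat_lit 76) (nat_lit 5188975229) (nat_lit 270) (nat_lit 5) (nat_lit 280) (nat_lit 5) (nat_lit 271) (nat_lit 5) (nat_lit 438) (nat_lit 376) (nat_lit 326)))) (XT.nd (nat_lit 78) (nat_lit 684) (nat_lit 0) (XT.lf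 (nat_lit 0) (nat_lit 3259501704) (nat_lit 684) (nat_lit 442415235) (nat_lit 760) (nat_lit 4925623973) (nat_lit 261) (nat_lit 5) (nat_lit 270) (nat_lit 5) (nat_lit 271) (nat_lit 5) (nat_lit 439) (nat_lit 376) (nat_lit 325)) (XT.nd (nat_lit 78) (nat_lit 76) (nat_lit 0) (XT.lf (nat_lit 0) (nat_lit 221198044) (nat_lit 608) (nat_lit 6197615379) (nat_lit 684) (nat_lit 2288920633) (nat_lit 253) (nat_lit 5) (nat_lit 261) (nat_lit 5) (nat_lit 262) (nat_lit 5) (nat_lit 440) (nat_lit 376) (nat_lit 324)) (XT.lf (nat_lit 0) (nat_lit 395905368) (nat_lit 684) (nat_lit 2846729947) (nat_lit 76) (nat_lit 5546845431) (nat_lit 252) (nat_lit 5) (nat_lit 261) (nat_lit 5) (nat_lit 253) (nat_lit 5) (nat_lit 441) (nat_lit 376) (nat_lit 323))))))))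
noncomputable def xc84 : XT := (XT.nd (nat_lit 1638) (nat_lit 4560) (nat_lit 0) (XT.nd (nat_lit 780) (nat_lit 3420) (nat_lit 0) (XT.nd (nat_lit 390) (nat_lit 2356) (nat_lit 0) (XT.nd (nat_lit 156) (nat_lit 1292) (nat_lit 0) (XT.nd (nat_lit 78) (nat_lit 0) (nat_lit 0) (XT.lf (nat_lit 0) (nat_lit 2882304317) (nat_lit 608) (nat_lit 202423891) (nat_lit 684) (nat_lit 5788226823) (nat_lit 244) (nat_lit 5) (nat_lit 252) (nat_lit 5) (nat_lit 253) (nat_lit 5) (nat_lit 442) (nat_lit 376) (nat_lit 322)) (XT.lf (nat_lit 0) (nat_lit 5827970569) (nat_lit 684) (nat_lit 258768225) (nat_lit 76) (nat_lit 2871361104) (nat_lit 244) (nat_lit 5) (nat_lit 253) (nat_lit 5) (nat_lit 245) (nat_lit 5) (nat_lit 443) (nat_lit 376) (nat_lit 321))) (XT.nd (nat_lit 78) (nat_lit 684) (nat_lit 0) (XT.lf (nat_lit 0) (nat_lit 5614345654) (nat_lit 608) (nat_lit 3012852102) (nat_lit 684) (nat_lit 417741190) (nat_lit 236) (nat_lit 5) (nat_lit 244) (nat_lit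 5) (nat_lit 245) (nat_lit 5) (nat_lit 444) (nat_lit 376) (nat_lit 320)) (XT.nd (nat_lit 78) (nat_lit 0) (nat_lit 0) (XT.lf (nat_lit 0) (nat_lit 2300167274) (nat_lit 684) (nat_lit 6688683638) (nat_lit 76) (nat_lit 144730427) (nat_lit 227) (nat_lit 5) (nat_lit 236) (nat_lit 5) (nat_lit 228) (nat_lit 5) (nat_lit 445) (nat_lit 376) (nat_lit 319)) (XT.lf (nat_lit 0) (nat_lit 5073828106) (nat_lit 684) (nat_lit 808273933) (nat_lit 76) (nat_lit 3341712456) (nat_lit 227) (nat_lit 5) (nat_lit 236) (nat_lit 5) (nat_lit 228) (nat_lit 5) (nat_lit 446) (nat_lit 376) (nat_lit 318))))) (XT.nd (nat_lit 156) (nat_lit 1140) (nat_lit 0) (XT.nd (nat_lit 78) (nat_lit 684) (nat_lit 0) (XT.lf (nat_lit 0) (nat_lit 5212750056) (nat_lit 532) (nat_lit 2688621745) (nat_lit 608) (nat_lit 1414524961) (nat_lit 220) (nat_lit 5) (nat_lit 227) (nat_lit 5) (nat_lit 228) (nat_lit 5) (nat_lit 447) (nat_lit 376) (nat_lit 317)) (XT.lf (nat_lit 0) (nat_lit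 1344096881) (nat_lit 684) (nat_lit 7487613548) (nat_lit 76) (nat_lit 578213903) (nat_lit 211) (nat_lit 5) (nat_lit 220) (nat_lit 5) (nat_lit 212) (nat_lit 5) (nat_lit 448) (nat_lit 376) (nat_lit 316))) (XT.nd (nat_lit 78) (nat_lit 1140) (nat_lit 0) (XT.lf (nat_lit 0) (nat_lit 4149544121) (nat_lit 684) (nat_lit 1454625797) (nat_lit 76) (nat_lit 3901275578) (nat_lit 211) (nat_lit 5) (nat_lit 220) (nat_lit 5) (nat_lit 212) (nat_lit 5) (nat_lit 449) (nat_lit 376) (nat_lit 315)) (XT.nd (nat_lit 78) (nat_lit 608) (nat_lit 0) (XT.lf (nat_lit 0) (nat_lit 4715885922) (nat_lit 532) (nat_lit 2291571947) (nat_lit 608) (nat_lit 2595503741) (nat_lit 204) (nat_lit 5) (nat_lit 211) (nat_lit 5) (nat_lit 212) (nat_lit 5) (nat_lit 450) (nat_lit 376) (nat_lit 314)) (XT.lf (nat_lit 0) (nat_lit 208469276) (nat_lit 608) (nat_lit 8412181779) (nat_lit 76) (nat_lit 1081934555) (nat_lit 196) (nat_lit 5) (nat_lit 204) (nat_lit 5) (nat_lit 197)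 (nat_lit 5) (nat_lit 451) (nat_lit 376) (nat_lit 313)))))) (XT.nd (nat_lit 390) (nat_lit 1900) (nat_lit 0) (XT.nd (nat_lit 156) (nat_lit 1064) (nat_lit 0) (XT.nd (nat_lit 78) (nat_lit 456) (nat_lit 0) (XT.lf (nat_lit 0) (nat_lit 3048178810) (nat_lit 608) (nat_lit 2223920185) (nat_lit 76) (nat_lit 4531482755) (nat_lit 196) (nat_lit 5) (nat_lit 204) (nat_lit 5) (nat_lit 197) (nat_lit 5) (nat_lit 452) (nat_lit 376) (nat_lit 312)) (XT.lf (nat_lit 0) (nat_lit 4097263966) (nat_lit 456) (nat_lit 1840874015) (nat_lit 532) (nat_lit 3968601513) (nat_lit 190) (nat_lit 5) (nat_lit 196) (nat_lit 5) (nat_lit 197) (nat_lit 5) (nat_lit 453) (nat_lit 376) (nat_lit 311))) (XT.nd (nat_lit 78) (nat_lit 532) (nat_lit 0) (XT.lf (nat_lit 0) (nat_lit 514354217) (nat_lit 532) (nat_lit 8367816343) (nat_lit 608) (nat_lit 1129874926) (nat_lit 183) (nat_lit 5) (nat_lit 190) (nat_lit 5) (nat_lit 191) (nat_lit 5) (nat_lit 454) (nat_lit 376) (nat_lit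 310)) (XT.nd (nat_lit 78) (nat_lit 456) (nat_lit 0) (XT.lf (nat_lit 0) (nat_lit 1761174083) (nat_lit 608) (nat_lit 3144208603) (nat_lit 76) (nat_lit 5213481718) (nat_lit 182) (nat_lit 5) (nat_lit 190) (nat_lit 5) (nat_lit 183) (nat_lit 5) (nat_lit 455) (nat_lit 376) (nat_lit 309)) (XT.lf (nat_lit 0) (nat_lit 3328368931) (nat_lit 456) (nat_lit 1356082359) (nat_lit 532) (nat_lit 5543438285) (nat_lit 176) (nat_lit 5) (nat_lit 182) (nat_lit 5) (nat_lit 183) (nat_lit 5) (nat_lit 456) (nat_lit 376) (nat_lit 308))))) (XT.nd (nat_lit 234) (nat_lit 912) (nat_lit 0) (XT.nd (nat_lit 78) (nat_lit 988) (nat_lit 0) (XT.lf (nat_lit 0) (nat_lit 7670311716) (nat_lit 532) (nat_lit 424915032) (nat_lit 76) (nat_lit 2243795918) (nat_lit 176) (nat_lit 5) (nat_lit 183) (nat_lit 5) (nat_lit 177) (nat_lit 5) (nat_lit 457) (nat_lit 376) (nat_lit 307)) (XT.nd (nat_lit 78) (nat_lit 456) (nat_lit 0) (XT.lf (nat_lit 0) (nat_lit 278254785) (nat_lit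 532) (nat_lit 4245783762) (nat_lit 76) (nat_lit 5927951050) (nat_lit 169) (nat_lit 5) (nat_lit 176) (nat_lit 5) (nat_lit 170) (nat_lit 5) (nat_lit 458) (nat_lit 376) (nat_lit 306)) (XT.lf (nat_lit 0) (nat_lit 2378365655) (nat_lit 456) (nat_lit 857324808) (nat_lit 532) (nat_lit 7331436516) (nat_lit 163) (nat_lit 5) (nat_lit 169) (nat_lit 5) (nat_lit 170) (nat_lit 5) (nat_lit 459) (nat_lit 376) (nat_lit 305)))) (XT.nd (nat_lit 78) (nat_lit 912) (nat_lit 0) (XT.lf (nat_lit 0) (nat_lit 6268836158) (nat_lit 532) (nat_lit 1554291029) (nat_lit 76) (nat_lit 2861117723) (nat_lit 163) (nat_lit 5) (nat_lit 170) (nat_lit 5) (nat_lit 164) (nat_lit 5) (nat_lit 460) (nat_lit 376) (nat_lit 304)) (XT.nd (nat_lit 78) (nat_lit 456) (nat_lit 0) (XT.lf (nat_lit 0) (nat_lit 5232741637) (nat_lit 456) (nat_lit 4139324443) (nat_lit 532) (nat_lit 1431459543) (nat_lit 157) (nat_lit 5) (nat_lit 163) (nat_lit 5) (nat_lit 164) (nat_lit 5) (nat_lit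 461) (nat_lit 376) (nat_lit 303)) (XT.lf (nat_lit 0) (nat_lit 1213779881) (nat_lit 380) (nat_lit 365502202) (nat_lit 456) (nat_lit 9345943885) (nat_lit 151) (nat_lit 5) (nat_lit 156) (nat_lit 5) (nat_lit 157) (nat_lit 5) (nat_lit 462) (nat_lit 376) (nat_lit 302))))))) (XT.nd (nat_lit 780) (nat_lit 2128) (nat_lit 0) (XT.nd (nat_lit 390) (nat_lit 1140) (nat_lit 0) (XT.nd (nat_lit 156) (nat_lit 836) (nat_lit 0) (XT.nd (nat_lit 78) (nat_lit 456) (nat_lit 0) (XT.lf (nat_lit 0) (nat_lit 4661443134) (nat_lit 456) (nat_lit 2914849102) (nat_lit 76) (nat_lit 3472279747) (nat_lit 151) (nat_lit 5) (nat_lit 157) (nat_lit 5) (nat_lit 152) (nat_lit 5) (nat_lit 463) (nat_lit 376) (nat_lit 301)) (XT.lf (nat_lit 0) (nat_lit 4025467378) (nat_lit 456) (nat_lit 3779027105) (nat_lit 532) (nat_lit 3369913671) (nat_lit 145) (nat_lit 5) (nat_lit 151) (nat_lit 5) (nat_lit 152) (nat_lit 5) (nat_lit 464) (nat_lit 376) (nat_lit 300))) (XT.nd (nat_lit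 78) (nat_lit 836) (nat_lit 0) (XT.lf (nat_lit 0) (nat_lit 11001612278) (nat_lit 532) (nat_lit 201817474) (nat_lit 76) (nat_lit 99515204) (nat_lit 145) (nat_lit 5) (nat_lit 152) (nat_lit 5) (nat_lit 146) (nat_lit 5) (nat_lit 465) (nat_lit 376) (nat_lit 299)) (XT.nd (nat_lit 78) (nat_lit 380) (nat_lit 0) (XT.lf (nat_lit 0) (nat_lit 2833139902) (nat_lit 456) (nat_lit 4544022020) (nat_lit 76) (nat_lit 4055698616) (nat_lit 139) (nat_lit 5) (nat_lit 145) (nat_lit 5) (nat_lit 140) (nat_lit 5) (nat_lit 466) (nat_lit 376) (nat_lit 298)) (XT.lf (nat_lit 0) (nat_lit 2548031084) (nat_lit 380) (nat_lit 3467715289) (nat_lit 456) (nat_lit 5549806190) (nat_lit 134) (nat_lit 5) (nat_lit 139) (nat_lit 5) (nat_lit 140) (nat_lit 5) (nat_lit 467) (nat_lit 376) (nat_lit 297))))) (XT.nd (nat_lit 156) (nat_lit 684) (nat_lit 0) (XT.nd (nat_lit 78) (nat_lit 456) (nat_lit 0) (XT.lf (nat_lit 0) (nat_lit 9267841505) (nat_lit 456) (nat_lit 1902628554)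 (nat_lit 76) (nat_lit 530319046) (nat_lit 134) (nat_lit 5) (nat_lit 140) (nat_lit 5) (nat_lit 135) (nat_lit 5) (nat_lit 468) (nat_lit 376) (nat_lit 296)) (XT.lf (nat_lit 0) (nat_lit 766741400) (nat_lit 456) (nat_lit 6482733737) (nat_lit 76) (nat_lit 4588559847) (nat_lit 128) (nat_lit 5) (nat_lit 134) (nat_lit 5) (nat_lit 129) (nat_lit 5) (nat_lit 469) (nat_lit 376) (nat_lit 295))) (XT.nd (nat_lit 78) (nat_lit 304) (nat_lit 0) (XT.lf (nat_lit 0) (nat_lit 758607413) (nat_lit 380) (nat_lit 3229454236) (nat_lit 456) (nat_lit 7989845183) (nat_lit 123) (nat_lit 5) (nat_lit 128) (nat_lit 5) (nat_lit 129) (nat_lit 5) (nat_lit 470) (nat_lit 376) (nat_lit 294)) (XT.nd (nat_lit 78) (nat_lit 304) (nat_lit 0) (XT.lf (nat_lit 0) (nat_lit 7295842833) (nat_lit 456) (nat_lit 3934742644) (nat_lit 76) (nat_lit 889556790) (nat_lit 123) (nat_lit 5) (nat_lit 129) (nat_lit 5) (nat_lit 124) (nat_lit 5) (nat_lit 471) (nat_lit 376) (nat_lit 293))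 (XT.lf (nat_lit 0) (nat_lit 3478817851) (nat_lit 304) (nat_lit 7208062150) (nat_lit 380) (nat_lit 1578007111) (nat_lit 119) (nat_lit 5) (nat_lit 123) (nat_lit 5) (nat_lit 124) (nat_lit 5) (nat_lit 472) (nat_lit 376) (nat_lit 292)))))) (XT.nd (nat_lit 390) (nat_lit 988) (nat_lit 0) (XT.nd (nat_lit 156) (nat_lit 684) (nat_lit 0) (XT.nd (nat_lit 78) (nat_lit 380) (nat_lit 0) (XT.lf (nat_lit 0) (nat_lit 1710265438) (nat_lit 380) (nat_lit 1370459650) (nat_lit 76) (nat_lit 9331587435) (nat_lit 118) (nat_lit 5) (nat_lit 123) (nat_lit 5) (nat_lit 119) (nat_lit 5) (nat_lit 473) (nat_lit 376) (nat_lit 291)) (XT.lf (nat_lit 0) (nat_lit 5064916413) (nat_lit 456) (nat_lit 6345346676) (nat_lit 76) (nat_lit 1151786212) (nat_lit 113) (nat_lit 5) (nat_lit 119) (nat_lit 5) (nat_lit 114) (nat_lit 5) (nat_lit 474) (nat_lit 376) (nat_lit 290))) (XT.nd (nat_lit 78) (nat_lit 380) (nat_lit 0) (XT.lf (nat_lit 0) (nat_lit 1214669781) (nat_lit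 304) (nat_lit 7283433871) (nat_lit 380) (nat_lit 4216454494) (nat_lit 109) (nat_lit 5) (nat_lit 113) (nat_lit 5) (nat_lit 114) (nat_lit 5) (nat_lit 475) (nat_lit 376) (nat_lit 289)) (XT.nd (nat_lit 78) (nat_lit 380) (nat_lit 0) (XT.lf (nat_lit 0) (nat_lit 8971779130) (nat_lit 304) (nat_lit 3044904692) (nat_lit 380) (nat_lit 853104838) (nat_lit 109) (nat_lit 5) (nat_lit 113) (nat_lit 5) (nat_lit 114) (nat_lit 5) (nat_lit 476) (nat_lit 376) (nat_lit 288)) (XT.lf (nat_lit 0) (nat_lit 2551670305) (nat_lit 380) (nat_lit 9186303317) (nat_lit 76) (nat_lit 1289662043) (nat_lit 104) (nat_lit 5) (nat_lit 109) (nat_lit 5) (nat_lit 105) (nat_lit 5) (nat_lit 477) (nat_lit 376) (nat_lit 287))))) (XT.nd (nat_lit 234) (nat_lit 380) (nat_lit 0) (XT.nd (nat_lit 78) (nat_lit 608) (nat_lit 0) (XT.lf (nat_lit 0) (nat_lit 6034258755) (nat_lit 380) (nat_lit 1465641609) (nat_lit 76) (nat_lit 5688209373) (nat_lit 104) (nat_lit 5) (nat_lit 109)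 (nat_lit 5) (nat_lit 105) (nat_lit 5) (nat_lit 478) (nat_lit 376) (nat_lit 286)) (XT.nd (nat_lit 78) (nat_lit 304) (nat_lit 0) (XT.lf (nat_lit 0) (nat_lit 6455036511) (nat_lit 304) (nat_lit 3148504549) (nat_lit 380) (nat_lit 3747917002) (nat_lit 100) (nat_lit 5) (nat_lit 104) (nat_lit 5) (nat_lit 105) (nat_lit 5) (nat_lit 479) (nat_lit 376) (nat_lit 285)) (XT.lf (nat_lit 0) (nat_lit 1001609834) (nat_lit 304) (nat_lit 12242653102) (nat_lit 380) (nat_lit 273814842) (nat_lit 96) (nat_lit 5) (nat_lit 100) (nat_lit 5) (nat_lit 101) (nat_lit 5) (nat_lit 480) (nat_lit 376) (nat_lit 284)))) (XT.nd (nat_lit 78) (nat_lit 304) (nat_lit 0) (XT.lf (nat_lit 0) (nat_lit 3269661705) (nat_lit 380) (nat_lit 4617686773) (nat_lit 76) (nat_lit 5799406589) (nat_lit 95) (nat_lit 5) (nat_lit 100) (nat_lit 5) (nat_lit 96) (nat_lit 5) (nat_lit 481) (nat_lit 376) (nat_lit 283)) (XT.nd (nat_lit 78) (nat_lit 0) (nat_lit 0) (XT.lf (nat_lit 0) (nat_lit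 3443914333) (nat_lit 304) (nat_lit 3434614041) (nat_lit 380) (nat_lit 6980282776) (nat_lit 91) (nat_lit 5) (nat_lit 95) (nat_lit 5) (nat_lit 96) (nat_lit 5) (nat_lit 482) (nat_lit 376) (nat_lit 282)) (XT.lf (nat_lit 0) (nat_lit 10573909365) (nat_lit 380) (nat_lit 2350388687) (nat_lit 76) (nat_lit 1109728646) (nat_lit 91) (nat_lit 5) (nat_lit 96) (nat_lit 5) (nat_lit 92) (nat_lit 5) (nat_lit 483) (nat_lit 376) (nat_lit 281))))))))
noncomputable def xc85 : XT := (XT.nd (nat_lit 1638) (nat_lit 304) (nat_lit 0) (XT.nd (nat_lit 780) (nat_lit 1444) (nat_lit 0) (XT.nd (nat_lit 390) (nat_lit 836) (nat_lit 0) (XT.nd (nat_lit 156) (nat_lit 608) (nat_lit 0) (XT.nd (nat_lit 78) (nat_lit 0) (nat_lit 0) (XT.lf (nat_lit 0) (nat_lit 166411953) (nat_lit 380) (nat_lit 8321048657) (nat_lit 76) (nat_lit 5724520467) (nat_lit 86) (nat_lit 5) (nat_lit 91) (nat_lit 5) (nat_lit 87) (nat_lit 5) (nat_lit 484) (nat_lit 376) (nat_lit 280)) (XT.lf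 (nat_lit 0) (nat_lit 3811546889) (nat_lit 380) (nat_lit 125216117) (nat_lit 76) (nat_lit 10456430779) (nat_lit 86) (nat_lit 5) (nat_lit 91) (nat_lit 5) (nat_lit 87) (nat_lit 5) (nat_lit 485) (nat_lit 376) (nat_lit 279))) (XT.nd (nat_lit 78) (nat_lit 380) (nat_lit 0) (XT.lf (nat_lit 0) (nat_lit 7565303446) (nat_lit 304) (nat_lit 6276002677) (nat_lit 76) (nat_lit 736014941) (nat_lit 83) (nat_lit 5) (nat_lit 87) (nat_lit 5) (nat_lit 84) (nat_lit 5) (nat_lit 486) (nat_lit 376) (nat_lit 278)) (XT.nd (nat_lit 78) (nat_lit 76) (nat_lit 0) (XT.lf (nat_lit 0) (nat_lit 2097054672) (nat_lit 304) (nat_lit 9314680293) (nat_lit 380) (nat_lit 3353048531) (nat_lit 79) (nat_lit 5) (nat_lit 83) (nat_lit 5) (nat_lit 84) (nat_lit 5) (nat_lit 487) (nat_lit 376) (nat_lit 277)) (XT.lf (nat_lit 0) (nat_lit 393643301) (nat_lit 380) (nat_lit 4272648508) (nat_lit 76) (nat_lit 10289268261) (nat_lit 78) (nat_lit 5) (nat_lit 83) (nat_lit 5) (nat_lit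 79) (nat_lit 5) (nat_lit 488) (nat_lit 376) (nat_lit 276))))) (XT.nd (nat_lit 156) (nat_lit 608) (nat_lit 0) (XT.nd (nat_lit 78) (nat_lit 0) (nat_lit 0) (XT.lf (nat_lit 0) (nat_lit 4176548260) (nat_lit 304) (nat_lit 10862636946) (nat_lit 76) (nat_lit 110404502) (nat_lit 75) (nat_lit 5) (nat_lit 79) (nat_lit 5) (nat_lit 76) (nat_lit 5) (nat_lit 489) (nat_lit 376) (nat_lit 275)) (XT.lf (nat_lit 0) (nat_lit 8072556362) (nat_lit 304) (nat_lit 2339139440) (nat_lit 76) (nat_lit 4935059491) (nat_lit 75) (nat_lit 5) (nat_lit 79) (nat_lit 5) (nat_lit 76) (nat_lit 5) (nat_lit 490) (nat_lit 376) (nat_lit 274))) (XT.nd (nat_lit 78) (nat_lit 304) (nat_lit 0) (XT.lf (nat_lit 0) (nat_lit 6402738937) (nat_lit 304) (nat_lit 5663434999) (nat_lit 380) (nat_lit 3481300638) (nat_lit 71) (nat_lit 5) (nat_lit 75) (nat_lit 5) (nat_lit 76) (nat_lit 5) (nat_lit 491) (nat_lit 376) (nat_lit 273)) (XT.nd (nat_lit 78) (nat_lit 228) (nat_lit 0) (XT.lf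 (nat_lit 0) (nat_lit 376342166) (nat_lit 380) (nat_lit 439470396) (nat_lit 76) (nat_lit 14936470011) (nat_lit 70) (nat_lit 5) (nat_lit 75) (nat_lit 5) (nat_lit 71) (nat_lit 5) (nat_lit 492) (nat_lit 376) (nat_lit 272)) (XT.lf (nat_lit 0) (nat_lit 4325536760) (nat_lit 304) (nat_lit 7494469224) (nat_lit 76) (nat_lit 4139504180) (nat_lit 67) (nat_lit 5) (nat_lit 71) (nat_lit 5) (nat_lit 68) (nat_lit 5) (nat_lit 493) (nat_lit 376) (nat_lit 271)))))) (XT.nd (nat_lit 390) (nat_lit 684) (nat_lit 0) (XT.nd (nat_lit 156) (nat_lit 532) (nat_lit 0) (XT.nd (nat_lit 78) (nat_lit 0) (nat_lit 0) (XT.lf (nat_lit 0) (nat_lit 1359671059) (nat_lit 228) (nat_lit 6989939426) (nat_lit 304) (nat_lit 7821357770) (nat_lit 64) (nat_lit 5) (nat_lit 67) (nat_lit 5) (nat_lit 68) (nat_lit 5) (nat_lit 494) (nat_lit 376) (nat_lit 270)) (XT.lf (nat_lit 0) (nat_lit 10457201981) (nat_lit 228) (nat_lit 2026140201) (nat_lit 304) (nat_lit 3902733572) (nat_lit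 64) (nat_lit 5) (nat_lit 67) (nat_lit 5) (nat_lit 68) (nat_lit 5) (nat_lit 495) (nat_lit 376) (nat_lit 269))) (XT.nd (nat_lit 78) (nat_lit 228) (nat_lit 0) (XT.lf (nat_lit 0) (nat_lit 112316969) (nat_lit 304) (nat_lit 13488395906) (nat_lit 76) (nat_lit 3004378117) (nat_lit 60) (nat_lit 5) (nat_lit 64) (nat_lit 5) (nat_lit 61) (nat_lit 5) (nat_lit 496) (nat_lit 376) (nat_lit 268)) (XT.nd (nat_lit 78) (nat_lit 228) (nat_lit 0) (XT.lf (nat_lit 0) (nat_lit 4188178173) (nat_lit 304) (nat_lit 4478642607) (nat_lit 76) (nat_lit 8160498027) (nat_lit 60) (nat_lit 5) (nat_lit 64) (nat_lit 5) (nat_lit 61) (nat_lit 5) (nat_lit 497) (nat_lit 376) (nat_lit 267)) (XT.lf (nat_lit 0) (nat_lit 4739179565) (nat_lit 228) (nat_lit 3616804690) (nat_lit 304) (nat_lit 8697801859) (nat_lit 57) (nat_lit 5) (nat_lit 60) (nat_lit 5) (nat_lit 61) (nat_lit 5) (nat_lit 498) (nat_lit 376) (nat_lit 266))))) (XT.nd (nat_lit 234) (nat_lit 380) (nat_lit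 0) (XT.nd (nat_lit 78) (nat_lit 304) (nat_lit 0) (XT.lf (nat_lit 0) (nat_lit 12627105982) (nat_lit 304) (nat_lit 3126646849) (nat_lit 76) (nat_lit 1530634168) (nat_lit 57) (nat_lit 5) (nat_lit 61) (nat_lit 5) (nat_lit 58) (nat_lit 5) (nat_lit 499) (nat_lit 376) (nat_lit 265)) (XT.nd (nat_lit 78) (nat_lit 76) (nat_lit 0) (XT.lf (nat_lit 0) (nat_lit 6269648868) (nat_lit 228) (nat_lit 10758802811) (nat_lit 304) (nat_lit 490255546) (nat_lit 54) (nat_lit 5) (nat_lit 57) (nat_lit 5) (nat_lit 58) (nat_lit 5) (nat_lit 500) (nat_lit 376) (nat_lit 264)) (XT.lf (nat_lit 0) (nat_lit 3712097174) (nat_lit 304) (nat_lit 1919336596) (nat_lit 76) (nat_lit 12125769022) (nat_lit 53) (nat_lit 5) (nat_lit 57) (nat_lit 5) (nat_lit 54) (nat_lit 5) (nat_lit 501) (nat_lit 376) (nat_lit 263)))) (XT.nd (nat_lit 78) (nat_lit 152) (nat_lit 0) (XT.lf (nat_lit 0) (nat_lit 7661128274) (nat_lit 228) (nat_lit 361120893) (nat_lit 304) (nat_lit 9977551116)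 (nat_lit 50) (nat_lit 5) (nat_lit 53) (nat_lit 5) (nat_lit 54) (nat_lit 5) (nat_lit 502) (nat_lit 376) (nat_lit 262)) (XT.nd (nat_lit 78) (nat_lit 152) (nat_lit 0) (XT.lf (nat_lit 0) (nat_lit 12444776140) (nat_lit 304) (nat_lit 853580053) (nat_lit 76) (nat_lit 4948373192) (nat_lit 50) (nat_lit 5) (nat_lit 54) (nat_lit 5) (nat_lit 51) (nat_lit 5) (nat_lit 503) (nat_lit 376) (nat_lit 261)) (XT.lf (nat_lit 0) (nat_lit 8903073821) (nat_lit 152) (nat_lit 8093904241) (nat_lit 228) (nat_lit 1500797555) (nat_lit 48) (nat_lit 5) (nat_lit 50) (nat_lit 5) (nat_lit 51) (nat_lit 5) (nat_lit 504) (nat_lit 376) (nat_lit 260))))))) (XT.nd (nat_lit 50856) (nat_lit 0) (nat_lit 39976) (XT.nd (nat_lit 50388) (nat_lit 0) (nat_lit 46208) (XT.nd (nat_lit 50154) (nat_lit 0) (nat_lit 47804) (XT.nd (nat_lit 50076) (nat_lit 0) (nat_lit 48184) (XT.lf (nat_lit 0) (nat_lit 62185920) (nat_lit 228) (nat_lit 2773572574) (nat_lit 304) (nat_lit 15917967741)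 (nat_lit 44) (nat_lit 5) (nat_lit 47) (nat_lit 5) (nat_lit 48) (nat_lit 5) (nat_lit 505) (nat_lit 376) (nat_lit 259)) (XT.lf (nat_lit 0) (nat_lit 14515098) (nat_lit 228) (nat_lit 1607687072) (nat_lit 228) (nat_lit 1607687072) (nat_lit 678) (nat_lit 4) (nat_lit 681) (nat_lit 5) (nat_lit 681) (nat_lit 4) (nat_lit 386) (nat_lit 377) (nat_lit 377))) (XT.nd (nat_lit 78) (nat_lit 380) (nat_lit 0) (XT.lf (nat_lit 0) (nat_lit 3434134636) (nat_lit 228) (nat_lit 2916502626) (nat_lit 228) (nat_lit 115641997) (nat_lit 678) (nat_lit 4) (nat_lit 681) (nat_lit 5) (nat_lit 681) (nat_lit 4) (nat_lit 387) (nat_lit 377) (nat_lit 376)) (XT.nd (nat_lit 78) (nat_lit 0) (nat_lit 0) (XT.lf (nat_lit 0) (nat_lit 374114044) (nat_lit 304) (nat_lit 2557032721) (nat_lit 380) (nat_lit 3542927924) (nat_lit 673) (nat_lit 5) (nat_lit 677) (nat_lit 5) (nat_lit 678) (nat_lit 4) (nat_lit 388) (nat_lit 377) (nat_lit 375)) (XT.lf (nat_lit 0) (nat_lit 3843675935)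 (nat_lit 304) (nat_lit 2137798398) (nat_lit 380) (nat_lit 501712615) (nat_lit 673) (nat_lit 5) (nat_lit 677) (nat_lit 5) (nat_lit 678) (nat_lit 4) (nat_lit 389) (nat_lit 377) (nat_lit 374))))) (XT.nd (nat_lit 234) (nat_lit 608) (nat_lit 0) (XT.nd (nat_lit 78) (nat_lit 532) (nat_lit 0) (XT.lf (nat_lit 0) (nat_lit 838948340) (nat_lit 380) (nat_lit 1657471653) (nat_lit 456) (nat_lit 3997176800) (nat_lit 667) (nat_lit 5) (nat_lit 672) (nat_lit 5) (nat_lit 673) (nat_lit 5) (nat_lit 390) (nat_lit 377) (nat_lit 373)) (XT.nd (nat_lit 78) (nat_lit 532) (nat_lit 0) (XT.lf (nat_lit 0) (nat_lit 4374368363) (nat_lit 380) (nat_lit 1117058818) (nat_lit 456) (nat_lit 1013904552) (nat_lit 667) (nat_lit 5) (nat_lit 672) (nat_lit 5) (nat_lit 673) (nat_lit 5) (nat_lit 391) (nat_lit 377) (nat_lit 372)) (XT.lf (nat_lit 0) (nat_lit 1423527364) (nat_lit 456) (nat_lit 514987447) (nat_lit 532) (nat_lit 4579854882) (nat_lit 660) (nat_lit 5) (nat_lit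 666) (nat_lit 5) (nat_lit 667) (nat_lit 5) (nat_lit 392) (nat_lit 377) (nat_lit 371)))) (XT.nd (nat_lit 78) (nat_lit 608) (nat_lit 0) (XT.lf (nat_lit 0) (nat_lit 4879626782) (nat_lit 532) (nat_lit 1507377469) (nat_lit 76) (nat_lit 145718315) (nat_lit 660) (nat_lit 5) (nat_lit 667) (nat_lit 5) (nat_lit 661) (nat_lit 5) (nat_lit 393) (nat_lit 377) (nat_lit 370)) (XT.nd (nat_lit 78) (nat_lit 0) (nat_lit 0) (XT.lf (nat_lit 0) (nat_lit 1261146124) (nat_lit 608) (nat_lit 4426026696) (nat_lit 76) (nat_lit 861138854) (nat_lit 652) (nat_lit 5) (nat_lit 660) (nat_lit 5) (nat_lit 653) (nat_lit 5) (nat_lit 394) (nat_lit 377) (nat_lit 369)) (XT.lf (nat_lit 0) (nat_lit 4151896356) (nat_lit 608) (nat_lit 776352320) (nat_lit 76) (nat_lit 1636987748) (nat_lit 652) (nat_lit 5) (nat_lit 660) (nat_lit 5) (nat_lit 653) (nat_lit 5) (nat_lit 395) (nat_lit 377) (nat_lit 368)))))) (XT.nd (nat_lit 390) (nat_lit 4028) (nat_lit 0) (XT.nd (nat_lit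 156) (nat_lit 836) (nat_lit 0) (XT.nd (nat_lit 78) (nat_lit 684) (nat_lit 0) (XT.lf (nat_lit 0) (nat_lit 461403691) (nat_lit 684) (nat_lit 3647097471) (nat_lit 76) (nat_lit 2474974192) (nat_lit 643) (nat_lit 5) (nat_lit 652) (nat_lit 5) (nat_lit 644) (nat_lit 5) (nat_lit 396) (nat_lit 377) (nat_lit 367)) (XT.lf (nat_lit 0) (nat_lit 70779072) (nat_lit 684) (nat_lit 3228363898) (nat_lit 760) (nat_lit 3303907452) (nat_lit 634) (nat_lit 5) (nat_lit 643) (nat_lit 5) (nat_lit 644) (nat_lit 5) (nat_lit 397) (nat_lit 377) (nat_lit 366))) (XT.nd (nat_lit 78) (nat_lit 836) (nat_lit 0) (XT.lf (nat_lit 0) (nat_lit 3866709628) (nat_lit 684) (nat_lit 2284517392) (nat_lit 760) (nat_lit 472683963) (nat_lit 634) (nat_lit 5) (nat_lit 643) (nat_lit 5) (nat_lit 644) (nat_lit 5) (nat_lit 398) (nat_lit 377) (nat_lit 365)) (XT.nd (nat_lit 78) (nat_lit 0) (nat_lit 0) (XT.lf (nat_lit 0) (nat_lit 1045637105) (nat_lit 760) (nat_lit 1278589479)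 (nat_lit 836) (nat_lit 4321877813) (nat_lit 623) (nat_lit 5) (nat_lit 633) (nat_lit 5) (nat_lit 634) (nat_lit 5) (nat_lit 399) (nat_lit 377) (nat_lit 364)) (XT.lf (nat_lit 0) (nat_lit 4913270255) (nat_lit 760) (nat_lit 210912306) (nat_lit 836) (nat_lit 1545471051) (nat_lit 623) (nat_lit 5) (nat_lit 633) (nat_lit 5) (nat_lit 634) (nat_lit 5) (nat_lit 400) (nat_lit 377) (nat_lit 363))))) (XT.nd (nat_lit 234) (nat_lit 2128) (nat_lit 0) (XT.nd (nat_lit 78) (nat_lit 988) (nat_lit 0) (XT.lf (nat_lit 0) (nat_lit 1225208980) (nat_lit 912) (nat_lit 4561713632) (nat_lit 76) (nat_lit 907513277) (nat_lit 611) (nat_lit 5) (nat_lit 623) (nat_lit 5) (nat_lit 612) (nat_lit 5) (nat_lit 401) (nat_lit 377) (nat_lit 362)) (XT.nd (nat_lit 78) (nat_lit 988) (nat_lit 0) (XT.lf (nat_lit 0) (nat_lit 3980733327) (nat_lit 912) (nat_lit 654362572) (nat_lit 76) (nat_lit 2085451773) (nat_lit 611) (nat_lit 5) (nat_lit 623) (nat_lit 5) (nat_lit 612)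 (nat_lit 5) (nat_lit 402) (nat_lit 377) (nat_lit 361)) (XT.lf (nat_lit 0) (nat_lit 2998048) (nat_lit 988) (nat_lit 3418929229) (nat_lit 76) (nat_lit 3326099936) (nat_lit 598) (nat_lit 5) (nat_lit 611) (nat_lit 5) (nat_lit 599) (nat_lit 5) (nat_lit 403) (nat_lit 377) (nat_lit 360)))) (XT.nd (nat_lit 78) (nat_lit 1140) (nat_lit 0) (XT.lf (nat_lit 0) (nat_lit 568173743) (nat_lit 988) (nat_lit 2142509688) (nat_lit 1064) (nat_lit 4066114973) (nat_lit 585) (nat_lit 5) (nat_lit 598) (nat_lit 5) (nat_lit 599) (nat_lit 5) (nat_lit 404) (nat_lit 377) (nat_lit 359)) (XT.nd (nat_lit 78) (nat_lit 1140) (nat_lit 0) (XT.lf (nat_lit 0) (nat_lit 4635433733) (nat_lit 988) (nat_lit 799497520) (nat_lit 1064) (nat_lit 1372003157) (nat_lit 585) (nat_lit 5) (nat_lit 598) (nat_lit 5) (nat_lit 599) (nat_lit 5) (nat_lit 405) (nat_lit 377) (nat_lit 358)) (XT.lf (nat_lit 0) (nat_lit 1314547758) (nat_lit 1140) (nat_lit 4925701905) (nat_lit 76) (nat_lit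 598148838) (nat_lit 570) (nat_lit 5) (nat_lit 585) (nat_lit 5) (nat_lit 571) (nat_lit 5) (nat_lit 406) (nat_lit 377) (nat_lit 357))))))))
noncomputable def xc86 : XT := (XT.nd (nat_lit 1638) (nat_lit 10108) (nat_lit 0) (XT.nd (nat_lit 780) (nat_lit 8968) (nat_lit 0) (XT.nd (nat_lit 390) (nat_lit 4408) (nat_lit 0) (XT.nd (nat_lit 156) (nat_lit 2660) (nat_lit 0) (XT.nd (nat_lit 78) (nat_lit 1140) (nat_lit 0) (XT.lf (nat_lit 0) (nat_lit 3997625254) (nat_lit 1140) (nat_lit 823522438) (nat_lit 76) (nat_lit 2049974868) (nat_lit 570) (nat_lit 5) (nat_lit 585) (nat_lit 5) (nat_lit 571) (nat_lit 5) (nat_lit 407) (nat_lit 377) (nat_lit 356)) (XT.lf (nat_lit 0) (nat_lit 3358813055) (nat_lit 1140) (nat_lit 3339698506) (nat_lit 1216) (nat_lit 206741302) (nat_lit 555) (nat_lit 5) (nat_lit 570) (nat_lit 5) (nat_lit 571) (nat_lit 5) (nat_lit 408) (nat_lit 377) (nat_lit 355))) (XT.nd (nat_lit 78) (nat_lit 1368) (nat_lit 0) (XT.lf (nat_lit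 0) (nat_lit 641632508) (nat_lit 1216) (nat_lit 1791247050) (nat_lit 1292) (nat_lit 4507843347) (nat_lit 538) (nat_lit 5) (nat_lit 554) (nat_lit 5) (nat_lit 555) (nat_lit 5) (nat_lit 409) (nat_lit 377) (nat_lit 354)) (XT.nd (nat_lit 78) (nat_lit 1368) (nat_lit 0) (XT.lf (nat_lit 0) (nat_lit 4914026555) (nat_lit 1216) (nat_lit 175876872) (nat_lit 1292) (nat_lit 1887656717) (nat_lit 538) (nat_lit 5) (nat_lit 554) (nat_lit 5) (nat_lit 555) (nat_lit 5) (nat_lit 410) (nat_lit 377) (nat_lit 353)) (XT.lf (nat_lit 0) (nat_lit 743193764) (nat_lit 1368) (nat_lit 4790679024) (nat_lit 76) (nat_lit 1481819754) (nat_lit 520) (nat_lit 5) (nat_lit 538) (nat_lit 5) (nat_lit 521) (nat_lit 5) (nat_lit 411) (nat_lit 377) (nat_lit 352))))) (XT.nd (nat_lit 156) (nat_lit 3040) (nat_lit 0) (XT.nd (nat_lit 78) (nat_lit 1368) (nat_lit 0) (XT.lf (nat_lit 0) (nat_lit 3361663496) (nat_lit 1368) (nat_lit 487643703) (nat_lit 76) (nat_lit 3205856098)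 (nat_lit 520) (nat_lit 5) (nat_lit 538) (nat_lit 5) (nat_lit 521) (nat_lit 5) (nat_lit 412) (nat_lit 377) (nat_lit 351)) (XT.lf (nat_lit 0) (nat_lit 3906730102) (nat_lit 1368) (nat_lit 2097363572) (nat_lit 1444) (nat_lit 1091928186) (nat_lit 502) (nat_lit 5) (nat_lit 520) (nat_lit 5) (nat_lit 521) (nat_lit 5) (nat_lit 413) (nat_lit 377) (nat_lit 350))) (XT.nd (nat_lit 78) (nat_lit 1520) (nat_lit 0) (XT.lf (nat_lit 0) (nat_lit 1217378439) (nat_lit 1444) (nat_lit 281616414) (nat_lit 1520) (nat_lit 5639372959) (nat_lit 482) (nat_lit 5) (nat_lit 501) (nat_lit 5) (nat_lit 502) (nat_lit 5) (nat_lit 414) (nat_lit 377) (nat_lit 349)) (XT.nd (nat_lit 78) (nat_lit 1520) (nat_lit 0) (XT.lf (nat_lit 0) (nat_lit 4106262945) (nat_lit 1520) (nat_lit 1490503097) (nat_lit 76) (nat_lit 1585095808) (nat_lit 482) (nat_lit 5) (nat_lit 502) (nat_lit 5) (nat_lit 483) (nat_lit 5) (nat_lit 415) (nat_lit 377) (nat_lit 348)) (XT.lf (nat_lit 0)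 (nat_lit 3020047380) (nat_lit 1520) (nat_lit 3715527578) (nat_lit 1596) (nat_lit 491280753) (nat_lit 462) (nat_lit 5) (nat_lit 482) (nat_lit 5) (nat_lit 483) (nat_lit 5) (nat_lit 416) (nat_lit 377) (nat_lit 347)))))) (XT.nd (nat_lit 390) (nat_lit 3800) (nat_lit 0) (XT.nd (nat_lit 156) (nat_lit 3496) (nat_lit 0) (XT.nd (nat_lit 78) (nat_lit 0) (nat_lit 0) (XT.lf (nat_lit 0) (nat_lit 311870614) (nat_lit 1596) (nat_lit 1765592145) (nat_lit 1672) (nat_lit 5195817670) (nat_lit 440) (nat_lit 5) (nat_lit 461) (nat_lit 5) (nat_lit 462) (nat_lit 5) (nat_lit 417) (nat_lit 377) (nat_lit 346)) (XT.lf (nat_lit 0) (nat_lit 4670380372) (nat_lit 1672) (nat_lit 2394460530) (nat_lit 76) (nat_lit 256166544) (nat_lit 440) (nat_lit 5) (nat_lit 462) (nat_lit 5) (nat_lit 441) (nat_lit 5) (nat_lit 418) (nat_lit 377) (nat_lit 345))) (XT.nd (nat_lit 78) (nat_lit 1824) (nat_lit 0) (XT.lf (nat_lit 0) (nat_lit 2234928458) (nat_lit 1672) (nat_lit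 5056925684) (nat_lit 1748) (nat_lit 78326693) (nat_lit 418) (nat_lit 5) (nat_lit 440) (nat_lit 5) (nat_lit 441) (nat_lit 5) (nat_lit 419) (nat_lit 377) (nat_lit 344)) (XT.nd (nat_lit 78) (nat_lit 1748) (nat_lit 0) (XT.lf (nat_lit 0) (nat_lit 2479027362) (nat_lit 1748) (nat_lit 494176994) (nat_lit 76) (nat_lit 4447487762) (nat_lit 417) (nat_lit 5) (nat_lit 440) (nat_lit 5) (nat_lit 418) (nat_lit 5) (nat_lit 420) (nat_lit 377) (nat_lit 343)) (XT.lf (nat_lit 0) (nat_lit 4248955947) (nat_lit 1748) (nat_lit 816892956) (nat_lit 1824) (nat_lit 2406791286) (nat_lit 394) (nat_lit 5) (nat_lit 417) (nat_lit 5) (nat_lit 418) (nat_lit 5) (nat_lit 421) (nat_lit 377) (nat_lit 342))))) (XT.nd (nat_lit 234) (nat_lit 1748) (nat_lit 0) (XT.nd (nat_lit 78) (nat_lit 912) (nat_lit 0) (XT.lf (nat_lit 0) (nat_lit 150951169) (nat_lit 1140) (nat_lit 5994615717) (nat_lit 76) (nat_lit 1380570151) (nat_lit 379) (nat_lit 5) (nat_lit 394) (nat_lit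 5) (nat_lit 380) (nat_lit 5) (nat_lit 422) (nat_lit 377) (nat_lit 341)) (XT.nd (nat_lit 78) (nat_lit 912) (nat_lit 0) (XT.lf (nat_lit 0) (nat_lit 2707577662) (nat_lit 1140) (nat_lit 1223234630) (nat_lit 76) (nat_lit 3649997125) (nat_lit 379) (nat_lit 5) (nat_lit 394) (nat_lit 5) (nat_lit 380) (nat_lit 5) (nat_lit 423) (nat_lit 377) (nat_lit 340)) (XT.lf (nat_lit 0) (nat_lit 3645304291) (nat_lit 912) (nat_lit 1647367021) (nat_lit 988) (nat_lit 2344379691) (nat_lit 367) (nat_lit 5) (nat_lit 379) (nat_lit 5) (nat_lit 380) (nat_lit 5) (nat_lit 424) (nat_lit 377) (nat_lit 339)))) (XT.nd (nat_lit 78) (nat_lit 836) (nat_lit 0) (XT.lf (nat_lit 0) (nat_lit 204536691) (nat_lit 912) (nat_lit 6802253924) (nat_lit 76) (nat_lit 688166460) (nat_lit 355) (nat_lit 5) (nat_lit 367) (nat_lit 5) (nat_lit 356) (nat_lit 5) (nat_lit 425) (nat_lit 377) (nat_lit 338)) (XT.nd (nat_lit 78) (nat_lit 836) (nat_lit 0) (XT.lf (nat_lit 0) (nat_lit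 2765496245) (nat_lit 912) (nat_lit 1898176511) (nat_lit 76) (nat_lit 3090210618) (nat_lit 355) (nat_lit 5) (nat_lit 367) (nat_lit 5) (nat_lit 356) (nat_lit 5) (nat_lit 426) (nat_lit 377) (nat_lit 337)) (XT.lf (nat_lit 0) (nat_lit 3098512781) (nat_lit 836) (nat_lit 2254723840) (nat_lit 912) (nat_lit 2461261085) (nat_lit 344) (nat_lit 5) (nat_lit 355) (nat_lit 5) (nat_lit 356) (nat_lit 5) (nat_lit 427) (nat_lit 377) (nat_lit 336))))))) (XT.nd (nat_lit 858) (nat_lit 4484) (nat_lit 0) (XT.nd (nat_lit 390) (nat_lit 3040) (nat_lit 0) (XT.nd (nat_lit 156) (nat_lit 1672) (nat_lit 0) (XT.nd (nat_lit 78) (nat_lit 0) (nat_lit 0) (XT.lf (nat_lit 0) (nat_lit 86772638) (nat_lit 912) (nat_lit 7576824417) (nat_lit 76) (nat_lit 213294249) (nat_lit 332) (nat_lit 5) (nat_lit 344) (nat_lit 5) (nat_lit 333) (nat_lit 5) (nat_lit 428) (nat_lit 377) (nat_lit 335)) (XT.lf (nat_lit 0) (nat_lit 2655892399) (nat_lit 912) (nat_lit 2537960528) (nat_lit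 76) (nat_lit 2746312380) (nat_lit 332) (nat_lit 5) (nat_lit 344) (nat_lit 5) (nat_lit 333) (nat_lit 5) (nat_lit 429) (nat_lit 377) (nat_lit 334))) (XT.nd (nat_lit 78) (nat_lit 836) (nat_lit 0) (XT.lf (nat_lit 0) (nat_lit 2589579149) (nat_lit 836) (nat_lit 2660748842) (nat_lit 912) (nat_lit 2754917289) (nat_lit 321) (nat_lit 5) (nat_lit 332) (nat_lit 5) (nat_lit 333) (nat_lit 5) (nat_lit 430) (nat_lit 377) (nat_lit 333)) (XT.nd (nat_lit 78) (nat_lit 836) (nat_lit 0) (XT.lf (nat_lit 0) (nat_lit 7808311111) (nat_lit 836) (nat_lit 63036074) (nat_lit 912) (nat_lit 200804554) (nat_lit 321) (nat_lit 5) (nat_lit 332) (nat_lit 5) (nat_lit 333) (nat_lit 5) (nat_lit 431) (nat_lit 377) (nat_lit 332)) (XT.lf (nat_lit 0) (nat_lit 2380580045) (nat_lit 836) (nat_lit 3161888406) (nat_lit 76) (nat_lit 2597479239) (nat_lit 310) (nat_lit 5) (nat_lit 321) (nat_lit 5) (nat_lit 311) (nat_lit 5) (nat_lit 432) (nat_lit 377) (nat_lit 331)))))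 (XT.nd (nat_lit 234) (nat_lit 1520) (nat_lit 0) (XT.nd (nat_lit 78) (nat_lit 760) (nat_lit 0) (XT.lf (nat_lit 0) (nat_lit 2099124235) (nat_lit 760) (nat_lit 2886312773) (nat_lit 836) (nat_lit 3224163040) (nat_lit 300) (nat_lit 5) (nat_lit 310) (nat_lit 5) (nat_lit 311) (nat_lit 5) (nat_lit 433) (nat_lit 377) (nat_lit 330)) (XT.nd (nat_lit 78) (nat_lit 760) (nat_lit 0) (XT.lf (nat_lit 0) (nat_lit 7462563090) (nat_lit 760) (nat_lit 160261627) (nat_lit 836) (nat_lit 658229416) (nat_lit 300) (nat_lit 5) (nat_lit 310) (nat_lit 5) (nat_lit 311) (nat_lit 5) (nat_lit 434) (nat_lit 377) (nat_lit 329)) (XT.lf (nat_lit 0) (nat_lit 1940070397) (nat_lit 760) (nat_lit 3789782273) (nat_lit 76) (nat_lit 2623712114) (nat_lit 290) (nat_lit 5) (nat_lit 300) (nat_lit 5) (nat_lit 291) (nat_lit 5) (nat_lit 435) (nat_lit 377) (nat_lit 328)))) (XT.nd (nat_lit 78) (nat_lit 760) (nat_lit 0) (XT.lf (nat_lit 0) (nat_lit 1607212160) (nat_lit 760)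 (nat_lit 2951540907) (nat_lit 836) (nat_lit 3869157307) (nat_lit 280) (nat_lit 5) (nat_lit 290) (nat_lit 5) (nat_lit 291) (nat_lit 5) (nat_lit 436) (nat_lit 377) (nat_lit 327)) (XT.nd (nat_lit 78) (nat_lit 760) (nat_lit 0) (XT.lf (nat_lit 0) (nat_lit 7118028760) (nat_lit 760) (nat_lit 97894177) (nat_lit 836) (nat_lit 1288113698) (nat_lit 280) (nat_lit 5) (nat_lit 290) (nat_lit 5) (nat_lit 291) (nat_lit 5) (nat_lit 437) (nat_lit 377) (nat_lit 326)) (XT.lf (nat_lit 0) (nat_lit 1333554204) (nat_lit 760) (nat_lit 4442169413) (nat_lit 76) (nat_lit 2805669872) (nat_lit 270) (nat_lit 5) (nat_lit 280) (nat_lit 5) (nat_lit 271) (nat_lit 5) (nat_lit 438) (nat_lit 377) (nat_lit 325)))))) (XT.nd (nat_lit 390) (nat_lit 2508) (nat_lit 0) (XT.nd (nat_lit 156) (nat_lit 1292) (nat_lit 0) (XT.nd (nat_lit 78) (nat_lit 0) (nat_lit 0) (XT.lf (nat_lit 0) (nat_lit 1093161852) (nat_lit 684) (nat_lit 2875980390) (nat_lit 760) (nat_lit 4691425364)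 (nat_lit 261) (nat_lit 5) (nat_lit 270) (nat_lit 5) (nat_lit 271) (nat_lit 5) (nat_lit 439) (nat_lit 377) (nat_lit 324)) (XT.lf (nat_lit 0) (nat_lit 6650000939) (nat_lit 760) (nat_lit 1988040309) (nat_lit 76) (nat_lit 103447590) (nat_lit 261) (nat_lit 5) (nat_lit 271) (nat_lit 5) (nat_lit 262) (nat_lit 5) (nat_lit 440) (nat_lit 377) (nat_lit 323))) (XT.nd (nat_lit 78) (nat_lit 608) (nat_lit 0) (XT.lf (nat_lit 0) (nat_lit 558873245) (nat_lit 684) (nat_lit 5140476876) (nat_lit 76) (nat_lit 3124504326) (nat_lit 252) (nat_lit 5) (nat_lit 261) (nat_lit 5) (nat_lit 253) (nat_lit 5) (nat_lit 441) (nat_lit 377) (nat_lit 322)) (XT.nd (nat_lit 78) (nat_lit 0) (nat_lit 0) (XT.lf (nat_lit 0) (nat_lit 535348251) (nat_lit 608) (nat_lit 2678767034) (nat_lit 684) (nat_lit 5693891973) (nat_lit 244) (nat_lit 5) (nat_lit 252) (nat_lit 5) (nat_lit 253) (nat_lit 5) (nat_lit 442) (nat_lit 377) (nat_lit 321)) (XT.lf (nat_lit 0) (nat_lit 5923124815)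 (nat_lit 684) (nat_lit 2647321653) (nat_lit 76) (nat_lit 423397087) (nat_lit 244) (nat_lit 5) (nat_lit 253) (nat_lit 5) (nat_lit 245) (nat_lit 5) (nat_lit 443) (nat_lit 377) (nat_lit 320))))) (XT.nd (nat_lit 234) (nat_lit 1216) (nat_lit 0) (XT.nd (nat_lit 78) (nat_lit 684) (nat_lit 0) (XT.lf (nat_lit 0) (nat_lit 3171575248) (nat_lit 608) (nat_lit 5517117877) (nat_lit 684) (nat_lit 392669297) (nat_lit 236) (nat_lit 5) (nat_lit 244) (nat_lit 5) (nat_lit 245) (nat_lit 5) (nat_lit 444) (nat_lit 377) (nat_lit 319)) (XT.nd (nat_lit 78) (nat_lit 608) (nat_lit 0) (XT.lf (nat_lit 0) (nat_lit 2290362179) (nat_lit 684) (nat_lit 87841259) (nat_lit 76) (nat_lit 6792495469) (nat_lit 235) (nat_lit 5) (nat_lit 244) (nat_lit 5) (nat_lit 236) (nat_lit 5) (nat_lit 445) (nat_lit 377) (nat_lit 318)) (XT.lf (nat_lit 0) (nat_lit 5030458335) (nat_lit 684) (nat_lit 3386320160) (nat_lit 76) (nat_lit 844831119) (nat_lit 227) (nat_lit 5) (nat_lit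 236) (nat_lit 5) (nat_lit 228) (nat_lit 5) (nat_lit 446) (nat_lit 377) (nat_lit 317)))) (XT.nd (nat_lit 78) (nat_lit 684) (nat_lit 0) (XT.lf (nat_lit 0) (nat_lit 2578135207) (nat_lit 532) (nat_lit 5245563047) (nat_lit 608) (nat_lit 1530685837) (nat_lit 220) (nat_lit 5) (nat_lit 227) (nat_lit 5) (nat_lit 228) (nat_lit 5) (nat_lit 447) (nat_lit 377) (nat_lit 316)) (XT.nd (nat_lit 78) (nat_lit 608) (nat_lit 0) (XT.lf (nat_lit 0) (nat_lit 1196027901) (nat_lit 608) (nat_lit 793523189) (nat_lit 76) (nat_lit 7459550184) (nat_lit 219) (nat_lit 5) (nat_lit 227) (nat_lit 5) (nat_lit 220) (nat_lit 5) (nat_lit 448) (nat_lit 377) (nat_lit 315)) (XT.lf (nat_lit 0) (nat_lit 3966341597) (nat_lit 684) (nat_lit 4229604610) (nat_lit 76) (nat_lit 1349384683) (nat_lit 211) (nat_lit 5) (nat_lit 220) (nat_lit 5) (nat_lit 212) (nat_lit 5) (nat_lit 449) (nat_lit 377) (nat_lit 314))))))))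
noncomputable def xc87 : XT := (XT.nd (nat_lit 1638) (nat_lit 4332) (nat_lit 0) (XT.nd (nat_lit 780) (nat_lit 3116) (nat_lit 0) (XT.nd (nat_lit 390) (nat_lit 1596) (nat_lit 0) (XT.nd (nat_lit 156) (nat_lit 1064) (nat_lit 0) (XT.nd (nat_lit 78) (nat_lit 0) (nat_lit 0) (XT.lf (nat_lit 0) (nat_lit 1881905577) (nat_lit 532) (nat_lit 4907321317) (nat_lit 608) (nat_lit 2854326347) (nat_lit 204) (nat_lit 5) (nat_lit 211) (nat_lit 5) (nat_lit 212) (nat_lit 5) (nat_lit 450) (nat_lit 377) (nat_lit 313)) (XT.lf (nat_lit 0) (nat_lit 8129166119) (nat_lit 532) (nat_lit 1534571493) (nat_lit 608) (nat_lit 80110300) (nat_lit 204) (nat_lit 5) (nat_lit 211) (nat_lit 5) (nat_lit 212) (nat_lit 5) (nat_lit 451) (nat_lit 377) (nat_lit 312))) (XT.nd (nat_lit 78) (nat_lit 456) (nat_lit 0) (XT.lf (nat_lit 0) (nat_lit 2723583920) (nat_lit 608) (nat_lit 5203453731) (nat_lit 76) (nat_lit 1918563464) (nat_lit 196) (nat_lit 5) (nat_lit 204) (nat_lit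 5) (nat_lit 197) (nat_lit 5) (nat_lit 452) (nat_lit 377) (nat_lit 311)) (XT.nd (nat_lit 78) (nat_lit 0) (nat_lit 0) (XT.lf (nat_lit 0) (nat_lit 1056210351) (nat_lit 456) (nat_lit 4521500691) (nat_lit 532) (nat_lit 4371769695) (nat_lit 190) (nat_lit 5) (nat_lit 196) (nat_lit 5) (nat_lit 197) (nat_lit 5) (nat_lit 453) (nat_lit 377) (nat_lit 310)) (XT.lf (nat_lit 0) (nat_lit 7468184505) (nat_lit 456) (nat_lit 1023512639) (nat_lit 532) (nat_lit 1563695648) (nat_lit 190) (nat_lit 5) (nat_lit 196) (nat_lit 5) (nat_lit 197) (nat_lit 5) (nat_lit 454) (nat_lit 377) (nat_lit 309))))) (XT.nd (nat_lit 156) (nat_lit 532) (nat_lit 0) (XT.nd (nat_lit 78) (nat_lit 456) (nat_lit 0) (XT.lf (nat_lit 0) (nat_lit 1293378756) (nat_lit 608) (nat_lit 6336120404) (nat_lit 76) (nat_lit 2533567103) (nat_lit 182) (nat_lit 5) (nat_lit 190) (nat_lit 5) (nat_lit 183) (nat_lit 5) (nat_lit 455) (nat_lit 377) (nat_lit 308)) (XT.lf (nat_lit 0) (nat_lit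 72328448) (nat_lit 456) (nat_lit 4107613523) (nat_lit 532) (nat_lit 6092888579) (nat_lit 176) (nat_lit 5) (nat_lit 182) (nat_lit 5) (nat_lit 183) (nat_lit 5) (nat_lit 456) (nat_lit 377) (nat_lit 307))) (XT.nd (nat_lit 78) (nat_lit 532) (nat_lit 0) (XT.lf (nat_lit 0) (nat_lit 6651840034) (nat_lit 456) (nat_lit 483794106) (nat_lit 532) (nat_lit 3248937610) (nat_lit 176) (nat_lit 5) (nat_lit 182) (nat_lit 5) (nat_lit 183) (nat_lit 5) (nat_lit 457) (nat_lit 377) (nat_lit 306)) (XT.nd (nat_lit 78) (nat_lit 76) (nat_lit 0) (XT.lf (nat_lit 0) (nat_lit 2838063055) (nat_lit 456) (nat_lit 7321075002) (nat_lit 532) (nat_lit 339245150) (nat_lit 170) (nat_lit 5) (nat_lit 176) (nat_lit 5) (nat_lit 177) (nat_lit 5) (nat_lit 458) (nat_lit 377) (nat_lit 305)) (XT.lf (nat_lit 0) (nat_lit 2592112950) (nat_lit 532) (nat_lit 1086362867) (nat_lit 76) (nat_lit 6935703830) (nat_lit 169) (nat_lit 5) (nat_lit 176) (nat_lit 5) (nat_lit 170) (nat_lit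 5) (nat_lit 459) (nat_lit 377) (nat_lit 304)))))) (XT.nd (nat_lit 390) (nat_lit 1292) (nat_lit 0) (XT.nd (nat_lit 156) (nat_lit 912) (nat_lit 0) (XT.nd (nat_lit 78) (nat_lit 456) (nat_lit 0) (XT.lf (nat_lit 0) (nat_lit 5584781681) (nat_lit 532) (nat_lit 5083613848) (nat_lit 76) (nat_lit 63715970) (nat_lit 163) (nat_lit 5) (nat_lit 170) (nat_lit 5) (nat_lit 164) (nat_lit 5) (nat_lit 460) (nat_lit 377) (nat_lit 303)) (XT.lf (nat_lit 0) (nat_lit 1635330663) (nat_lit 456) (nat_lit 7014651884) (nat_lit 532) (nat_lit 2202174542) (nat_lit 157) (nat_lit 5) (nat_lit 163) (nat_lit 5) (nat_lit 164) (nat_lit 5) (nat_lit 461) (nat_lit 377) (nat_lit 302))) (XT.nd (nat_lit 78) (nat_lit 836) (nat_lit 0) (XT.lf (nat_lit 0) (nat_lit 796174736) (nat_lit 532) (nat_lit 2464145837) (nat_lit 76) (nat_lit 7714091078) (nat_lit 156) (nat_lit 5) (nat_lit 163) (nat_lit 5) (nat_lit 157) (nat_lit 5) (nat_lit 462) (nat_lit 377) (nat_lit 301)) (XT.nd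 (nat_lit 78) (nat_lit 456) (nat_lit 0) (XT.lf (nat_lit 0) (nat_lit 3828712220) (nat_lit 456) (nat_lit 6677211982) (nat_lit 76) (nat_lit 592829983) (nat_lit 151) (nat_lit 5) (nat_lit 157) (nat_lit 5) (nat_lit 152) (nat_lit 5) (nat_lit 463) (nat_lit 377) (nat_lit 300)) (XT.lf (nat_lit 0) (nat_lit 192160887) (nat_lit 456) (nat_lit 6740489177) (nat_lit 532) (nat_lit 4292726531) (nat_lit 145) (nat_lit 5) (nat_lit 151) (nat_lit 5) (nat_lit 152) (nat_lit 5) (nat_lit 464) (nat_lit 377) (nat_lit 299))))) (XT.nd (nat_lit 234) (nat_lit 836) (nat_lit 0) (XT.nd (nat_lit 78) (nat_lit 456) (nat_lit 0) (XT.lf (nat_lit 0) (nat_lit 7247955665) (nat_lit 456) (nat_lit 2867077961) (nat_lit 532) (nat_lit 1239178346) (nat_lit 145) (nat_lit 5) (nat_lit 151) (nat_lit 5) (nat_lit 152) (nat_lit 5) (nat_lit 465) (nat_lit 377) (nat_lit 298)) (XT.nd (nat_lit 78) (nat_lit 0) (nat_lit 0) (XT.lf (nat_lit 0) (nat_lit 1849047182) (nat_lit 456) (nat_lit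 8548086153) (nat_lit 76) (nat_lit 1088290683) (nat_lit 139) (nat_lit 5) (nat_lit 145) (nat_lit 5) (nat_lit 140) (nat_lit 5) (nat_lit 466) (nat_lit 377) (nat_lit 297)) (XT.lf (nat_lit 0) (nat_lit 5001311241) (nat_lit 456) (nat_lit 1509873291) (nat_lit 76) (nat_lit 5107542025) (nat_lit 139) (nat_lit 5) (nat_lit 145) (nat_lit 5) (nat_lit 140) (nat_lit 5) (nat_lit 467) (nat_lit 377) (nat_lit 296)))) (XT.nd (nat_lit 78) (nat_lit 456) (nat_lit 0) (XT.lf (nat_lit 0) (nat_lit 5703461473) (nat_lit 380) (nat_lit 2522862518) (nat_lit 456) (nat_lit 3528184350) (nat_lit 134) (nat_lit 5) (nat_lit 139) (nat_lit 5) (nat_lit 140) (nat_lit 5) (nat_lit 468) (nat_lit 377) (nat_lit 295)) (XT.nd (nat_lit 78) (nat_lit 76) (nat_lit 0) (XT.lf (nat_lit 0) (nat_lit 1153108904) (nat_lit 380) (nat_lit 10363309114) (nat_lit 456) (nat_lit 376583239) (nat_lit 129) (nat_lit 5) (nat_lit 134) (nat_lit 5) (nat_lit 135) (nat_lit 5) (nat_lit 469) (nat_lit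 377) (nat_lit 294)) (XT.lf (nat_lit 0) (nat_lit 2831358333) (nat_lit 456) (nat_lit 3526223822) (nat_lit 76) (nat_lit 5675709590) (nat_lit 128) (nat_lit 5) (nat_lit 134) (nat_lit 5) (nat_lit 129) (nat_lit 5) (nat_lit 470) (nat_lit 377) (nat_lit 293))))))) (XT.nd (nat_lit 858) (nat_lit 1824) (nat_lit 0) (XT.nd (nat_lit 390) (nat_lit 1368) (nat_lit 0) (XT.nd (nat_lit 156) (nat_lit 760) (nat_lit 0) (XT.nd (nat_lit 78) (nat_lit 0) (nat_lit 0) (XT.lf (nat_lit 0) (nat_lit 3839640436) (nat_lit 380) (nat_lit 2257188150) (nat_lit 456) (nat_lit 6079548134) (nat_lit 123) (nat_lit 5) (nat_lit 128) (nat_lit 5) (nat_lit 129) (nat_lit 5) (nat_lit 471) (nat_lit 377) (nat_lit 292)) (XT.lf (nat_lit 0) (nat_lit 9437580921) (nat_lit 456) (nat_lit 974008898) (nat_lit 76) (nat_lit 1910540698) (nat_lit 123) (nat_lit 5) (nat_lit 129) (nat_lit 5) (nat_lit 124) (nat_lit 5) (nat_lit 472) (nat_lit 377) (nat_lit 291))) (XT.nd (nat_lit 78) (nat_lit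 380) (nat_lit 0) (XT.lf (nat_lit 0) (nat_lit 401404170) (nat_lit 380) (nat_lit 5904984870) (nat_lit 76) (nat_lit 6163728762) (nat_lit 118) (nat_lit 5) (nat_lit 123) (nat_lit 5) (nat_lit 119) (nat_lit 5) (nat_lit 473) (nat_lit 377) (nat_lit 290)) (XT.nd (nat_lit 78) (nat_lit 0) (nat_lit 0) (XT.lf (nat_lit 0) (nat_lit 1609867801) (nat_lit 380) (nat_lit 2095900040) (nat_lit 456) (nat_lit 8915095554) (nat_lit 113) (nat_lit 5) (nat_lit 118) (nat_lit 5) (nat_lit 119) (nat_lit 5) (nat_lit 474) (nat_lit 377) (nat_lit 289)) (XT.lf (nat_lit 0) (nat_lit 7104791882) (nat_lit 456) (nat_lit 3472902814) (nat_lit 76) (nat_lit 2196363815) (nat_lit 113) (nat_lit 5) (nat_lit 119) (nat_lit 5) (nat_lit 114) (nat_lit 5) (nat_lit 475) (nat_lit 377) (nat_lit 288))))) (XT.nd (nat_lit 234) (nat_lit 684) (nat_lit 0) (XT.nd (nat_lit 78) (nat_lit 380) (nat_lit 0) (XT.lf (nat_lit 0) (nat_lit 4218581400) (nat_lit 304) (nat_lit 6369395806) (nat_lit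 380) (nat_lit 2342022665) (nat_lit 109) (nat_lit 5) (nat_lit 113) (nat_lit 5) (nat_lit 114) (nat_lit 5) (nat_lit 476) (nat_lit 377) (nat_lit 287)) (XT.nd (nat_lit 78) (nat_lit 304) (nat_lit 0) (XT.lf (nat_lit 0) (nat_lit 1036413517) (nat_lit 380) (nat_lit 1023506210) (nat_lit 76) (nat_lit 11029040652) (nat_lit 108) (nat_lit 5) (nat_lit 113) (nat_lit 5) (nat_lit 109) (nat_lit 5) (nat_lit 477) (nat_lit 377) (nat_lit 286)) (XT.lf (nat_lit 0) (nat_lit 4486538379) (nat_lit 380) (nat_lit 6411457002) (nat_lit 76) (nat_lit 2352091121) (nat_lit 104) (nat_lit 5) (nat_lit 109) (nat_lit 5) (nat_lit 105) (nat_lit 5) (nat_lit 478) (nat_lit 377) (nat_lit 285)))) (XT.nd (nat_lit 78) (nat_lit 380) (nat_lit 0) (XT.lf (nat_lit 0) (nat_lit 1424286490) (nat_lit 304) (nat_lit 6586801586) (nat_lit 380) (nat_lit 5403244127) (nat_lit 100) (nat_lit 5) (nat_lit 104) (nat_lit 5) (nat_lit 105) (nat_lit 5) (nat_lit 479) (nat_lit 377) (nat_lit 284))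 (XT.nd (nat_lit 78) (nat_lit 380) (nat_lit 0) (XT.lf (nat_lit 0) (nat_lit 9465615761) (nat_lit 304) (nat_lit 2159387662) (nat_lit 380) (nat_lit 1956487296) (nat_lit 100) (nat_lit 5) (nat_lit 104) (nat_lit 5) (nat_lit 105) (nat_lit 5) (nat_lit 480) (nat_lit 377) (nat_lit 283)) (XT.lf (nat_lit 0) (nat_lit 1555811546) (nat_lit 380) (nat_lit 9847763663) (nat_lit 76) (nat_lit 2347878793) (nat_lit 95) (nat_lit 5) (nat_lit 100) (nat_lit 5) (nat_lit 96) (nat_lit 5) (nat_lit 481) (nat_lit 377) (nat_lit 282)))))) (XT.nd (nat_lit 390) (nat_lit 912) (nat_lit 0) (XT.nd (nat_lit 156) (nat_lit 608) (nat_lit 0) (XT.nd (nat_lit 78) (nat_lit 304) (nat_lit 0) (XT.lf (nat_lit 0) (nat_lit 5130584089) (nat_lit 380) (nat_lit 1850020609) (nat_lit 76) (nat_lit 6943589786) (nat_lit 95) (nat_lit 5) (nat_lit 100) (nat_lit 5) (nat_lit 96) (nat_lit 5) (nat_lit 482) (nat_lit 377) (nat_lit 281)) (XT.lf (nat_lit 0) (nat_lit 6353996598) (nat_lit 304)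 (nat_lit 2440872020) (nat_lit 380) (nat_lit 5305165811) (nat_lit 91) (nat_lit 5) (nat_lit 95) (nat_lit 5) (nat_lit 96) (nat_lit 5) (nat_lit 483) (nat_lit 377) (nat_lit 280))) (XT.nd (nat_lit 78) (nat_lit 304) (nat_lit 0) (XT.lf (nat_lit 0) (nat_lit 422119013) (nat_lit 304) (nat_lit 12116663828) (nat_lit 380) (nat_lit 1740486338) (nat_lit 87) (nat_lit 5) (nat_lit 91) (nat_lit 5) (nat_lit 92) (nat_lit 5) (nat_lit 484) (nat_lit 377) (nat_lit 279)) (XT.nd (nat_lit 78) (nat_lit 228) (nat_lit 0) (XT.lf (nat_lit 0) (nat_lit 1916063005) (nat_lit 380) (nat_lit 5668439858) (nat_lit 76) (nat_lit 6876435605) (nat_lit 86) (nat_lit 5) (nat_lit 91) (nat_lit 5) (nat_lit 87) (nat_lit 5) (nat_lit 485) (nat_lit 377) (nat_lit 278)) (XT.lf (nat_lit 0) (nat_lit 2671065746) (nat_lit 228) (nat_lit 2946135599) (nat_lit 304) (nat_lit 9028919046) (nat_lit 83) (nat_lit 5) (nat_lit 86) (nat_lit 5) (nat_lit 87) (nat_lit 5) (nat_lit 486) (nat_lit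 377) (nat_lit 277))))) (XT.nd (nat_lit 234) (nat_lit 532) (nat_lit 0) (XT.nd (nat_lit 78) (nat_lit 380) (nat_lit 0) (XT.lf (nat_lit 0) (nat_lit 9419758889) (nat_lit 304) (nat_lit 3628494278) (nat_lit 76) (nat_lit 1786209371) (nat_lit 83) (nat_lit 5) (nat_lit 87) (nat_lit 5) (nat_lit 84) (nat_lit 5) (nat_lit 487) (nat_lit 377) (nat_lit 276)) (XT.nd (nat_lit 78) (nat_lit 76) (nat_lit 0) (XT.lf (nat_lit 0) (nat_lit 4893780610) (nat_lit 304) (nat_lit 8433829234) (nat_lit 380) (nat_lit 1698381265) (nat_lit 79) (nat_lit 5) (nat_lit 83) (nat_lit 5) (nat_lit 84) (nat_lit 5) (nat_lit 488) (nat_lit 377) (nat_lit 275)) (XT.lf (nat_lit 0) (nat_lit 2067347012) (nat_lit 380) (nat_lit 1634871772) (nat_lit 76) (nat_lit 11518813635) (nat_lit 78) (nat_lit 5) (nat_lit 83) (nat_lit 5) (nat_lit 79) (nat_lit 5) (nat_lit 489) (nat_lit 377) (nat_lit 274)))) (XT.nd (nat_lit 78) (nat_lit 304) (nat_lit 0) (XT.lf (nat_lit 0) (nat_lit 5917658453)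 (nat_lit 304) (nat_lit 8348092446) (nat_lit 76) (nat_lit 1153363101) (nat_lit 75) (nat_lit 5) (nat_lit 79) (nat_lit 5) (nat_lit 76) (nat_lit 5) (nat_lit 490) (nat_lit 377) (nat_lit 273)) (XT.nd (nat_lit 78) (nat_lit 0) (nat_lit 0) (XT.lf (nat_lit 0) (nat_lit 296195008) (nat_lit 304) (nat_lit 9564813250) (nat_lit 380) (nat_lit 5759832402) (nat_lit 71) (nat_lit 5) (nat_lit 75) (nat_lit 5) (nat_lit 76) (nat_lit 5) (nat_lit 491) (nat_lit 377) (nat_lit 272)) (XT.lf (nat_lit 0) (nat_lit 9191406352) (nat_lit 304) (nat_lit 4726578931) (nat_lit 380) (nat_lit 1907925375) (nat_lit 71) (nat_lit 5) (nat_lit 75) (nat_lit 5) (nat_lit 76) (nat_lit 5) (nat_lit 492) (nat_lit 377) (nat_lit 271))))))))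
noncomputable def xc88 : XT := (XT.nd (nat_lit 51480) (nat_lit 0) (nat_lit 35872) (XT.nd (nat_lit 780) (nat_lit 152) (nat_lit 0) (XT.nd (nat_lit 390) (nat_lit 760) (nat_lit 0) (XT.nd (nat_lit 156) (nat_lit 532) (nat_lit 0) (XT.nd (nat_lit 78) (nat_lit 0) (nat_lit 0) (XT.lf (nat_lit 0) (nat_lit 1989327470) (nat_lit 304) (nat_lit 13825808219) (nat_lit 76) (nat_lit 219791507) (nat_lit 67) (nat_lit 5) (nat_lit 71) (nat_lit 5) (nat_lit 68) (nat_lit 5) (nat_lit 493) (nat_lit 377) (nat_lit 270)) (XT.lf (nat_lit 0) (nat_lit 5994233575) (nat_lit 304) (nat_lit 5006737367) (nat_lit 76) (nat_lit 5245799567) (nat_lit 67) (nat_lit 5) (nat_lit 71) (nat_lit 5) (nat_lit 68) (nat_lit 5) (nat_lit 494) (nat_lit 377) (nat_lit 269))) (XT.nd (nat_lit 78) (nat_lit 304) (nat_lit 0) (XT.lf (nat_lit 0) (nat_lit 4007132950) (nat_lit 228) (nat_lit 6077645088) (nat_lit 304) (nat_lit 6377965549) (nat_lit 64) (nat_lit 5) (nat_lit 67) (nat_lit 5) (nat_lit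 68) (nat_lit 5) (nat_lit 495) (nat_lit 377) (nat_lit 268)) (XT.nd (nat_lit 78) (nat_lit 304) (nat_lit 0) (XT.lf (nat_lit 0) (nat_lit 13235236678) (nat_lit 228) (nat_lit 1035199156) (nat_lit 304) (nat_lit 2412337874) (nat_lit 64) (nat_lit 5) (nat_lit 67) (nat_lit 5) (nat_lit 68) (nat_lit 5) (nat_lit 496) (nat_lit 377) (nat_lit 267)) (XT.lf (nat_lit 0) (nat_lit 1655538586) (nat_lit 304) (nat_lit 11161264097) (nat_lit 76) (nat_lit 4089306278) (nat_lit 60) (nat_lit 5) (nat_lit 64) (nat_lit 5) (nat_lit 61) (nat_lit 5) (nat_lit 497) (nat_lit 377) (nat_lit 266))))) (XT.nd (nat_lit 156) (nat_lit 532) (nat_lit 0) (XT.nd (nat_lit 78) (nat_lit 228) (nat_lit 0) (XT.lf (nat_lit 0) (nat_lit 5782701813) (nat_lit 304) (nat_lit 2022235335) (nat_lit 76) (nat_lit 9328453672) (nat_lit 60) (nat_lit 5) (nat_lit 64) (nat_lit 5) (nat_lit 61) (nat_lit 5) (nat_lit 498) (nat_lit 377) (nat_lit 265)) (XT.lf (nat_lit 0) (nat_lit 7363193411) (nat_lit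 228) (nat_lit 2657469299) (nat_lit 304) (nat_lit 7343993871) (nat_lit 57) (nat_lit 5) (nat_lit 60) (nat_lit 5) (nat_lit 61) (nat_lit 5) (nat_lit 499) (nat_lit 377) (nat_lit 264))) (XT.nd (nat_lit 78) (nat_lit 532) (nat_lit 0) (XT.lf (nat_lit 0) (nat_lit 14354409930) (nat_lit 304) (nat_lit 686496241) (nat_lit 76) (nat_lit 2559424233) (nat_lit 57) (nat_lit 5) (nat_lit 61) (nat_lit 5) (nat_lit 58) (nat_lit 5) (nat_lit 500) (nat_lit 377) (nat_lit 263)) (XT.nd (nat_lit 78) (nat_lit 228) (nat_lit 0) (XT.lf (nat_lit 0) (nat_lit 978407883) (nat_lit 304) (nat_lit 8964773940) (nat_lit 76) (nat_lit 7896286852) (nat_lit 53) (nat_lit 5) (nat_lit 57) (nat_lit 5) (nat_lit 54) (nat_lit 5) (nat_lit 501) (nat_lit 377) (nat_lit 262)) (XT.lf (nat_lit 0) (nat_lit 505791451) (nat_lit 228) (nat_lit 4726880771) (nat_lit 304) (nat_lit 12850513231) (nat_lit 50) (nat_lit 5) (nat_lit 53) (nat_lit 5) (nat_lit 54) (nat_lit 5) (nat_lit 502) (nat_lit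 377) (nat_lit 261)))))) (XT.nd (nat_lit 50232) (nat_lit 0) (nat_lit 46968) (XT.nd (nat_lit 156) (nat_lit 0) (nat_lit 0) (XT.nd (nat_lit 78) (nat_lit 152) (nat_lit 0) (XT.lf (nat_lit 0) (nat_lit 9617461816) (nat_lit 304) (nat_lit 8080052581) (nat_lit 76) (nat_lit 633356409) (nat_lit 50) (nat_lit 5) (nat_lit 54) (nat_lit 5) (nat_lit 51) (nat_lit 5) (nat_lit 503) (nat_lit 377) (nat_lit 260)) (XT.lf (nat_lit 0) (nat_lit 1564575227) (nat_lit 152) (nat_lit 12548234298) (nat_lit 228) (nat_lit 4470246073) (nat_lit 48) (nat_lit 5) (nat_lit 50) (nat_lit 5) (nat_lit 51) (nat_lit 5) (nat_lit 504) (nat_lit 377) (nat_lit 259))) (XT.nd (nat_lit 49920) (nat_lit 0) (nat_lit 48108) (XT.lf (nat_lit 0) (nat_lit 11479956262) (nat_lit 152) (nat_lit 7253888650) (nat_lit 228) (nat_lit 105726479) (nat_lit 48) (nat_lit 5) (nat_lit 50) (nat_lit 5) (nat_lit 51) (nat_lit 5) (nat_lit 505) (nat_lit 377) (nat_lit 258)) (XT.nd (nat_lit 78) (nat_lit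 228) (nat_lit 0) (XT.lf (nat_lit 0) (nat_lit 3148419610) (nat_lit 76) (nat_lit 38345341) (nat_lit 76) (nat_lit 38345341) (nat_lit 684) (nat_lit 4) (nat_lit 685) (nat_lit 5) (nat_lit 685) (nat_lit 4) (nat_lit 384) (nat_lit 378) (nat_lit 378)) (XT.lf (nat_lit 0) (nat_lit 3000882676) (nat_lit 228) (nat_lit 3309680761) (nat_lit 0) (nat_lit 144004835) (nat_lit 681) (nat_lit 5) (nat_lit 684) (nat_lit 4) (nat_lit 681) (nat_lit 4) (nat_lit 385) (nat_lit 378) (nat_lit 377))))) (XT.nd (nat_lit 234) (nat_lit 532) (nat_lit 0) (XT.nd (nat_lit 78) (nat_lit 380) (nat_lit 0) (XT.lf (nat_lit 0) (nat_lit 6632013) (nat_lit 228) (nat_lit 6055846073) (nat_lit 228) (nat_lit 398107602) (nat_lit 678) (nat_lit 4) (nat_lit 681) (nat_lit 5) (nat_lit 681) (nat_lit 4) (nat_lit 386) (nat_lit 378) (nat_lit 376)) (XT.nd (nat_lit 78) (nat_lit 304) (nat_lit 0) (XT.lf (nat_lit 0) (nat_lit 2627866969) (nat_lit 304) (nat_lit 3095388986) (nat_lit 76) (nat_lit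 744276111) (nat_lit 677) (nat_lit 5) (nat_lit 681) (nat_lit 5) (nat_lit 678) (nat_lit 4) (nat_lit 387) (nat_lit 378) (nat_lit 375)) (XT.lf (nat_lit 0) (nat_lit 286918171) (nat_lit 304) (nat_lit 5348080953) (nat_lit 380) (nat_lit 841105479) (nat_lit 673) (nat_lit 5) (nat_lit 677) (nat_lit 5) (nat_lit 678) (nat_lit 4) (nat_lit 388) (nat_lit 378) (nat_lit 374)))) (XT.nd (nat_lit 78) (nat_lit 456) (nat_lit 0) (XT.lf (nat_lit 0) (nat_lit 2134002390) (nat_lit 380) (nat_lit 2765456611) (nat_lit 76) (nat_lit 1586245408) (nat_lit 672) (nat_lit 5) (nat_lit 677) (nat_lit 5) (nat_lit 673) (nat_lit 5) (nat_lit 389) (nat_lit 378) (nat_lit 373)) (XT.nd (nat_lit 78) (nat_lit 76) (nat_lit 0) (XT.lf (nat_lit 0) (nat_lit 685740613) (nat_lit 380) (nat_lit 4402297448) (nat_lit 456) (nat_lit 1408789016) (nat_lit 667) (nat_lit 5) (nat_lit 672) (nat_lit 5) (nat_lit 673) (nat_lit 5) (nat_lit 390) (nat_lit 378) (nat_lit 372)) (XT.lf (nat_lit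 0) (nat_lit 1517620888) (nat_lit 456) (nat_lit 2319982405) (nat_lit 76) (nat_lit 2671505087) (nat_lit 666) (nat_lit 5) (nat_lit 672) (nat_lit 5) (nat_lit 667) (nat_lit 5) (nat_lit 391) (nat_lit 378) (nat_lit 371))))))) (XT.nd (nat_lit 780) (nat_lit 6916) (nat_lit 0) (XT.nd (nat_lit 390) (nat_lit 2432) (nat_lit 0) (XT.nd (nat_lit 156) (nat_lit 1216) (nat_lit 0) (XT.nd (nat_lit 78) (nat_lit 76) (nat_lit 0) (XT.lf (nat_lit 0) (nat_lit 1203114602) (nat_lit 456) (nat_lit 3216694387) (nat_lit 532) (nat_lit 2102970408) (nat_lit 660) (nat_lit 5) (nat_lit 666) (nat_lit 5) (nat_lit 667) (nat_lit 5) (nat_lit 392) (nat_lit 378) (nat_lit 370)) (XT.lf (nat_lit 0) (nat_lit 776814980) (nat_lit 532) (nat_lit 1758852199) (nat_lit 76) (nat_lit 4002106542) (nat_lit 659) (nat_lit 5) (nat_lit 666) (nat_lit 5) (nat_lit 660) (nat_lit 5) (nat_lit 393) (nat_lit 378) (nat_lit 369))) (XT.nd (nat_lit 78) (nat_lit 684) (nat_lit 0) (XT.lf (nat_lit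 0) (nat_lit 1839271303) (nat_lit 532) (nat_lit 1789015278) (nat_lit 608) (nat_lit 2925707918) (nat_lit 652) (nat_lit 5) (nat_lit 659) (nat_lit 5) (nat_lit 660) (nat_lit 5) (nat_lit 394) (nat_lit 378) (nat_lit 368)) (XT.nd (nat_lit 78) (nat_lit 684) (nat_lit 0) (XT.lf (nat_lit 0) (nat_lit 5489388355) (nat_lit 532) (nat_lit 990565861) (nat_lit 608) (nat_lit 91770743) (nat_lit 652) (nat_lit 5) (nat_lit 659) (nat_lit 5) (nat_lit 660) (nat_lit 5) (nat_lit 395) (nat_lit 378) (nat_lit 367)) (XT.lf (nat_lit 0) (nat_lit 2594656036) (nat_lit 608) (nat_lit 116544943) (nat_lit 684) (nat_lit 3879311052) (nat_lit 643) (nat_lit 5) (nat_lit 651) (nat_lit 5) (nat_lit 652) (nat_lit 5) (nat_lit 396) (nat_lit 378) (nat_lit 366))))) (XT.nd (nat_lit 156) (nat_lit 1672) (nat_lit 0) (XT.nd (nat_lit 78) (nat_lit 760) (nat_lit 0) (XT.lf (nat_lit 0) (nat_lit 5514760177) (nat_lit 684) (nat_lit 300498068) (nat_lit 76) (nat_lit 795535126) (nat_lit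 643) (nat_lit 5) (nat_lit 652) (nat_lit 5) (nat_lit 644) (nat_lit 5) (nat_lit 397) (nat_lit 378) (nat_lit 365)) (XT.lf (nat_lit 0) (nat_lit 1677744357) (nat_lit 760) (nat_lit 3174163699) (nat_lit 76) (nat_lit 1780236118) (nat_lit 633) (nat_lit 5) (nat_lit 643) (nat_lit 5) (nat_lit 634) (nat_lit 5) (nat_lit 398) (nat_lit 378) (nat_lit 364))) (XT.nd (nat_lit 78) (nat_lit 912) (nat_lit 0) (XT.lf (nat_lit 0) (nat_lit 597516505) (nat_lit 760) (nat_lit 3835972168) (nat_lit 836) (nat_lit 2221508236) (nat_lit 623) (nat_lit 5) (nat_lit 633) (nat_lit 5) (nat_lit 634) (nat_lit 5) (nat_lit 399) (nat_lit 378) (nat_lit 363)) (XT.nd (nat_lit 78) (nat_lit 836) (nat_lit 0) (XT.lf (nat_lit 0) (nat_lit 515819085) (nat_lit 836) (nat_lit 2239508365) (nat_lit 76) (nat_lit 3923803188) (nat_lit 622) (nat_lit 5) (nat_lit 633) (nat_lit 5) (nat_lit 623) (nat_lit 5) (nat_lit 400) (nat_lit 378) (nat_lit 362)) (XT.lf (nat_lit 0) (nat_lit 1616738051)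 (nat_lit 836) (nat_lit 1608953519) (nat_lit 912) (nat_lit 3478851558) (nat_lit 611) (nat_lit 5) (nat_lit 622) (nat_lit 5) (nat_lit 623) (nat_lit 5) (nat_lit 401) (nat_lit 378) (nat_lit 361)))))) (XT.nd (nat_lit 390) (nat_lit 3800) (nat_lit 0) (XT.nd (nat_lit 156) (nat_lit 2128) (nat_lit 0) (XT.nd (nat_lit 78) (nat_lit 988) (nat_lit 0) (XT.lf (nat_lit 0) (nat_lit 5536182893) (nat_lit 836) (nat_lit 406574151) (nat_lit 912) (nat_lit 788686780) (nat_lit 611) (nat_lit 5) (nat_lit 622) (nat_lit 5) (nat_lit 623) (nat_lit 5) (nat_lit 402) (nat_lit 378) (nat_lit 360)) (XT.lf (nat_lit 0) (nat_lit 1891898230) (nat_lit 988) (nat_lit 4010875835) (nat_lit 76) (nat_lit 856647671) (nat_lit 598) (nat_lit 5) (nat_lit 611) (nat_lit 5) (nat_lit 599) (nat_lit 5) (nat_lit 403) (nat_lit 378) (nat_lit 359))) (XT.nd (nat_lit 78) (nat_lit 2128) (nat_lit 0) (XT.lf (nat_lit 0) (nat_lit 4566074910) (nat_lit 988) (nat_lit 53663747) (nat_lit 76) (nat_lit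 2169143039) (nat_lit 598) (nat_lit 5) (nat_lit 611) (nat_lit 5) (nat_lit 599) (nat_lit 5) (nat_lit 404) (nat_lit 378) (nat_lit 358)) (XT.nd (nat_lit 78) (nat_lit 1064) (nat_lit 0) (XT.lf (nat_lit 0) (nat_lit 435176056) (nat_lit 1064) (nat_lit 2831902071) (nat_lit 76) (nat_lit 3552495204) (nat_lit 584) (nat_lit 5) (nat_lit 598) (nat_lit 5) (nat_lit 585) (nat_lit 5) (nat_lit 405) (nat_lit 378) (nat_lit 357)) (XT.lf (nat_lit 0) (nat_lit 1215953032) (nat_lit 1064) (nat_lit 1850282807) (nat_lit 1140) (nat_lit 3785390890) (nat_lit 570) (nat_lit 5) (nat_lit 584) (nat_lit 5) (nat_lit 585) (nat_lit 5) (nat_lit 406) (nat_lit 378) (nat_lit 356))))) (XT.nd (nat_lit 234) (nat_lit 2584) (nat_lit 0) (XT.nd (nat_lit 78) (nat_lit 1216) (nat_lit 0) (XT.lf (nat_lit 0) (nat_lit 5338487957) (nat_lit 1064) (nat_lit 372687103) (nat_lit 1140) (nat_lit 1173955675) (nat_lit 570) (nat_lit 5) (nat_lit 584) (nat_lit 5) (nat_lit 585) (nat_lit 5)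 (nat_lit 407) (nat_lit 378) (nat_lit 355)) (XT.nd (nat_lit 78) (nat_lit 0) (nat_lit 0) (XT.lf (nat_lit 0) (nat_lit 1437678723) (nat_lit 1216) (nat_lit 4323499897) (nat_lit 76) (nat_lit 1158615951) (nat_lit 554) (nat_lit 5) (nat_lit 570) (nat_lit 5) (nat_lit 555) (nat_lit 5) (nat_lit 408) (nat_lit 378) (nat_lit 354)) (XT.lf (nat_lit 0) (nat_lit 4042643159) (nat_lit 1216) (nat_lit 167719837) (nat_lit 76) (nat_lit 2745529861) (nat_lit 554) (nat_lit 5) (nat_lit 570) (nat_lit 5) (nat_lit 555) (nat_lit 5) (nat_lit 409) (nat_lit 378) (nat_lit 353)))) (XT.nd (nat_lit 78) (nat_lit 1368) (nat_lit 0) (XT.lf (nat_lit 0) (nat_lit 4080058727) (nat_lit 1216) (nat_lit 2591125147) (nat_lit 1292) (nat_lit 322131757) (nat_lit 538) (nat_lit 5) (nat_lit 554) (nat_lit 5) (nat_lit 555) (nat_lit 5) (nat_lit 410) (nat_lit 378) (nat_lit 352)) (XT.nd (nat_lit 78) (nat_lit 0) (nat_lit 0) (XT.lf (nat_lit 0) (nat_lit 1341023290) (nat_lit 1292) (nat_lit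 904574466) (nat_lit 1368) (nat_lit 4786514017) (nat_lit 520) (nat_lit 5) (nat_lit 537) (nat_lit 5) (nat_lit 538) (nat_lit 5) (nat_lit 411) (nat_lit 378) (nat_lit 351)) (XT.lf (nat_lit 0) (nat_lit 4831573583) (nat_lit 1368) (nat_lit 1404932387) (nat_lit 76) (nat_lit 835741393) (nat_lit 520) (nat_lit 5) (nat_lit 538) (nat_lit 5) (nat_lit 521) (nat_lit 5) (nat_lit 412) (nat_lit 378) (nat_lit 350))))))))
noncomputable def xc89 : XT := (XT.nd (nat_lit 1638) (nat_lit 8968) (nat_lit 0) (XT.nd (nat_lit 780) (nat_lit 6004) (nat_lit 0) (XT.nd (nat_lit 390) (nat_lit 6232) (nat_lit 0) (XT.nd (nat_lit 156) (nat_lit 1596) (nat_lit 0) (XT.nd (nat_lit 78) (nat_lit 1444) (nat_lit 0) (XT.lf (nat_lit 0) (nat_lit 323655970) (nat_lit 1444) (nat_lit 4161247014) (nat_lit 76) (nat_lit 2628820627) (nat_lit 501) (nat_lit 5) (nat_lit 520) (nat_lit 5) (nat_lit 502) (nat_lit 5) (nat_lit 413) (nat_lit 378) (nat_lit 349)) (XT.lf (nat_lit 0) (nat_lit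 202505475) (nat_lit 1444) (nat_lit 2665247917) (nat_lit 1520) (nat_lit 4288838570) (nat_lit 482) (nat_lit 5) (nat_lit 501) (nat_lit 5) (nat_lit 502) (nat_lit 5) (nat_lit 414) (nat_lit 378) (nat_lit 348))) (XT.nd (nat_lit 78) (nat_lit 1596) (nat_lit 0) (XT.lf (nat_lit 0) (nat_lit 4664752817) (nat_lit 1444) (nat_lit 774287759) (nat_lit 1520) (nat_lit 1761778860) (nat_lit 482) (nat_lit 5) (nat_lit 501) (nat_lit 5) (nat_lit 502) (nat_lit 5) (nat_lit 415) (nat_lit 378) (nat_lit 347)) (XT.nd (nat_lit 78) (nat_lit 0) (nat_lit 0) (XT.lf (nat_lit 0) (nat_lit 774440815) (nat_lit 1596) (nat_lit 5308744601) (nat_lit 76) (nat_lit 1163280569) (nat_lit 461) (nat_lit 5) (nat_lit 482) (nat_lit 5) (nat_lit 462) (nat_lit 5) (nat_lit 416) (nat_lit 378) (nat_lit 346)) (XT.lf (nat_lit 0) (nat_lit 3309854188) (nat_lit 1596) (nat_lit 820007251) (nat_lit 76) (nat_lit 3163516228) (nat_lit 461) (nat_lit 5) (nat_lit 482) (nat_lit 5) (nat_lit 462)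 (nat_lit 5) (nat_lit 417) (nat_lit 378) (nat_lit 345))))) (XT.nd (nat_lit 156) (nat_lit 2888) (nat_lit 0) (XT.nd (nat_lit 78) (nat_lit 1748) (nat_lit 0) (XT.lf (nat_lit 0) (nat_lit 3762978051) (nat_lit 1596) (nat_lit 2108192949) (nat_lit 1672) (nat_lit 1470578466) (nat_lit 440) (nat_lit 5) (nat_lit 461) (nat_lit 5) (nat_lit 462) (nat_lit 5) (nat_lit 418) (nat_lit 378) (nat_lit 344)) (XT.lf (nat_lit 0) (nat_lit 1018731776) (nat_lit 1672) (nat_lit 22809931) (nat_lit 1748) (nat_lit 6350164973) (nat_lit 417) (nat_lit 5) (nat_lit 439) (nat_lit 5) (nat_lit 440) (nat_lit 5) (nat_lit 419) (nat_lit 378) (nat_lit 343))) (XT.nd (nat_lit 78) (nat_lit 2888) (nat_lit 0) (XT.lf (nat_lit 0) (nat_lit 3573849694) (nat_lit 1748) (nat_lit 1755017918) (nat_lit 76) (nat_lit 2113832586) (nat_lit 417) (nat_lit 5) (nat_lit 440) (nat_lit 5) (nat_lit 418) (nat_lit 5) (nat_lit 420) (nat_lit 378) (nat_lit 342)) (XT.nd (nat_lit 78) (nat_lit 1140)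 (nat_lit 0) (XT.lf (nat_lit 0) (nat_lit 2948750889) (nat_lit 1748) (nat_lit 3180075901) (nat_lit 1824) (nat_lit 1366470161) (nat_lit 394) (nat_lit 5) (nat_lit 417) (nat_lit 5) (nat_lit 418) (nat_lit 5) (nat_lit 421) (nat_lit 378) (nat_lit 341)) (XT.lf (nat_lit 0) (nat_lit 170715413) (nat_lit 1064) (nat_lit 965682784) (nat_lit 1140) (nat_lit 6413096449) (nat_lit 379) (nat_lit 5) (nat_lit 393) (nat_lit 5) (nat_lit 394) (nat_lit 5) (nat_lit 422) (nat_lit 378) (nat_lit 340)))))) (XT.nd (nat_lit 390) (nat_lit 3344) (nat_lit 0) (XT.nd (nat_lit 156) (nat_lit 1748) (nat_lit 0) (XT.nd (nat_lit 78) (nat_lit 912) (nat_lit 0) (XT.lf (nat_lit 0) (nat_lit 3663817657) (nat_lit 1140) (nat_lit 2623939486) (nat_lit 76) (nat_lit 1317005139) (nat_lit 379) (nat_lit 5) (nat_lit 394) (nat_lit 5) (nat_lit 380) (nat_lit 5) (nat_lit 423) (nat_lit 378) (nat_lit 339)) (XT.lf (nat_lit 0) (nat_lit 2203323687) (nat_lit 912) (nat_lit 4013737893) (nat_lit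 988) (nat_lit 1444590178) (nat_lit 367) (nat_lit 5) (nat_lit 379) (nat_lit 5) (nat_lit 380) (nat_lit 5) (nat_lit 424) (nat_lit 378) (nat_lit 338))) (XT.nd (nat_lit 78) (nat_lit 1672) (nat_lit 0) (XT.lf (nat_lit 0) (nat_lit 1059823640) (nat_lit 988) (nat_lit 609395055) (nat_lit 76) (nat_lit 6050886799) (nat_lit 366) (nat_lit 5) (nat_lit 379) (nat_lit 5) (nat_lit 367) (nat_lit 5) (nat_lit 425) (nat_lit 378) (nat_lit 337)) (XT.nd (nat_lit 78) (nat_lit 836) (nat_lit 0) (XT.lf (nat_lit 0) (nat_lit 3583852380) (nat_lit 912) (nat_lit 3445562992) (nat_lit 76) (nat_lit 750365305) (nat_lit 355) (nat_lit 5) (nat_lit 367) (nat_lit 5) (nat_lit 356) (nat_lit 5) (nat_lit 426) (nat_lit 378) (nat_lit 336)) (XT.lf (nat_lit 0) (nat_lit 1507887159) (nat_lit 836) (nat_lit 4631753287) (nat_lit 912) (nat_lit 1701403673) (nat_lit 344) (nat_lit 5) (nat_lit 355) (nat_lit 5) (nat_lit 356) (nat_lit 5) (nat_lit 427) (nat_lit 378) (nat_lit 335)))))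 (XT.nd (nat_lit 234) (nat_lit 1596) (nat_lit 0) (XT.nd (nat_lit 78) (nat_lit 1672) (nat_lit 0) (XT.lf (nat_lit 0) (nat_lit 811807277) (nat_lit 912) (nat_lit 1347087460) (nat_lit 76) (nat_lit 5744951129) (nat_lit 343) (nat_lit 5) (nat_lit 355) (nat_lit 5) (nat_lit 344) (nat_lit 5) (nat_lit 428) (nat_lit 378) (nat_lit 334)) (XT.nd (nat_lit 78) (nat_lit 836) (nat_lit 0) (XT.lf (nat_lit 0) (nat_lit 3336761314) (nat_lit 912) (nat_lit 4238877203) (nat_lit 76) (nat_lit 392374150) (nat_lit 332) (nat_lit 5) (nat_lit 344) (nat_lit 5) (nat_lit 333) (nat_lit 5) (nat_lit 429) (nat_lit 378) (nat_lit 333)) (XT.lf (nat_lit 0) (nat_lit 843404111) (nat_lit 836) (nat_lit 5055644058) (nat_lit 912) (nat_lit 2134696745) (nat_lit 321) (nat_lit 5) (nat_lit 332) (nat_lit 5) (nat_lit 333) (nat_lit 5) (nat_lit 430) (nat_lit 378) (nat_lit 332)))) (XT.nd (nat_lit 78) (nat_lit 1520) (nat_lit 0) (XT.lf (nat_lit 0) (nat_lit 393222655) (nat_lit 912)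 (nat_lit 2063732236) (nat_lit 76) (nat_lit 5644064809) (nat_lit 320) (nat_lit 5) (nat_lit 332) (nat_lit 5) (nat_lit 321) (nat_lit 5) (nat_lit 431) (nat_lit 378) (nat_lit 331)) (XT.nd (nat_lit 78) (nat_lit 760) (nat_lit 0) (XT.lf (nat_lit 0) (nat_lit 2924066556) (nat_lit 836) (nat_lit 5023237644) (nat_lit 76) (nat_lit 222452282) (nat_lit 310) (nat_lit 5) (nat_lit 321) (nat_lit 5) (nat_lit 311) (nat_lit 5) (nat_lit 432) (nat_lit 378) (nat_lit 330)) (XT.lf (nat_lit 0) (nat_lit 190437522) (nat_lit 760) (nat_lit 5306050016) (nat_lit 836) (nat_lit 2743578612) (nat_lit 300) (nat_lit 5) (nat_lit 310) (nat_lit 5) (nat_lit 311) (nat_lit 5) (nat_lit 433) (nat_lit 378) (nat_lit 329))))))) (XT.nd (nat_lit 858) (nat_lit 4104) (nat_lit 0) (XT.nd (nat_lit 390) (nat_lit 2584) (nat_lit 0) (XT.nd (nat_lit 156) (nat_lit 1520) (nat_lit 0) (XT.nd (nat_lit 78) (nat_lit 760) (nat_lit 0) (XT.lf (nat_lit 0) (nat_lit 5531718413) (nat_lit 760)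 (nat_lit 2582362460) (nat_lit 836) (nat_lit 197843672) (nat_lit 300) (nat_lit 5) (nat_lit 310) (nat_lit 5) (nat_lit 311) (nat_lit 5) (nat_lit 434) (nat_lit 378) (nat_lit 328)) (XT.lf (nat_lit 0) (nat_lit 2345996273) (nat_lit 760) (nat_lit 5818542381) (nat_lit 76) (nat_lit 220813292) (nat_lit 290) (nat_lit 5) (nat_lit 300) (nat_lit 5) (nat_lit 291) (nat_lit 5) (nat_lit 435) (nat_lit 378) (nat_lit 327))) (XT.nd (nat_lit 78) (nat_lit 1520) (nat_lit 0) (XT.lf (nat_lit 0) (nat_lit 4934925767) (nat_lit 760) (nat_lit 464850892) (nat_lit 76) (nat_lit 3060523877) (nat_lit 290) (nat_lit 5) (nat_lit 300) (nat_lit 5) (nat_lit 291) (nat_lit 5) (nat_lit 436) (nat_lit 378) (nat_lit 326)) (XT.nd (nat_lit 78) (nat_lit 760) (nat_lit 0) (XT.lf (nat_lit 0) (nat_lit 5017710226) (nat_lit 760) (nat_lit 2552244535) (nat_lit 836) (nat_lit 966922635) (nat_lit 280) (nat_lit 5) (nat_lit 290) (nat_lit 5) (nat_lit 291) (nat_lit 5) (nat_lit 437) (nat_lit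 378) (nat_lit 325)) (XT.lf (nat_lit 0) (nat_lit 1601465794) (nat_lit 760) (nat_lit 6645416091) (nat_lit 76) (nat_lit 368299475) (nat_lit 270) (nat_lit 5) (nat_lit 280) (nat_lit 5) (nat_lit 271) (nat_lit 5) (nat_lit 438) (nat_lit 378) (nat_lit 324))))) (XT.nd (nat_lit 234) (nat_lit 1216) (nat_lit 0) (XT.nd (nat_lit 78) (nat_lit 1368) (nat_lit 0) (XT.lf (nat_lit 0) (nat_lit 4211324103) (nat_lit 760) (nat_lit 1146539688) (nat_lit 76) (nat_lit 3337013612) (nat_lit 270) (nat_lit 5) (nat_lit 280) (nat_lit 5) (nat_lit 271) (nat_lit 5) (nat_lit 439) (nat_lit 378) (nat_lit 323)) (XT.nd (nat_lit 78) (nat_lit 684) (nat_lit 0) (XT.lf (nat_lit 0) (nat_lit 4477231931) (nat_lit 684) (nat_lit 2388317748) (nat_lit 760) (nat_lit 1910788807) (nat_lit 261) (nat_lit 5) (nat_lit 270) (nat_lit 5) (nat_lit 271) (nat_lit 5) (nat_lit 440) (nat_lit 378) (nat_lit 322)) (XT.lf (nat_lit 0) (nat_lit 688048014) (nat_lit 684) (nat_lit 7525404084) (nat_lit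 76) (nat_lit 646218532) (nat_lit 252) (nat_lit 5) (nat_lit 261) (nat_lit 5) (nat_lit 253) (nat_lit 5) (nat_lit 441) (nat_lit 378) (nat_lit 321)))) (XT.nd (nat_lit 78) (nat_lit 1216) (nat_lit 0) (XT.lf (nat_lit 0) (nat_lit 3321831077) (nat_lit 684) (nat_lit 1878588758) (nat_lit 76) (nat_lit 3743839560) (nat_lit 252) (nat_lit 5) (nat_lit 261) (nat_lit 5) (nat_lit 253) (nat_lit 5) (nat_lit 442) (nat_lit 378) (nat_lit 320)) (XT.nd (nat_lit 78) (nat_lit 608) (nat_lit 0) (XT.lf (nat_lit 0) (nat_lit 3888616703) (nat_lit 608) (nat_lit 2109306903) (nat_lit 684) (nat_lit 3032837067) (nat_lit 244) (nat_lit 5) (nat_lit 252) (nat_lit 5) (nat_lit 253) (nat_lit 5) (nat_lit 443) (nat_lit 378) (nat_lit 319)) (XT.lf (nat_lit 0) (nat_lit 635441389) (nat_lit 608) (nat_lit 8080439448) (nat_lit 684) (nat_lit 403357435) (nat_lit 236) (nat_lit 5) (nat_lit 244) (nat_lit 5) (nat_lit 245) (nat_lit 5) (nat_lit 444) (nat_lit 378) (nat_lit 318))))))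 (XT.nd (nat_lit 390) (nat_lit 2204) (nat_lit 0) (XT.nd (nat_lit 156) (nat_lit 1216) (nat_lit 0) (XT.nd (nat_lit 78) (nat_lit 608) (nat_lit 0) (XT.lf (nat_lit 0) (nat_lit 2262445799) (nat_lit 684) (nat_lit 2683620301) (nat_lit 76) (nat_lit 4262863671) (nat_lit 235) (nat_lit 5) (nat_lit 244) (nat_lit 5) (nat_lit 236) (nat_lit 5) (nat_lit 445) (nat_lit 378) (nat_lit 317)) (XT.lf (nat_lit 0) (nat_lit 3228988084) (nat_lit 608) (nat_lit 1733749556) (nat_lit 684) (nat_lit 4337905059) (nat_lit 227) (nat_lit 5) (nat_lit 235) (nat_lit 5) (nat_lit 236) (nat_lit 5) (nat_lit 446) (nat_lit 378) (nat_lit 316))) (XT.nd (nat_lit 78) (nat_lit 1216) (nat_lit 0) (XT.lf (nat_lit 0) (nat_lit 7711121054) (nat_lit 684) (nat_lit 151338806) (nat_lit 76) (nat_lit 1531860462) (nat_lit 227) (nat_lit 5) (nat_lit 236) (nat_lit 5) (nat_lit 228) (nat_lit 5) (nat_lit 447) (nat_lit 378) (nat_lit 315)) (XT.nd (nat_lit 78) (nat_lit 608) (nat_lit 0) (XT.lf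 (nat_lit 0) (nat_lit 1027726756) (nat_lit 608) (nat_lit 3585638109) (nat_lit 76) (nat_lit 4876053984) (nat_lit 219) (nat_lit 5) (nat_lit 227) (nat_lit 5) (nat_lit 220) (nat_lit 5) (nat_lit 448) (nat_lit 378) (nat_lit 314)) (XT.lf (nat_lit 0) (nat_lit 2474032911) (nat_lit 608) (nat_lit 1280164480) (nat_lit 684) (nat_lit 5832333604) (nat_lit 211) (nat_lit 5) (nat_lit 219) (nat_lit 5) (nat_lit 220) (nat_lit 5) (nat_lit 449) (nat_lit 378) (nat_lit 313))))) (XT.nd (nat_lit 234) (nat_lit 1064) (nat_lit 0) (XT.nd (nat_lit 78) (nat_lit 1140) (nat_lit 0) (XT.lf (nat_lit 0) (nat_lit 6540250108) (nat_lit 684) (nat_lit 1038763014) (nat_lit 76) (nat_lit 2106482432) (nat_lit 211) (nat_lit 5) (nat_lit 220) (nat_lit 5) (nat_lit 212) (nat_lit 5) (nat_lit 450) (nat_lit 378) (nat_lit 312)) (XT.nd (nat_lit 78) (nat_lit 608) (nat_lit 0) (XT.lf (nat_lit 0) (nat_lit 5173428471) (nat_lit 532) (nat_lit 4218377653) (nat_lit 608) (nat_lit 394448642)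 (nat_lit 204) (nat_lit 5) (nat_lit 211) (nat_lit 5) (nat_lit 212) (nat_lit 5) (nat_lit 451) (nat_lit 378) (nat_lit 311)) (XT.lf (nat_lit 0) (nat_lit 1597757549) (nat_lit 532) (nat_lit 767224136) (nat_lit 608) (nat_lit 7524040069) (nat_lit 196) (nat_lit 5) (nat_lit 203) (nat_lit 5) (nat_lit 204) (nat_lit 5) (nat_lit 452) (nat_lit 378) (nat_lit 310)))) (XT.nd (nat_lit 78) (nat_lit 1064) (nat_lit 0) (XT.lf (nat_lit 0) (nat_lit 5191497792) (nat_lit 608) (nat_lit 2061683049) (nat_lit 76) (nat_lit 2740277889) (nat_lit 196) (nat_lit 5) (nat_lit 204) (nat_lit 5) (nat_lit 197) (nat_lit 5) (nat_lit 453) (nat_lit 378) (nat_lit 309)) (XT.nd (nat_lit 78) (nat_lit 608) (nat_lit 0) (XT.lf (nat_lit 0) (nat_lit 4301820106) (nat_lit 456) (nat_lit 3774500454) (nat_lit 532) (nat_lit 2023638525) (nat_lit 190) (nat_lit 5) (nat_lit 196) (nat_lit 5) (nat_lit 197) (nat_lit 5) (nat_lit 454) (nat_lit 378) (nat_lit 308)) (XT.lf (nat_lit 0) (nat_lit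 572225139) (nat_lit 532) (nat_lit 213932670) (nat_lit 608) (nat_lit 9422605515) (nat_lit 182) (nat_lit 5) (nat_lit 189) (nat_lit 5) (nat_lit 190) (nat_lit 5) (nat_lit 455) (nat_lit 378) (nat_lit 307))))))))
noncomputable def xc90 : XT := (XT.nd (nat_lit 1638) (nat_lit 3724) (nat_lit 0) (XT.nd (nat_lit 780) (nat_lit 2432) (nat_lit 0) (XT.nd (nat_lit 390) (nat_lit 1368) (nat_lit 0) (XT.nd (nat_lit 156) (nat_lit 988) (nat_lit 0) (XT.nd (nat_lit 78) (nat_lit 456) (nat_lit 0) (XT.lf (nat_lit 0) (nat_lit 3655594177) (nat_lit 608) (nat_lit 3248653965) (nat_lit 76) (nat_lit 3414626749) (nat_lit 182) (nat_lit 5) (nat_lit 190) (nat_lit 5) (nat_lit 183) (nat_lit 5) (nat_lit 456) (nat_lit 378) (nat_lit 306)) (XT.lf (nat_lit 0) (nat_lit 3266817884) (nat_lit 456) (nat_lit 3307991382) (nat_lit 532) (nat_lit 3856541016) (nat_lit 176) (nat_lit 5) (nat_lit 182) (nat_lit 5) (nat_lit 183) (nat_lit 5) (nat_lit 457) (nat_lit 378) (nat_lit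 305))) (XT.nd (nat_lit 78) (nat_lit 988) (nat_lit 0) (XT.lf (nat_lit 0) (nat_lit 9546705163) (nat_lit 532) (nat_lit 633344493) (nat_lit 76) (nat_lit 366148803) (nat_lit 176) (nat_lit 5) (nat_lit 183) (nat_lit 5) (nat_lit 177) (nat_lit 5) (nat_lit 458) (nat_lit 378) (nat_lit 304)) (XT.nd (nat_lit 78) (nat_lit 456) (nat_lit 0) (XT.lf (nat_lit 0) (nat_lit 1921540614) (nat_lit 532) (nat_lit 4630557771) (nat_lit 76) (nat_lit 4110366301) (nat_lit 169) (nat_lit 5) (nat_lit 176) (nat_lit 5) (nat_lit 170) (nat_lit 5) (nat_lit 459) (nat_lit 378) (nat_lit 303)) (XT.lf (nat_lit 0) (nat_lit 2036980265) (nat_lit 456) (nat_lit 2838859607) (nat_lit 532) (nat_lit 5905328350) (nat_lit 163) (nat_lit 5) (nat_lit 169) (nat_lit 5) (nat_lit 170) (nat_lit 5) (nat_lit 460) (nat_lit 378) (nat_lit 302))))) (XT.nd (nat_lit 156) (nat_lit 912) (nat_lit 0) (XT.nd (nat_lit 78) (nat_lit 456) (nat_lit 0) (XT.lf (nat_lit 0) (nat_lit 7897606742) (nat_lit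 532) (nat_lit 2048756853) (nat_lit 76) (nat_lit 955723109) (nat_lit 163) (nat_lit 5) (nat_lit 170) (nat_lit 5) (nat_lit 164) (nat_lit 5) (nat_lit 461) (nat_lit 378) (nat_lit 301)) (XT.lf (nat_lit 0) (nat_lit 4783931488) (nat_lit 456) (nat_lit 6217251189) (nat_lit 532) (nat_lit 23821744) (nat_lit 157) (nat_lit 5) (nat_lit 163) (nat_lit 5) (nat_lit 164) (nat_lit 5) (nat_lit 462) (nat_lit 378) (nat_lit 300))) (XT.nd (nat_lit 78) (nat_lit 456) (nat_lit 0) (XT.lf (nat_lit 0) (nat_lit 578134714) (nat_lit 380) (nat_lit 2387961426) (nat_lit 456) (nat_lit 8184116519) (nat_lit 151) (nat_lit 5) (nat_lit 156) (nat_lit 5) (nat_lit 157) (nat_lit 5) (nat_lit 463) (nat_lit 378) (nat_lit 299)) (XT.nd (nat_lit 78) (nat_lit 456) (nat_lit 0) (XT.lf (nat_lit 0) (nat_lit 6039335907) (nat_lit 456) (nat_lit 3709984901) (nat_lit 76) (nat_lit 1528132113) (nat_lit 151) (nat_lit 5) (nat_lit 157) (nat_lit 5) (nat_lit 152) (nat_lit 5) (nat_lit 464)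 (nat_lit 378) (nat_lit 298)) (XT.lf (nat_lit 0) (nat_lit 3276375614) (nat_lit 456) (nat_lit 5907132601) (nat_lit 532) (nat_lit 2223548123) (nat_lit 145) (nat_lit 5) (nat_lit 151) (nat_lit 5) (nat_lit 152) (nat_lit 5) (nat_lit 465) (nat_lit 378) (nat_lit 297)))))) (XT.nd (nat_lit 390) (nat_lit 1140) (nat_lit 0) (XT.nd (nat_lit 156) (nat_lit 836) (nat_lit 0) (XT.nd (nat_lit 78) (nat_lit 380) (nat_lit 0) (XT.lf (nat_lit 0) (nat_lit 837683109) (nat_lit 532) (nat_lit 1131932411) (nat_lit 76) (nat_lit 9569582443) (nat_lit 144) (nat_lit 5) (nat_lit 151) (nat_lit 5) (nat_lit 145) (nat_lit 5) (nat_lit 466) (nat_lit 378) (nat_lit 296)) (XT.lf (nat_lit 0) (nat_lit 3956134538) (nat_lit 456) (nat_lit 5655293789) (nat_lit 76) (nat_lit 2061752023) (nat_lit 139) (nat_lit 5) (nat_lit 145) (nat_lit 5) (nat_lit 140) (nat_lit 5) (nat_lit 467) (nat_lit 378) (nat_lit 295))) (XT.nd (nat_lit 78) (nat_lit 456) (nat_lit 0) (XT.lf (nat_lit 0)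 (nat_lit 1483060322) (nat_lit 380) (nat_lit 5657422245) (nat_lit 456) (nat_lit 4669296384) (nat_lit 134) (nat_lit 5) (nat_lit 139) (nat_lit 5) (nat_lit 140) (nat_lit 5) (nat_lit 468) (nat_lit 378) (nat_lit 294)) (XT.nd (nat_lit 78) (nat_lit 456) (nat_lit 0) (XT.lf (nat_lit 0) (nat_lit 8801450124) (nat_lit 380) (nat_lit 1598495588) (nat_lit 456) (nat_lit 1548942228) (nat_lit 134) (nat_lit 5) (nat_lit 139) (nat_lit 5) (nat_lit 140) (nat_lit 5) (nat_lit 469) (nat_lit 378) (nat_lit 293)) (XT.lf (nat_lit 0) (nat_lit 1630022933) (nat_lit 456) (nat_lit 7926544715) (nat_lit 76) (nat_lit 2533653378) (nat_lit 128) (nat_lit 5) (nat_lit 134) (nat_lit 5) (nat_lit 129) (nat_lit 5) (nat_lit 470) (nat_lit 378) (nat_lit 292))))) (XT.nd (nat_lit 234) (nat_lit 456) (nat_lit 0) (XT.nd (nat_lit 78) (nat_lit 684) (nat_lit 0) (XT.lf (nat_lit 0) (nat_lit 4857691482) (nat_lit 456) (nat_lit 630423242) (nat_lit 76) (nat_lit 6745950567) (nat_lit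 128) (nat_lit 5) (nat_lit 134) (nat_lit 5) (nat_lit 129) (nat_lit 5) (nat_lit 471) (nat_lit 378) (nat_lit 291)) (XT.nd (nat_lit 78) (nat_lit 304) (nat_lit 0) (XT.lf (nat_lit 0) (nat_lit 6863243005) (nat_lit 380) (nat_lit 1305739093) (nat_lit 456) (nat_lit 4211429416) (nat_lit 123) (nat_lit 5) (nat_lit 128) (nat_lit 5) (nat_lit 129) (nat_lit 5) (nat_lit 472) (nat_lit 378) (nat_lit 290)) (XT.lf (nat_lit 0) (nat_lit 1953535778) (nat_lit 304) (nat_lit 9603801472) (nat_lit 380) (nat_lit 972136958) (nat_lit 119) (nat_lit 5) (nat_lit 123) (nat_lit 5) (nat_lit 124) (nat_lit 5) (nat_lit 473) (nat_lit 378) (nat_lit 289)))) (XT.nd (nat_lit 78) (nat_lit 380) (nat_lit 0) (XT.lf (nat_lit 0) (nat_lit 2322025160) (nat_lit 380) (nat_lit 3095022863) (nat_lit 76) (nat_lit 7263760046) (nat_lit 118) (nat_lit 5) (nat_lit 123) (nat_lit 5) (nat_lit 119) (nat_lit 5) (nat_lit 474) (nat_lit 378) (nat_lit 288)) (XT.nd (nat_lit 78) (nat_lit 0) (nat_lit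 0) (XT.lf (nat_lit 0) (nat_lit 4550863298) (nat_lit 380) (nat_lit 1122996832) (nat_lit 456) (nat_lit 7161089786) (nat_lit 113) (nat_lit 5) (nat_lit 118) (nat_lit 5) (nat_lit 119) (nat_lit 5) (nat_lit 475) (nat_lit 378) (nat_lit 287)) (XT.lf (nat_lit 0) (nat_lit 9110187548) (nat_lit 456) (nat_lit 659478522) (nat_lit 76) (nat_lit 3222165255) (nat_lit 113) (nat_lit 5) (nat_lit 119) (nat_lit 5) (nat_lit 114) (nat_lit 5) (nat_lit 476) (nat_lit 378) (nat_lit 286))))))) (XT.nd (nat_lit 780) (nat_lit 1672) (nat_lit 0) (XT.nd (nat_lit 390) (nat_lit 1064) (nat_lit 0) (XT.nd (nat_lit 156) (nat_lit 304) (nat_lit 0) (XT.nd (nat_lit 78) (nat_lit 380) (nat_lit 0) (XT.lf (nat_lit 0) (nat_lit 7166869045) (nat_lit 304) (nat_lit 5478226685) (nat_lit 380) (nat_lit 506163272) (nat_lit 109) (nat_lit 5) (nat_lit 113) (nat_lit 5) (nat_lit 114) (nat_lit 5) (nat_lit 477) (nat_lit 378) (nat_lit 285)) (XT.lf (nat_lit 0) (nat_lit 1812176119) (nat_lit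 304) (nat_lit 1078307888) (nat_lit 380) (nat_lit 10423171888) (nat_lit 104) (nat_lit 5) (nat_lit 108) (nat_lit 5) (nat_lit 109) (nat_lit 5) (nat_lit 478) (nat_lit 378) (nat_lit 284))) (XT.nd (nat_lit 78) (nat_lit 304) (nat_lit 0) (XT.lf (nat_lit 0) (nat_lit 6386952219) (nat_lit 380) (nat_lit 3695998731) (nat_lit 76) (nat_lit 3395514947) (nat_lit 104) (nat_lit 5) (nat_lit 109) (nat_lit 5) (nat_lit 105) (nat_lit 5) (nat_lit 479) (nat_lit 378) (nat_lit 283)) (XT.nd (nat_lit 78) (nat_lit 0) (nat_lit 0) (XT.lf (nat_lit 0) (nat_lit 4277751160) (nat_lit 304) (nat_lit 5687079797) (nat_lit 380) (nat_lit 3681516808) (nat_lit 100) (nat_lit 5) (nat_lit 104) (nat_lit 5) (nat_lit 105) (nat_lit 5) (nat_lit 480) (nat_lit 378) (nat_lit 282)) (XT.lf (nat_lit 0) (nat_lit 12424515273) (nat_lit 304) (nat_lit 1191342258) (nat_lit 380) (nat_lit 201703119) (nat_lit 100) (nat_lit 5) (nat_lit 104) (nat_lit 5) (nat_lit 105) (nat_lit 5) (nat_lit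 481) (nat_lit 378) (nat_lit 281))))) (XT.nd (nat_lit 156) (nat_lit 380) (nat_lit 0) (XT.nd (nat_lit 78) (nat_lit 304) (nat_lit 0) (XT.lf (nat_lit 0) (nat_lit 3347250472) (nat_lit 380) (nat_lit 7240777858) (nat_lit 76) (nat_lit 3402870747) (nat_lit 95) (nat_lit 5) (nat_lit 100) (nat_lit 5) (nat_lit 96) (nat_lit 5) (nat_lit 482) (nat_lit 378) (nat_lit 280)) (XT.lf (nat_lit 0) (nat_lit 873395558) (nat_lit 304) (nat_lit 6091277439) (nat_lit 380) (nat_lit 7203005684) (nat_lit 91) (nat_lit 5) (nat_lit 95) (nat_lit 5) (nat_lit 96) (nat_lit 5) (nat_lit 483) (nat_lit 378) (nat_lit 279))) (XT.nd (nat_lit 78) (nat_lit 380) (nat_lit 0) (XT.lf (nat_lit 0) (nat_lit 9211953096) (nat_lit 304) (nat_lit 1468510776) (nat_lit 380) (nat_lit 3667014398) (nat_lit 91) (nat_lit 5) (nat_lit 95) (nat_lit 5) (nat_lit 96) (nat_lit 5) (nat_lit 484) (nat_lit 378) (nat_lit 278)) (XT.nd (nat_lit 78) (nat_lit 76) (nat_lit 0) (XT.lf (nat_lit 0) (nat_lit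 3171214615) (nat_lit 304) (nat_lit 11318812580) (nat_lit 380) (nat_lit 40462219) (nat_lit 87) (nat_lit 5) (nat_lit 91) (nat_lit 5) (nat_lit 92) (nat_lit 5) (nat_lit 485) (nat_lit 378) (nat_lit 277)) (XT.lf (nat_lit 0) (nat_lit 3632895234) (nat_lit 380) (nat_lit 3072245245) (nat_lit 76) (nat_lit 8011104579) (nat_lit 86) (nat_lit 5) (nat_lit 91) (nat_lit 5) (nat_lit 87) (nat_lit 5) (nat_lit 486) (nat_lit 378) (nat_lit 276)))))) (XT.nd (nat_lit 390) (nat_lit 836) (nat_lit 0) (XT.nd (nat_lit 156) (nat_lit 608) (nat_lit 0) (XT.nd (nat_lit 78) (nat_lit 0) (nat_lit 0) (XT.lf (nat_lit 0) (nat_lit 5416224396) (nat_lit 228) (nat_lit 1976396509) (nat_lit 304) (nat_lit 7512825128) (nat_lit 83) (nat_lit 5) (nat_lit 86) (nat_lit 5) (nat_lit 87) (nat_lit 5) (nat_lit 487) (nat_lit 378) (nat_lit 275)) (XT.lf (nat_lit 0) (nat_lit 11245168075) (nat_lit 304) (nat_lit 1035715786) (nat_lit 76) (nat_lit 2817198967) (nat_lit 83) (nat_lit 5)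 (nat_lit 87) (nat_lit 5) (nat_lit 84) (nat_lit 5) (nat_lit 488) (nat_lit 378) (nat_lit 274))) (XT.nd (nat_lit 78) (nat_lit 304) (nat_lit 0) (XT.lf (nat_lit 0) (nat_lit 7639469413) (nat_lit 304) (nat_lit 7576799681) (nat_lit 380) (nat_lit 77477460) (nat_lit 79) (nat_lit 5) (nat_lit 83) (nat_lit 5) (nat_lit 84) (nat_lit 5) (nat_lit 489) (nat_lit 378) (nat_lit 273)) (XT.nd (nat_lit 78) (nat_lit 0) (nat_lit 0) (XT.lf (nat_lit 0) (nat_lit 962538028) (nat_lit 228) (nat_lit 2753549961) (nat_lit 304) (nat_lit 11776907474) (nat_lit 75) (nat_lit 5) (nat_lit 78) (nat_lit 5) (nat_lit 79) (nat_lit 5) (nat_lit 490) (nat_lit 378) (nat_lit 272)) (XT.lf (nat_lit 0) (nat_lit 7629225029) (nat_lit 304) (nat_lit 5889336072) (nat_lit 76) (nat_lit 2176767262) (nat_lit 75) (nat_lit 5) (nat_lit 79) (nat_lit 5) (nat_lit 76) (nat_lit 5) (nat_lit 491) (nat_lit 378) (nat_lit 271))))) (XT.nd (nat_lit 234) (nat_lit 228) (nat_lit 0) (XT.nd (nat_lit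 78) (nat_lit 304) (nat_lit 0) (XT.lf (nat_lit 0) (nat_lit 2910562670) (nat_lit 304) (nat_lit 8726575429) (nat_lit 380) (nat_lit 4264243485) (nat_lit 71) (nat_lit 5) (nat_lit 75) (nat_lit 5) (nat_lit 76) (nat_lit 5) (nat_lit 492) (nat_lit 378) (nat_lit 270)) (XT.nd (nat_lit 78) (nat_lit 304) (nat_lit 0) (XT.lf (nat_lit 0) (nat_lit 11932532284) (nat_lit 304) (nat_lit 3811763367) (nat_lit 380) (nat_lit 366882348) (nat_lit 71) (nat_lit 5) (nat_lit 75) (nat_lit 5) (nat_lit 76) (nat_lit 5) (nat_lit 493) (nat_lit 378) (nat_lit 269)) (XT.lf (nat_lit 0) (nat_lit 3580276843) (nat_lit 304) (nat_lit 11516421206) (nat_lit 76) (nat_lit 1227623909) (nat_lit 67) (nat_lit 5) (nat_lit 71) (nat_lit 5) (nat_lit 68) (nat_lit 5) (nat_lit 494) (nat_lit 378) (nat_lit 268)))) (XT.nd (nat_lit 78) (nat_lit 228) (nat_lit 0) (XT.lf (nat_lit 0) (nat_lit 7634866112) (nat_lit 304) (nat_lit 2571672921) (nat_lit 76) (nat_lit 6334476904) (nat_lit 67)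 (nat_lit 5) (nat_lit 71) (nat_lit 5) (nat_lit 68) (nat_lit 5) (nat_lit 495) (nat_lit 378) (nat_lit 267)) (XT.nd (nat_lit 78) (nat_lit 0) (nat_lit 0) (XT.lf (nat_lit 0) (nat_lit 6605795861) (nat_lit 228) (nat_lit 5187958922) (nat_lit 304) (nat_lit 4967828420) (nat_lit 64) (nat_lit 5) (nat_lit 67) (nat_lit 5) (nat_lit 68) (nat_lit 5) (nat_lit 496) (nat_lit 378) (nat_lit 266)) (XT.lf (nat_lit 0) (nat_lit 15969078913) (nat_lit 228) (nat_lit 64492289) (nat_lit 304) (nat_lit 953039102) (nat_lit 64) (nat_lit 5) (nat_lit 67) (nat_lit 5) (nat_lit 68) (nat_lit 5) (nat_lit 497) (nat_lit 378) (nat_lit 265))))))))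
noncomputable def xc91 : XT := (XT.nd (nat_lit 51402) (nat_lit 0) (nat_lit 31236) (XT.nd (nat_lit 50544) (nat_lit 0) (nat_lit 45676) (XT.nd (nat_lit 390) (nat_lit 228) (nat_lit 0) (XT.nd (nat_lit 156) (nat_lit 304) (nat_lit 0) (XT.nd (nat_lit 78) (nat_lit 228) (nat_lit 0) (XT.lf (nat_lit 0) (nat_lit 3169786687) (nat_lit 304) (nat_lit 8888430433) (nat_lit 76) (nat_lit 5156137192) (nat_lit 60) (nat_lit 5) (nat_lit 64) (nat_lit 5) (nat_lit 61) (nat_lit 5) (nat_lit 498) (nat_lit 378) (nat_lit 264)) (XT.lf (nat_lit 0) (nat_lit 389545531) (nat_lit 228) (nat_lit 6963434927) (nat_lit 304) (nat_lit 10093736587) (nat_lit 57) (nat_lit 5) (nat_lit 60) (nat_lit 5) (nat_lit 61) (nat_lit 5) (nat_lit 499) (nat_lit 378) (nat_lit 263))) (XT.nd (nat_lit 78) (nat_lit 304) (nat_lit 0) (XT.lf (nat_lit 0) (nat_lit 9941474442) (nat_lit 228) (nat_lit 1719008260) (nat_lit 304) (nat_lit 6022434661) (nat_lit 57) (nat_lit 5) (nat_lit 60) (nat_lit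 5) (nat_lit 61) (nat_lit 5) (nat_lit 500) (nat_lit 378) (nat_lit 262)) (XT.nd (nat_lit 78) (nat_lit 76) (nat_lit 0) (XT.lf (nat_lit 0) (nat_lit 1727937334) (nat_lit 228) (nat_lit 14342274739) (nat_lit 304) (nat_lit 1853311234) (nat_lit 54) (nat_lit 5) (nat_lit 57) (nat_lit 5) (nat_lit 58) (nat_lit 5) (nat_lit 501) (nat_lit 378) (nat_lit 261)) (XT.lf (nat_lit 0) (nat_lit 2412730131) (nat_lit 304) (nat_lit 6735362327) (nat_lit 76) (nat_lit 9019640380) (nat_lit 53) (nat_lit 5) (nat_lit 57) (nat_lit 5) (nat_lit 54) (nat_lit 5) (nat_lit 502) (nat_lit 378) (nat_lit 260))))) (XT.nd (nat_lit 49920) (nat_lit 0) (nat_lit 48108) (XT.nd (nat_lit 78) (nat_lit 0) (nat_lit 0) (XT.lf (nat_lit 0) (nat_lit 2908767615) (nat_lit 228) (nat_lit 3831107901) (nat_lit 304) (nat_lit 11676697032) (nat_lit 50) (nat_lit 5) (nat_lit 53) (nat_lit 5) (nat_lit 54) (nat_lit 5) (nat_lit 503) (nat_lit 378) (nat_lit 259)) (XT.lf (nat_lit 0) (nat_lit 11191163604)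 (nat_lit 304) (nat_lit 5874293636) (nat_lit 76) (nat_lit 1604182738) (nat_lit 50) (nat_lit 5) (nat_lit 54) (nat_lit 5) (nat_lit 51) (nat_lit 5) (nat_lit 504) (nat_lit 378) (nat_lit 258))) (XT.nd (nat_lit 78) (nat_lit 152) (nat_lit 0) (XT.lf (nat_lit 0) (nat_lit 1566872333) (nat_lit 76) (nat_lit 88342811) (nat_lit 0) (nat_lit 1566872333) (nat_lit 685) (nat_lit 5) (nat_lit 686) (nat_lit 0) (nat_lit 685) (nat_lit 4) (nat_lit 382) (nat_lit 379) (nat_lit 379)) (XT.nd (nat_lit 78) (nat_lit 76) (nat_lit 0) (XT.lf (nat_lit 0) (nat_lit 3037331047) (nat_lit 76) (nat_lit 3190866424) (nat_lit 76) (nat_lit 218570717) (nat_lit 684) (nat_lit 4) (nat_lit 685) (nat_lit 5) (nat_lit 685) (nat_lit 4) (nat_lit 383) (nat_lit 379) (nat_lit 378)) (XT.lf (nat_lit 0) (nat_lit 2818220601) (nat_lit 152) (nat_lit 193505490) (nat_lit 76) (nat_lit 3438938394) (nat_lit 683) (nat_lit 5) (nat_lit 685) (nat_lit 5) (nat_lit 684) (nat_lit 4) (nat_lit 384)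 (nat_lit 379) (nat_lit 377)))))) (XT.nd (nat_lit 390) (nat_lit 1596) (nat_lit 0) (XT.nd (nat_lit 156) (nat_lit 608) (nat_lit 0) (XT.nd (nat_lit 78) (nat_lit 76) (nat_lit 0) (XT.lf (nat_lit 0) (nat_lit 3083508314) (nat_lit 152) (nat_lit 2771292309) (nat_lit 228) (nat_lit 601032461) (nat_lit 681) (nat_lit 5) (nat_lit 683) (nat_lit 5) (nat_lit 684) (nat_lit 4) (nat_lit 385) (nat_lit 379) (nat_lit 376)) (XT.lf (nat_lit 0) (nat_lit 2382289475) (nat_lit 228) (nat_lit 91615902) (nat_lit 76) (nat_lit 3988457592) (nat_lit 680) (nat_lit 5) (nat_lit 683) (nat_lit 5) (nat_lit 681) (nat_lit 5) (nat_lit 386) (nat_lit 379) (nat_lit 375))) (XT.nd (nat_lit 78) (nat_lit 380) (nat_lit 0) (XT.lf (nat_lit 0) (nat_lit 3251170047) (nat_lit 228) (nat_lit 2111338183) (nat_lit 304) (nat_lit 1107589435) (nat_lit 677) (nat_lit 5) (nat_lit 680) (nat_lit 5) (nat_lit 681) (nat_lit 5) (nat_lit 387) (nat_lit 379) (nat_lit 374)) (XT.nd (nat_lit 78) (nat_lit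 0) (nat_lit 0) (XT.lf (nat_lit 0) (nat_lit 130314952) (nat_lit 304) (nat_lit 1695081461) (nat_lit 380) (nat_lit 4653871896) (nat_lit 672) (nat_lit 5) (nat_lit 676) (nat_lit 5) (nat_lit 677) (nat_lit 5) (nat_lit 388) (nat_lit 379) (nat_lit 373)) (XT.lf (nat_lit 0) (nat_lit 3540051216) (nat_lit 304) (nat_lit 1209748554) (nat_lit 380) (nat_lit 1739780225) (nat_lit 672) (nat_lit 5) (nat_lit 676) (nat_lit 5) (nat_lit 677) (nat_lit 5) (nat_lit 389) (nat_lit 379) (nat_lit 372))))) (XT.nd (nat_lit 234) (nat_lit 608) (nat_lit 0) (XT.nd (nat_lit 78) (nat_lit 532) (nat_lit 0) (XT.lf (nat_lit 0) (nat_lit 473208118) (nat_lit 380) (nat_lit 673230190) (nat_lit 456) (nat_lit 5354952988) (nat_lit 666) (nat_lit 5) (nat_lit 671) (nat_lit 5) (nat_lit 672) (nat_lit 5) (nat_lit 390) (nat_lit 379) (nat_lit 371)) (XT.nd (nat_lit 78) (nat_lit 532) (nat_lit 0) (XT.lf (nat_lit 0) (nat_lit 3950109088) (nat_lit 380) (nat_lit 64809678) (nat_lit 456)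 (nat_lit 2499385998) (nat_lit 666) (nat_lit 5) (nat_lit 671) (nat_lit 5) (nat_lit 672) (nat_lit 5) (nat_lit 391) (nat_lit 379) (nat_lit 370)) (XT.lf (nat_lit 0) (nat_lit 346784920) (nat_lit 532) (nat_lit 5596715820) (nat_lit 76) (nat_lit 585194391) (nat_lit 659) (nat_lit 5) (nat_lit 666) (nat_lit 5) (nat_lit 660) (nat_lit 5) (nat_lit 392) (nat_lit 379) (nat_lit 369)))) (XT.nd (nat_lit 78) (nat_lit 608) (nat_lit 0) (XT.lf (nat_lit 0) (nat_lit 3164475210) (nat_lit 532) (nat_lit 2071389163) (nat_lit 76) (nat_lit 1308266828) (nat_lit 659) (nat_lit 5) (nat_lit 666) (nat_lit 5) (nat_lit 660) (nat_lit 5) (nat_lit 393) (nat_lit 379) (nat_lit 368)) (XT.nd (nat_lit 78) (nat_lit 76) (nat_lit 0) (XT.lf (nat_lit 0) (nat_lit 1500892459) (nat_lit 532) (nat_lit 4479019860) (nat_lit 608) (nat_lit 581184408) (nat_lit 652) (nat_lit 5) (nat_lit 659) (nat_lit 5) (nat_lit 660) (nat_lit 5) (nat_lit 394) (nat_lit 379) (nat_lit 367)) (XT.lf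 (nat_lit 0) (nat_lit 2189651536) (nat_lit 608) (nat_lit 1464176271) (nat_lit 76) (nat_lit 2925401094) (nat_lit 651) (nat_lit 5) (nat_lit 659) (nat_lit 5) (nat_lit 652) (nat_lit 5) (nat_lit 395) (nat_lit 379) (nat_lit 366))))))) (XT.nd (nat_lit 858) (nat_lit 8284) (nat_lit 0) (XT.nd (nat_lit 390) (nat_lit 3952) (nat_lit 0) (XT.nd (nat_lit 156) (nat_lit 1520) (nat_lit 0) (XT.nd (nat_lit 78) (nat_lit 76) (nat_lit 0) (XT.lf (nat_lit 0) (nat_lit 2185548911) (nat_lit 608) (nat_lit 2770316550) (nat_lit 684) (nat_lit 1642872351) (nat_lit 643) (nat_lit 5) (nat_lit 651) (nat_lit 5) (nat_lit 652) (nat_lit 5) (nat_lit 396) (nat_lit 379) (nat_lit 365)) (XT.lf (nat_lit 0) (nat_lit 1087553622) (nat_lit 684) (nat_lit 741588116) (nat_lit 76) (nat_lit 4790509022) (nat_lit 642) (nat_lit 5) (nat_lit 651) (nat_lit 5) (nat_lit 643) (nat_lit 5) (nat_lit 397) (nat_lit 379) (nat_lit 364))) (XT.nd (nat_lit 78) (nat_lit 836) (nat_lit 0) (XT.lf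 (nat_lit 0) (nat_lit 2988946617) (nat_lit 684) (nat_lit 816456333) (nat_lit 760) (nat_lit 2836308724) (nat_lit 633) (nat_lit 5) (nat_lit 642) (nat_lit 5) (nat_lit 643) (nat_lit 5) (nat_lit 398) (nat_lit 379) (nat_lit 363)) (XT.nd (nat_lit 78) (nat_lit 76) (nat_lit 0) (XT.lf (nat_lit 0) (nat_lit 95860246) (nat_lit 760) (nat_lit 6425300133) (nat_lit 836) (nat_lit 144224710) (nat_lit 623) (nat_lit 5) (nat_lit 633) (nat_lit 5) (nat_lit 634) (nat_lit 5) (nat_lit 399) (nat_lit 379) (nat_lit 362)) (XT.lf (nat_lit 0) (nat_lit 2534680383) (nat_lit 836) (nat_lit 2787107678) (nat_lit 76) (nat_lit 1368104711) (nat_lit 622) (nat_lit 5) (nat_lit 633) (nat_lit 5) (nat_lit 623) (nat_lit 5) (nat_lit 400) (nat_lit 379) (nat_lit 361))))) (XT.nd (nat_lit 234) (nat_lit 2128) (nat_lit 0) (XT.nd (nat_lit 78) (nat_lit 988) (nat_lit 0) (XT.lf (nat_lit 0) (nat_lit 1039938843) (nat_lit 836) (nat_lit 4170302120) (nat_lit 912) (nat_lit 1505770273)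 (nat_lit 611) (nat_lit 5) (nat_lit 622) (nat_lit 5) (nat_lit 623) (nat_lit 5) (nat_lit 401) (nat_lit 379) (nat_lit 360)) (XT.nd (nat_lit 78) (nat_lit 912) (nat_lit 0) (XT.lf (nat_lit 0) (nat_lit 1138535342) (nat_lit 912) (nat_lit 1813132836) (nat_lit 76) (nat_lit 3791715437) (nat_lit 610) (nat_lit 5) (nat_lit 622) (nat_lit 5) (nat_lit 611) (nat_lit 5) (nat_lit 402) (nat_lit 379) (nat_lit 359)) (XT.lf (nat_lit 0) (nat_lit 2101252094) (nat_lit 912) (nat_lit 1667917670) (nat_lit 988) (nat_lit 3002900082) (nat_lit 598) (nat_lit 5) (nat_lit 610) (nat_lit 5) (nat_lit 611) (nat_lit 5) (nat_lit 403) (nat_lit 379) (nat_lit 358)))) (XT.nd (nat_lit 78) (nat_lit 2128) (nat_lit 0) (XT.lf (nat_lit 0) (nat_lit 6075388012) (nat_lit 912) (nat_lit 330036983) (nat_lit 988) (nat_lit 396881474) (nat_lit 598) (nat_lit 5) (nat_lit 610) (nat_lit 5) (nat_lit 611) (nat_lit 5) (nat_lit 404) (nat_lit 379) (nat_lit 357)) (XT.nd (nat_lit 78) (nat_lit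 1064) (nat_lit 0) (XT.lf (nat_lit 0) (nat_lit 2201540478) (nat_lit 1064) (nat_lit 3559557856) (nat_lit 76) (nat_lit 1072392463) (nat_lit 584) (nat_lit 5) (nat_lit 598) (nat_lit 5) (nat_lit 585) (nat_lit 5) (nat_lit 405) (nat_lit 379) (nat_lit 356)) (XT.lf (nat_lit 0) (nat_lit 456515967) (nat_lit 1064) (nat_lit 4342710297) (nat_lit 1140) (nat_lit 2067002591) (nat_lit 570) (nat_lit 5) (nat_lit 584) (nat_lit 5) (nat_lit 585) (nat_lit 5) (nat_lit 406) (nat_lit 379) (nat_lit 355)))))) (XT.nd (nat_lit 390) (nat_lit 4484) (nat_lit 0) (XT.nd (nat_lit 156) (nat_lit 2584) (nat_lit 0) (XT.nd (nat_lit 78) (nat_lit 1140) (nat_lit 0) (XT.lf (nat_lit 0) (nat_lit 509063801) (nat_lit 1140) (nat_lit 2346286009) (nat_lit 76) (nat_lit 4044893438) (nat_lit 569) (nat_lit 5) (nat_lit 584) (nat_lit 5) (nat_lit 570) (nat_lit 5) (nat_lit 407) (nat_lit 379) (nat_lit 354)) (XT.lf (nat_lit 0) (nat_lit 1764152106) (nat_lit 1140) (nat_lit 1300398689)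 (nat_lit 1216) (nat_lit 3871035052) (nat_lit 554) (nat_lit 5) (nat_lit 569) (nat_lit 5) (nat_lit 570) (nat_lit 5) (nat_lit 408) (nat_lit 379) (nat_lit 353))) (XT.nd (nat_lit 78) (nat_lit 2584) (nat_lit 0) (XT.lf (nat_lit 0) (nat_lit 5633837797) (nat_lit 1216) (nat_lit 1029303601) (nat_lit 76) (nat_lit 309272157) (nat_lit 554) (nat_lit 5) (nat_lit 570) (nat_lit 5) (nat_lit 555) (nat_lit 5) (nat_lit 409) (nat_lit 379) (nat_lit 352)) (XT.nd (nat_lit 78) (nat_lit 1292) (nat_lit 0) (XT.lf (nat_lit 0) (nat_lit 1203373014) (nat_lit 1292) (nat_lit 3833341695) (nat_lit 76) (nat_lit 1973629066) (nat_lit 537) (nat_lit 5) (nat_lit 554) (nat_lit 5) (nat_lit 538) (nat_lit 5) (nat_lit 410) (nat_lit 379) (nat_lit 351)) (XT.lf (nat_lit 0) (nat_lit 384416453) (nat_lit 1292) (nat_lit 3349744450) (nat_lit 1368) (nat_lit 3315606477) (nat_lit 520) (nat_lit 5) (nat_lit 537) (nat_lit 5) (nat_lit 538) (nat_lit 5) (nat_lit 411) (nat_lit 379)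 (nat_lit 350))))) (XT.nd (nat_lit 234) (nat_lit 3040) (nat_lit 0) (XT.nd (nat_lit 78) (nat_lit 1444) (nat_lit 0) (XT.lf (nat_lit 0) (nat_lit 4694575900) (nat_lit 1292) (nat_lit 1593935219) (nat_lit 1368) (nat_lit 802039028) (nat_lit 520) (nat_lit 5) (nat_lit 537) (nat_lit 5) (nat_lit 538) (nat_lit 5) (nat_lit 412) (nat_lit 379) (nat_lit 349)) (XT.nd (nat_lit 78) (nat_lit 0) (nat_lit 0) (XT.lf (nat_lit 0) (nat_lit 1700595139) (nat_lit 1444) (nat_lit 5205358934) (nat_lit 76) (nat_lit 226756155) (nat_lit 501) (nat_lit 5) (nat_lit 520) (nat_lit 5) (nat_lit 502) (nat_lit 5) (nat_lit 413) (nat_lit 379) (nat_lit 348)) (XT.lf (nat_lit 0) (nat_lit 4217970356) (nat_lit 1444) (nat_lit 866338756) (nat_lit 76) (nat_lit 2091817731) (nat_lit 501) (nat_lit 5) (nat_lit 520) (nat_lit 5) (nat_lit 502) (nat_lit 5) (nat_lit 414) (nat_lit 379) (nat_lit 347)))) (XT.nd (nat_lit 78) (nat_lit 1596) (nat_lit 0) (XT.lf (nat_lit 0) (nat_lit 3562464222)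 (nat_lit 1444) (nat_lit 3196042108) (nat_lit 1520) (nat_lit 462476559) (nat_lit 482) (nat_lit 5) (nat_lit 501) (nat_lit 5) (nat_lit 502) (nat_lit 5) (nat_lit 415) (nat_lit 379) (nat_lit 346)) (XT.nd (nat_lit 78) (nat_lit 0) (nat_lit 0) (XT.lf (nat_lit 0) (nat_lit 777477538) (nat_lit 1520) (nat_lit 1239251913) (nat_lit 1596) (nat_lit 5250543749) (nat_lit 461) (nat_lit 5) (nat_lit 481) (nat_lit 5) (nat_lit 482) (nat_lit 5) (nat_lit 416) (nat_lit 379) (nat_lit 345)) (XT.lf (nat_lit 0) (nat_lit 4519722235) (nat_lit 1596) (nat_lit 2015229559) (nat_lit 76) (nat_lit 779894265) (nat_lit 461) (nat_lit 5) (nat_lit 482) (nat_lit 5) (nat_lit 462) (nat_lit 5) (nat_lit 417) (nat_lit 379) (nat_lit 344))))))))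
noncomputable def xc92 : XT := (XT.nd (nat_lit 1638) (nat_lit 8360) (nat_lit 0) (XT.nd (nat_lit 780) (nat_lit 5776) (nat_lit 0) (XT.nd (nat_lit 390) (nat_lit 2888) (nat_lit 0) (XT.nd (nat_lit 156) (nat_lit 3496) (nat_lit 0) (XT.nd (nat_lit 78) (nat_lit 76) (nat_lit 0) (XT.lf (nat_lit 0) (nat_lit 2529800742) (nat_lit 1596) (nat_lit 4519335089) (nat_lit 1672) (nat_lit 314732607) (nat_lit 440) (nat_lit 5) (nat_lit 461) (nat_lit 5) (nat_lit 462) (nat_lit 5) (nat_lit 418) (nat_lit 379) (nat_lit 343)) (XT.lf (nat_lit 0) (nat_lit 2151877426) (nat_lit 1672) (nat_lit 279395708) (nat_lit 76) (nat_lit 4983021478) (nat_lit 439) (nat_lit 5) (nat_lit 461) (nat_lit 5) (nat_lit 440) (nat_lit 5) (nat_lit 419) (nat_lit 379) (nat_lit 342))) (XT.nd (nat_lit 78) (nat_lit 1824) (nat_lit 0) (XT.lf (nat_lit 0) (nat_lit 4378205378) (nat_lit 1672) (nat_lit 266822125) (nat_lit 1748) (nat_lit 2821055579) (nat_lit 417) (nat_lit 5) (nat_lit 439)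 (nat_lit 5) (nat_lit 440) (nat_lit 5) (nat_lit 420) (nat_lit 379) (nat_lit 341)) (XT.nd (nat_lit 78) (nat_lit 76) (nat_lit 0) (XT.lf (nat_lit 0) (nat_lit 1577768584) (nat_lit 1748) (nat_lit 5588658528) (nat_lit 1824) (nat_lit 352935834) (nat_lit 394) (nat_lit 5) (nat_lit 417) (nat_lit 5) (nat_lit 418) (nat_lit 5) (nat_lit 421) (nat_lit 379) (nat_lit 340)) (XT.lf (nat_lit 0) (nat_lit 2112735369) (nat_lit 1824) (nat_lit 1255196765) (nat_lit 76) (nat_lit 4205986099) (nat_lit 393) (nat_lit 5) (nat_lit 417) (nat_lit 5) (nat_lit 394) (nat_lit 5) (nat_lit 422) (nat_lit 379) (nat_lit 339))))) (XT.nd (nat_lit 156) (nat_lit 912) (nat_lit 0) (XT.nd (nat_lit 78) (nat_lit 912) (nat_lit 0) (XT.lf (nat_lit 0) (nat_lit 3525168161) (nat_lit 1064) (nat_lit 1075573010) (nat_lit 1140) (nat_lit 3029243867) (nat_lit 379) (nat_lit 5) (nat_lit 393) (nat_lit 5) (nat_lit 394) (nat_lit 5) (nat_lit 423) (nat_lit 379) (nat_lit 338)) (XT.lf (nat_lit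 0) (nat_lit 687625571) (nat_lit 912) (nat_lit 6427488770) (nat_lit 988) (nat_lit 572548269) (nat_lit 367) (nat_lit 5) (nat_lit 379) (nat_lit 5) (nat_lit 380) (nat_lit 5) (nat_lit 424) (nat_lit 379) (nat_lit 337))) (XT.nd (nat_lit 78) (nat_lit 836) (nat_lit 0) (XT.lf (nat_lit 0) (nat_lit 1898518514) (nat_lit 988) (nat_lit 2178848498) (nat_lit 76) (nat_lit 3669084566) (nat_lit 366) (nat_lit 5) (nat_lit 379) (nat_lit 5) (nat_lit 367) (nat_lit 5) (nat_lit 425) (nat_lit 379) (nat_lit 336)) (XT.nd (nat_lit 78) (nat_lit 0) (nat_lit 0) (XT.lf (nat_lit 0) (nat_lit 2727005060) (nat_lit 836) (nat_lit 1658657358) (nat_lit 912) (nat_lit 3421212104) (nat_lit 355) (nat_lit 5) (nat_lit 366) (nat_lit 5) (nat_lit 367) (nat_lit 5) (nat_lit 426) (nat_lit 379) (nat_lit 335)) (XT.lf (nat_lit 0) (nat_lit 6899690284) (nat_lit 912) (nat_lit 157365438) (nat_lit 76) (nat_lit 811927316) (nat_lit 355) (nat_lit 5) (nat_lit 367) (nat_lit 5) (nat_lit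 356) (nat_lit 5) (nat_lit 427) (nat_lit 379) (nat_lit 334)))))) (XT.nd (nat_lit 390) (nat_lit 2356) (nat_lit 0) (XT.nd (nat_lit 156) (nat_lit 1672) (nat_lit 0) (XT.nd (nat_lit 78) (nat_lit 836) (nat_lit 0) (XT.lf (nat_lit 0) (nat_lit 1512199443) (nat_lit 912) (nat_lit 3069221721) (nat_lit 76) (nat_lit 3350720376) (nat_lit 343) (nat_lit 5) (nat_lit 355) (nat_lit 5) (nat_lit 344) (nat_lit 5) (nat_lit 428) (nat_lit 379) (nat_lit 333)) (XT.lf (nat_lit 0) (nat_lit 1964809031) (nat_lit 836) (nat_lit 2037629168) (nat_lit 912) (nat_lit 3994573748) (nat_lit 332) (nat_lit 5) (nat_lit 343) (nat_lit 5) (nat_lit 344) (nat_lit 5) (nat_lit 429) (nat_lit 379) (nat_lit 332))) (XT.nd (nat_lit 78) (nat_lit 1672) (nat_lit 0) (XT.lf (nat_lit 0) (nat_lit 6525616132) (nat_lit 912) (nat_lit 969671949) (nat_lit 76) (nat_lit 568247408) (nat_lit 332) (nat_lit 5) (nat_lit 344) (nat_lit 5) (nat_lit 333) (nat_lit 5) (nat_lit 430) (nat_lit 379) (nat_lit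 331)) (XT.nd (nat_lit 78) (nat_lit 760) (nat_lit 0) (XT.lf (nat_lit 0) (nat_lit 955464651) (nat_lit 912) (nat_lit 3945498072) (nat_lit 76) (nat_lit 3230312993) (nat_lit 320) (nat_lit 5) (nat_lit 332) (nat_lit 5) (nat_lit 321) (nat_lit 5) (nat_lit 431) (nat_lit 379) (nat_lit 330)) (XT.lf (nat_lit 0) (nat_lit 1219330427) (nat_lit 760) (nat_lit 2233103246) (nat_lit 836) (nat_lit 4748264913) (nat_lit 310) (nat_lit 5) (nat_lit 320) (nat_lit 5) (nat_lit 321) (nat_lit 5) (nat_lit 432) (nat_lit 379) (nat_lit 329))))) (XT.nd (nat_lit 234) (nat_lit 836) (nat_lit 0) (XT.nd (nat_lit 78) (nat_lit 1520) (nat_lit 0) (XT.lf (nat_lit 0) (nat_lit 5989468912) (nat_lit 836) (nat_lit 1777559186) (nat_lit 76) (nat_lit 504696292) (nat_lit 310) (nat_lit 5) (nat_lit 321) (nat_lit 5) (nat_lit 311) (nat_lit 5) (nat_lit 433) (nat_lit 379) (nat_lit 328)) (XT.nd (nat_lit 78) (nat_lit 684) (nat_lit 0) (XT.lf (nat_lit 0) (nat_lit 228709048) (nat_lit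 836) (nat_lit 4827342340) (nat_lit 76) (nat_lit 3288131577) (nat_lit 299) (nat_lit 5) (nat_lit 310) (nat_lit 5) (nat_lit 300) (nat_lit 5) (nat_lit 434) (nat_lit 379) (nat_lit 327)) (XT.lf (nat_lit 0) (nat_lit 470801542) (nat_lit 684) (nat_lit 2264921961) (nat_lit 760) (nat_lit 5682553724) (nat_lit 290) (nat_lit 5) (nat_lit 299) (nat_lit 5) (nat_lit 300) (nat_lit 5) (nat_lit 435) (nat_lit 379) (nat_lit 326)))) (XT.nd (nat_lit 78) (nat_lit 836) (nat_lit 0) (XT.lf (nat_lit 0) (nat_lit 5291008317) (nat_lit 760) (nat_lit 2600867124) (nat_lit 76) (nat_lit 602031049) (nat_lit 290) (nat_lit 5) (nat_lit 300) (nat_lit 5) (nat_lit 291) (nat_lit 5) (nat_lit 436) (nat_lit 379) (nat_lit 325)) (XT.nd (nat_lit 78) (nat_lit 76) (nat_lit 0) (XT.lf (nat_lit 0) (nat_lit 2831662503) (nat_lit 760) (nat_lit 5061613592) (nat_lit 836) (nat_lit 677870107) (nat_lit 280) (nat_lit 5) (nat_lit 290) (nat_lit 5) (nat_lit 291) (nat_lit 5) (nat_lit 437)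 (nat_lit 379) (nat_lit 324)) (XT.lf (nat_lit 0) (nat_lit 1853028761) (nat_lit 836) (nat_lit 297296079) (nat_lit 76) (nat_lit 6499769096) (nat_lit 279) (nat_lit 5) (nat_lit 290) (nat_lit 5) (nat_lit 280) (nat_lit 5) (nat_lit 438) (nat_lit 379) (nat_lit 323))))))) (XT.nd (nat_lit 780) (nat_lit 3800) (nat_lit 0) (XT.nd (nat_lit 390) (nat_lit 1900) (nat_lit 0) (XT.nd (nat_lit 156) (nat_lit 1292) (nat_lit 0) (XT.nd (nat_lit 78) (nat_lit 684) (nat_lit 0) (XT.lf (nat_lit 0) (nat_lit 4428690026) (nat_lit 760) (nat_lit 3460213518) (nat_lit 76) (nat_lit 841577565) (nat_lit 270) (nat_lit 5) (nat_lit 280) (nat_lit 5) (nat_lit 271) (nat_lit 5) (nat_lit 439) (nat_lit 379) (nat_lit 322)) (XT.lf (nat_lit 0) (nat_lit 2111269088) (nat_lit 684) (nat_lit 4938376429) (nat_lit 760) (nat_lit 1762969125) (nat_lit 261) (nat_lit 5) (nat_lit 270) (nat_lit 5) (nat_lit 271) (nat_lit 5) (nat_lit 440) (nat_lit 379) (nat_lit 321))) (XT.nd (nat_lit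 78) (nat_lit 1216) (nat_lit 0) (XT.lf (nat_lit 0) (nat_lit 803167821) (nat_lit 760) (nat_lit 1103514445) (nat_lit 76) (nat_lit 6989867322) (nat_lit 260) (nat_lit 5) (nat_lit 270) (nat_lit 5) (nat_lit 261) (nat_lit 5) (nat_lit 441) (nat_lit 379) (nat_lit 320)) (XT.nd (nat_lit 78) (nat_lit 608) (nat_lit 0) (XT.lf (nat_lit 0) (nat_lit 3399632863) (nat_lit 684) (nat_lit 4377188974) (nat_lit 76) (nat_lit 1205069517) (nat_lit 252) (nat_lit 5) (nat_lit 261) (nat_lit 5) (nat_lit 253) (nat_lit 5) (nat_lit 442) (nat_lit 379) (nat_lit 319)) (XT.lf (nat_lit 0) (nat_lit 1335395767) (nat_lit 608) (nat_lit 4706467588) (nat_lit 684) (nat_lit 3027213030) (nat_lit 244) (nat_lit 5) (nat_lit 252) (nat_lit 5) (nat_lit 253) (nat_lit 5) (nat_lit 443) (nat_lit 379) (nat_lit 318))))) (XT.nd (nat_lit 156) (nat_lit 1216) (nat_lit 0) (XT.nd (nat_lit 78) (nat_lit 684) (nat_lit 0) (XT.lf (nat_lit 0) (nat_lit 7179154788) (nat_lit 608) (nat_lit 1552650796)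 (nat_lit 684) (nat_lit 426315082) (nat_lit 244) (nat_lit 5) (nat_lit 252) (nat_lit 5) (nat_lit 253) (nat_lit 5) (nat_lit 444) (nat_lit 379) (nat_lit 317)) (XT.lf (nat_lit 0) (nat_lit 2199574809) (nat_lit 684) (nat_lit 5374564170) (nat_lit 76) (nat_lit 1674486591) (nat_lit 235) (nat_lit 5) (nat_lit 244) (nat_lit 5) (nat_lit 236) (nat_lit 5) (nat_lit 445) (nat_lit 379) (nat_lit 316))) (XT.nd (nat_lit 78) (nat_lit 608) (nat_lit 0) (XT.lf (nat_lit 0) (nat_lit 481013329) (nat_lit 608) (nat_lit 4384317665) (nat_lit 684) (nat_lit 4475704233) (nat_lit 227) (nat_lit 5) (nat_lit 235) (nat_lit 5) (nat_lit 236) (nat_lit 5) (nat_lit 446) (nat_lit 379) (nat_lit 315)) (XT.nd (nat_lit 78) (nat_lit 608) (nat_lit 0) (XT.lf (nat_lit 0) (nat_lit 6484433744) (nat_lit 608) (nat_lit 1102700594) (nat_lit 684) (nat_lit 1848116010) (nat_lit 227) (nat_lit 5) (nat_lit 235) (nat_lit 5) (nat_lit 236) (nat_lit 5) (nat_lit 447) (nat_lit 379) (nat_lit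 314)) (XT.lf (nat_lit 0) (nat_lit 822817296) (nat_lit 608) (nat_lit 6476511142) (nat_lit 76) (nat_lit 2231890633) (nat_lit 219) (nat_lit 5) (nat_lit 227) (nat_lit 5) (nat_lit 220) (nat_lit 5) (nat_lit 448) (nat_lit 379) (nat_lit 313)))))) (XT.nd (nat_lit 390) (nat_lit 2052) (nat_lit 0) (XT.nd (nat_lit 156) (nat_lit 1140) (nat_lit 0) (XT.nd (nat_lit 78) (nat_lit 608) (nat_lit 0) (XT.lf (nat_lit 0) (nat_lit 3517090967) (nat_lit 608) (nat_lit 470116382) (nat_lit 76) (nat_lit 5641773364) (nat_lit 219) (nat_lit 5) (nat_lit 227) (nat_lit 5) (nat_lit 220) (nat_lit 5) (nat_lit 449) (nat_lit 379) (nat_lit 312)) (XT.lf (nat_lit 0) (nat_lit 5689779410) (nat_lit 608) (nat_lit 580461069) (nat_lit 684) (nat_lit 3458368306) (nat_lit 211) (nat_lit 5) (nat_lit 219) (nat_lit 5) (nat_lit 220) (nat_lit 5) (nat_lit 450) (nat_lit 379) (nat_lit 311))) (XT.nd (nat_lit 78) (nat_lit 608) (nat_lit 0) (XT.lf (nat_lit 0) (nat_lit 2116464138) (nat_lit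 532) (nat_lit 6966046493) (nat_lit 608) (nat_lit 747648423) (nat_lit 204) (nat_lit 5) (nat_lit 211) (nat_lit 5) (nat_lit 212) (nat_lit 5) (nat_lit 451) (nat_lit 379) (nat_lit 310)) (XT.nd (nat_lit 78) (nat_lit 532) (nat_lit 0) (XT.lf (nat_lit 0) (nat_lit 1990437954) (nat_lit 608) (nat_lit 1542423942) (nat_lit 76) (nat_lit 6400634670) (nat_lit 203) (nat_lit 5) (nat_lit 211) (nat_lit 5) (nat_lit 204) (nat_lit 5) (nat_lit 452) (nat_lit 379) (nat_lit 309)) (XT.lf (nat_lit 0) (nat_lit 4768969557) (nat_lit 532) (nat_lit 4379037) (nat_lit 608) (nat_lit 5265462089) (nat_lit 196) (nat_lit 5) (nat_lit 203) (nat_lit 5) (nat_lit 204) (nat_lit 5) (nat_lit 453) (nat_lit 379) (nat_lit 308))))) (XT.nd (nat_lit 234) (nat_lit 988) (nat_lit 0) (XT.nd (nat_lit 78) (nat_lit 608) (nat_lit 0) (XT.lf (nat_lit 0) (nat_lit 1030396974) (nat_lit 456) (nat_lit 6591346087) (nat_lit 532) (nat_lit 2524301478) (nat_lit 190) (nat_lit 5) (nat_lit 196)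 (nat_lit 5) (nat_lit 197) (nat_lit 5) (nat_lit 454) (nat_lit 379) (nat_lit 307)) (XT.nd (nat_lit 78) (nat_lit 532) (nat_lit 0) (XT.lf (nat_lit 0) (nat_lit 273247928) (nat_lit 532) (nat_lit 2769997083) (nat_lit 76) (nat_lit 7212049787) (nat_lit 189) (nat_lit 5) (nat_lit 196) (nat_lit 5) (nat_lit 190) (nat_lit 5) (nat_lit 455) (nat_lit 379) (nat_lit 306)) (XT.lf (nat_lit 0) (nat_lit 3091001297) (nat_lit 608) (nat_lit 6676686641) (nat_lit 76) (nat_lit 598756737) (nat_lit 182) (nat_lit 5) (nat_lit 190) (nat_lit 5) (nat_lit 183) (nat_lit 5) (nat_lit 456) (nat_lit 379) (nat_lit 305)))) (XT.nd (nat_lit 78) (nat_lit 988) (nat_lit 0) (XT.lf (nat_lit 0) (nat_lit 5974330672) (nat_lit 608) (nat_lit 224249068) (nat_lit 76) (nat_lit 4281062599) (nat_lit 182) (nat_lit 5) (nat_lit 190) (nat_lit 5) (nat_lit 183) (nat_lit 5) (nat_lit 457) (nat_lit 379) (nat_lit 304)) (XT.nd (nat_lit 78) (nat_lit 532) (nat_lit 0) (XT.lf (nat_lit 0) (nat_lit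 6401207363) (nat_lit 456) (nat_lit 2526617173) (nat_lit 532) (nat_lit 1667038489) (nat_lit 176) (nat_lit 5) (nat_lit 182) (nat_lit 5) (nat_lit 183) (nat_lit 5) (nat_lit 458) (nat_lit 379) (nat_lit 303)) (XT.lf (nat_lit 0) (nat_lit 1208268557) (nat_lit 532) (nat_lit 8286801631) (nat_lit 76) (nat_lit 1217239679) (nat_lit 169) (nat_lit 5) (nat_lit 176) (nat_lit 5) (nat_lit 170) (nat_lit 5) (nat_lit 459) (nat_lit 379) (nat_lit 302))))))))
noncomputable def xc93 : XT := (XT.nd (nat_lit 1638) (nat_lit 3800) (nat_lit 0) (XT.nd (nat_lit 780) (nat_lit 2280) (nat_lit 0) (XT.nd (nat_lit 390) (nat_lit 1292) (nat_lit 0) (XT.nd (nat_lit 156) (nat_lit 912) (nat_lit 0) (XT.nd (nat_lit 78) (nat_lit 456) (nat_lit 0) (XT.lf (nat_lit 0) (nat_lit 4135127540) (nat_lit 532) (nat_lit 1665958115) (nat_lit 76) (nat_lit 5030480765) (nat_lit 169) (nat_lit 5) (nat_lit 176) (nat_lit 5) (nat_lit 170) (nat_lit 5) (nat_lit 460) (nat_lit 379) (nat_lit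 301)) (XT.lf (nat_lit 0) (nat_lit 5114817453) (nat_lit 456) (nat_lit 2010764063) (nat_lit 532) (nat_lit 3827533774) (nat_lit 163) (nat_lit 5) (nat_lit 169) (nat_lit 5) (nat_lit 170) (nat_lit 5) (nat_lit 461) (nat_lit 379) (nat_lit 300))) (XT.nd (nat_lit 78) (nat_lit 456) (nat_lit 0) (XT.lf (nat_lit 0) (nat_lit 937294818) (nat_lit 456) (nat_lit 9240006488) (nat_lit 532) (nat_lit 899772873) (nat_lit 157) (nat_lit 5) (nat_lit 163) (nat_lit 5) (nat_lit 164) (nat_lit 5) (nat_lit 462) (nat_lit 379) (nat_lit 299)) (XT.nd (nat_lit 78) (nat_lit 380) (nat_lit 0) (XT.lf (nat_lit 0) (nat_lit 2084103118) (nat_lit 532) (nat_lit 3342225723) (nat_lit 76) (nat_lit 5776421813) (nat_lit 156) (nat_lit 5) (nat_lit 163) (nat_lit 5) (nat_lit 157) (nat_lit 5) (nat_lit 463) (nat_lit 379) (nat_lit 298)) (XT.lf (nat_lit 0) (nat_lit 3593316799) (nat_lit 380) (nat_lit 1518350424) (nat_lit 456) (nat_lit 6219241021) (nat_lit 151) (nat_lit 5) (nat_lit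 156) (nat_lit 5) (nat_lit 157) (nat_lit 5) (nat_lit 464) (nat_lit 379) (nat_lit 297))))) (XT.nd (nat_lit 156) (nat_lit 836) (nat_lit 0) (XT.nd (nat_lit 78) (nat_lit 456) (nat_lit 0) (XT.lf (nat_lit 0) (nat_lit 8211304326) (nat_lit 456) (nat_lit 803820007) (nat_lit 76) (nat_lit 2446281771) (nat_lit 151) (nat_lit 5) (nat_lit 157) (nat_lit 5) (nat_lit 152) (nat_lit 5) (nat_lit 465) (nat_lit 379) (nat_lit 296)) (XT.lf (nat_lit 0) (nat_lit 6302660056) (nat_lit 456) (nat_lit 5094703974) (nat_lit 532) (nat_lit 196668702) (nat_lit 145) (nat_lit 5) (nat_lit 151) (nat_lit 5) (nat_lit 152) (nat_lit 5) (nat_lit 466) (nat_lit 379) (nat_lit 295))) (XT.nd (nat_lit 78) (nat_lit 380) (nat_lit 0) (XT.lf (nat_lit 0) (nat_lit 1798897374) (nat_lit 380) (nat_lit 1071321239) (nat_lit 456) (nat_lit 8858908437) (nat_lit 139) (nat_lit 5) (nat_lit 144) (nat_lit 5) (nat_lit 145) (nat_lit 5) (nat_lit 467) (nat_lit 379) (nat_lit 294)) (XT.nd (nat_lit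 78) (nat_lit 380) (nat_lit 0) (XT.lf (nat_lit 0) (nat_lit 6024978887) (nat_lit 456) (nat_lit 2823614883) (nat_lit 76) (nat_lit 3017727092) (nat_lit 139) (nat_lit 5) (nat_lit 145) (nat_lit 5) (nat_lit 140) (nat_lit 5) (nat_lit 468) (nat_lit 379) (nat_lit 293)) (XT.lf (nat_lit 0) (nat_lit 4438132727) (nat_lit 380) (nat_lit 4814860709) (nat_lit 456) (nat_lit 2753068774) (nat_lit 134) (nat_lit 5) (nat_lit 139) (nat_lit 5) (nat_lit 140) (nat_lit 5) (nat_lit 469) (nat_lit 379) (nat_lit 292)))))) (XT.nd (nat_lit 390) (nat_lit 1064) (nat_lit 0) (XT.nd (nat_lit 156) (nat_lit 760) (nat_lit 0) (XT.nd (nat_lit 78) (nat_lit 380) (nat_lit 0) (XT.lf (nat_lit 0) (nat_lit 385169576) (nat_lit 456) (nat_lit 305740664) (nat_lit 76) (nat_lit 11457775053) (nat_lit 133) (nat_lit 5) (nat_lit 139) (nat_lit 5) (nat_lit 134) (nat_lit 5) (nat_lit 470) (nat_lit 379) (nat_lit 291)) (XT.lf (nat_lit 0) (nat_lit 3593707689) (nat_lit 456) (nat_lit 5176913788)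 (nat_lit 76) (nat_lit 3522293882) (nat_lit 128) (nat_lit 5) (nat_lit 134) (nat_lit 5) (nat_lit 129) (nat_lit 5) (nat_lit 471) (nat_lit 379) (nat_lit 290))) (XT.nd (nat_lit 78) (nat_lit 380) (nat_lit 0) (XT.lf (nat_lit 0) (nat_lit 2237451916) (nat_lit 380) (nat_lit 4625140315) (nat_lit 456) (nat_lit 5577520601) (nat_lit 123) (nat_lit 5) (nat_lit 128) (nat_lit 5) (nat_lit 129) (nat_lit 5) (nat_lit 472) (nat_lit 379) (nat_lit 289)) (XT.nd (nat_lit 78) (nat_lit 380) (nat_lit 0) (XT.lf (nat_lit 0) (nat_lit 9832889411) (nat_lit 380) (nat_lit 373959969) (nat_lit 456) (nat_lit 2383211175) (nat_lit 123) (nat_lit 5) (nat_lit 128) (nat_lit 5) (nat_lit 129) (nat_lit 5) (nat_lit 473) (nat_lit 379) (nat_lit 288)) (XT.lf (nat_lit 0) (nat_lit 896516132) (nat_lit 380) (nat_lit 7910370476) (nat_lit 76) (nat_lit 3935352814) (nat_lit 118) (nat_lit 5) (nat_lit 123) (nat_lit 5) (nat_lit 119) (nat_lit 5) (nat_lit 474) (nat_lit 379) (nat_lit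 287))))) (XT.nd (nat_lit 234) (nat_lit 380) (nat_lit 0) (XT.nd (nat_lit 78) (nat_lit 684) (nat_lit 0) (XT.lf (nat_lit 0) (nat_lit 4206790256) (nat_lit 380) (nat_lit 342561820) (nat_lit 76) (nat_lit 8347863301) (nat_lit 118) (nat_lit 5) (nat_lit 123) (nat_lit 5) (nat_lit 119) (nat_lit 5) (nat_lit 475) (nat_lit 379) (nat_lit 286)) (XT.nd (nat_lit 78) (nat_lit 304) (nat_lit 0) (XT.lf (nat_lit 0) (nat_lit 7437726528) (nat_lit 380) (nat_lit 170042304) (nat_lit 456) (nat_lit 5447037766) (nat_lit 113) (nat_lit 5) (nat_lit 118) (nat_lit 5) (nat_lit 119) (nat_lit 5) (nat_lit 476) (nat_lit 379) (nat_lit 285)) (XT.lf (nat_lit 0) (nat_lit 2126153302) (nat_lit 304) (nat_lit 8970988018) (nat_lit 380) (nat_lit 2118006447) (nat_lit 109) (nat_lit 5) (nat_lit 113) (nat_lit 5) (nat_lit 114) (nat_lit 5) (nat_lit 477) (nat_lit 379) (nat_lit 284)))) (XT.nd (nat_lit 78) (nat_lit 304) (nat_lit 0) (XT.lf (nat_lit 0) (nat_lit 1276343840) (nat_lit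 380) (nat_lit 3323877213) (nat_lit 76) (nat_lit 8778004314) (nat_lit 108) (nat_lit 5) (nat_lit 113) (nat_lit 5) (nat_lit 109) (nat_lit 5) (nat_lit 478) (nat_lit 379) (nat_lit 283)) (XT.nd (nat_lit 78) (nat_lit 0) (nat_lit 0) (XT.lf (nat_lit 0) (nat_lit 4606999371) (nat_lit 304) (nat_lit 110047187) (nat_lit 380) (nat_lit 8827106739) (nat_lit 104) (nat_lit 5) (nat_lit 108) (nat_lit 5) (nat_lit 109) (nat_lit 5) (nat_lit 479) (nat_lit 379) (nat_lit 282)) (XT.lf (nat_lit 0) (nat_lit 8255063306) (nat_lit 380) (nat_lit 1036655143) (nat_lit 76) (nat_lit 4421116522) (nat_lit 104) (nat_lit 5) (nat_lit 109) (nat_lit 5) (nat_lit 105) (nat_lit 5) (nat_lit 480) (nat_lit 379) (nat_lit 281))))))) (XT.nd (nat_lit 858) (nat_lit 1596) (nat_lit 0) (XT.nd (nat_lit 390) (nat_lit 1216) (nat_lit 0) (XT.nd (nat_lit 156) (nat_lit 304) (nat_lit 0) (XT.nd (nat_lit 78) (nat_lit 380) (nat_lit 0) (XT.lf (nat_lit 0) (nat_lit 7078587749) (nat_lit 304)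 (nat_lit 4809416336) (nat_lit 380) (nat_lit 1996408003) (nat_lit 100) (nat_lit 5) (nat_lit 104) (nat_lit 5) (nat_lit 105) (nat_lit 5) (nat_lit 481) (nat_lit 379) (nat_lit 280)) (XT.lf (nat_lit 0) (nat_lit 1282271519) (nat_lit 304) (nat_lit 224655094) (nat_lit 380) (nat_lit 12552442508) (nat_lit 95) (nat_lit 5) (nat_lit 99) (nat_lit 5) (nat_lit 100) (nat_lit 5) (nat_lit 482) (nat_lit 379) (nat_lit 279))) (XT.nd (nat_lit 78) (nat_lit 304) (nat_lit 0) (XT.lf (nat_lit 0) (nat_lit 5106162701) (nat_lit 380) (nat_lit 4690532788) (nat_lit 76) (nat_lit 4439819336) (nat_lit 95) (nat_lit 5) (nat_lit 100) (nat_lit 5) (nat_lit 96) (nat_lit 5) (nat_lit 483) (nat_lit 379) (nat_lit 278)) (XT.nd (nat_lit 78) (nat_lit 0) (nat_lit 0) (XT.lf (nat_lit 0) (nat_lit 3568193435) (nat_lit 304) (nat_lit 5211947415) (nat_lit 380) (nat_lit 5637012142) (nat_lit 91) (nat_lit 5) (nat_lit 95) (nat_lit 5) (nat_lit 96) (nat_lit 5) (nat_lit 484) (nat_lit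 379) (nat_lit 277)) (XT.lf (nat_lit 0) (nat_lit 12021025457) (nat_lit 304) (nat_lit 516355921) (nat_lit 380) (nat_lit 2063831494) (nat_lit 91) (nat_lit 5) (nat_lit 95) (nat_lit 5) (nat_lit 96) (nat_lit 5) (nat_lit 485) (nat_lit 379) (nat_lit 276))))) (XT.nd (nat_lit 234) (nat_lit 608) (nat_lit 0) (XT.nd (nat_lit 78) (nat_lit 228) (nat_lit 0) (XT.lf (nat_lit 0) (nat_lit 1604868808) (nat_lit 380) (nat_lit 8929757618) (nat_lit 76) (nat_lit 4253230902) (nat_lit 86) (nat_lit 5) (nat_lit 91) (nat_lit 5) (nat_lit 87) (nat_lit 5) (nat_lit 486) (nat_lit 379) (nat_lit 275)) (XT.nd (nat_lit 78) (nat_lit 228) (nat_lit 0) (XT.lf (nat_lit 0) (nat_lit 5318885481) (nat_lit 380) (nat_lit 529342389) (nat_lit 76) (nat_lit 9129746761) (nat_lit 86) (nat_lit 5) (nat_lit 91) (nat_lit 5) (nat_lit 87) (nat_lit 5) (nat_lit 487) (nat_lit 379) (nat_lit 274)) (XT.lf (nat_lit 0) (nat_lit 8111762778) (nat_lit 228) (nat_lit 1027206830) (nat_lit 304)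 (nat_lit 6032293185) (nat_lit 83) (nat_lit 5) (nat_lit 86) (nat_lit 5) (nat_lit 87) (nat_lit 5) (nat_lit 488) (nat_lit 379) (nat_lit 273)))) (XT.nd (nat_lit 78) (nat_lit 304) (nat_lit 0) (XT.lf (nat_lit 0) (nat_lit 1525425783) (nat_lit 304) (nat_lit 11527996488) (nat_lit 380) (nat_lit 2314639279) (nat_lit 79) (nat_lit 5) (nat_lit 83) (nat_lit 5) (nat_lit 84) (nat_lit 5) (nat_lit 489) (nat_lit 379) (nat_lit 272)) (XT.nd (nat_lit 78) (nat_lit 228) (nat_lit 0) (XT.lf (nat_lit 0) (nat_lit 1491759054) (nat_lit 380) (nat_lit 5240689415) (nat_lit 76) (nat_lit 8835484636) (nat_lit 78) (nat_lit 5) (nat_lit 83) (nat_lit 5) (nat_lit 79) (nat_lit 5) (nat_lit 490) (nat_lit 379) (nat_lit 271)) (XT.lf (nat_lit 0) (nat_lit 3531066330) (nat_lit 228) (nat_lit 1814865225) (nat_lit 304) (nat_lit 10425515685) (nat_lit 75) (nat_lit 5) (nat_lit 78) (nat_lit 5) (nat_lit 79) (nat_lit 5) (nat_lit 491) (nat_lit 379) (nat_lit 270)))))) (XT.nd (nat_lit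 390) (nat_lit 988) (nat_lit 0) (XT.nd (nat_lit 156) (nat_lit 304) (nat_lit 0) (XT.nd (nat_lit 78) (nat_lit 304) (nat_lit 0) (XT.lf (nat_lit 0) (nat_lit 9313156518) (nat_lit 304) (nat_lit 3483364409) (nat_lit 76) (nat_lit 3181795204) (nat_lit 75) (nat_lit 5) (nat_lit 79) (nat_lit 5) (nat_lit 76) (nat_lit 5) (nat_lit 492) (nat_lit 379) (nat_lit 269)) (XT.lf (nat_lit 0) (nat_lit 5475928634) (nat_lit 304) (nat_lit 7911550915) (nat_lit 380) (nat_lit 2801291557) (nat_lit 71) (nat_lit 5) (nat_lit 75) (nat_lit 5) (nat_lit 76) (nat_lit 5) (nat_lit 493) (nat_lit 379) (nat_lit 268))) (XT.nd (nat_lit 78) (nat_lit 228) (nat_lit 0) (XT.lf (nat_lit 0) (nat_lit 1128659922) (nat_lit 380) (nat_lit 1781611846) (nat_lit 76) (nat_lit 13492943920) (nat_lit 70) (nat_lit 5) (nat_lit 75) (nat_lit 5) (nat_lit 71) (nat_lit 5) (nat_lit 494) (nat_lit 379) (nat_lit 267)) (XT.nd (nat_lit 78) (nat_lit 0) (nat_lit 0) (XT.lf (nat_lit 0) (nat_lit 5142811660)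 (nat_lit 304) (nat_lit 9261260224) (nat_lit 76) (nat_lit 2216648295) (nat_lit 67) (nat_lit 5) (nat_lit 71) (nat_lit 5) (nat_lit 68) (nat_lit 5) (nat_lit 495) (nat_lit 379) (nat_lit 266)) (XT.lf (nat_lit 0) (nat_lit 9249258807) (nat_lit 304) (nat_lit 186352059) (nat_lit 76) (nat_lit 7406727136) (nat_lit 67) (nat_lit 5) (nat_lit 71) (nat_lit 5) (nat_lit 68) (nat_lit 5) (nat_lit 496) (nat_lit 379) (nat_lit 265))))) (XT.nd (nat_lit 234) (nat_lit 456) (nat_lit 0) (XT.nd (nat_lit 78) (nat_lit 304) (nat_lit 0) (XT.lf (nat_lit 0) (nat_lit 9158634819) (nat_lit 228) (nat_lit 4319746678) (nat_lit 304) (nat_lit 3589199174) (nat_lit 64) (nat_lit 5) (nat_lit 67) (nat_lit 5) (nat_lit 68) (nat_lit 5) (nat_lit 497) (nat_lit 379) (nat_lit 264)) (XT.nd (nat_lit 78) (nat_lit 0) (nat_lit 0) (XT.lf (nat_lit 0) (nat_lit 485444308) (nat_lit 304) (nat_lit 15924253549) (nat_lit 76) (nat_lit 887625886) (nat_lit 60) (nat_lit 5) (nat_lit 64) (nat_lit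 5) (nat_lit 61) (nat_lit 5) (nat_lit 498) (nat_lit 379) (nat_lit 263)) (XT.lf (nat_lit 0) (nat_lit 4656805382) (nat_lit 304) (nat_lit 6667065108) (nat_lit 76) (nat_lit 6206054235) (nat_lit 60) (nat_lit 5) (nat_lit 64) (nat_lit 5) (nat_lit 61) (nat_lit 5) (nat_lit 499) (nat_lit 379) (nat_lit 262)))) (XT.nd (nat_lit 78) (nat_lit 228) (nat_lit 0) (XT.lf (nat_lit 0) (nat_lit 2780686600) (nat_lit 228) (nat_lit 6130536543) (nat_lit 304) (nat_lit 8855965155) (nat_lit 57) (nat_lit 5) (nat_lit 60) (nat_lit 5) (nat_lit 61) (nat_lit 5) (nat_lit 500) (nat_lit 379) (nat_lit 261)) (XT.nd (nat_lit 78) (nat_lit 228) (nat_lit 0) (XT.lf (nat_lit 0) (nat_lit 12476921733) (nat_lit 228) (nat_lit 800283443) (nat_lit 304) (nat_lit 4731465547) (nat_lit 57) (nat_lit 5) (nat_lit 60) (nat_lit 5) (nat_lit 61) (nat_lit 5) (nat_lit 501) (nat_lit 379) (nat_lit 260)) (XT.lf (nat_lit 0) (nat_lit 4105315322) (nat_lit 228) (nat_lit 13663964098) (nat_lit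 304) (nat_lit 484930962) (nat_lit 54) (nat_lit 5) (nat_lit 57) (nat_lit 5) (nat_lit 58) (nat_lit 5) (nat_lit 502) (nat_lit 379) (nat_lit 259))))))))
noncomputable def xc94 : XT := (XT.nd (nat_lit 51246) (nat_lit 0) (nat_lit 27892) (XT.nd (nat_lit 50388) (nat_lit 0) (nat_lit 44308) (XT.nd (nat_lit 49998) (nat_lit 0) (nat_lit 47576) (XT.nd (nat_lit 49764) (nat_lit 0) (nat_lit 48260) (XT.nd (nat_lit 78) (nat_lit 228) (nat_lit 0) (XT.lf (nat_lit 0) (nat_lit 3820802198) (nat_lit 304) (nat_lit 4554895513) (nat_lit 76) (nat_lit 10127972242) (nat_lit 53) (nat_lit 5) (nat_lit 57) (nat_lit 5) (nat_lit 54) (nat_lit 5) (nat_lit 503) (nat_lit 379) (nat_lit 258)) (XT.lf (nat_lit 0) (nat_lit 5266885620) (nat_lit 228) (nat_lit 2955874538) (nat_lit 304) (nat_lit 10534965245) (nat_lit 50) (nat_lit 5) (nat_lit 53) (nat_lit 5) (nat_lit 54) (nat_lit 5) (nat_lit 504) (nat_lit 379) (nat_lit 257))) (XT.nd (nat_lit 78) (nat_lit 76) (nat_lit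 0) (XT.lf (nat_lit 0) (nat_lit 1073741823) (nat_lit 0) (nat_lit 0) (nat_lit 0) (nat_lit 0) (nat_lit 686) (nat_lit 0) (nat_lit 1) (nat_lit 0) (nat_lit 1) (nat_lit 0) (nat_lit 380) (nat_lit 380) (nat_lit 380)) (XT.nd (nat_lit 78) (nat_lit 0) (nat_lit 0) (XT.lf (nat_lit 0) (nat_lit 3072298694) (nat_lit 76) (nat_lit 3330030417) (nat_lit 0) (nat_lit 40557073) (nat_lit 685) (nat_lit 5) (nat_lit 686) (nat_lit 0) (nat_lit 685) (nat_lit 4) (nat_lit 381) (nat_lit 380) (nat_lit 379)) (XT.lf (nat_lit 0) (nat_lit 6125724451) (nat_lit 76) (nat_lit 197591644) (nat_lit 0) (nat_lit 121687124) (nat_lit 685) (nat_lit 5) (nat_lit 686) (nat_lit 0) (nat_lit 685) (nat_lit 4) (nat_lit 382) (nat_lit 380) (nat_lit 378))))) (XT.nd (nat_lit 156) (nat_lit 532) (nat_lit 0) (XT.nd (nat_lit 78) (nat_lit 0) (nat_lit 0) (XT.lf (nat_lit 0) (nat_lit 2696671415) (nat_lit 152) (nat_lit 3470776466) (nat_lit 76) (nat_lit 280611214) (nat_lit 683) (nat_lit 5)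 (nat_lit 685) (nat_lit 5) (nat_lit 684) (nat_lit 4) (nat_lit 383) (nat_lit 380) (nat_lit 377)) (XT.lf (nat_lit 0) (nat_lit 5691960805) (nat_lit 152) (nat_lit 277169741) (nat_lit 76) (nat_lit 483600291) (nat_lit 683) (nat_lit 5) (nat_lit 685) (nat_lit 5) (nat_lit 684) (nat_lit 4) (nat_lit 384) (nat_lit 380) (nat_lit 376))) (XT.nd (nat_lit 78) (nat_lit 304) (nat_lit 0) (XT.lf (nat_lit 0) (nat_lit 2202012981) (nat_lit 228) (nat_lit 3495224208) (nat_lit 76) (nat_lit 761174280) (nat_lit 680) (nat_lit 5) (nat_lit 683) (nat_lit 5) (nat_lit 681) (nat_lit 5) (nat_lit 385) (nat_lit 380) (nat_lit 375)) (XT.nd (nat_lit 78) (nat_lit 304) (nat_lit 0) (XT.lf (nat_lit 0) (nat_lit 5139908670) (nat_lit 228) (nat_lit 239306962) (nat_lit 76) (nat_lit 1086427872) (nat_lit 680) (nat_lit 5) (nat_lit 683) (nat_lit 5) (nat_lit 681) (nat_lit 5) (nat_lit 386) (nat_lit 380) (nat_lit 374)) (XT.lf (nat_lit 0) (nat_lit 1586958516) (nat_lit 304) (nat_lit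 3403841388) (nat_lit 76) (nat_lit 1483156516) (nat_lit 676) (nat_lit 5) (nat_lit 680) (nat_lit 5) (nat_lit 677) (nat_lit 5) (nat_lit 387) (nat_lit 380) (nat_lit 373)))))) (XT.nd (nat_lit 390) (nat_lit 1976) (nat_lit 0) (XT.nd (nat_lit 156) (nat_lit 912) (nat_lit 0) (XT.nd (nat_lit 78) (nat_lit 380) (nat_lit 0) (XT.lf (nat_lit 0) (nat_lit 4468086541) (nat_lit 304) (nat_lit 84356624) (nat_lit 76) (nat_lit 1931314339) (nat_lit 676) (nat_lit 5) (nat_lit 680) (nat_lit 5) (nat_lit 677) (nat_lit 5) (nat_lit 388) (nat_lit 380) (nat_lit 372)) (XT.lf (nat_lit 0) (nat_lit 849909962) (nat_lit 380) (nat_lit 3196878683) (nat_lit 76) (nat_lit 2447925000) (nat_lit 671) (nat_lit 5) (nat_lit 676) (nat_lit 5) (nat_lit 672) (nat_lit 5) (nat_lit 389) (nat_lit 380) (nat_lit 371))) (XT.nd (nat_lit 78) (nat_lit 532) (nat_lit 0) (XT.lf (nat_lit 0) (nat_lit 190037288) (nat_lit 380) (nat_lit 3485975201) (nat_lit 456) (nat_lit 2831058551) (nat_lit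 666) (nat_lit 5) (nat_lit 671) (nat_lit 5) (nat_lit 672) (nat_lit 5) (nat_lit 390) (nat_lit 380) (nat_lit 370)) (XT.nd (nat_lit 78) (nat_lit 532) (nat_lit 0) (XT.lf (nat_lit 0) (nat_lit 3646263891) (nat_lit 380) (nat_lit 2863330173) (nat_lit 456) (nat_lit 11113951) (nat_lit 666) (nat_lit 5) (nat_lit 671) (nat_lit 5) (nat_lit 672) (nat_lit 5) (nat_lit 391) (nat_lit 380) (nat_lit 369)) (XT.lf (nat_lit 0) (nat_lit 584137241) (nat_lit 456) (nat_lit 2177685831) (nat_lit 532) (nat_lit 3773788734) (nat_lit 659) (nat_lit 5) (nat_lit 665) (nat_lit 5) (nat_lit 666) (nat_lit 5) (nat_lit 392) (nat_lit 380) (nat_lit 368))))) (XT.nd (nat_lit 234) (nat_lit 1368) (nat_lit 0) (XT.nd (nat_lit 78) (nat_lit 608) (nat_lit 0) (XT.lf (nat_lit 0) (nat_lit 4109137129) (nat_lit 456) (nat_lit 1431695255) (nat_lit 532) (nat_lit 1011013168) (nat_lit 659) (nat_lit 5) (nat_lit 665) (nat_lit 5) (nat_lit 666) (nat_lit 5) (nat_lit 393) (nat_lit 380)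 (nat_lit 367)) (XT.nd (nat_lit 78) (nat_lit 0) (nat_lit 0) (XT.lf (nat_lit 0) (nat_lit 1097117653) (nat_lit 532) (nat_lit 625649497) (nat_lit 608) (nat_lit 4846659913) (nat_lit 651) (nat_lit 5) (nat_lit 658) (nat_lit 5) (nat_lit 659) (nat_lit 5) (nat_lit 394) (nat_lit 380) (nat_lit 366)) (XT.lf (nat_lit 0) (nat_lit 4449020613) (nat_lit 608) (nat_lit 1897298823) (nat_lit 76) (nat_lit 241926204) (nat_lit 651) (nat_lit 5) (nat_lit 659) (nat_lit 5) (nat_lit 652) (nat_lit 5) (nat_lit 395) (nat_lit 380) (nat_lit 365)))) (XT.nd (nat_lit 78) (nat_lit 684) (nat_lit 0) (XT.lf (nat_lit 0) (nat_lit 564017599) (nat_lit 684) (nat_lit 4886687764) (nat_lit 76) (nat_lit 1157701998) (nat_lit 642) (nat_lit 5) (nat_lit 651) (nat_lit 5) (nat_lit 643) (nat_lit 5) (nat_lit 396) (nat_lit 380) (nat_lit 364)) (XT.nd (nat_lit 78) (nat_lit 684) (nat_lit 0) (XT.lf (nat_lit 0) (nat_lit 3240909931) (nat_lit 684) (nat_lit 1246950967) (nat_lit 76) (nat_lit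 2141907182) (nat_lit 642) (nat_lit 5) (nat_lit 651) (nat_lit 5) (nat_lit 643) (nat_lit 5) (nat_lit 397) (nat_lit 380) (nat_lit 363)) (XT.lf (nat_lit 0) (nat_lit 2455809844) (nat_lit 684) (nat_lit 3468128059) (nat_lit 760) (nat_lit 728608461) (nat_lit 633) (nat_lit 5) (nat_lit 642) (nat_lit 5) (nat_lit 643) (nat_lit 5) (nat_lit 398) (nat_lit 380) (nat_lit 362))))))) (XT.nd (nat_lit 858) (nat_lit 10336) (nat_lit 0) (XT.nd (nat_lit 390) (nat_lit 3420) (nat_lit 0) (XT.nd (nat_lit 156) (nat_lit 1824) (nat_lit 0) (XT.nd (nat_lit 78) (nat_lit 760) (nat_lit 0) (XT.lf (nat_lit 0) (nat_lit 1904408084) (nat_lit 760) (nat_lit 481605157) (nat_lit 76) (nat_lit 4290638027) (nat_lit 632) (nat_lit 5) (nat_lit 642) (nat_lit 5) (nat_lit 633) (nat_lit 5) (nat_lit 399) (nat_lit 380) (nat_lit 361)) (XT.lf (nat_lit 0) (nat_lit 3304600347) (nat_lit 760) (nat_lit 1235595642) (nat_lit 836) (nat_lit 2161788482) (nat_lit 622) (nat_lit 5) (nat_lit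 632) (nat_lit 5) (nat_lit 633) (nat_lit 5) (nat_lit 400) (nat_lit 380) (nat_lit 360))) (XT.nd (nat_lit 78) (nat_lit 912) (nat_lit 0) (XT.lf (nat_lit 0) (nat_lit 405017647) (nat_lit 836) (nat_lit 34072051) (nat_lit 912) (nat_lit 6289812249) (nat_lit 610) (nat_lit 5) (nat_lit 621) (nat_lit 5) (nat_lit 622) (nat_lit 5) (nat_lit 401) (nat_lit 380) (nat_lit 359)) (XT.nd (nat_lit 78) (nat_lit 912) (nat_lit 0) (XT.lf (nat_lit 0) (nat_lit 3033694652) (nat_lit 912) (nat_lit 2491984998) (nat_lit 76) (nat_lit 1231016788) (nat_lit 610) (nat_lit 5) (nat_lit 622) (nat_lit 5) (nat_lit 611) (nat_lit 5) (nat_lit 402) (nat_lit 380) (nat_lit 358)) (XT.lf (nat_lit 0) (nat_lit 1392034678) (nat_lit 912) (nat_lit 4238541652) (nat_lit 988) (nat_lit 1155499627) (nat_lit 598) (nat_lit 5) (nat_lit 610) (nat_lit 5) (nat_lit 611) (nat_lit 5) (nat_lit 403) (nat_lit 380) (nat_lit 357))))) (XT.nd (nat_lit 234) (nat_lit 2356) (nat_lit 0) (XT.nd (nat_lit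 78) (nat_lit 988) (nat_lit 0) (XT.lf (nat_lit 0) (nat_lit 1402575010) (nat_lit 988) (nat_lit 1480886735) (nat_lit 76) (nat_lit 3933258407) (nat_lit 597) (nat_lit 5) (nat_lit 610) (nat_lit 5) (nat_lit 598) (nat_lit 5) (nat_lit 404) (nat_lit 380) (nat_lit 356)) (XT.nd (nat_lit 78) (nat_lit 0) (nat_lit 0) (XT.lf (nat_lit 0) (nat_lit 2493343366) (nat_lit 988) (nat_lit 1461925290) (nat_lit 1064) (nat_lit 2893411930) (nat_lit 584) (nat_lit 5) (nat_lit 597) (nat_lit 5) (nat_lit 598) (nat_lit 5) (nat_lit 405) (nat_lit 380) (nat_lit 355)) (XT.lf (nat_lit 0) (nat_lit 6512613133) (nat_lit 1064) (nat_lit 357152159) (nat_lit 76) (nat_lit 12477023) (nat_lit 584) (nat_lit 5) (nat_lit 598) (nat_lit 5) (nat_lit 585) (nat_lit 5) (nat_lit 406) (nat_lit 380) (nat_lit 354)))) (XT.nd (nat_lit 78) (nat_lit 1216) (nat_lit 0) (XT.lf (nat_lit 0) (nat_lit 2154135616) (nat_lit 1140) (nat_lit 3213402360) (nat_lit 76) (nat_lit 1549115318) (nat_lit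 569) (nat_lit 5) (nat_lit 584) (nat_lit 5) (nat_lit 570) (nat_lit 5) (nat_lit 407) (nat_lit 380) (nat_lit 353)) (XT.nd (nat_lit 78) (nat_lit 76) (nat_lit 0) (XT.lf (nat_lit 0) (nat_lit 864018089) (nat_lit 1140) (nat_lit 3812627911) (nat_lit 1216) (nat_lit 2276025298) (nat_lit 554) (nat_lit 5) (nat_lit 569) (nat_lit 5) (nat_lit 570) (nat_lit 5) (nat_lit 408) (nat_lit 380) (nat_lit 352)) (XT.lf (nat_lit 0) (nat_lit 224093078) (nat_lit 1216) (nat_lit 1967585677) (nat_lit 76) (nat_lit 4798381761) (nat_lit 553) (nat_lit 5) (nat_lit 569) (nat_lit 5) (nat_lit 554) (nat_lit 5) (nat_lit 409) (nat_lit 380) (nat_lit 351)))))) (XT.nd (nat_lit 390) (nat_lit 6384) (nat_lit 0) (XT.nd (nat_lit 156) (nat_lit 2736) (nat_lit 0) (XT.nd (nat_lit 78) (nat_lit 0) (nat_lit 0) (XT.lf (nat_lit 0) (nat_lit 2207308282) (nat_lit 1216) (nat_lit 497458232) (nat_lit 1292) (nat_lit 4323939755) (nat_lit 537) (nat_lit 5) (nat_lit 553) (nat_lit 5) (nat_lit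 554) (nat_lit 5) (nat_lit 410) (nat_lit 380) (nat_lit 350)) (XT.lf (nat_lit 0) (nat_lit 5203842530) (nat_lit 1292) (nat_lit 626907075) (nat_lit 76) (nat_lit 1238029170) (nat_lit 537) (nat_lit 5) (nat_lit 554) (nat_lit 5) (nat_lit 538) (nat_lit 5) (nat_lit 411) (nat_lit 380) (nat_lit 349))) (XT.nd (nat_lit 78) (nat_lit 1368) (nat_lit 0) (XT.lf (nat_lit 0) (nat_lit 610173749) (nat_lit 1368) (nat_lit 3460578124) (nat_lit 76) (nat_lit 3039338547) (nat_lit 519) (nat_lit 5) (nat_lit 537) (nat_lit 5) (nat_lit 520) (nat_lit 5) (nat_lit 412) (nat_lit 380) (nat_lit 348)) (XT.nd (nat_lit 78) (nat_lit 0) (nat_lit 0) (XT.lf (nat_lit 0) (nat_lit 823315880) (nat_lit 1368) (nat_lit 2245010348) (nat_lit 1444) (nat_lit 4084513202) (nat_lit 501) (nat_lit 5) (nat_lit 519) (nat_lit 5) (nat_lit 520) (nat_lit 5) (nat_lit 413) (nat_lit 380) (nat_lit 347)) (XT.lf (nat_lit 0) (nat_lit 5197161751) (nat_lit 1368) (nat_lit 351335479) (nat_lit 1444)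 (nat_lit 1648516445) (nat_lit 501) (nat_lit 5) (nat_lit 519) (nat_lit 5) (nat_lit 520) (nat_lit 5) (nat_lit 414) (nat_lit 380) (nat_lit 346))))) (XT.nd (nat_lit 234) (nat_lit 3344) (nat_lit 0) (XT.nd (nat_lit 78) (nat_lit 1520) (nat_lit 0) (XT.lf (nat_lit 0) (nat_lit 801528804) (nat_lit 1520) (nat_lit 4853144370) (nat_lit 76) (nat_lit 1587790040) (nat_lit 481) (nat_lit 5) (nat_lit 501) (nat_lit 5) (nat_lit 482) (nat_lit 5) (nat_lit 415) (nat_lit 380) (nat_lit 345)) (XT.nd (nat_lit 78) (nat_lit 1520) (nat_lit 0) (XT.lf (nat_lit 0) (nat_lit 3245370311) (nat_lit 1520) (nat_lit 451762239) (nat_lit 76) (nat_lit 3592159667) (nat_lit 481) (nat_lit 5) (nat_lit 501) (nat_lit 5) (nat_lit 482) (nat_lit 5) (nat_lit 416) (nat_lit 380) (nat_lit 344)) (XT.lf (nat_lit 0) (nat_lit 4048332815) (nat_lit 1520) (nat_lit 1668013524) (nat_lit 1596) (nat_lit 1621171588) (nat_lit 461) (nat_lit 5) (nat_lit 481) (nat_lit 5) (nat_lit 482) (nat_lit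 5) (nat_lit 417) (nat_lit 380) (nat_lit 343)))) (XT.nd (nat_lit 78) (nat_lit 1672) (nat_lit 0) (XT.lf (nat_lit 0) (nat_lit 804947434) (nat_lit 1672) (nat_lit 6164452047) (nat_lit 76) (nat_lit 417901349) (nat_lit 439) (nat_lit 5) (nat_lit 461) (nat_lit 5) (nat_lit 440) (nat_lit 5) (nat_lit 418) (nat_lit 380) (nat_lit 342)) (XT.nd (nat_lit 78) (nat_lit 1672) (nat_lit 0) (XT.lf (nat_lit 0) (nat_lit 3244158387) (nat_lit 1672) (nat_lit 1633358645) (nat_lit 76) (nat_lit 2560646323) (nat_lit 439) (nat_lit 5) (nat_lit 461) (nat_lit 5) (nat_lit 440) (nat_lit 5) (nat_lit 419) (nat_lit 380) (nat_lit 341)) (XT.lf (nat_lit 0) (nat_lit 2984855532) (nat_lit 1672) (nat_lit 2720591374) (nat_lit 1748) (nat_lit 1785153711) (nat_lit 417) (nat_lit 5) (nat_lit 439) (nat_lit 5) (nat_lit 440) (nat_lit 5) (nat_lit 420) (nat_lit 380) (nat_lit 340))))))))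
noncomputable def xc95 : XT := (XT.nd (nat_lit 1638) (nat_lit 7904) (nat_lit 0) (XT.nd (nat_lit 780) (nat_lit 5472) (nat_lit 0) (XT.nd (nat_lit 390) (nat_lit 2584) (nat_lit 0) (XT.nd (nat_lit 156) (nat_lit 2052) (nat_lit 0) (XT.nd (nat_lit 78) (nat_lit 0) (nat_lit 0) (XT.lf (nat_lit 0) (nat_lit 127952170) (nat_lit 1748) (nat_lit 501193298) (nat_lit 1824) (nat_lit 6915554709) (nat_lit 393) (nat_lit 5) (nat_lit 416) (nat_lit 5) (nat_lit 417) (nat_lit 5) (nat_lit 421) (nat_lit 380) (nat_lit 339)) (XT.lf (nat_lit 0) (nat_lit 3064584686) (nat_lit 1824) (nat_lit 2750999959) (nat_lit 76) (nat_lit 1784147948) (nat_lit 393) (nat_lit 5) (nat_lit 417) (nat_lit 5) (nat_lit 394) (nat_lit 5) (nat_lit 422) (nat_lit 380) (nat_lit 338))) (XT.nd (nat_lit 78) (nat_lit 988) (nat_lit 0) (XT.lf (nat_lit 0) (nat_lit 1988016580) (nat_lit 1064) (nat_lit 3532682827) (nat_lit 1140) (nat_lit 2135748493) (nat_lit 379) (nat_lit 5) (nat_lit 393) (nat_lit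 5) (nat_lit 394) (nat_lit 5) (nat_lit 423) (nat_lit 380) (nat_lit 337)) (XT.nd (nat_lit 78) (nat_lit 912) (nat_lit 0) (XT.lf (nat_lit 0) (nat_lit 282156369) (nat_lit 1140) (nat_lit 900094053) (nat_lit 76) (nat_lit 6532535270) (nat_lit 378) (nat_lit 5) (nat_lit 393) (nat_lit 5) (nat_lit 379) (nat_lit 5) (nat_lit 424) (nat_lit 380) (nat_lit 336)) (XT.lf (nat_lit 0) (nat_lit 2710596799) (nat_lit 988) (nat_lit 3823423215) (nat_lit 76) (nat_lit 1240192710) (nat_lit 366) (nat_lit 5) (nat_lit 379) (nat_lit 5) (nat_lit 367) (nat_lit 5) (nat_lit 425) (nat_lit 380) (nat_lit 335))))) (XT.nd (nat_lit 156) (nat_lit 1748) (nat_lit 0) (XT.nd (nat_lit 78) (nat_lit 0) (nat_lit 0) (XT.lf (nat_lit 0) (nat_lit 1039067635) (nat_lit 836) (nat_lit 4126654605) (nat_lit 912) (nat_lit 2669563667) (nat_lit 355) (nat_lit 5) (nat_lit 366) (nat_lit 5) (nat_lit 367) (nat_lit 5) (nat_lit 426) (nat_lit 380) (nat_lit 334)) (XT.lf (nat_lit 0) (nat_lit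 6008043169) (nat_lit 836) (nat_lit 1645582081) (nat_lit 912) (nat_lit 244301344) (nat_lit 355) (nat_lit 5) (nat_lit 366) (nat_lit 5) (nat_lit 367) (nat_lit 5) (nat_lit 427) (nat_lit 380) (nat_lit 333))) (XT.nd (nat_lit 78) (nat_lit 836) (nat_lit 0) (XT.lf (nat_lit 0) (nat_lit 2184863022) (nat_lit 912) (nat_lit 4869534128) (nat_lit 76) (nat_lit 907459492) (nat_lit 343) (nat_lit 5) (nat_lit 355) (nat_lit 5) (nat_lit 344) (nat_lit 5) (nat_lit 428) (nat_lit 380) (nat_lit 332)) (XT.nd (nat_lit 78) (nat_lit 0) (nat_lit 0) (XT.lf (nat_lit 0) (nat_lit 119062643) (nat_lit 836) (nat_lit 4523798854) (nat_lit 912) (nat_lit 3384519473) (nat_lit 332) (nat_lit 5) (nat_lit 343) (nat_lit 5) (nat_lit 344) (nat_lit 5) (nat_lit 429) (nat_lit 380) (nat_lit 331)) (XT.lf (nat_lit 0) (nat_lit 5230843356) (nat_lit 836) (nat_lit 1911461409) (nat_lit 912) (nat_lit 952083379) (nat_lit 332) (nat_lit 5) (nat_lit 343) (nat_lit 5) (nat_lit 344) (nat_lit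 5) (nat_lit 430) (nat_lit 380) (nat_lit 330)))))) (XT.nd (nat_lit 390) (nat_lit 2964) (nat_lit 0) (XT.nd (nat_lit 156) (nat_lit 1596) (nat_lit 0) (XT.nd (nat_lit 78) (nat_lit 0) (nat_lit 0) (XT.lf (nat_lit 0) (nat_lit 1488775507) (nat_lit 912) (nat_lit 5908572326) (nat_lit 76) (nat_lit 765609891) (nat_lit 320) (nat_lit 5) (nat_lit 332) (nat_lit 5) (nat_lit 321) (nat_lit 5) (nat_lit 431) (nat_lit 380) (nat_lit 329)) (XT.lf (nat_lit 0) (nat_lit 3958328712) (nat_lit 912) (nat_lit 780931983) (nat_lit 76) (nat_lit 3493676638) (nat_lit 320) (nat_lit 5) (nat_lit 332) (nat_lit 5) (nat_lit 321) (nat_lit 5) (nat_lit 432) (nat_lit 380) (nat_lit 328))) (XT.nd (nat_lit 78) (nat_lit 836) (nat_lit 0) (XT.lf (nat_lit 0) (nat_lit 4465854428) (nat_lit 760) (nat_lit 2001797945) (nat_lit 836) (nat_lit 1836873254) (nat_lit 310) (nat_lit 5) (nat_lit 320) (nat_lit 5) (nat_lit 321) (nat_lit 5) (nat_lit 433) (nat_lit 380) (nat_lit 327)) (XT.nd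 (nat_lit 78) (nat_lit 0) (nat_lit 0) (XT.lf (nat_lit 0) (nat_lit 622443534) (nat_lit 836) (nat_lit 6960282901) (nat_lit 76) (nat_lit 795123997) (nat_lit 299) (nat_lit 5) (nat_lit 310) (nat_lit 5) (nat_lit 300) (nat_lit 5) (nat_lit 434) (nat_lit 380) (nat_lit 326)) (XT.lf (nat_lit 0) (nat_lit 3107617192) (nat_lit 836) (nat_lit 1689451022) (nat_lit 76) (nat_lit 3655321078) (nat_lit 299) (nat_lit 5) (nat_lit 310) (nat_lit 5) (nat_lit 300) (nat_lit 5) (nat_lit 435) (nat_lit 380) (nat_lit 325))))) (XT.nd (nat_lit 234) (nat_lit 1444) (nat_lit 0) (XT.nd (nat_lit 78) (nat_lit 836) (nat_lit 0) (XT.lf (nat_lit 0) (nat_lit 3693376539) (nat_lit 684) (nat_lit 1935897867) (nat_lit 760) (nat_lit 2899424330) (nat_lit 290) (nat_lit 5) (nat_lit 299) (nat_lit 5) (nat_lit 300) (nat_lit 5) (nat_lit 436) (nat_lit 380) (nat_lit 324)) (XT.nd (nat_lit 78) (nat_lit 76) (nat_lit 0) (XT.lf (nat_lit 0) (nat_lit 559028320) (nat_lit 760) (nat_lit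 7626985415) (nat_lit 836) (nat_lit 420842761) (nat_lit 280) (nat_lit 5) (nat_lit 290) (nat_lit 5) (nat_lit 291) (nat_lit 5) (nat_lit 437) (nat_lit 380) (nat_lit 323)) (XT.lf (nat_lit 0) (nat_lit 2088576821) (nat_lit 836) (nat_lit 2628361645) (nat_lit 76) (nat_lit 3969201743) (nat_lit 279) (nat_lit 5) (nat_lit 290) (nat_lit 5) (nat_lit 280) (nat_lit 5) (nat_lit 438) (nat_lit 380) (nat_lit 322)))) (XT.nd (nat_lit 78) (nat_lit 760) (nat_lit 0) (XT.lf (nat_lit 0) (nat_lit 2892957025) (nat_lit 684) (nat_lit 1732519361) (nat_lit 760) (nat_lit 4141833277) (nat_lit 270) (nat_lit 5) (nat_lit 279) (nat_lit 5) (nat_lit 280) (nat_lit 5) (nat_lit 439) (nat_lit 380) (nat_lit 321)) (XT.nd (nat_lit 78) (nat_lit 760) (nat_lit 0) (XT.lf (nat_lit 0) (nat_lit 7203917918) (nat_lit 760) (nat_lit 340153183) (nat_lit 76) (nat_lit 1306229283) (nat_lit 270) (nat_lit 5) (nat_lit 280) (nat_lit 5) (nat_lit 271) (nat_lit 5) (nat_lit 440) (nat_lit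 380) (nat_lit 320)) (XT.lf (nat_lit 0) (nat_lit 898503482) (nat_lit 760) (nat_lit 3618873633) (nat_lit 76) (nat_lit 4417244156) (nat_lit 260) (nat_lit 5) (nat_lit 270) (nat_lit 5) (nat_lit 261) (nat_lit 5) (nat_lit 441) (nat_lit 380) (nat_lit 319))))))) (XT.nd (nat_lit 858) (nat_lit 3572) (nat_lit 0) (XT.nd (nat_lit 390) (nat_lit 2432) (nat_lit 0) (XT.nd (nat_lit 156) (nat_lit 1292) (nat_lit 0) (XT.nd (nat_lit 78) (nat_lit 0) (nat_lit 0) (XT.lf (nat_lit 0) (nat_lit 2043196011) (nat_lit 608) (nat_lit 1410034186) (nat_lit 684) (nat_lit 5567574118) (nat_lit 252) (nat_lit 5) (nat_lit 260) (nat_lit 5) (nat_lit 261) (nat_lit 5) (nat_lit 442) (nat_lit 380) (nat_lit 318)) (XT.lf (nat_lit 0) (nat_lit 6060689620) (nat_lit 684) (nat_lit 1294103003) (nat_lit 76) (nat_lit 1753898526) (nat_lit 252) (nat_lit 5) (nat_lit 261) (nat_lit 5) (nat_lit 253) (nat_lit 5) (nat_lit 443) (nat_lit 380) (nat_lit 317))) (XT.nd (nat_lit 78) (nat_lit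 684) (nat_lit 0) (XT.lf (nat_lit 0) (nat_lit 4511874026) (nat_lit 608) (nat_lit 4213496699) (nat_lit 684) (nat_lit 472876187) (nat_lit 244) (nat_lit 5) (nat_lit 252) (nat_lit 5) (nat_lit 253) (nat_lit 5) (nat_lit 444) (nat_lit 380) (nat_lit 316)) (XT.nd (nat_lit 78) (nat_lit 0) (nat_lit 0) (XT.lf (nat_lit 0) (nat_lit 1121540027) (nat_lit 608) (nat_lit 986590125) (nat_lit 684) (nat_lit 7181543609) (nat_lit 235) (nat_lit 5) (nat_lit 243) (nat_lit 5) (nat_lit 244) (nat_lit 5) (nat_lit 445) (nat_lit 380) (nat_lit 315)) (XT.lf (nat_lit 0) (nat_lit 4747991033) (nat_lit 684) (nat_lit 2333038335) (nat_lit 76) (nat_lit 2301577853) (nat_lit 235) (nat_lit 5) (nat_lit 244) (nat_lit 5) (nat_lit 236) (nat_lit 5) (nat_lit 446) (nat_lit 380) (nat_lit 314))))) (XT.nd (nat_lit 234) (nat_lit 1216) (nat_lit 0) (XT.nd (nat_lit 78) (nat_lit 608) (nat_lit 0) (XT.lf (nat_lit 0) (nat_lit 3618933496) (nat_lit 608) (nat_lit 3819333476) (nat_lit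 684) (nat_lit 2039191700) (nat_lit 227) (nat_lit 5) (nat_lit 235) (nat_lit 5) (nat_lit 236) (nat_lit 5) (nat_lit 447) (nat_lit 380) (nat_lit 313)) (XT.nd (nat_lit 78) (nat_lit 0) (nat_lit 0) (XT.lf (nat_lit 0) (nat_lit 104061736) (nat_lit 532) (nat_lit 480275697) (nat_lit 608) (nat_lit 8990118534) (nat_lit 219) (nat_lit 5) (nat_lit 226) (nat_lit 5) (nat_lit 227) (nat_lit 5) (nat_lit 448) (nat_lit 380) (nat_lit 312)) (XT.lf (nat_lit 0) (nat_lit 3259675285) (nat_lit 608) (nat_lit 3481301670) (nat_lit 76) (nat_lit 2931624818) (nat_lit 219) (nat_lit 5) (nat_lit 227) (nat_lit 5) (nat_lit 220) (nat_lit 5) (nat_lit 449) (nat_lit 380) (nat_lit 311)))) (XT.nd (nat_lit 78) (nat_lit 608) (nat_lit 0) (XT.lf (nat_lit 0) (nat_lit 2618290934) (nat_lit 608) (nat_lit 3359084320) (nat_lit 684) (nat_lit 3795568923) (nat_lit 211) (nat_lit 5) (nat_lit 219) (nat_lit 5) (nat_lit 220) (nat_lit 5) (nat_lit 450) (nat_lit 380) (nat_lit 310)) (XT.nd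 (nat_lit 78) (nat_lit 608) (nat_lit 0) (XT.lf (nat_lit 0) (nat_lit 8742501208) (nat_lit 684) (nat_lit 1029247531) (nat_lit 76) (nat_lit 103693828) (nat_lit 211) (nat_lit 5) (nat_lit 220) (nat_lit 5) (nat_lit 212) (nat_lit 5) (nat_lit 451) (nat_lit 380) (nat_lit 309)) (XT.lf (nat_lit 0) (nat_lit 1588085399) (nat_lit 608) (nat_lit 4764932563) (nat_lit 76) (nat_lit 3626259437) (nat_lit 203) (nat_lit 5) (nat_lit 211) (nat_lit 5) (nat_lit 204) (nat_lit 5) (nat_lit 452) (nat_lit 380) (nat_lit 308)))))) (XT.nd (nat_lit 390) (nat_lit 1976) (nat_lit 0) (XT.nd (nat_lit 156) (nat_lit 1064) (nat_lit 0) (XT.nd (nat_lit 78) (nat_lit 0) (nat_lit 0) (XT.lf (nat_lit 0) (nat_lit 1483522417) (nat_lit 532) (nat_lit 2851145658) (nat_lit 608) (nat_lit 5750654936) (nat_lit 196) (nat_lit 5) (nat_lit 203) (nat_lit 5) (nat_lit 204) (nat_lit 5) (nat_lit 453) (nat_lit 380) (nat_lit 307)) (XT.lf (nat_lit 0) (nat_lit 7143027049) (nat_lit 608) (nat_lit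 2316581652) (nat_lit 76) (nat_lit 733753712) (nat_lit 196) (nat_lit 5) (nat_lit 204) (nat_lit 5) (nat_lit 197) (nat_lit 5) (nat_lit 454) (nat_lit 380) (nat_lit 306))) (XT.nd (nat_lit 78) (nat_lit 608) (nat_lit 0) (XT.lf (nat_lit 0) (nat_lit 4089509663) (nat_lit 456) (nat_lit 5934043779) (nat_lit 532) (nat_lit 279698738) (nat_lit 190) (nat_lit 5) (nat_lit 196) (nat_lit 5) (nat_lit 197) (nat_lit 5) (nat_lit 455) (nat_lit 380) (nat_lit 305)) (XT.nd (nat_lit 78) (nat_lit 0) (nat_lit 0) (XT.lf (nat_lit 0) (nat_lit 186178822) (nat_lit 532) (nat_lit 2314319594) (nat_lit 608) (nat_lit 7914769009) (nat_lit 182) (nat_lit 5) (nat_lit 189) (nat_lit 5) (nat_lit 190) (nat_lit 5) (nat_lit 456) (nat_lit 380) (nat_lit 304)) (XT.lf (nat_lit 0) (nat_lit 5354414079) (nat_lit 608) (nat_lit 3781418437) (nat_lit 76) (nat_lit 1393225317) (nat_lit 182) (nat_lit 5) (nat_lit 190) (nat_lit 5) (nat_lit 183) (nat_lit 5) (nat_lit 457) (nat_lit 380)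 (nat_lit 303))))) (XT.nd (nat_lit 234) (nat_lit 988) (nat_lit 0) (XT.nd (nat_lit 78) (nat_lit 532) (nat_lit 0) (XT.lf (nat_lit 0) (nat_lit 2777101803) (nat_lit 456) (nat_lit 5493170539) (nat_lit 532) (nat_lit 2374763271) (nat_lit 176) (nat_lit 5) (nat_lit 182) (nat_lit 5) (nat_lit 183) (nat_lit 5) (nat_lit 458) (nat_lit 380) (nat_lit 302)) (XT.nd (nat_lit 78) (nat_lit 456) (nat_lit 0) (XT.lf (nat_lit 0) (nat_lit 471965775) (nat_lit 532) (nat_lit 1287393346) (nat_lit 76) (nat_lit 9003976644) (nat_lit 175) (nat_lit 5) (nat_lit 182) (nat_lit 5) (nat_lit 176) (nat_lit 5) (nat_lit 459) (nat_lit 380) (nat_lit 301)) (XT.lf (nat_lit 0) (nat_lit 3364939922) (nat_lit 532) (nat_lit 5455272163) (nat_lit 76) (nat_lit 2063062060) (nat_lit 169) (nat_lit 5) (nat_lit 176) (nat_lit 5) (nat_lit 170) (nat_lit 5) (nat_lit 460) (nat_lit 380) (nat_lit 300)))) (XT.nd (nat_lit 78) (nat_lit 532) (nat_lit 0) (XT.lf (nat_lit 0) (nat_lit 1255686870)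 (nat_lit 456) (nat_lit 5060988123) (nat_lit 532) (nat_lit 4688926445) (nat_lit 163) (nat_lit 5) (nat_lit 169) (nat_lit 5) (nat_lit 170) (nat_lit 5) (nat_lit 461) (nat_lit 380) (nat_lit 299)) (XT.nd (nat_lit 78) (nat_lit 532) (nat_lit 0) (XT.lf (nat_lit 0) (nat_lit 8136277184) (nat_lit 456) (nat_lit 1200467295) (nat_lit 532) (nat_lit 1793452824) (nat_lit 163) (nat_lit 5) (nat_lit 169) (nat_lit 5) (nat_lit 170) (nat_lit 5) (nat_lit 462) (nat_lit 380) (nat_lit 298)) (XT.lf (nat_lit 0) (nat_lit 1161016036) (nat_lit 532) (nat_lit 7372389805) (nat_lit 76) (nat_lit 2723410357) (nat_lit 156) (nat_lit 5) (nat_lit 163) (nat_lit 5) (nat_lit 157) (nat_lit 5) (nat_lit 463) (nat_lit 380) (nat_lit 297))))))))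
noncomputable def xc96 : XT := (XT.nd (nat_lit 1638) (nat_lit 3192) (nat_lit 0) (XT.nd (nat_lit 780) (nat_lit 2128) (nat_lit 0) (XT.nd (nat_lit 390) (nat_lit 1216) (nat_lit 0) (XT.nd (nat_lit 156) (nat_lit 912) (nat_lit 0) (XT.nd (nat_lit 78) (nat_lit 380) (nat_lit 0) (XT.lf (nat_lit 0) (nat_lit 4152008387) (nat_lit 532) (nat_lit 502965942) (nat_lit 76) (nat_lit 6730734634) (nat_lit 156) (nat_lit 5) (nat_lit 163) (nat_lit 5) (nat_lit 157) (nat_lit 5) (nat_lit 464) (nat_lit 380) (nat_lit 296)) (XT.lf (nat_lit 0) (nat_lit 6552168324) (nat_lit 380) (nat_lit 666969805) (nat_lit 456) (nat_lit 4297722508) (nat_lit 151) (nat_lit 5) (nat_lit 156) (nat_lit 5) (nat_lit 157) (nat_lit 5) (nat_lit 465) (nat_lit 380) (nat_lit 295))) (XT.nd (nat_lit 78) (nat_lit 456) (nat_lit 0) (XT.lf (nat_lit 0) (nat_lit 2071910472) (nat_lit 456) (nat_lit 8288603974) (nat_lit 532) (nat_lit 1289870080) (nat_lit 145) (nat_lit 5) (nat_lit 151) (nat_lit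 5) (nat_lit 152) (nat_lit 5) (nat_lit 466) (nat_lit 380) (nat_lit 294)) (XT.nd (nat_lit 78) (nat_lit 380) (nat_lit 0) (XT.lf (nat_lit 0) (nat_lit 1766834941) (nat_lit 532) (nat_lit 2523470657) (nat_lit 76) (nat_lit 7495809053) (nat_lit 144) (nat_lit 5) (nat_lit 151) (nat_lit 5) (nat_lit 145) (nat_lit 5) (nat_lit 467) (nat_lit 380) (nat_lit 293)) (XT.lf (nat_lit 0) (nat_lit 4688404806) (nat_lit 380) (nat_lit 184025661) (nat_lit 456) (nat_lit 7051864678) (nat_lit 139) (nat_lit 5) (nat_lit 144) (nat_lit 5) (nat_lit 145) (nat_lit 5) (nat_lit 468) (nat_lit 380) (nat_lit 292))))) (XT.nd (nat_lit 156) (nat_lit 836) (nat_lit 0) (XT.nd (nat_lit 78) (nat_lit 380) (nat_lit 0) (XT.lf (nat_lit 0) (nat_lit 8057936805) (nat_lit 456) (nat_lit 49651980) (nat_lit 76) (nat_lit 3957301193) (nat_lit 139) (nat_lit 5) (nat_lit 145) (nat_lit 5) (nat_lit 140) (nat_lit 5) (nat_lit 469) (nat_lit 380) (nat_lit 291)) (XT.lf (nat_lit 0) (nat_lit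 7338709297) (nat_lit 380) (nat_lit 3992559326) (nat_lit 456) (nat_lit 876552354) (nat_lit 134) (nat_lit 5) (nat_lit 139) (nat_lit 5) (nat_lit 140) (nat_lit 5) (nat_lit 470) (nat_lit 380) (nat_lit 290))) (XT.nd (nat_lit 78) (nat_lit 380) (nat_lit 0) (XT.lf (nat_lit 0) (nat_lit 2279452034) (nat_lit 456) (nat_lit 9851971715) (nat_lit 76) (nat_lit 222024843) (nat_lit 128) (nat_lit 5) (nat_lit 134) (nat_lit 5) (nat_lit 129) (nat_lit 5) (nat_lit 471) (nat_lit 380) (nat_lit 289)) (XT.nd (nat_lit 78) (nat_lit 380) (nat_lit 0) (XT.lf (nat_lit 0) (nat_lit 5521679782) (nat_lit 456) (nat_lit 2485217712) (nat_lit 76) (nat_lit 4494284776) (nat_lit 128) (nat_lit 5) (nat_lit 134) (nat_lit 5) (nat_lit 129) (nat_lit 5) (nat_lit 472) (nat_lit 380) (nat_lit 288)) (XT.lf (nat_lit 0) (nat_lit 5059045607) (nat_lit 380) (nat_lit 3778531449) (nat_lit 456) (nat_lit 3814123141) (nat_lit 123) (nat_lit 5) (nat_lit 128) (nat_lit 5) (nat_lit 129)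 (nat_lit 5) (nat_lit 473) (nat_lit 380) (nat_lit 287)))))) (XT.nd (nat_lit 390) (nat_lit 1064) (nat_lit 0) (XT.nd (nat_lit 156) (nat_lit 684) (nat_lit 0) (XT.nd (nat_lit 78) (nat_lit 380) (nat_lit 0) (XT.lf (nat_lit 0) (nat_lit 12216186592) (nat_lit 456) (nat_lit 56933885) (nat_lit 76) (nat_lit 532186077) (nat_lit 123) (nat_lit 5) (nat_lit 129) (nat_lit 5) (nat_lit 124) (nat_lit 5) (nat_lit 474) (nat_lit 380) (nat_lit 286)) (XT.lf (nat_lit 0) (nat_lit 2716725468) (nat_lit 380) (nat_lit 5309399944) (nat_lit 76) (nat_lit 4934479532) (nat_lit 118) (nat_lit 5) (nat_lit 123) (nat_lit 5) (nat_lit 119) (nat_lit 5) (nat_lit 475) (nat_lit 380) (nat_lit 285))) (XT.nd (nat_lit 78) (nat_lit 304) (nat_lit 0) (XT.lf (nat_lit 0) (nat_lit 2386968882) (nat_lit 380) (nat_lit 3686395173) (nat_lit 456) (nat_lit 7045721687) (nat_lit 113) (nat_lit 5) (nat_lit 118) (nat_lit 5) (nat_lit 119) (nat_lit 5) (nat_lit 476) (nat_lit 380) (nat_lit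 284)) (XT.nd (nat_lit 78) (nat_lit 304) (nat_lit 0) (XT.lf (nat_lit 0) (nat_lit 9514627144) (nat_lit 456) (nat_lit 3011691139) (nat_lit 76) (nat_lit 754073541) (nat_lit 113) (nat_lit 5) (nat_lit 119) (nat_lit 5) (nat_lit 114) (nat_lit 5) (nat_lit 477) (nat_lit 380) (nat_lit 283)) (XT.lf (nat_lit 0) (nat_lit 4867408396) (nat_lit 304) (nat_lit 8190598732) (nat_lit 380) (nat_lit 386256462) (nat_lit 109) (nat_lit 5) (nat_lit 113) (nat_lit 5) (nat_lit 114) (nat_lit 5) (nat_lit 478) (nat_lit 380) (nat_lit 282))))) (XT.nd (nat_lit 234) (nat_lit 380) (nat_lit 0) (XT.nd (nat_lit 78) (nat_lit 608) (nat_lit 0) (XT.lf (nat_lit 0) (nat_lit 3018382816) (nat_lit 380) (nat_lit 721334698) (nat_lit 76) (nat_lit 9871349315) (nat_lit 108) (nat_lit 5) (nat_lit 113) (nat_lit 5) (nat_lit 109) (nat_lit 5) (nat_lit 479) (nat_lit 380) (nat_lit 281)) (XT.nd (nat_lit 78) (nat_lit 304) (nat_lit 0) (XT.lf (nat_lit 0) (nat_lit 6516905800) (nat_lit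 380) (nat_lit 6435498056) (nat_lit 76) (nat_lit 828137039) (nat_lit 104) (nat_lit 5) (nat_lit 109) (nat_lit 5) (nat_lit 105) (nat_lit 5) (nat_lit 480) (nat_lit 380) (nat_lit 280)) (XT.lf (nat_lit 0) (nat_lit 1590600370) (nat_lit 304) (nat_lit 8512682708) (nat_lit 380) (nat_lit 3849768671) (nat_lit 100) (nat_lit 5) (nat_lit 104) (nat_lit 5) (nat_lit 105) (nat_lit 5) (nat_lit 481) (nat_lit 380) (nat_lit 279)))) (XT.nd (nat_lit 78) (nat_lit 380) (nat_lit 0) (XT.lf (nat_lit 0) (nat_lit 9830003377) (nat_lit 304) (nat_lit 3952697073) (nat_lit 380) (nat_lit 345891007) (nat_lit 100) (nat_lit 5) (nat_lit 104) (nat_lit 5) (nat_lit 105) (nat_lit 5) (nat_lit 482) (nat_lit 380) (nat_lit 278)) (XT.nd (nat_lit 78) (nat_lit 0) (nat_lit 0) (XT.lf (nat_lit 0) (nat_lit 3194368755) (nat_lit 380) (nat_lit 10388935470) (nat_lit 76) (nat_lit 723750431) (nat_lit 95) (nat_lit 5) (nat_lit 100) (nat_lit 5) (nat_lit 96) (nat_lit 5) (nat_lit 483)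 (nat_lit 380) (nat_lit 277)) (XT.lf (nat_lit 0) (nat_lit 6834552025) (nat_lit 380) (nat_lit 2193935304) (nat_lit 76) (nat_lit 5459883672) (nat_lit 95) (nat_lit 5) (nat_lit 100) (nat_lit 5) (nat_lit 96) (nat_lit 5) (nat_lit 484) (nat_lit 380) (nat_lit 276))))))) (XT.nd (nat_lit 780) (nat_lit 1368) (nat_lit 0) (XT.nd (nat_lit 390) (nat_lit 912) (nat_lit 0) (XT.nd (nat_lit 156) (nat_lit 608) (nat_lit 0) (XT.nd (nat_lit 78) (nat_lit 0) (nat_lit 0) (XT.lf (nat_lit 0) (nat_lit 6212923284) (nat_lit 304) (nat_lit 4353906883) (nat_lit 380) (nat_lit 4106102197) (nat_lit 91) (nat_lit 5) (nat_lit 95) (nat_lit 5) (nat_lit 96) (nat_lit 5) (nat_lit 485) (nat_lit 380) (nat_lit 275)) (XT.lf (nat_lit 0) (nat_lit 14370331250) (nat_lit 380) (nat_lit 79663830) (nat_lit 76) (nat_lit 411262750) (nat_lit 91) (nat_lit 5) (nat_lit 96) (nat_lit 5) (nat_lit 92) (nat_lit 5) (nat_lit 486) (nat_lit 380) (nat_lit 274))) (XT.nd (nat_lit 78) (nat_lit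 228) (nat_lit 0) (XT.lf (nat_lit 0) (nat_lit 3218664560) (nat_lit 380) (nat_lit 6555070652) (nat_lit 76) (nat_lit 5277923060) (nat_lit 86) (nat_lit 5) (nat_lit 91) (nat_lit 5) (nat_lit 87) (nat_lit 5) (nat_lit 487) (nat_lit 380) (nat_lit 273)) (XT.nd (nat_lit 78) (nat_lit 0) (nat_lit 0) (XT.lf (nat_lit 0) (nat_lit 1989379597) (nat_lit 228) (nat_lit 4999484647) (nat_lit 304) (nat_lit 8257081942) (nat_lit 83) (nat_lit 5) (nat_lit 86) (nat_lit 5) (nat_lit 87) (nat_lit 5) (nat_lit 488) (nat_lit 380) (nat_lit 272)) (XT.lf (nat_lit 0) (nat_lit 10760747259) (nat_lit 228) (nat_lit 97426466) (nat_lit 304) (nat_lit 4585476106) (nat_lit 83) (nat_lit 5) (nat_lit 86) (nat_lit 5) (nat_lit 87) (nat_lit 5) (nat_lit 489) (nat_lit 380) (nat_lit 271))))) (XT.nd (nat_lit 156) (nat_lit 532) (nat_lit 0) (XT.nd (nat_lit 78) (nat_lit 76) (nat_lit 0) (XT.lf (nat_lit 0) (nat_lit 4051027806) (nat_lit 304) (nat_lit 10792010617) (nat_lit 380) (nat_lit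 801509755) (nat_lit 79) (nat_lit 5) (nat_lit 83) (nat_lit 5) (nat_lit 84) (nat_lit 5) (nat_lit 490) (nat_lit 380) (nat_lit 270)) (XT.lf (nat_lit 0) (nat_lit 3030388554) (nat_lit 380) (nat_lit 2878990156) (nat_lit 76) (nat_lit 9939445311) (nat_lit 78) (nat_lit 5) (nat_lit 83) (nat_lit 5) (nat_lit 79) (nat_lit 5) (nat_lit 491) (nat_lit 380) (nat_lit 269))) (XT.nd (nat_lit 78) (nat_lit 304) (nat_lit 0) (XT.lf (nat_lit 0) (nat_lit 6051973644) (nat_lit 228) (nat_lit 895995542) (nat_lit 304) (nat_lit 9108718483) (nat_lit 75) (nat_lit 5) (nat_lit 78) (nat_lit 5) (nat_lit 79) (nat_lit 5) (nat_lit 492) (nat_lit 380) (nat_lit 268)) (XT.nd (nat_lit 78) (nat_lit 304) (nat_lit 0) (XT.lf (nat_lit 0) (nat_lit 10971302567) (nat_lit 304) (nat_lit 1127273927) (nat_lit 76) (nat_lit 4169587776) (nat_lit 75) (nat_lit 5) (nat_lit 79) (nat_lit 5) (nat_lit 76) (nat_lit 5) (nat_lit 493) (nat_lit 380) (nat_lit 267)) (XT.lf (nat_lit 0) (nat_lit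 7995246044) (nat_lit 304) (nat_lit 7118651577) (nat_lit 380) (nat_lit 1369200512) (nat_lit 71) (nat_lit 5) (nat_lit 75) (nat_lit 5) (nat_lit 76) (nat_lit 5) (nat_lit 494) (nat_lit 380) (nat_lit 266)))))) (XT.nd (nat_lit 390) (nat_lit 532) (nat_lit 0) (XT.nd (nat_lit 156) (nat_lit 532) (nat_lit 0) (XT.nd (nat_lit 78) (nat_lit 0) (nat_lit 0) (XT.lf (nat_lit 0) (nat_lit 572206975) (nat_lit 228) (nat_lit 2022545170) (nat_lit 304) (nat_lit 14107393130) (nat_lit 67) (nat_lit 5) (nat_lit 70) (nat_lit 5) (nat_lit 71) (nat_lit 5) (nat_lit 495) (nat_lit 380) (nat_lit 265)) (XT.lf (nat_lit 0) (nat_lit 6678702572) (nat_lit 304) (nat_lit 7057510606) (nat_lit 76) (nat_lit 3188001549) (nat_lit 67) (nat_lit 5) (nat_lit 71) (nat_lit 5) (nat_lit 68) (nat_lit 5) (nat_lit 496) (nat_lit 380) (nat_lit 264))) (XT.nd (nat_lit 78) (nat_lit 304) (nat_lit 0) (XT.lf (nat_lit 0) (nat_lit 2180652731) (nat_lit 228) (nat_lit 8672685456) (nat_lit 304)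 (nat_lit 6297210611) (nat_lit 64) (nat_lit 5) (nat_lit 67) (nat_lit 5) (nat_lit 68) (nat_lit 5) (nat_lit 497) (nat_lit 380) (nat_lit 263)) (XT.nd (nat_lit 78) (nat_lit 304) (nat_lit 0) (XT.lf (nat_lit 0) (nat_lit 11668530931) (nat_lit 228) (nat_lit 3471913025) (nat_lit 304) (nat_lit 2240389335) (nat_lit 64) (nat_lit 5) (nat_lit 67) (nat_lit 5) (nat_lit 68) (nat_lit 5) (nat_lit 498) (nat_lit 380) (nat_lit 262)) (XT.lf (nat_lit 0) (nat_lit 1890861980) (nat_lit 304) (nat_lit 13890646527) (nat_lit 76) (nat_lit 1833608109) (nat_lit 60) (nat_lit 5) (nat_lit 64) (nat_lit 5) (nat_lit 61) (nat_lit 5) (nat_lit 499) (nat_lit 380) (nat_lit 261))))) (XT.nd (nat_lit 234) (nat_lit 304) (nat_lit 0) (XT.nd (nat_lit 78) (nat_lit 228) (nat_lit 0) (XT.lf (nat_lit 0) (nat_lit 6118283437) (nat_lit 304) (nat_lit 4494433770) (nat_lit 76) (nat_lit 7240204442) (nat_lit 60) (nat_lit 5) (nat_lit 64) (nat_lit 5) (nat_lit 61) (nat_lit 5) (nat_lit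 500) (nat_lit 380) (nat_lit 260)) (XT.nd (nat_lit 78) (nat_lit 0) (nat_lit 0) (XT.lf (nat_lit 0) (nat_lit 5127102099) (nat_lit 228) (nat_lit 5318730623) (nat_lit 304) (nat_lit 7649341510) (nat_lit 57) (nat_lit 5) (nat_lit 60) (nat_lit 5) (nat_lit 61) (nat_lit 5) (nat_lit 501) (nat_lit 380) (nat_lit 259)) (XT.lf (nat_lit 0) (nat_lit 14873186615) (nat_lit 304) (nat_lit 3370326486) (nat_lit 76) (nat_lit 98496674) (nat_lit 57) (nat_lit 5) (nat_lit 61) (nat_lit 5) (nat_lit 58) (nat_lit 5) (nat_lit 502) (nat_lit 380) (nat_lit 258)))) (XT.nd (nat_lit 78) (nat_lit 0) (nat_lit 0) (XT.lf (nat_lit 0) (nat_lit 845011951) (nat_lit 304) (nat_lit 12158883008) (nat_lit 76) (nat_lit 5588583917) (nat_lit 53) (nat_lit 5) (nat_lit 57) (nat_lit 5) (nat_lit 54) (nat_lit 5) (nat_lit 503) (nat_lit 380) (nat_lit 257)) (XT.nd (nat_lit 49764) (nat_lit 0) (nat_lit 48032) (XT.lf (nat_lit 0) (nat_lit 5204232337) (nat_lit 304) (nat_lit 2420720394)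 (nat_lit 76) (nat_lit 11222437736) (nat_lit 53) (nat_lit 5) (nat_lit 57) (nat_lit 5) (nat_lit 54) (nat_lit 5) (nat_lit 504) (nat_lit 380) (nat_lit 256)) (XT.lf (nat_lit 0) (nat_lit 1526043101) (nat_lit 0) (nat_lit 1526043101) (nat_lit 76) (nat_lit 169995273) (nat_lit 685) (nat_lit 5) (nat_lit 685) (nat_lit 3) (nat_lit 686) (nat_lit 0) (nat_lit 381) (nat_lit 381) (nat_lit 378))))))))
noncomputable def xc97 : XT := (XT.nd (nat_lit 1638) (nat_lit 17632) (nat_lit 0) (XT.nd (nat_lit 780) (nat_lit 4180) (nat_lit 0) (XT.nd (nat_lit 390) (nat_lit 760) (nat_lit 0) (XT.nd (nat_lit 156) (nat_lit 532) (nat_lit 0) (XT.nd (nat_lit 78) (nat_lit 0) (nat_lit 0) (XT.lf (nat_lit 0) (nat_lit 2635821356) (nat_lit 228) (nat_lit 296814292) (nat_lit 228) (nat_lit 3514122754) (nat_lit 682) (nat_lit 3) (nat_lit 685) (nat_lit 3) (nat_lit 685) (nat_lit 5) (nat_lit 382) (nat_lit 381) (nat_lit 377)) (XT.lf (nat_lit 76) (nat_lit 2855729686) (nat_lit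 0) (nat_lit 2751385219) (nat_lit 228) (nat_lit 843498420) (nat_lit 683) (nat_lit 5) (nat_lit 682) (nat_lit 3) (nat_lit 685) (nat_lit 5) (nat_lit 383) (nat_lit 381) (nat_lit 376))) (XT.nd (nat_lit 78) (nat_lit 304) (nat_lit 0) (XT.lf (nat_lit 0) (nat_lit 2079336007) (nat_lit 228) (nat_lit 433997666) (nat_lit 304) (nat_lit 3942494963) (nat_lit 679) (nat_lit 5) (nat_lit 682) (nat_lit 3) (nat_lit 683) (nat_lit 5) (nat_lit 384) (nat_lit 381) (nat_lit 375)) (XT.nd (nat_lit 78) (nat_lit 304) (nat_lit 0) (XT.lf (nat_lit 76) (nat_lit 2781140648) (nat_lit 0) (nat_lit 2210452034) (nat_lit 304) (nat_lit 1470658097) (nat_lit 680) (nat_lit 5) (nat_lit 679) (nat_lit 5) (nat_lit 683) (nat_lit 5) (nat_lit 385) (nat_lit 381) (nat_lit 374)) (XT.lf (nat_lit 0) (nat_lit 1401510546) (nat_lit 304) (nat_lit 452640798) (nat_lit 380) (nat_lit 4615957006) (nat_lit 675) (nat_lit 5) (nat_lit 679) (nat_lit 5) (nat_lit 680) (nat_lit 5) (nat_lit 386)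 (nat_lit 381) (nat_lit 373))))) (XT.nd (nat_lit 156) (nat_lit 380) (nat_lit 0) (XT.nd (nat_lit 78) (nat_lit 380) (nat_lit 0) (XT.lf (nat_lit 76) (nat_lit 2827896219) (nat_lit 0) (nat_lit 1428256932) (nat_lit 380) (nat_lit 2222936868) (nat_lit 676) (nat_lit 5) (nat_lit 675) (nat_lit 5) (nat_lit 680) (nat_lit 5) (nat_lit 387) (nat_lit 381) (nat_lit 372)) (XT.lf (nat_lit 0) (nat_lit 600778280) (nat_lit 380) (nat_lit 353055963) (nat_lit 456) (nat_lit 5535781387) (nat_lit 670) (nat_lit 5) (nat_lit 675) (nat_lit 5) (nat_lit 676) (nat_lit 5) (nat_lit 388) (nat_lit 381) (nat_lit 371))) (XT.nd (nat_lit 78) (nat_lit 380) (nat_lit 0) (XT.lf (nat_lit 76) (nat_lit 2995797677) (nat_lit 0) (nat_lit 403311876) (nat_lit 456) (nat_lit 3102042791) (nat_lit 671) (nat_lit 5) (nat_lit 670) (nat_lit 5) (nat_lit 676) (nat_lit 5) (nat_lit 389) (nat_lit 381) (nat_lit 370)) (XT.nd (nat_lit 78) (nat_lit 456) (nat_lit 0) (XT.lf (nat_lit 0) (nat_lit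 6186595015) (nat_lit 380) (nat_lit 138715720) (nat_lit 76) (nat_lit 188996877) (nat_lit 671) (nat_lit 5) (nat_lit 676) (nat_lit 5) (nat_lit 672) (nat_lit 5) (nat_lit 390) (nat_lit 381) (nat_lit 369)) (XT.lf (nat_lit 0) (nat_lit 2424161406) (nat_lit 456) (nat_lit 3249222153) (nat_lit 76) (nat_lit 854969631) (nat_lit 665) (nat_lit 5) (nat_lit 671) (nat_lit 5) (nat_lit 666) (nat_lit 5) (nat_lit 391) (nat_lit 381) (nat_lit 368)))))) (XT.nd (nat_lit 390) (nat_lit 2432) (nat_lit 0) (XT.nd (nat_lit 156) (nat_lit 1216) (nat_lit 0) (XT.nd (nat_lit 78) (nat_lit 76) (nat_lit 0) (XT.lf (nat_lit 0) (nat_lit 183690455) (nat_lit 456) (nat_lit 4976872170) (nat_lit 532) (nat_lit 1383444771) (nat_lit 659) (nat_lit 5) (nat_lit 665) (nat_lit 5) (nat_lit 666) (nat_lit 5) (nat_lit 392) (nat_lit 381) (nat_lit 367)) (XT.lf (nat_lit 0) (nat_lit 1327738341) (nat_lit 532) (nat_lit 2881185500) (nat_lit 76) (nat_lit 2351831360) (nat_lit 658) (nat_lit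 5) (nat_lit 665) (nat_lit 5) (nat_lit 659) (nat_lit 5) (nat_lit 393) (nat_lit 381) (nat_lit 366))) (XT.nd (nat_lit 78) (nat_lit 684) (nat_lit 0) (XT.lf (nat_lit 0) (nat_lit 625618922) (nat_lit 532) (nat_lit 3386733462) (nat_lit 608) (nat_lit 2566593846) (nat_lit 651) (nat_lit 5) (nat_lit 658) (nat_lit 5) (nat_lit 659) (nat_lit 5) (nat_lit 394) (nat_lit 381) (nat_lit 365)) (XT.nd (nat_lit 78) (nat_lit 608) (nat_lit 0) (XT.lf (nat_lit 0) (nat_lit 104823557) (nat_lit 608) (nat_lit 2398223915) (nat_lit 76) (nat_lit 4095404243) (nat_lit 650) (nat_lit 5) (nat_lit 658) (nat_lit 5) (nat_lit 651) (nat_lit 5) (nat_lit 395) (nat_lit 381) (nat_lit 364)) (XT.lf (nat_lit 0) (nat_lit 1185749536) (nat_lit 608) (nat_lit 1552786140) (nat_lit 684) (nat_lit 3880650820) (nat_lit 642) (nat_lit 5) (nat_lit 650) (nat_lit 5) (nat_lit 651) (nat_lit 5) (nat_lit 396) (nat_lit 381) (nat_lit 363))))) (XT.nd (nat_lit 234) (nat_lit 1672) (nat_lit 0)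 (XT.nd (nat_lit 78) (nat_lit 760) (nat_lit 0) (XT.lf (nat_lit 0) (nat_lit 4833393326) (nat_lit 608) (nat_lit 544125914) (nat_lit 684) (nat_lit 1263807095) (nat_lit 642) (nat_lit 5) (nat_lit 650) (nat_lit 5) (nat_lit 651) (nat_lit 5) (nat_lit 397) (nat_lit 381) (nat_lit 362)) (XT.nd (nat_lit 78) (nat_lit 0) (nat_lit 0) (XT.lf (nat_lit 0) (nat_lit 1339776278) (nat_lit 760) (nat_lit 4803393648) (nat_lit 76) (nat_lit 521540524) (nat_lit 632) (nat_lit 5) (nat_lit 642) (nat_lit 5) (nat_lit 633) (nat_lit 5) (nat_lit 398) (nat_lit 381) (nat_lit 361)) (XT.lf (nat_lit 0) (nat_lit 3932743092) (nat_lit 760) (nat_lit 1113658088) (nat_lit 76) (nat_lit 1642949176) (nat_lit 632) (nat_lit 5) (nat_lit 642) (nat_lit 5) (nat_lit 633) (nat_lit 5) (nat_lit 399) (nat_lit 381) (nat_lit 360)))) (XT.nd (nat_lit 78) (nat_lit 912) (nat_lit 0) (XT.lf (nat_lit 0) (nat_lit 2643618527) (nat_lit 760) (nat_lit 3890724956) (nat_lit 836) (nat_lit 181043175)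 (nat_lit 622) (nat_lit 5) (nat_lit 632) (nat_lit 5) (nat_lit 633) (nat_lit 5) (nat_lit 400) (nat_lit 381) (nat_lit 359)) (XT.nd (nat_lit 78) (nat_lit 836) (nat_lit 0) (XT.lf (nat_lit 0) (nat_lit 2361573380) (nat_lit 836) (nat_lit 308077940) (nat_lit 76) (nat_lit 4073059881) (nat_lit 621) (nat_lit 5) (nat_lit 632) (nat_lit 5) (nat_lit 622) (nat_lit 5) (nat_lit 401) (nat_lit 381) (nat_lit 358)) (XT.lf (nat_lit 0) (nat_lit 3535378168) (nat_lit 836) (nat_lit 1381469366) (nat_lit 912) (nat_lit 1854463006) (nat_lit 610) (nat_lit 5) (nat_lit 621) (nat_lit 5) (nat_lit 622) (nat_lit 5) (nat_lit 402) (nat_lit 381) (nat_lit 357))))))) (XT.nd (nat_lit 858) (nat_lit 10716) (nat_lit 0) (XT.nd (nat_lit 390) (nat_lit 3800) (nat_lit 0) (XT.nd (nat_lit 156) (nat_lit 2128) (nat_lit 0) (XT.nd (nat_lit 78) (nat_lit 0) (nat_lit 0) (XT.lf (nat_lit 0) (nat_lit 621667973) (nat_lit 912) (nat_lit 39459366) (nat_lit 988) (nat_lit 6140338856) (nat_lit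 597) (nat_lit 5) (nat_lit 609) (nat_lit 5) (nat_lit 610) (nat_lit 5) (nat_lit 403) (nat_lit 381) (nat_lit 356)) (XT.lf (nat_lit 0) (nat_lit 3175438104) (nat_lit 988) (nat_lit 2294798596) (nat_lit 76) (nat_lit 1362313012) (nat_lit 597) (nat_lit 5) (nat_lit 610) (nat_lit 5) (nat_lit 598) (nat_lit 5) (nat_lit 404) (nat_lit 381) (nat_lit 355))) (XT.nd (nat_lit 78) (nat_lit 1140) (nat_lit 0) (XT.lf (nat_lit 0) (nat_lit 1647843760) (nat_lit 988) (nat_lit 4047001298) (nat_lit 1064) (nat_lit 1170347667) (nat_lit 584) (nat_lit 5) (nat_lit 597) (nat_lit 5) (nat_lit 598) (nat_lit 5) (nat_lit 405) (nat_lit 381) (nat_lit 354)) (XT.nd (nat_lit 78) (nat_lit 1064) (nat_lit 0) (XT.lf (nat_lit 0) (nat_lit 1308019933) (nat_lit 1064) (nat_lit 1248615417) (nat_lit 76) (nat_lit 4342512838) (nat_lit 583) (nat_lit 5) (nat_lit 597) (nat_lit 5) (nat_lit 584) (nat_lit 5) (nat_lit 406) (nat_lit 381) (nat_lit 353)) (XT.lf (nat_lit 0) (nat_lit 2787210228)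 (nat_lit 1064) (nat_lit 996561645) (nat_lit 1140) (nat_lit 3150618470) (nat_lit 569) (nat_lit 5) (nat_lit 583) (nat_lit 5) (nat_lit 584) (nat_lit 5) (nat_lit 407) (nat_lit 381) (nat_lit 352))))) (XT.nd (nat_lit 234) (nat_lit 1368) (nat_lit 0) (XT.nd (nat_lit 78) (nat_lit 2432) (nat_lit 0) (XT.lf (nat_lit 0) (nat_lit 6267601803) (nat_lit 1140) (nat_lit 95417401) (nat_lit 76) (nat_lit 608178312) (nat_lit 569) (nat_lit 5) (nat_lit 584) (nat_lit 5) (nat_lit 570) (nat_lit 5) (nat_lit 408) (nat_lit 381) (nat_lit 351)) (XT.nd (nat_lit 78) (nat_lit 1216) (nat_lit 0) (XT.lf (nat_lit 0) (nat_lit 1748866514) (nat_lit 1216) (nat_lit 2978058410) (nat_lit 76) (nat_lit 2282013252) (nat_lit 553) (nat_lit 5) (nat_lit 569) (nat_lit 5) (nat_lit 554) (nat_lit 5) (nat_lit 409) (nat_lit 381) (nat_lit 350)) (XT.lf (nat_lit 0) (nat_lit 1162519901) (nat_lit 1216) (nat_lit 3034352720) (nat_lit 1292) (nat_lit 2851379318) (nat_lit 537) (nat_lit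 5) (nat_lit 553) (nat_lit 5) (nat_lit 554) (nat_lit 5) (nat_lit 410) (nat_lit 381) (nat_lit 349)))) (XT.nd (nat_lit 78) (nat_lit 1368) (nat_lit 0) (XT.lf (nat_lit 0) (nat_lit 5384913698) (nat_lit 1216) (nat_lit 1277380713) (nat_lit 1292) (nat_lit 426717495) (nat_lit 537) (nat_lit 5) (nat_lit 553) (nat_lit 5) (nat_lit 554) (nat_lit 5) (nat_lit 411) (nat_lit 381) (nat_lit 348)) (XT.nd (nat_lit 78) (nat_lit 0) (nat_lit 0) (XT.lf (nat_lit 0) (nat_lit 1988809706) (nat_lit 1368) (nat_lit 4594703006) (nat_lit 76) (nat_lit 547452305) (nat_lit 519) (nat_lit 5) (nat_lit 537) (nat_lit 5) (nat_lit 520) (nat_lit 5) (nat_lit 412) (nat_lit 381) (nat_lit 347)) (XT.lf (nat_lit 0) (nat_lit 4416819637) (nat_lit 1368) (nat_lit 342436588) (nat_lit 76) (nat_lit 2415074200) (nat_lit 519) (nat_lit 5) (nat_lit 537) (nat_lit 5) (nat_lit 520) (nat_lit 5) (nat_lit 413) (nat_lit 381) (nat_lit 346)))))) (XT.nd (nat_lit 390) (nat_lit 6232) (nat_lit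 0) (XT.nd (nat_lit 156) (nat_lit 1596) (nat_lit 0) (XT.nd (nat_lit 78) (nat_lit 1520) (nat_lit 0) (XT.lf (nat_lit 0) (nat_lit 4006165867) (nat_lit 1368) (nat_lit 2864126729) (nat_lit 1444) (nat_lit 348759316) (nat_lit 501) (nat_lit 5) (nat_lit 519) (nat_lit 5) (nat_lit 520) (nat_lit 5) (nat_lit 414) (nat_lit 381) (nat_lit 345)) (XT.lf (nat_lit 0) (nat_lit 1141373563) (nat_lit 1444) (nat_lit 900110751) (nat_lit 1520) (nat_lit 5223716228) (nat_lit 481) (nat_lit 5) (nat_lit 500) (nat_lit 5) (nat_lit 501) (nat_lit 5) (nat_lit 415) (nat_lit 381) (nat_lit 344))) (XT.nd (nat_lit 78) (nat_lit 1596) (nat_lit 0) (XT.lf (nat_lit 0) (nat_lit 4455706076) (nat_lit 1520) (nat_lit 1737595450) (nat_lit 76) (nat_lit 1119332928) (nat_lit 481) (nat_lit 5) (nat_lit 501) (nat_lit 5) (nat_lit 482) (nat_lit 5) (nat_lit 416) (nat_lit 381) (nat_lit 343)) (XT.nd (nat_lit 78) (nat_lit 76) (nat_lit 0) (XT.lf (nat_lit 0) (nat_lit 2724554962) (nat_lit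 1520) (nat_lit 4170222859) (nat_lit 1596) (nat_lit 466732699) (nat_lit 461) (nat_lit 5) (nat_lit 481) (nat_lit 5) (nat_lit 482) (nat_lit 5) (nat_lit 417) (nat_lit 381) (nat_lit 342)) (XT.lf (nat_lit 0) (nat_lit 1910389303) (nat_lit 1596) (nat_lit 166454444) (nat_lit 76) (nat_lit 5334988689) (nat_lit 460) (nat_lit 5) (nat_lit 481) (nat_lit 5) (nat_lit 461) (nat_lit 5) (nat_lit 418) (nat_lit 381) (nat_lit 341))))) (XT.nd (nat_lit 234) (nat_lit 2888) (nat_lit 0) (XT.nd (nat_lit 78) (nat_lit 1748) (nat_lit 0) (XT.lf (nat_lit 0) (nat_lit 4312198654) (nat_lit 1672) (nat_lit 3057048849) (nat_lit 76) (nat_lit 94207051) (nat_lit 439) (nat_lit 5) (nat_lit 461) (nat_lit 5) (nat_lit 440) (nat_lit 5) (nat_lit 419) (nat_lit 381) (nat_lit 340)) (XT.nd (nat_lit 78) (nat_lit 76) (nat_lit 0) (XT.lf (nat_lit 0) (nat_lit 1521271259) (nat_lit 1672) (nat_lit 5220345701) (nat_lit 1748) (nat_lit 774923596) (nat_lit 417) (nat_lit 5) (nat_lit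 439) (nat_lit 5) (nat_lit 440) (nat_lit 5) (nat_lit 420) (nat_lit 381) (nat_lit 339)) (XT.lf (nat_lit 0) (nat_lit 1603075828) (nat_lit 1748) (nat_lit 1390678144) (nat_lit 76) (nat_lit 4577226866) (nat_lit 416) (nat_lit 5) (nat_lit 439) (nat_lit 5) (nat_lit 417) (nat_lit 5) (nat_lit 421) (nat_lit 381) (nat_lit 338)))) (XT.nd (nat_lit 78) (nat_lit 1140) (nat_lit 0) (XT.lf (nat_lit 0) (nat_lit 3302861902) (nat_lit 1748) (nat_lit 692847549) (nat_lit 1824) (nat_lit 3631170596) (nat_lit 393) (nat_lit 5) (nat_lit 416) (nat_lit 5) (nat_lit 417) (nat_lit 5) (nat_lit 422) (nat_lit 381) (nat_lit 337)) (XT.nd (nat_lit 78) (nat_lit 76) (nat_lit 0) (XT.lf (nat_lit 0) (nat_lit 377603046) (nat_lit 1064) (nat_lit 6037785580) (nat_lit 1140) (nat_lit 1268945912) (nat_lit 379) (nat_lit 5) (nat_lit 393) (nat_lit 5) (nat_lit 394) (nat_lit 5) (nat_lit 423) (nat_lit 381) (nat_lit 336)) (XT.lf (nat_lit 0) (nat_lit 1116246157) (nat_lit 1140)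 (nat_lit 2564952052) (nat_lit 76) (nat_lit 4061798520) (nat_lit 378) (nat_lit 5) (nat_lit 393) (nat_lit 5) (nat_lit 379) (nat_lit 5) (nat_lit 424) (nat_lit 381) (nat_lit 335))))))))
noncomputable def xc98 : XT := (XT.nd (nat_lit 1638) (nat_lit 6992) (nat_lit 0) (XT.nd (nat_lit 780) (nat_lit 5016) (nat_lit 0) (XT.nd (nat_lit 390) (nat_lit 2584) (nat_lit 0) (XT.nd (nat_lit 156) (nat_lit 1748) (nat_lit 0) (XT.nd (nat_lit 78) (nat_lit 0) (nat_lit 0) (XT.lf (nat_lit 0) (nat_lit 2251336499) (nat_lit 912) (nat_lit 1253176913) (nat_lit 988) (nat_lit 4298723680) (nat_lit 366) (nat_lit 5) (nat_lit 378) (nat_lit 5) (nat_lit 379) (nat_lit 5) (nat_lit 425) (nat_lit 381) (nat_lit 334)) (XT.lf (nat_lit 0) (nat_lit 5924109754) (nat_lit 988) (nat_lit 715709773) (nat_lit 76) (nat_lit 1225211004) (nat_lit 366) (nat_lit 5) (nat_lit 379) (nat_lit 5) (nat_lit 367) (nat_lit 5) (nat_lit 426) (nat_lit 381) (nat_lit 333))) (XT.nd (nat_lit 78)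 (nat_lit 836) (nat_lit 0) (XT.lf (nat_lit 0) (nat_lit 452729505) (nat_lit 912) (nat_lit 3708078546) (nat_lit 76) (nat_lit 3767314770) (nat_lit 354) (nat_lit 5) (nat_lit 366) (nat_lit 5) (nat_lit 355) (nat_lit 5) (nat_lit 427) (nat_lit 381) (nat_lit 332)) (XT.nd (nat_lit 78) (nat_lit 0) (nat_lit 0) (XT.lf (nat_lit 0) (nat_lit 1233630653) (nat_lit 836) (nat_lit 1606863976) (nat_lit 912) (nat_lit 5152299537) (nat_lit 343) (nat_lit 5) (nat_lit 354) (nat_lit 5) (nat_lit 355) (nat_lit 5) (nat_lit 428) (nat_lit 381) (nat_lit 331)) (XT.lf (nat_lit 0) (nat_lit 5267427961) (nat_lit 912) (nat_lit 1782505917) (nat_lit 76) (nat_lit 1009014857) (nat_lit 343) (nat_lit 5) (nat_lit 355) (nat_lit 5) (nat_lit 344) (nat_lit 5) (nat_lit 429) (nat_lit 381) (nat_lit 330))))) (XT.nd (nat_lit 156) (nat_lit 836) (nat_lit 0) (XT.nd (nat_lit 78) (nat_lit 912) (nat_lit 0) (XT.lf (nat_lit 0) (nat_lit 3284912666) (nat_lit 836) (nat_lit 4450627437)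 (nat_lit 912) (nat_lit 391051191) (nat_lit 332) (nat_lit 5) (nat_lit 343) (nat_lit 5) (nat_lit 344) (nat_lit 5) (nat_lit 430) (nat_lit 381) (nat_lit 329)) (XT.lf (nat_lit 0) (nat_lit 230603113) (nat_lit 836) (nat_lit 1774281062) (nat_lit 912) (nat_lit 6190963580) (nat_lit 320) (nat_lit 5) (nat_lit 331) (nat_lit 5) (nat_lit 332) (nat_lit 5) (nat_lit 431) (nat_lit 381) (nat_lit 328))) (XT.nd (nat_lit 78) (nat_lit 836) (nat_lit 0) (XT.lf (nat_lit 0) (nat_lit 4443800790) (nat_lit 912) (nat_lit 2846865292) (nat_lit 76) (nat_lit 975782270) (nat_lit 320) (nat_lit 5) (nat_lit 332) (nat_lit 5) (nat_lit 321) (nat_lit 5) (nat_lit 432) (nat_lit 381) (nat_lit 327)) (XT.nd (nat_lit 78) (nat_lit 76) (nat_lit 0) (XT.lf (nat_lit 0) (nat_lit 2351821865) (nat_lit 760) (nat_lit 4568834943) (nat_lit 836) (nat_lit 1418037287) (nat_lit 310) (nat_lit 5) (nat_lit 320) (nat_lit 5) (nat_lit 321) (nat_lit 5) (nat_lit 433) (nat_lit 381) (nat_lit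 326)) (XT.lf (nat_lit 0) (nat_lit 1002680634) (nat_lit 836) (nat_lit 767173538) (nat_lit 76) (nat_lit 6642780237) (nat_lit 309) (nat_lit 5) (nat_lit 320) (nat_lit 5) (nat_lit 310) (nat_lit 5) (nat_lit 434) (nat_lit 381) (nat_lit 325)))))) (XT.nd (nat_lit 390) (nat_lit 2052) (nat_lit 0) (XT.nd (nat_lit 156) (nat_lit 1520) (nat_lit 0) (XT.nd (nat_lit 78) (nat_lit 684) (nat_lit 0) (XT.lf (nat_lit 0) (nat_lit 3452866879) (nat_lit 836) (nat_lit 3928470751) (nat_lit 76) (nat_lit 1106543015) (nat_lit 299) (nat_lit 5) (nat_lit 310) (nat_lit 5) (nat_lit 300) (nat_lit 5) (nat_lit 435) (nat_lit 381) (nat_lit 324)) (XT.lf (nat_lit 0) (nat_lit 1404014853) (nat_lit 684) (nat_lit 4537590551) (nat_lit 760) (nat_lit 2623250538) (nat_lit 290) (nat_lit 5) (nat_lit 299) (nat_lit 5) (nat_lit 300) (nat_lit 5) (nat_lit 436) (nat_lit 381) (nat_lit 323))) (XT.nd (nat_lit 78) (nat_lit 1520) (nat_lit 0) (XT.lf (nat_lit 0) (nat_lit 6855632157)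 (nat_lit 684) (nat_lit 1614828691) (nat_lit 760) (nat_lit 173117865) (nat_lit 290) (nat_lit 5) (nat_lit 299) (nat_lit 5) (nat_lit 300) (nat_lit 5) (nat_lit 437) (nat_lit 381) (nat_lit 322)) (XT.nd (nat_lit 78) (nat_lit 684) (nat_lit 0) (XT.lf (nat_lit 0) (nat_lit 2292974255) (nat_lit 836) (nat_lit 5047740327) (nat_lit 76) (nat_lit 1382924294) (nat_lit 279) (nat_lit 5) (nat_lit 290) (nat_lit 5) (nat_lit 280) (nat_lit 5) (nat_lit 438) (nat_lit 381) (nat_lit 321)) (XT.lf (nat_lit 0) (nat_lit 420922353) (nat_lit 684) (nat_lit 4375496219) (nat_lit 760) (nat_lit 4009065771) (nat_lit 270) (nat_lit 5) (nat_lit 279) (nat_lit 5) (nat_lit 280) (nat_lit 5) (nat_lit 439) (nat_lit 381) (nat_lit 320))))) (XT.nd (nat_lit 234) (nat_lit 1292) (nat_lit 0) (XT.nd (nat_lit 78) (nat_lit 760) (nat_lit 0) (XT.lf (nat_lit 0) (nat_lit 6026776329) (nat_lit 684) (nat_lit 1322295767) (nat_lit 760) (nat_lit 1539925503) (nat_lit 270) (nat_lit 5) (nat_lit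 279) (nat_lit 5) (nat_lit 280) (nat_lit 5) (nat_lit 440) (nat_lit 381) (nat_lit 319)) (XT.nd (nat_lit 78) (nat_lit 0) (nat_lit 0) (XT.lf (nat_lit 0) (nat_lit 961149849) (nat_lit 760) (nat_lit 6226016984) (nat_lit 76) (nat_lit 1786992627) (nat_lit 260) (nat_lit 5) (nat_lit 270) (nat_lit 5) (nat_lit 261) (nat_lit 5) (nat_lit 441) (nat_lit 381) (nat_lit 318)) (XT.lf (nat_lit 0) (nat_lit 3485819862) (nat_lit 760) (nat_lit 610874769) (nat_lit 76) (nat_lit 4964255389) (nat_lit 260) (nat_lit 5) (nat_lit 270) (nat_lit 5) (nat_lit 261) (nat_lit 5) (nat_lit 442) (nat_lit 381) (nat_lit 317)))) (XT.nd (nat_lit 78) (nat_lit 684) (nat_lit 0) (XT.lf (nat_lit 0) (nat_lit 5144170634) (nat_lit 608) (nat_lit 916959406) (nat_lit 684) (nat_lit 3088356058) (nat_lit 252) (nat_lit 5) (nat_lit 260) (nat_lit 5) (nat_lit 261) (nat_lit 5) (nat_lit 443) (nat_lit 381) (nat_lit 316)) (XT.nd (nat_lit 78) (nat_lit 76) (nat_lit 0) (XT.lf (nat_lit 0)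 (nat_lit 1750483170) (nat_lit 608) (nat_lit 6935157800) (nat_lit 684) (nat_lit 554210430) (nat_lit 244) (nat_lit 5) (nat_lit 252) (nat_lit 5) (nat_lit 253) (nat_lit 5) (nat_lit 444) (nat_lit 381) (nat_lit 315)) (XT.lf (nat_lit 0) (nat_lit 2004371332) (nat_lit 684) (nat_lit 1715642491) (nat_lit 76) (nat_lit 5611750710) (nat_lit 243) (nat_lit 5) (nat_lit 252) (nat_lit 5) (nat_lit 244) (nat_lit 5) (nat_lit 445) (nat_lit 381) (nat_lit 314))))))) (XT.nd (nat_lit 780) (nat_lit 2964) (nat_lit 0) (XT.nd (nat_lit 390) (nat_lit 2204) (nat_lit 0) (XT.nd (nat_lit 156) (nat_lit 608) (nat_lit 0) (XT.nd (nat_lit 78) (nat_lit 608) (nat_lit 0) (XT.lf (nat_lit 0) (nat_lit 4185156746) (nat_lit 608) (nat_lit 416625670) (nat_lit 684) (nat_lit 4823770354) (nat_lit 235) (nat_lit 5) (nat_lit 243) (nat_lit 5) (nat_lit 244) (nat_lit 5) (nat_lit 446) (nat_lit 381) (nat_lit 313)) (XT.lf (nat_lit 0) (nat_lit 655636636) (nat_lit 608) (nat_lit 6598745908)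 (nat_lit 684) (nat_lit 2266780862) (nat_lit 227) (nat_lit 5) (nat_lit 235) (nat_lit 5) (nat_lit 236) (nat_lit 5) (nat_lit 447) (nat_lit 381) (nat_lit 312))) (XT.nd (nat_lit 78) (nat_lit 532) (nat_lit 0) (XT.lf (nat_lit 0) (nat_lit 343398801) (nat_lit 684) (nat_lit 2922690407) (nat_lit 76) (nat_lit 6352433180) (nat_lit 226) (nat_lit 5) (nat_lit 235) (nat_lit 5) (nat_lit 227) (nat_lit 5) (nat_lit 448) (nat_lit 381) (nat_lit 311)) (XT.nd (nat_lit 78) (nat_lit 0) (nat_lit 0) (XT.lf (nat_lit 0) (nat_lit 2965786335) (nat_lit 608) (nat_lit 6593151193) (nat_lit 76) (nat_lit 158795014) (nat_lit 219) (nat_lit 5) (nat_lit 227) (nat_lit 5) (nat_lit 220) (nat_lit 5) (nat_lit 449) (nat_lit 381) (nat_lit 310)) (XT.lf (nat_lit 0) (nat_lit 5651283287) (nat_lit 608) (nat_lit 547525459) (nat_lit 76) (nat_lit 3619915496) (nat_lit 219) (nat_lit 5) (nat_lit 227) (nat_lit 5) (nat_lit 220) (nat_lit 5) (nat_lit 450) (nat_lit 381) (nat_lit 309)))))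 (XT.nd (nat_lit 156) (nat_lit 988) (nat_lit 0) (XT.nd (nat_lit 78) (nat_lit 608) (nat_lit 0) (XT.lf (nat_lit 0) (nat_lit 5654299772) (nat_lit 608) (nat_lit 2742793303) (nat_lit 684) (nat_lit 1524521015) (nat_lit 211) (nat_lit 5) (nat_lit 219) (nat_lit 5) (nat_lit 220) (nat_lit 5) (nat_lit 451) (nat_lit 381) (nat_lit 308)) (XT.lf (nat_lit 0) (nat_lit 1147392534) (nat_lit 608) (nat_lit 8091986920) (nat_lit 76) (nat_lit 787210227) (nat_lit 203) (nat_lit 5) (nat_lit 211) (nat_lit 5) (nat_lit 204) (nat_lit 5) (nat_lit 452) (nat_lit 381) (nat_lit 307))) (XT.nd (nat_lit 78) (nat_lit 988) (nat_lit 0) (XT.lf (nat_lit 0) (nat_lit 3869640588) (nat_lit 608) (nat_lit 1882448690) (nat_lit 76) (nat_lit 4381037545) (nat_lit 203) (nat_lit 5) (nat_lit 211) (nat_lit 5) (nat_lit 204) (nat_lit 5) (nat_lit 453) (nat_lit 381) (nat_lit 306)) (XT.nd (nat_lit 78) (nat_lit 456) (nat_lit 0) (XT.lf (nat_lit 0) (nat_lit 4471384715) (nat_lit 532)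 (nat_lit 2174863148) (nat_lit 608) (nat_lit 3595558139) (nat_lit 196) (nat_lit 5) (nat_lit 203) (nat_lit 5) (nat_lit 204) (nat_lit 5) (nat_lit 454) (nat_lit 381) (nat_lit 305)) (XT.lf (nat_lit 0) (nat_lit 584611065) (nat_lit 456) (nat_lit 8891001160) (nat_lit 532) (nat_lit 877111434) (nat_lit 190) (nat_lit 5) (nat_lit 196) (nat_lit 5) (nat_lit 197) (nat_lit 5) (nat_lit 455) (nat_lit 381) (nat_lit 304)))))) (XT.nd (nat_lit 390) (nat_lit 1368) (nat_lit 0) (XT.nd (nat_lit 156) (nat_lit 988) (nat_lit 0) (XT.nd (nat_lit 78) (nat_lit 532) (nat_lit 0) (XT.lf (nat_lit 0) (nat_lit 1895484965) (nat_lit 532) (nat_lit 3386033608) (nat_lit 76) (nat_lit 5183611095) (nat_lit 189) (nat_lit 5) (nat_lit 196) (nat_lit 5) (nat_lit 190) (nat_lit 5) (nat_lit 456) (nat_lit 381) (nat_lit 303)) (XT.lf (nat_lit 0) (nat_lit 3120625089) (nat_lit 532) (nat_lit 1583260524) (nat_lit 608) (nat_lit 5875949145) (nat_lit 182) (nat_lit 5) (nat_lit 189)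 (nat_lit 5) (nat_lit 190) (nat_lit 5) (nat_lit 457) (nat_lit 381) (nat_lit 302))) (XT.nd (nat_lit 78) (nat_lit 988) (nat_lit 0) (XT.lf (nat_lit 0) (nat_lit 7577604587) (nat_lit 608) (nat_lit 945856939) (nat_lit 76) (nat_lit 2173198095) (nat_lit 182) (nat_lit 5) (nat_lit 190) (nat_lit 5) (nat_lit 183) (nat_lit 5) (nat_lit 458) (nat_lit 381) (nat_lit 301)) (XT.nd (nat_lit 78) (nat_lit 532) (nat_lit 0) (XT.lf (nat_lit 0) (nat_lit 5724681141) (nat_lit 456) (nat_lit 4804383698) (nat_lit 532) (nat_lit 286359309) (nat_lit 176) (nat_lit 5) (nat_lit 182) (nat_lit 5) (nat_lit 183) (nat_lit 5) (nat_lit 459) (nat_lit 381) (nat_lit 300)) (XT.lf (nat_lit 0) (nat_lit 1570874623) (nat_lit 456) (nat_lit 987285043) (nat_lit 532) (nat_lit 8378288311) (nat_lit 169) (nat_lit 5) (nat_lit 175) (nat_lit 5) (nat_lit 176) (nat_lit 5) (nat_lit 460) (nat_lit 381) (nat_lit 299))))) (XT.nd (nat_lit 234) (nat_lit 836) (nat_lit 0) (XT.nd (nat_lit 78)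 (nat_lit 532) (nat_lit 0) (XT.lf (nat_lit 0) (nat_lit 5481936908) (nat_lit 532) (nat_lit 2683499577) (nat_lit 76) (nat_lit 2893901912) (nat_lit 169) (nat_lit 5) (nat_lit 176) (nat_lit 5) (nat_lit 170) (nat_lit 5) (nat_lit 461) (nat_lit 381) (nat_lit 298)) (XT.nd (nat_lit 78) (nat_lit 76) (nat_lit 0) (XT.lf (nat_lit 0) (nat_lit 4142725492) (nat_lit 456) (nat_lit 4328372543) (nat_lit 532) (nat_lit 2713458283) (nat_lit 163) (nat_lit 5) (nat_lit 169) (nat_lit 5) (nat_lit 170) (nat_lit 5) (nat_lit 462) (nat_lit 381) (nat_lit 297)) (XT.lf (nat_lit 0) (nat_lit 196736817) (nat_lit 532) (nat_lit 208933986) (nat_lit 76) (nat_lit 10906754412) (nat_lit 162) (nat_lit 5) (nat_lit 169) (nat_lit 5) (nat_lit 163) (nat_lit 5) (nat_lit 463) (nat_lit 381) (nat_lit 296)))) (XT.nd (nat_lit 78) (nat_lit 380) (nat_lit 0) (XT.lf (nat_lit 0) (nat_lit 3170729696) (nat_lit 532) (nat_lit 4670715743) (nat_lit 76) (nat_lit 3600216196) (nat_lit 156)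 (nat_lit 5) (nat_lit 163) (nat_lit 5) (nat_lit 157) (nat_lit 5) (nat_lit 464) (nat_lit 381) (nat_lit 295)) (XT.nd (nat_lit 78) (nat_lit 0) (nat_lit 0) (XT.lf (nat_lit 0) (nat_lit 2310534539) (nat_lit 380) (nat_lit 3887058027) (nat_lit 456) (nat_lit 5376029675) (nat_lit 151) (nat_lit 5) (nat_lit 156) (nat_lit 5) (nat_lit 157) (nat_lit 5) (nat_lit 465) (nat_lit 381) (nat_lit 294)) (XT.lf (nat_lit 0) (nat_lit 9291978203) (nat_lit 456) (nat_lit 2251105022) (nat_lit 76) (nat_lit 165006243) (nat_lit 151) (nat_lit 5) (nat_lit 157) (nat_lit 5) (nat_lit 152) (nat_lit 5) (nat_lit 466) (nat_lit 381) (nat_lit 293))))))))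
noncomputable def xc99 : XT := (XT.nd (nat_lit 1638) (nat_lit 2508) (nat_lit 0) (XT.nd (nat_lit 780) (nat_lit 2432) (nat_lit 0) (XT.nd (nat_lit 390) (nat_lit 1140) (nat_lit 0) (XT.nd (nat_lit 156) (nat_lit 456) (nat_lit 0) (XT.nd (nat_lit 78) (nat_lit 380) (nat_lit 0) (XT.lf (nat_lit 0) (nat_lit 627868208) (nat_lit 532) (nat_lit 6945396418) (nat_lit 76) (nat_lit 4271254529) (nat_lit 144) (nat_lit 5) (nat_lit 151) (nat_lit 5) (nat_lit 145) (nat_lit 5) (nat_lit 467) (nat_lit 381) (nat_lit 292)) (XT.lf (nat_lit 0) (nat_lit 189431546) (nat_lit 380) (nat_lit 3502480279) (nat_lit 456) (nat_lit 8291622183) (nat_lit 139) (nat_lit 5) (nat_lit 144) (nat_lit 5) (nat_lit 145) (nat_lit 5) (nat_lit 468) (nat_lit 381) (nat_lit 291))) (XT.nd (nat_lit 78) (nat_lit 456) (nat_lit 0) (XT.lf (nat_lit 0) (nat_lit 6843619521) (nat_lit 456) (nat_lit 4604452963) (nat_lit 76) (nat_lit 676735585) (nat_lit 139) (nat_lit 5) (nat_lit 145) (nat_lit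 5) (nat_lit 140) (nat_lit 5) (nat_lit 469) (nat_lit 381) (nat_lit 290)) (XT.nd (nat_lit 78) (nat_lit 76) (nat_lit 0) (XT.lf (nat_lit 0) (nat_lit 2705362243) (nat_lit 380) (nat_lit 7369493556) (nat_lit 456) (nat_lit 2193728371) (nat_lit 134) (nat_lit 5) (nat_lit 139) (nat_lit 5) (nat_lit 140) (nat_lit 5) (nat_lit 470) (nat_lit 381) (nat_lit 289)) (XT.lf (nat_lit 0) (nat_lit 949865658) (nat_lit 456) (nat_lit 2233242462) (nat_lit 76) (nat_lit 9231871480) (nat_lit 133) (nat_lit 5) (nat_lit 139) (nat_lit 5) (nat_lit 134) (nat_lit 5) (nat_lit 471) (nat_lit 381) (nat_lit 288))))) (XT.nd (nat_lit 156) (nat_lit 380) (nat_lit 0) (XT.nd (nat_lit 78) (nat_lit 380) (nat_lit 0) (XT.lf (nat_lit 0) (nat_lit 4144744937) (nat_lit 456) (nat_lit 7308585313) (nat_lit 76) (nat_lit 1110333004) (nat_lit 128) (nat_lit 5) (nat_lit 134) (nat_lit 5) (nat_lit 129) (nat_lit 5) (nat_lit 472) (nat_lit 381) (nat_lit 287)) (XT.lf (nat_lit 0) (nat_lit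 153786872) (nat_lit 380) (nat_lit 7263348387) (nat_lit 456) (nat_lit 5297919012) (nat_lit 123) (nat_lit 5) (nat_lit 128) (nat_lit 5) (nat_lit 129) (nat_lit 5) (nat_lit 473) (nat_lit 381) (nat_lit 286))) (XT.nd (nat_lit 78) (nat_lit 380) (nat_lit 0) (XT.lf (nat_lit 0) (nat_lit 7829242910) (nat_lit 380) (nat_lit 2951457256) (nat_lit 456) (nat_lit 2088264243) (nat_lit 123) (nat_lit 5) (nat_lit 128) (nat_lit 5) (nat_lit 129) (nat_lit 5) (nat_lit 474) (nat_lit 381) (nat_lit 285)) (XT.nd (nat_lit 78) (nat_lit 0) (nat_lit 0) (XT.lf (nat_lit 0) (nat_lit 1173534202) (nat_lit 380) (nat_lit 10411284243) (nat_lit 76) (nat_lit 1440915972) (nat_lit 118) (nat_lit 5) (nat_lit 123) (nat_lit 5) (nat_lit 119) (nat_lit 5) (nat_lit 475) (nat_lit 381) (nat_lit 284)) (XT.lf (nat_lit 0) (nat_lit 4503354299) (nat_lit 380) (nat_lit 2763552244) (nat_lit 76) (nat_lit 5917847767) (nat_lit 118) (nat_lit 5) (nat_lit 123) (nat_lit 5) (nat_lit 119)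 (nat_lit 5) (nat_lit 476) (nat_lit 381) (nat_lit 283)))))) (XT.nd (nat_lit 390) (nat_lit 1368) (nat_lit 0) (XT.nd (nat_lit 156) (nat_lit 684) (nat_lit 0) (XT.nd (nat_lit 78) (nat_lit 0) (nat_lit 0) (XT.lf (nat_lit 0) (nat_lit 5069296355) (nat_lit 380) (nat_lit 2840968241) (nat_lit 456) (nat_lit 5436485522) (nat_lit 113) (nat_lit 5) (nat_lit 118) (nat_lit 5) (nat_lit 119) (nat_lit 5) (nat_lit 477) (nat_lit 381) (nat_lit 282)) (XT.lf (nat_lit 0) (nat_lit 11392567749) (nat_lit 456) (nat_lit 460809598) (nat_lit 76) (nat_lit 1658468693) (nat_lit 113) (nat_lit 5) (nat_lit 119) (nat_lit 5) (nat_lit 114) (nat_lit 5) (nat_lit 478) (nat_lit 381) (nat_lit 281))) (XT.nd (nat_lit 78) (nat_lit 304) (nat_lit 0) (XT.lf (nat_lit 0) (nat_lit 1294040546) (nat_lit 380) (nat_lit 6129147977) (nat_lit 76) (nat_lit 6255969297) (nat_lit 108) (nat_lit 5) (nat_lit 113) (nat_lit 5) (nat_lit 109) (nat_lit 5) (nat_lit 479) (nat_lit 381) (nat_lit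 280)) (XT.nd (nat_lit 78) (nat_lit 0) (nat_lit 0) (XT.lf (nat_lit 0) (nat_lit 1853932016) (nat_lit 304) (nat_lit 2886713254) (nat_lit 380) (nat_lit 9109027449) (nat_lit 104) (nat_lit 5) (nat_lit 108) (nat_lit 5) (nat_lit 109) (nat_lit 5) (nat_lit 480) (nat_lit 381) (nat_lit 279)) (XT.lf (nat_lit 0) (nat_lit 8287235362) (nat_lit 380) (nat_lit 3988592716) (nat_lit 76) (nat_lit 1747153659) (nat_lit 104) (nat_lit 5) (nat_lit 109) (nat_lit 5) (nat_lit 105) (nat_lit 5) (nat_lit 481) (nat_lit 381) (nat_lit 278))))) (XT.nd (nat_lit 234) (nat_lit 684) (nat_lit 0) (XT.nd (nat_lit 78) (nat_lit 380) (nat_lit 0) (XT.lf (nat_lit 0) (nat_lit 4181082841) (nat_lit 304) (nat_lit 7748713235) (nat_lit 380) (nat_lit 2269464872) (nat_lit 100) (nat_lit 5) (nat_lit 104) (nat_lit 5) (nat_lit 105) (nat_lit 5) (nat_lit 482) (nat_lit 381) (nat_lit 277)) (XT.nd (nat_lit 78) (nat_lit 304) (nat_lit 0) (XT.lf (nat_lit 0) (nat_lit 1255311849) (nat_lit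 380) (nat_lit 1852110335) (nat_lit 76) (nat_lit 11271368247) (nat_lit 99) (nat_lit 5) (nat_lit 104) (nat_lit 5) (nat_lit 100) (nat_lit 5) (nat_lit 483) (nat_lit 381) (nat_lit 276)) (XT.lf (nat_lit 0) (nat_lit 4852634630) (nat_lit 380) (nat_lit 8057098357) (nat_lit 76) (nat_lit 1651233233) (nat_lit 95) (nat_lit 5) (nat_lit 100) (nat_lit 5) (nat_lit 96) (nat_lit 5) (nat_lit 484) (nat_lit 381) (nat_lit 275)))) (XT.nd (nat_lit 78) (nat_lit 380) (nat_lit 0) (XT.lf (nat_lit 0) (nat_lit 255354442) (nat_lit 304) (nat_lit 8280662730) (nat_lit 380) (nat_lit 6210490513) (nat_lit 91) (nat_lit 5) (nat_lit 95) (nat_lit 5) (nat_lit 96) (nat_lit 5) (nat_lit 485) (nat_lit 381) (nat_lit 274)) (XT.nd (nat_lit 78) (nat_lit 380) (nat_lit 0) (XT.lf (nat_lit 0) (nat_lit 8810620793) (nat_lit 304) (nat_lit 3516072024) (nat_lit 380) (nat_lit 2608398992) (nat_lit 91) (nat_lit 5) (nat_lit 95) (nat_lit 5) (nat_lit 96) (nat_lit 5) (nat_lit 486) (nat_lit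 381) (nat_lit 273)) (XT.lf (nat_lit 0) (nat_lit 1055968803) (nat_lit 380) (nat_lit 12734358179) (nat_lit 76) (nat_lit 1336902180) (nat_lit 86) (nat_lit 5) (nat_lit 91) (nat_lit 5) (nat_lit 87) (nat_lit 5) (nat_lit 487) (nat_lit 381) (nat_lit 272))))))) (XT.nd (nat_lit 858) (nat_lit 836) (nat_lit 0) (XT.nd (nat_lit 390) (nat_lit 1064) (nat_lit 0) (XT.nd (nat_lit 156) (nat_lit 380) (nat_lit 0) (XT.nd (nat_lit 78) (nat_lit 228) (nat_lit 0) (XT.lf (nat_lit 0) (nat_lit 4803316950) (nat_lit 380) (nat_lit 4232037003) (nat_lit 76) (nat_lit 6286622178) (nat_lit 86) (nat_lit 5) (nat_lit 91) (nat_lit 5) (nat_lit 87) (nat_lit 5) (nat_lit 488) (nat_lit 381) (nat_lit 271)) (XT.lf (nat_lit 0) (nat_lit 4467156625) (nat_lit 228) (nat_lit 4167783654) (nat_lit 304) (nat_lit 6885495206) (nat_lit 83) (nat_lit 5) (nat_lit 86) (nat_lit 5) (nat_lit 87) (nat_lit 5) (nat_lit 489) (nat_lit 381) (nat_lit 270))) (XT.nd (nat_lit 78) (nat_lit 380)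 (nat_lit 0) (XT.lf (nat_lit 0) (nat_lit 12557386015) (nat_lit 304) (nat_lit 2361827271) (nat_lit 76) (nat_lit 803370869) (nat_lit 83) (nat_lit 5) (nat_lit 87) (nat_lit 5) (nat_lit 84) (nat_lit 5) (nat_lit 490) (nat_lit 381) (nat_lit 269)) (XT.nd (nat_lit 78) (nat_lit 0) (nat_lit 0) (XT.lf (nat_lit 0) (nat_lit 672392350) (nat_lit 380) (nat_lit 9401932722) (nat_lit 76) (nat_lit 5853349891) (nat_lit 78) (nat_lit 5) (nat_lit 83) (nat_lit 5) (nat_lit 79) (nat_lit 5) (nat_lit 491) (nat_lit 381) (nat_lit 268)) (XT.lf (nat_lit 0) (nat_lit 4541202323) (nat_lit 380) (nat_lit 565834620) (nat_lit 76) (nat_lit 11029478913) (nat_lit 78) (nat_lit 5) (nat_lit 83) (nat_lit 5) (nat_lit 79) (nat_lit 5) (nat_lit 492) (nat_lit 381) (nat_lit 267))))) (XT.nd (nat_lit 234) (nat_lit 456) (nat_lit 0) (XT.nd (nat_lit 78) (nat_lit 380) (nat_lit 0) (XT.lf (nat_lit 0) (nat_lit 8524017294) (nat_lit 304) (nat_lit 7820680668) (nat_lit 76) (nat_lit 4106661)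 (nat_lit 75) (nat_lit 5) (nat_lit 79) (nat_lit 5) (nat_lit 76) (nat_lit 5) (nat_lit 493) (nat_lit 381) (nat_lit 266)) (XT.nd (nat_lit 78) (nat_lit 76) (nat_lit 0) (XT.lf (nat_lit 0) (nat_lit 1197447979) (nat_lit 304) (nat_lit 11415783176) (nat_lit 380) (nat_lit 3951576717) (nat_lit 71) (nat_lit 5) (nat_lit 75) (nat_lit 5) (nat_lit 76) (nat_lit 5) (nat_lit 494) (nat_lit 381) (nat_lit 265)) (XT.lf (nat_lit 0) (nat_lit 33304364) (nat_lit 380) (nat_lit 6313299949) (nat_lit 76) (nat_lit 10437846523) (nat_lit 70) (nat_lit 5) (nat_lit 75) (nat_lit 5) (nat_lit 71) (nat_lit 5) (nat_lit 495) (nat_lit 381) (nat_lit 264)))) (XT.nd (nat_lit 78) (nat_lit 228) (nat_lit 0) (XT.lf (nat_lit 0) (nat_lit 2903529311) (nat_lit 228) (nat_lit 1142074604) (nat_lit 304) (nat_lit 12962351051) (nat_lit 67) (nat_lit 5) (nat_lit 70) (nat_lit 5) (nat_lit 71) (nat_lit 5) (nat_lit 496) (nat_lit 381) (nat_lit 263)) (XT.nd (nat_lit 78) (nat_lit 228) (nat_lit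 0) (XT.lf (nat_lit 0) (nat_lit 8189664820) (nat_lit 304) (nat_lit 4902452799) (nat_lit 76) (nat_lit 4142784540) (nat_lit 67) (nat_lit 5) (nat_lit 71) (nat_lit 5) (nat_lit 68) (nat_lit 5) (nat_lit 497) (nat_lit 381) (nat_lit 262)) (XT.lf (nat_lit 0) (nat_lit 4505367173) (nat_lit 228) (nat_lit 7930228786) (nat_lit 304) (nat_lit 5030415781) (nat_lit 64) (nat_lit 5) (nat_lit 67) (nat_lit 5) (nat_lit 68) (nat_lit 5) (nat_lit 498) (nat_lit 381) (nat_lit 261)))))) (XT.nd (nat_lit 390) (nat_lit 304) (nat_lit 0) (XT.nd (nat_lit 156) (nat_lit 228) (nat_lit 0) (XT.nd (nat_lit 78) (nat_lit 304) (nat_lit 0) (XT.lf (nat_lit 0) (nat_lit 14138275459) (nat_lit 228) (nat_lit 2643399932) (nat_lit 304) (nat_lit 919766688) (nat_lit 64) (nat_lit 5) (nat_lit 67) (nat_lit 5) (nat_lit 68) (nat_lit 5) (nat_lit 499) (nat_lit 381) (nat_lit 260)) (XT.lf (nat_lit 0) (nat_lit 3270190933) (nat_lit 304) (nat_lit 11907701967) (nat_lit 76) (nat_lit 2762465685)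 (nat_lit 60) (nat_lit 5) (nat_lit 64) (nat_lit 5) (nat_lit 61) (nat_lit 5) (nat_lit 500) (nat_lit 381) (nat_lit 259))) (XT.nd (nat_lit 78) (nat_lit 228) (nat_lit 0) (XT.lf (nat_lit 0) (nat_lit 7555856667) (nat_lit 304) (nat_lit 2367893533) (nat_lit 76) (nat_lit 8259700114) (nat_lit 60) (nat_lit 5) (nat_lit 64) (nat_lit 5) (nat_lit 61) (nat_lit 5) (nat_lit 501) (nat_lit 381) (nat_lit 258)) (XT.nd (nat_lit 78) (nat_lit 0) (nat_lit 0) (XT.lf (nat_lit 0) (nat_lit 7431491284) (nat_lit 228) (nat_lit 4526973123) (nat_lit 304) (nat_lit 6472317817) (nat_lit 57) (nat_lit 5) (nat_lit 60) (nat_lit 5) (nat_lit 61) (nat_lit 5) (nat_lit 502) (nat_lit 381) (nat_lit 257)) (XT.lf (nat_lit 0) (nat_lit 16454519268) (nat_lit 304) (nat_lit 1258996382) (nat_lit 76) (nat_lit 969440086) (nat_lit 57) (nat_lit 5) (nat_lit 61) (nat_lit 5) (nat_lit 58) (nat_lit 5) (nat_lit 503) (nat_lit 381) (nat_lit 256))))) (XT.nd (nat_lit 49998) (nat_lit 0) (nat_lit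 47272) (XT.nd (nat_lit 49842) (nat_lit 0) (nat_lit 47576) (XT.lf (nat_lit 0) (nat_lit 2143298558) (nat_lit 304) (nat_lit 10220420443) (nat_lit 76) (nat_lit 6574773291) (nat_lit 53) (nat_lit 5) (nat_lit 57) (nat_lit 5) (nat_lit 54) (nat_lit 5) (nat_lit 504) (nat_lit 381) (nat_lit 255)) (XT.nd (nat_lit 78) (nat_lit 228) (nat_lit 0) (XT.lf (nat_lit 0) (nat_lit 2784273332) (nat_lit 228) (nat_lit 220391678) (nat_lit 228) (nat_lit 220391678) (nat_lit 682) (nat_lit 3) (nat_lit 685) (nat_lit 3) (nat_lit 685) (nat_lit 5) (nat_lit 382) (nat_lit 382) (nat_lit 376)) (XT.lf (nat_lit 0) (nat_lit 2019282822) (nat_lit 228) (nat_lit 3777801015) (nat_lit 304) (nat_lit 657428168) (nat_lit 679) (nat_lit 5) (nat_lit 682) (nat_lit 3) (nat_lit 683) (nat_lit 5) (nat_lit 383) (nat_lit 382) (nat_lit 375)))) (XT.nd (nat_lit 78) (nat_lit 304) (nat_lit 0) (XT.lf (nat_lit 0) (nat_lit 4893526119) (nat_lit 228) (nat_lit 642121522) (nat_lit 304) (nat_lit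 924750040) (nat_lit 679) (nat_lit 5) (nat_lit 682) (nat_lit 3) (nat_lit 683) (nat_lit 5) (nat_lit 384) (nat_lit 382) (nat_lit 374)) (XT.nd (nat_lit 78) (nat_lit 0) (nat_lit 0) (XT.lf (nat_lit 0) (nat_lit 1282831147) (nat_lit 304) (nat_lit 3925403229) (nat_lit 380) (nat_lit 1259211189) (nat_lit 675) (nat_lit 5) (nat_lit 679) (nat_lit 5) (nat_lit 680) (nat_lit 5) (nat_lit 385) (nat_lit 382) (nat_lit 373)) (XT.lf (nat_lit 0) (nat_lit 4099248339) (nat_lit 304) (nat_lit 726210409) (nat_lit 380) (nat_lit 1650410323) (nat_lit 675) (nat_lit 5) (nat_lit 679) (nat_lit 5) (nat_lit 680) (nat_lit 5) (nat_lit 386) (nat_lit 382) (nat_lit 372))))))))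
noncomputable def xc100 : XT := (XT.nd (nat_lit 1638) (nat_lit 16340) (nat_lit 0) (XT.nd (nat_lit 780) (nat_lit 5548) (nat_lit 0) (XT.nd (nat_lit 390) (nat_lit 1672) (nat_lit 0) (XT.nd (nat_lit 156) (nat_lit 456) (nat_lit 0) (XT.nd (nat_lit 78) (nat_lit 0) (nat_lit 0) (XT.lf (nat_lit 0) (nat_lit 424936831) (nat_lit 380) (nat_lit 3957334204) (nat_lit 456) (nat_lit 2103304395) (nat_lit 670) (nat_lit 5) (nat_lit 675) (nat_lit 5) (nat_lit 676) (nat_lit 5) (nat_lit 387) (nat_lit 382) (nat_lit 371)) (XT.lf (nat_lit 0) (nat_lit 3184066287) (nat_lit 380) (nat_lit 693340010) (nat_lit 456) (nat_lit 2619140760) (nat_lit 670) (nat_lit 5) (nat_lit 675) (nat_lit 5) (nat_lit 676) (nat_lit 5) (nat_lit 388) (nat_lit 382) (nat_lit 370))) (XT.nd (nat_lit 78) (nat_lit 456) (nat_lit 0) (XT.lf (nat_lit 76) (nat_lit 2631410248) (nat_lit 0) (nat_lit 3313884725) (nat_lit 456) (nat_lit 563556379) (nat_lit 671) (nat_lit 5) (nat_lit 670) (nat_lit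 5) (nat_lit 676) (nat_lit 5) (nat_lit 389) (nat_lit 382) (nat_lit 369)) (XT.nd (nat_lit 78) (nat_lit 0) (nat_lit 0) (XT.lf (nat_lit 0) (nat_lit 2146096152) (nat_lit 456) (nat_lit 543583685) (nat_lit 532) (nat_lit 3832777904) (nat_lit 664) (nat_lit 5) (nat_lit 670) (nat_lit 5) (nat_lit 671) (nat_lit 5) (nat_lit 390) (nat_lit 382) (nat_lit 368)) (XT.lf (nat_lit 76) (nat_lit 2851645728) (nat_lit 0) (nat_lit 2001084276) (nat_lit 532) (nat_lit 1684573660) (nat_lit 665) (nat_lit 5) (nat_lit 664) (nat_lit 5) (nat_lit 671) (nat_lit 5) (nat_lit 391) (nat_lit 382) (nat_lit 367))))) (XT.nd (nat_lit 156) (nat_lit 1140) (nat_lit 0) (XT.nd (nat_lit 78) (nat_lit 0) (nat_lit 0) (XT.lf (nat_lit 0) (nat_lit 983212754) (nat_lit 532) (nat_lit 276800026) (nat_lit 608) (nat_lit 5293621084) (nat_lit 657) (nat_lit 5) (nat_lit 664) (nat_lit 5) (nat_lit 665) (nat_lit 5) (nat_lit 392) (nat_lit 382) (nat_lit 366)) (XT.lf (nat_lit 76) (nat_lit 3192059610)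 (nat_lit 0) (nat_lit 444216955) (nat_lit 608) (nat_lit 2934747631) (nat_lit 658) (nat_lit 5) (nat_lit 657) (nat_lit 5) (nat_lit 665) (nat_lit 5) (nat_lit 393) (nat_lit 382) (nat_lit 365))) (XT.nd (nat_lit 78) (nat_lit 684) (nat_lit 0) (XT.lf (nat_lit 0) (nat_lit 104006777) (nat_lit 532) (nat_lit 6178411682) (nat_lit 608) (nat_lit 307588435) (nat_lit 651) (nat_lit 5) (nat_lit 658) (nat_lit 5) (nat_lit 659) (nat_lit 5) (nat_lit 394) (nat_lit 382) (nat_lit 364)) (XT.nd (nat_lit 78) (nat_lit 608) (nat_lit 0) (XT.lf (nat_lit 0) (nat_lit 2302272133) (nat_lit 608) (nat_lit 2965754783) (nat_lit 76) (nat_lit 1341852078) (nat_lit 650) (nat_lit 5) (nat_lit 658) (nat_lit 5) (nat_lit 651) (nat_lit 5) (nat_lit 395) (nat_lit 382) (nat_lit 363)) (XT.lf (nat_lit 0) (nat_lit 590618221) (nat_lit 608) (nat_lit 4310198542) (nat_lit 684) (nat_lit 1730521306) (nat_lit 642) (nat_lit 5) (nat_lit 650) (nat_lit 5) (nat_lit 651) (nat_lit 5) (nat_lit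 396) (nat_lit 382) (nat_lit 362)))))) (XT.nd (nat_lit 390) (nat_lit 3952) (nat_lit 0) (XT.nd (nat_lit 156) (nat_lit 836) (nat_lit 0) (XT.nd (nat_lit 78) (nat_lit 684) (nat_lit 0) (XT.lf (nat_lit 0) (nat_lit 843656401) (nat_lit 684) (nat_lit 2441068110) (nat_lit 76) (nat_lit 3369279268) (nat_lit 641) (nat_lit 5) (nat_lit 650) (nat_lit 5) (nat_lit 642) (nat_lit 5) (nat_lit 397) (nat_lit 382) (nat_lit 361)) (XT.lf (nat_lit 0) (nat_lit 1194987561) (nat_lit 684) (nat_lit 2197463917) (nat_lit 760) (nat_lit 3285556308) (nat_lit 632) (nat_lit 5) (nat_lit 641) (nat_lit 5) (nat_lit 642) (nat_lit 5) (nat_lit 398) (nat_lit 382) (nat_lit 360))) (XT.nd (nat_lit 78) (nat_lit 836) (nat_lit 0) (XT.lf (nat_lit 0) (nat_lit 4897314348) (nat_lit 684) (nat_lit 1050762818) (nat_lit 760) (nat_lit 755336696) (nat_lit 632) (nat_lit 5) (nat_lit 641) (nat_lit 5) (nat_lit 642) (nat_lit 5) (nat_lit 399) (nat_lit 382) (nat_lit 359)) (XT.nd (nat_lit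 78) (nat_lit 0) (nat_lit 0) (XT.lf (nat_lit 0) (nat_lit 1755292677) (nat_lit 836) (nat_lit 4813071451) (nat_lit 76) (nat_lit 161689512) (nat_lit 621) (nat_lit 5) (nat_lit 632) (nat_lit 5) (nat_lit 622) (nat_lit 5) (nat_lit 400) (nat_lit 382) (nat_lit 358)) (XT.lf (nat_lit 0) (nat_lit 4266462121) (nat_lit 836) (nat_lit 1070693368) (nat_lit 76) (nat_lit 1420798871) (nat_lit 621) (nat_lit 5) (nat_lit 632) (nat_lit 5) (nat_lit 622) (nat_lit 5) (nat_lit 401) (nat_lit 382) (nat_lit 357))))) (XT.nd (nat_lit 234) (nat_lit 2128) (nat_lit 0) (XT.nd (nat_lit 78) (nat_lit 912) (nat_lit 0) (XT.lf (nat_lit 0) (nat_lit 830930) (nat_lit 912) (nat_lit 4044626233) (nat_lit 76) (nat_lit 2741787297) (nat_lit 609) (nat_lit 5) (nat_lit 621) (nat_lit 5) (nat_lit 610) (nat_lit 5) (nat_lit 402) (nat_lit 382) (nat_lit 356)) (XT.nd (nat_lit 78) (nat_lit 912) (nat_lit 0) (XT.lf (nat_lit 0) (nat_lit 2459789080) (nat_lit 912) (nat_lit 227224449)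 (nat_lit 76) (nat_lit 4130809171) (nat_lit 609) (nat_lit 5) (nat_lit 621) (nat_lit 5) (nat_lit 610) (nat_lit 5) (nat_lit 403) (nat_lit 382) (nat_lit 355)) (XT.lf (nat_lit 0) (nat_lit 3675107578) (nat_lit 912) (nat_lit 1260685851) (nat_lit 988) (nat_lit 1913895760) (nat_lit 597) (nat_lit 5) (nat_lit 609) (nat_lit 5) (nat_lit 610) (nat_lit 5) (nat_lit 404) (nat_lit 382) (nat_lit 354)))) (XT.nd (nat_lit 78) (nat_lit 1064) (nat_lit 0) (XT.lf (nat_lit 0) (nat_lit 523761352) (nat_lit 1064) (nat_lit 6142321716) (nat_lit 76) (nat_lit 217022805) (nat_lit 583) (nat_lit 5) (nat_lit 597) (nat_lit 5) (nat_lit 584) (nat_lit 5) (nat_lit 405) (nat_lit 382) (nat_lit 353)) (XT.nd (nat_lit 78) (nat_lit 1064) (nat_lit 0) (XT.lf (nat_lit 0) (nat_lit 2959738483) (nat_lit 1064) (nat_lit 2201526787) (nat_lit 76) (nat_lit 1756200789) (nat_lit 583) (nat_lit 5) (nat_lit 597) (nat_lit 5) (nat_lit 584) (nat_lit 5) (nat_lit 406) (nat_lit 382) (nat_lit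 352)) (XT.lf (nat_lit 0) (nat_lit 1801429036) (nat_lit 1064) (nat_lit 3601150109) (nat_lit 1140) (nat_lit 1550802855) (nat_lit 569) (nat_lit 5) (nat_lit 583) (nat_lit 5) (nat_lit 584) (nat_lit 5) (nat_lit 407) (nat_lit 382) (nat_lit 351))))))) (XT.nd (nat_lit 780) (nat_lit 8056) (nat_lit 0) (XT.nd (nat_lit 390) (nat_lit 4484) (nat_lit 0) (XT.nd (nat_lit 156) (nat_lit 2584) (nat_lit 0) (XT.nd (nat_lit 78) (nat_lit 1140) (nat_lit 0) (XT.lf (nat_lit 0) (nat_lit 854130381) (nat_lit 1140) (nat_lit 1122155938) (nat_lit 76) (nat_lit 5014408143) (nat_lit 568) (nat_lit 5) (nat_lit 583) (nat_lit 5) (nat_lit 569) (nat_lit 5) (nat_lit 408) (nat_lit 382) (nat_lit 350)) (XT.lf (nat_lit 0) (nat_lit 2977058031) (nat_lit 1140) (nat_lit 276587761) (nat_lit 1216) (nat_lit 3775587011) (nat_lit 553) (nat_lit 5) (nat_lit 568) (nat_lit 5) (nat_lit 569) (nat_lit 5) (nat_lit 409) (nat_lit 382) (nat_lit 349))) (XT.nd (nat_lit 78) (nat_lit 1368)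 (nat_lit 0) (XT.lf (nat_lit 0) (nat_lit 55471305) (nat_lit 1216) (nat_lit 5611820766) (nat_lit 1292) (nat_lit 1401956068) (nat_lit 537) (nat_lit 5) (nat_lit 553) (nat_lit 5) (nat_lit 554) (nat_lit 5) (nat_lit 410) (nat_lit 382) (nat_lit 348)) (XT.nd (nat_lit 78) (nat_lit 1292) (nat_lit 0) (XT.lf (nat_lit 0) (nat_lit 984104137) (nat_lit 1292) (nat_lit 2859207581) (nat_lit 76) (nat_lit 3267081177) (nat_lit 536) (nat_lit 5) (nat_lit 553) (nat_lit 5) (nat_lit 537) (nat_lit 5) (nat_lit 411) (nat_lit 382) (nat_lit 347)) (XT.lf (nat_lit 0) (nat_lit 1346378066) (nat_lit 1292) (nat_lit 2011611017) (nat_lit 1368) (nat_lit 3795035975) (nat_lit 519) (nat_lit 5) (nat_lit 536) (nat_lit 5) (nat_lit 537) (nat_lit 5) (nat_lit 412) (nat_lit 382) (nat_lit 346))))) (XT.nd (nat_lit 156) (nat_lit 3040) (nat_lit 0) (XT.nd (nat_lit 78) (nat_lit 1444) (nat_lit 0) (XT.lf (nat_lit 0) (nat_lit 5634650342) (nat_lit 1292) (nat_lit 114721990) (nat_lit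 1368) (nat_lit 1447763948) (nat_lit 519) (nat_lit 5) (nat_lit 536) (nat_lit 5) (nat_lit 537) (nat_lit 5) (nat_lit 413) (nat_lit 382) (nat_lit 345)) (XT.lf (nat_lit 0) (nat_lit 915421935) (nat_lit 1444) (nat_lit 4498177373) (nat_lit 76) (nat_lit 1828805679) (nat_lit 500) (nat_lit 5) (nat_lit 519) (nat_lit 5) (nat_lit 501) (nat_lit 5) (nat_lit 414) (nat_lit 382) (nat_lit 344))) (XT.nd (nat_lit 78) (nat_lit 3040) (nat_lit 0) (XT.lf (nat_lit 0) (nat_lit 3270016836) (nat_lit 1444) (nat_lit 181367554) (nat_lit 76) (nat_lit 3837757948) (nat_lit 500) (nat_lit 5) (nat_lit 519) (nat_lit 5) (nat_lit 501) (nat_lit 5) (nat_lit 415) (nat_lit 382) (nat_lit 343)) (XT.nd (nat_lit 78) (nat_lit 1596) (nat_lit 0) (XT.lf (nat_lit 0) (nat_lit 4237315828) (nat_lit 1444) (nat_lit 1415035005) (nat_lit 1520) (nat_lit 1684875442) (nat_lit 481) (nat_lit 5) (nat_lit 500) (nat_lit 5) (nat_lit 501) (nat_lit 5) (nat_lit 416) (nat_lit 382) (nat_lit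 342)) (XT.lf (nat_lit 0) (nat_lit 654711292) (nat_lit 1596) (nat_lit 6058245861) (nat_lit 76) (nat_lit 673892564) (nat_lit 460) (nat_lit 5) (nat_lit 481) (nat_lit 5) (nat_lit 461) (nat_lit 5) (nat_lit 417) (nat_lit 382) (nat_lit 341)))))) (XT.nd (nat_lit 390) (nat_lit 2964) (nat_lit 0) (XT.nd (nat_lit 156) (nat_lit 3496) (nat_lit 0) (XT.nd (nat_lit 78) (nat_lit 1596) (nat_lit 0) (XT.lf (nat_lit 0) (nat_lit 3003016676) (nat_lit 1596) (nat_lit 1611134965) (nat_lit 76) (nat_lit 2823424855) (nat_lit 460) (nat_lit 5) (nat_lit 481) (nat_lit 5) (nat_lit 461) (nat_lit 5) (nat_lit 418) (nat_lit 382) (nat_lit 340)) (XT.lf (nat_lit 0) (nat_lit 2922932387) (nat_lit 1596) (nat_lit 2449387730) (nat_lit 1672) (nat_lit 2117539951) (nat_lit 439) (nat_lit 5) (nat_lit 460) (nat_lit 5) (nat_lit 461) (nat_lit 5) (nat_lit 419) (nat_lit 382) (nat_lit 339))) (XT.nd (nat_lit 78) (nat_lit 3420) (nat_lit 0) (XT.lf (nat_lit 0) (nat_lit 208839364)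 (nat_lit 1672) (nat_lit 15790795) (nat_lit 76) (nat_lit 7319224380) (nat_lit 438) (nat_lit 5) (nat_lit 460) (nat_lit 5) (nat_lit 439) (nat_lit 5) (nat_lit 420) (nat_lit 382) (nat_lit 338)) (XT.nd (nat_lit 78) (nat_lit 1748) (nat_lit 0) (XT.lf (nat_lit 0) (nat_lit 2553328527) (nat_lit 1748) (nat_lit 2979298001) (nat_lit 76) (nat_lit 2066045286) (nat_lit 416) (nat_lit 5) (nat_lit 439) (nat_lit 5) (nat_lit 417) (nat_lit 5) (nat_lit 421) (nat_lit 382) (nat_lit 337)) (XT.lf (nat_lit 0) (nat_lit 1672805018) (nat_lit 1748) (nat_lit 3241216883) (nat_lit 1824) (nat_lit 2741198401) (nat_lit 393) (nat_lit 5) (nat_lit 416) (nat_lit 5) (nat_lit 417) (nat_lit 5) (nat_lit 422) (nat_lit 382) (nat_lit 336))))) (XT.nd (nat_lit 234) (nat_lit 912) (nat_lit 0) (XT.nd (nat_lit 78) (nat_lit 2052) (nat_lit 0) (XT.lf (nat_lit 0) (nat_lit 6418083585) (nat_lit 1748) (nat_lit 881281956) (nat_lit 1824) (nat_lit 414006228) (nat_lit 393) (nat_lit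 5) (nat_lit 416) (nat_lit 5) (nat_lit 417) (nat_lit 5) (nat_lit 423) (nat_lit 382) (nat_lit 335)) (XT.nd (nat_lit 78) (nat_lit 912) (nat_lit 0) (XT.lf (nat_lit 0) (nat_lit 1924747218) (nat_lit 1140) (nat_lit 4304556757) (nat_lit 76) (nat_lit 1543333356) (nat_lit 378) (nat_lit 5) (nat_lit 393) (nat_lit 5) (nat_lit 379) (nat_lit 5) (nat_lit 424) (nat_lit 382) (nat_lit 334)) (XT.lf (nat_lit 0) (nat_lit 468228783) (nat_lit 912) (nat_lit 3812692884) (nat_lit 988) (nat_lit 3552607558) (nat_lit 366) (nat_lit 5) (nat_lit 378) (nat_lit 5) (nat_lit 379) (nat_lit 5) (nat_lit 425) (nat_lit 382) (nat_lit 333)))) (XT.nd (nat_lit 78) (nat_lit 912) (nat_lit 0) (XT.lf (nat_lit 0) (nat_lit 5354449970) (nat_lit 912) (nat_lit 1317764264) (nat_lit 988) (nat_lit 1223683989) (nat_lit 366) (nat_lit 5) (nat_lit 378) (nat_lit 5) (nat_lit 379) (nat_lit 5) (nat_lit 426) (nat_lit 382) (nat_lit 332)) (XT.nd (nat_lit 78) (nat_lit 0) (nat_lit 0) (XT.lf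 (nat_lit 0) (nat_lit 1119795161) (nat_lit 912) (nat_lit 5605752645) (nat_lit 76) (nat_lit 1234173977) (nat_lit 354) (nat_lit 5) (nat_lit 366) (nat_lit 5) (nat_lit 355) (nat_lit 5) (nat_lit 427) (nat_lit 382) (nat_lit 331)) (XT.lf (nat_lit 0) (nat_lit 3479827542) (nat_lit 912) (nat_lit 700363087) (nat_lit 76) (nat_lit 3844766093) (nat_lit 354) (nat_lit 5) (nat_lit 366) (nat_lit 5) (nat_lit 355) (nat_lit 5) (nat_lit 428) (nat_lit 382) (nat_lit 330))))))))
noncomputable def xc101 : XT := (XT.nd (nat_lit 1638) (nat_lit 6992) (nat_lit 0) (XT.nd (nat_lit 780) (nat_lit 4028) (nat_lit 0) (XT.nd (nat_lit 390) (nat_lit 2356) (nat_lit 0) (XT.nd (nat_lit 156) (nat_lit 1596) (nat_lit 0) (XT.nd (nat_lit 78) (nat_lit 912) (nat_lit 0) (XT.lf (nat_lit 0) (nat_lit 4319904790) (nat_lit 836) (nat_lit 1556143805) (nat_lit 912) (nat_lit 2215685705) (nat_lit 343) (nat_lit 5) (nat_lit 354) (nat_lit 5) (nat_lit 355) (nat_lit 5) (nat_lit 429)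 (nat_lit 382) (nat_lit 329)) (XT.lf (nat_lit 0) (nat_lit 139727078) (nat_lit 912) (nat_lit 6902029998) (nat_lit 76) (nat_lit 1118456876) (nat_lit 331) (nat_lit 5) (nat_lit 343) (nat_lit 5) (nat_lit 332) (nat_lit 5) (nat_lit 430) (nat_lit 382) (nat_lit 328))) (XT.nd (nat_lit 78) (nat_lit 1596) (nat_lit 0) (XT.lf (nat_lit 0) (nat_lit 2510060550) (nat_lit 912) (nat_lit 1855442842) (nat_lit 76) (nat_lit 3864333963) (nat_lit 331) (nat_lit 5) (nat_lit 343) (nat_lit 5) (nat_lit 332) (nat_lit 5) (nat_lit 431) (nat_lit 382) (nat_lit 327)) (XT.nd (nat_lit 78) (nat_lit 760) (nat_lit 0) (XT.lf (nat_lit 0) (nat_lit 3295428479) (nat_lit 836) (nat_lit 1616188476) (nat_lit 912) (nat_lit 3389576298) (nat_lit 320) (nat_lit 5) (nat_lit 331) (nat_lit 5) (nat_lit 332) (nat_lit 5) (nat_lit 432) (nat_lit 382) (nat_lit 326)) (XT.lf (nat_lit 0) (nat_lit 154625263) (nat_lit 760) (nat_lit 7190714232) (nat_lit 836) (nat_lit 1028970106) (nat_lit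 310) (nat_lit 5) (nat_lit 320) (nat_lit 5) (nat_lit 321) (nat_lit 5) (nat_lit 433) (nat_lit 382) (nat_lit 325))))) (XT.nd (nat_lit 156) (nat_lit 1520) (nat_lit 0) (XT.nd (nat_lit 78) (nat_lit 760) (nat_lit 0) (XT.lf (nat_lit 0) (nat_lit 1368374298) (nat_lit 836) (nat_lit 3022604619) (nat_lit 76) (nat_lit 4057593521) (nat_lit 309) (nat_lit 5) (nat_lit 320) (nat_lit 5) (nat_lit 310) (nat_lit 5) (nat_lit 434) (nat_lit 382) (nat_lit 324)) (XT.lf (nat_lit 0) (nat_lit 2261470108) (nat_lit 760) (nat_lit 1516930007) (nat_lit 836) (nat_lit 4746229247) (nat_lit 299) (nat_lit 5) (nat_lit 309) (nat_lit 5) (nat_lit 310) (nat_lit 5) (nat_lit 435) (nat_lit 382) (nat_lit 323))) (XT.nd (nat_lit 78) (nat_lit 1520) (nat_lit 0) (XT.lf (nat_lit 0) (nat_lit 6230473307) (nat_lit 836) (nat_lit 959156844) (nat_lit 76) (nat_lit 1412715147) (nat_lit 299) (nat_lit 5) (nat_lit 310) (nat_lit 5) (nat_lit 300) (nat_lit 5) (nat_lit 436) (nat_lit 382)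 (nat_lit 322)) (XT.nd (nat_lit 78) (nat_lit 760) (nat_lit 0) (XT.lf (nat_lit 0) (nat_lit 53277356) (nat_lit 760) (nat_lit 4221975003) (nat_lit 76) (nat_lit 4406291733) (nat_lit 289) (nat_lit 5) (nat_lit 299) (nat_lit 5) (nat_lit 290) (nat_lit 5) (nat_lit 437) (nat_lit 382) (nat_lit 321)) (XT.lf (nat_lit 0) (nat_lit 1197767957) (nat_lit 760) (nat_lit 1276823243) (nat_lit 836) (nat_lit 6287847640) (nat_lit 279) (nat_lit 5) (nat_lit 289) (nat_lit 5) (nat_lit 290) (nat_lit 5) (nat_lit 438) (nat_lit 382) (nat_lit 320)))))) (XT.nd (nat_lit 390) (nat_lit 1976) (nat_lit 0) (XT.nd (nat_lit 156) (nat_lit 1368) (nat_lit 0) (XT.nd (nat_lit 78) (nat_lit 684) (nat_lit 0) (XT.lf (nat_lit 0) (nat_lit 4949948748) (nat_lit 836) (nat_lit 2113076741) (nat_lit 76) (nat_lit 1781827329) (nat_lit 279) (nat_lit 5) (nat_lit 290) (nat_lit 5) (nat_lit 280) (nat_lit 5) (nat_lit 439) (nat_lit 382) (nat_lit 319)) (XT.lf (nat_lit 0) (nat_lit 3444988019)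 (nat_lit 684) (nat_lit 4026855182) (nat_lit 760) (nat_lit 1457144694) (nat_lit 270) (nat_lit 5) (nat_lit 279) (nat_lit 5) (nat_lit 280) (nat_lit 5) (nat_lit 440) (nat_lit 382) (nat_lit 318))) (XT.nd (nat_lit 78) (nat_lit 608) (nat_lit 0) (XT.lf (nat_lit 0) (nat_lit 83160404) (nat_lit 684) (nat_lit 913904760) (nat_lit 760) (nat_lit 8017995823) (nat_lit 260) (nat_lit 5) (nat_lit 269) (nat_lit 5) (nat_lit 270) (nat_lit 5) (nat_lit 441) (nat_lit 382) (nat_lit 317)) (XT.nd (nat_lit 78) (nat_lit 608) (nat_lit 0) (XT.lf (nat_lit 0) (nat_lit 3499339817) (nat_lit 760) (nat_lit 3330560523) (nat_lit 76) (nat_lit 2272405372) (nat_lit 260) (nat_lit 5) (nat_lit 270) (nat_lit 5) (nat_lit 261) (nat_lit 5) (nat_lit 442) (nat_lit 382) (nat_lit 316)) (XT.lf (nat_lit 0) (nat_lit 2368735698) (nat_lit 608) (nat_lit 3671755426) (nat_lit 684) (nat_lit 3151039979) (nat_lit 252) (nat_lit 5) (nat_lit 260) (nat_lit 5) (nat_lit 261) (nat_lit 5)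 (nat_lit 443) (nat_lit 382) (nat_lit 315))))) (XT.nd (nat_lit 234) (nat_lit 684) (nat_lit 0) (XT.nd (nat_lit 78) (nat_lit 1292) (nat_lit 0) (XT.lf (nat_lit 0) (nat_lit 8188336921) (nat_lit 608) (nat_lit 434264892) (nat_lit 684) (nat_lit 660148610) (nat_lit 252) (nat_lit 5) (nat_lit 260) (nat_lit 5) (nat_lit 261) (nat_lit 5) (nat_lit 444) (nat_lit 382) (nat_lit 314)) (XT.nd (nat_lit 78) (nat_lit 608) (nat_lit 0) (XT.lf (nat_lit 0) (nat_lit 1873863566) (nat_lit 684) (nat_lit 4634185109) (nat_lit 76) (nat_lit 2867153600) (nat_lit 243) (nat_lit 5) (nat_lit 252) (nat_lit 5) (nat_lit 244) (nat_lit 5) (nat_lit 445) (nat_lit 382) (nat_lit 313)) (XT.lf (nat_lit 0) (nat_lit 1208343494) (nat_lit 608) (nat_lit 3228023636) (nat_lit 684) (nat_lit 5033327200) (nat_lit 235) (nat_lit 5) (nat_lit 243) (nat_lit 5) (nat_lit 244) (nat_lit 5) (nat_lit 446) (nat_lit 382) (nat_lit 312)))) (XT.nd (nat_lit 78) (nat_lit 684) (nat_lit 0) (XT.lf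 (nat_lit 0) (nat_lit 7051034310) (nat_lit 684) (nat_lit 2375055673) (nat_lit 76) (nat_lit 139979198) (nat_lit 235) (nat_lit 5) (nat_lit 244) (nat_lit 5) (nat_lit 236) (nat_lit 5) (nat_lit 447) (nat_lit 382) (nat_lit 311)) (XT.nd (nat_lit 78) (nat_lit 0) (nat_lit 0) (XT.lf (nat_lit 0) (nat_lit 67320170) (nat_lit 684) (nat_lit 6047922873) (nat_lit 76) (nat_lit 3548844309) (nat_lit 226) (nat_lit 5) (nat_lit 235) (nat_lit 5) (nat_lit 227) (nat_lit 5) (nat_lit 448) (nat_lit 382) (nat_lit 310)) (XT.lf (nat_lit 0) (nat_lit 2653318568) (nat_lit 684) (nat_lit 59671040) (nat_lit 76) (nat_lit 7051040917) (nat_lit 226) (nat_lit 5) (nat_lit 235) (nat_lit 5) (nat_lit 227) (nat_lit 5) (nat_lit 449) (nat_lit 382) (nat_lit 309))))))) (XT.nd (nat_lit 858) (nat_lit 3116) (nat_lit 0) (XT.nd (nat_lit 390) (nat_lit 1596) (nat_lit 0) (XT.nd (nat_lit 156) (nat_lit 1140) (nat_lit 0) (XT.nd (nat_lit 78) (nat_lit 608) (nat_lit 0) (XT.lf (nat_lit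 0) (nat_lit 5305900588) (nat_lit 608) (nat_lit 3780502213) (nat_lit 76) (nat_lit 779282857) (nat_lit 219) (nat_lit 5) (nat_lit 227) (nat_lit 5) (nat_lit 220) (nat_lit 5) (nat_lit 450) (nat_lit 382) (nat_lit 308)) (XT.lf (nat_lit 0) (nat_lit 2359242393) (nat_lit 608) (nat_lit 5656461313) (nat_lit 684) (nat_lit 1953596966) (nat_lit 211) (nat_lit 5) (nat_lit 219) (nat_lit 5) (nat_lit 220) (nat_lit 5) (nat_lit 451) (nat_lit 382) (nat_lit 307))) (XT.nd (nat_lit 78) (nat_lit 1064) (nat_lit 0) (XT.lf (nat_lit 0) (nat_lit 691621278) (nat_lit 684) (nat_lit 1444454124) (nat_lit 76) (nat_lit 7938907870) (nat_lit 210) (nat_lit 5) (nat_lit 219) (nat_lit 5) (nat_lit 211) (nat_lit 5) (nat_lit 452) (nat_lit 382) (nat_lit 306)) (XT.nd (nat_lit 78) (nat_lit 532) (nat_lit 0) (XT.lf (nat_lit 0) (nat_lit 3376020268) (nat_lit 608) (nat_lit 5334432027) (nat_lit 76) (nat_lit 1471829843) (nat_lit 203) (nat_lit 5) (nat_lit 211) (nat_lit 5) (nat_lit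 204) (nat_lit 5) (nat_lit 453) (nat_lit 382) (nat_lit 305)) (XT.lf (nat_lit 0) (nat_lit 954573336) (nat_lit 532) (nat_lit 5161089044) (nat_lit 608) (nat_lit 4176042890) (nat_lit 196) (nat_lit 5) (nat_lit 203) (nat_lit 5) (nat_lit 204) (nat_lit 5) (nat_lit 454) (nat_lit 382) (nat_lit 304))))) (XT.nd (nat_lit 234) (nat_lit 1064) (nat_lit 0) (XT.nd (nat_lit 78) (nat_lit 532) (nat_lit 0) (XT.lf (nat_lit 0) (nat_lit 7404134065) (nat_lit 532) (nat_lit 1513530131) (nat_lit 608) (nat_lit 1485510541) (nat_lit 196) (nat_lit 5) (nat_lit 203) (nat_lit 5) (nat_lit 204) (nat_lit 5) (nat_lit 455) (nat_lit 382) (nat_lit 303)) (XT.nd (nat_lit 78) (nat_lit 0) (nat_lit 0) (XT.lf (nat_lit 0) (nat_lit 1251428913) (nat_lit 532) (nat_lit 7065380426) (nat_lit 76) (nat_lit 2199727515) (nat_lit 189) (nat_lit 5) (nat_lit 196) (nat_lit 5) (nat_lit 190) (nat_lit 5) (nat_lit 456) (nat_lit 382) (nat_lit 302)) (XT.lf (nat_lit 0) (nat_lit 4025893716)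 (nat_lit 532) (nat_lit 618180030) (nat_lit 76) (nat_lit 5987851210) (nat_lit 189) (nat_lit 5) (nat_lit 196) (nat_lit 5) (nat_lit 190) (nat_lit 5) (nat_lit 457) (nat_lit 382) (nat_lit 301)))) (XT.nd (nat_lit 78) (nat_lit 532) (nat_lit 0) (XT.lf (nat_lit 0) (nat_lit 5999956747) (nat_lit 532) (nat_lit 867765543) (nat_lit 608) (nat_lit 3881669546) (nat_lit 182) (nat_lit 5) (nat_lit 189) (nat_lit 5) (nat_lit 190) (nat_lit 5) (nat_lit 458) (nat_lit 382) (nat_lit 300)) (XT.nd (nat_lit 78) (nat_lit 76) (nat_lit 0) (XT.lf (nat_lit 0) (nat_lit 1857735270) (nat_lit 456) (nat_lit 7917414455) (nat_lit 532) (nat_lit 1093891426) (nat_lit 176) (nat_lit 5) (nat_lit 182) (nat_lit 5) (nat_lit 183) (nat_lit 5) (nat_lit 459) (nat_lit 382) (nat_lit 299)) (XT.lf (nat_lit 0) (nat_lit 1737778992) (nat_lit 532) (nat_lit 2383393278) (nat_lit 76) (nat_lit 6869470328) (nat_lit 175) (nat_lit 5) (nat_lit 182) (nat_lit 5) (nat_lit 176) (nat_lit 5)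 (nat_lit 460) (nat_lit 382) (nat_lit 298)))))) (XT.nd (nat_lit 390) (nat_lit 1672) (nat_lit 0) (XT.nd (nat_lit 156) (nat_lit 532) (nat_lit 0) (XT.nd (nat_lit 78) (nat_lit 456) (nat_lit 0) (XT.lf (nat_lit 0) (nat_lit 4391091416) (nat_lit 456) (nat_lit 222646728) (nat_lit 532) (nat_lit 6500755126) (nat_lit 169) (nat_lit 5) (nat_lit 175) (nat_lit 5) (nat_lit 176) (nat_lit 5) (nat_lit 461) (nat_lit 382) (nat_lit 297)) (XT.lf (nat_lit 0) (nat_lit 32263597) (nat_lit 456) (nat_lit 7529627434) (nat_lit 532) (nat_lit 3678644140) (nat_lit 163) (nat_lit 5) (nat_lit 169) (nat_lit 5) (nat_lit 170) (nat_lit 5) (nat_lit 462) (nat_lit 382) (nat_lit 296))) (XT.nd (nat_lit 78) (nat_lit 532) (nat_lit 0) (XT.lf (nat_lit 0) (nat_lit 6976372855) (nat_lit 456) (nat_lit 3613483494) (nat_lit 532) (nat_lit 778832128) (nat_lit 163) (nat_lit 5) (nat_lit 169) (nat_lit 5) (nat_lit 170) (nat_lit 5) (nat_lit 463) (nat_lit 382) (nat_lit 295)) (XT.nd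 (nat_lit 78) (nat_lit 0) (nat_lit 0) (XT.lf (nat_lit 0) (nat_lit 2144116139) (nat_lit 532) (nat_lit 8958694011) (nat_lit 76) (nat_lit 396444657) (nat_lit 156) (nat_lit 5) (nat_lit 163) (nat_lit 5) (nat_lit 157) (nat_lit 5) (nat_lit 464) (nat_lit 382) (nat_lit 294)) (XT.lf (nat_lit 0) (nat_lit 5143499672) (nat_lit 532) (nat_lit 2025643073) (nat_lit 76) (nat_lit 4462625780) (nat_lit 156) (nat_lit 5) (nat_lit 163) (nat_lit 5) (nat_lit 157) (nat_lit 5) (nat_lit 465) (nat_lit 382) (nat_lit 293))))) (XT.nd (nat_lit 234) (nat_lit 760) (nat_lit 0) (XT.nd (nat_lit 78) (nat_lit 532) (nat_lit 0) (XT.lf (nat_lit 0) (nat_lit 5077215853) (nat_lit 380) (nat_lit 3133908705) (nat_lit 456) (nat_lit 3555649863) (nat_lit 151) (nat_lit 5) (nat_lit 156) (nat_lit 5) (nat_lit 157) (nat_lit 5) (nat_lit 466) (nat_lit 382) (nat_lit 292)) (XT.nd (nat_lit 78) (nat_lit 76) (nat_lit 0) (XT.lf (nat_lit 0) (nat_lit 408640303) (nat_lit 456) (nat_lit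 10929649091) (nat_lit 532) (nat_lit 566234135) (nat_lit 145) (nat_lit 5) (nat_lit 151) (nat_lit 5) (nat_lit 152) (nat_lit 5) (nat_lit 467) (nat_lit 382) (nat_lit 291)) (XT.lf (nat_lit 0) (nat_lit 2491906229) (nat_lit 532) (nat_lit 4377552201) (nat_lit 76) (nat_lit 5174423324) (nat_lit 144) (nat_lit 5) (nat_lit 151) (nat_lit 5) (nat_lit 145) (nat_lit 5) (nat_lit 468) (nat_lit 382) (nat_lit 290)))) (XT.nd (nat_lit 78) (nat_lit 380) (nat_lit 0) (XT.lf (nat_lit 0) (nat_lit 2882164742) (nat_lit 380) (nat_lit 2716220845) (nat_lit 456) (nat_lit 6587677988) (nat_lit 139) (nat_lit 5) (nat_lit 144) (nat_lit 5) (nat_lit 145) (nat_lit 5) (nat_lit 469) (nat_lit 382) (nat_lit 289)) (XT.nd (nat_lit 78) (nat_lit 380) (nat_lit 0) (XT.lf (nat_lit 0) (nat_lit 8782644120) (nat_lit 456) (nat_lit 2029359717) (nat_lit 76) (nat_lit 1518778524) (nat_lit 139) (nat_lit 5) (nat_lit 145) (nat_lit 5) (nat_lit 140) (nat_lit 5) (nat_lit 470) (nat_lit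 382) (nat_lit 288)) (XT.lf (nat_lit 0) (nat_lit 5409104541) (nat_lit 380) (nat_lit 6651267453) (nat_lit 456) (nat_lit 417434042) (nat_lit 134) (nat_lit 5) (nat_lit 139) (nat_lit 5) (nat_lit 140) (nat_lit 5) (nat_lit 471) (nat_lit 382) (nat_lit 287))))))))
noncomputable def xc102 : XT := (XT.nd (nat_lit 1638) (nat_lit 1824) (nat_lit 0) (XT.nd (nat_lit 780) (nat_lit 1976) (nat_lit 0) (XT.nd (nat_lit 390) (nat_lit 1064) (nat_lit 0) (XT.nd (nat_lit 156) (nat_lit 760) (nat_lit 0) (XT.nd (nat_lit 78) (nat_lit 0) (nat_lit 0) (XT.lf (nat_lit 0) (nat_lit 348195738) (nat_lit 380) (nat_lit 2384003495) (nat_lit 456) (nat_lit 9895362026) (nat_lit 128) (nat_lit 5) (nat_lit 133) (nat_lit 5) (nat_lit 134) (nat_lit 5) (nat_lit 472) (nat_lit 382) (nat_lit 286)) (XT.lf (nat_lit 0) (nat_lit 5976682380) (nat_lit 456) (nat_lit 4820745259) (nat_lit 76) (nat_lit 1982085670) (nat_lit 128) (nat_lit 5) (nat_lit 134) (nat_lit 5) (nat_lit 129) (nat_lit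 5) (nat_lit 473) (nat_lit 382) (nat_lit 285))) (XT.nd (nat_lit 78) (nat_lit 380) (nat_lit 0) (XT.lf (nat_lit 0) (nat_lit 2773545345) (nat_lit 380) (nat_lit 6523669450) (nat_lit 456) (nat_lit 3637072136) (nat_lit 123) (nat_lit 5) (nat_lit 128) (nat_lit 5) (nat_lit 129) (nat_lit 5) (nat_lit 474) (nat_lit 382) (nat_lit 284)) (XT.nd (nat_lit 78) (nat_lit 380) (nat_lit 0) (XT.lf (nat_lit 0) (nat_lit 10551203000) (nat_lit 380) (nat_lit 2142892377) (nat_lit 456) (nat_lit 397867513) (nat_lit 123) (nat_lit 5) (nat_lit 128) (nat_lit 5) (nat_lit 129) (nat_lit 5) (nat_lit 475) (nat_lit 382) (nat_lit 283)) (XT.lf (nat_lit 0) (nat_lit 2895332653) (nat_lit 380) (nat_lit 8019474929) (nat_lit 76) (nat_lit 2337066295) (nat_lit 118) (nat_lit 5) (nat_lit 123) (nat_lit 5) (nat_lit 119) (nat_lit 5) (nat_lit 476) (nat_lit 382) (nat_lit 282))))) (XT.nd (nat_lit 156) (nat_lit 684) (nat_lit 0) (XT.nd (nat_lit 78) (nat_lit 380) (nat_lit 0) (XT.lf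 (nat_lit 0) (nat_lit 6258448608) (nat_lit 380) (nat_lit 269769368) (nat_lit 76) (nat_lit 6886530216) (nat_lit 118) (nat_lit 5) (nat_lit 123) (nat_lit 5) (nat_lit 119) (nat_lit 5) (nat_lit 477) (nat_lit 382) (nat_lit 281)) (XT.lf (nat_lit 0) (nat_lit 7702966112) (nat_lit 380) (nat_lit 2014324673) (nat_lit 456) (nat_lit 3863025115) (nat_lit 113) (nat_lit 5) (nat_lit 118) (nat_lit 5) (nat_lit 119) (nat_lit 5) (nat_lit 478) (nat_lit 382) (nat_lit 280))) (XT.nd (nat_lit 78) (nat_lit 380) (nat_lit 0) (XT.lf (nat_lit 0) (nat_lit 2066803278) (nat_lit 304) (nat_lit 11189149514) (nat_lit 380) (nat_lit 493034393) (nat_lit 109) (nat_lit 5) (nat_lit 113) (nat_lit 5) (nat_lit 114) (nat_lit 5) (nat_lit 479) (nat_lit 382) (nat_lit 279)) (XT.nd (nat_lit 78) (nat_lit 304) (nat_lit 0) (XT.lf (nat_lit 0) (nat_lit 2937429045) (nat_lit 380) (nat_lit 3736653724) (nat_lit 76) (nat_lit 7245937906) (nat_lit 108) (nat_lit 5) (nat_lit 113) (nat_lit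 5) (nat_lit 109) (nat_lit 5) (nat_lit 480) (nat_lit 382) (nat_lit 278)) (XT.lf (nat_lit 0) (nat_lit 4389541308) (nat_lit 304) (nat_lit 2047930837) (nat_lit 380) (nat_lit 7656790859) (nat_lit 104) (nat_lit 5) (nat_lit 108) (nat_lit 5) (nat_lit 109) (nat_lit 5) (nat_lit 481) (nat_lit 382) (nat_lit 277)))))) (XT.nd (nat_lit 390) (nat_lit 988) (nat_lit 0) (XT.nd (nat_lit 156) (nat_lit 684) (nat_lit 0) (XT.nd (nat_lit 78) (nat_lit 304) (nat_lit 0) (XT.lf (nat_lit 0) (nat_lit 10029288648) (nat_lit 380) (nat_lit 1592763550) (nat_lit 76) (nat_lit 2649507227) (nat_lit 104) (nat_lit 5) (nat_lit 109) (nat_lit 5) (nat_lit 105) (nat_lit 5) (nat_lit 482) (nat_lit 382) (nat_lit 276)) (XT.lf (nat_lit 0) (nat_lit 6724018670) (nat_lit 304) (nat_lit 7005741395) (nat_lit 380) (nat_lit 721909943) (nat_lit 100) (nat_lit 5) (nat_lit 104) (nat_lit 5) (nat_lit 105) (nat_lit 5) (nat_lit 483) (nat_lit 382) (nat_lit 275))) (XT.nd (nat_lit 78) (nat_lit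 304) (nat_lit 0) (XT.lf (nat_lit 0) (nat_lit 549970101) (nat_lit 304) (nat_lit 2275246673) (nat_lit 380) (nat_lit 11809918237) (nat_lit 95) (nat_lit 5) (nat_lit 99) (nat_lit 5) (nat_lit 100) (nat_lit 5) (nat_lit 484) (nat_lit 382) (nat_lit 274)) (XT.nd (nat_lit 78) (nat_lit 304) (nat_lit 0) (XT.lf (nat_lit 0) (nat_lit 6482154163) (nat_lit 380) (nat_lit 5777240879) (nat_lit 76) (nat_lit 2561812486) (nat_lit 95) (nat_lit 5) (nat_lit 100) (nat_lit 5) (nat_lit 96) (nat_lit 5) (nat_lit 485) (nat_lit 382) (nat_lit 273)) (XT.lf (nat_lit 0) (nat_lit 2685401769) (nat_lit 304) (nat_lit 7539498538) (nat_lit 380) (nat_lit 4785852040) (nat_lit 91) (nat_lit 5) (nat_lit 95) (nat_lit 5) (nat_lit 96) (nat_lit 5) (nat_lit 486) (nat_lit 382) (nat_lit 272))))) (XT.nd (nat_lit 234) (nat_lit 608) (nat_lit 0) (XT.nd (nat_lit 78) (nat_lit 380) (nat_lit 0) (XT.lf (nat_lit 0) (nat_lit 11364225599) (nat_lit 304) (nat_lit 2697395967) (nat_lit 380)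 (nat_lit 1142088264) (nat_lit 91) (nat_lit 5) (nat_lit 95) (nat_lit 5) (nat_lit 96) (nat_lit 5) (nat_lit 487) (nat_lit 382) (nat_lit 271)) (XT.nd (nat_lit 78) (nat_lit 0) (nat_lit 0) (XT.lf (nat_lit 0) (nat_lit 2567557885) (nat_lit 380) (nat_lit 10583030577) (nat_lit 76) (nat_lit 2249072240) (nat_lit 86) (nat_lit 5) (nat_lit 91) (nat_lit 5) (nat_lit 87) (nat_lit 5) (nat_lit 488) (nat_lit 382) (nat_lit 270)) (XT.lf (nat_lit 0) (nat_lit 6360628099) (nat_lit 380) (nat_lit 1957839737) (nat_lit 76) (nat_lit 7280425227) (nat_lit 86) (nat_lit 5) (nat_lit 91) (nat_lit 5) (nat_lit 87) (nat_lit 5) (nat_lit 489) (nat_lit 382) (nat_lit 269)))) (XT.nd (nat_lit 78) (nat_lit 380) (nat_lit 0) (XT.lf (nat_lit 0) (nat_lit 6899819093) (nat_lit 228) (nat_lit 3355627326) (nat_lit 304) (nat_lit 5546149770) (nat_lit 83) (nat_lit 5) (nat_lit 86) (nat_lit 5) (nat_lit 87) (nat_lit 5) (nat_lit 490) (nat_lit 382) (nat_lit 268)) (XT.nd (nat_lit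 78) (nat_lit 380) (nat_lit 0) (XT.lf (nat_lit 0) (nat_lit 14233652943) (nat_lit 304) (nat_lit 88717657) (nat_lit 76) (nat_lit 1685876719) (nat_lit 83) (nat_lit 5) (nat_lit 87) (nat_lit 5) (nat_lit 84) (nat_lit 5) (nat_lit 491) (nat_lit 382) (nat_lit 267)) (XT.lf (nat_lit 0) (nat_lit 2107610783) (nat_lit 380) (nat_lit 7265721044) (nat_lit 76) (nat_lit 6844186199) (nat_lit 78) (nat_lit 5) (nat_lit 83) (nat_lit 5) (nat_lit 79) (nat_lit 5) (nat_lit 492) (nat_lit 382) (nat_lit 266))))))) (XT.nd (nat_lit 858) (nat_lit 228) (nat_lit 0) (XT.nd (nat_lit 390) (nat_lit 760) (nat_lit 0) (XT.nd (nat_lit 156) (nat_lit 608) (nat_lit 0) (XT.nd (nat_lit 78) (nat_lit 0) (nat_lit 0) (XT.lf (nat_lit 0) (nat_lit 1724137861) (nat_lit 228) (nat_lit 4312975485) (nat_lit 304) (nat_lit 10393761455) (nat_lit 75) (nat_lit 5) (nat_lit 78) (nat_lit 5) (nat_lit 79) (nat_lit 5) (nat_lit 493) (nat_lit 382) (nat_lit 265)) (XT.lf (nat_lit 0) (nat_lit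 10081485788) (nat_lit 304) (nat_lit 5691248556) (nat_lit 76) (nat_lit 875042263) (nat_lit 75) (nat_lit 5) (nat_lit 79) (nat_lit 5) (nat_lit 76) (nat_lit 5) (nat_lit 494) (nat_lit 382) (nat_lit 264))) (XT.nd (nat_lit 78) (nat_lit 304) (nat_lit 0) (XT.lf (nat_lit 0) (nat_lit 3492204205) (nat_lit 304) (nat_lit 10747827462) (nat_lit 380) (nat_lit 2628322482) (nat_lit 71) (nat_lit 5) (nat_lit 75) (nat_lit 5) (nat_lit 76) (nat_lit 5) (nat_lit 495) (nat_lit 382) (nat_lit 263)) (XT.nd (nat_lit 78) (nat_lit 228) (nat_lit 0) (XT.lf (nat_lit 0) (nat_lit 1390729803) (nat_lit 380) (nat_lit 4195004598) (nat_lit 76) (nat_lit 11507021166) (nat_lit 70) (nat_lit 5) (nat_lit 75) (nat_lit 5) (nat_lit 71) (nat_lit 5) (nat_lit 496) (nat_lit 382) (nat_lit 262)) (XT.lf (nat_lit 0) (nat_lit 5191394397) (nat_lit 228) (nat_lit 279755128) (nat_lit 304) (nat_lit 11849827654) (nat_lit 67) (nat_lit 5) (nat_lit 70) (nat_lit 5) (nat_lit 71) (nat_lit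 5) (nat_lit 497) (nat_lit 382) (nat_lit 261))))) (XT.nd (nat_lit 234) (nat_lit 456) (nat_lit 0) (XT.nd (nat_lit 78) (nat_lit 304) (nat_lit 0) (XT.lf (nat_lit 0) (nat_lit 9677360650) (nat_lit 304) (nat_lit 2793458391) (nat_lit 76) (nat_lit 5082063684) (nat_lit 67) (nat_lit 5) (nat_lit 71) (nat_lit 5) (nat_lit 68) (nat_lit 5) (nat_lit 498) (nat_lit 382) (nat_lit 260)) (XT.nd (nat_lit 78) (nat_lit 76) (nat_lit 0) (XT.lf (nat_lit 0) (nat_lit 6787997956) (nat_lit 228) (nat_lit 7208488898) (nat_lit 304) (nat_lit 3792366809) (nat_lit 64) (nat_lit 5) (nat_lit 67) (nat_lit 5) (nat_lit 68) (nat_lit 5) (nat_lit 499) (nat_lit 382) (nat_lit 259)) (XT.lf (nat_lit 0) (nat_lit 369338765) (nat_lit 304) (nat_lit 1461367901) (nat_lit 76) (nat_lit 16198756529) (nat_lit 63) (nat_lit 5) (nat_lit 67) (nat_lit 5) (nat_lit 64) (nat_lit 5) (nat_lit 500) (nat_lit 382) (nat_lit 258)))) (XT.nd (nat_lit 78) (nat_lit 228) (nat_lit 0) (XT.lf (nat_lit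 0) (nat_lit 4625013929) (nat_lit 304) (nat_lit 9972886485) (nat_lit 76) (nat_lit 3675255766) (nat_lit 60) (nat_lit 5) (nat_lit 64) (nat_lit 5) (nat_lit 61) (nat_lit 5) (nat_lit 501) (nat_lit 382) (nat_lit 257)) (XT.nd (nat_lit 78) (nat_lit 228) (nat_lit 0) (XT.lf (nat_lit 0) (nat_lit 8971110249) (nat_lit 304) (nat_lit 284889128) (nat_lit 76) (nat_lit 9265620359) (nat_lit 60) (nat_lit 5) (nat_lit 64) (nat_lit 5) (nat_lit 61) (nat_lit 5) (nat_lit 502) (nat_lit 382) (nat_lit 256)) (XT.lf (nat_lit 0) (nat_lit 9696467844) (nat_lit 228) (nat_lit 3754256038) (nat_lit 304) (nat_lit 5323399580) (nat_lit 57) (nat_lit 5) (nat_lit 60) (nat_lit 5) (nat_lit 61) (nat_lit 5) (nat_lit 503) (nat_lit 382) (nat_lit 255)))))) (XT.nd (nat_lit 50232) (nat_lit 0) (nat_lit 45828) (XT.nd (nat_lit 49998) (nat_lit 0) (nat_lit 46740) (XT.nd (nat_lit 49920) (nat_lit 0) (nat_lit 47500) (XT.lf (nat_lit 0) (nat_lit 820721231) (nat_lit 228) (nat_lit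 17202231814) (nat_lit 304) (nat_lit 1008666502) (nat_lit 54) (nat_lit 5) (nat_lit 57) (nat_lit 5) (nat_lit 58) (nat_lit 5) (nat_lit 504) (nat_lit 382) (nat_lit 254)) (XT.lf (nat_lit 0) (nat_lit 1217007871) (nat_lit 0) (nat_lit 1217007871) (nat_lit 228) (nat_lit 795802390) (nat_lit 679) (nat_lit 5) (nat_lit 679) (nat_lit 3) (nat_lit 682) (nat_lit 3) (nat_lit 383) (nat_lit 383) (nat_lit 374))) (XT.nd (nat_lit 78) (nat_lit 380) (nat_lit 0) (XT.lf (nat_lit 0) (nat_lit 1221052354) (nat_lit 380) (nat_lit 915438808) (nat_lit 380) (nat_lit 4329672286) (nat_lit 674) (nat_lit 3) (nat_lit 679) (nat_lit 3) (nat_lit 679) (nat_lit 5) (nat_lit 384) (nat_lit 383) (nat_lit 373)) (XT.nd (nat_lit 78) (nat_lit 380) (nat_lit 0) (XT.lf (nat_lit 76) (nat_lit 2238175114) (nat_lit 0) (nat_lit 1771386087) (nat_lit 380) (nat_lit 2464287182) (nat_lit 675) (nat_lit 5) (nat_lit 674) (nat_lit 3) (nat_lit 679) (nat_lit 5) (nat_lit 385) (nat_lit 383)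 (nat_lit 372)) (XT.lf (nat_lit 0) (nat_lit 300482416) (nat_lit 380) (nat_lit 1055112006) (nat_lit 456) (nat_lit 5127433724) (nat_lit 669) (nat_lit 5) (nat_lit 674) (nat_lit 3) (nat_lit 675) (nat_lit 5) (nat_lit 386) (nat_lit 383) (nat_lit 371))))) (XT.nd (nat_lit 234) (nat_lit 532) (nat_lit 0) (XT.nd (nat_lit 78) (nat_lit 380) (nat_lit 0) (XT.lf (nat_lit 76) (nat_lit 2163506426) (nat_lit 0) (nat_lit 866579100) (nat_lit 456) (nat_lit 3463182100) (nat_lit 670) (nat_lit 5) (nat_lit 669) (nat_lit 5) (nat_lit 675) (nat_lit 5) (nat_lit 387) (nat_lit 383) (nat_lit 370)) (XT.nd (nat_lit 78) (nat_lit 380) (nat_lit 0) (XT.lf (nat_lit 76) (nat_lit 5423437927) (nat_lit 0) (nat_lit 327540517) (nat_lit 456) (nat_lit 754051069) (nat_lit 670) (nat_lit 5) (nat_lit 669) (nat_lit 5) (nat_lit 675) (nat_lit 5) (nat_lit 388) (nat_lit 383) (nat_lit 369)) (XT.lf (nat_lit 0) (nat_lit 1929581055) (nat_lit 456) (nat_lit 4309873751) (nat_lit 532)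 (nat_lit 278427083) (nat_lit 664) (nat_lit 5) (nat_lit 670) (nat_lit 5) (nat_lit 671) (nat_lit 5) (nat_lit 389) (nat_lit 383) (nat_lit 368)))) (XT.nd (nat_lit 78) (nat_lit 532) (nat_lit 0) (XT.lf (nat_lit 0) (nat_lit 4598086236) (nat_lit 456) (nat_lit 998968798) (nat_lit 532) (nat_lit 935059245) (nat_lit 664) (nat_lit 5) (nat_lit 670) (nat_lit 5) (nat_lit 671) (nat_lit 5) (nat_lit 390) (nat_lit 383) (nat_lit 367)) (XT.nd (nat_lit 78) (nat_lit 0) (nat_lit 0) (XT.lf (nat_lit 0) (nat_lit 711343902) (nat_lit 532) (nat_lit 4181345744) (nat_lit 608) (nat_lit 1654924839) (nat_lit 657) (nat_lit 5) (nat_lit 664) (nat_lit 5) (nat_lit 665) (nat_lit 5) (nat_lit 391) (nat_lit 383) (nat_lit 366)) (XT.lf (nat_lit 0) (nat_lit 3324230917) (nat_lit 532) (nat_lit 802674585) (nat_lit 608) (nat_lit 2437499223) (nat_lit 657) (nat_lit 5) (nat_lit 664) (nat_lit 5) (nat_lit 665) (nat_lit 5) (nat_lit 392) (nat_lit 383) (nat_lit 365))))))))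
noncomputable def xc103 : XT := (XT.nd (nat_lit 1638) (nat_lit 15960) (nat_lit 0) (XT.nd (nat_lit 780) (nat_lit 6840) (nat_lit 0) (XT.nd (nat_lit 390) (nat_lit 2356) (nat_lit 0) (XT.nd (nat_lit 156) (nat_lit 684) (nat_lit 0) (XT.nd (nat_lit 78) (nat_lit 608) (nat_lit 0) (XT.lf (nat_lit 76) (nat_lit 2640073714) (nat_lit 0) (nat_lit 3301474497) (nat_lit 608) (nat_lit 640984002) (nat_lit 658) (nat_lit 5) (nat_lit 657) (nat_lit 5) (nat_lit 665) (nat_lit 5) (nat_lit 393) (nat_lit 383) (nat_lit 364)) (XT.lf (nat_lit 0) (nat_lit 1924840198) (nat_lit 608) (nat_lit 490213855) (nat_lit 684) (nat_lit 4186930029) (nat_lit 649) (nat_lit 5) (nat_lit 657) (nat_lit 5) (nat_lit 658) (nat_lit 5) (nat_lit 394) (nat_lit 383) (nat_lit 363))) (XT.nd (nat_lit 78) (nat_lit 684) (nat_lit 0) (XT.lf (nat_lit 76) (nat_lit 3028541188) (nat_lit 0) (nat_lit 1461383688) (nat_lit 684) (nat_lit 2132727144) (nat_lit 650) (nat_lit 5) (nat_lit 649) (nat_lit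 5) (nat_lit 658) (nat_lit 5) (nat_lit 395) (nat_lit 383) (nat_lit 362)) (XT.nd (nat_lit 78) (nat_lit 0) (nat_lit 76) (XT.lf (nat_lit 0) (nat_lit 397218402) (nat_lit 684) (nat_lit 61008370) (nat_lit 760) (nat_lit 6186672994) (nat_lit 640) (nat_lit 5) (nat_lit 649) (nat_lit 5) (nat_lit 650) (nat_lit 5) (nat_lit 396) (nat_lit 383) (nat_lit 361)) (XT.lf (nat_lit 0) (nat_lit 2914887793) (nat_lit 684) (nat_lit 3135036667) (nat_lit 76) (nat_lit 618112282) (nat_lit 641) (nat_lit 5) (nat_lit 650) (nat_lit 5) (nat_lit 642) (nat_lit 5) (nat_lit 397) (nat_lit 383) (nat_lit 360))))) (XT.nd (nat_lit 156) (nat_lit 1672) (nat_lit 0) (XT.nd (nat_lit 78) (nat_lit 76) (nat_lit 0) (XT.lf (nat_lit 0) (nat_lit 472222607) (nat_lit 684) (nat_lit 4956931244) (nat_lit 760) (nat_lit 1263596827) (nat_lit 632) (nat_lit 5) (nat_lit 641) (nat_lit 5) (nat_lit 642) (nat_lit 5) (nat_lit 398) (nat_lit 383) (nat_lit 359)) (XT.lf (nat_lit 0) (nat_lit 1220421616)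 (nat_lit 760) (nat_lit 2571433057) (nat_lit 76) (nat_lit 2926747987) (nat_lit 631) (nat_lit 5) (nat_lit 641) (nat_lit 5) (nat_lit 632) (nat_lit 5) (nat_lit 399) (nat_lit 383) (nat_lit 358))) (XT.nd (nat_lit 78) (nat_lit 912) (nat_lit 0) (XT.lf (nat_lit 0) (nat_lit 1118120489) (nat_lit 760) (nat_lit 2567757591) (nat_lit 836) (nat_lit 3059989839) (nat_lit 621) (nat_lit 5) (nat_lit 631) (nat_lit 5) (nat_lit 632) (nat_lit 5) (nat_lit 400) (nat_lit 383) (nat_lit 357)) (XT.nd (nat_lit 78) (nat_lit 912) (nat_lit 0) (XT.lf (nat_lit 0) (nat_lit 4877757420) (nat_lit 760) (nat_lit 1282442339) (nat_lit 836) (nat_lit 614323709) (nat_lit 621) (nat_lit 5) (nat_lit 631) (nat_lit 5) (nat_lit 632) (nat_lit 5) (nat_lit 401) (nat_lit 383) (nat_lit 356)) (XT.lf (nat_lit 0) (nat_lit 1811308612) (nat_lit 912) (nat_lit 4922185023) (nat_lit 76) (nat_lit 70934787) (nat_lit 609) (nat_lit 5) (nat_lit 621) (nat_lit 5) (nat_lit 610) (nat_lit 5) (nat_lit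 402) (nat_lit 383) (nat_lit 355)))))) (XT.nd (nat_lit 390) (nat_lit 3724) (nat_lit 0) (XT.nd (nat_lit 156) (nat_lit 2204) (nat_lit 0) (XT.nd (nat_lit 78) (nat_lit 912) (nat_lit 0) (XT.lf (nat_lit 0) (nat_lit 4242546861) (nat_lit 912) (nat_lit 1124395857) (nat_lit 76) (nat_lit 1468635186) (nat_lit 609) (nat_lit 5) (nat_lit 621) (nat_lit 5) (nat_lit 610) (nat_lit 5) (nat_lit 403) (nat_lit 383) (nat_lit 354)) (XT.lf (nat_lit 0) (nat_lit 2746529646) (nat_lit 912) (nat_lit 3938816246) (nat_lit 988) (nat_lit 182779120) (nat_lit 597) (nat_lit 5) (nat_lit 609) (nat_lit 5) (nat_lit 610) (nat_lit 5) (nat_lit 404) (nat_lit 383) (nat_lit 353))) (XT.nd (nat_lit 78) (nat_lit 2128) (nat_lit 0) (XT.lf (nat_lit 0) (nat_lit 2198966417) (nat_lit 988) (nat_lit 245223158) (nat_lit 76) (nat_lit 4457807357) (nat_lit 596) (nat_lit 5) (nat_lit 609) (nat_lit 5) (nat_lit 597) (nat_lit 5) (nat_lit 405) (nat_lit 383) (nat_lit 352)) (XT.nd (nat_lit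 78) (nat_lit 1140) (nat_lit 0) (XT.lf (nat_lit 0) (nat_lit 3717654168) (nat_lit 988) (nat_lit 878992153) (nat_lit 1064) (nat_lit 2340492301) (nat_lit 583) (nat_lit 5) (nat_lit 596) (nat_lit 5) (nat_lit 597) (nat_lit 5) (nat_lit 406) (nat_lit 383) (nat_lit 351)) (XT.lf (nat_lit 0) (nat_lit 26804941) (nat_lit 1140) (nat_lit 6218099736) (nat_lit 76) (nat_lit 728931341) (nat_lit 568) (nat_lit 5) (nat_lit 583) (nat_lit 5) (nat_lit 569) (nat_lit 5) (nat_lit 407) (nat_lit 383) (nat_lit 350))))) (XT.nd (nat_lit 234) (nat_lit 2508) (nat_lit 0) (XT.nd (nat_lit 78) (nat_lit 1216) (nat_lit 0) (XT.lf (nat_lit 0) (nat_lit 2385607196) (nat_lit 1140) (nat_lit 2218150476) (nat_lit 76) (nat_lit 2407719934) (nat_lit 568) (nat_lit 5) (nat_lit 583) (nat_lit 5) (nat_lit 569) (nat_lit 5) (nat_lit 408) (nat_lit 383) (nat_lit 349)) (XT.nd (nat_lit 78) (nat_lit 76) (nat_lit 0) (XT.lf (nat_lit 0) (nat_lit 1846849500) (nat_lit 1140) (nat_lit 2905648843)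 (nat_lit 1216) (nat_lit 2298184465) (nat_lit 553) (nat_lit 5) (nat_lit 568) (nat_lit 5) (nat_lit 569) (nat_lit 5) (nat_lit 409) (nat_lit 383) (nat_lit 348)) (XT.lf (nat_lit 0) (nat_lit 39350613) (nat_lit 1216) (nat_lit 1107363598) (nat_lit 76) (nat_lit 5944690081) (nat_lit 552) (nat_lit 5) (nat_lit 568) (nat_lit 5) (nat_lit 553) (nat_lit 5) (nat_lit 410) (nat_lit 383) (nat_lit 347)))) (XT.nd (nat_lit 78) (nat_lit 1292) (nat_lit 0) (XT.lf (nat_lit 0) (nat_lit 2367550398) (nat_lit 1292) (nat_lit 4080693588) (nat_lit 76) (nat_lit 684926031) (nat_lit 536) (nat_lit 5) (nat_lit 553) (nat_lit 5) (nat_lit 537) (nat_lit 5) (nat_lit 411) (nat_lit 383) (nat_lit 346)) (XT.nd (nat_lit 78) (nat_lit 0) (nat_lit 0) (XT.lf (nat_lit 0) (nat_lit 88766878) (nat_lit 1292) (nat_lit 4620292679) (nat_lit 1368) (nat_lit 2467403420) (nat_lit 519) (nat_lit 5) (nat_lit 536) (nat_lit 5) (nat_lit 537) (nat_lit 5) (nat_lit 412) (nat_lit 383) (nat_lit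 345)) (XT.lf (nat_lit 0) (nat_lit 4357536924) (nat_lit 1292) (nat_lit 2719043436) (nat_lit 1368) (nat_lit 144484109) (nat_lit 519) (nat_lit 5) (nat_lit 536) (nat_lit 5) (nat_lit 537) (nat_lit 5) (nat_lit 413) (nat_lit 383) (nat_lit 344))))))) (XT.nd (nat_lit 858) (nat_lit 5244) (nat_lit 0) (XT.nd (nat_lit 390) (nat_lit 6232) (nat_lit 0) (XT.nd (nat_lit 156) (nat_lit 3040) (nat_lit 0) (XT.nd (nat_lit 78) (nat_lit 0) (nat_lit 0) (XT.lf (nat_lit 0) (nat_lit 1409889991) (nat_lit 1368) (nat_lit 747382248) (nat_lit 1444) (nat_lit 5109790952) (nat_lit 500) (nat_lit 5) (nat_lit 518) (nat_lit 5) (nat_lit 519) (nat_lit 5) (nat_lit 414) (nat_lit 383) (nat_lit 343)) (XT.lf (nat_lit 0) (nat_lit 4483814507) (nat_lit 1444) (nat_lit 1555330579) (nat_lit 76) (nat_lit 1275228778) (nat_lit 500) (nat_lit 5) (nat_lit 519) (nat_lit 5) (nat_lit 501) (nat_lit 5) (nat_lit 415) (nat_lit 383) (nat_lit 342))) (XT.nd (nat_lit 78) (nat_lit 1596)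 (nat_lit 0) (XT.lf (nat_lit 0) (nat_lit 2825404251) (nat_lit 1444) (nat_lit 4008831960) (nat_lit 1520) (nat_lit 528871866) (nat_lit 481) (nat_lit 5) (nat_lit 500) (nat_lit 5) (nat_lit 501) (nat_lit 5) (nat_lit 416) (nat_lit 383) (nat_lit 341)) (XT.nd (nat_lit 78) (nat_lit 1520) (nat_lit 0) (XT.lf (nat_lit 0) (nat_lit 1759879914) (nat_lit 1520) (nat_lit 149272020) (nat_lit 76) (nat_lit 5504154512) (nat_lit 480) (nat_lit 5) (nat_lit 500) (nat_lit 5) (nat_lit 481) (nat_lit 5) (nat_lit 417) (nat_lit 383) (nat_lit 340)) (XT.lf (nat_lit 0) (nat_lit 4072550931) (nat_lit 1596) (nat_lit 3125029641) (nat_lit 76) (nat_lit 267176675) (nat_lit 460) (nat_lit 5) (nat_lit 481) (nat_lit 5) (nat_lit 461) (nat_lit 5) (nat_lit 418) (nat_lit 383) (nat_lit 339))))) (XT.nd (nat_lit 234) (nat_lit 2888) (nat_lit 0) (XT.nd (nat_lit 78) (nat_lit 1748) (nat_lit 0) (XT.lf (nat_lit 0) (nat_lit 1369089501) (nat_lit 1596) (nat_lit 5040862244) (nat_lit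 1672) (nat_lit 1107738240) (nat_lit 439) (nat_lit 5) (nat_lit 460) (nat_lit 5) (nat_lit 461) (nat_lit 5) (nat_lit 419) (nat_lit 383) (nat_lit 338)) (XT.nd (nat_lit 78) (nat_lit 1672) (nat_lit 0) (XT.lf (nat_lit 0) (nat_lit 1183731580) (nat_lit 1672) (nat_lit 1623759044) (nat_lit 76) (nat_lit 4764506702) (nat_lit 438) (nat_lit 5) (nat_lit 460) (nat_lit 5) (nat_lit 439) (nat_lit 5) (nat_lit 420) (nat_lit 383) (nat_lit 337)) (XT.lf (nat_lit 0) (nat_lit 2984291483) (nat_lit 1672) (nat_lit 498389859) (nat_lit 1748) (nat_lit 4145054521) (nat_lit 416) (nat_lit 5) (nat_lit 438) (nat_lit 5) (nat_lit 439) (nat_lit 5) (nat_lit 421) (nat_lit 383) (nat_lit 336)))) (XT.nd (nat_lit 78) (nat_lit 2888) (nat_lit 0) (XT.lf (nat_lit 0) (nat_lit 5808339801) (nat_lit 1748) (nat_lit 29709856) (nat_lit 76) (nat_lit 1846945658) (nat_lit 416) (nat_lit 5) (nat_lit 439) (nat_lit 5) (nat_lit 417) (nat_lit 5) (nat_lit 422) (nat_lit 383) (nat_lit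 335)) (XT.nd (nat_lit 78) (nat_lit 1064) (nat_lit 0) (XT.lf (nat_lit 0) (nat_lit 423629949) (nat_lit 1824) (nat_lit 3050722861) (nat_lit 76) (nat_lit 4269165296) (nat_lit 392) (nat_lit 5) (nat_lit 416) (nat_lit 5) (nat_lit 393) (nat_lit 5) (nat_lit 423) (nat_lit 383) (nat_lit 334)) (XT.lf (nat_lit 0) (nat_lit 1677258198) (nat_lit 1064) (nat_lit 1037454253) (nat_lit 1140) (nat_lit 5088871953) (nat_lit 378) (nat_lit 5) (nat_lit 392) (nat_lit 5) (nat_lit 393) (nat_lit 5) (nat_lit 424) (nat_lit 383) (nat_lit 333)))))) (XT.nd (nat_lit 390) (nat_lit 2584) (nat_lit 0) (XT.nd (nat_lit 156) (nat_lit 1748) (nat_lit 0) (XT.nd (nat_lit 78) (nat_lit 912) (nat_lit 0) (XT.lf (nat_lit 0) (nat_lit 5040997589) (nat_lit 1140) (nat_lit 1372668508) (nat_lit 76) (nat_lit 1451417473) (nat_lit 378) (nat_lit 5) (nat_lit 393) (nat_lit 5) (nat_lit 379) (nat_lit 5) (nat_lit 425) (nat_lit 383) (nat_lit 332)) (XT.lf (nat_lit 0) (nat_lit 3475717615)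 (nat_lit 912) (nat_lit 3927695578) (nat_lit 988) (nat_lit 524626214) (nat_lit 366) (nat_lit 5) (nat_lit 378) (nat_lit 5) (nat_lit 379) (nat_lit 5) (nat_lit 426) (nat_lit 383) (nat_lit 331))) (XT.nd (nat_lit 78) (nat_lit 836) (nat_lit 0) (XT.lf (nat_lit 0) (nat_lit 401646944) (nat_lit 836) (nat_lit 1367593655) (nat_lit 912) (nat_lit 6223349411) (nat_lit 354) (nat_lit 5) (nat_lit 365) (nat_lit 5) (nat_lit 366) (nat_lit 5) (nat_lit 427) (nat_lit 383) (nat_lit 330)) (XT.nd (nat_lit 78) (nat_lit 836) (nat_lit 0) (XT.lf (nat_lit 0) (nat_lit 4101057189) (nat_lit 912) (nat_lit 2696419629) (nat_lit 76) (nat_lit 1260921210) (nat_lit 354) (nat_lit 5) (nat_lit 366) (nat_lit 5) (nat_lit 355) (nat_lit 5) (nat_lit 428) (nat_lit 383) (nat_lit 329)) (XT.lf (nat_lit 0) (nat_lit 2277706165) (nat_lit 836) (nat_lit 4187355448) (nat_lit 912) (nat_lit 1660766916) (nat_lit 343) (nat_lit 5) (nat_lit 354) (nat_lit 5) (nat_lit 355) (nat_lit 5)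 (nat_lit 429) (nat_lit 383) (nat_lit 328))))) (XT.nd (nat_lit 234) (nat_lit 836) (nat_lit 0) (XT.nd (nat_lit 78) (nat_lit 1672) (nat_lit 0) (XT.lf (nat_lit 0) (nat_lit 652949353) (nat_lit 912) (nat_lit 850295698) (nat_lit 76) (nat_lit 6691687703) (nat_lit 342) (nat_lit 5) (nat_lit 354) (nat_lit 5) (nat_lit 343) (nat_lit 5) (nat_lit 430) (nat_lit 383) (nat_lit 327)) (XT.nd (nat_lit 78) (nat_lit 836) (nat_lit 0) (XT.lf (nat_lit 0) (nat_lit 2989287781) (nat_lit 912) (nat_lit 4019992543) (nat_lit 76) (nat_lit 1255963829) (nat_lit 331) (nat_lit 5) (nat_lit 343) (nat_lit 5) (nat_lit 332) (nat_lit 5) (nat_lit 431) (nat_lit 383) (nat_lit 326)) (XT.lf (nat_lit 0) (nat_lit 1082506405) (nat_lit 836) (nat_lit 4275730922) (nat_lit 912) (nat_lit 2979022797) (nat_lit 320) (nat_lit 5) (nat_lit 331) (nat_lit 5) (nat_lit 332) (nat_lit 5) (nat_lit 432) (nat_lit 383) (nat_lit 325)))) (XT.nd (nat_lit 78) (nat_lit 836) (nat_lit 0) (XT.lf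 (nat_lit 0) (nat_lit 6302718539) (nat_lit 836) (nat_lit 1462450916) (nat_lit 912) (nat_lit 645750606) (nat_lit 320) (nat_lit 5) (nat_lit 331) (nat_lit 5) (nat_lit 332) (nat_lit 5) (nat_lit 433) (nat_lit 383) (nat_lit 324)) (XT.nd (nat_lit 78) (nat_lit 0) (nat_lit 0) (XT.lf (nat_lit 0) (nat_lit 1705198425) (nat_lit 836) (nat_lit 5362936123) (nat_lit 76) (nat_lit 1417833455) (nat_lit 309) (nat_lit 5) (nat_lit 320) (nat_lit 5) (nat_lit 310) (nat_lit 5) (nat_lit 434) (nat_lit 383) (nat_lit 323)) (XT.lf (nat_lit 0) (nat_lit 4082979925) (nat_lit 836) (nat_lit 127833642) (nat_lit 76) (nat_lit 4351863578) (nat_lit 309) (nat_lit 5) (nat_lit 320) (nat_lit 5) (nat_lit 310) (nat_lit 5) (nat_lit 435) (nat_lit 383) (nat_lit 322))))))))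
noncomputable def xc104 : XT := (XT.nd (nat_lit 1638) (nat_lit 5852) (nat_lit 0) (XT.nd (nat_lit 780) (nat_lit 3648) (nat_lit 0) (XT.nd (nat_lit 390) (nat_lit 2052) (nat_lit 0) (XT.nd (nat_lit 156) (nat_lit 1444) (nat_lit 0) (XT.nd (nat_lit 78) (nat_lit 760) (nat_lit 0) (XT.lf (nat_lit 0) (nat_lit 5242480322) (nat_lit 760) (nat_lit 1265096028) (nat_lit 836) (nat_lit 2133373455) (nat_lit 299) (nat_lit 5) (nat_lit 309) (nat_lit 5) (nat_lit 310) (nat_lit 5) (nat_lit 436) (nat_lit 383) (nat_lit 321)) (XT.lf (nat_lit 0) (nat_lit 247020012) (nat_lit 760) (nat_lit 6745494123) (nat_lit 76) (nat_lit 1728442962) (nat_lit 289) (nat_lit 5) (nat_lit 299) (nat_lit 5) (nat_lit 290) (nat_lit 5) (nat_lit 437) (nat_lit 383) (nat_lit 320))) (XT.nd (nat_lit 78) (nat_lit 1444) (nat_lit 0) (XT.lf (nat_lit 0) (nat_lit 2643635881) (nat_lit 760) (nat_lit 1360710555) (nat_lit 76) (nat_lit 4798006143) (nat_lit 289) (nat_lit 5) (nat_lit 299) (nat_lit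 5) (nat_lit 290) (nat_lit 5) (nat_lit 438) (nat_lit 383) (nat_lit 319)) (XT.nd (nat_lit 78) (nat_lit 684) (nat_lit 0) (XT.lf (nat_lit 0) (nat_lit 4148047634) (nat_lit 760) (nat_lit 933557557) (nat_lit 836) (nat_lit 3803915772) (nat_lit 279) (nat_lit 5) (nat_lit 289) (nat_lit 5) (nat_lit 290) (nat_lit 5) (nat_lit 439) (nat_lit 383) (nat_lit 318)) (XT.lf (nat_lit 0) (nat_lit 772535293) (nat_lit 684) (nat_lit 6791150471) (nat_lit 760) (nat_lit 1406773064) (nat_lit 270) (nat_lit 5) (nat_lit 279) (nat_lit 5) (nat_lit 280) (nat_lit 5) (nat_lit 440) (nat_lit 383) (nat_lit 317))))) (XT.nd (nat_lit 156) (nat_lit 1292) (nat_lit 0) (XT.nd (nat_lit 78) (nat_lit 684) (nat_lit 0) (XT.lf (nat_lit 0) (nat_lit 1029919966) (nat_lit 760) (nat_lit 2651346325) (nat_lit 76) (nat_lit 5375602470) (nat_lit 269) (nat_lit 5) (nat_lit 279) (nat_lit 5) (nat_lit 270) (nat_lit 5) (nat_lit 441) (nat_lit 383) (nat_lit 316)) (XT.lf (nat_lit 0) (nat_lit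 2998213225) (nat_lit 684) (nat_lit 485468338) (nat_lit 760) (nat_lit 5661408321) (nat_lit 260) (nat_lit 5) (nat_lit 269) (nat_lit 5) (nat_lit 270) (nat_lit 5) (nat_lit 442) (nat_lit 383) (nat_lit 315))) (XT.nd (nat_lit 78) (nat_lit 1292) (nat_lit 0) (XT.lf (nat_lit 0) (nat_lit 5990479027) (nat_lit 760) (nat_lit 494464313) (nat_lit 76) (nat_lit 2750065025) (nat_lit 260) (nat_lit 5) (nat_lit 270) (nat_lit 5) (nat_lit 261) (nat_lit 5) (nat_lit 443) (nat_lit 383) (nat_lit 314)) (XT.nd (nat_lit 78) (nat_lit 684) (nat_lit 0) (XT.lf (nat_lit 0) (nat_lit 5299721073) (nat_lit 608) (nat_lit 3253981023) (nat_lit 684) (nat_lit 772909239) (nat_lit 252) (nat_lit 5) (nat_lit 260) (nat_lit 5) (nat_lit 261) (nat_lit 5) (nat_lit 444) (nat_lit 383) (nat_lit 313)) (XT.lf (nat_lit 0) (nat_lit 1709273895) (nat_lit 684) (nat_lit 7649941549) (nat_lit 76) (nat_lit 60934211) (nat_lit 243) (nat_lit 5) (nat_lit 252) (nat_lit 5) (nat_lit 244) (nat_lit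 5) (nat_lit 445) (nat_lit 383) (nat_lit 312)))))) (XT.nd (nat_lit 390) (nat_lit 1824) (nat_lit 0) (XT.nd (nat_lit 156) (nat_lit 1216) (nat_lit 0) (XT.nd (nat_lit 78) (nat_lit 608) (nat_lit 0) (XT.lf (nat_lit 0) (nat_lit 4248657509) (nat_lit 684) (nat_lit 1842112739) (nat_lit 76) (nat_lit 3424339420) (nat_lit 243) (nat_lit 5) (nat_lit 252) (nat_lit 5) (nat_lit 244) (nat_lit 5) (nat_lit 446) (nat_lit 383) (nat_lit 311)) (XT.lf (nat_lit 0) (nat_lit 4098287778) (nat_lit 608) (nat_lit 2736900155) (nat_lit 684) (nat_lit 2776864768) (nat_lit 235) (nat_lit 5) (nat_lit 243) (nat_lit 5) (nat_lit 244) (nat_lit 5) (nat_lit 447) (nat_lit 383) (nat_lit 310))) (XT.nd (nat_lit 78) (nat_lit 608) (nat_lit 0) (XT.lf (nat_lit 0) (nat_lit 435314262) (nat_lit 608) (nat_lit 9027901719) (nat_lit 684) (nat_lit 247934063) (nat_lit 227) (nat_lit 5) (nat_lit 235) (nat_lit 5) (nat_lit 236) (nat_lit 5) (nat_lit 448) (nat_lit 383) (nat_lit 309)) (XT.nd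 (nat_lit 78) (nat_lit 532) (nat_lit 0) (XT.lf (nat_lit 0) (nat_lit 2326560486) (nat_lit 684) (nat_lit 3304691942) (nat_lit 76) (nat_lit 4180173229) (nat_lit 226) (nat_lit 5) (nat_lit 235) (nat_lit 5) (nat_lit 227) (nat_lit 5) (nat_lit 449) (nat_lit 383) (nat_lit 308)) (XT.lf (nat_lit 0) (nat_lit 2783672719) (nat_lit 532) (nat_lit 2154407153) (nat_lit 608) (nat_lit 4975827205) (nat_lit 219) (nat_lit 5) (nat_lit 226) (nat_lit 5) (nat_lit 227) (nat_lit 5) (nat_lit 450) (nat_lit 383) (nat_lit 307))))) (XT.nd (nat_lit 234) (nat_lit 608) (nat_lit 0) (XT.nd (nat_lit 78) (nat_lit 1216) (nat_lit 0) (XT.lf (nat_lit 0) (nat_lit 7604250940) (nat_lit 608) (nat_lit 1025939244) (nat_lit 76) (nat_lit 1388209482) (nat_lit 219) (nat_lit 5) (nat_lit 227) (nat_lit 5) (nat_lit 220) (nat_lit 5) (nat_lit 451) (nat_lit 383) (nat_lit 306)) (XT.nd (nat_lit 78) (nat_lit 532) (nat_lit 0) (XT.lf (nat_lit 0) (nat_lit 216052029) (nat_lit 684) (nat_lit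 4908037093) (nat_lit 76) (nat_lit 5000478843) (nat_lit 210) (nat_lit 5) (nat_lit 219) (nat_lit 5) (nat_lit 211) (nat_lit 5) (nat_lit 452) (nat_lit 383) (nat_lit 305)) (XT.lf (nat_lit 0) (nat_lit 1329668798) (nat_lit 532) (nat_lit 1524208903) (nat_lit 608) (nat_lit 7378925247) (nat_lit 203) (nat_lit 5) (nat_lit 210) (nat_lit 5) (nat_lit 211) (nat_lit 5) (nat_lit 453) (nat_lit 383) (nat_lit 304)))) (XT.nd (nat_lit 78) (nat_lit 608) (nat_lit 0) (XT.lf (nat_lit 0) (nat_lit 5563571318) (nat_lit 608) (nat_lit 2635089687) (nat_lit 76) (nat_lit 2144168604) (nat_lit 203) (nat_lit 5) (nat_lit 211) (nat_lit 5) (nat_lit 204) (nat_lit 5) (nat_lit 454) (nat_lit 383) (nat_lit 303)) (XT.nd (nat_lit 78) (nat_lit 76) (nat_lit 0) (XT.lf (nat_lit 0) (nat_lit 3761235053) (nat_lit 532) (nat_lit 4573300746) (nat_lit 608) (nat_lit 2120388492) (nat_lit 196) (nat_lit 5) (nat_lit 203) (nat_lit 5) (nat_lit 204) (nat_lit 5) (nat_lit 455) (nat_lit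 383) (nat_lit 302)) (XT.lf (nat_lit 0) (nat_lit 574376725) (nat_lit 608) (nat_lit 288108776) (nat_lit 76) (nat_lit 9706897660) (nat_lit 195) (nat_lit 5) (nat_lit 203) (nat_lit 5) (nat_lit 196) (nat_lit 5) (nat_lit 456) (nat_lit 383) (nat_lit 301))))))) (XT.nd (nat_lit 780) (nat_lit 2508) (nat_lit 0) (XT.nd (nat_lit 390) (nat_lit 1368) (nat_lit 0) (XT.nd (nat_lit 156) (nat_lit 988) (nat_lit 0) (XT.nd (nat_lit 78) (nat_lit 532) (nat_lit 0) (XT.lf (nat_lit 0) (nat_lit 3327927150) (nat_lit 532) (nat_lit 4426713279) (nat_lit 76) (nat_lit 2930553333) (nat_lit 189) (nat_lit 5) (nat_lit 196) (nat_lit 5) (nat_lit 190) (nat_lit 5) (nat_lit 457) (nat_lit 383) (nat_lit 300)) (XT.lf (nat_lit 0) (nat_lit 2122762223) (nat_lit 532) (nat_lit 4008676510) (nat_lit 608) (nat_lit 4671992379) (nat_lit 182) (nat_lit 5) (nat_lit 189) (nat_lit 5) (nat_lit 190) (nat_lit 5) (nat_lit 458) (nat_lit 383) (nat_lit 299))) (XT.nd (nat_lit 78) (nat_lit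 988) (nat_lit 0) (XT.lf (nat_lit 0) (nat_lit 8827490635) (nat_lit 532) (nat_lit 166973805) (nat_lit 608) (nat_lit 1929508069) (nat_lit 182) (nat_lit 5) (nat_lit 189) (nat_lit 5) (nat_lit 190) (nat_lit 5) (nat_lit 459) (nat_lit 383) (nat_lit 298)) (XT.nd (nat_lit 78) (nat_lit 456) (nat_lit 0) (XT.lf (nat_lit 0) (nat_lit 885172810) (nat_lit 532) (nat_lit 6432063989) (nat_lit 76) (nat_lit 3729008532) (nat_lit 175) (nat_lit 5) (nat_lit 182) (nat_lit 5) (nat_lit 176) (nat_lit 5) (nat_lit 460) (nat_lit 383) (nat_lit 297)) (XT.lf (nat_lit 0) (nat_lit 270748293) (nat_lit 456) (nat_lit 3450905480) (nat_lit 532) (nat_lit 7449235608) (nat_lit 169) (nat_lit 5) (nat_lit 175) (nat_lit 5) (nat_lit 176) (nat_lit 5) (nat_lit 461) (nat_lit 383) (nat_lit 296))))) (XT.nd (nat_lit 156) (nat_lit 912) (nat_lit 0) (XT.nd (nat_lit 78) (nat_lit 456) (nat_lit 0) (XT.lf (nat_lit 0) (nat_lit 6636014808) (nat_lit 532) (nat_lit 4141679701) (nat_lit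 76) (nat_lit 519916349) (nat_lit 169) (nat_lit 5) (nat_lit 176) (nat_lit 5) (nat_lit 170) (nat_lit 5) (nat_lit 462) (nat_lit 383) (nat_lit 295)) (XT.lf (nat_lit 0) (nat_lit 2729764607) (nat_lit 456) (nat_lit 6894478316) (nat_lit 532) (nat_lit 1802319650) (nat_lit 163) (nat_lit 5) (nat_lit 169) (nat_lit 5) (nat_lit 170) (nat_lit 5) (nat_lit 463) (nat_lit 383) (nat_lit 294))) (XT.nd (nat_lit 78) (nat_lit 836) (nat_lit 0) (XT.lf (nat_lit 0) (nat_lit 1102602316) (nat_lit 532) (nat_lit 1805416839) (nat_lit 76) (nat_lit 8649875167) (nat_lit 162) (nat_lit 5) (nat_lit 169) (nat_lit 5) (nat_lit 163) (nat_lit 5) (nat_lit 464) (nat_lit 383) (nat_lit 293)) (XT.nd (nat_lit 78) (nat_lit 380) (nat_lit 0) (XT.lf (nat_lit 0) (nat_lit 4058915503) (nat_lit 532) (nat_lit 6453076730) (nat_lit 76) (nat_lit 1179280668) (nat_lit 156) (nat_lit 5) (nat_lit 163) (nat_lit 5) (nat_lit 157) (nat_lit 5) (nat_lit 465) (nat_lit 383) (nat_lit 292)) (XT.lf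 (nat_lit 0) (nat_lit 573514002) (nat_lit 380) (nat_lit 6511792081) (nat_lit 456) (nat_lit 4741800788) (nat_lit 151) (nat_lit 5) (nat_lit 156) (nat_lit 5) (nat_lit 157) (nat_lit 5) (nat_lit 466) (nat_lit 383) (nat_lit 291)))))) (XT.nd (nat_lit 390) (nat_lit 1216) (nat_lit 0) (XT.nd (nat_lit 156) (nat_lit 760) (nat_lit 0) (XT.nd (nat_lit 78) (nat_lit 532) (nat_lit 0) (XT.lf (nat_lit 0) (nat_lit 7793591603) (nat_lit 380) (nat_lit 2397960887) (nat_lit 456) (nat_lit 1773725177) (nat_lit 151) (nat_lit 5) (nat_lit 156) (nat_lit 5) (nat_lit 157) (nat_lit 5) (nat_lit 467) (nat_lit 383) (nat_lit 290)) (XT.lf (nat_lit 0) (nat_lit 1245193084) (nat_lit 532) (nat_lit 9068372422) (nat_lit 76) (nat_lit 1792331547) (nat_lit 144) (nat_lit 5) (nat_lit 151) (nat_lit 5) (nat_lit 145) (nat_lit 5) (nat_lit 468) (nat_lit 383) (nat_lit 289))) (XT.nd (nat_lit 78) (nat_lit 760) (nat_lit 0) (XT.lf (nat_lit 0) (nat_lit 4321329761) (nat_lit 532)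 (nat_lit 1863457585) (nat_lit 76) (nat_lit 6063901511) (nat_lit 144) (nat_lit 5) (nat_lit 151) (nat_lit 5) (nat_lit 145) (nat_lit 5) (nat_lit 469) (nat_lit 383) (nat_lit 288)) (XT.nd (nat_lit 78) (nat_lit 380) (nat_lit 0) (XT.lf (nat_lit 0) (nat_lit 5524337607) (nat_lit 380) (nat_lit 1947487747) (nat_lit 456) (nat_lit 4922260614) (nat_lit 139) (nat_lit 5) (nat_lit 144) (nat_lit 5) (nat_lit 145) (nat_lit 5) (nat_lit 470) (nat_lit 383) (nat_lit 287)) (XT.lf (nat_lit 0) (nat_lit 500226008) (nat_lit 380) (nat_lit 10193491235) (nat_lit 456) (nat_lit 1848512128) (nat_lit 134) (nat_lit 5) (nat_lit 139) (nat_lit 5) (nat_lit 140) (nat_lit 5) (nat_lit 471) (nat_lit 383) (nat_lit 286))))) (XT.nd (nat_lit 234) (nat_lit 760) (nat_lit 0) (XT.nd (nat_lit 78) (nat_lit 380) (nat_lit 0) (XT.lf (nat_lit 0) (nat_lit 1306346144) (nat_lit 456) (nat_lit 4637177336) (nat_lit 76) (nat_lit 6748920712) (nat_lit 133) (nat_lit 5) (nat_lit 139) (nat_lit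 5) (nat_lit 134) (nat_lit 5) (nat_lit 472) (nat_lit 383) (nat_lit 285)) (XT.nd (nat_lit 78) (nat_lit 0) (nat_lit 0) (XT.lf (nat_lit 0) (nat_lit 2908384604) (nat_lit 380) (nat_lit 1587726678) (nat_lit 456) (nat_lit 8349382155) (nat_lit 128) (nat_lit 5) (nat_lit 133) (nat_lit 5) (nat_lit 134) (nat_lit 5) (nat_lit 473) (nat_lit 383) (nat_lit 284)) (XT.lf (nat_lit 0) (nat_lit 7777341118) (nat_lit 456) (nat_lit 2385430290) (nat_lit 76) (nat_lit 2838284481) (nat_lit 128) (nat_lit 5) (nat_lit 134) (nat_lit 5) (nat_lit 129) (nat_lit 5) (nat_lit 474) (nat_lit 383) (nat_lit 283)))) (XT.nd (nat_lit 78) (nat_lit 380) (nat_lit 0) (XT.lf (nat_lit 0) (nat_lit 5344090008) (nat_lit 380) (nat_lit 5803560463) (nat_lit 456) (nat_lit 2011615525) (nat_lit 123) (nat_lit 5) (nat_lit 128) (nat_lit 5) (nat_lit 129) (nat_lit 5) (nat_lit 475) (nat_lit 383) (nat_lit 282)) (XT.nd (nat_lit 78) (nat_lit 304) (nat_lit 0) (XT.lf (nat_lit 0) (nat_lit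 1242562191) (nat_lit 456) (nat_lit 100945496) (nat_lit 76) (nat_lit 11977085206) (nat_lit 122) (nat_lit 5) (nat_lit 128) (nat_lit 5) (nat_lit 123) (nat_lit 5) (nat_lit 476) (nat_lit 383) (nat_lit 281)) (XT.lf (nat_lit 0) (nat_lit 4585618936) (nat_lit 380) (nat_lit 5680791956) (nat_lit 76) (nat_lit 3217460066) (nat_lit 118) (nat_lit 5) (nat_lit 123) (nat_lit 5) (nat_lit 119) (nat_lit 5) (nat_lit 477) (nat_lit 383) (nat_lit 280))))))))
noncomputable def xc105 : XT := (XT.nd (nat_lit 1638) (nat_lit 760) (nat_lit 0) (XT.nd (nat_lit 780) (nat_lit 1824) (nat_lit 0) (XT.nd (nat_lit 390) (nat_lit 988) (nat_lit 0) (XT.nd (nat_lit 156) (nat_lit 684) (nat_lit 0) (XT.nd (nat_lit 78) (nat_lit 0) (nat_lit 0) (XT.lf (nat_lit 0) (nat_lit 2203809654) (nat_lit 380) (nat_lit 5794488706) (nat_lit 456) (nat_lit 5652066079) (nat_lit 113) (nat_lit 5) (nat_lit 118) (nat_lit 5) (nat_lit 119) (nat_lit 5) (nat_lit 478) (nat_lit 383) (nat_lit 279))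 (XT.lf (nat_lit 0) (nat_lit 10290977596) (nat_lit 380) (nat_lit 1205454176) (nat_lit 456) (nat_lit 2323416992) (nat_lit 113) (nat_lit 5) (nat_lit 118) (nat_lit 5) (nat_lit 119) (nat_lit 5) (nat_lit 479) (nat_lit 383) (nat_lit 278))) (XT.nd (nat_lit 78) (nat_lit 304) (nat_lit 0) (XT.lf (nat_lit 0) (nat_lit 1089492329) (nat_lit 380) (nat_lit 9446800484) (nat_lit 76) (nat_lit 3455660691) (nat_lit 108) (nat_lit 5) (nat_lit 113) (nat_lit 5) (nat_lit 109) (nat_lit 5) (nat_lit 480) (nat_lit 383) (nat_lit 277)) (XT.nd (nat_lit 78) (nat_lit 304) (nat_lit 0) (XT.lf (nat_lit 0) (nat_lit 4550875520) (nat_lit 380) (nat_lit 1393973099) (nat_lit 76) (nat_lit 8222122738) (nat_lit 108) (nat_lit 5) (nat_lit 113) (nat_lit 5) (nat_lit 109) (nat_lit 5) (nat_lit 481) (nat_lit 383) (nat_lit 276)) (XT.lf (nat_lit 0) (nat_lit 6878841796) (nat_lit 304) (nat_lit 1227185606) (nat_lit 380) (nat_lit 6238975947) (nat_lit 104) (nat_lit 5) (nat_lit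 108) (nat_lit 5) (nat_lit 109) (nat_lit 5) (nat_lit 482) (nat_lit 383) (nat_lit 275))))) (XT.nd (nat_lit 156) (nat_lit 608) (nat_lit 0) (XT.nd (nat_lit 78) (nat_lit 76) (nat_lit 0) (XT.lf (nat_lit 0) (nat_lit 764883174) (nat_lit 304) (nat_lit 10985055971) (nat_lit 380) (nat_lit 2776308215) (nat_lit 100) (nat_lit 5) (nat_lit 104) (nat_lit 5) (nat_lit 105) (nat_lit 5) (nat_lit 483) (nat_lit 383) (nat_lit 274)) (XT.lf (nat_lit 0) (nat_lit 784316958) (nat_lit 380) (nat_lit 5493198321) (nat_lit 76) (nat_lit 8432734910) (nat_lit 99) (nat_lit 5) (nat_lit 104) (nat_lit 5) (nat_lit 100) (nat_lit 5) (nat_lit 484) (nat_lit 383) (nat_lit 273))) (XT.nd (nat_lit 78) (nat_lit 304) (nat_lit 0) (XT.lf (nat_lit 0) (nat_lit 2929508994) (nat_lit 304) (nat_lit 1448970404) (nat_lit 380) (nat_lit 10519100912) (nat_lit 95) (nat_lit 5) (nat_lit 99) (nat_lit 5) (nat_lit 100) (nat_lit 5) (nat_lit 485) (nat_lit 383) (nat_lit 272)) (XT.nd (nat_lit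 78) (nat_lit 304) (nat_lit 0) (XT.lf (nat_lit 0) (nat_lit 8084756531) (nat_lit 380) (nat_lit 3546573235) (nat_lit 76) (nat_lit 3456526809) (nat_lit 95) (nat_lit 5) (nat_lit 100) (nat_lit 5) (nat_lit 96) (nat_lit 5) (nat_lit 486) (nat_lit 383) (nat_lit 271)) (XT.lf (nat_lit 0) (nat_lit 5069886658) (nat_lit 304) (nat_lit 6818722335) (nat_lit 380) (nat_lit 3392864465) (nat_lit 91) (nat_lit 5) (nat_lit 95) (nat_lit 5) (nat_lit 96) (nat_lit 5) (nat_lit 487) (nat_lit 383) (nat_lit 270)))))) (XT.nd (nat_lit 390) (nat_lit 912) (nat_lit 0) (XT.nd (nat_lit 156) (nat_lit 532) (nat_lit 0) (XT.nd (nat_lit 78) (nat_lit 304) (nat_lit 0) (XT.lf (nat_lit 0) (nat_lit 290720774) (nat_lit 380) (nat_lit 1604195582) (nat_lit 76) (nat_lit 13583913794) (nat_lit 90) (nat_lit 5) (nat_lit 95) (nat_lit 5) (nat_lit 91) (nat_lit 5) (nat_lit 488) (nat_lit 383) (nat_lit 269)) (XT.lf (nat_lit 0) (nat_lit 4051501993) (nat_lit 380) (nat_lit 8482104907)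 (nat_lit 76) (nat_lit 3145103298) (nat_lit 86) (nat_lit 5) (nat_lit 91) (nat_lit 5) (nat_lit 87) (nat_lit 5) (nat_lit 489) (nat_lit 383) (nat_lit 268))) (XT.nd (nat_lit 78) (nat_lit 304) (nat_lit 0) (XT.lf (nat_lit 0) (nat_lit 273836332) (nat_lit 228) (nat_lit 7620285148) (nat_lit 304) (nat_lit 7988337691) (nat_lit 83) (nat_lit 5) (nat_lit 86) (nat_lit 5) (nat_lit 87) (nat_lit 5) (nat_lit 490) (nat_lit 383) (nat_lit 267)) (XT.nd (nat_lit 78) (nat_lit 304) (nat_lit 0) (XT.lf (nat_lit 0) (nat_lit 9290140864) (nat_lit 228) (nat_lit 2562001693) (nat_lit 304) (nat_lit 4237373286) (nat_lit 83) (nat_lit 5) (nat_lit 86) (nat_lit 5) (nat_lit 87) (nat_lit 5) (nat_lit 491) (nat_lit 383) (nat_lit 266)) (XT.lf (nat_lit 0) (nat_lit 2168188461) (nat_lit 304) (nat_lit 13733994950) (nat_lit 380) (nat_lit 398276681) (nat_lit 79) (nat_lit 5) (nat_lit 83) (nat_lit 5) (nat_lit 84) (nat_lit 5) (nat_lit 492) (nat_lit 383) (nat_lit 265)))))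 (XT.nd (nat_lit 234) (nat_lit 608) (nat_lit 0) (XT.nd (nat_lit 78) (nat_lit 228) (nat_lit 0) (XT.lf (nat_lit 0) (nat_lit 3516324499) (nat_lit 380) (nat_lit 5177038605) (nat_lit 76) (nat_lit 7820909706) (nat_lit 78) (nat_lit 5) (nat_lit 83) (nat_lit 5) (nat_lit 79) (nat_lit 5) (nat_lit 493) (nat_lit 383) (nat_lit 264)) (XT.nd (nat_lit 78) (nat_lit 0) (nat_lit 0) (XT.lf (nat_lit 0) (nat_lit 3977920130) (nat_lit 228) (nat_lit 3534110825) (nat_lit 304) (nat_lit 9220118673) (nat_lit 75) (nat_lit 5) (nat_lit 78) (nat_lit 5) (nat_lit 79) (nat_lit 5) (nat_lit 494) (nat_lit 383) (nat_lit 263)) (XT.lf (nat_lit 0) (nat_lit 11616245211) (nat_lit 304) (nat_lit 3607989977) (nat_lit 76) (nat_lit 1729580276) (nat_lit 75) (nat_lit 5) (nat_lit 79) (nat_lit 5) (nat_lit 76) (nat_lit 5) (nat_lit 495) (nat_lit 383) (nat_lit 262)))) (XT.nd (nat_lit 78) (nat_lit 304) (nat_lit 0) (XT.lf (nat_lit 0) (nat_lit 5744677342) (nat_lit 304) (nat_lit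 10101315943) (nat_lit 380) (nat_lit 1333055628) (nat_lit 71) (nat_lit 5) (nat_lit 75) (nat_lit 5) (nat_lit 76) (nat_lit 5) (nat_lit 496) (nat_lit 383) (nat_lit 261)) (XT.nd (nat_lit 78) (nat_lit 228) (nat_lit 0) (XT.lf (nat_lit 0) (nat_lit 2722619132) (nat_lit 380) (nat_lit 2121502392) (nat_lit 76) (nat_lit 12564168234) (nat_lit 70) (nat_lit 5) (nat_lit 75) (nat_lit 5) (nat_lit 71) (nat_lit 5) (nat_lit 497) (nat_lit 383) (nat_lit 260)) (XT.lf (nat_lit 0) (nat_lit 6876663494) (nat_lit 304) (nat_lit 10206553655) (nat_lit 76) (nat_lit 558023024) (nat_lit 67) (nat_lit 5) (nat_lit 71) (nat_lit 5) (nat_lit 68) (nat_lit 5) (nat_lit 498) (nat_lit 383) (nat_lit 259))))))) (XT.nd (nat_lit 50778) (nat_lit 0) (nat_lit 43548) (XT.nd (nat_lit 390) (nat_lit 0) (nat_lit 0) (XT.nd (nat_lit 156) (nat_lit 532) (nat_lit 0) (XT.nd (nat_lit 78) (nat_lit 228) (nat_lit 0) (XT.lf (nat_lit 0) (nat_lit 11143401648) (nat_lit 304) (nat_lit 727986284)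 (nat_lit 76) (nat_lit 6006872444) (nat_lit 67) (nat_lit 5) (nat_lit 71) (nat_lit 5) (nat_lit 68) (nat_lit 5) (nat_lit 499) (nat_lit 383) (nat_lit 258)) (XT.lf (nat_lit 0) (nat_lit 9031142998) (nat_lit 228) (nat_lit 6506499061) (nat_lit 304) (nat_lit 2581538552) (nat_lit 64) (nat_lit 5) (nat_lit 67) (nat_lit 5) (nat_lit 68) (nat_lit 5) (nat_lit 500) (nat_lit 383) (nat_lit 257))) (XT.nd (nat_lit 78) (nat_lit 228) (nat_lit 0) (XT.lf (nat_lit 0) (nat_lit 600099921) (nat_lit 228) (nat_lit 1025424427) (nat_lit 304) (nat_lit 16739335280) (nat_lit 60) (nat_lit 5) (nat_lit 63) (nat_lit 5) (nat_lit 64) (nat_lit 5) (nat_lit 501) (nat_lit 383) (nat_lit 256)) (XT.nd (nat_lit 78) (nat_lit 228) (nat_lit 0) (XT.lf (nat_lit 0) (nat_lit 5956863668) (nat_lit 304) (nat_lit 8083753748) (nat_lit 76) (nat_lit 4573002296) (nat_lit 60) (nat_lit 5) (nat_lit 64) (nat_lit 5) (nat_lit 61) (nat_lit 5) (nat_lit 502) (nat_lit 383) (nat_lit 255)) (XT.lf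 (nat_lit 0) (nat_lit 1780401081) (nat_lit 228) (nat_lit 8596739408) (nat_lit 304) (nat_lit 8490171047) (nat_lit 57) (nat_lit 5) (nat_lit 60) (nat_lit 5) (nat_lit 61) (nat_lit 5) (nat_lit 503) (nat_lit 383) (nat_lit 254))))) (XT.nd (nat_lit 50154) (nat_lit 0) (nat_lit 46056) (XT.nd (nat_lit 49998) (nat_lit 0) (nat_lit 46512) (XT.lf (nat_lit 0) (nat_lit 11924563613) (nat_lit 228) (nat_lit 2999605914) (nat_lit 304) (nat_lit 4201143433) (nat_lit 57) (nat_lit 5) (nat_lit 60) (nat_lit 5) (nat_lit 61) (nat_lit 5) (nat_lit 504) (nat_lit 383) (nat_lit 253)) (XT.nd (nat_lit 78) (nat_lit 380) (nat_lit 0) (XT.lf (nat_lit 0) (nat_lit 1988189563) (nat_lit 380) (nat_lit 624215397) (nat_lit 380) (nat_lit 624215397) (nat_lit 674) (nat_lit 3) (nat_lit 679) (nat_lit 3) (nat_lit 679) (nat_lit 5) (nat_lit 384) (nat_lit 384) (nat_lit 372)) (XT.lf (nat_lit 0) (nat_lit 241907270) (nat_lit 380) (nat_lit 4601031498) (nat_lit 456) (nat_lit 1638743188)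 (nat_lit 669) (nat_lit 5) (nat_lit 674) (nat_lit 3) (nat_lit 675) (nat_lit 5) (nat_lit 385) (nat_lit 384) (nat_lit 371)))) (XT.nd (nat_lit 78) (nat_lit 456) (nat_lit 0) (XT.lf (nat_lit 0) (nat_lit 2938940053) (nat_lit 380) (nat_lit 1455088362) (nat_lit 456) (nat_lit 2097247692) (nat_lit 669) (nat_lit 5) (nat_lit 674) (nat_lit 3) (nat_lit 675) (nat_lit 5) (nat_lit 386) (nat_lit 384) (nat_lit 370)) (XT.nd (nat_lit 78) (nat_lit 456) (nat_lit 0) (XT.lf (nat_lit 76) (nat_lit 1739718742) (nat_lit 0) (nat_lit 3891350120) (nat_lit 456) (nat_lit 871221741) (nat_lit 670) (nat_lit 5) (nat_lit 669) (nat_lit 5) (nat_lit 675) (nat_lit 5) (nat_lit 387) (nat_lit 384) (nat_lit 369)) (XT.lf (nat_lit 0) (nat_lit 1779394170) (nat_lit 456) (nat_lit 1544950199) (nat_lit 532) (nat_lit 3190182213) (nat_lit 663) (nat_lit 5) (nat_lit 669) (nat_lit 5) (nat_lit 670) (nat_lit 5) (nat_lit 388) (nat_lit 384) (nat_lit 368)))))) (XT.nd (nat_lit 390)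 (nat_lit 1444) (nat_lit 0) (XT.nd (nat_lit 156) (nat_lit 532) (nat_lit 0) (XT.nd (nat_lit 78) (nat_lit 532) (nat_lit 0) (XT.lf (nat_lit 76) (nat_lit 1716906705) (nat_lit 0) (nat_lit 2697461739) (nat_lit 532) (nat_lit 2113712021) (nat_lit 664) (nat_lit 5) (nat_lit 663) (nat_lit 5) (nat_lit 670) (nat_lit 5) (nat_lit 389) (nat_lit 384) (nat_lit 367)) (XT.lf (nat_lit 0) (nat_lit 495687454) (nat_lit 532) (nat_lit 1518027349) (nat_lit 608) (nat_lit 4529306659) (nat_lit 656) (nat_lit 5) (nat_lit 663) (nat_lit 5) (nat_lit 664) (nat_lit 5) (nat_lit 390) (nat_lit 384) (nat_lit 366))) (XT.nd (nat_lit 78) (nat_lit 532) (nat_lit 0) (XT.lf (nat_lit 76) (nat_lit 1813943917) (nat_lit 0) (nat_lit 1260617363) (nat_lit 608) (nat_lit 3484554577) (nat_lit 657) (nat_lit 5) (nat_lit 656) (nat_lit 5) (nat_lit 664) (nat_lit 5) (nat_lit 391) (nat_lit 384) (nat_lit 365)) (XT.nd (nat_lit 78) (nat_lit 532) (nat_lit 0) (XT.lf (nat_lit 76) (nat_lit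 5196543991) (nat_lit 0) (nat_lit 453501313) (nat_lit 608) (nat_lit 926631078) (nat_lit 657) (nat_lit 5) (nat_lit 656) (nat_lit 5) (nat_lit 664) (nat_lit 5) (nat_lit 392) (nat_lit 384) (nat_lit 364)) (XT.lf (nat_lit 0) (nat_lit 1611969290) (nat_lit 608) (nat_lit 4567020705) (nat_lit 684) (nat_lit 416391120) (nat_lit 649) (nat_lit 5) (nat_lit 657) (nat_lit 5) (nat_lit 658) (nat_lit 5) (nat_lit 393) (nat_lit 384) (nat_lit 363))))) (XT.nd (nat_lit 234) (nat_lit 760) (nat_lit 0) (XT.nd (nat_lit 78) (nat_lit 684) (nat_lit 0) (XT.lf (nat_lit 0) (nat_lit 4138127191) (nat_lit 608) (nat_lit 1137754303) (nat_lit 684) (nat_lit 1339514392) (nat_lit 649) (nat_lit 5) (nat_lit 657) (nat_lit 5) (nat_lit 658) (nat_lit 5) (nat_lit 394) (nat_lit 384) (nat_lit 362)) (XT.nd (nat_lit 78) (nat_lit 0) (nat_lit 0) (XT.lf (nat_lit 0) (nat_lit 30986902) (nat_lit 684) (nat_lit 4283286273) (nat_lit 760) (nat_lit 2322507670) (nat_lit 640) (nat_lit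 5) (nat_lit 649) (nat_lit 5) (nat_lit 650) (nat_lit 5) (nat_lit 395) (nat_lit 384) (nat_lit 361)) (XT.lf (nat_lit 0) (nat_lit 2502576902) (nat_lit 684) (nat_lit 782780650) (nat_lit 760) (nat_lit 3374021522) (nat_lit 640) (nat_lit 5) (nat_lit 649) (nat_lit 5) (nat_lit 650) (nat_lit 5) (nat_lit 396) (nat_lit 384) (nat_lit 360)))) (XT.nd (nat_lit 78) (nat_lit 760) (nat_lit 0) (XT.lf (nat_lit 76) (nat_lit 2787157274) (nat_lit 0) (nat_lit 2194364380) (nat_lit 760) (nat_lit 1701788238) (nat_lit 641) (nat_lit 5) (nat_lit 640) (nat_lit 5) (nat_lit 650) (nat_lit 5) (nat_lit 397) (nat_lit 384) (nat_lit 359)) (XT.nd (nat_lit 78) (nat_lit 0) (nat_lit 76) (XT.lf (nat_lit 0) (nat_lit 737428143) (nat_lit 760) (nat_lit 311471579) (nat_lit 836) (nat_lit 5659840490) (nat_lit 630) (nat_lit 5) (nat_lit 640) (nat_lit 5) (nat_lit 641) (nat_lit 5) (nat_lit 398) (nat_lit 384) (nat_lit 358)) (XT.lf (nat_lit 0) (nat_lit 3166992408) (nat_lit 760)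 (nat_lit 3395895029) (nat_lit 76) (nat_lit 172316545) (nat_lit 631) (nat_lit 5) (nat_lit 641) (nat_lit 5) (nat_lit 632) (nat_lit 5) (nat_lit 399) (nat_lit 384) (nat_lit 357))))))))
noncomputable def xc106 : XT := (XT.nd (nat_lit 1638) (nat_lit 12844) (nat_lit 0) (XT.nd (nat_lit 780) (nat_lit 8740) (nat_lit 0) (XT.nd (nat_lit 390) (nat_lit 3268) (nat_lit 0) (XT.nd (nat_lit 156) (nat_lit 1824) (nat_lit 0) (XT.nd (nat_lit 78) (nat_lit 76) (nat_lit 0) (XT.lf (nat_lit 0) (nat_lit 263610694) (nat_lit 760) (nat_lit 5334849936) (nat_lit 836) (nat_lit 1164706251) (nat_lit 621) (nat_lit 5) (nat_lit 631) (nat_lit 5) (nat_lit 632) (nat_lit 5) (nat_lit 400) (nat_lit 384) (nat_lit 356)) (XT.lf (nat_lit 0) (nat_lit 1235953038) (nat_lit 836) (nat_lit 2796000501) (nat_lit 76) (nat_lit 2760283871) (nat_lit 620) (nat_lit 5) (nat_lit 631) (nat_lit 5) (nat_lit 621) (nat_lit 5) (nat_lit 401) (nat_lit 384) (nat_lit 355))) (XT.nd (nat_lit 78)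 (nat_lit 988) (nat_lit 0) (XT.lf (nat_lit 0) (nat_lit 948509860) (nat_lit 836) (nat_lit 2670832603) (nat_lit 912) (nat_lit 3203420691) (nat_lit 609) (nat_lit 5) (nat_lit 620) (nat_lit 5) (nat_lit 621) (nat_lit 5) (nat_lit 402) (nat_lit 384) (nat_lit 354)) (XT.nd (nat_lit 78) (nat_lit 988) (nat_lit 0) (XT.lf (nat_lit 0) (nat_lit 4768216893) (nat_lit 836) (nat_lit 1245936072) (nat_lit 912) (nat_lit 840504740) (nat_lit 609) (nat_lit 5) (nat_lit 620) (nat_lit 5) (nat_lit 621) (nat_lit 5) (nat_lit 403) (nat_lit 384) (nat_lit 353)) (XT.lf (nat_lit 0) (nat_lit 1507738293) (nat_lit 988) (nat_lit 5137167985) (nat_lit 76) (nat_lit 242938999) (nat_lit 596) (nat_lit 5) (nat_lit 609) (nat_lit 5) (nat_lit 597) (nat_lit 5) (nat_lit 404) (nat_lit 384) (nat_lit 352))))) (XT.nd (nat_lit 156) (nat_lit 2280) (nat_lit 0) (XT.nd (nat_lit 78) (nat_lit 988) (nat_lit 0) (XT.lf (nat_lit 0) (nat_lit 3860654523) (nat_lit 988) (nat_lit 1281076347)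 (nat_lit 76) (nat_lit 1780506796) (nat_lit 596) (nat_lit 5) (nat_lit 609) (nat_lit 5) (nat_lit 597) (nat_lit 5) (nat_lit 405) (nat_lit 384) (nat_lit 351)) (XT.lf (nat_lit 0) (nat_lit 2649066806) (nat_lit 988) (nat_lit 3576415793) (nat_lit 1064) (nat_lit 732569050) (nat_lit 583) (nat_lit 5) (nat_lit 596) (nat_lit 5) (nat_lit 597) (nat_lit 5) (nat_lit 406) (nat_lit 384) (nat_lit 350))) (XT.nd (nat_lit 78) (nat_lit 2204) (nat_lit 0) (XT.lf (nat_lit 0) (nat_lit 1578195604) (nat_lit 1064) (nat_lit 368240709) (nat_lit 76) (nat_lit 5048827490) (nat_lit 582) (nat_lit 5) (nat_lit 596) (nat_lit 5) (nat_lit 583) (nat_lit 5) (nat_lit 407) (nat_lit 384) (nat_lit 349)) (XT.nd (nat_lit 78) (nat_lit 1140) (nat_lit 0) (XT.lf (nat_lit 0) (nat_lit 3656894012) (nat_lit 1064) (nat_lit 241308143) (nat_lit 1140) (nat_lit 3135493526) (nat_lit 568) (nat_lit 5) (nat_lit 582) (nat_lit 5) (nat_lit 583) (nat_lit 5) (nat_lit 408) (nat_lit 384) (nat_lit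 348)) (XT.lf (nat_lit 0) (nat_lit 655124466) (nat_lit 1140) (nat_lit 5575874242) (nat_lit 1216) (nat_lit 842598161) (nat_lit 553) (nat_lit 5) (nat_lit 568) (nat_lit 5) (nat_lit 569) (nat_lit 5) (nat_lit 409) (nat_lit 384) (nat_lit 347)))))) (XT.nd (nat_lit 390) (nat_lit 6080) (nat_lit 0) (XT.nd (nat_lit 156) (nat_lit 1368) (nat_lit 0) (XT.nd (nat_lit 78) (nat_lit 1216) (nat_lit 0) (XT.lf (nat_lit 0) (nat_lit 1451244311) (nat_lit 1216) (nat_lit 2350679639) (nat_lit 76) (nat_lit 3312710983) (nat_lit 552) (nat_lit 5) (nat_lit 568) (nat_lit 5) (nat_lit 553) (nat_lit 5) (nat_lit 410) (nat_lit 384) (nat_lit 346)) (XT.lf (nat_lit 0) (nat_lit 1778133762) (nat_lit 1216) (nat_lit 1964380590) (nat_lit 1292) (nat_lit 3414638181) (nat_lit 536) (nat_lit 5) (nat_lit 552) (nat_lit 5) (nat_lit 553) (nat_lit 5) (nat_lit 411) (nat_lit 384) (nat_lit 345))) (XT.nd (nat_lit 78) (nat_lit 1368) (nat_lit 0) (XT.lf (nat_lit 0) (nat_lit 5983562369)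 (nat_lit 1216) (nat_lit 63809214) (nat_lit 1292) (nat_lit 1153819970) (nat_lit 536) (nat_lit 5) (nat_lit 552) (nat_lit 5) (nat_lit 553) (nat_lit 5) (nat_lit 412) (nat_lit 384) (nat_lit 344)) (XT.nd (nat_lit 78) (nat_lit 0) (nat_lit 0) (XT.lf (nat_lit 0) (nat_lit 1121726247) (nat_lit 1368) (nat_lit 4237562753) (nat_lit 76) (nat_lit 1887005552) (nat_lit 518) (nat_lit 5) (nat_lit 536) (nat_lit 5) (nat_lit 519) (nat_lit 5) (nat_lit 413) (nat_lit 384) (nat_lit 343)) (XT.lf (nat_lit 0) (nat_lit 3389333638) (nat_lit 1368) (nat_lit 2638456) (nat_lit 76) (nat_lit 3900959770) (nat_lit 518) (nat_lit 5) (nat_lit 536) (nat_lit 5) (nat_lit 519) (nat_lit 5) (nat_lit 414) (nat_lit 384) (nat_lit 342))))) (XT.nd (nat_lit 234) (nat_lit 3192) (nat_lit 0) (XT.nd (nat_lit 78) (nat_lit 1520) (nat_lit 0) (XT.lf (nat_lit 0) (nat_lit 4336098459) (nat_lit 1368) (nat_lit 1348600322) (nat_lit 1444) (nat_lit 1656179327) (nat_lit 500) (nat_lit 5)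 (nat_lit 518) (nat_lit 5) (nat_lit 519) (nat_lit 5) (nat_lit 415) (nat_lit 384) (nat_lit 341)) (XT.nd (nat_lit 78) (nat_lit 0) (nat_lit 0) (XT.lf (nat_lit 0) (nat_lit 596102482) (nat_lit 1520) (nat_lit 6048097124) (nat_lit 76) (nat_lit 746159251) (nat_lit 480) (nat_lit 5) (nat_lit 500) (nat_lit 5) (nat_lit 481) (nat_lit 5) (nat_lit 416) (nat_lit 384) (nat_lit 340)) (XT.lf (nat_lit 0) (nat_lit 2855776133) (nat_lit 1520) (nat_lit 1682329440) (nat_lit 76) (nat_lit 2902837149) (nat_lit 480) (nat_lit 5) (nat_lit 500) (nat_lit 5) (nat_lit 481) (nat_lit 5) (nat_lit 417) (nat_lit 384) (nat_lit 339)))) (XT.nd (nat_lit 78) (nat_lit 1672) (nat_lit 0) (XT.lf (nat_lit 0) (nat_lit 2768985735) (nat_lit 1520) (nat_lit 2365786009) (nat_lit 1596) (nat_lit 2358306401) (nat_lit 460) (nat_lit 5) (nat_lit 480) (nat_lit 5) (nat_lit 481) (nat_lit 5) (nat_lit 418) (nat_lit 384) (nat_lit 338)) (XT.nd (nat_lit 78) (nat_lit 1672) (nat_lit 0) (XT.lf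 (nat_lit 0) (nat_lit 7294298578) (nat_lit 1520) (nat_lit 133102560) (nat_lit 1596) (nat_lit 119516069) (nat_lit 460) (nat_lit 5) (nat_lit 480) (nat_lit 5) (nat_lit 481) (nat_lit 5) (nat_lit 419) (nat_lit 384) (nat_lit 337)) (XT.lf (nat_lit 0) (nat_lit 2135214935) (nat_lit 1672) (nat_lit 3302977904) (nat_lit 76) (nat_lit 2163389420) (nat_lit 438) (nat_lit 5) (nat_lit 460) (nat_lit 5) (nat_lit 439) (nat_lit 5) (nat_lit 420) (nat_lit 384) (nat_lit 336))))))) (XT.nd (nat_lit 780) (nat_lit 5548) (nat_lit 0) (XT.nd (nat_lit 390) (nat_lit 2736) (nat_lit 0) (XT.nd (nat_lit 156) (nat_lit 2888) (nat_lit 0) (XT.nd (nat_lit 78) (nat_lit 0) (nat_lit 0) (XT.lf (nat_lit 0) (nat_lit 1263531903) (nat_lit 1672) (nat_lit 3138636026) (nat_lit 1748) (nat_lit 3255803068) (nat_lit 416) (nat_lit 5) (nat_lit 438) (nat_lit 5) (nat_lit 439) (nat_lit 5) (nat_lit 421) (nat_lit 384) (nat_lit 335)) (XT.lf (nat_lit 0) (nat_lit 5928072029) (nat_lit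 1672) (nat_lit 767064896) (nat_lit 1748) (nat_lit 1020757379) (nat_lit 416) (nat_lit 5) (nat_lit 438) (nat_lit 5) (nat_lit 439) (nat_lit 5) (nat_lit 422) (nat_lit 384) (nat_lit 334))) (XT.nd (nat_lit 78) (nat_lit 1064) (nat_lit 0) (XT.lf (nat_lit 0) (nat_lit 1231286183) (nat_lit 1824) (nat_lit 4883263645) (nat_lit 76) (nat_lit 1660506132) (nat_lit 392) (nat_lit 5) (nat_lit 416) (nat_lit 5) (nat_lit 393) (nat_lit 5) (nat_lit 423) (nat_lit 384) (nat_lit 333)) (XT.nd (nat_lit 78) (nat_lit 1064) (nat_lit 0) (XT.lf (nat_lit 0) (nat_lit 3491485460) (nat_lit 1824) (nat_lit 196332572) (nat_lit 76) (nat_lit 4147931378) (nat_lit 392) (nat_lit 5) (nat_lit 416) (nat_lit 5) (nat_lit 393) (nat_lit 5) (nat_lit 424) (nat_lit 384) (nat_lit 332)) (XT.lf (nat_lit 0) (nat_lit 4607027813) (nat_lit 1064) (nat_lit 1180178109) (nat_lit 1140) (nat_lit 2110663245) (nat_lit 378) (nat_lit 5) (nat_lit 392) (nat_lit 5) (nat_lit 393) (nat_lit 5) (nat_lit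 425) (nat_lit 384) (nat_lit 331))))) (XT.nd (nat_lit 156) (nat_lit 1748) (nat_lit 0) (XT.nd (nat_lit 78) (nat_lit 0) (nat_lit 0) (XT.lf (nat_lit 0) (nat_lit 146359831) (nat_lit 988) (nat_lit 6441982046) (nat_lit 76) (nat_lit 1373266762) (nat_lit 365) (nat_lit 5) (nat_lit 378) (nat_lit 5) (nat_lit 366) (nat_lit 5) (nat_lit 426) (nat_lit 384) (nat_lit 330)) (XT.lf (nat_lit 0) (nat_lit 2411527576) (nat_lit 988) (nat_lit 1615783466) (nat_lit 76) (nat_lit 3999225209) (nat_lit 365) (nat_lit 5) (nat_lit 378) (nat_lit 5) (nat_lit 366) (nat_lit 5) (nat_lit 427) (nat_lit 384) (nat_lit 329))) (XT.nd (nat_lit 78) (nat_lit 912) (nat_lit 0) (XT.lf (nat_lit 0) (nat_lit 3312565890) (nat_lit 836) (nat_lit 1392895352) (nat_lit 912) (nat_lit 3387649275) (nat_lit 354) (nat_lit 5) (nat_lit 365) (nat_lit 5) (nat_lit 366) (nat_lit 5) (nat_lit 428) (nat_lit 384) (nat_lit 328)) (XT.nd (nat_lit 78) (nat_lit 76) (nat_lit 0) (XT.lf (nat_lit 0)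 (nat_lit 155817104) (nat_lit 836) (nat_lit 6872242643) (nat_lit 912) (nat_lit 1133317812) (nat_lit 343) (nat_lit 5) (nat_lit 354) (nat_lit 5) (nat_lit 355) (nat_lit 5) (nat_lit 429) (nat_lit 384) (nat_lit 327)) (XT.lf (nat_lit 0) (nat_lit 1155007641) (nat_lit 912) (nat_lit 3030265780) (nat_lit 76) (nat_lit 4045517433) (nat_lit 342) (nat_lit 5) (nat_lit 354) (nat_lit 5) (nat_lit 343) (nat_lit 5) (nat_lit 430) (nat_lit 384) (nat_lit 326)))))) (XT.nd (nat_lit 390) (nat_lit 3040) (nat_lit 0) (XT.nd (nat_lit 156) (nat_lit 1672) (nat_lit 0) (XT.nd (nat_lit 78) (nat_lit 0) (nat_lit 0) (XT.lf (nat_lit 0) (nat_lit 2025757319) (nat_lit 836) (nat_lit 1424749674) (nat_lit 912) (nat_lit 4851419978) (nat_lit 331) (nat_lit 5) (nat_lit 342) (nat_lit 5) (nat_lit 343) (nat_lit 5) (nat_lit 431) (nat_lit 384) (nat_lit 325)) (XT.lf (nat_lit 0) (nat_lit 5785296299) (nat_lit 912) (nat_lit 1197587650) (nat_lit 76) (nat_lit 1391749979) (nat_lit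 331) (nat_lit 5) (nat_lit 343) (nat_lit 5) (nat_lit 332) (nat_lit 5) (nat_lit 432) (nat_lit 384) (nat_lit 324))) (XT.nd (nat_lit 78) (nat_lit 836) (nat_lit 0) (XT.lf (nat_lit 0) (nat_lit 3987863877) (nat_lit 836) (nat_lit 4178832473) (nat_lit 912) (nat_lit 282115785) (nat_lit 320) (nat_lit 5) (nat_lit 331) (nat_lit 5) (nat_lit 332) (nat_lit 5) (nat_lit 433) (nat_lit 384) (nat_lit 323)) (XT.nd (nat_lit 78) (nat_lit 0) (nat_lit 0) (XT.lf (nat_lit 0) (nat_lit 727177008) (nat_lit 760) (nat_lit 1294512931) (nat_lit 836) (nat_lit 6502977734) (nat_lit 309) (nat_lit 5) (nat_lit 319) (nat_lit 5) (nat_lit 320) (nat_lit 5) (nat_lit 434) (nat_lit 384) (nat_lit 322)) (XT.lf (nat_lit 0) (nat_lit 4373849591) (nat_lit 836) (nat_lit 2572917327) (nat_lit 76) (nat_lit 1655129523) (nat_lit 309) (nat_lit 5) (nat_lit 320) (nat_lit 5) (nat_lit 310) (nat_lit 5) (nat_lit 435) (nat_lit 384) (nat_lit 321))))) (XT.nd (nat_lit 234) (nat_lit 1520)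 (nat_lit 0) (XT.nd (nat_lit 78) (nat_lit 760) (nat_lit 0) (XT.lf (nat_lit 0) (nat_lit 2746093347) (nat_lit 760) (nat_lit 4019265044) (nat_lit 836) (nat_lit 1915479509) (nat_lit 299) (nat_lit 5) (nat_lit 309) (nat_lit 5) (nat_lit 310) (nat_lit 5) (nat_lit 436) (nat_lit 384) (nat_lit 320)) (XT.nd (nat_lit 78) (nat_lit 684) (nat_lit 0) (XT.lf (nat_lit 0) (nat_lit 420998195) (nat_lit 836) (nat_lit 595359160) (nat_lit 76) (nat_lit 7745287478) (nat_lit 298) (nat_lit 5) (nat_lit 309) (nat_lit 5) (nat_lit 299) (nat_lit 5) (nat_lit 437) (nat_lit 384) (nat_lit 319)) (XT.lf (nat_lit 0) (nat_lit 2790482940) (nat_lit 760) (nat_lit 3992458958) (nat_lit 76) (nat_lit 2060647679) (nat_lit 289) (nat_lit 5) (nat_lit 299) (nat_lit 5) (nat_lit 290) (nat_lit 5) (nat_lit 438) (nat_lit 384) (nat_lit 318)))) (XT.nd (nat_lit 78) (nat_lit 760) (nat_lit 0) (XT.lf (nat_lit 0) (nat_lit 1462575853) (nat_lit 760) (nat_lit 3732176335) (nat_lit 836)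 (nat_lit 3732686286) (nat_lit 279) (nat_lit 5) (nat_lit 289) (nat_lit 5) (nat_lit 290) (nat_lit 5) (nat_lit 439) (nat_lit 384) (nat_lit 317)) (XT.nd (nat_lit 78) (nat_lit 760) (nat_lit 0) (XT.lf (nat_lit 0) (nat_lit 7043700164) (nat_lit 760) (nat_lit 597747595) (nat_lit 836) (nat_lit 1371642664) (nat_lit 279) (nat_lit 5) (nat_lit 289) (nat_lit 5) (nat_lit 290) (nat_lit 5) (nat_lit 440) (nat_lit 384) (nat_lit 316)) (XT.lf (nat_lit 0) (nat_lit 1031669994) (nat_lit 760) (nat_lit 5477385645) (nat_lit 76) (nat_lit 2591104683) (nat_lit 269) (nat_lit 5) (nat_lit 279) (nat_lit 5) (nat_lit 270) (nat_lit 5) (nat_lit 441) (nat_lit 384) (nat_lit 315))))))))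
noncomputable def xc107 : XT := (XT.nd (nat_lit 1638) (nat_lit 5244) (nat_lit 0) (XT.nd (nat_lit 780) (nat_lit 3800) (nat_lit 0) (XT.nd (nat_lit 390) (nat_lit 1824) (nat_lit 0) (XT.nd (nat_lit 156) (nat_lit 1292) (nat_lit 0) (XT.nd (nat_lit 78) (nat_lit 0) (nat_lit 0) (XT.lf (nat_lit 0) (nat_lit 115951376) (nat_lit 684) (nat_lit 3335083976) (nat_lit 760) (nat_lit 5738040032) (nat_lit 260) (nat_lit 5) (nat_lit 269) (nat_lit 5) (nat_lit 270) (nat_lit 5) (nat_lit 442) (nat_lit 384) (nat_lit 314)) (XT.lf (nat_lit 0) (nat_lit 5858436632) (nat_lit 684) (nat_lit 65809656) (nat_lit 760) (nat_lit 3355425205) (nat_lit 260) (nat_lit 5) (nat_lit 269) (nat_lit 5) (nat_lit 270) (nat_lit 5) (nat_lit 443) (nat_lit 384) (nat_lit 313))) (XT.nd (nat_lit 78) (nat_lit 684) (nat_lit 0) (XT.lf (nat_lit 0) (nat_lit 2316013081) (nat_lit 608) (nat_lit 6136448733) (nat_lit 684) (nat_lit 919518581) (nat_lit 252) (nat_lit 5) (nat_lit 260) (nat_lit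 5) (nat_lit 261) (nat_lit 5) (nat_lit 444) (nat_lit 384) (nat_lit 312)) (XT.nd (nat_lit 78) (nat_lit 608) (nat_lit 0) (XT.lf (nat_lit 0) (nat_lit 1537557889) (nat_lit 684) (nat_lit 1299049684) (nat_lit 76) (nat_lit 6629476327) (nat_lit 251) (nat_lit 5) (nat_lit 260) (nat_lit 5) (nat_lit 252) (nat_lit 5) (nat_lit 445) (nat_lit 384) (nat_lit 311)) (XT.lf (nat_lit 0) (nat_lit 4034946306) (nat_lit 684) (nat_lit 4974748152) (nat_lit 76) (nat_lit 552194805) (nat_lit 243) (nat_lit 5) (nat_lit 252) (nat_lit 5) (nat_lit 244) (nat_lit 5) (nat_lit 446) (nat_lit 384) (nat_lit 310))))) (XT.nd (nat_lit 156) (nat_lit 1216) (nat_lit 0) (XT.nd (nat_lit 78) (nat_lit 0) (nat_lit 0) (XT.lf (nat_lit 0) (nat_lit 905660383) (nat_lit 608) (nat_lit 5680406240) (nat_lit 684) (nat_lit 3073479218) (nat_lit 235) (nat_lit 5) (nat_lit 243) (nat_lit 5) (nat_lit 244) (nat_lit 5) (nat_lit 447) (nat_lit 384) (nat_lit 309)) (XT.lf (nat_lit 0) (nat_lit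 6934749318) (nat_lit 608) (nat_lit 2257532090) (nat_lit 684) (nat_lit 566803278) (nat_lit 235) (nat_lit 5) (nat_lit 243) (nat_lit 5) (nat_lit 244) (nat_lit 5) (nat_lit 448) (nat_lit 384) (nat_lit 308))) (XT.nd (nat_lit 78) (nat_lit 532) (nat_lit 0) (XT.lf (nat_lit 0) (nat_lit 1964045471) (nat_lit 684) (nat_lit 6651681739) (nat_lit 76) (nat_lit 1244636083) (nat_lit 226) (nat_lit 5) (nat_lit 235) (nat_lit 5) (nat_lit 227) (nat_lit 5) (nat_lit 449) (nat_lit 384) (nat_lit 307)) (XT.nd (nat_lit 78) (nat_lit 532) (nat_lit 0) (XT.lf (nat_lit 0) (nat_lit 4543308836) (nat_lit 684) (nat_lit 617816358) (nat_lit 76) (nat_lit 4802369574) (nat_lit 226) (nat_lit 5) (nat_lit 235) (nat_lit 5) (nat_lit 227) (nat_lit 5) (nat_lit 450) (nat_lit 384) (nat_lit 306)) (XT.lf (nat_lit 0) (nat_lit 5574203955) (nat_lit 532) (nat_lit 1608057887) (nat_lit 608) (nat_lit 2886274713) (nat_lit 219) (nat_lit 5) (nat_lit 226) (nat_lit 5) (nat_lit 227)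 (nat_lit 5) (nat_lit 451) (nat_lit 384) (nat_lit 305)))))) (XT.nd (nat_lit 390) (nat_lit 2052) (nat_lit 0) (XT.nd (nat_lit 156) (nat_lit 1064) (nat_lit 0) (XT.nd (nat_lit 78) (nat_lit 76) (nat_lit 0) (XT.lf (nat_lit 0) (nat_lit 1696060050) (nat_lit 608) (nat_lit 8178393142) (nat_lit 684) (nat_lit 301226383) (nat_lit 211) (nat_lit 5) (nat_lit 219) (nat_lit 5) (nat_lit 220) (nat_lit 5) (nat_lit 452) (nat_lit 384) (nat_lit 304)) (XT.lf (nat_lit 0) (nat_lit 2318207292) (nat_lit 684) (nat_lit 2275243757) (nat_lit 76) (nat_lit 5690954033) (nat_lit 210) (nat_lit 5) (nat_lit 219) (nat_lit 5) (nat_lit 211) (nat_lit 5) (nat_lit 453) (nat_lit 384) (nat_lit 303))) (XT.nd (nat_lit 78) (nat_lit 532) (nat_lit 0) (XT.lf (nat_lit 0) (nat_lit 4069249449) (nat_lit 532) (nat_lit 916020537) (nat_lit 608) (nat_lit 5410018845) (nat_lit 203) (nat_lit 5) (nat_lit 210) (nat_lit 5) (nat_lit 211) (nat_lit 5) (nat_lit 454) (nat_lit 384) (nat_lit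 302)) (XT.nd (nat_lit 78) (nat_lit 0) (nat_lit 0) (XT.lf (nat_lit 0) (nat_lit 9401194) (nat_lit 532) (nat_lit 7703209860) (nat_lit 608) (nat_lit 2795649310) (nat_lit 196) (nat_lit 5) (nat_lit 203) (nat_lit 5) (nat_lit 204) (nat_lit 5) (nat_lit 455) (nat_lit 384) (nat_lit 301)) (XT.lf (nat_lit 0) (nat_lit 6515785254) (nat_lit 532) (nat_lit 4000589446) (nat_lit 608) (nat_lit 106687788) (nat_lit 196) (nat_lit 5) (nat_lit 203) (nat_lit 5) (nat_lit 204) (nat_lit 5) (nat_lit 456) (nat_lit 384) (nat_lit 300))))) (XT.nd (nat_lit 234) (nat_lit 988) (nat_lit 0) (XT.nd (nat_lit 78) (nat_lit 532) (nat_lit 0) (XT.lf (nat_lit 0) (nat_lit 2391351035) (nat_lit 456) (nat_lit 199394600) (nat_lit 532) (nat_lit 8149295762) (nat_lit 189) (nat_lit 5) (nat_lit 195) (nat_lit 5) (nat_lit 196) (nat_lit 5) (nat_lit 457) (nat_lit 384) (nat_lit 299)) (XT.nd (nat_lit 78) (nat_lit 532) (nat_lit 0) (XT.lf (nat_lit 0) (nat_lit 5366294284) (nat_lit 532)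 (nat_lit 1843222598) (nat_lit 76) (nat_lit 3649325172) (nat_lit 189) (nat_lit 5) (nat_lit 196) (nat_lit 5) (nat_lit 190) (nat_lit 5) (nat_lit 458) (nat_lit 384) (nat_lit 298)) (XT.lf (nat_lit 0) (nat_lit 4819663304) (nat_lit 532) (nat_lit 3384784305) (nat_lit 608) (nat_lit 2775437257) (nat_lit 182) (nat_lit 5) (nat_lit 189) (nat_lit 5) (nat_lit 190) (nat_lit 5) (nat_lit 459) (nat_lit 384) (nat_lit 297)))) (XT.nd (nat_lit 78) (nat_lit 532) (nat_lit 0) (XT.lf (nat_lit 0) (nat_lit 506086040) (nat_lit 456) (nat_lit 10587066731) (nat_lit 532) (nat_lit 10327847) (nat_lit 176) (nat_lit 5) (nat_lit 182) (nat_lit 5) (nat_lit 183) (nat_lit 5) (nat_lit 460) (nat_lit 384) (nat_lit 296)) (XT.nd (nat_lit 78) (nat_lit 456) (nat_lit 0) (XT.lf (nat_lit 0) (nat_lit 2812054035) (nat_lit 532) (nat_lit 3915353773) (nat_lit 76) (nat_lit 4501006633) (nat_lit 175) (nat_lit 5) (nat_lit 182) (nat_lit 5) (nat_lit 176) (nat_lit 5) (nat_lit 461)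 (nat_lit 384) (nat_lit 295)) (XT.lf (nat_lit 0) (nat_lit 2904111127) (nat_lit 456) (nat_lit 2780781013) (nat_lit 532) (nat_lit 5671077902) (nat_lit 169) (nat_lit 5) (nat_lit 175) (nat_lit 5) (nat_lit 176) (nat_lit 5) (nat_lit 462) (nat_lit 384) (nat_lit 294))))))) (XT.nd (nat_lit 858) (nat_lit 2508) (nat_lit 0) (XT.nd (nat_lit 390) (nat_lit 1368) (nat_lit 0) (XT.nd (nat_lit 156) (nat_lit 836) (nat_lit 0) (XT.nd (nat_lit 78) (nat_lit 532) (nat_lit 0) (XT.lf (nat_lit 0) (nat_lit 8625209903) (nat_lit 532) (nat_lit 1615213305) (nat_lit 76) (nat_lit 1245460351) (nat_lit 169) (nat_lit 5) (nat_lit 176) (nat_lit 5) (nat_lit 170) (nat_lit 5) (nat_lit 463) (nat_lit 384) (nat_lit 293)) (XT.lf (nat_lit 0) (nat_lit 35344725) (nat_lit 532) (nat_lit 6241555615) (nat_lit 76) (nat_lit 5340911535) (nat_lit 162) (nat_lit 5) (nat_lit 169) (nat_lit 5) (nat_lit 163) (nat_lit 5) (nat_lit 464) (nat_lit 384) (nat_lit 292))) (XT.nd (nat_lit 78)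 (nat_lit 380) (nat_lit 0) (XT.lf (nat_lit 0) (nat_lit 734025642) (nat_lit 456) (nat_lit 2208728097) (nat_lit 532) (nat_lit 8809418186) (nat_lit 156) (nat_lit 5) (nat_lit 162) (nat_lit 5) (nat_lit 163) (nat_lit 5) (nat_lit 465) (nat_lit 384) (nat_lit 291)) (XT.nd (nat_lit 78) (nat_lit 380) (nat_lit 0) (XT.lf (nat_lit 0) (nat_lit 5939322034) (nat_lit 532) (nat_lit 4001600816) (nat_lit 76) (nat_lit 1947682811) (nat_lit 156) (nat_lit 5) (nat_lit 163) (nat_lit 5) (nat_lit 157) (nat_lit 5) (nat_lit 466) (nat_lit 384) (nat_lit 290)) (XT.lf (nat_lit 0) (nat_lit 3148544510) (nat_lit 380) (nat_lit 5859061264) (nat_lit 456) (nat_lit 3019933192) (nat_lit 151) (nat_lit 5) (nat_lit 156) (nat_lit 5) (nat_lit 157) (nat_lit 5) (nat_lit 467) (nat_lit 384) (nat_lit 289))))) (XT.nd (nat_lit 234) (nat_lit 456) (nat_lit 0) (XT.nd (nat_lit 78) (nat_lit 912) (nat_lit 0) (XT.lf (nat_lit 0) (nat_lit 10462757777) (nat_lit 380) (nat_lit 1678305733)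 (nat_lit 456) (nat_lit 28117709) (nat_lit 151) (nat_lit 5) (nat_lit 156) (nat_lit 5) (nat_lit 157) (nat_lit 5) (nat_lit 468) (nat_lit 384) (nat_lit 288)) (XT.nd (nat_lit 78) (nat_lit 380) (nat_lit 0) (XT.lf (nat_lit 0) (nat_lit 3014788521) (nat_lit 532) (nat_lit 6699106870) (nat_lit 76) (nat_lit 2598756335) (nat_lit 144) (nat_lit 5) (nat_lit 151) (nat_lit 5) (nat_lit 145) (nat_lit 5) (nat_lit 469) (nat_lit 384) (nat_lit 287)) (XT.lf (nat_lit 0) (nat_lit 607866125) (nat_lit 380) (nat_lit 5514318837) (nat_lit 456) (nat_lit 6336728867) (nat_lit 139) (nat_lit 5) (nat_lit 144) (nat_lit 5) (nat_lit 145) (nat_lit 5) (nat_lit 470) (nat_lit 384) (nat_lit 286)))) (XT.nd (nat_lit 78) (nat_lit 456) (nat_lit 0) (XT.lf (nat_lit 0) (nat_lit 8118993497) (nat_lit 380) (nat_lit 1195340313) (nat_lit 456) (nat_lit 3293321231) (nat_lit 139) (nat_lit 5) (nat_lit 144) (nat_lit 5) (nat_lit 145) (nat_lit 5) (nat_lit 471) (nat_lit 384) (nat_lit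 285)) (XT.nd (nat_lit 78) (nat_lit 76) (nat_lit 0) (XT.lf (nat_lit 0) (nat_lit 3007040817) (nat_lit 380) (nat_lit 9581671794) (nat_lit 456) (nat_lit 170296566) (nat_lit 134) (nat_lit 5) (nat_lit 139) (nat_lit 5) (nat_lit 140) (nat_lit 5) (nat_lit 472) (nat_lit 384) (nat_lit 284)) (XT.lf (nat_lit 0) (nat_lit 2991973885) (nat_lit 456) (nat_lit 2259588582) (nat_lit 76) (nat_lit 7661115409) (nat_lit 133) (nat_lit 5) (nat_lit 139) (nat_lit 5) (nat_lit 134) (nat_lit 5) (nat_lit 473) (nat_lit 384) (nat_lit 283)))))) (XT.nd (nat_lit 390) (nat_lit 1368) (nat_lit 0) (XT.nd (nat_lit 156) (nat_lit 380) (nat_lit 0) (XT.nd (nat_lit 78) (nat_lit 380) (nat_lit 0) (XT.lf (nat_lit 0) (nat_lit 5420632410) (nat_lit 380) (nat_lit 808296199) (nat_lit 456) (nat_lit 6840199947) (nat_lit 128) (nat_lit 5) (nat_lit 133) (nat_lit 5) (nat_lit 134) (nat_lit 5) (nat_lit 474) (nat_lit 384) (nat_lit 282)) (XT.lf (nat_lit 0) (nat_lit 284552) (nat_lit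 380) (nat_lit 9548450189) (nat_lit 456) (nat_lit 3679616657) (nat_lit 123) (nat_lit 5) (nat_lit 128) (nat_lit 5) (nat_lit 129) (nat_lit 5) (nat_lit 475) (nat_lit 384) (nat_lit 281))) (XT.nd (nat_lit 78) (nat_lit 380) (nat_lit 0) (XT.lf (nat_lit 0) (nat_lit 7868382186) (nat_lit 380) (nat_lit 5102078447) (nat_lit 456) (nat_lit 419592881) (nat_lit 123) (nat_lit 5) (nat_lit 128) (nat_lit 5) (nat_lit 129) (nat_lit 5) (nat_lit 476) (nat_lit 384) (nat_lit 280)) (XT.nd (nat_lit 78) (nat_lit 0) (nat_lit 0) (XT.lf (nat_lit 0) (nat_lit 2318830311) (nat_lit 304) (nat_lit 542900898) (nat_lit 380) (nat_lit 10693002087) (nat_lit 118) (nat_lit 5) (nat_lit 122) (nat_lit 5) (nat_lit 123) (nat_lit 5) (nat_lit 477) (nat_lit 384) (nat_lit 279)) (XT.lf (nat_lit 0) (nat_lit 6246323654) (nat_lit 380) (nat_lit 3392377354) (nat_lit 76) (nat_lit 4083089973) (nat_lit 118) (nat_lit 5) (nat_lit 123) (nat_lit 5) (nat_lit 119) (nat_lit 5) (nat_lit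 478) (nat_lit 384) (nat_lit 278))))) (XT.nd (nat_lit 234) (nat_lit 608) (nat_lit 0) (XT.nd (nat_lit 78) (nat_lit 380) (nat_lit 0) (XT.lf (nat_lit 0) (nat_lit 4634113457) (nat_lit 380) (nat_lit 5077871626) (nat_lit 456) (nat_lit 4179942081) (nat_lit 113) (nat_lit 5) (nat_lit 118) (nat_lit 5) (nat_lit 119) (nat_lit 5) (nat_lit 479) (nat_lit 384) (nat_lit 277)) (XT.nd (nat_lit 78) (nat_lit 380) (nat_lit 0) (XT.lf (nat_lit 0) (nat_lit 12836235981) (nat_lit 380) (nat_lit 413380069) (nat_lit 456) (nat_lit 815801686) (nat_lit 113) (nat_lit 5) (nat_lit 118) (nat_lit 5) (nat_lit 119) (nat_lit 5) (nat_lit 480) (nat_lit 384) (nat_lit 276)) (XT.lf (nat_lit 0) (nat_lit 2635495797) (nat_lit 380) (nat_lit 7265723063) (nat_lit 76) (nat_lit 4339740644) (nat_lit 108) (nat_lit 5) (nat_lit 113) (nat_lit 5) (nat_lit 109) (nat_lit 5) (nat_lit 481) (nat_lit 384) (nat_lit 275)))) (XT.nd (nat_lit 78) (nat_lit 304) (nat_lit 0) (XT.lf (nat_lit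 0) (nat_lit 913673003) (nat_lit 304) (nat_lit 5228479277) (nat_lit 380) (nat_lit 8277811359) (nat_lit 104) (nat_lit 5) (nat_lit 108) (nat_lit 5) (nat_lit 109) (nat_lit 5) (nat_lit 482) (nat_lit 384) (nat_lit 274)) (XT.nd (nat_lit 78) (nat_lit 304) (nat_lit 0) (XT.lf (nat_lit 0) (nat_lit 9324674747) (nat_lit 304) (nat_lit 423486482) (nat_lit 380) (nat_lit 4853806668) (nat_lit 104) (nat_lit 5) (nat_lit 108) (nat_lit 5) (nat_lit 109) (nat_lit 5) (nat_lit 483) (nat_lit 384) (nat_lit 273)) (XT.lf (nat_lit 0) (nat_lit 3097647509) (nat_lit 304) (nat_lit 10358602421) (nat_lit 380) (nat_lit 1330767457) (nat_lit 100) (nat_lit 5) (nat_lit 104) (nat_lit 5) (nat_lit 105) (nat_lit 5) (nat_lit 484) (nat_lit 384) (nat_lit 272))))))))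
noncomputable def xc108 : XT := (XT.nd (nat_lit 51636) (nat_lit 0) (nat_lit 39900) (XT.nd (nat_lit 780) (nat_lit 1596) (nat_lit 0) (XT.nd (nat_lit 390) (nat_lit 608) (nat_lit 0) (XT.nd (nat_lit 156) (nat_lit 684) (nat_lit 0) (XT.nd (nat_lit 78) (nat_lit 304) (nat_lit 0) (XT.lf (nat_lit 0) (nat_lit 2252336787) (nat_lit 380) (nat_lit 3311419474) (nat_lit 76) (nat_lit 9411336345) (nat_lit 99) (nat_lit 5) (nat_lit 104) (nat_lit 5) (nat_lit 100) (nat_lit 5) (nat_lit 485) (nat_lit 384) (nat_lit 271)) (XT.lf (nat_lit 0) (nat_lit 5264665390) (nat_lit 304) (nat_lit 640020936) (nat_lit 380) (nat_lit 9261763120) (nat_lit 95) (nat_lit 5) (nat_lit 99) (nat_lit 5) (nat_lit 100) (nat_lit 5) (nat_lit 486) (nat_lit 384) (nat_lit 270))) (XT.nd (nat_lit 78) (nat_lit 684) (nat_lit 0) (XT.lf (nat_lit 0) (nat_lit 9662214142) (nat_lit 380) (nat_lit 1362398527) (nat_lit 76) (nat_lit 4336382137) (nat_lit 95) (nat_lit 5) (nat_lit 100) (nat_lit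 5) (nat_lit 96) (nat_lit 5) (nat_lit 487) (nat_lit 384) (nat_lit 269)) (XT.nd (nat_lit 78) (nat_lit 380) (nat_lit 0) (XT.lf (nat_lit 0) (nat_lit 7411554339) (nat_lit 304) (nat_lit 6117374584) (nat_lit 380) (nat_lit 2029825353) (nat_lit 91) (nat_lit 5) (nat_lit 95) (nat_lit 5) (nat_lit 96) (nat_lit 5) (nat_lit 488) (nat_lit 384) (nat_lit 268)) (XT.lf (nat_lit 0) (nat_lit 586439480) (nat_lit 304) (nat_lit 1098344378) (nat_lit 380) (nat_lit 14075571785) (nat_lit 86) (nat_lit 5) (nat_lit 90) (nat_lit 5) (nat_lit 91) (nat_lit 5) (nat_lit 489) (nat_lit 384) (nat_lit 267))))) (XT.nd (nat_lit 156) (nat_lit 380) (nat_lit 0) (XT.nd (nat_lit 78) (nat_lit 228) (nat_lit 0) (XT.lf (nat_lit 0) (nat_lit 5509495653) (nat_lit 380) (nat_lit 6428961268) (nat_lit 76) (nat_lit 4026007682) (nat_lit 86) (nat_lit 5) (nat_lit 91) (nat_lit 5) (nat_lit 87) (nat_lit 5) (nat_lit 490) (nat_lit 384) (nat_lit 266)) (XT.lf (nat_lit 0) (nat_lit 2487475205)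 (nat_lit 228) (nat_lit 6928829891) (nat_lit 304) (nat_lit 6756242209) (nat_lit 83) (nat_lit 5) (nat_lit 86) (nat_lit 5) (nat_lit 87) (nat_lit 5) (nat_lit 491) (nat_lit 384) (nat_lit 265))) (XT.nd (nat_lit 78) (nat_lit 380) (nat_lit 0) (XT.lf (nat_lit 0) (nat_lit 11640808531) (nat_lit 228) (nat_lit 1785927060) (nat_lit 304) (nat_lit 2957549932) (nat_lit 83) (nat_lit 5) (nat_lit 86) (nat_lit 5) (nat_lit 87) (nat_lit 5) (nat_lit 492) (nat_lit 384) (nat_lit 264)) (XT.nd (nat_lit 78) (nat_lit 0) (nat_lit 0) (XT.lf (nat_lit 0) (nat_lit 938851902) (nat_lit 380) (nat_lit 12222086470) (nat_lit 76) (nat_lit 3438529187) (nat_lit 78) (nat_lit 5) (nat_lit 83) (nat_lit 5) (nat_lit 79) (nat_lit 5) (nat_lit 493) (nat_lit 384) (nat_lit 263)) (XT.lf (nat_lit 0) (nat_lit 4900147242) (nat_lit 380) (nat_lit 3133331339) (nat_lit 76) (nat_lit 8784555680) (nat_lit 78) (nat_lit 5) (nat_lit 83) (nat_lit 5) (nat_lit 79) (nat_lit 5) (nat_lit 494)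 (nat_lit 384) (nat_lit 262)))))) (XT.nd (nat_lit 390) (nat_lit 760) (nat_lit 0) (XT.nd (nat_lit 156) (nat_lit 608) (nat_lit 0) (XT.nd (nat_lit 78) (nat_lit 0) (nat_lit 0) (XT.lf (nat_lit 0) (nat_lit 6190599939) (nat_lit 228) (nat_lit 2773262698) (nat_lit 304) (nat_lit 8076649064) (nat_lit 75) (nat_lit 5) (nat_lit 78) (nat_lit 5) (nat_lit 79) (nat_lit 5) (nat_lit 495) (nat_lit 384) (nat_lit 261)) (XT.lf (nat_lit 0) (nat_lit 13129932772) (nat_lit 304) (nat_lit 1568381659) (nat_lit 76) (nat_lit 2568705875) (nat_lit 75) (nat_lit 5) (nat_lit 79) (nat_lit 5) (nat_lit 76) (nat_lit 5) (nat_lit 496) (nat_lit 384) (nat_lit 260))) (XT.nd (nat_lit 78) (nat_lit 304) (nat_lit 0) (XT.lf (nat_lit 0) (nat_lit 7957445796) (nat_lit 304) (nat_lit 9475326049) (nat_lit 380) (nat_lit 64221447) (nat_lit 71) (nat_lit 5) (nat_lit 75) (nat_lit 5) (nat_lit 76) (nat_lit 5) (nat_lit 497) (nat_lit 384) (nat_lit 259)) (XT.nd (nat_lit 78) (nat_lit 228)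 (nat_lit 0) (XT.lf (nat_lit 0) (nat_lit 4030507436) (nat_lit 380) (nat_lit 90304703) (nat_lit 76) (nat_lit 13610344567) (nat_lit 70) (nat_lit 5) (nat_lit 75) (nat_lit 5) (nat_lit 71) (nat_lit 5) (nat_lit 498) (nat_lit 384) (nat_lit 258)) (XT.lf (nat_lit 0) (nat_lit 8261739690) (nat_lit 304) (nat_lit 8330938379) (nat_lit 76) (nat_lit 1376210432) (nat_lit 67) (nat_lit 5) (nat_lit 71) (nat_lit 5) (nat_lit 68) (nat_lit 5) (nat_lit 499) (nat_lit 384) (nat_lit 257))))) (XT.nd (nat_lit 234) (nat_lit 228) (nat_lit 0) (XT.nd (nat_lit 78) (nat_lit 304) (nat_lit 0) (XT.lf (nat_lit 0) (nat_lit 1313649751) (nat_lit 228) (nat_lit 11284230315) (nat_lit 304) (nat_lit 5613092117) (nat_lit 64) (nat_lit 5) (nat_lit 67) (nat_lit 5) (nat_lit 68) (nat_lit 5) (nat_lit 500) (nat_lit 384) (nat_lit 256)) (XT.nd (nat_lit 78) (nat_lit 304) (nat_lit 0) (XT.lf (nat_lit 0) (nat_lit 11237318610) (nat_lit 228) (nat_lit 5823326836) (nat_lit 304) (nat_lit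 1396456910) (nat_lit 64) (nat_lit 5) (nat_lit 67) (nat_lit 5) (nat_lit 68) (nat_lit 5) (nat_lit 501) (nat_lit 384) (nat_lit 255)) (XT.lf (nat_lit 0) (nat_lit 2640652868) (nat_lit 228) (nat_lit 227114142) (nat_lit 304) (nat_lit 15839986732) (nat_lit 60) (nat_lit 5) (nat_lit 63) (nat_lit 5) (nat_lit 64) (nat_lit 5) (nat_lit 502) (nat_lit 384) (nat_lit 254)))) (XT.nd (nat_lit 78) (nat_lit 228) (nat_lit 0) (XT.lf (nat_lit 0) (nat_lit 7267224951) (nat_lit 304) (nat_lit 6237940870) (nat_lit 76) (nat_lit 5456697457) (nat_lit 60) (nat_lit 5) (nat_lit 64) (nat_lit 5) (nat_lit 61) (nat_lit 5) (nat_lit 503) (nat_lit 384) (nat_lit 253)) (XT.nd (nat_lit 50076) (nat_lit 0) (nat_lit 46512) (XT.lf (nat_lit 0) (nat_lit 3810289898) (nat_lit 228) (nat_lit 7955208270) (nat_lit 304) (nat_lit 7455342960) (nat_lit 57) (nat_lit 5) (nat_lit 60) (nat_lit 5) (nat_lit 61) (nat_lit 5) (nat_lit 504) (nat_lit 384) (nat_lit 252)) (XT.lf (nat_lit 0)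 (nat_lit 726788600) (nat_lit 0) (nat_lit 726788600) (nat_lit 380) (nat_lit 1791743054) (nat_lit 669) (nat_lit 5) (nat_lit 669) (nat_lit 3) (nat_lit 674) (nat_lit 3) (nat_lit 385) (nat_lit 385) (nat_lit 370))))))) (XT.nd (nat_lit 780) (nat_lit 4332) (nat_lit 0) (XT.nd (nat_lit 390) (nat_lit 1292) (nat_lit 0) (XT.nd (nat_lit 156) (nat_lit 456) (nat_lit 0) (XT.nd (nat_lit 78) (nat_lit 532) (nat_lit 0) (XT.lf (nat_lit 0) (nat_lit 4594773354) (nat_lit 0) (nat_lit 971561473) (nat_lit 380) (nat_lit 934682410) (nat_lit 669) (nat_lit 5) (nat_lit 669) (nat_lit 3) (nat_lit 674) (nat_lit 3) (nat_lit 386) (nat_lit 385) (nat_lit 369)) (XT.lf (nat_lit 76) (nat_lit 1256733571) (nat_lit 0) (nat_lit 425852061) (nat_lit 532) (nat_lit 4830062691) (nat_lit 663) (nat_lit 5) (nat_lit 662) (nat_lit 3) (nat_lit 669) (nat_lit 5) (nat_lit 387) (nat_lit 385) (nat_lit 368))) (XT.nd (nat_lit 78) (nat_lit 532) (nat_lit 0) (XT.lf (nat_lit 0) (nat_lit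 4285274511) (nat_lit 456) (nat_lit 2059434750) (nat_lit 532) (nat_lit 180815982) (nat_lit 663) (nat_lit 5) (nat_lit 669) (nat_lit 5) (nat_lit 670) (nat_lit 5) (nat_lit 388) (nat_lit 385) (nat_lit 367)) (XT.nd (nat_lit 78) (nat_lit 0) (nat_lit 0) (XT.lf (nat_lit 0) (nat_lit 339328160) (nat_lit 532) (nat_lit 5364611708) (nat_lit 608) (nat_lit 835849734) (nat_lit 656) (nat_lit 5) (nat_lit 663) (nat_lit 5) (nat_lit 664) (nat_lit 5) (nat_lit 389) (nat_lit 385) (nat_lit 366)) (XT.lf (nat_lit 0) (nat_lit 2888226310) (nat_lit 532) (nat_lit 2103421679) (nat_lit 608) (nat_lit 1563486398) (nat_lit 656) (nat_lit 5) (nat_lit 663) (nat_lit 5) (nat_lit 664) (nat_lit 5) (nat_lit 390) (nat_lit 385) (nat_lit 365))))) (XT.nd (nat_lit 156) (nat_lit 684) (nat_lit 0) (XT.nd (nat_lit 78) (nat_lit 608) (nat_lit 0) (XT.lf (nat_lit 76) (nat_lit 1202657193) (nat_lit 0) (nat_lit 4228337189) (nat_lit 608) (nat_lit 1140978743) (nat_lit 657) (nat_lit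 5) (nat_lit 656) (nat_lit 5) (nat_lit 664) (nat_lit 5) (nat_lit 391) (nat_lit 385) (nat_lit 364)) (XT.lf (nat_lit 0) (nat_lit 1366508314) (nat_lit 608) (nat_lit 2031678457) (nat_lit 684) (nat_lit 3191821304) (nat_lit 648) (nat_lit 5) (nat_lit 656) (nat_lit 5) (nat_lit 657) (nat_lit 5) (nat_lit 392) (nat_lit 385) (nat_lit 363))) (XT.nd (nat_lit 78) (nat_lit 684) (nat_lit 0) (XT.lf (nat_lit 76) (nat_lit 1346771011) (nat_lit 0) (nat_lit 2507773462) (nat_lit 684) (nat_lit 2754837178) (nat_lit 649) (nat_lit 5) (nat_lit 648) (nat_lit 5) (nat_lit 657) (nat_lit 5) (nat_lit 393) (nat_lit 385) (nat_lit 362)) (XT.nd (nat_lit 78) (nat_lit 684) (nat_lit 0) (XT.lf (nat_lit 76) (nat_lit 4784518811) (nat_lit 0) (nat_lit 1559379215) (nat_lit 684) (nat_lit 286255017) (nat_lit 649) (nat_lit 5) (nat_lit 648) (nat_lit 5) (nat_lit 657) (nat_lit 5) (nat_lit 394) (nat_lit 385) (nat_lit 361)) (XT.lf (nat_lit 76) (nat_lit 1610349079) (nat_lit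 0) (nat_lit 541233089) (nat_lit 760) (nat_lit 4500524714) (nat_lit 640) (nat_lit 5) (nat_lit 639) (nat_lit 5) (nat_lit 649) (nat_lit 5) (nat_lit 395) (nat_lit 385) (nat_lit 360)))))) (XT.nd (nat_lit 390) (nat_lit 2812) (nat_lit 0) (XT.nd (nat_lit 156) (nat_lit 836) (nat_lit 0) (XT.nd (nat_lit 78) (nat_lit 760) (nat_lit 0) (XT.lf (nat_lit 0) (nat_lit 4589869451) (nat_lit 684) (nat_lit 1556120256) (nat_lit 760) (nat_lit 529400808) (nat_lit 640) (nat_lit 5) (nat_lit 649) (nat_lit 5) (nat_lit 650) (nat_lit 5) (nat_lit 396) (nat_lit 385) (nat_lit 359)) (XT.lf (nat_lit 0) (nat_lit 329989391) (nat_lit 760) (nat_lit 4716920295) (nat_lit 836) (nat_lit 1653075415) (nat_lit 630) (nat_lit 5) (nat_lit 640) (nat_lit 5) (nat_lit 641) (nat_lit 5) (nat_lit 397) (nat_lit 385) (nat_lit 358))) (XT.nd (nat_lit 78) (nat_lit 836) (nat_lit 0) (XT.lf (nat_lit 0) (nat_lit 2717929594) (nat_lit 760) (nat_lit 1161594568) (nat_lit 836) (nat_lit 2846267646)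 (nat_lit 630) (nat_lit 5) (nat_lit 640) (nat_lit 5) (nat_lit 641) (nat_lit 5) (nat_lit 398) (nat_lit 385) (nat_lit 357)) (XT.nd (nat_lit 78) (nat_lit 836) (nat_lit 0) (XT.lf (nat_lit 76) (nat_lit 2460858872) (nat_lit 0) (nat_lit 2651401199) (nat_lit 836) (nat_lit 1640718057) (nat_lit 631) (nat_lit 5) (nat_lit 630) (nat_lit 5) (nat_lit 641) (nat_lit 5) (nat_lit 399) (nat_lit 385) (nat_lit 356)) (XT.lf (nat_lit 0) (nat_lit 714603125) (nat_lit 836) (nat_lit 650925918) (nat_lit 912) (nat_lit 5416093716) (nat_lit 619) (nat_lit 5) (nat_lit 630) (nat_lit 5) (nat_lit 631) (nat_lit 5) (nat_lit 400) (nat_lit 385) (nat_lit 355))))) (XT.nd (nat_lit 234) (nat_lit 1976) (nat_lit 0) (XT.nd (nat_lit 78) (nat_lit 836) (nat_lit 0) (XT.lf (nat_lit 76) (nat_lit 3056224919) (nat_lit 0) (nat_lit 2950889) (nat_lit 912) (nat_lit 3752199309) (nat_lit 620) (nat_lit 5) (nat_lit 619) (nat_lit 5) (nat_lit 631) (nat_lit 5) (nat_lit 401) (nat_lit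 385) (nat_lit 354)) (XT.nd (nat_lit 78) (nat_lit 912) (nat_lit 0) (XT.lf (nat_lit 0) (nat_lit 5409276204) (nat_lit 836) (nat_lit 41427390) (nat_lit 76) (nat_lit 1391879562) (nat_lit 620) (nat_lit 5) (nat_lit 631) (nat_lit 5) (nat_lit 621) (nat_lit 5) (nat_lit 402) (nat_lit 385) (nat_lit 353)) (XT.lf (nat_lit 0) (nat_lit 890251486) (nat_lit 912) (nat_lit 3121407140) (nat_lit 76) (nat_lit 2863257551) (nat_lit 608) (nat_lit 5) (nat_lit 620) (nat_lit 5) (nat_lit 609) (nat_lit 5) (nat_lit 403) (nat_lit 385) (nat_lit 352)))) (XT.nd (nat_lit 78) (nat_lit 1064) (nat_lit 0) (XT.lf (nat_lit 0) (nat_lit 679560672) (nat_lit 912) (nat_lit 2512983317) (nat_lit 988) (nat_lit 3716164722) (nat_lit 596) (nat_lit 5) (nat_lit 608) (nat_lit 5) (nat_lit 609) (nat_lit 5) (nat_lit 404) (nat_lit 385) (nat_lit 351)) (XT.nd (nat_lit 78) (nat_lit 1064) (nat_lit 0) (XT.lf (nat_lit 0) (nat_lit 4562228522) (nat_lit 912) (nat_lit 947151428) (nat_lit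 988) (nat_lit 1434458011) (nat_lit 596) (nat_lit 5) (nat_lit 608) (nat_lit 5) (nat_lit 609) (nat_lit 5) (nat_lit 405) (nat_lit 385) (nat_lit 350)) (XT.lf (nat_lit 0) (nat_lit 843675698) (nat_lit 1064) (nat_lit 5464451753) (nat_lit 76) (nat_lit 672205958) (nat_lit 582) (nat_lit 5) (nat_lit 596) (nat_lit 5) (nat_lit 583) (nat_lit 5) (nat_lit 406) (nat_lit 385) (nat_lit 349))))))))
noncomputable def xc109 : XT := (XT.nd (nat_lit 1638) (nat_lit 9956) (nat_lit 0) (XT.nd (nat_lit 780) (nat_lit 10184) (nat_lit 0) (XT.nd (nat_lit 390) (nat_lit 2812) (nat_lit 0) (XT.nd (nat_lit 156) (nat_lit 2432) (nat_lit 0) (XT.nd (nat_lit 78) (nat_lit 1064) (nat_lit 0) (XT.lf (nat_lit 0) (nat_lit 3119626416) (nat_lit 1064) (nat_lit 1547044966) (nat_lit 76) (nat_lit 2351297554) (nat_lit 582) (nat_lit 5) (nat_lit 596) (nat_lit 5) (nat_lit 583) (nat_lit 5) (nat_lit 407) (nat_lit 385) (nat_lit 348)) (XT.lf (nat_lit 0) (nat_lit 2443965288) (nat_lit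 1064) (nat_lit 2963080617) (nat_lit 1140) (nat_lit 1650020743) (nat_lit 568) (nat_lit 5) (nat_lit 582) (nat_lit 5) (nat_lit 583) (nat_lit 5) (nat_lit 408) (nat_lit 385) (nat_lit 347))) (XT.nd (nat_lit 78) (nat_lit 2356) (nat_lit 0) (XT.lf (nat_lit 0) (nat_lit 595751275) (nat_lit 1140) (nat_lit 602458820) (nat_lit 76) (nat_lit 5899461647) (nat_lit 567) (nat_lit 5) (nat_lit 582) (nat_lit 5) (nat_lit 568) (nat_lit 5) (nat_lit 409) (nat_lit 385) (nat_lit 346)) (XT.nd (nat_lit 78) (nat_lit 1216) (nat_lit 0) (XT.lf (nat_lit 0) (nat_lit 2842653622) (nat_lit 1216) (nat_lit 3656937642) (nat_lit 76) (nat_lit 639740197) (nat_lit 552) (nat_lit 5) (nat_lit 568) (nat_lit 5) (nat_lit 553) (nat_lit 5) (nat_lit 410) (nat_lit 385) (nat_lit 345)) (XT.lf (nat_lit 0) (nat_lit 435790959) (nat_lit 1216) (nat_lit 4665770333) (nat_lit 1292) (nat_lit 2080948038) (nat_lit 536) (nat_lit 5) (nat_lit 552) (nat_lit 5) (nat_lit 553) (nat_lit 5) (nat_lit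 411) (nat_lit 385) (nat_lit 344))))) (XT.nd (nat_lit 156) (nat_lit 1444) (nat_lit 0) (XT.nd (nat_lit 78) (nat_lit 1292) (nat_lit 0) (XT.lf (nat_lit 0) (nat_lit 154041705) (nat_lit 1292) (nat_lit 2605179187) (nat_lit 76) (nat_lit 4467786004) (nat_lit 535) (nat_lit 5) (nat_lit 552) (nat_lit 5) (nat_lit 536) (nat_lit 5) (nat_lit 412) (nat_lit 385) (nat_lit 343)) (XT.lf (nat_lit 0) (nat_lit 1589254211) (nat_lit 1292) (nat_lit 780478987) (nat_lit 1368) (nat_lit 4903133584) (nat_lit 518) (nat_lit 5) (nat_lit 535) (nat_lit 5) (nat_lit 536) (nat_lit 5) (nat_lit 413) (nat_lit 385) (nat_lit 342))) (XT.nd (nat_lit 78) (nat_lit 1444) (nat_lit 0) (XT.lf (nat_lit 0) (nat_lit 4609626062) (nat_lit 1368) (nat_lit 1462311271) (nat_lit 76) (nat_lit 1248133079) (nat_lit 518) (nat_lit 5) (nat_lit 536) (nat_lit 5) (nat_lit 519) (nat_lit 5) (nat_lit 414) (nat_lit 385) (nat_lit 341)) (XT.nd (nat_lit 78) (nat_lit 76) (nat_lit 0) (XT.lf (nat_lit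 0) (nat_lit 2838459939) (nat_lit 1368) (nat_lit 4034604527) (nat_lit 1444) (nat_lit 495602520) (nat_lit 500) (nat_lit 5) (nat_lit 518) (nat_lit 5) (nat_lit 519) (nat_lit 5) (nat_lit 415) (nat_lit 385) (nat_lit 340)) (XT.lf (nat_lit 0) (nat_lit 1705759547) (nat_lit 1444) (nat_lit 221871071) (nat_lit 76) (nat_lit 5491091719) (nat_lit 499) (nat_lit 5) (nat_lit 518) (nat_lit 5) (nat_lit 500) (nat_lit 5) (nat_lit 416) (nat_lit 385) (nat_lit 339)))))) (XT.nd (nat_lit 390) (nat_lit 5548) (nat_lit 0) (XT.nd (nat_lit 156) (nat_lit 1672) (nat_lit 0) (XT.nd (nat_lit 78) (nat_lit 1520) (nat_lit 0) (XT.lf (nat_lit 0) (nat_lit 3929740672) (nat_lit 1520) (nat_lit 3284131615) (nat_lit 76) (nat_lit 256158879) (nat_lit 480) (nat_lit 5) (nat_lit 500) (nat_lit 5) (nat_lit 481) (nat_lit 5) (nat_lit 417) (nat_lit 385) (nat_lit 338)) (XT.lf (nat_lit 0) (nat_lit 1127167217) (nat_lit 1520) (nat_lit 5049627207) (nat_lit 1596) (nat_lit 1346021896)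 (nat_lit 460) (nat_lit 5) (nat_lit 480) (nat_lit 5) (nat_lit 481) (nat_lit 5) (nat_lit 418) (nat_lit 385) (nat_lit 337))) (XT.nd (nat_lit 78) (nat_lit 1596) (nat_lit 0) (XT.lf (nat_lit 0) (nat_lit 859926101) (nat_lit 1596) (nat_lit 1948625090) (nat_lit 76) (nat_lit 4768421405) (nat_lit 459) (nat_lit 5) (nat_lit 480) (nat_lit 5) (nat_lit 460) (nat_lit 5) (nat_lit 419) (nat_lit 385) (nat_lit 336)) (XT.nd (nat_lit 78) (nat_lit 0) (nat_lit 0) (XT.lf (nat_lit 0) (nat_lit 2575259451) (nat_lit 1596) (nat_lit 491594867) (nat_lit 1672) (nat_lit 4565702783) (nat_lit 438) (nat_lit 5) (nat_lit 459) (nat_lit 5) (nat_lit 460) (nat_lit 5) (nat_lit 420) (nat_lit 385) (nat_lit 335)) (XT.lf (nat_lit 0) (nat_lit 5301995735) (nat_lit 1672) (nat_lit 522768167) (nat_lit 76) (nat_lit 1864828236) (nat_lit 438) (nat_lit 5) (nat_lit 460) (nat_lit 5) (nat_lit 439) (nat_lit 5) (nat_lit 421) (nat_lit 385) (nat_lit 334))))) (XT.nd (nat_lit 234) (nat_lit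 2052) (nat_lit 0) (XT.nd (nat_lit 78) (nat_lit 1824) (nat_lit 0) (XT.lf (nat_lit 0) (nat_lit 4116346381) (nat_lit 1672) (nat_lit 3455043296) (nat_lit 1748) (nat_lit 176607137) (nat_lit 416) (nat_lit 5) (nat_lit 438) (nat_lit 5) (nat_lit 439) (nat_lit 5) (nat_lit 422) (nat_lit 385) (nat_lit 333)) (XT.nd (nat_lit 78) (nat_lit 0) (nat_lit 0) (XT.lf (nat_lit 0) (nat_lit 1010415873) (nat_lit 1748) (nat_lit 1010856245) (nat_lit 1824) (nat_lit 5786648084) (nat_lit 392) (nat_lit 5) (nat_lit 415) (nat_lit 5) (nat_lit 416) (nat_lit 5) (nat_lit 423) (nat_lit 385) (nat_lit 332)) (XT.lf (nat_lit 0) (nat_lit 4255306919) (nat_lit 1824) (nat_lit 2122688971) (nat_lit 76) (nat_lit 1491150349) (nat_lit 392) (nat_lit 5) (nat_lit 416) (nat_lit 5) (nat_lit 393) (nat_lit 5) (nat_lit 424) (nat_lit 385) (nat_lit 331)))) (XT.nd (nat_lit 78) (nat_lit 988) (nat_lit 0) (XT.lf (nat_lit 0) (nat_lit 2636515173) (nat_lit 1064) (nat_lit 3882501346) (nat_lit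 1140) (nat_lit 1412898812) (nat_lit 378) (nat_lit 5) (nat_lit 392) (nat_lit 5) (nat_lit 393) (nat_lit 5) (nat_lit 425) (nat_lit 385) (nat_lit 330)) (XT.nd (nat_lit 78) (nat_lit 912) (nat_lit 0) (XT.lf (nat_lit 0) (nat_lit 796919381) (nat_lit 1140) (nat_lit 518752883) (nat_lit 76) (nat_lit 6680661766) (nat_lit 377) (nat_lit 5) (nat_lit 392) (nat_lit 5) (nat_lit 378) (nat_lit 5) (nat_lit 426) (nat_lit 385) (nat_lit 329)) (XT.lf (nat_lit 0) (nat_lit 3031275396) (nat_lit 988) (nat_lit 3706007553) (nat_lit 76) (nat_lit 1324603518) (nat_lit 365) (nat_lit 5) (nat_lit 378) (nat_lit 5) (nat_lit 366) (nat_lit 5) (nat_lit 427) (nat_lit 385) (nat_lit 328))))))) (XT.nd (nat_lit 858) (nat_lit 4180) (nat_lit 0) (XT.nd (nat_lit 390) (nat_lit 3192) (nat_lit 0) (XT.nd (nat_lit 156) (nat_lit 1748) (nat_lit 0) (XT.nd (nat_lit 78) (nat_lit 0) (nat_lit 0) (XT.lf (nat_lit 0) (nat_lit 1175965167) (nat_lit 836) (nat_lit 4116906899) (nat_lit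 912) (nat_lit 2836243830) (nat_lit 354) (nat_lit 5) (nat_lit 365) (nat_lit 5) (nat_lit 366) (nat_lit 5) (nat_lit 428) (nat_lit 385) (nat_lit 327)) (XT.lf (nat_lit 0) (nat_lit 6168980612) (nat_lit 836) (nat_lit 1418782695) (nat_lit 912) (nat_lit 610182034) (nat_lit 354) (nat_lit 5) (nat_lit 365) (nat_lit 5) (nat_lit 366) (nat_lit 5) (nat_lit 429) (nat_lit 385) (nat_lit 326))) (XT.nd (nat_lit 78) (nat_lit 836) (nat_lit 0) (XT.lf (nat_lit 0) (nat_lit 1630522863) (nat_lit 912) (nat_lit 5291675488) (nat_lit 76) (nat_lit 1345915480) (nat_lit 342) (nat_lit 5) (nat_lit 354) (nat_lit 5) (nat_lit 343) (nat_lit 5) (nat_lit 430) (nat_lit 385) (nat_lit 325)) (XT.nd (nat_lit 78) (nat_lit 836) (nat_lit 0) (XT.lf (nat_lit 0) (nat_lit 3895113767) (nat_lit 912) (nat_lit 280586036) (nat_lit 76) (nat_lit 4164176095) (nat_lit 342) (nat_lit 5) (nat_lit 354) (nat_lit 5) (nat_lit 343) (nat_lit 5) (nat_lit 431) (nat_lit 385) (nat_lit 324)) (XT.lf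 (nat_lit 0) (nat_lit 4858068807) (nat_lit 836) (nat_lit 1343305865) (nat_lit 912) (nat_lit 2211786380) (nat_lit 331) (nat_lit 5) (nat_lit 342) (nat_lit 5) (nat_lit 343) (nat_lit 5) (nat_lit 432) (nat_lit 385) (nat_lit 323))))) (XT.nd (nat_lit 234) (nat_lit 1520) (nat_lit 0) (XT.nd (nat_lit 78) (nat_lit 760) (nat_lit 0) (XT.lf (nat_lit 0) (nat_lit 52420498) (nat_lit 912) (nat_lit 6899130192) (nat_lit 76) (nat_lit 1536618775) (nat_lit 319) (nat_lit 5) (nat_lit 331) (nat_lit 5) (nat_lit 320) (nat_lit 5) (nat_lit 433) (nat_lit 385) (nat_lit 322)) (XT.nd (nat_lit 78) (nat_lit 760) (nat_lit 0) (XT.lf (nat_lit 0) (nat_lit 2330717589) (nat_lit 912) (nat_lit 1740721445) (nat_lit 76) (nat_lit 4492992697) (nat_lit 319) (nat_lit 5) (nat_lit 331) (nat_lit 5) (nat_lit 320) (nat_lit 5) (nat_lit 434) (nat_lit 385) (nat_lit 321)) (XT.lf (nat_lit 0) (nat_lit 3530827106) (nat_lit 760) (nat_lit 1112838392) (nat_lit 836) (nat_lit 3998786282)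 (nat_lit 309) (nat_lit 5) (nat_lit 319) (nat_lit 5) (nat_lit 320) (nat_lit 5) (nat_lit 435) (nat_lit 385) (nat_lit 320)))) (XT.nd (nat_lit 78) (nat_lit 760) (nat_lit 0) (XT.lf (nat_lit 0) (nat_lit 162528619) (nat_lit 760) (nat_lit 6832097725) (nat_lit 836) (nat_lit 1727584765) (nat_lit 299) (nat_lit 5) (nat_lit 309) (nat_lit 5) (nat_lit 310) (nat_lit 5) (nat_lit 436) (nat_lit 385) (nat_lit 319)) (XT.nd (nat_lit 78) (nat_lit 684) (nat_lit 0) (XT.lf (nat_lit 0) (nat_lit 589972404) (nat_lit 836) (nat_lit 3239821392) (nat_lit 76) (nat_lit 4973535613) (nat_lit 298) (nat_lit 5) (nat_lit 309) (nat_lit 5) (nat_lit 299) (nat_lit 5) (nat_lit 437) (nat_lit 385) (nat_lit 318)) (XT.lf (nat_lit 0) (nat_lit 2167168974) (nat_lit 684) (nat_lit 745081852) (nat_lit 760) (nat_lit 5973973965) (nat_lit 289) (nat_lit 5) (nat_lit 298) (nat_lit 5) (nat_lit 299) (nat_lit 5) (nat_lit 438) (nat_lit 385) (nat_lit 317)))))) (XT.nd (nat_lit 390) (nat_lit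 1976) (nat_lit 0) (XT.nd (nat_lit 156) (nat_lit 1444) (nat_lit 0) (XT.nd (nat_lit 78) (nat_lit 760) (nat_lit 0) (XT.lf (nat_lit 0) (nat_lit 5286241204) (nat_lit 760) (nat_lit 1296505516) (nat_lit 76) (nat_lit 2387938928) (nat_lit 289) (nat_lit 5) (nat_lit 299) (nat_lit 5) (nat_lit 290) (nat_lit 5) (nat_lit 439) (nat_lit 385) (nat_lit 316)) (XT.lf (nat_lit 0) (nat_lit 4249368132) (nat_lit 760) (nat_lit 3459289358) (nat_lit 836) (nat_lit 1348171950) (nat_lit 279) (nat_lit 5) (nat_lit 289) (nat_lit 5) (nat_lit 290) (nat_lit 5) (nat_lit 440) (nat_lit 385) (nat_lit 315))) (XT.nd (nat_lit 78) (nat_lit 684) (nat_lit 0) (XT.lf (nat_lit 0) (nat_lit 746102712) (nat_lit 684) (nat_lit 257344139) (nat_lit 760) (nat_lit 8141483176) (nat_lit 269) (nat_lit 5) (nat_lit 278) (nat_lit 5) (nat_lit 279) (nat_lit 5) (nat_lit 441) (nat_lit 385) (nat_lit 314)) (XT.nd (nat_lit 78) (nat_lit 684) (nat_lit 0) (XT.lf (nat_lit 0) (nat_lit 3405013348)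 (nat_lit 760) (nat_lit 2823400117) (nat_lit 76) (nat_lit 3005793498) (nat_lit 269) (nat_lit 5) (nat_lit 279) (nat_lit 5) (nat_lit 270) (nat_lit 5) (nat_lit 442) (nat_lit 385) (nat_lit 313)) (XT.lf (nat_lit 0) (nat_lit 2863622504) (nat_lit 684) (nat_lit 2980836588) (nat_lit 760) (nat_lit 3481025066) (nat_lit 260) (nat_lit 5) (nat_lit 269) (nat_lit 5) (nat_lit 270) (nat_lit 5) (nat_lit 443) (nat_lit 385) (nat_lit 312))))) (XT.nd (nat_lit 234) (nat_lit 684) (nat_lit 0) (XT.nd (nat_lit 78) (nat_lit 1292) (nat_lit 0) (XT.lf (nat_lit 0) (nat_lit 8323801383) (nat_lit 760) (nat_lit 753937700) (nat_lit 76) (nat_lit 341037110) (nat_lit 260) (nat_lit 5) (nat_lit 270) (nat_lit 5) (nat_lit 261) (nat_lit 5) (nat_lit 444) (nat_lit 385) (nat_lit 311)) (XT.nd (nat_lit 78) (nat_lit 608) (nat_lit 0) (XT.lf (nat_lit 0) (nat_lit 1344573982) (nat_lit 684) (nat_lit 4442703232) (nat_lit 76) (nat_lit 3726027291) (nat_lit 251) (nat_lit 5) (nat_lit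 260) (nat_lit 5) (nat_lit 252) (nat_lit 5) (nat_lit 445) (nat_lit 385) (nat_lit 310)) (XT.lf (nat_lit 0) (nat_lit 1387573382) (nat_lit 608) (nat_lit 2415413428) (nat_lit 684) (nat_lit 5806907912) (nat_lit 243) (nat_lit 5) (nat_lit 251) (nat_lit 5) (nat_lit 252) (nat_lit 5) (nat_lit 446) (nat_lit 385) (nat_lit 309)))) (XT.nd (nat_lit 78) (nat_lit 684) (nat_lit 0) (XT.lf (nat_lit 0) (nat_lit 6318150934) (nat_lit 684) (nat_lit 2355873039) (nat_lit 76) (nat_lit 1034251687) (nat_lit 243) (nat_lit 5) (nat_lit 252) (nat_lit 5) (nat_lit 244) (nat_lit 5) (nat_lit 447) (nat_lit 385) (nat_lit 308)) (XT.nd (nat_lit 78) (nat_lit 76) (nat_lit 0) (XT.lf (nat_lit 0) (nat_lit 3624259654) (nat_lit 608) (nat_lit 5270380964) (nat_lit 684) (nat_lit 913773522) (nat_lit 235) (nat_lit 5) (nat_lit 243) (nat_lit 5) (nat_lit 244) (nat_lit 5) (nat_lit 448) (nat_lit 385) (nat_lit 307)) (XT.lf (nat_lit 0) (nat_lit 1578505965) (nat_lit 684) (nat_lit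 200218081) (nat_lit 76) (nat_lit 8131881088) (nat_lit 234) (nat_lit 5) (nat_lit 243) (nat_lit 5) (nat_lit 235) (nat_lit 5) (nat_lit 449) (nat_lit 385) (nat_lit 306))))))))
noncomputable def xc110 : XT := (XT.nd (nat_lit 1638) (nat_lit 4636) (nat_lit 0) (XT.nd (nat_lit 780) (nat_lit 2888) (nat_lit 0) (XT.nd (nat_lit 390) (nat_lit 1596) (nat_lit 0) (XT.nd (nat_lit 156) (nat_lit 1216) (nat_lit 0) (XT.nd (nat_lit 78) (nat_lit 532) (nat_lit 0) (XT.lf (nat_lit 0) (nat_lit 4130990244) (nat_lit 684) (nat_lit 4085725744) (nat_lit 76) (nat_lit 1797561041) (nat_lit 226) (nat_lit 5) (nat_lit 235) (nat_lit 5) (nat_lit 227) (nat_lit 5) (nat_lit 450) (nat_lit 385) (nat_lit 305)) (XT.lf (nat_lit 0) (nat_lit 2042685770) (nat_lit 532) (nat_lit 4690696676) (nat_lit 608) (nat_lit 3386672328) (nat_lit 219) (nat_lit 5) (nat_lit 226) (nat_lit 5) (nat_lit 227) (nat_lit 5) (nat_lit 451) (nat_lit 385) (nat_lit 304))) (XT.nd (nat_lit 78) (nat_lit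 1216) (nat_lit 0) (XT.lf (nat_lit 0) (nat_lit 8314347956) (nat_lit 532) (nat_lit 1073670209) (nat_lit 608) (nat_lit 839935391) (nat_lit 219) (nat_lit 5) (nat_lit 226) (nat_lit 5) (nat_lit 227) (nat_lit 5) (nat_lit 452) (nat_lit 385) (nat_lit 303)) (XT.nd (nat_lit 78) (nat_lit 532) (nat_lit 0) (XT.lf (nat_lit 0) (nat_lit 1753478958) (nat_lit 684) (nat_lit 5969811079) (nat_lit 76) (nat_lit 2614125141) (nat_lit 210) (nat_lit 5) (nat_lit 219) (nat_lit 5) (nat_lit 211) (nat_lit 5) (nat_lit 453) (nat_lit 385) (nat_lit 302)) (XT.lf (nat_lit 0) (nat_lit 308201286) (nat_lit 532) (nat_lit 4074743962) (nat_lit 608) (nat_lit 6066109989) (nat_lit 203) (nat_lit 5) (nat_lit 210) (nat_lit 5) (nat_lit 211) (nat_lit 5) (nat_lit 454) (nat_lit 385) (nat_lit 301))))) (XT.nd (nat_lit 156) (nat_lit 1064) (nat_lit 0) (XT.nd (nat_lit 78) (nat_lit 532) (nat_lit 0) (XT.lf (nat_lit 0) (nat_lit 6758273111) (nat_lit 532) (nat_lit 320468836) (nat_lit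 608) (nat_lit 3483920004) (nat_lit 203) (nat_lit 5) (nat_lit 210) (nat_lit 5) (nat_lit 211) (nat_lit 5) (nat_lit 455) (nat_lit 385) (nat_lit 300)) (XT.lf (nat_lit 0) (nat_lit 2636378924) (nat_lit 532) (nat_lit 7206119827) (nat_lit 608) (nat_lit 835769675) (nat_lit 196) (nat_lit 5) (nat_lit 203) (nat_lit 5) (nat_lit 204) (nat_lit 5) (nat_lit 456) (nat_lit 385) (nat_lit 299))) (XT.nd (nat_lit 78) (nat_lit 988) (nat_lit 0) (XT.lf (nat_lit 0) (nat_lit 1842953844) (nat_lit 608) (nat_lit 1586893700) (nat_lit 76) (nat_lit 7366063950) (nat_lit 195) (nat_lit 5) (nat_lit 203) (nat_lit 5) (nat_lit 196) (nat_lit 5) (nat_lit 457) (nat_lit 385) (nat_lit 298)) (XT.nd (nat_lit 78) (nat_lit 532) (nat_lit 0) (XT.lf (nat_lit 0) (nat_lit 4574385732) (nat_lit 532) (nat_lit 5894711374) (nat_lit 76) (nat_lit 446501349) (nat_lit 189) (nat_lit 5) (nat_lit 196) (nat_lit 5) (nat_lit 190) (nat_lit 5) (nat_lit 458) (nat_lit 385) (nat_lit 297)) (XT.lf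 (nat_lit 0) (nat_lit 697325460) (nat_lit 532) (nat_lit 6676063069) (nat_lit 608) (nat_lit 3664039639) (nat_lit 182) (nat_lit 5) (nat_lit 189) (nat_lit 5) (nat_lit 190) (nat_lit 5) (nat_lit 459) (nat_lit 385) (nat_lit 296)))))) (XT.nd (nat_lit 390) (nat_lit 1444) (nat_lit 0) (XT.nd (nat_lit 156) (nat_lit 912) (nat_lit 0) (XT.nd (nat_lit 78) (nat_lit 532) (nat_lit 0) (XT.lf (nat_lit 0) (nat_lit 7467427039) (nat_lit 532) (nat_lit 2775753987) (nat_lit 608) (nat_lit 918224963) (nat_lit 182) (nat_lit 5) (nat_lit 189) (nat_lit 5) (nat_lit 190) (nat_lit 5) (nat_lit 460) (nat_lit 385) (nat_lit 295)) (XT.lf (nat_lit 0) (nat_lit 1861346666) (nat_lit 532) (nat_lit 8215792216) (nat_lit 76) (nat_lit 1210416839) (nat_lit 175) (nat_lit 5) (nat_lit 182) (nat_lit 5) (nat_lit 176) (nat_lit 5) (nat_lit 461) (nat_lit 385) (nat_lit 294))) (XT.nd (nat_lit 78) (nat_lit 912) (nat_lit 0) (XT.lf (nat_lit 0) (nat_lit 4703337185) (nat_lit 532) (nat_lit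 1451031575) (nat_lit 76) (nat_lit 5261363109) (nat_lit 175) (nat_lit 5) (nat_lit 182) (nat_lit 5) (nat_lit 176) (nat_lit 5) (nat_lit 462) (nat_lit 385) (nat_lit 293)) (XT.nd (nat_lit 78) (nat_lit 456) (nat_lit 0) (XT.lf (nat_lit 0) (nat_lit 5488094799) (nat_lit 456) (nat_lit 2125955864) (nat_lit 532) (nat_lit 3932190331) (nat_lit 169) (nat_lit 5) (nat_lit 175) (nat_lit 5) (nat_lit 176) (nat_lit 5) (nat_lit 463) (nat_lit 385) (nat_lit 292)) (XT.lf (nat_lit 0) (nat_lit 871895182) (nat_lit 456) (nat_lit 9715865461) (nat_lit 532) (nat_lit 1091510995) (nat_lit 163) (nat_lit 5) (nat_lit 169) (nat_lit 5) (nat_lit 170) (nat_lit 5) (nat_lit 464) (nat_lit 385) (nat_lit 291))))) (XT.nd (nat_lit 234) (nat_lit 912) (nat_lit 0) (XT.nd (nat_lit 78) (nat_lit 456) (nat_lit 0) (XT.lf (nat_lit 0) (nat_lit 1813829655) (nat_lit 532) (nat_lit 3850775021) (nat_lit 76) (nat_lit 6149499743) (nat_lit 162) (nat_lit 5) (nat_lit 169) (nat_lit 5)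 (nat_lit 163) (nat_lit 5) (nat_lit 465) (nat_lit 385) (nat_lit 290)) (XT.nd (nat_lit 78) (nat_lit 0) (nat_lit 0) (XT.lf (nat_lit 0) (nat_lit 3247767784) (nat_lit 456) (nat_lit 1512986238) (nat_lit 532) (nat_lit 7190780267) (nat_lit 156) (nat_lit 5) (nat_lit 162) (nat_lit 5) (nat_lit 163) (nat_lit 5) (nat_lit 466) (nat_lit 385) (nat_lit 289)) (XT.lf (nat_lit 0) (nat_lit 7787470471) (nat_lit 532) (nat_lit 1601300797) (nat_lit 76) (nat_lit 2702530864) (nat_lit 156) (nat_lit 5) (nat_lit 163) (nat_lit 5) (nat_lit 157) (nat_lit 5) (nat_lit 467) (nat_lit 385) (nat_lit 288)))) (XT.nd (nat_lit 78) (nat_lit 532) (nat_lit 0) (XT.lf (nat_lit 0) (nat_lit 5675529461) (nat_lit 380) (nat_lit 5223679380) (nat_lit 456) (nat_lit 1334173061) (nat_lit 151) (nat_lit 5) (nat_lit 156) (nat_lit 5) (nat_lit 157) (nat_lit 5) (nat_lit 468) (nat_lit 385) (nat_lit 287)) (XT.nd (nat_lit 78) (nat_lit 0) (nat_lit 0) (XT.lf (nat_lit 0) (nat_lit 707526064)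 (nat_lit 456) (nat_lit 958231988) (nat_lit 532) (nat_lit 10712469044) (nat_lit 144) (nat_lit 5) (nat_lit 150) (nat_lit 5) (nat_lit 151) (nat_lit 5) (nat_lit 469) (nat_lit 385) (nat_lit 286)) (XT.lf (nat_lit 0) (nat_lit 4752027366) (nat_lit 532) (nat_lit 4381500195) (nat_lit 76) (nat_lit 3391387130) (nat_lit 144) (nat_lit 5) (nat_lit 151) (nat_lit 5) (nat_lit 145) (nat_lit 5) (nat_lit 470) (nat_lit 385) (nat_lit 285))))))) (XT.nd (nat_lit 858) (nat_lit 1900) (nat_lit 0) (XT.nd (nat_lit 390) (nat_lit 1520) (nat_lit 0) (XT.nd (nat_lit 156) (nat_lit 836) (nat_lit 0) (XT.nd (nat_lit 78) (nat_lit 0) (nat_lit 0) (XT.lf (nat_lit 0) (nat_lit 3055483386) (nat_lit 380) (nat_lit 4849019734) (nat_lit 456) (nat_lit 4769949135) (nat_lit 139) (nat_lit 5) (nat_lit 144) (nat_lit 5) (nat_lit 145) (nat_lit 5) (nat_lit 471) (nat_lit 385) (nat_lit 284)) (XT.lf (nat_lit 0) (nat_lit 10669079189) (nat_lit 380) (nat_lit 458869199) (nat_lit 456)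 (nat_lit 1698879509) (nat_lit 139) (nat_lit 5) (nat_lit 144) (nat_lit 5) (nat_lit 145) (nat_lit 5) (nat_lit 472) (nat_lit 385) (nat_lit 283))) (XT.nd (nat_lit 78) (nat_lit 380) (nat_lit 0) (XT.lf (nat_lit 0) (nat_lit 1455537227) (nat_lit 456) (nat_lit 7523985524) (nat_lit 76) (nat_lit 4001733088) (nat_lit 133) (nat_lit 5) (nat_lit 139) (nat_lit 5) (nat_lit 134) (nat_lit 5) (nat_lit 473) (nat_lit 385) (nat_lit 282)) (XT.nd (nat_lit 78) (nat_lit 0) (nat_lit 0) (XT.lf (nat_lit 0) (nat_lit 70551224) (nat_lit 380) (nat_lit 4576780582) (nat_lit 456) (nat_lit 8491280586) (nat_lit 128) (nat_lit 5) (nat_lit 133) (nat_lit 5) (nat_lit 134) (nat_lit 5) (nat_lit 474) (nat_lit 385) (nat_lit 281)) (XT.lf (nat_lit 0) (nat_lit 7887830251) (nat_lit 380) (nat_lit 44776413) (nat_lit 456) (nat_lit 5365921814) (nat_lit 128) (nat_lit 5) (nat_lit 133) (nat_lit 5) (nat_lit 134) (nat_lit 5) (nat_lit 475) (nat_lit 385) (nat_lit 280))))) (XT.nd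 (nat_lit 234) (nat_lit 760) (nat_lit 0) (XT.nd (nat_lit 78) (nat_lit 380) (nat_lit 0) (XT.lf (nat_lit 0) (nat_lit 2370300417) (nat_lit 380) (nat_lit 8937896422) (nat_lit 456) (nat_lit 2152959035) (nat_lit 123) (nat_lit 5) (nat_lit 128) (nat_lit 5) (nat_lit 129) (nat_lit 5) (nat_lit 476) (nat_lit 385) (nat_lit 279)) (XT.nd (nat_lit 78) (nat_lit 304) (nat_lit 0) (XT.lf (nat_lit 0) (nat_lit 1125924817) (nat_lit 456) (nat_lit 3284833013) (nat_lit 76) (nat_lit 9215808850) (nat_lit 122) (nat_lit 5) (nat_lit 128) (nat_lit 5) (nat_lit 123) (nat_lit 5) (nat_lit 477) (nat_lit 385) (nat_lit 278)) (XT.lf (nat_lit 0) (nat_lit 4453598246) (nat_lit 380) (nat_lit 9102093869) (nat_lit 76) (nat_lit 239073049) (nat_lit 118) (nat_lit 5) (nat_lit 123) (nat_lit 5) (nat_lit 119) (nat_lit 5) (nat_lit 478) (nat_lit 385) (nat_lit 277)))) (XT.nd (nat_lit 78) (nat_lit 760) (nat_lit 0) (XT.lf (nat_lit 0) (nat_lit 7879316582) (nat_lit 380) (nat_lit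 1151468229) (nat_lit 76) (nat_lit 4934917770) (nat_lit 118) (nat_lit 5) (nat_lit 123) (nat_lit 5) (nat_lit 119) (nat_lit 5) (nat_lit 479) (nat_lit 385) (nat_lit 276)) (XT.nd (nat_lit 78) (nat_lit 380) (nat_lit 0) (XT.lf (nat_lit 0) (nat_lit 7020363209) (nat_lit 380) (nat_lit 4379249461) (nat_lit 456) (nat_lit 2739929506) (nat_lit 113) (nat_lit 5) (nat_lit 118) (nat_lit 5) (nat_lit 119) (nat_lit 5) (nat_lit 480) (nat_lit 385) (nat_lit 275)) (XT.lf (nat_lit 0) (nat_lit 662082034) (nat_lit 380) (nat_lit 13285580853) (nat_lit 76) (nat_lit 369163570) (nat_lit 108) (nat_lit 5) (nat_lit 113) (nat_lit 5) (nat_lit 109) (nat_lit 5) (nat_lit 481) (nat_lit 385) (nat_lit 274)))))) (XT.nd (nat_lit 390) (nat_lit 1216) (nat_lit 0) (XT.nd (nat_lit 156) (nat_lit 380) (nat_lit 0) (XT.nd (nat_lit 78) (nat_lit 304) (nat_lit 0) (XT.lf (nat_lit 0) (nat_lit 4153232261) (nat_lit 380) (nat_lit 5133054603) (nat_lit 76) (nat_lit 5209856044) (nat_lit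 108) (nat_lit 5) (nat_lit 113) (nat_lit 5) (nat_lit 109) (nat_lit 5) (nat_lit 482) (nat_lit 385) (nat_lit 273)) (XT.lf (nat_lit 0) (nat_lit 3194942654) (nat_lit 304) (nat_lit 4521046082) (nat_lit 380) (nat_lit 6963025628) (nat_lit 104) (nat_lit 5) (nat_lit 108) (nat_lit 5) (nat_lit 109) (nat_lit 5) (nat_lit 483) (nat_lit 385) (nat_lit 272))) (XT.nd (nat_lit 78) (nat_lit 380) (nat_lit 0) (XT.lf (nat_lit 0) (nat_lit 11368031153) (nat_lit 380) (nat_lit 3137806350) (nat_lit 76) (nat_lit 359349381) (nat_lit 104) (nat_lit 5) (nat_lit 109) (nat_lit 5) (nat_lit 105) (nat_lit 5) (nat_lit 484) (nat_lit 385) (nat_lit 271)) (XT.nd (nat_lit 78) (nat_lit 0) (nat_lit 0) (XT.lf (nat_lit 0) (nat_lit 84275875) (nat_lit 380) (nat_lit 9667635606) (nat_lit 76) (nat_lit 5302235664) (nat_lit 99) (nat_lit 5) (nat_lit 104) (nat_lit 5) (nat_lit 100) (nat_lit 5) (nat_lit 485) (nat_lit 385) (nat_lit 270)) (XT.lf (nat_lit 0) (nat_lit 3693321132)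 (nat_lit 380) (nat_lit 1174992334) (nat_lit 76) (nat_lit 10378058589) (nat_lit 99) (nat_lit 5) (nat_lit 104) (nat_lit 5) (nat_lit 100) (nat_lit 5) (nat_lit 486) (nat_lit 385) (nat_lit 269))))) (XT.nd (nat_lit 234) (nat_lit 608) (nat_lit 0) (XT.nd (nat_lit 78) (nat_lit 304) (nat_lit 0) (XT.lf (nat_lit 0) (nat_lit 7406543936) (nat_lit 380) (nat_lit 7884692784) (nat_lit 76) (nat_lit 150568741) (nat_lit 95) (nat_lit 5) (nat_lit 100) (nat_lit 5) (nat_lit 96) (nat_lit 5) (nat_lit 487) (nat_lit 385) (nat_lit 268)) (XT.nd (nat_lit 78) (nat_lit 0) (nat_lit 0) (XT.lf (nat_lit 0) (nat_lit 788228917) (nat_lit 304) (nat_lit 10433133911) (nat_lit 380) (nat_lit 4419241928) (nat_lit 91) (nat_lit 5) (nat_lit 95) (nat_lit 5) (nat_lit 96) (nat_lit 5) (nat_lit 488) (nat_lit 385) (nat_lit 267)) (XT.lf (nat_lit 0) (nat_lit 9713062961) (nat_lit 304) (nat_lit 5434529653) (nat_lit 380) (nat_lit 695088909) (nat_lit 91) (nat_lit 5) (nat_lit 95)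 (nat_lit 5) (nat_lit 96) (nat_lit 5) (nat_lit 489) (nat_lit 385) (nat_lit 266)))) (XT.nd (nat_lit 78) (nat_lit 228) (nat_lit 0) (XT.lf (nat_lit 0) (nat_lit 2755477255) (nat_lit 304) (nat_lit 307690541) (nat_lit 380) (nat_lit 12985226170) (nat_lit 86) (nat_lit 5) (nat_lit 90) (nat_lit 5) (nat_lit 91) (nat_lit 5) (nat_lit 490) (nat_lit 385) (nat_lit 265)) (XT.nd (nat_lit 78) (nat_lit 228) (nat_lit 0) (XT.lf (nat_lit 0) (nat_lit 6943180010) (nat_lit 380) (nat_lit 4421068236) (nat_lit 76) (nat_lit 4892766128) (nat_lit 86) (nat_lit 5) (nat_lit 91) (nat_lit 5) (nat_lit 87) (nat_lit 5) (nat_lit 491) (nat_lit 385) (nat_lit 264)) (XT.lf (nat_lit 0) (nat_lit 4659641229) (nat_lit 228) (nat_lit 6256313678) (nat_lit 304) (nat_lit 5553552525) (nat_lit 83) (nat_lit 5) (nat_lit 86) (nat_lit 5) (nat_lit 87) (nat_lit 5) (nat_lit 492) (nat_lit 385) (nat_lit 263))))))))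
noncomputable def xc111 : XT := (XT.nd (nat_lit 51714) (nat_lit 0) (nat_lit 33364) (XT.nd (nat_lit 780) (nat_lit 304) (nat_lit 0) (XT.nd (nat_lit 390) (nat_lit 532) (nat_lit 0) (XT.nd (nat_lit 156) (nat_lit 532) (nat_lit 0) (XT.nd (nat_lit 78) (nat_lit 380) (nat_lit 0) (XT.lf (nat_lit 0) (nat_lit 13954425211) (nat_lit 228) (nat_lit 1026456572) (nat_lit 304) (nat_lit 1705118059) (nat_lit 83) (nat_lit 5) (nat_lit 86) (nat_lit 5) (nat_lit 87) (nat_lit 5) (nat_lit 493) (nat_lit 385) (nat_lit 262)) (XT.lf (nat_lit 0) (nat_lit 2245370364) (nat_lit 380) (nat_lit 10361383064) (nat_lit 76) (nat_lit 4298699556) (nat_lit 78) (nat_lit 5) (nat_lit 83) (nat_lit 5) (nat_lit 79) (nat_lit 5) (nat_lit 494) (nat_lit 385) (nat_lit 261))) (XT.nd (nat_lit 78) (nat_lit 532) (nat_lit 0) (XT.lf (nat_lit 0) (nat_lit 6260641779) (nat_lit 380) (nat_lit 1132130185) (nat_lit 76) (nat_lit 9736128936) (nat_lit 78) (nat_lit 5) (nat_lit 83) (nat_lit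 5) (nat_lit 79) (nat_lit 5) (nat_lit 495) (nat_lit 385) (nat_lit 260)) (XT.nd (nat_lit 78) (nat_lit 304) (nat_lit 0) (XT.lf (nat_lit 0) (nat_lit 8364701641) (nat_lit 228) (nat_lit 2029486945) (nat_lit 304) (nat_lit 6961872949) (nat_lit 75) (nat_lit 5) (nat_lit 78) (nat_lit 5) (nat_lit 79) (nat_lit 5) (nat_lit 496) (nat_lit 385) (nat_lit 259)) (XT.lf (nat_lit 0) (nat_lit 435730985) (nat_lit 304) (nat_lit 14191235279) (nat_lit 380) (nat_lit 2960471020) (nat_lit 71) (nat_lit 5) (nat_lit 75) (nat_lit 5) (nat_lit 76) (nat_lit 5) (nat_lit 497) (nat_lit 385) (nat_lit 258))))) (XT.nd (nat_lit 156) (nat_lit 228) (nat_lit 0) (XT.nd (nat_lit 78) (nat_lit 228) (nat_lit 0) (XT.lf (nat_lit 0) (nat_lit 1164211991) (nat_lit 380) (nat_lit 7696944770) (nat_lit 76) (nat_lit 8960982113) (nat_lit 70) (nat_lit 5) (nat_lit 75) (nat_lit 5) (nat_lit 71) (nat_lit 5) (nat_lit 498) (nat_lit 385) (nat_lit 257)) (XT.lf (nat_lit 0) (nat_lit 1926258676)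 (nat_lit 228) (nat_lit 3402128934) (nat_lit 304) (nat_lit 12732825637) (nat_lit 67) (nat_lit 5) (nat_lit 70) (nat_lit 5) (nat_lit 71) (nat_lit 5) (nat_lit 499) (nat_lit 385) (nat_lit 256))) (XT.nd (nat_lit 78) (nat_lit 228) (nat_lit 0) (XT.lf (nat_lit 0) (nat_lit 9626073798) (nat_lit 304) (nat_lit 6498569884) (nat_lit 76) (nat_lit 2179423748) (nat_lit 67) (nat_lit 5) (nat_lit 71) (nat_lit 5) (nat_lit 68) (nat_lit 5) (nat_lit 500) (nat_lit 385) (nat_lit 255)) (XT.nd (nat_lit 78) (nat_lit 0) (nat_lit 0) (XT.lf (nat_lit 0) (nat_lit 3325758777) (nat_lit 228) (nat_lit 10712559818) (nat_lit 304) (nat_lit 4512890810) (nat_lit 64) (nat_lit 5) (nat_lit 67) (nat_lit 5) (nat_lit 68) (nat_lit 5) (nat_lit 501) (nat_lit 385) (nat_lit 254)) (XT.lf (nat_lit 0) (nat_lit 13408963052) (nat_lit 228) (nat_lit 5158072683) (nat_lit 304) (nat_lit 235696686) (nat_lit 64) (nat_lit 5) (nat_lit 67) (nat_lit 5) (nat_lit 68) (nat_lit 5) (nat_lit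 502) (nat_lit 385) (nat_lit 253)))))) (XT.nd (nat_lit 50466) (nat_lit 0) (nat_lit 44004) (XT.nd (nat_lit 50232) (nat_lit 0) (nat_lit 45220) (XT.nd (nat_lit 78) (nat_lit 0) (nat_lit 0) (XT.lf (nat_lit 0) (nat_lit 4091484959) (nat_lit 304) (nat_lit 14418813380) (nat_lit 76) (nat_lit 548082884) (nat_lit 60) (nat_lit 5) (nat_lit 64) (nat_lit 5) (nat_lit 61) (nat_lit 5) (nat_lit 503) (nat_lit 385) (nat_lit 252)) (XT.lf (nat_lit 0) (nat_lit 8557536780) (nat_lit 304) (nat_lit 4433164938) (nat_lit 76) (nat_lit 6327303067) (nat_lit 60) (nat_lit 5) (nat_lit 64) (nat_lit 5) (nat_lit 61) (nat_lit 5) (nat_lit 504) (nat_lit 385) (nat_lit 251))) (XT.nd (nat_lit 78) (nat_lit 532) (nat_lit 0) (XT.lf (nat_lit 0) (nat_lit 828618288) (nat_lit 532) (nat_lit 1213661854) (nat_lit 532) (nat_lit 1213661854) (nat_lit 662) (nat_lit 3) (nat_lit 669) (nat_lit 3) (nat_lit 669) (nat_lit 5) (nat_lit 386) (nat_lit 386) (nat_lit 368)) (XT.nd (nat_lit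 78) (nat_lit 532) (nat_lit 0) (XT.lf (nat_lit 76) (nat_lit 705137001) (nat_lit 0) (nat_lit 3519798642) (nat_lit 532) (nat_lit 2299228331) (nat_lit 663) (nat_lit 5) (nat_lit 662) (nat_lit 3) (nat_lit 669) (nat_lit 5) (nat_lit 387) (nat_lit 386) (nat_lit 367)) (XT.lf (nat_lit 0) (nat_lit 252153316) (nat_lit 532) (nat_lit 2640804088) (nat_lit 608) (nat_lit 3644761266) (nat_lit 655) (nat_lit 5) (nat_lit 662) (nat_lit 3) (nat_lit 663) (nat_lit 5) (nat_lit 388) (nat_lit 386) (nat_lit 366))))) (XT.nd (nat_lit 234) (nat_lit 608) (nat_lit 0) (XT.nd (nat_lit 78) (nat_lit 608) (nat_lit 0) (XT.lf (nat_lit 76) (nat_lit 558287261) (nat_lit 0) (nat_lit 2202953956) (nat_lit 608) (nat_lit 3791295771) (nat_lit 656) (nat_lit 5) (nat_lit 655) (nat_lit 5) (nat_lit 663) (nat_lit 5) (nat_lit 389) (nat_lit 386) (nat_lit 365)) (XT.nd (nat_lit 78) (nat_lit 608) (nat_lit 0) (XT.lf (nat_lit 76) (nat_lit 3822594770) (nat_lit 0) (nat_lit 1450522437)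 (nat_lit 608) (nat_lit 1295527235) (nat_lit 656) (nat_lit 5) (nat_lit 655) (nat_lit 5) (nat_lit 663) (nat_lit 5) (nat_lit 390) (nat_lit 386) (nat_lit 364)) (XT.lf (nat_lit 76) (nat_lit 531181588) (nat_lit 0) (nat_lit 641723536) (nat_lit 684) (nat_lit 5413266845) (nat_lit 648) (nat_lit 5) (nat_lit 647) (nat_lit 5) (nat_lit 656) (nat_lit 5) (nat_lit 391) (nat_lit 386) (nat_lit 363)))) (XT.nd (nat_lit 78) (nat_lit 684) (nat_lit 0) (XT.lf (nat_lit 0) (nat_lit 3630033157) (nat_lit 608) (nat_lit 2738439823) (nat_lit 684) (nat_lit 236314621) (nat_lit 648) (nat_lit 5) (nat_lit 656) (nat_lit 5) (nat_lit 657) (nat_lit 5) (nat_lit 392) (nat_lit 386) (nat_lit 362)) (XT.nd (nat_lit 78) (nat_lit 684) (nat_lit 0) (XT.lf (nat_lit 76) (nat_lit 612889141) (nat_lit 0) (nat_lit 5469799260) (nat_lit 684) (nat_lit 542200928) (nat_lit 649) (nat_lit 5) (nat_lit 648) (nat_lit 5) (nat_lit 657) (nat_lit 5) (nat_lit 393) (nat_lit 386) (nat_lit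 361)) (XT.lf (nat_lit 0) (nat_lit 1870768406) (nat_lit 684) (nat_lit 2625334576) (nat_lit 760) (nat_lit 2149934286) (nat_lit 639) (nat_lit 5) (nat_lit 648) (nat_lit 5) (nat_lit 649) (nat_lit 5) (nat_lit 394) (nat_lit 386) (nat_lit 360))))))) (XT.nd (nat_lit 858) (nat_lit 7296) (nat_lit 0) (XT.nd (nat_lit 390) (nat_lit 1824) (nat_lit 0) (XT.nd (nat_lit 156) (nat_lit 1520) (nat_lit 0) (XT.nd (nat_lit 78) (nat_lit 0) (nat_lit 0) (XT.lf (nat_lit 76) (nat_lit 800717346) (nat_lit 0) (nat_lit 3469124361) (nat_lit 760) (nat_lit 2398831770) (nat_lit 640) (nat_lit 5) (nat_lit 639) (nat_lit 5) (nat_lit 649) (nat_lit 5) (nat_lit 395) (nat_lit 386) (nat_lit 359)) (XT.lf (nat_lit 76) (nat_lit 4295851551) (nat_lit 0) (nat_lit 2379512418) (nat_lit 760) (nat_lit 17267410) (nat_lit 640) (nat_lit 5) (nat_lit 639) (nat_lit 5) (nat_lit 649) (nat_lit 5) (nat_lit 396) (nat_lit 386) (nat_lit 358))) (XT.nd (nat_lit 78) (nat_lit 760) (nat_lit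 0) (XT.lf (nat_lit 76) (nat_lit 1107533502) (nat_lit 0) (nat_lit 1221541506) (nat_lit 836) (nat_lit 4388741470) (nat_lit 630) (nat_lit 5) (nat_lit 629) (nat_lit 5) (nat_lit 640) (nat_lit 5) (nat_lit 397) (nat_lit 386) (nat_lit 357)) (XT.nd (nat_lit 78) (nat_lit 760) (nat_lit 0) (XT.lf (nat_lit 76) (nat_lit 4679385311) (nat_lit 0) (nat_lit 1318263) (nat_lit 836) (nat_lit 2063663719) (nat_lit 630) (nat_lit 5) (nat_lit 629) (nat_lit 5) (nat_lit 640) (nat_lit 5) (nat_lit 398) (nat_lit 386) (nat_lit 356)) (XT.lf (nat_lit 0) (nat_lit 265358351) (nat_lit 836) (nat_lit 5246349489) (nat_lit 912) (nat_lit 1260506384) (nat_lit 619) (nat_lit 5) (nat_lit 630) (nat_lit 5) (nat_lit 631) (nat_lit 5) (nat_lit 399) (nat_lit 386) (nat_lit 355))))) (XT.nd (nat_lit 234) (nat_lit 912) (nat_lit 0) (XT.nd (nat_lit 78) (nat_lit 912) (nat_lit 0) (XT.lf (nat_lit 0) (nat_lit 2571562566) (nat_lit 836) (nat_lit 1633671961) (nat_lit 912) (nat_lit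 2595980092) (nat_lit 619) (nat_lit 5) (nat_lit 630) (nat_lit 5) (nat_lit 631) (nat_lit 5) (nat_lit 400) (nat_lit 386) (nat_lit 354)) (XT.nd (nat_lit 78) (nat_lit 912) (nat_lit 0) (XT.lf (nat_lit 76) (nat_lit 2042673037) (nat_lit 0) (nat_lit 2839824055) (nat_lit 912) (nat_lit 1949159162) (nat_lit 620) (nat_lit 5) (nat_lit 619) (nat_lit 5) (nat_lit 631) (nat_lit 5) (nat_lit 401) (nat_lit 386) (nat_lit 353)) (XT.lf (nat_lit 0) (nat_lit 328834007) (nat_lit 912) (nat_lit 1086213382) (nat_lit 988) (nat_lit 5448505767) (nat_lit 607) (nat_lit 5) (nat_lit 619) (nat_lit 5) (nat_lit 620) (nat_lit 5) (nat_lit 402) (nat_lit 386) (nat_lit 352)))) (XT.nd (nat_lit 78) (nat_lit 988) (nat_lit 0) (XT.lf (nat_lit 0) (nat_lit 2591123935) (nat_lit 912) (nat_lit 4219512452) (nat_lit 76) (nat_lit 85928639) (nat_lit 608) (nat_lit 5) (nat_lit 620) (nat_lit 5) (nat_lit 609) (nat_lit 5) (nat_lit 403) (nat_lit 386) (nat_lit 351)) (XT.nd (nat_lit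 78) (nat_lit 988) (nat_lit 0) (XT.lf (nat_lit 0) (nat_lit 4863157327) (nat_lit 912) (nat_lit 445353435) (nat_lit 76) (nat_lit 1622467237) (nat_lit 608) (nat_lit 5) (nat_lit 620) (nat_lit 5) (nat_lit 609) (nat_lit 5) (nat_lit 404) (nat_lit 386) (nat_lit 350)) (XT.lf (nat_lit 0) (nat_lit 182492602) (nat_lit 988) (nat_lit 3554273121) (nat_lit 76) (nat_lit 3229900181) (nat_lit 595) (nat_lit 5) (nat_lit 608) (nat_lit 5) (nat_lit 596) (nat_lit 5) (nat_lit 405) (nat_lit 386) (nat_lit 349)))))) (XT.nd (nat_lit 390) (nat_lit 4028) (nat_lit 0) (XT.nd (nat_lit 156) (nat_lit 2280) (nat_lit 0) (XT.nd (nat_lit 78) (nat_lit 0) (nat_lit 0) (XT.lf (nat_lit 0) (nat_lit 304692937) (nat_lit 988) (nat_lit 2099668467) (nat_lit 1064) (nat_lit 4599377090) (nat_lit 582) (nat_lit 5) (nat_lit 595) (nat_lit 5) (nat_lit 596) (nat_lit 5) (nat_lit 406) (nat_lit 386) (nat_lit 348)) (XT.lf (nat_lit 0) (nat_lit 4253341480) (nat_lit 988) (nat_lit 391165986)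 (nat_lit 1064) (nat_lit 2397596742) (nat_lit 582) (nat_lit 5) (nat_lit 595) (nat_lit 5) (nat_lit 596) (nat_lit 5) (nat_lit 407) (nat_lit 386) (nat_lit 347))) (XT.nd (nat_lit 78) (nat_lit 1216) (nat_lit 0) (XT.lf (nat_lit 0) (nat_lit 1170222367) (nat_lit 1064) (nat_lit 5726667520) (nat_lit 1140) (nat_lit 185026593) (nat_lit 568) (nat_lit 5) (nat_lit 582) (nat_lit 5) (nat_lit 583) (nat_lit 5) (nat_lit 408) (nat_lit 386) (nat_lit 346)) (XT.nd (nat_lit 78) (nat_lit 1140) (nat_lit 0) (XT.lf (nat_lit 0) (nat_lit 2017492809) (nat_lit 1140) (nat_lit 1928638036) (nat_lit 76) (nat_lit 3176694556) (nat_lit 567) (nat_lit 5) (nat_lit 582) (nat_lit 5) (nat_lit 568) (nat_lit 5) (nat_lit 409) (nat_lit 386) (nat_lit 345)) (XT.lf (nat_lit 0) (nat_lit 2124927537) (nat_lit 1140) (nat_lit 2102849753) (nat_lit 1216) (nat_lit 2937453206) (nat_lit 552) (nat_lit 5) (nat_lit 567) (nat_lit 5) (nat_lit 568) (nat_lit 5) (nat_lit 410) (nat_lit 386)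 (nat_lit 344))))) (XT.nd (nat_lit 234) (nat_lit 1444) (nat_lit 0) (XT.nd (nat_lit 78) (nat_lit 2584) (nat_lit 0) (XT.lf (nat_lit 0) (nat_lit 6250148023) (nat_lit 1140) (nat_lit 198157645) (nat_lit 1216) (nat_lit 760883050) (nat_lit 552) (nat_lit 5) (nat_lit 567) (nat_lit 5) (nat_lit 568) (nat_lit 5) (nat_lit 411) (nat_lit 386) (nat_lit 343)) (XT.nd (nat_lit 78) (nat_lit 1292) (nat_lit 0) (XT.lf (nat_lit 0) (nat_lit 1426146717) (nat_lit 1292) (nat_lit 4065120192) (nat_lit 76) (nat_lit 1762873173) (nat_lit 535) (nat_lit 5) (nat_lit 552) (nat_lit 5) (nat_lit 536) (nat_lit 5) (nat_lit 412) (nat_lit 386) (nat_lit 342)) (XT.lf (nat_lit 0) (nat_lit 91715618) (nat_lit 1292) (nat_lit 3517841486) (nat_lit 1368) (nat_lit 3691100514) (nat_lit 518) (nat_lit 5) (nat_lit 535) (nat_lit 5) (nat_lit 536) (nat_lit 5) (nat_lit 413) (nat_lit 386) (nat_lit 341)))) (XT.nd (nat_lit 78) (nat_lit 1444) (nat_lit 0) (XT.lf (nat_lit 0) (nat_lit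 4350757217) (nat_lit 1292) (nat_lit 1468249751) (nat_lit 1368) (nat_lit 1529474934) (nat_lit 518) (nat_lit 5) (nat_lit 535) (nat_lit 5) (nat_lit 536) (nat_lit 5) (nat_lit 414) (nat_lit 386) (nat_lit 340)) (XT.nd (nat_lit 78) (nat_lit 0) (nat_lit 0) (XT.lf (nat_lit 0) (nat_lit 634634771) (nat_lit 1444) (nat_lit 6127996545) (nat_lit 76) (nat_lit 635204365) (nat_lit 499) (nat_lit 5) (nat_lit 518) (nat_lit 5) (nat_lit 500) (nat_lit 5) (nat_lit 415) (nat_lit 386) (nat_lit 339)) (XT.lf (nat_lit 0) (nat_lit 2807886862) (nat_lit 1444) (nat_lit 1841023075) (nat_lit 76) (nat_lit 2799360054) (nat_lit 499) (nat_lit 5) (nat_lit 518) (nat_lit 5) (nat_lit 500) (nat_lit 5) (nat_lit 416) (nat_lit 386) (nat_lit 338))))))))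
noncomputable def xc112 : XT := (XT.nd (nat_lit 1638) (nat_lit 8284) (nat_lit 0) (XT.nd (nat_lit 780) (nat_lit 6004) (nat_lit 0) (XT.nd (nat_lit 390) (nat_lit 4636) (nat_lit 0) (XT.nd (nat_lit 156) (nat_lit 3192) (nat_lit 0) (XT.nd (nat_lit 78) (nat_lit 0) (nat_lit 0) (XT.lf (nat_lit 0) (nat_lit 2528923477) (nat_lit 1444) (nat_lit 2469303572) (nat_lit 1520) (nat_lit 2502035487) (nat_lit 480) (nat_lit 5) (nat_lit 499) (nat_lit 5) (nat_lit 500) (nat_lit 5) (nat_lit 417) (nat_lit 386) (nat_lit 337)) (XT.lf (nat_lit 0) (nat_lit 6975527246) (nat_lit 1444) (nat_lit 227012006) (nat_lit 1520) (nat_lit 351373951) (nat_lit 480) (nat_lit 5) (nat_lit 499) (nat_lit 5) (nat_lit 500) (nat_lit 5) (nat_lit 418) (nat_lit 386) (nat_lit 336))) (XT.nd (nat_lit 78) (nat_lit 1596) (nat_lit 0) (XT.lf (nat_lit 0) (nat_lit 1815505644) (nat_lit 1596) (nat_lit 3716284068) (nat_lit 76) (nat_lit 2076681343) (nat_lit 459) (nat_lit 5) (nat_lit 480)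 (nat_lit 5) (nat_lit 460) (nat_lit 5) (nat_lit 419) (nat_lit 386) (nat_lit 335)) (XT.nd (nat_lit 78) (nat_lit 0) (nat_lit 0) (XT.lf (nat_lit 0) (nat_lit 765941958) (nat_lit 1596) (nat_lit 3224431740) (nat_lit 1672) (nat_lit 3674333132) (nat_lit 438) (nat_lit 5) (nat_lit 459) (nat_lit 5) (nat_lit 460) (nat_lit 5) (nat_lit 420) (nat_lit 386) (nat_lit 334)) (XT.lf (nat_lit 0) (nat_lit 5352209421) (nat_lit 1596) (nat_lit 841006862) (nat_lit 1672) (nat_lit 1529181427) (nat_lit 438) (nat_lit 5) (nat_lit 459) (nat_lit 5) (nat_lit 460) (nat_lit 5) (nat_lit 421) (nat_lit 386) (nat_lit 333))))) (XT.nd (nat_lit 156) (nat_lit 2888) (nat_lit 0) (XT.nd (nat_lit 78) (nat_lit 0) (nat_lit 0) (XT.lf (nat_lit 0) (nat_lit 635289609) (nat_lit 1748) (nat_lit 5553945977) (nat_lit 76) (nat_lit 1592239276) (nat_lit 415) (nat_lit 5) (nat_lit 438) (nat_lit 5) (nat_lit 416) (nat_lit 5) (nat_lit 422) (nat_lit 386) (nat_lit 332)) (XT.lf (nat_lit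 0) (nat_lit 2804800917) (nat_lit 1748) (nat_lit 944307165) (nat_lit 76) (nat_lit 4092797567) (nat_lit 415) (nat_lit 5) (nat_lit 438) (nat_lit 5) (nat_lit 416) (nat_lit 5) (nat_lit 423) (nat_lit 386) (nat_lit 331))) (XT.nd (nat_lit 78) (nat_lit 1140) (nat_lit 0) (XT.lf (nat_lit 0) (nat_lit 3771280841) (nat_lit 1748) (nat_lit 1232306605) (nat_lit 1824) (nat_lit 2900258323) (nat_lit 392) (nat_lit 5) (nat_lit 415) (nat_lit 5) (nat_lit 416) (nat_lit 5) (nat_lit 424) (nat_lit 386) (nat_lit 330)) (XT.nd (nat_lit 78) (nat_lit 76) (nat_lit 0) (XT.lf (nat_lit 0) (nat_lit 589844167) (nat_lit 1064) (nat_lit 6637323398) (nat_lit 1140) (nat_lit 740258823) (nat_lit 378) (nat_lit 5) (nat_lit 392) (nat_lit 5) (nat_lit 393) (nat_lit 5) (nat_lit 425) (nat_lit 386) (nat_lit 329)) (XT.lf (nat_lit 0) (nat_lit 1442019271) (nat_lit 1140) (nat_lit 2623394944) (nat_lit 76) (nat_lit 3966726484) (nat_lit 377) (nat_lit 5) (nat_lit 392) (nat_lit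 5) (nat_lit 378) (nat_lit 5) (nat_lit 426) (nat_lit 386) (nat_lit 328)))))) (XT.nd (nat_lit 390) (nat_lit 3344) (nat_lit 0) (XT.nd (nat_lit 156) (nat_lit 1748) (nat_lit 0) (XT.nd (nat_lit 78) (nat_lit 0) (nat_lit 0) (XT.lf (nat_lit 0) (nat_lit 2214182312) (nat_lit 912) (nat_lit 1421164170) (nat_lit 988) (nat_lit 4463175653) (nat_lit 365) (nat_lit 5) (nat_lit 377) (nat_lit 5) (nat_lit 378) (nat_lit 5) (nat_lit 427) (nat_lit 386) (nat_lit 327)) (XT.lf (nat_lit 0) (nat_lit 5861978153) (nat_lit 988) (nat_lit 1026557794) (nat_lit 76) (nat_lit 1277923175) (nat_lit 365) (nat_lit 5) (nat_lit 378) (nat_lit 5) (nat_lit 366) (nat_lit 5) (nat_lit 428) (nat_lit 386) (nat_lit 326))) (XT.nd (nat_lit 78) (nat_lit 912) (nat_lit 0) (XT.lf (nat_lit 0) (nat_lit 3934938788) (nat_lit 836) (nat_lit 4197313111) (nat_lit 912) (nat_lit 103537112) (nat_lit 354) (nat_lit 5) (nat_lit 365) (nat_lit 5) (nat_lit 366) (nat_lit 5) (nat_lit 429) (nat_lit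 386) (nat_lit 325)) (XT.nd (nat_lit 78) (nat_lit 0) (nat_lit 0) (XT.lf (nat_lit 0) (nat_lit 662055065) (nat_lit 836) (nat_lit 1426890752) (nat_lit 912) (nat_lit 6217785221) (nat_lit 342) (nat_lit 5) (nat_lit 353) (nat_lit 5) (nat_lit 354) (nat_lit 5) (nat_lit 430) (nat_lit 386) (nat_lit 324)) (XT.lf (nat_lit 0) (nat_lit 4326864666) (nat_lit 912) (nat_lit 2642327568) (nat_lit 76) (nat_lit 1409841940) (nat_lit 342) (nat_lit 5) (nat_lit 354) (nat_lit 5) (nat_lit 343) (nat_lit 5) (nat_lit 431) (nat_lit 386) (nat_lit 323))))) (XT.nd (nat_lit 234) (nat_lit 1596) (nat_lit 0) (XT.nd (nat_lit 78) (nat_lit 912) (nat_lit 0) (XT.lf (nat_lit 0) (nat_lit 2447054061) (nat_lit 836) (nat_lit 4153351198) (nat_lit 912) (nat_lit 1852575954) (nat_lit 331) (nat_lit 5) (nat_lit 342) (nat_lit 5) (nat_lit 343) (nat_lit 5) (nat_lit 432) (nat_lit 386) (nat_lit 322)) (XT.nd (nat_lit 78) (nat_lit 836) (nat_lit 0) (XT.lf (nat_lit 0) (nat_lit 369462012)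 (nat_lit 912) (nat_lit 892560941) (nat_lit 76) (nat_lit 7266676373) (nat_lit 330) (nat_lit 5) (nat_lit 342) (nat_lit 5) (nat_lit 331) (nat_lit 5) (nat_lit 433) (nat_lit 386) (nat_lit 321)) (XT.lf (nat_lit 0) (nat_lit 2616901939) (nat_lit 912) (nat_lit 4284585872) (nat_lit 76) (nat_lit 1704097972) (nat_lit 319) (nat_lit 5) (nat_lit 331) (nat_lit 5) (nat_lit 320) (nat_lit 5) (nat_lit 434) (nat_lit 386) (nat_lit 320)))) (XT.nd (nat_lit 78) (nat_lit 836) (nat_lit 0) (XT.lf (nat_lit 0) (nat_lit 935286381) (nat_lit 760) (nat_lit 3961287696) (nat_lit 836) (nat_lit 3787704180) (nat_lit 309) (nat_lit 5) (nat_lit 319) (nat_lit 5) (nat_lit 320) (nat_lit 5) (nat_lit 435) (nat_lit 386) (nat_lit 319)) (XT.nd (nat_lit 78) (nat_lit 836) (nat_lit 0) (XT.lf (nat_lit 0) (nat_lit 6282245798) (nat_lit 760) (nat_lit 935590357) (nat_lit 836) (nat_lit 1546802179) (nat_lit 309) (nat_lit 5) (nat_lit 319) (nat_lit 5) (nat_lit 320) (nat_lit 5)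 (nat_lit 436) (nat_lit 386) (nat_lit 318)) (XT.lf (nat_lit 0) (nat_lit 729736245) (nat_lit 836) (nat_lit 5973422674) (nat_lit 76) (nat_lit 2143353706) (nat_lit 298) (nat_lit 5) (nat_lit 309) (nat_lit 5) (nat_lit 299) (nat_lit 5) (nat_lit 437) (nat_lit 386) (nat_lit 317))))))) (XT.nd (nat_lit 780) (nat_lit 4104) (nat_lit 0) (XT.nd (nat_lit 390) (nat_lit 1976) (nat_lit 0) (XT.nd (nat_lit 156) (nat_lit 1520) (nat_lit 0) (XT.nd (nat_lit 78) (nat_lit 684) (nat_lit 0) (XT.lf (nat_lit 0) (nat_lit 3022126723) (nat_lit 836) (nat_lit 612448695) (nat_lit 76) (nat_lit 5295436731) (nat_lit 298) (nat_lit 5) (nat_lit 309) (nat_lit 5) (nat_lit 299) (nat_lit 5) (nat_lit 438) (nat_lit 386) (nat_lit 316)) (XT.lf (nat_lit 0) (nat_lit 4884969839) (nat_lit 684) (nat_lit 475787288) (nat_lit 760) (nat_lit 3654429336) (nat_lit 289) (nat_lit 5) (nat_lit 298) (nat_lit 5) (nat_lit 299) (nat_lit 5) (nat_lit 439) (nat_lit 386) (nat_lit 315))) (XT.nd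 (nat_lit 78) (nat_lit 760) (nat_lit 0) (XT.lf (nat_lit 0) (nat_lit 1363461235) (nat_lit 760) (nat_lit 6382559713) (nat_lit 836) (nat_lit 1356058492) (nat_lit 279) (nat_lit 5) (nat_lit 289) (nat_lit 5) (nat_lit 290) (nat_lit 5) (nat_lit 440) (nat_lit 386) (nat_lit 314)) (XT.nd (nat_lit 78) (nat_lit 684) (nat_lit 0) (XT.lf (nat_lit 0) (nat_lit 975575297) (nat_lit 836) (nat_lit 2212317754) (nat_lit 76) (nat_lit 6002695667) (nat_lit 278) (nat_lit 5) (nat_lit 289) (nat_lit 5) (nat_lit 279) (nat_lit 5) (nat_lit 441) (nat_lit 386) (nat_lit 313)) (XT.lf (nat_lit 0) (nat_lit 3328389910) (nat_lit 760) (nat_lit 5855753282) (nat_lit 76) (nat_lit 96703281) (nat_lit 269) (nat_lit 5) (nat_lit 279) (nat_lit 5) (nat_lit 270) (nat_lit 5) (nat_lit 442) (nat_lit 386) (nat_lit 312))))) (XT.nd (nat_lit 156) (nat_lit 1292) (nat_lit 0) (XT.nd (nat_lit 78) (nat_lit 684) (nat_lit 0) (XT.lf (nat_lit 0) (nat_lit 5734464975) (nat_lit 760) (nat_lit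 223646242) (nat_lit 76) (nat_lit 3414685532) (nat_lit 269) (nat_lit 5) (nat_lit 279) (nat_lit 5) (nat_lit 270) (nat_lit 5) (nat_lit 443) (nat_lit 386) (nat_lit 311)) (XT.lf (nat_lit 0) (nat_lit 5559641687) (nat_lit 684) (nat_lit 2635850218) (nat_lit 760) (nat_lit 1270968744) (nat_lit 260) (nat_lit 5) (nat_lit 269) (nat_lit 5) (nat_lit 270) (nat_lit 5) (nat_lit 444) (nat_lit 386) (nat_lit 310))) (XT.nd (nat_lit 78) (nat_lit 608) (nat_lit 0) (XT.lf (nat_lit 0) (nat_lit 1118349592) (nat_lit 684) (nat_lit 7684798402) (nat_lit 76) (nat_lit 758919934) (nat_lit 251) (nat_lit 5) (nat_lit 260) (nat_lit 5) (nat_lit 252) (nat_lit 5) (nat_lit 445) (nat_lit 386) (nat_lit 309)) (XT.nd (nat_lit 78) (nat_lit 608) (nat_lit 0) (XT.lf (nat_lit 0) (nat_lit 3553493616) (nat_lit 684) (nat_lit 1889982996) (nat_lit 76) (nat_lit 4215652145) (nat_lit 251) (nat_lit 5) (nat_lit 260) (nat_lit 5) (nat_lit 252) (nat_lit 5) (nat_lit 446) (nat_lit 386)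 (nat_lit 308)) (XT.lf (nat_lit 0) (nat_lit 4039520372) (nat_lit 608) (nat_lit 1995807481) (nat_lit 684) (nat_lit 3722853573) (nat_lit 243) (nat_lit 5) (nat_lit 251) (nat_lit 5) (nat_lit 252) (nat_lit 5) (nat_lit 447) (nat_lit 386) (nat_lit 307)))))) (XT.nd (nat_lit 390) (nat_lit 2280) (nat_lit 0) (XT.nd (nat_lit 156) (nat_lit 1140) (nat_lit 0) (XT.nd (nat_lit 78) (nat_lit 76) (nat_lit 0) (XT.lf (nat_lit 0) (nat_lit 212610376) (nat_lit 608) (nat_lit 8350263705) (nat_lit 684) (nat_lit 1296429728) (nat_lit 235) (nat_lit 5) (nat_lit 243) (nat_lit 5) (nat_lit 244) (nat_lit 5) (nat_lit 448) (nat_lit 386) (nat_lit 306)) (XT.lf (nat_lit 0) (nat_lit 1187099416) (nat_lit 684) (nat_lit 3677423027) (nat_lit 76) (nat_lit 5097302266) (nat_lit 234) (nat_lit 5) (nat_lit 243) (nat_lit 5) (nat_lit 235) (nat_lit 5) (nat_lit 449) (nat_lit 386) (nat_lit 305))) (XT.nd (nat_lit 78) (nat_lit 532) (nat_lit 0) (XT.lf (nat_lit 0) (nat_lit 2400161070)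 (nat_lit 608) (nat_lit 1291110628) (nat_lit 684) (nat_lit 6375195887) (nat_lit 226) (nat_lit 5) (nat_lit 234) (nat_lit 5) (nat_lit 235) (nat_lit 5) (nat_lit 450) (nat_lit 386) (nat_lit 304)) (XT.nd (nat_lit 78) (nat_lit 532) (nat_lit 0) (XT.lf (nat_lit 0) (nat_lit 6258654130) (nat_lit 684) (nat_lit 1573255685) (nat_lit 76) (nat_lit 2341040363) (nat_lit 226) (nat_lit 5) (nat_lit 235) (nat_lit 5) (nat_lit 227) (nat_lit 5) (nat_lit 451) (nat_lit 386) (nat_lit 303)) (XT.lf (nat_lit 0) (nat_lit 4660657056) (nat_lit 532) (nat_lit 4229070575) (nat_lit 608) (nat_lit 1391597131) (nat_lit 219) (nat_lit 5) (nat_lit 226) (nat_lit 5) (nat_lit 227) (nat_lit 5) (nat_lit 452) (nat_lit 386) (nat_lit 302))))) (XT.nd (nat_lit 234) (nat_lit 1064) (nat_lit 0) (XT.nd (nat_lit 78) (nat_lit 532) (nat_lit 0) (XT.lf (nat_lit 0) (nat_lit 615537617) (nat_lit 608) (nat_lit 538798765) (nat_lit 684) (nat_lit 9237620338) (nat_lit 210) (nat_lit 5) (nat_lit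 218) (nat_lit 5) (nat_lit 219) (nat_lit 5) (nat_lit 453) (nat_lit 386) (nat_lit 301)) (XT.nd (nat_lit 78) (nat_lit 532) (nat_lit 0) (XT.lf (nat_lit 0) (nat_lit 3765384579) (nat_lit 684) (nat_lit 3515768278) (nat_lit 76) (nat_lit 3222816579) (nat_lit 210) (nat_lit 5) (nat_lit 219) (nat_lit 5) (nat_lit 211) (nat_lit 5) (nat_lit 454) (nat_lit 386) (nat_lit 300)) (XT.lf (nat_lit 0) (nat_lit 2870873814) (nat_lit 532) (nat_lit 3554403438) (nat_lit 608) (nat_lit 4193021191) (nat_lit 203) (nat_lit 5) (nat_lit 210) (nat_lit 5) (nat_lit 211) (nat_lit 5) (nat_lit 455) (nat_lit 386) (nat_lit 299)))) (XT.nd (nat_lit 78) (nat_lit 1064) (nat_lit 0) (XT.lf (nat_lit 0) (nat_lit 9138371550) (nat_lit 608) (nat_lit 1336845596) (nat_lit 76) (nat_lit 259705150) (nat_lit 203) (nat_lit 5) (nat_lit 211) (nat_lit 5) (nat_lit 204) (nat_lit 5) (nat_lit 456) (nat_lit 386) (nat_lit 298)) (XT.nd (nat_lit 78) (nat_lit 456) (nat_lit 0) (XT.lf (nat_lit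 0) (nat_lit 1070801479) (nat_lit 608) (nat_lit 5646385984) (nat_lit 76) (nat_lit 4135907641) (nat_lit 195) (nat_lit 5) (nat_lit 203) (nat_lit 5) (nat_lit 196) (nat_lit 5) (nat_lit 457) (nat_lit 386) (nat_lit 297)) (XT.lf (nat_lit 0) (nat_lit 893882452) (nat_lit 456) (nat_lit 2866347925) (nat_lit 532) (nat_lit 7213395639) (nat_lit 189) (nat_lit 5) (nat_lit 195) (nat_lit 5) (nat_lit 196) (nat_lit 5) (nat_lit 458) (nat_lit 386) (nat_lit 296))))))))
noncomputable def xc113 : XT := (XT.nd (nat_lit 1638) (nat_lit 3876) (nat_lit 0) (XT.nd (nat_lit 780) (nat_lit 2508) (nat_lit 0) (XT.nd (nat_lit 390) (nat_lit 1368) (nat_lit 0) (XT.nd (nat_lit 156) (nat_lit 988) (nat_lit 0) (XT.nd (nat_lit 78) (nat_lit 532) (nat_lit 0) (XT.lf (nat_lit 0) (nat_lit 6523952722) (nat_lit 532) (nat_lit 3494696815) (nat_lit 76) (nat_lit 1077515616) (nat_lit 189) (nat_lit 5) (nat_lit 196) (nat_lit 5) (nat_lit 190) (nat_lit 5) (nat_lit 459) (nat_lit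 386) (nat_lit 295)) (XT.lf (nat_lit 0) (nat_lit 3212615567) (nat_lit 532) (nat_lit 6146127463) (nat_lit 608) (nat_lit 1862103727) (nat_lit 182) (nat_lit 5) (nat_lit 189) (nat_lit 5) (nat_lit 190) (nat_lit 5) (nat_lit 460) (nat_lit 386) (nat_lit 294))) (XT.nd (nat_lit 78) (nat_lit 912) (nat_lit 0) (XT.lf (nat_lit 0) (nat_lit 890030254) (nat_lit 608) (nat_lit 1284818332) (nat_lit 76) (nat_lit 9173070398) (nat_lit 181) (nat_lit 5) (nat_lit 189) (nat_lit 5) (nat_lit 182) (nat_lit 5) (nat_lit 461) (nat_lit 386) (nat_lit 293)) (XT.nd (nat_lit 78) (nat_lit 456) (nat_lit 0) (XT.lf (nat_lit 0) (nat_lit 3697634451) (nat_lit 532) (nat_lit 5887334263) (nat_lit 76) (nat_lit 1891817668) (nat_lit 175) (nat_lit 5) (nat_lit 182) (nat_lit 5) (nat_lit 176) (nat_lit 5) (nat_lit 462) (nat_lit 386) (nat_lit 292)) (XT.lf (nat_lit 0) (nat_lit 976652648) (nat_lit 456) (nat_lit 5590877506) (nat_lit 532) (nat_lit 5040585165) (nat_lit 169) (nat_lit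 5) (nat_lit 175) (nat_lit 5) (nat_lit 176) (nat_lit 5) (nat_lit 463) (nat_lit 386) (nat_lit 291))))) (XT.nd (nat_lit 156) (nat_lit 836) (nat_lit 0) (XT.nd (nat_lit 78) (nat_lit 532) (nat_lit 0) (XT.lf (nat_lit 0) (nat_lit 8025674312) (nat_lit 456) (nat_lit 1485621493) (nat_lit 532) (nat_lit 2230452430) (nat_lit 169) (nat_lit 5) (nat_lit 175) (nat_lit 5) (nat_lit 176) (nat_lit 5) (nat_lit 464) (nat_lit 386) (nat_lit 290)) (XT.lf (nat_lit 0) (nat_lit 644180097) (nat_lit 532) (nat_lit 8550009449) (nat_lit 76) (nat_lit 2683455532) (nat_lit 162) (nat_lit 5) (nat_lit 169) (nat_lit 5) (nat_lit 163) (nat_lit 5) (nat_lit 465) (nat_lit 386) (nat_lit 289))) (XT.nd (nat_lit 78) (nat_lit 836) (nat_lit 0) (XT.lf (nat_lit 0) (nat_lit 3558850995) (nat_lit 532) (nat_lit 1509863084) (nat_lit 76) (nat_lit 6947009131) (nat_lit 162) (nat_lit 5) (nat_lit 169) (nat_lit 5) (nat_lit 163) (nat_lit 5) (nat_lit 466) (nat_lit 386) (nat_lit 288))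 (XT.nd (nat_lit 78) (nat_lit 380) (nat_lit 0) (XT.lf (nat_lit 0) (nat_lit 5714743160) (nat_lit 456) (nat_lit 832061398) (nat_lit 532) (nat_lit 5609464882) (nat_lit 156) (nat_lit 5) (nat_lit 162) (nat_lit 5) (nat_lit 163) (nat_lit 5) (nat_lit 467) (nat_lit 386) (nat_lit 287)) (XT.lf (nat_lit 0) (nat_lit 760667191) (nat_lit 380) (nat_lit 8849700207) (nat_lit 456) (nat_lit 2688948390) (nat_lit 151) (nat_lit 5) (nat_lit 156) (nat_lit 5) (nat_lit 157) (nat_lit 5) (nat_lit 468) (nat_lit 386) (nat_lit 286)))))) (XT.nd (nat_lit 390) (nat_lit 1216) (nat_lit 0) (XT.nd (nat_lit 156) (nat_lit 760) (nat_lit 0) (XT.nd (nat_lit 78) (nat_lit 456) (nat_lit 0) (XT.lf (nat_lit 0) (nat_lit 313332771) (nat_lit 456) (nat_lit 4289377401) (nat_lit 76) (nat_lit 7841938042) (nat_lit 150) (nat_lit 5) (nat_lit 156) (nat_lit 5) (nat_lit 151) (nat_lit 5) (nat_lit 469) (nat_lit 386) (nat_lit 285)) (XT.lf (nat_lit 0) (nat_lit 3096744166) (nat_lit 456)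 (nat_lit 241613694) (nat_lit 532) (nat_lit 9254205724) (nat_lit 144) (nat_lit 5) (nat_lit 150) (nat_lit 5) (nat_lit 151) (nat_lit 5) (nat_lit 470) (nat_lit 386) (nat_lit 284))) (XT.nd (nat_lit 78) (nat_lit 760) (nat_lit 0) (XT.lf (nat_lit 0) (nat_lit 6458893245) (nat_lit 532) (nat_lit 2112739568) (nat_lit 76) (nat_lit 4171109978) (nat_lit 144) (nat_lit 5) (nat_lit 151) (nat_lit 5) (nat_lit 145) (nat_lit 5) (nat_lit 471) (nat_lit 386) (nat_lit 283)) (XT.nd (nat_lit 78) (nat_lit 380) (nat_lit 0) (XT.lf (nat_lit 0) (nat_lit 5457481115) (nat_lit 380) (nat_lit 4200531579) (nat_lit 456) (nat_lit 3237595033) (nat_lit 139) (nat_lit 5) (nat_lit 144) (nat_lit 5) (nat_lit 145) (nat_lit 5) (nat_lit 472) (nat_lit 386) (nat_lit 282)) (XT.lf (nat_lit 0) (nat_lit 125726820) (nat_lit 380) (nat_lit 12791439917) (nat_lit 456) (nat_lit 134447684) (nat_lit 134) (nat_lit 5) (nat_lit 139) (nat_lit 5) (nat_lit 140) (nat_lit 5) (nat_lit 473)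 (nat_lit 386) (nat_lit 281))))) (XT.nd (nat_lit 234) (nat_lit 760) (nat_lit 0) (XT.nd (nat_lit 78) (nat_lit 380) (nat_lit 0) (XT.lf (nat_lit 0) (nat_lit 3048432656) (nat_lit 456) (nat_lit 5346615934) (nat_lit 76) (nat_lit 4814156012) (nat_lit 133) (nat_lit 5) (nat_lit 139) (nat_lit 5) (nat_lit 134) (nat_lit 5) (nat_lit 474) (nat_lit 386) (nat_lit 280)) (XT.nd (nat_lit 78) (nat_lit 0) (nat_lit 0) (XT.lf (nat_lit 0) (nat_lit 2384496751) (nat_lit 380) (nat_lit 3903918439) (nat_lit 456) (nat_lit 7081613911) (nat_lit 128) (nat_lit 5) (nat_lit 133) (nat_lit 5) (nat_lit 134) (nat_lit 5) (nat_lit 475) (nat_lit 386) (nat_lit 279)) (XT.lf (nat_lit 0) (nat_lit 9613609055) (nat_lit 456) (nat_lit 3225549911) (nat_lit 76) (nat_lit 694507975) (nat_lit 128) (nat_lit 5) (nat_lit 134) (nat_lit 5) (nat_lit 129) (nat_lit 5) (nat_lit 476) (nat_lit 386) (nat_lit 278)))) (XT.nd (nat_lit 78) (nat_lit 380) (nat_lit 0) (XT.lf (nat_lit 0) (nat_lit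 4695686215) (nat_lit 380) (nat_lit 8346255687) (nat_lit 456) (nat_lit 657907917) (nat_lit 123) (nat_lit 5) (nat_lit 128) (nat_lit 5) (nat_lit 129) (nat_lit 5) (nat_lit 477) (nat_lit 386) (nat_lit 277)) (XT.nd (nat_lit 78) (nat_lit 304) (nat_lit 0) (XT.lf (nat_lit 0) (nat_lit 2636617534) (nat_lit 456) (nat_lit 1097076211) (nat_lit 76) (nat_lit 10135277893) (nat_lit 122) (nat_lit 5) (nat_lit 128) (nat_lit 5) (nat_lit 123) (nat_lit 5) (nat_lit 478) (nat_lit 386) (nat_lit 276)) (XT.lf (nat_lit 0) (nat_lit 6021166735) (nat_lit 380) (nat_lit 7020648813) (nat_lit 76) (nat_lit 998919215) (nat_lit 118) (nat_lit 5) (nat_lit 123) (nat_lit 5) (nat_lit 119) (nat_lit 5) (nat_lit 479) (nat_lit 386) (nat_lit 275))))))) (XT.nd (nat_lit 858) (nat_lit 1748) (nat_lit 0) (XT.nd (nat_lit 390) (nat_lit 1064) (nat_lit 0) (XT.nd (nat_lit 156) (nat_lit 684) (nat_lit 0) (XT.nd (nat_lit 78) (nat_lit 0) (nat_lit 0) (XT.lf (nat_lit 0) (nat_lit 1058489522)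 (nat_lit 380) (nat_lit 8434792203) (nat_lit 456) (nat_lit 4722258533) (nat_lit 113) (nat_lit 5) (nat_lit 118) (nat_lit 5) (nat_lit 119) (nat_lit 5) (nat_lit 480) (nat_lit 386) (nat_lit 274)) (XT.lf (nat_lit 0) (nat_lit 9365275936) (nat_lit 380) (nat_lit 3697726801) (nat_lit 456) (nat_lit 1330280366) (nat_lit 113) (nat_lit 5) (nat_lit 118) (nat_lit 5) (nat_lit 119) (nat_lit 5) (nat_lit 481) (nat_lit 386) (nat_lit 273))) (XT.nd (nat_lit 78) (nat_lit 304) (nat_lit 0) (XT.lf (nat_lit 0) (nat_lit 2111624212) (nat_lit 380) (nat_lit 11317975881) (nat_lit 76) (nat_lit 1144508201) (nat_lit 108) (nat_lit 5) (nat_lit 113) (nat_lit 5) (nat_lit 109) (nat_lit 5) (nat_lit 482) (nat_lit 386) (nat_lit 272)) (XT.nd (nat_lit 78) (nat_lit 304) (nat_lit 0) (XT.lf (nat_lit 0) (nat_lit 5644434688) (nat_lit 380) (nat_lit 3046189628) (nat_lit 76) (nat_lit 6066956459) (nat_lit 108) (nat_lit 5) (nat_lit 113) (nat_lit 5) (nat_lit 109) (nat_lit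 5) (nat_lit 483) (nat_lit 386) (nat_lit 271)) (XT.lf (nat_lit 0) (nat_lit 5433962798) (nat_lit 304) (nat_lit 3830995280) (nat_lit 380) (nat_lit 5679427664) (nat_lit 104) (nat_lit 5) (nat_lit 108) (nat_lit 5) (nat_lit 109) (nat_lit 5) (nat_lit 484) (nat_lit 386) (nat_lit 270))))) (XT.nd (nat_lit 234) (nat_lit 380) (nat_lit 0) (XT.nd (nat_lit 78) (nat_lit 684) (nat_lit 0) (XT.lf (nat_lit 0) (nat_lit 12967663254) (nat_lit 380) (nat_lit 1045402811) (nat_lit 76) (nat_lit 1121669405) (nat_lit 104) (nat_lit 5) (nat_lit 109) (nat_lit 5) (nat_lit 105) (nat_lit 5) (nat_lit 485) (nat_lit 386) (nat_lit 269)) (XT.nd (nat_lit 78) (nat_lit 304) (nat_lit 0) (XT.lf (nat_lit 0) (nat_lit 1454527677) (nat_lit 380) (nat_lit 7701522112) (nat_lit 76) (nat_lit 6171511277) (nat_lit 99) (nat_lit 5) (nat_lit 104) (nat_lit 5) (nat_lit 100) (nat_lit 5) (nat_lit 486) (nat_lit 386) (nat_lit 268)) (XT.lf (nat_lit 0) (nat_lit 930839680) (nat_lit 304)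 (nat_lit 4184123155) (nat_lit 380) (nat_lit 10409089297) (nat_lit 95) (nat_lit 5) (nat_lit 99) (nat_lit 5) (nat_lit 100) (nat_lit 5) (nat_lit 487) (nat_lit 386) (nat_lit 267)))) (XT.nd (nat_lit 78) (nat_lit 380) (nat_lit 0) (XT.lf (nat_lit 0) (nat_lit 8888779421) (nat_lit 380) (nat_lit 5917349727) (nat_lit 76) (nat_lit 917544195) (nat_lit 95) (nat_lit 5) (nat_lit 100) (nat_lit 5) (nat_lit 96) (nat_lit 5) (nat_lit 488) (nat_lit 386) (nat_lit 266)) (XT.nd (nat_lit 78) (nat_lit 76) (nat_lit 0) (XT.lf (nat_lit 0) (nat_lit 2915049902) (nat_lit 304) (nat_lit 9852392253) (nat_lit 380) (nat_lit 3159261129) (nat_lit 91) (nat_lit 5) (nat_lit 95) (nat_lit 5) (nat_lit 96) (nat_lit 5) (nat_lit 489) (nat_lit 386) (nat_lit 265)) (XT.lf (nat_lit 0) (nat_lit 604897636) (nat_lit 380) (nat_lit 4160337608) (nat_lit 76) (nat_lit 11368030546) (nat_lit 90) (nat_lit 5) (nat_lit 95) (nat_lit 5) (nat_lit 91) (nat_lit 5) (nat_lit 490) (nat_lit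 386) (nat_lit 264)))))) (XT.nd (nat_lit 390) (nat_lit 836) (nat_lit 0) (XT.nd (nat_lit 156) (nat_lit 608) (nat_lit 0) (XT.nd (nat_lit 78) (nat_lit 0) (nat_lit 0) (XT.lf (nat_lit 0) (nat_lit 4419937040) (nat_lit 380) (nat_lit 11462156715) (nat_lit 76) (nat_lit 461093627) (nat_lit 86) (nat_lit 5) (nat_lit 91) (nat_lit 5) (nat_lit 87) (nat_lit 5) (nat_lit 491) (nat_lit 386) (nat_lit 263)) (XT.lf (nat_lit 0) (nat_lit 8354145153) (nat_lit 380) (nat_lit 2455979165) (nat_lit 76) (nat_lit 5746329151) (nat_lit 86) (nat_lit 5) (nat_lit 91) (nat_lit 5) (nat_lit 87) (nat_lit 5) (nat_lit 492) (nat_lit 386) (nat_lit 262))) (XT.nd (nat_lit 78) (nat_lit 380) (nat_lit 0) (XT.lf (nat_lit 0) (nat_lit 6792834552) (nat_lit 228) (nat_lit 5601842864) (nat_lit 304) (nat_lit 4378758015) (nat_lit 83) (nat_lit 5) (nat_lit 86) (nat_lit 5) (nat_lit 87) (nat_lit 5) (nat_lit 493) (nat_lit 386) (nat_lit 261)) (XT.nd (nat_lit 78) (nat_lit 380) (nat_lit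 0) (XT.lf (nat_lit 0) (nat_lit 16233514204) (nat_lit 228) (nat_lit 282674832) (nat_lit 304) (nat_lit 478567911) (nat_lit 83) (nat_lit 5) (nat_lit 86) (nat_lit 5) (nat_lit 87) (nat_lit 5) (nat_lit 494) (nat_lit 386) (nat_lit 260)) (XT.lf (nat_lit 0) (nat_lit 3528014626) (nat_lit 380) (nat_lit 8545210940) (nat_lit 76) (nat_lit 5145342313) (nat_lit 78) (nat_lit 5) (nat_lit 83) (nat_lit 5) (nat_lit 79) (nat_lit 5) (nat_lit 495) (nat_lit 386) (nat_lit 259))))) (XT.nd (nat_lit 234) (nat_lit 304) (nat_lit 0) (XT.nd (nat_lit 78) (nat_lit 304) (nat_lit 0) (XT.lf (nat_lit 0) (nat_lit 839968831) (nat_lit 228) (nat_lit 6764806922) (nat_lit 304) (nat_lit 9842090010) (nat_lit 75) (nat_lit 5) (nat_lit 78) (nat_lit 5) (nat_lit 79) (nat_lit 5) (nat_lit 496) (nat_lit 386) (nat_lit 258)) (XT.nd (nat_lit 78) (nat_lit 304) (nat_lit 0) (XT.lf (nat_lit 0) (nat_lit 10502670129) (nat_lit 228) (nat_lit 1301871179) (nat_lit 304) (nat_lit 5874361950)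 (nat_lit 75) (nat_lit 5) (nat_lit 78) (nat_lit 5) (nat_lit 79) (nat_lit 5) (nat_lit 497) (nat_lit 386) (nat_lit 257)) (XT.lf (nat_lit 0) (nat_lit 2421319984) (nat_lit 304) (nat_lit 13694801814) (nat_lit 380) (nat_lit 1798906291) (nat_lit 71) (nat_lit 5) (nat_lit 75) (nat_lit 5) (nat_lit 76) (nat_lit 5) (nat_lit 498) (nat_lit 386) (nat_lit 256)))) (XT.nd (nat_lit 78) (nat_lit 228) (nat_lit 0) (XT.lf (nat_lit 0) (nat_lit 2368636894) (nat_lit 380) (nat_lit 5896857935) (nat_lit 76) (nat_lit 9889247152) (nat_lit 70) (nat_lit 5) (nat_lit 75) (nat_lit 5) (nat_lit 71) (nat_lit 5) (nat_lit 499) (nat_lit 386) (nat_lit 255)) (XT.nd (nat_lit 78) (nat_lit 0) (nat_lit 0) (XT.lf (nat_lit 0) (nat_lit 3905954147) (nat_lit 228) (nat_lit 2699585623) (nat_lit 304) (nat_lit 11793273450) (nat_lit 67) (nat_lit 5) (nat_lit 70) (nat_lit 5) (nat_lit 71) (nat_lit 5) (nat_lit 500) (nat_lit 386) (nat_lit 254)) (XT.lf (nat_lit 0) (nat_lit 10971132100)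 (nat_lit 304) (nat_lit 4707177130) (nat_lit 76) (nat_lit 2968580377) (nat_lit 67) (nat_lit 5) (nat_lit 71) (nat_lit 5) (nat_lit 68) (nat_lit 5) (nat_lit 501) (nat_lit 386) (nat_lit 253))))))))
noncomputable def xc114 : XT := (XT.nd (nat_lit 51792) (nat_lit 0) (nat_lit 25232) (XT.nd (nat_lit 50934) (nat_lit 0) (nat_lit 41572) (XT.nd (nat_lit 50544) (nat_lit 0) (nat_lit 43928) (XT.nd (nat_lit 156) (nat_lit 228) (nat_lit 0) (XT.nd (nat_lit 78) (nat_lit 76) (nat_lit 0) (XT.lf (nat_lit 0) (nat_lit 5300997550) (nat_lit 228) (nat_lit 10160418181) (nat_lit 304) (nat_lit 3437766898) (nat_lit 64) (nat_lit 5) (nat_lit 67) (nat_lit 5) (nat_lit 68) (nat_lit 5) (nat_lit 502) (nat_lit 386) (nat_lit 252)) (XT.lf (nat_lit 0) (nat_lit 890289012) (nat_lit 304) (nat_lit 3613605294) (nat_lit 76) (nat_lit 14652176638) (nat_lit 63) (nat_lit 5) (nat_lit 67) (nat_lit 5) (nat_lit 64) (nat_lit 5) (nat_lit 503) (nat_lit 386) (nat_lit 251))) (XT.nd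 (nat_lit 50232) (nat_lit 0) (nat_lit 45220) (XT.lf (nat_lit 0) (nat_lit 5295831648) (nat_lit 304) (nat_lit 12815488913) (nat_lit 76) (nat_lit 1305585385) (nat_lit 60) (nat_lit 5) (nat_lit 64) (nat_lit 5) (nat_lit 61) (nat_lit 5) (nat_lit 504) (nat_lit 386) (nat_lit 250)) (XT.nd (nat_lit 78) (nat_lit 0) (nat_lit 0) (XT.lf (nat_lit 0) (nat_lit 52924130) (nat_lit 0) (nat_lit 52924130) (nat_lit 532) (nat_lit 3162779986) (nat_lit 655) (nat_lit 5) (nat_lit 655) (nat_lit 3) (nat_lit 662) (nat_lit 3) (nat_lit 387) (nat_lit 387) (nat_lit 366)) (XT.lf (nat_lit 0) (nat_lit 2699469675) (nat_lit 532) (nat_lit 3284649669) (nat_lit 608) (nat_lit 567085029) (nat_lit 655) (nat_lit 5) (nat_lit 662) (nat_lit 3) (nat_lit 663) (nat_lit 5) (nat_lit 388) (nat_lit 387) (nat_lit 365))))) (XT.nd (nat_lit 156) (nat_lit 684) (nat_lit 0) (XT.nd (nat_lit 78) (nat_lit 608) (nat_lit 0) (XT.lf (nat_lit 0) (nat_lit 5172808818) (nat_lit 532) (nat_lit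 109766085) (nat_lit 608) (nat_lit 1284184988) (nat_lit 655) (nat_lit 5) (nat_lit 662) (nat_lit 3) (nat_lit 663) (nat_lit 5) (nat_lit 389) (nat_lit 387) (nat_lit 364)) (XT.lf (nat_lit 0) (nat_lit 1054806188) (nat_lit 608) (nat_lit 3454167101) (nat_lit 684) (nat_lit 2074423558) (nat_lit 647) (nat_lit 5) (nat_lit 655) (nat_lit 5) (nat_lit 656) (nat_lit 5) (nat_lit 390) (nat_lit 387) (nat_lit 363))) (XT.nd (nat_lit 78) (nat_lit 684) (nat_lit 0) (XT.lf (nat_lit 0) (nat_lit 3471589073) (nat_lit 608) (nat_lit 209195229) (nat_lit 684) (nat_lit 2920685955) (nat_lit 647) (nat_lit 5) (nat_lit 655) (nat_lit 5) (nat_lit 656) (nat_lit 5) (nat_lit 391) (nat_lit 387) (nat_lit 362)) (XT.nd (nat_lit 78) (nat_lit 684) (nat_lit 0) (XT.lf (nat_lit 76) (nat_lit 3108006298) (nat_lit 0) (nat_lit 2787073271) (nat_lit 684) (nat_lit 725699604) (nat_lit 648) (nat_lit 5) (nat_lit 647) (nat_lit 5) (nat_lit 656) (nat_lit 5) (nat_lit 392) (nat_lit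 387) (nat_lit 361)) (XT.lf (nat_lit 0) (nat_lit 1644080633) (nat_lit 684) (nat_lit 191343739) (nat_lit 760) (nat_lit 4806062375) (nat_lit 638) (nat_lit 5) (nat_lit 647) (nat_lit 5) (nat_lit 648) (nat_lit 5) (nat_lit 393) (nat_lit 387) (nat_lit 360)))))) (XT.nd (nat_lit 390) (nat_lit 1672) (nat_lit 0) (XT.nd (nat_lit 156) (nat_lit 684) (nat_lit 0) (XT.nd (nat_lit 78) (nat_lit 0) (nat_lit 76) (XT.lf (nat_lit 76) (nat_lit 3200282465) (nat_lit 0) (nat_lit 811991525) (nat_lit 760) (nat_lit 2651062936) (nat_lit 639) (nat_lit 5) (nat_lit 638) (nat_lit 5) (nat_lit 648) (nat_lit 5) (nat_lit 394) (nat_lit 387) (nat_lit 359)) (XT.lf (nat_lit 0) (nat_lit 6371706976) (nat_lit 684) (nat_lit 59344225) (nat_lit 760) (nat_lit 255733710) (nat_lit 639) (nat_lit 5) (nat_lit 648) (nat_lit 5) (nat_lit 649) (nat_lit 5) (nat_lit 395) (nat_lit 387) (nat_lit 358))) (XT.nd (nat_lit 78) (nat_lit 0) (nat_lit 0) (XT.lf (nat_lit 0) (nat_lit 2010074640)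 (nat_lit 760) (nat_lit 3306565772) (nat_lit 836) (nat_lit 1394438482) (nat_lit 629) (nat_lit 5) (nat_lit 639) (nat_lit 5) (nat_lit 640) (nat_lit 5) (nat_lit 396) (nat_lit 387) (nat_lit 357)) (XT.nd (nat_lit 78) (nat_lit 0) (nat_lit 0) (XT.lf (nat_lit 76) (nat_lit 168255809) (nat_lit 0) (nat_lit 4153486926) (nat_lit 836) (nat_lit 2415225848) (nat_lit 630) (nat_lit 5) (nat_lit 629) (nat_lit 5) (nat_lit 640) (nat_lit 5) (nat_lit 397) (nat_lit 387) (nat_lit 356)) (XT.lf (nat_lit 76) (nat_lit 3723159018) (nat_lit 0) (nat_lit 2922308669) (nat_lit 836) (nat_lit 118627308) (nat_lit 630) (nat_lit 5) (nat_lit 629) (nat_lit 5) (nat_lit 640) (nat_lit 5) (nat_lit 398) (nat_lit 387) (nat_lit 355))))) (XT.nd (nat_lit 234) (nat_lit 836) (nat_lit 0) (XT.nd (nat_lit 78) (nat_lit 0) (nat_lit 0) (XT.lf (nat_lit 76) (nat_lit 515377978) (nat_lit 0) (nat_lit 1627044197) (nat_lit 912) (nat_lit 4650133288) (nat_lit 619) (nat_lit 5) (nat_lit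 618) (nat_lit 5) (nat_lit 630) (nat_lit 5) (nat_lit 399) (nat_lit 387) (nat_lit 354)) (XT.nd (nat_lit 78) (nat_lit 0) (nat_lit 76) (XT.lf (nat_lit 76) (nat_lit 4149130164) (nat_lit 0) (nat_lit 263586246) (nat_lit 912) (nat_lit 2409574159) (nat_lit 619) (nat_lit 5) (nat_lit 618) (nat_lit 5) (nat_lit 630) (nat_lit 5) (nat_lit 400) (nat_lit 387) (nat_lit 353)) (XT.lf (nat_lit 76) (nat_lit 973706752) (nat_lit 0) (nat_lit 5714765404) (nat_lit 912) (nat_lit 164979815) (nat_lit 620) (nat_lit 5) (nat_lit 619) (nat_lit 5) (nat_lit 631) (nat_lit 5) (nat_lit 401) (nat_lit 387) (nat_lit 352)))) (XT.nd (nat_lit 78) (nat_lit 0) (nat_lit 0) (XT.lf (nat_lit 0) (nat_lit 2063307320) (nat_lit 912) (nat_lit 2205981191) (nat_lit 988) (nat_lit 2616370364) (nat_lit 607) (nat_lit 5) (nat_lit 619) (nat_lit 5) (nat_lit 620) (nat_lit 5) (nat_lit 402) (nat_lit 387) (nat_lit 351)) (XT.nd (nat_lit 78) (nat_lit 0) (nat_lit 0) (XT.lf (nat_lit 76) (nat_lit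 1525673152) (nat_lit 0) (nat_lit 2766089120) (nat_lit 988) (nat_lit 2627600429) (nat_lit 608) (nat_lit 5) (nat_lit 607) (nat_lit 5) (nat_lit 620) (nat_lit 5) (nat_lit 403) (nat_lit 387) (nat_lit 350)) (XT.lf (nat_lit 76) (nat_lit 5327588365) (nat_lit 0) (nat_lit 1200703628) (nat_lit 988) (nat_lit 426208712) (nat_lit 608) (nat_lit 5) (nat_lit 607) (nat_lit 5) (nat_lit 620) (nat_lit 5) (nat_lit 404) (nat_lit 387) (nat_lit 349))))))) (XT.nd (nat_lit 780) (nat_lit 9576) (nat_lit 0) (XT.nd (nat_lit 390) (nat_lit 3724) (nat_lit 0) (XT.nd (nat_lit 156) (nat_lit 2128) (nat_lit 0) (XT.nd (nat_lit 78) (nat_lit 0) (nat_lit 0) (XT.lf (nat_lit 0) (nat_lit 1761817672) (nat_lit 988) (nat_lit 4795802009) (nat_lit 76) (nat_lit 433185275) (nat_lit 595) (nat_lit 5) (nat_lit 608) (nat_lit 5) (nat_lit 596) (nat_lit 5) (nat_lit 405) (nat_lit 387) (nat_lit 348)) (XT.lf (nat_lit 0) (nat_lit 3957064875) (nat_lit 988) (nat_lit 958261779) (nat_lit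 76) (nat_lit 2113097417) (nat_lit 595) (nat_lit 5) (nat_lit 608) (nat_lit 5) (nat_lit 596) (nat_lit 5) (nat_lit 406) (nat_lit 387) (nat_lit 347))) (XT.nd (nat_lit 78) (nat_lit 1140) (nat_lit 0) (XT.lf (nat_lit 0) (nat_lit 2960336911) (nat_lit 988) (nat_lit 3206297124) (nat_lit 1064) (nat_lit 900781107) (nat_lit 582) (nat_lit 5) (nat_lit 595) (nat_lit 5) (nat_lit 596) (nat_lit 5) (nat_lit 407) (nat_lit 387) (nat_lit 346)) (XT.nd (nat_lit 78) (nat_lit 1064) (nat_lit 0) (XT.lf (nat_lit 0) (nat_lit 1254044094) (nat_lit 1064) (nat_lit 180290001) (nat_lit 76) (nat_lit 5673547072) (nat_lit 581) (nat_lit 5) (nat_lit 595) (nat_lit 5) (nat_lit 582) (nat_lit 5) (nat_lit 408) (nat_lit 387) (nat_lit 345)) (XT.lf (nat_lit 0) (nat_lit 3420062616) (nat_lit 1140) (nat_lit 3317135927) (nat_lit 76) (nat_lit 412262024) (nat_lit 567) (nat_lit 5) (nat_lit 582) (nat_lit 5) (nat_lit 568) (nat_lit 5) (nat_lit 409) (nat_lit 387) (nat_lit 344)))))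 (XT.nd (nat_lit 156) (nat_lit 2508) (nat_lit 0) (XT.nd (nat_lit 78) (nat_lit 76) (nat_lit 0) (XT.lf (nat_lit 0) (nat_lit 700373480) (nat_lit 1140) (nat_lit 4897618975) (nat_lit 1216) (nat_lit 1594533066) (nat_lit 552) (nat_lit 5) (nat_lit 567) (nat_lit 5) (nat_lit 568) (nat_lit 5) (nat_lit 410) (nat_lit 387) (nat_lit 343)) (XT.lf (nat_lit 0) (nat_lit 551475961) (nat_lit 1216) (nat_lit 2432244303) (nat_lit 76) (nat_lit 4253158721) (nat_lit 551) (nat_lit 5) (nat_lit 567) (nat_lit 5) (nat_lit 552) (nat_lit 5) (nat_lit 411) (nat_lit 387) (nat_lit 342))) (XT.nd (nat_lit 78) (nat_lit 1292) (nat_lit 0) (XT.lf (nat_lit 0) (nat_lit 1685602254) (nat_lit 1216) (nat_lit 999010468) (nat_lit 1292) (nat_lit 4598009130) (nat_lit 535) (nat_lit 5) (nat_lit 551) (nat_lit 5) (nat_lit 552) (nat_lit 5) (nat_lit 412) (nat_lit 387) (nat_lit 341)) (XT.nd (nat_lit 78) (nat_lit 1292) (nat_lit 0) (XT.lf (nat_lit 0) (nat_lit 4838825618) (nat_lit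 1292) (nat_lit 1452505416) (nat_lit 76) (nat_lit 1038404098) (nat_lit 535) (nat_lit 5) (nat_lit 552) (nat_lit 5) (nat_lit 536) (nat_lit 5) (nat_lit 413) (nat_lit 387) (nat_lit 340)) (XT.lf (nat_lit 0) (nat_lit 2769743971) (nat_lit 1292) (nat_lit 4247179870) (nat_lit 1368) (nat_lit 361274170) (nat_lit 518) (nat_lit 5) (nat_lit 535) (nat_lit 5) (nat_lit 536) (nat_lit 5) (nat_lit 414) (nat_lit 387) (nat_lit 339)))))) (XT.nd (nat_lit 390) (nat_lit 5092) (nat_lit 0) (XT.nd (nat_lit 156) (nat_lit 3040) (nat_lit 0) (XT.nd (nat_lit 78) (nat_lit 1368) (nat_lit 0) (XT.lf (nat_lit 0) (nat_lit 1753542066) (nat_lit 1368) (nat_lit 378365837) (nat_lit 76) (nat_lit 5296182752) (nat_lit 517) (nat_lit 5) (nat_lit 535) (nat_lit 5) (nat_lit 518) (nat_lit 5) (nat_lit 415) (nat_lit 387) (nat_lit 338)) (XT.lf (nat_lit 0) (nat_lit 3889260329) (nat_lit 1444) (nat_lit 3528491793) (nat_lit 76) (nat_lit 61534415) (nat_lit 499) (nat_lit 5) (nat_lit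 518) (nat_lit 5) (nat_lit 500) (nat_lit 5) (nat_lit 416) (nat_lit 387) (nat_lit 337))) (XT.nd (nat_lit 78) (nat_lit 1596) (nat_lit 0) (XT.lf (nat_lit 0) (nat_lit 801357273) (nat_lit 1444) (nat_lit 5246255820) (nat_lit 1520) (nat_lit 1484316417) (nat_lit 480) (nat_lit 5) (nat_lit 499) (nat_lit 5) (nat_lit 500) (nat_lit 5) (nat_lit 417) (nat_lit 387) (nat_lit 336)) (XT.nd (nat_lit 78) (nat_lit 1520) (nat_lit 0) (XT.lf (nat_lit 0) (nat_lit 636983812) (nat_lit 1520) (nat_lit 2359555221) (nat_lit 76) (nat_lit 4589377326) (nat_lit 479) (nat_lit 5) (nat_lit 499) (nat_lit 5) (nat_lit 480) (nat_lit 5) (nat_lit 418) (nat_lit 387) (nat_lit 335)) (XT.lf (nat_lit 0) (nat_lit 2081477001) (nat_lit 1520) (nat_lit 672051173) (nat_lit 1596) (nat_lit 4887825014) (nat_lit 459) (nat_lit 5) (nat_lit 479) (nat_lit 5) (nat_lit 480) (nat_lit 5) (nat_lit 419) (nat_lit 387) (nat_lit 334))))) (XT.nd (nat_lit 234) (nat_lit 1748) (nat_lit 0) (XT.nd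 (nat_lit 78) (nat_lit 3344) (nat_lit 0) (XT.lf (nat_lit 0) (nat_lit 4899145240) (nat_lit 1596) (nat_lit 1100909666) (nat_lit 76) (nat_lit 1698128944) (nat_lit 459) (nat_lit 5) (nat_lit 480) (nat_lit 5) (nat_lit 460) (nat_lit 5) (nat_lit 420) (nat_lit 387) (nat_lit 333)) (XT.nd (nat_lit 78) (nat_lit 1748) (nat_lit 0) (XT.lf (nat_lit 0) (nat_lit 3453265485) (nat_lit 1596) (nat_lit 3621842038) (nat_lit 1672) (nat_lit 681314489) (nat_lit 438) (nat_lit 5) (nat_lit 459) (nat_lit 5) (nat_lit 460) (nat_lit 5) (nat_lit 421) (nat_lit 387) (nat_lit 332)) (XT.lf (nat_lit 0) (nat_lit 256361768) (nat_lit 1672) (nat_lit 1172942810) (nat_lit 1748) (nat_lit 6386948426) (nat_lit 415) (nat_lit 5) (nat_lit 437) (nat_lit 5) (nat_lit 438) (nat_lit 5) (nat_lit 422) (nat_lit 387) (nat_lit 331)))) (XT.nd (nat_lit 78) (nat_lit 1748) (nat_lit 0) (XT.lf (nat_lit 0) (nat_lit 3572091125) (nat_lit 1748) (nat_lit 2960312451) (nat_lit 76) (nat_lit 1344823828)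 (nat_lit 415) (nat_lit 5) (nat_lit 438) (nat_lit 5) (nat_lit 416) (nat_lit 5) (nat_lit 423) (nat_lit 387) (nat_lit 330)) (XT.nd (nat_lit 78) (nat_lit 0) (nat_lit 0) (XT.lf (nat_lit 0) (nat_lit 1710924643) (nat_lit 1748) (nat_lit 4027841264) (nat_lit 1824) (nat_lit 2201052790) (nat_lit 392) (nat_lit 5) (nat_lit 415) (nat_lit 5) (nat_lit 416) (nat_lit 5) (nat_lit 424) (nat_lit 387) (nat_lit 329)) (XT.lf (nat_lit 0) (nat_lit 6480940069) (nat_lit 1748) (nat_lit 1450371840) (nat_lit 1824) (nat_lit 72716852) (nat_lit 392) (nat_lit 5) (nat_lit 415) (nat_lit 5) (nat_lit 416) (nat_lit 5) (nat_lit 425) (nat_lit 387) (nat_lit 328))))))))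
noncomputable def xc115 : XT := (XT.nd (nat_lit 1638) (nat_lit 7220) (nat_lit 0) (XT.nd (nat_lit 780) (nat_lit 5168) (nat_lit 0) (XT.nd (nat_lit 390) (nat_lit 2584) (nat_lit 0) (XT.nd (nat_lit 156) (nat_lit 1824) (nat_lit 0) (XT.nd (nat_lit 78) (nat_lit 0) (nat_lit 0) (XT.lf (nat_lit 0) (nat_lit 2062951573) (nat_lit 1140) (nat_lit 4805960635) (nat_lit 76) (nat_lit 1200509698) (nat_lit 377) (nat_lit 5) (nat_lit 392) (nat_lit 5) (nat_lit 378) (nat_lit 5) (nat_lit 426) (nat_lit 387) (nat_lit 327)) (XT.lf (nat_lit 0) (nat_lit 4223911395) (nat_lit 1140) (nat_lit 14812986) (nat_lit 76) (nat_lit 3897734567) (nat_lit 377) (nat_lit 5) (nat_lit 392) (nat_lit 5) (nat_lit 378) (nat_lit 5) (nat_lit 427) (nat_lit 387) (nat_lit 326))) (XT.nd (nat_lit 78) (nat_lit 912) (nat_lit 0) (XT.lf (nat_lit 0) (nat_lit 4902008909) (nat_lit 912) (nat_lit 1522278470) (nat_lit 988) (nat_lit 1780641765) (nat_lit 365) (nat_lit 5) (nat_lit 377) (nat_lit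 5) (nat_lit 378) (nat_lit 5) (nat_lit 428) (nat_lit 387) (nat_lit 325)) (XT.nd (nat_lit 78) (nat_lit 0) (nat_lit 0) (XT.lf (nat_lit 0) (nat_lit 372193495) (nat_lit 912) (nat_lit 6656748029) (nat_lit 76) (nat_lit 1246122638) (nat_lit 353) (nat_lit 5) (nat_lit 365) (nat_lit 5) (nat_lit 354) (nat_lit 5) (nat_lit 429) (nat_lit 387) (nat_lit 324)) (XT.lf (nat_lit 0) (nat_lit 2541728478) (nat_lit 912) (nat_lit 1720617652) (nat_lit 76) (nat_lit 4084086043) (nat_lit 353) (nat_lit 5) (nat_lit 365) (nat_lit 5) (nat_lit 354) (nat_lit 5) (nat_lit 430) (nat_lit 387) (nat_lit 323))))) (XT.nd (nat_lit 156) (nat_lit 1748) (nat_lit 0) (XT.nd (nat_lit 78) (nat_lit 0) (nat_lit 0) (XT.lf (nat_lit 0) (nat_lit 3323323462) (nat_lit 836) (nat_lit 1418663891) (nat_lit 912) (nat_lit 3677508635) (nat_lit 342) (nat_lit 5) (nat_lit 353) (nat_lit 5) (nat_lit 354) (nat_lit 5) (nat_lit 431) (nat_lit 387) (nat_lit 322)) (XT.lf (nat_lit 0) (nat_lit 6973697371)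 (nat_lit 912) (nat_lit 46979741) (nat_lit 76) (nat_lit 1473609858) (nat_lit 342) (nat_lit 5) (nat_lit 354) (nat_lit 5) (nat_lit 343) (nat_lit 5) (nat_lit 432) (nat_lit 387) (nat_lit 321))) (XT.nd (nat_lit 78) (nat_lit 836) (nat_lit 0) (XT.lf (nat_lit 0) (nat_lit 680151394) (nat_lit 912) (nat_lit 3448104865) (nat_lit 76) (nat_lit 4442051621) (nat_lit 330) (nat_lit 5) (nat_lit 342) (nat_lit 5) (nat_lit 331) (nat_lit 5) (nat_lit 433) (nat_lit 387) (nat_lit 320)) (XT.nd (nat_lit 78) (nat_lit 0) (nat_lit 0) (XT.lf (nat_lit 0) (nat_lit 1725623739) (nat_lit 836) (nat_lit 1157525587) (nat_lit 912) (nat_lit 5764940760) (nat_lit 319) (nat_lit 5) (nat_lit 330) (nat_lit 5) (nat_lit 331) (nat_lit 5) (nat_lit 434) (nat_lit 387) (nat_lit 319)) (XT.lf (nat_lit 0) (nat_lit 5133131779) (nat_lit 912) (nat_lit 1724634641) (nat_lit 76) (nat_lit 1869616707) (nat_lit 319) (nat_lit 5) (nat_lit 331) (nat_lit 5) (nat_lit 320) (nat_lit 5) (nat_lit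 435) (nat_lit 387) (nat_lit 318)))))) (XT.nd (nat_lit 390) (nat_lit 2888) (nat_lit 0) (XT.nd (nat_lit 156) (nat_lit 684) (nat_lit 0) (XT.nd (nat_lit 78) (nat_lit 836) (nat_lit 0) (XT.lf (nat_lit 0) (nat_lit 3582229511) (nat_lit 760) (nat_lit 3844920506) (nat_lit 836) (nat_lit 1381144705) (nat_lit 309) (nat_lit 5) (nat_lit 319) (nat_lit 5) (nat_lit 320) (nat_lit 5) (nat_lit 436) (nat_lit 387) (nat_lit 317)) (XT.lf (nat_lit 0) (nat_lit 88967887) (nat_lit 760) (nat_lit 756286956) (nat_lit 836) (nat_lit 8045858368) (nat_lit 298) (nat_lit 5) (nat_lit 308) (nat_lit 5) (nat_lit 309) (nat_lit 5) (nat_lit 437) (nat_lit 387) (nat_lit 316))) (XT.nd (nat_lit 78) (nat_lit 684) (nat_lit 0) (XT.lf (nat_lit 0) (nat_lit 3117227902) (nat_lit 836) (nat_lit 3453509633) (nat_lit 76) (nat_lit 2404289806) (nat_lit 298) (nat_lit 5) (nat_lit 309) (nat_lit 5) (nat_lit 299) (nat_lit 5) (nat_lit 438) (nat_lit 387) (nat_lit 315)) (XT.nd (nat_lit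 78) (nat_lit 0) (nat_lit 0) (XT.lf (nat_lit 0) (nat_lit 1989017569) (nat_lit 684) (nat_lit 3432835251) (nat_lit 760) (nat_lit 3639035079) (nat_lit 289) (nat_lit 5) (nat_lit 298) (nat_lit 5) (nat_lit 299) (nat_lit 5) (nat_lit 439) (nat_lit 387) (nat_lit 314)) (XT.lf (nat_lit 0) (nat_lit 7553274278) (nat_lit 684) (nat_lit 212142518) (nat_lit 760) (nat_lit 1383204093) (nat_lit 289) (nat_lit 5) (nat_lit 298) (nat_lit 5) (nat_lit 299) (nat_lit 5) (nat_lit 440) (nat_lit 387) (nat_lit 313))))) (XT.nd (nat_lit 234) (nat_lit 1368) (nat_lit 0) (XT.nd (nat_lit 78) (nat_lit 684) (nat_lit 0) (XT.lf (nat_lit 0) (nat_lit 921897790) (nat_lit 836) (nat_lit 5254640942) (nat_lit 76) (nat_lit 3061138499) (nat_lit 278) (nat_lit 5) (nat_lit 289) (nat_lit 5) (nat_lit 279) (nat_lit 5) (nat_lit 441) (nat_lit 387) (nat_lit 312)) (XT.nd (nat_lit 78) (nat_lit 0) (nat_lit 0) (XT.lf (nat_lit 0) (nat_lit 325915336) (nat_lit 684) (nat_lit 2913382429)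 (nat_lit 760) (nat_lit 6089351181) (nat_lit 269) (nat_lit 5) (nat_lit 278) (nat_lit 5) (nat_lit 279) (nat_lit 5) (nat_lit 442) (nat_lit 387) (nat_lit 311)) (XT.lf (nat_lit 0) (nat_lit 5611968845) (nat_lit 760) (nat_lit 3368729253) (nat_lit 76) (nat_lit 440574762) (nat_lit 269) (nat_lit 5) (nat_lit 279) (nat_lit 5) (nat_lit 270) (nat_lit 5) (nat_lit 443) (nat_lit 387) (nat_lit 310)))) (XT.nd (nat_lit 78) (nat_lit 684) (nat_lit 0) (XT.lf (nat_lit 0) (nat_lit 2355855849) (nat_lit 684) (nat_lit 5682134534) (nat_lit 760) (nat_lit 1477651932) (nat_lit 260) (nat_lit 5) (nat_lit 269) (nat_lit 5) (nat_lit 270) (nat_lit 5) (nat_lit 444) (nat_lit 387) (nat_lit 309)) (XT.nd (nat_lit 78) (nat_lit 608) (nat_lit 0) (XT.lf (nat_lit 0) (nat_lit 883031056) (nat_lit 760) (nat_lit 1410718692) (nat_lit 76) (nat_lit 7318158842) (nat_lit 259) (nat_lit 5) (nat_lit 269) (nat_lit 5) (nat_lit 260) (nat_lit 5) (nat_lit 445) (nat_lit 387) (nat_lit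 308)) (XT.lf (nat_lit 0) (nat_lit 3279959873) (nat_lit 684) (nat_lit 5248715645) (nat_lit 76) (nat_lit 1181063340) (nat_lit 251) (nat_lit 5) (nat_lit 260) (nat_lit 5) (nat_lit 252) (nat_lit 5) (nat_lit 446) (nat_lit 387) (nat_lit 307))))))) (XT.nd (nat_lit 858) (nat_lit 2964) (nat_lit 0) (XT.nd (nat_lit 390) (nat_lit 2356) (nat_lit 0) (XT.nd (nat_lit 156) (nat_lit 1292) (nat_lit 0) (XT.nd (nat_lit 78) (nat_lit 0) (nat_lit 0) (XT.lf (nat_lit 0) (nat_lit 619338834) (nat_lit 608) (nat_lit 5106543154) (nat_lit 684) (nat_lit 4083632813) (nat_lit 243) (nat_lit 5) (nat_lit 251) (nat_lit 5) (nat_lit 252) (nat_lit 5) (nat_lit 447) (nat_lit 387) (nat_lit 306)) (XT.lf (nat_lit 0) (nat_lit 6642605591) (nat_lit 608) (nat_lit 1585979094) (nat_lit 684) (nat_lit 1682554304) (nat_lit 243) (nat_lit 5) (nat_lit 251) (nat_lit 5) (nat_lit 252) (nat_lit 5) (nat_lit 448) (nat_lit 387) (nat_lit 305))) (XT.nd (nat_lit 78) (nat_lit 608) (nat_lit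 0) (XT.lf (nat_lit 0) (nat_lit 760596820) (nat_lit 684) (nat_lit 7258136705) (nat_lit 76) (nat_lit 1995890090) (nat_lit 234) (nat_lit 5) (nat_lit 243) (nat_lit 5) (nat_lit 235) (nat_lit 5) (nat_lit 449) (nat_lit 387) (nat_lit 304)) (XT.nd (nat_lit 78) (nat_lit 608) (nat_lit 0) (XT.lf (nat_lit 0) (nat_lit 3235951382) (nat_lit 684) (nat_lit 1228515635) (nat_lit 76) (nat_lit 5655380478) (nat_lit 234) (nat_lit 5) (nat_lit 243) (nat_lit 5) (nat_lit 235) (nat_lit 5) (nat_lit 450) (nat_lit 387) (nat_lit 303)) (XT.lf (nat_lit 0) (nat_lit 4954025040) (nat_lit 608) (nat_lit 812743741) (nat_lit 684) (nat_lit 4460297166) (nat_lit 226) (nat_lit 5) (nat_lit 234) (nat_lit 5) (nat_lit 235) (nat_lit 5) (nat_lit 451) (nat_lit 387) (nat_lit 302))))) (XT.nd (nat_lit 234) (nat_lit 1140) (nat_lit 0) (XT.nd (nat_lit 78) (nat_lit 684) (nat_lit 0) (XT.lf (nat_lit 0) (nat_lit 900539159) (nat_lit 532) (nat_lit 7454767479) (nat_lit 608) (nat_lit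 1980989074) (nat_lit 219) (nat_lit 5) (nat_lit 226) (nat_lit 5) (nat_lit 227) (nat_lit 5) (nat_lit 452) (nat_lit 387) (nat_lit 301)) (XT.nd (nat_lit 78) (nat_lit 608) (nat_lit 0) (XT.lf (nat_lit 0) (nat_lit 555890701) (nat_lit 608) (nat_lit 3220159344) (nat_lit 76) (nat_lit 6671294130) (nat_lit 218) (nat_lit 5) (nat_lit 226) (nat_lit 5) (nat_lit 219) (nat_lit 5) (nat_lit 453) (nat_lit 387) (nat_lit 300)) (XT.lf (nat_lit 0) (nat_lit 3111929457) (nat_lit 684) (nat_lit 7445399848) (nat_lit 76) (nat_lit 3131986) (nat_lit 210) (nat_lit 5) (nat_lit 219) (nat_lit 5) (nat_lit 211) (nat_lit 5) (nat_lit 454) (nat_lit 387) (nat_lit 299)))) (XT.nd (nat_lit 78) (nat_lit 1140) (nat_lit 0) (XT.lf (nat_lit 0) (nat_lit 5740765359) (nat_lit 684) (nat_lit 1112574395) (nat_lit 76) (nat_lit 3822075809) (nat_lit 210) (nat_lit 5) (nat_lit 219) (nat_lit 5) (nat_lit 211) (nat_lit 5) (nat_lit 455) (nat_lit 387) (nat_lit 298)) (XT.nd (nat_lit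 78) (nat_lit 608) (nat_lit 0) (XT.lf (nat_lit 0) (nat_lit 5385527453) (nat_lit 532) (nat_lit 3047026106) (nat_lit 608) (nat_lit 2359916027) (nat_lit 203) (nat_lit 5) (nat_lit 210) (nat_lit 5) (nat_lit 211) (nat_lit 5) (nat_lit 456) (nat_lit 387) (nat_lit 297)) (XT.lf (nat_lit 0) (nat_lit 258459499) (nat_lit 608) (nat_lit 9820080772) (nat_lit 76) (nat_lit 833384906) (nat_lit 195) (nat_lit 5) (nat_lit 203) (nat_lit 5) (nat_lit 196) (nat_lit 5) (nat_lit 457) (nat_lit 387) (nat_lit 296)))))) (XT.nd (nat_lit 390) (nat_lit 1444) (nat_lit 0) (XT.nd (nat_lit 156) (nat_lit 1064) (nat_lit 0) (XT.nd (nat_lit 78) (nat_lit 456) (nat_lit 0) (XT.lf (nat_lit 0) (nat_lit 2930074154) (nat_lit 608) (nat_lit 3307558216) (nat_lit 76) (nat_lit 4795183818) (nat_lit 195) (nat_lit 5) (nat_lit 203) (nat_lit 5) (nat_lit 196) (nat_lit 5) (nat_lit 458) (nat_lit 387) (nat_lit 295)) (XT.lf (nat_lit 0) (nat_lit 3347385618) (nat_lit 456) (nat_lit 2305683302)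 (nat_lit 532) (nat_lit 5503104695) (nat_lit 189) (nat_lit 5) (nat_lit 195) (nat_lit 5) (nat_lit 196) (nat_lit 5) (nat_lit 459) (nat_lit 387) (nat_lit 294))) (XT.nd (nat_lit 78) (nat_lit 1064) (nat_lit 0) (XT.lf (nat_lit 0) (nat_lit 8440359568) (nat_lit 532) (nat_lit 1144455432) (nat_lit 76) (nat_lit 1696993879) (nat_lit 189) (nat_lit 5) (nat_lit 196) (nat_lit 5) (nat_lit 190) (nat_lit 5) (nat_lit 460) (nat_lit 387) (nat_lit 293)) (XT.nd (nat_lit 78) (nat_lit 532) (nat_lit 0) (XT.lf (nat_lit 0) (nat_lit 5681081255) (nat_lit 532) (nat_lit 5631355984) (nat_lit 608) (nat_lit 96946046) (nat_lit 182) (nat_lit 5) (nat_lit 189) (nat_lit 5) (nat_lit 190) (nat_lit 5) (nat_lit 461) (nat_lit 387) (nat_lit 292)) (XT.lf (nat_lit 0) (nat_lit 1084484399) (nat_lit 456) (nat_lit 1574270943) (nat_lit 532) (nat_lit 8880574869) (nat_lit 175) (nat_lit 5) (nat_lit 181) (nat_lit 5) (nat_lit 182) (nat_lit 5) (nat_lit 462) (nat_lit 387) (nat_lit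 291))))) (XT.nd (nat_lit 234) (nat_lit 988) (nat_lit 0) (XT.nd (nat_lit 78) (nat_lit 456) (nat_lit 0) (XT.lf (nat_lit 0) (nat_lit 5500788267) (nat_lit 532) (nat_lit 3609104595) (nat_lit 76) (nat_lit 2561326929) (nat_lit 175) (nat_lit 5) (nat_lit 182) (nat_lit 5) (nat_lit 176) (nat_lit 5) (nat_lit 463) (nat_lit 387) (nat_lit 290)) (XT.nd (nat_lit 78) (nat_lit 0) (nat_lit 0) (XT.lf (nat_lit 0) (nat_lit 3376399051) (nat_lit 456) (nat_lit 5033230852) (nat_lit 532) (nat_lit 3395924606) (nat_lit 169) (nat_lit 5) (nat_lit 175) (nat_lit 5) (nat_lit 176) (nat_lit 5) (nat_lit 464) (nat_lit 387) (nat_lit 289)) (XT.lf (nat_lit 0) (nat_lit 10519730299) (nat_lit 456) (nat_lit 858996468) (nat_lit 532) (nat_lit 563814163) (nat_lit 169) (nat_lit 5) (nat_lit 175) (nat_lit 5) (nat_lit 176) (nat_lit 5) (nat_lit 465) (nat_lit 387) (nat_lit 288)))) (XT.nd (nat_lit 78) (nat_lit 456) (nat_lit 0) (XT.lf (nat_lit 0) (nat_lit 2332303647) (nat_lit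 532) (nat_lit 6350492543) (nat_lit 76) (nat_lit 3398418166) (nat_lit 162) (nat_lit 5) (nat_lit 169) (nat_lit 5) (nat_lit 163) (nat_lit 5) (nat_lit 466) (nat_lit 387) (nat_lit 287)) (XT.nd (nat_lit 78) (nat_lit 0) (nat_lit 0) (XT.lf (nat_lit 0) (nat_lit 794394651) (nat_lit 456) (nat_lit 4483183207) (nat_lit 532) (nat_lit 6945039383) (nat_lit 156) (nat_lit 5) (nat_lit 162) (nat_lit 5) (nat_lit 163) (nat_lit 5) (nat_lit 467) (nat_lit 387) (nat_lit 286)) (XT.lf (nat_lit 0) (nat_lit 8137784679) (nat_lit 456) (nat_lit 165134224) (nat_lit 532) (nat_lit 4063512129) (nat_lit 156) (nat_lit 5) (nat_lit 162) (nat_lit 5) (nat_lit 163) (nat_lit 5) (nat_lit 468) (nat_lit 387) (nat_lit 285))))))))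
noncomputable def xc116 : XT := (XT.nd (nat_lit 1638) (nat_lit 2432) (nat_lit 0) (XT.nd (nat_lit 780) (nat_lit 2052) (nat_lit 0) (XT.nd (nat_lit 390) (nat_lit 1292) (nat_lit 0) (XT.nd (nat_lit 156) (nat_lit 836) (nat_lit 0) (XT.nd (nat_lit 78) (nat_lit 76) (nat_lit 0) (XT.lf (nat_lit 0) (nat_lit 3097776017) (nat_lit 380) (nat_lit 8317537185) (nat_lit 456) (nat_lit 1097282925) (nat_lit 151) (nat_lit 5) (nat_lit 156) (nat_lit 5) (nat_lit 157) (nat_lit 5) (nat_lit 469) (nat_lit 387) (nat_lit 284)) (XT.lf (nat_lit 0) (nat_lit 1911623086) (nat_lit 456) (nat_lit 2077205986) (nat_lit 76) (nat_lit 8672437946) (nat_lit 150) (nat_lit 5) (nat_lit 156) (nat_lit 5) (nat_lit 151) (nat_lit 5) (nat_lit 470) (nat_lit 387) (nat_lit 283))) (XT.nd (nat_lit 78) (nat_lit 380) (nat_lit 0) (XT.lf (nat_lit 0) (nat_lit 4983745841) (nat_lit 532) (nat_lit 7373948824) (nat_lit 76) (nat_lit 454722592) (nat_lit 144) (nat_lit 5) (nat_lit 151) (nat_lit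 5) (nat_lit 145) (nat_lit 5) (nat_lit 471) (nat_lit 387) (nat_lit 282)) (XT.nd (nat_lit 78) (nat_lit 0) (nat_lit 0) (XT.lf (nat_lit 0) (nat_lit 111355194) (nat_lit 380) (nat_lit 8026675097) (nat_lit 456) (nat_lit 4828151326) (nat_lit 139) (nat_lit 5) (nat_lit 144) (nat_lit 5) (nat_lit 145) (nat_lit 5) (nat_lit 472) (nat_lit 387) (nat_lit 281)) (XT.lf (nat_lit 0) (nat_lit 7816619262) (nat_lit 380) (nat_lit 3568021113) (nat_lit 456) (nat_lit 1737801485) (nat_lit 139) (nat_lit 5) (nat_lit 144) (nat_lit 5) (nat_lit 145) (nat_lit 5) (nat_lit 473) (nat_lit 387) (nat_lit 280))))) (XT.nd (nat_lit 156) (nat_lit 836) (nat_lit 0) (XT.nd (nat_lit 78) (nat_lit 0) (nat_lit 0) (XT.lf (nat_lit 0) (nat_lit 1397784173) (nat_lit 456) (nat_lit 10901309775) (nat_lit 76) (nat_lit 982515320) (nat_lit 133) (nat_lit 5) (nat_lit 139) (nat_lit 5) (nat_lit 134) (nat_lit 5) (nat_lit 474) (nat_lit 387) (nat_lit 279)) (XT.lf (nat_lit 0) (nat_lit 4612462329)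 (nat_lit 456) (nat_lit 3216092178) (nat_lit 76) (nat_lit 5614387865) (nat_lit 133) (nat_lit 5) (nat_lit 139) (nat_lit 5) (nat_lit 134) (nat_lit 5) (nat_lit 475) (nat_lit 387) (nat_lit 278))) (XT.nd (nat_lit 78) (nat_lit 456) (nat_lit 0) (XT.lf (nat_lit 0) (nat_lit 4654922655) (nat_lit 380) (nat_lit 3247281550) (nat_lit 456) (nat_lit 5705087513) (nat_lit 128) (nat_lit 5) (nat_lit 133) (nat_lit 5) (nat_lit 134) (nat_lit 5) (nat_lit 476) (nat_lit 387) (nat_lit 277)) (XT.nd (nat_lit 78) (nat_lit 456) (nat_lit 0) (XT.lf (nat_lit 0) (nat_lit 11269401795) (nat_lit 456) (nat_lit 1086037698) (nat_lit 76) (nat_lit 1419260228) (nat_lit 128) (nat_lit 5) (nat_lit 134) (nat_lit 5) (nat_lit 129) (nat_lit 5) (nat_lit 477) (nat_lit 387) (nat_lit 276)) (XT.lf (nat_lit 0) (nat_lit 796729410) (nat_lit 456) (nat_lit 6970621771) (nat_lit 76) (nat_lit 6177047113) (nat_lit 122) (nat_lit 5) (nat_lit 128) (nat_lit 5) (nat_lit 123) (nat_lit 5)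 (nat_lit 478) (nat_lit 387) (nat_lit 275)))))) (XT.nd (nat_lit 390) (nat_lit 988) (nat_lit 0) (XT.nd (nat_lit 156) (nat_lit 760) (nat_lit 0) (XT.nd (nat_lit 78) (nat_lit 0) (nat_lit 0) (XT.lf (nat_lit 0) (nat_lit 1060844548) (nat_lit 304) (nat_lit 3065779646) (nat_lit 380) (nat_lit 9990632593) (nat_lit 118) (nat_lit 5) (nat_lit 122) (nat_lit 5) (nat_lit 123) (nat_lit 5) (nat_lit 479) (nat_lit 387) (nat_lit 274)) (XT.lf (nat_lit 0) (nat_lit 7562674772) (nat_lit 380) (nat_lit 4985468812) (nat_lit 76) (nat_lit 1744642221) (nat_lit 118) (nat_lit 5) (nat_lit 123) (nat_lit 5) (nat_lit 119) (nat_lit 5) (nat_lit 480) (nat_lit 387) (nat_lit 273))) (XT.nd (nat_lit 78) (nat_lit 380) (nat_lit 0) (XT.lf (nat_lit 0) (nat_lit 3240939178) (nat_lit 380) (nat_lit 7849460941) (nat_lit 456) (nat_lit 3380970636) (nat_lit 113) (nat_lit 5) (nat_lit 118) (nat_lit 5) (nat_lit 119) (nat_lit 5) (nat_lit 481) (nat_lit 387) (nat_lit 272)) (XT.nd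 (nat_lit 78) (nat_lit 304) (nat_lit 0) (XT.lf (nat_lit 0) (nat_lit 50030584) (nat_lit 456) (nat_lit 2982072760) (nat_lit 76) (nat_lit 11621116967) (nat_lit 112) (nat_lit 5) (nat_lit 118) (nat_lit 5) (nat_lit 113) (nat_lit 5) (nat_lit 482) (nat_lit 387) (nat_lit 271)) (XT.lf (nat_lit 0) (nat_lit 3534383934) (nat_lit 380) (nat_lit 9397741215) (nat_lit 76) (nat_lit 1905538850) (nat_lit 108) (nat_lit 5) (nat_lit 113) (nat_lit 5) (nat_lit 109) (nat_lit 5) (nat_lit 483) (nat_lit 387) (nat_lit 270))))) (XT.nd (nat_lit 234) (nat_lit 380) (nat_lit 0) (XT.nd (nat_lit 78) (nat_lit 608) (nat_lit 0) (XT.lf (nat_lit 0) (nat_lit 7110781458) (nat_lit 380) (nat_lit 1002609319) (nat_lit 76) (nat_lit 6911962730) (nat_lit 108) (nat_lit 5) (nat_lit 113) (nat_lit 5) (nat_lit 109) (nat_lit 5) (nat_lit 484) (nat_lit 387) (nat_lit 269)) (XT.nd (nat_lit 78) (nat_lit 304) (nat_lit 0) (XT.lf (nat_lit 0) (nat_lit 7633300734) (nat_lit 304) (nat_lit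 3157450130) (nat_lit 380) (nat_lit 4425409070) (nat_lit 104) (nat_lit 5) (nat_lit 108) (nat_lit 5) (nat_lit 109) (nat_lit 5) (nat_lit 485) (nat_lit 387) (nat_lit 268)) (XT.lf (nat_lit 0) (nat_lit 1018519387) (nat_lit 304) (nat_lit 13534094540) (nat_lit 380) (nat_lit 858006609) (nat_lit 100) (nat_lit 5) (nat_lit 104) (nat_lit 5) (nat_lit 105) (nat_lit 5) (nat_lit 486) (nat_lit 387) (nat_lit 267)))) (XT.nd (nat_lit 78) (nat_lit 304) (nat_lit 0) (XT.lf (nat_lit 0) (nat_lit 2799041418) (nat_lit 380) (nat_lit 5779941053) (nat_lit 76) (nat_lit 7028535216) (nat_lit 99) (nat_lit 5) (nat_lit 104) (nat_lit 5) (nat_lit 100) (nat_lit 5) (nat_lit 487) (nat_lit 387) (nat_lit 266)) (XT.nd (nat_lit 78) (nat_lit 0) (nat_lit 0) (XT.lf (nat_lit 0) (nat_lit 3011412636) (nat_lit 304) (nat_lit 3508867619) (nat_lit 380) (nat_lit 9287912031) (nat_lit 95) (nat_lit 5) (nat_lit 99) (nat_lit 5) (nat_lit 100) (nat_lit 5) (nat_lit 488) (nat_lit 387)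 (nat_lit 265)) (XT.lf (nat_lit 0) (nat_lit 10348854707) (nat_lit 380) (nat_lit 3993177582) (nat_lit 76) (nat_lit 1670193501) (nat_lit 95) (nat_lit 5) (nat_lit 100) (nat_lit 5) (nat_lit 96) (nat_lit 5) (nat_lit 489) (nat_lit 387) (nat_lit 264))))))) (XT.nd (nat_lit 780) (nat_lit 608) (nat_lit 0) (XT.nd (nat_lit 390) (nat_lit 912) (nat_lit 0) (XT.nd (nat_lit 156) (nat_lit 532) (nat_lit 0) (XT.nd (nat_lit 78) (nat_lit 76) (nat_lit 0) (XT.lf (nat_lit 0) (nat_lit 5002432414) (nat_lit 304) (nat_lit 9290689294) (nat_lit 380) (nat_lit 1926439395) (nat_lit 91) (nat_lit 5) (nat_lit 95) (nat_lit 5) (nat_lit 96) (nat_lit 5) (nat_lit 490) (nat_lit 387) (nat_lit 263)) (XT.lf (nat_lit 0) (nat_lit 1870926562) (nat_lit 380) (nat_lit 2237325513) (nat_lit 76) (nat_lit 12322341249) (nat_lit 90) (nat_lit 5) (nat_lit 95) (nat_lit 5) (nat_lit 91) (nat_lit 5) (nat_lit 491) (nat_lit 387) (nat_lit 262))) (XT.nd (nat_lit 78) (nat_lit 228) (nat_lit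 0) (XT.lf (nat_lit 0) (nat_lit 5755494155) (nat_lit 380) (nat_lit 9678154324) (nat_lit 76) (nat_lit 1211205403) (nat_lit 86) (nat_lit 5) (nat_lit 91) (nat_lit 5) (nat_lit 87) (nat_lit 5) (nat_lit 492) (nat_lit 387) (nat_lit 261)) (XT.nd (nat_lit 78) (nat_lit 228) (nat_lit 0) (XT.lf (nat_lit 0) (nat_lit 9743932345) (nat_lit 380) (nat_lit 531328625) (nat_lit 76) (nat_lit 6587618384) (nat_lit 86) (nat_lit 5) (nat_lit 91) (nat_lit 5) (nat_lit 87) (nat_lit 5) (nat_lit 493) (nat_lit 387) (nat_lit 260)) (XT.lf (nat_lit 0) (nat_lit 8889476037) (nat_lit 228) (nat_lit 4964555338) (nat_lit 304) (nat_lit 3230399343) (nat_lit 83) (nat_lit 5) (nat_lit 86) (nat_lit 5) (nat_lit 87) (nat_lit 5) (nat_lit 494) (nat_lit 387) (nat_lit 259))))) (XT.nd (nat_lit 156) (nat_lit 532) (nat_lit 0) (XT.nd (nat_lit 78) (nat_lit 0) (nat_lit 0) (XT.lf (nat_lit 0) (nat_lit 724716081) (nat_lit 380) (nat_lit 16132740247) (nat_lit 76) (nat_lit 452895347)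 (nat_lit 78) (nat_lit 5) (nat_lit 83) (nat_lit 5) (nat_lit 79) (nat_lit 5) (nat_lit 495) (nat_lit 387) (nat_lit 258)) (XT.lf (nat_lit 0) (nat_lit 4788248943) (nat_lit 380) (nat_lit 6771286454) (nat_lit 76) (nat_lit 5979380231) (nat_lit 78) (nat_lit 5) (nat_lit 83) (nat_lit 5) (nat_lit 79) (nat_lit 5) (nat_lit 496) (nat_lit 387) (nat_lit 257))) (XT.nd (nat_lit 78) (nat_lit 304) (nat_lit 0) (XT.lf (nat_lit 0) (nat_lit 2788801987) (nat_lit 228) (nat_lit 6146960409) (nat_lit 304) (nat_lit 8836237244) (nat_lit 75) (nat_lit 5) (nat_lit 78) (nat_lit 5) (nat_lit 79) (nat_lit 5) (nat_lit 497) (nat_lit 387) (nat_lit 256)) (XT.nd (nat_lit 78) (nat_lit 304) (nat_lit 0) (XT.lf (nat_lit 0) (nat_lit 12606874295) (nat_lit 228) (nat_lit 589533454) (nat_lit 304) (nat_lit 4812736869) (nat_lit 75) (nat_lit 5) (nat_lit 78) (nat_lit 5) (nat_lit 79) (nat_lit 5) (nat_lit 498) (nat_lit 387) (nat_lit 255)) (XT.lf (nat_lit 0) (nat_lit 4369856322)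 (nat_lit 304) (nat_lit 13218738055) (nat_lit 380) (nat_lit 661514415) (nat_lit 71) (nat_lit 5) (nat_lit 75) (nat_lit 5) (nat_lit 76) (nat_lit 5) (nat_lit 499) (nat_lit 387) (nat_lit 254)))))) (XT.nd (nat_lit 50622) (nat_lit 0) (nat_lit 43700) (XT.nd (nat_lit 156) (nat_lit 304) (nat_lit 0) (XT.nd (nat_lit 78) (nat_lit 228) (nat_lit 0) (XT.lf (nat_lit 0) (nat_lit 3551285164) (nat_lit 380) (nat_lit 4136646564) (nat_lit 76) (nat_lit 10806991147) (nat_lit 70) (nat_lit 5) (nat_lit 75) (nat_lit 5) (nat_lit 71) (nat_lit 5) (nat_lit 500) (nat_lit 387) (nat_lit 253)) (XT.lf (nat_lit 0) (nat_lit 5849865519) (nat_lit 228) (nat_lit 2012914235) (nat_lit 304) (nat_lit 10881302799) (nat_lit 67) (nat_lit 5) (nat_lit 70) (nat_lit 5) (nat_lit 71) (nat_lit 5) (nat_lit 501) (nat_lit 387) (nat_lit 252))) (XT.nd (nat_lit 78) (nat_lit 304) (nat_lit 0) (XT.lf (nat_lit 0) (nat_lit 12298337158) (nat_lit 304) (nat_lit 2954565433) (nat_lit 76) (nat_lit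 3744568818) (nat_lit 67) (nat_lit 5) (nat_lit 71) (nat_lit 5) (nat_lit 68) (nat_lit 5) (nat_lit 502) (nat_lit 387) (nat_lit 251)) (XT.nd (nat_lit 78) (nat_lit 76) (nat_lit 0) (XT.lf (nat_lit 0) (nat_lit 7241623036) (nat_lit 228) (nat_lit 9626993679) (nat_lit 304) (nat_lit 2386393702) (nat_lit 64) (nat_lit 5) (nat_lit 67) (nat_lit 5) (nat_lit 68) (nat_lit 5) (nat_lit 503) (nat_lit 387) (nat_lit 250)) (XT.lf (nat_lit 0) (nat_lit 1991857388) (nat_lit 304) (nat_lit 1872653102) (nat_lit 76) (nat_lit 15652817834) (nat_lit 63) (nat_lit 5) (nat_lit 67) (nat_lit 5) (nat_lit 64) (nat_lit 5) (nat_lit 504) (nat_lit 387) (nat_lit 249))))) (XT.nd (nat_lit 234) (nat_lit 608) (nat_lit 0) (XT.nd (nat_lit 78) (nat_lit 684) (nat_lit 0) (XT.lf (nat_lit 0) (nat_lit 1286888142) (nat_lit 0) (nat_lit 1286888142) (nat_lit 532) (nat_lit 709207855) (nat_lit 655) (nat_lit 5) (nat_lit 655) (nat_lit 3) (nat_lit 662) (nat_lit 3) (nat_lit 388) (nat_lit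 388) (nat_lit 364)) (XT.nd (nat_lit 78) (nat_lit 0) (nat_lit 0) (XT.lf (nat_lit 0) (nat_lit 989159979) (nat_lit 684) (nat_lit 835550342) (nat_lit 684) (nat_lit 4757431404) (nat_lit 646) (nat_lit 3) (nat_lit 655) (nat_lit 3) (nat_lit 655) (nat_lit 5) (nat_lit 389) (nat_lit 388) (nat_lit 363)) (XT.lf (nat_lit 76) (nat_lit 2373796574) (nat_lit 0) (nat_lit 1004497243) (nat_lit 684) (nat_lit 3221151628) (nat_lit 647) (nat_lit 5) (nat_lit 646) (nat_lit 3) (nat_lit 655) (nat_lit 5) (nat_lit 390) (nat_lit 388) (nat_lit 362)))) (XT.nd (nat_lit 78) (nat_lit 608) (nat_lit 0) (XT.lf (nat_lit 76) (nat_lit 5626701299) (nat_lit 0) (nat_lit 132113644) (nat_lit 684) (nat_lit 859449679) (nat_lit 647) (nat_lit 5) (nat_lit 646) (nat_lit 3) (nat_lit 655) (nat_lit 5) (nat_lit 391) (nat_lit 388) (nat_lit 361)) (XT.nd (nat_lit 78) (nat_lit 0) (nat_lit 0) (XT.lf (nat_lit 0) (nat_lit 1488109754) (nat_lit 684) (nat_lit 4348437361) (nat_lit 760)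 (nat_lit 801572824) (nat_lit 638) (nat_lit 5) (nat_lit 647) (nat_lit 5) (nat_lit 648) (nat_lit 5) (nat_lit 392) (nat_lit 388) (nat_lit 360)) (XT.lf (nat_lit 0) (nat_lit 3818643199) (nat_lit 684) (nat_lit 1048253530) (nat_lit 760) (nat_lit 1792450481) (nat_lit 638) (nat_lit 5) (nat_lit 647) (nat_lit 5) (nat_lit 648) (nat_lit 5) (nat_lit 393) (nat_lit 388) (nat_lit 359))))))))
noncomputable def xc117 : XT := (XT.nd (nat_lit 1638) (nat_lit 15808) (nat_lit 0) (XT.nd (nat_lit 780) (nat_lit 6764) (nat_lit 0) (XT.nd (nat_lit 390) (nat_lit 912) (nat_lit 0) (XT.nd (nat_lit 156) (nat_lit 760) (nat_lit 0) (XT.nd (nat_lit 78) (nat_lit 760) (nat_lit 0) (XT.lf (nat_lit 76) (nat_lit 2315559984) (nat_lit 0) (nat_lit 3836386178) (nat_lit 760) (nat_lit 529968003) (nat_lit 639) (nat_lit 5) (nat_lit 638) (nat_lit 5) (nat_lit 648) (nat_lit 5) (nat_lit 394) (nat_lit 388) (nat_lit 358)) (XT.lf (nat_lit 0) (nat_lit 1751749631) (nat_lit 760)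 (nat_lit 989181091) (nat_lit 836) (nat_lit 3964826765) (nat_lit 628) (nat_lit 5) (nat_lit 638) (nat_lit 5) (nat_lit 639) (nat_lit 5) (nat_lit 395) (nat_lit 388) (nat_lit 357))) (XT.nd (nat_lit 78) (nat_lit 760) (nat_lit 0) (XT.lf (nat_lit 76) (nat_lit 2451491339) (nat_lit 0) (nat_lit 1579228719) (nat_lit 836) (nat_lit 2700149370) (nat_lit 629) (nat_lit 5) (nat_lit 628) (nat_lit 5) (nat_lit 639) (nat_lit 5) (nat_lit 396) (nat_lit 388) (nat_lit 356)) (XT.nd (nat_lit 78) (nat_lit 760) (nat_lit 0) (XT.lf (nat_lit 76) (nat_lit 5941914722) (nat_lit 0) (nat_lit 363695382) (nat_lit 836) (nat_lit 451902099) (nat_lit 629) (nat_lit 5) (nat_lit 628) (nat_lit 5) (nat_lit 639) (nat_lit 5) (nat_lit 397) (nat_lit 388) (nat_lit 355)) (XT.lf (nat_lit 0) (nat_lit 1785185644) (nat_lit 836) (nat_lit 4082858478) (nat_lit 912) (nat_lit 917078143) (nat_lit 618) (nat_lit 5) (nat_lit 629) (nat_lit 5) (nat_lit 630) (nat_lit 5) (nat_lit 398) (nat_lit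 388) (nat_lit 354))))) (XT.nd (nat_lit 156) (nat_lit 912) (nat_lit 0) (XT.nd (nat_lit 78) (nat_lit 0) (nat_lit 0) (XT.lf (nat_lit 0) (nat_lit 4014318811) (nat_lit 836) (nat_lit 550739989) (nat_lit 912) (nat_lit 2249132252) (nat_lit 618) (nat_lit 5) (nat_lit 629) (nat_lit 5) (nat_lit 630) (nat_lit 5) (nat_lit 399) (nat_lit 388) (nat_lit 353)) (XT.lf (nat_lit 76) (nat_lit 3059136811) (nat_lit 0) (nat_lit 3195260821) (nat_lit 912) (nat_lit 590149025) (nat_lit 619) (nat_lit 5) (nat_lit 618) (nat_lit 5) (nat_lit 630) (nat_lit 5) (nat_lit 400) (nat_lit 388) (nat_lit 352))) (XT.nd (nat_lit 78) (nat_lit 0) (nat_lit 0) (XT.lf (nat_lit 0) (nat_lit 1592625020) (nat_lit 912) (nat_lit 171110049) (nat_lit 988) (nat_lit 5112576154) (nat_lit 606) (nat_lit 5) (nat_lit 618) (nat_lit 5) (nat_lit 619) (nat_lit 5) (nat_lit 401) (nat_lit 388) (nat_lit 351)) (XT.nd (nat_lit 78) (nat_lit 0) (nat_lit 76) (XT.lf (nat_lit 76) (nat_lit 3524930512)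 (nat_lit 0) (nat_lit 257112338) (nat_lit 988) (nat_lit 3127203222) (nat_lit 607) (nat_lit 5) (nat_lit 606) (nat_lit 5) (nat_lit 619) (nat_lit 5) (nat_lit 402) (nat_lit 388) (nat_lit 350)) (XT.lf (nat_lit 76) (nat_lit 316403108) (nat_lit 0) (nat_lit 5659289269) (nat_lit 988) (nat_lit 967968587) (nat_lit 608) (nat_lit 5) (nat_lit 607) (nat_lit 5) (nat_lit 620) (nat_lit 5) (nat_lit 403) (nat_lit 388) (nat_lit 349)))))) (XT.nd (nat_lit 390) (nat_lit 4864) (nat_lit 0) (XT.nd (nat_lit 156) (nat_lit 988) (nat_lit 0) (XT.nd (nat_lit 78) (nat_lit 0) (nat_lit 0) (XT.lf (nat_lit 0) (nat_lit 1192170285) (nat_lit 988) (nat_lit 2885471533) (nat_lit 1064) (nat_lit 2901512887) (nat_lit 594) (nat_lit 5) (nat_lit 607) (nat_lit 5) (nat_lit 608) (nat_lit 5) (nat_lit 404) (nat_lit 388) (nat_lit 348)) (XT.lf (nat_lit 76) (nat_lit 902950104) (nat_lit 0) (nat_lit 2435814534) (nat_lit 1064) (nat_lit 3677369911) (nat_lit 595) (nat_lit 5) (nat_lit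 594) (nat_lit 5) (nat_lit 608) (nat_lit 5) (nat_lit 405) (nat_lit 388) (nat_lit 347))) (XT.nd (nat_lit 78) (nat_lit 988) (nat_lit 0) (XT.lf (nat_lit 76) (nat_lit 4772842391) (nat_lit 0) (nat_lit 725907472) (nat_lit 1064) (nat_lit 1555722860) (nat_lit 595) (nat_lit 5) (nat_lit 594) (nat_lit 5) (nat_lit 608) (nat_lit 5) (nat_lit 406) (nat_lit 388) (nat_lit 346)) (XT.nd (nat_lit 78) (nat_lit 0) (nat_lit 0) (XT.lf (nat_lit 0) (nat_lit 569346610) (nat_lit 1064) (nat_lit 5490785097) (nat_lit 76) (nat_lit 1034014421) (nat_lit 581) (nat_lit 5) (nat_lit 595) (nat_lit 5) (nat_lit 582) (nat_lit 5) (nat_lit 407) (nat_lit 388) (nat_lit 345)) (XT.lf (nat_lit 0) (nat_lit 2688860279) (nat_lit 1064) (nat_lit 1586813320) (nat_lit 76) (nat_lit 2859304557) (nat_lit 581) (nat_lit 5) (nat_lit 595) (nat_lit 5) (nat_lit 582) (nat_lit 5) (nat_lit 408) (nat_lit 388) (nat_lit 344))))) (XT.nd (nat_lit 234) (nat_lit 2584) (nat_lit 0) (XT.nd (nat_lit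 78) (nat_lit 1216) (nat_lit 0) (XT.lf (nat_lit 0) (nat_lit 2393019508) (nat_lit 1064) (nat_lit 2426747267) (nat_lit 1140) (nat_lit 2357505786) (nat_lit 567) (nat_lit 5) (nat_lit 581) (nat_lit 5) (nat_lit 582) (nat_lit 5) (nat_lit 409) (nat_lit 388) (nat_lit 343)) (XT.nd (nat_lit 78) (nat_lit 1216) (nat_lit 0) (XT.lf (nat_lit 0) (nat_lit 6440576476) (nat_lit 1064) (nat_lit 517524466) (nat_lit 1140) (nat_lit 263041004) (nat_lit 567) (nat_lit 5) (nat_lit 581) (nat_lit 5) (nat_lit 582) (nat_lit 5) (nat_lit 410) (nat_lit 388) (nat_lit 342)) (XT.lf (nat_lit 0) (nat_lit 1834497798) (nat_lit 1216) (nat_lit 3974757433) (nat_lit 76) (nat_lit 1456699457) (nat_lit 551) (nat_lit 5) (nat_lit 567) (nat_lit 5) (nat_lit 552) (nat_lit 5) (nat_lit 411) (nat_lit 388) (nat_lit 341)))) (XT.nd (nat_lit 78) (nat_lit 1368) (nat_lit 0) (XT.lf (nat_lit 0) (nat_lit 105472362) (nat_lit 1216) (nat_lit 3829865647) (nat_lit 1292) (nat_lit 3377017273)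 (nat_lit 535) (nat_lit 5) (nat_lit 551) (nat_lit 5) (nat_lit 552) (nat_lit 5) (nat_lit 412) (nat_lit 388) (nat_lit 340)) (XT.nd (nat_lit 78) (nat_lit 1368) (nat_lit 0) (XT.lf (nat_lit 0) (nat_lit 4287286126) (nat_lit 1216) (nat_lit 1773719016) (nat_lit 1292) (nat_lit 1299045897) (nat_lit 535) (nat_lit 5) (nat_lit 551) (nat_lit 5) (nat_lit 552) (nat_lit 5) (nat_lit 413) (nat_lit 388) (nat_lit 339)) (XT.lf (nat_lit 0) (nat_lit 775928744) (nat_lit 1368) (nat_lit 6292024385) (nat_lit 76) (nat_lit 341339395) (nat_lit 517) (nat_lit 5) (nat_lit 535) (nat_lit 5) (nat_lit 518) (nat_lit 5) (nat_lit 414) (nat_lit 388) (nat_lit 338))))))) (XT.nd (nat_lit 858) (nat_lit 6232) (nat_lit 0) (XT.nd (nat_lit 390) (nat_lit 5168) (nat_lit 0) (XT.nd (nat_lit 156) (nat_lit 3040) (nat_lit 0) (XT.nd (nat_lit 78) (nat_lit 1368) (nat_lit 0) (XT.lf (nat_lit 0) (nat_lit 2864907769) (nat_lit 1368) (nat_lit 2081383156) (nat_lit 76) (nat_lit 2513280206)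 (nat_lit 517) (nat_lit 5) (nat_lit 535) (nat_lit 5) (nat_lit 518) (nat_lit 5) (nat_lit 415) (nat_lit 388) (nat_lit 337)) (XT.lf (nat_lit 0) (nat_lit 2208569317) (nat_lit 1368) (nat_lit 2759652190) (nat_lit 1444) (nat_lit 2543204279) (nat_lit 499) (nat_lit 5) (nat_lit 517) (nat_lit 5) (nat_lit 518) (nat_lit 5) (nat_lit 416) (nat_lit 388) (nat_lit 336))) (XT.nd (nat_lit 78) (nat_lit 3040) (nat_lit 0) (XT.lf (nat_lit 0) (nat_lit 6578889983) (nat_lit 1368) (nat_lit 507495205) (nat_lit 1444) (nat_lit 478497824) (nat_lit 499) (nat_lit 5) (nat_lit 517) (nat_lit 5) (nat_lit 518) (nat_lit 5) (nat_lit 417) (nat_lit 388) (nat_lit 335)) (XT.nd (nat_lit 78) (nat_lit 1520) (nat_lit 0) (XT.lf (nat_lit 0) (nat_lit 1599568448) (nat_lit 1520) (nat_lit 4213549019) (nat_lit 76) (nat_lit 1806232700) (nat_lit 479) (nat_lit 5) (nat_lit 499) (nat_lit 5) (nat_lit 480) (nat_lit 5) (nat_lit 418) (nat_lit 388) (nat_lit 334)) (XT.lf (nat_lit 0)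 (nat_lit 185693741) (nat_lit 1520) (nat_lit 3498289096) (nat_lit 1596) (nat_lit 3991456626) (nat_lit 459) (nat_lit 5) (nat_lit 479) (nat_lit 5) (nat_lit 480) (nat_lit 5) (nat_lit 419) (nat_lit 388) (nat_lit 333))))) (XT.nd (nat_lit 234) (nat_lit 3496) (nat_lit 0) (XT.nd (nat_lit 78) (nat_lit 1672) (nat_lit 0) (XT.lf (nat_lit 0) (nat_lit 4696071696) (nat_lit 1520) (nat_lit 1102814498) (nat_lit 1596) (nat_lit 1934007881) (nat_lit 459) (nat_lit 5) (nat_lit 479) (nat_lit 5) (nat_lit 480) (nat_lit 5) (nat_lit 420) (nat_lit 388) (nat_lit 332)) (XT.nd (nat_lit 78) (nat_lit 0) (nat_lit 0) (XT.lf (nat_lit 0) (nat_lit 141936666) (nat_lit 1672) (nat_lit 6311096094) (nat_lit 76) (nat_lit 1338872322) (nat_lit 437) (nat_lit 5) (nat_lit 459) (nat_lit 5) (nat_lit 438) (nat_lit 5) (nat_lit 421) (nat_lit 388) (nat_lit 331)) (XT.lf (nat_lit 0) (nat_lit 2222946597) (nat_lit 1672) (nat_lit 1776409050) (nat_lit 76) (nat_lit 3852714544) (nat_lit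 437) (nat_lit 5) (nat_lit 459) (nat_lit 5) (nat_lit 438) (nat_lit 5) (nat_lit 422) (nat_lit 388) (nat_lit 330)))) (XT.nd (nat_lit 78) (nat_lit 1824) (nat_lit 0) (XT.lf (nat_lit 0) (nat_lit 2852627736) (nat_lit 1672) (nat_lit 1473824662) (nat_lit 1748) (nat_lit 3587386746) (nat_lit 415) (nat_lit 5) (nat_lit 437) (nat_lit 5) (nat_lit 438) (nat_lit 5) (nat_lit 423) (nat_lit 388) (nat_lit 329)) (XT.nd (nat_lit 78) (nat_lit 1824) (nat_lit 0) (XT.lf (nat_lit 0) (nat_lit 6454082471) (nat_lit 1748) (nat_lit 419833536) (nat_lit 76) (nat_lit 1103304086) (nat_lit 415) (nat_lit 5) (nat_lit 438) (nat_lit 5) (nat_lit 416) (nat_lit 5) (nat_lit 424) (nat_lit 388) (nat_lit 328)) (XT.lf (nat_lit 0) (nat_lit 576235578) (nat_lit 1824) (nat_lit 3717922239) (nat_lit 76) (nat_lit 3747622686) (nat_lit 391) (nat_lit 5) (nat_lit 415) (nat_lit 5) (nat_lit 392) (nat_lit 5) (nat_lit 425) (nat_lit 388) (nat_lit 327)))))) (XT.nd (nat_lit 390) (nat_lit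 3344) (nat_lit 0) (XT.nd (nat_lit 156) (nat_lit 1824) (nat_lit 0) (XT.nd (nat_lit 78) (nat_lit 0) (nat_lit 0) (XT.lf (nat_lit 0) (nat_lit 1030021576) (nat_lit 1064) (nat_lit 1640590014) (nat_lit 1140) (nat_lit 5437367647) (nat_lit 377) (nat_lit 5) (nat_lit 391) (nat_lit 5) (nat_lit 392) (nat_lit 5) (nat_lit 426) (nat_lit 388) (nat_lit 326)) (XT.lf (nat_lit 0) (nat_lit 4803280937) (nat_lit 1140) (nat_lit 2293207439) (nat_lit 76) (nat_lit 1079101807) (nat_lit 377) (nat_lit 5) (nat_lit 392) (nat_lit 5) (nat_lit 378) (nat_lit 5) (nat_lit 427) (nat_lit 388) (nat_lit 325))) (XT.nd (nat_lit 78) (nat_lit 912) (nat_lit 0) (XT.lf (nat_lit 0) (nat_lit 2576398734) (nat_lit 912) (nat_lit 4394865962) (nat_lit 988) (nat_lit 1273451463) (nat_lit 365) (nat_lit 5) (nat_lit 377) (nat_lit 5) (nat_lit 378) (nat_lit 5) (nat_lit 428) (nat_lit 388) (nat_lit 324)) (XT.nd (nat_lit 78) (nat_lit 836) (nat_lit 0) (XT.lf (nat_lit 0) (nat_lit 836790029)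 (nat_lit 988) (nat_lit 780187043) (nat_lit 76) (nat_lit 6698534711) (nat_lit 364) (nat_lit 5) (nat_lit 377) (nat_lit 5) (nat_lit 365) (nat_lit 5) (nat_lit 429) (nat_lit 388) (nat_lit 323)) (XT.lf (nat_lit 0) (nat_lit 2973707234) (nat_lit 912) (nat_lit 4176585049) (nat_lit 76) (nat_lit 1237247346) (nat_lit 353) (nat_lit 5) (nat_lit 365) (nat_lit 5) (nat_lit 354) (nat_lit 5) (nat_lit 430) (nat_lit 388) (nat_lit 322))))) (XT.nd (nat_lit 234) (nat_lit 1596) (nat_lit 0) (XT.nd (nat_lit 78) (nat_lit 912) (nat_lit 0) (XT.lf (nat_lit 0) (nat_lit 817751760) (nat_lit 836) (nat_lit 4323326427) (nat_lit 912) (nat_lit 3320190347) (nat_lit 342) (nat_lit 5) (nat_lit 353) (nat_lit 5) (nat_lit 354) (nat_lit 5) (nat_lit 431) (nat_lit 388) (nat_lit 321)) (XT.nd (nat_lit 78) (nat_lit 912) (nat_lit 0) (XT.lf (nat_lit 0) (nat_lit 5934991099) (nat_lit 836) (nat_lit 1411700109) (nat_lit 912) (nat_lit 1189897438) (nat_lit 342) (nat_lit 5) (nat_lit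 353) (nat_lit 5) (nat_lit 354) (nat_lit 5) (nat_lit 432) (nat_lit 388) (nat_lit 320)) (XT.lf (nat_lit 0) (nat_lit 964117103) (nat_lit 912) (nat_lit 6089258923) (nat_lit 76) (nat_lit 1560045284) (nat_lit 330) (nat_lit 5) (nat_lit 342) (nat_lit 5) (nat_lit 331) (nat_lit 5) (nat_lit 433) (nat_lit 388) (nat_lit 319)))) (XT.nd (nat_lit 78) (nat_lit 1596) (nat_lit 0) (XT.lf (nat_lit 0) (nat_lit 3139925187) (nat_lit 912) (nat_lit 954906144) (nat_lit 76) (nat_lit 4596922756) (nat_lit 330) (nat_lit 5) (nat_lit 342) (nat_lit 5) (nat_lit 331) (nat_lit 5) (nat_lit 434) (nat_lit 388) (nat_lit 318)) (XT.nd (nat_lit 78) (nat_lit 760) (nat_lit 0) (XT.lf (nat_lit 0) (nat_lit 4305440712) (nat_lit 836) (nat_lit 1050104038) (nat_lit 912) (nat_lit 3416196278) (nat_lit 319) (nat_lit 5) (nat_lit 330) (nat_lit 5) (nat_lit 331) (nat_lit 5) (nat_lit 435) (nat_lit 388) (nat_lit 317)) (XT.lf (nat_lit 0) (nat_lit 794198124) (nat_lit 760) (nat_lit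 6814968631) (nat_lit 836) (nat_lit 1244300303) (nat_lit 309) (nat_lit 5) (nat_lit 319) (nat_lit 5) (nat_lit 320) (nat_lit 5) (nat_lit 436) (nat_lit 388) (nat_lit 316))))))))
noncomputable def xc118 : XT := (XT.nd (nat_lit 1638) (nat_lit 6156) (nat_lit 0) (XT.nd (nat_lit 780) (nat_lit 3648) (nat_lit 0) (XT.nd (nat_lit 390) (nat_lit 2052) (nat_lit 0) (XT.nd (nat_lit 156) (nat_lit 1520) (nat_lit 0) (XT.nd (nat_lit 78) (nat_lit 760) (nat_lit 0) (XT.lf (nat_lit 0) (nat_lit 964339138) (nat_lit 836) (nat_lit 2763010723) (nat_lit 76) (nat_lit 5209243481) (nat_lit 308) (nat_lit 5) (nat_lit 319) (nat_lit 5) (nat_lit 309) (nat_lit 5) (nat_lit 437) (nat_lit 388) (nat_lit 315)) (XT.lf (nat_lit 0) (nat_lit 2632344613) (nat_lit 760) (nat_lit 554778335) (nat_lit 836) (nat_lit 5834374445) (nat_lit 298) (nat_lit 5) (nat_lit 308) (nat_lit 5) (nat_lit 309) (nat_lit 5) (nat_lit 438) (nat_lit 388) (nat_lit 314))) (XT.nd (nat_lit 78) (nat_lit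 1520) (nat_lit 0) (XT.lf (nat_lit 0) (nat_lit 5460326913) (nat_lit 836) (nat_lit 985688731) (nat_lit 76) (nat_lit 2661976741) (nat_lit 298) (nat_lit 5) (nat_lit 309) (nat_lit 5) (nat_lit 299) (nat_lit 5) (nat_lit 439) (nat_lit 388) (nat_lit 313)) (XT.nd (nat_lit 78) (nat_lit 836) (nat_lit 0) (XT.lf (nat_lit 0) (nat_lit 4548998942) (nat_lit 684) (nat_lit 3233687529) (nat_lit 760) (nat_lit 1413468889) (nat_lit 289) (nat_lit 5) (nat_lit 298) (nat_lit 5) (nat_lit 299) (nat_lit 5) (nat_lit 440) (nat_lit 388) (nat_lit 312)) (XT.lf (nat_lit 0) (nat_lit 837549087) (nat_lit 836) (nat_lit 8391845192) (nat_lit 76) (nat_lit 56916637) (nat_lit 278) (nat_lit 5) (nat_lit 289) (nat_lit 5) (nat_lit 279) (nat_lit 5) (nat_lit 441) (nat_lit 388) (nat_lit 311))))) (XT.nd (nat_lit 156) (nat_lit 1368) (nat_lit 0) (XT.nd (nat_lit 78) (nat_lit 684) (nat_lit 0) (XT.lf (nat_lit 0) (nat_lit 3138468005) (nat_lit 836) (nat_lit 2832081793) (nat_lit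 76) (nat_lit 3407068013) (nat_lit 278) (nat_lit 5) (nat_lit 289) (nat_lit 5) (nat_lit 279) (nat_lit 5) (nat_lit 442) (nat_lit 388) (nat_lit 310)) (XT.lf (nat_lit 0) (nat_lit 2843456322) (nat_lit 684) (nat_lit 2631962251) (nat_lit 760) (nat_lit 3995543010) (nat_lit 269) (nat_lit 5) (nat_lit 278) (nat_lit 5) (nat_lit 279) (nat_lit 5) (nat_lit 443) (nat_lit 388) (nat_lit 309))) (XT.nd (nat_lit 78) (nat_lit 1368) (nat_lit 0) (XT.lf (nat_lit 0) (nat_lit 7855130114) (nat_lit 760) (nat_lit 933086638) (nat_lit 76) (nat_lit 778045826) (nat_lit 269) (nat_lit 5) (nat_lit 279) (nat_lit 5) (nat_lit 270) (nat_lit 5) (nat_lit 444) (nat_lit 388) (nat_lit 308)) (XT.nd (nat_lit 78) (nat_lit 608) (nat_lit 0) (XT.lf (nat_lit 0) (nat_lit 632578775) (nat_lit 760) (nat_lit 4777686973) (nat_lit 76) (nat_lit 4252699235) (nat_lit 259) (nat_lit 5) (nat_lit 269) (nat_lit 5) (nat_lit 260) (nat_lit 5) (nat_lit 445) (nat_lit 388) (nat_lit 307)) (XT.lf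 (nat_lit 0) (nat_lit 1040904315) (nat_lit 608) (nat_lit 1944993135) (nat_lit 684) (nat_lit 6775775036) (nat_lit 251) (nat_lit 5) (nat_lit 259) (nat_lit 5) (nat_lit 260) (nat_lit 5) (nat_lit 446) (nat_lit 388) (nat_lit 306)))))) (XT.nd (nat_lit 390) (nat_lit 1748) (nat_lit 0) (XT.nd (nat_lit 156) (nat_lit 1292) (nat_lit 0) (XT.nd (nat_lit 78) (nat_lit 608) (nat_lit 0) (XT.lf (nat_lit 0) (nat_lit 5401732935) (nat_lit 684) (nat_lit 2864475496) (nat_lit 76) (nat_lit 1595846667) (nat_lit 251) (nat_lit 5) (nat_lit 260) (nat_lit 5) (nat_lit 252) (nat_lit 5) (nat_lit 447) (nat_lit 388) (nat_lit 305)) (XT.lf (nat_lit 0) (nat_lit 3104563661) (nat_lit 608) (nat_lit 4767748001) (nat_lit 684) (nat_lit 2092014940) (nat_lit 243) (nat_lit 5) (nat_lit 251) (nat_lit 5) (nat_lit 252) (nat_lit 5) (nat_lit 448) (nat_lit 388) (nat_lit 304))) (XT.nd (nat_lit 78) (nat_lit 1216) (nat_lit 0) (XT.lf (nat_lit 0) (nat_lit 312282315) (nat_lit 684)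 (nat_lit 871040374) (nat_lit 76) (nat_lit 8885430839) (nat_lit 242) (nat_lit 5) (nat_lit 251) (nat_lit 5) (nat_lit 243) (nat_lit 5) (nat_lit 449) (nat_lit 388) (nat_lit 303)) (XT.nd (nat_lit 78) (nat_lit 608) (nat_lit 0) (XT.lf (nat_lit 0) (nat_lit 2761210695) (nat_lit 684) (nat_lit 4930303505) (nat_lit 76) (nat_lit 2482996290) (nat_lit 234) (nat_lit 5) (nat_lit 243) (nat_lit 5) (nat_lit 235) (nat_lit 5) (nat_lit 450) (nat_lit 388) (nat_lit 302)) (XT.lf (nat_lit 0) (nat_lit 1186987422) (nat_lit 608) (nat_lit 4067862185) (nat_lit 684) (nat_lit 5027627373) (nat_lit 226) (nat_lit 5) (nat_lit 234) (nat_lit 5) (nat_lit 235) (nat_lit 5) (nat_lit 451) (nat_lit 388) (nat_lit 301))))) (XT.nd (nat_lit 234) (nat_lit 1140) (nat_lit 0) (XT.nd (nat_lit 78) (nat_lit 608) (nat_lit 0) (XT.lf (nat_lit 0) (nat_lit 7461660662) (nat_lit 608) (nat_lit 344387793) (nat_lit 684) (nat_lit 2586409453) (nat_lit 226) (nat_lit 5) (nat_lit 234) (nat_lit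 5) (nat_lit 235) (nat_lit 5) (nat_lit 452) (nat_lit 388) (nat_lit 300)) (XT.nd (nat_lit 78) (nat_lit 76) (nat_lit 0) (XT.lf (nat_lit 0) (nat_lit 3347025387) (nat_lit 532) (nat_lit 7080459278) (nat_lit 608) (nat_lit 76778199) (nat_lit 219) (nat_lit 5) (nat_lit 226) (nat_lit 5) (nat_lit 227) (nat_lit 5) (nat_lit 453) (nat_lit 388) (nat_lit 299)) (XT.lf (nat_lit 0) (nat_lit 2447731033) (nat_lit 608) (nat_lit 878078639) (nat_lit 76) (nat_lit 7292235136) (nat_lit 218) (nat_lit 5) (nat_lit 226) (nat_lit 5) (nat_lit 219) (nat_lit 5) (nat_lit 454) (nat_lit 388) (nat_lit 298)))) (XT.nd (nat_lit 78) (nat_lit 532) (nat_lit 0) (XT.lf (nat_lit 0) (nat_lit 5036984801) (nat_lit 684) (nat_lit 5169298777) (nat_lit 76) (nat_lit 527511193) (nat_lit 210) (nat_lit 5) (nat_lit 219) (nat_lit 5) (nat_lit 211) (nat_lit 5) (nat_lit 455) (nat_lit 388) (nat_lit 297)) (XT.nd (nat_lit 78) (nat_lit 0) (nat_lit 0) (XT.lf (nat_lit 0) (nat_lit 1259147939)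 (nat_lit 532) (nat_lit 6430898886) (nat_lit 608) (nat_lit 3161580460) (nat_lit 203) (nat_lit 5) (nat_lit 210) (nat_lit 5) (nat_lit 211) (nat_lit 5) (nat_lit 456) (nat_lit 388) (nat_lit 296)) (XT.lf (nat_lit 0) (nat_lit 7855056689) (nat_lit 532) (nat_lit 2551963743) (nat_lit 608) (nat_lit 564586869) (nat_lit 203) (nat_lit 5) (nat_lit 210) (nat_lit 5) (nat_lit 211) (nat_lit 5) (nat_lit 457) (nat_lit 388) (nat_lit 295))))))) (XT.nd (nat_lit 858) (nat_lit 2584) (nat_lit 0) (XT.nd (nat_lit 390) (nat_lit 1900) (nat_lit 0) (XT.nd (nat_lit 156) (nat_lit 1064) (nat_lit 0) (XT.nd (nat_lit 78) (nat_lit 0) (nat_lit 0) (XT.lf (nat_lit 0) (nat_lit 2065448930) (nat_lit 608) (nat_lit 7612800536) (nat_lit 76) (nat_lit 1415305569) (nat_lit 195) (nat_lit 5) (nat_lit 203) (nat_lit 5) (nat_lit 196) (nat_lit 5) (nat_lit 458) (nat_lit 388) (nat_lit 294)) (XT.lf (nat_lit 0) (nat_lit 4755166069) (nat_lit 608) (nat_lit 1017158546) (nat_lit 76)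 (nat_lit 5445257068) (nat_lit 195) (nat_lit 5) (nat_lit 203) (nat_lit 5) (nat_lit 196) (nat_lit 5) (nat_lit 459) (nat_lit 388) (nat_lit 293))) (XT.nd (nat_lit 78) (nat_lit 608) (nat_lit 0) (XT.lf (nat_lit 0) (nat_lit 5755380541) (nat_lit 456) (nat_lit 1757802754) (nat_lit 532) (nat_lit 3830622714) (nat_lit 189) (nat_lit 5) (nat_lit 195) (nat_lit 5) (nat_lit 196) (nat_lit 5) (nat_lit 460) (nat_lit 388) (nat_lit 292)) (XT.nd (nat_lit 78) (nat_lit 76) (nat_lit 0) (XT.lf (nat_lit 0) (nat_lit 1174214002) (nat_lit 532) (nat_lit 9159154573) (nat_lit 608) (nat_lit 1139053211) (nat_lit 182) (nat_lit 5) (nat_lit 189) (nat_lit 5) (nat_lit 190) (nat_lit 5) (nat_lit 461) (nat_lit 388) (nat_lit 291)) (XT.lf (nat_lit 0) (nat_lit 1612101429) (nat_lit 608) (nat_lit 3508132033) (nat_lit 76) (nat_lit 6482638243) (nat_lit 181) (nat_lit 5) (nat_lit 189) (nat_lit 5) (nat_lit 182) (nat_lit 5) (nat_lit 462) (nat_lit 388) (nat_lit 290))))) (XT.nd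 (nat_lit 234) (nat_lit 988) (nat_lit 0) (XT.nd (nat_lit 78) (nat_lit 456) (nat_lit 0) (XT.lf (nat_lit 0) (nat_lit 3424912216) (nat_lit 456) (nat_lit 978239198) (nat_lit 532) (nat_lit 7332632849) (nat_lit 175) (nat_lit 5) (nat_lit 181) (nat_lit 5) (nat_lit 182) (nat_lit 5) (nat_lit 463) (nat_lit 388) (nat_lit 289)) (XT.nd (nat_lit 78) (nat_lit 456) (nat_lit 0) (XT.lf (nat_lit 0) (nat_lit 7272858172) (nat_lit 532) (nat_lit 1378349016) (nat_lit 76) (nat_lit 3219697746) (nat_lit 175) (nat_lit 5) (nat_lit 182) (nat_lit 5) (nat_lit 176) (nat_lit 5) (nat_lit 464) (nat_lit 388) (nat_lit 288)) (XT.lf (nat_lit 0) (nat_lit 5731713797) (nat_lit 456) (nat_lit 4490427376) (nat_lit 532) (nat_lit 1786149650) (nat_lit 169) (nat_lit 5) (nat_lit 175) (nat_lit 5) (nat_lit 176) (nat_lit 5) (nat_lit 465) (nat_lit 388) (nat_lit 287)))) (XT.nd (nat_lit 78) (nat_lit 456) (nat_lit 0) (XT.lf (nat_lit 0) (nat_lit 828299777) (nat_lit 456) (nat_lit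 232755744) (nat_lit 532) (nat_lit 11087369397) (nat_lit 162) (nat_lit 5) (nat_lit 168) (nat_lit 5) (nat_lit 169) (nat_lit 5) (nat_lit 466) (nat_lit 388) (nat_lit 286)) (XT.nd (nat_lit 78) (nat_lit 456) (nat_lit 0) (XT.lf (nat_lit 0) (nat_lit 3989138060) (nat_lit 532) (nat_lit 4199035366) (nat_lit 76) (nat_lit 4102001218) (nat_lit 162) (nat_lit 5) (nat_lit 169) (nat_lit 5) (nat_lit 163) (nat_lit 5) (nat_lit 467) (nat_lit 388) (nat_lit 285)) (XT.lf (nat_lit 0) (nat_lit 3073759657) (nat_lit 456) (nat_lit 3902681772) (nat_lit 532) (nat_lit 5458310708) (nat_lit 156) (nat_lit 5) (nat_lit 162) (nat_lit 5) (nat_lit 163) (nat_lit 5) (nat_lit 468) (nat_lit 388) (nat_lit 284)))))) (XT.nd (nat_lit 390) (nat_lit 1292) (nat_lit 0) (XT.nd (nat_lit 156) (nat_lit 836) (nat_lit 0) (XT.nd (nat_lit 78) (nat_lit 456) (nat_lit 0) (XT.lf (nat_lit 0) (nat_lit 10034220119) (nat_lit 532) (nat_lit 2065612534) (nat_lit 76) (nat_lit 482179782) (nat_lit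 156) (nat_lit 5) (nat_lit 163) (nat_lit 5) (nat_lit 157) (nat_lit 5) (nat_lit 469) (nat_lit 388) (nat_lit 283)) (XT.lf (nat_lit 0) (nat_lit 456257810) (nat_lit 456) (nat_lit 7342948794) (nat_lit 76) (nat_lit 4932145447) (nat_lit 150) (nat_lit 5) (nat_lit 156) (nat_lit 5) (nat_lit 151) (nat_lit 5) (nat_lit 470) (nat_lit 388) (nat_lit 282))) (XT.nd (nat_lit 78) (nat_lit 380) (nat_lit 0) (XT.lf (nat_lit 0) (nat_lit 91172046) (nat_lit 456) (nat_lit 3389478892) (nat_lit 532) (nat_lit 9402808667) (nat_lit 144) (nat_lit 5) (nat_lit 150) (nat_lit 5) (nat_lit 151) (nat_lit 5) (nat_lit 471) (nat_lit 388) (nat_lit 281)) (XT.nd (nat_lit 78) (nat_lit 380) (nat_lit 0) (XT.lf (nat_lit 0) (nat_lit 6602279767) (nat_lit 532) (nat_lit 5300948280) (nat_lit 76) (nat_lit 1134651702) (nat_lit 144) (nat_lit 5) (nat_lit 151) (nat_lit 5) (nat_lit 145) (nat_lit 5) (nat_lit 472) (nat_lit 388) (nat_lit 280)) (XT.lf (nat_lit 0) (nat_lit 2319453400)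 (nat_lit 380) (nat_lit 7484736934) (nat_lit 456) (nat_lit 3390846266) (nat_lit 139) (nat_lit 5) (nat_lit 144) (nat_lit 5) (nat_lit 145) (nat_lit 5) (nat_lit 473) (nat_lit 388) (nat_lit 279))))) (XT.nd (nat_lit 234) (nat_lit 836) (nat_lit 0) (XT.nd (nat_lit 78) (nat_lit 456) (nat_lit 0) (XT.lf (nat_lit 0) (nat_lit 10135570375) (nat_lit 380) (nat_lit 2950683825) (nat_lit 456) (nat_lit 268765273) (nat_lit 139) (nat_lit 5) (nat_lit 144) (nat_lit 5) (nat_lit 145) (nat_lit 5) (nat_lit 474) (nat_lit 388) (nat_lit 278)) (XT.nd (nat_lit 78) (nat_lit 0) (nat_lit 0) (XT.lf (nat_lit 0) (nat_lit 2899329092) (nat_lit 456) (nat_lit 8925751583) (nat_lit 76) (nat_lit 1692311443) (nat_lit 133) (nat_lit 5) (nat_lit 139) (nat_lit 5) (nat_lit 134) (nat_lit 5) (nat_lit 475) (nat_lit 388) (nat_lit 277)) (XT.lf (nat_lit 0) (nat_lit 6149406904) (nat_lit 456) (nat_lit 1129841092) (nat_lit 76) (nat_lit 6403289169) (nat_lit 133) (nat_lit 5) (nat_lit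 139) (nat_lit 5) (nat_lit 134) (nat_lit 5) (nat_lit 476) (nat_lit 388) (nat_lit 276)))) (XT.nd (nat_lit 78) (nat_lit 456) (nat_lit 0) (XT.lf (nat_lit 0) (nat_lit 6884445531) (nat_lit 380) (nat_lit 2606041812) (nat_lit 456) (nat_lit 4359982539) (nat_lit 128) (nat_lit 5) (nat_lit 133) (nat_lit 5) (nat_lit 134) (nat_lit 5) (nat_lit 477) (nat_lit 388) (nat_lit 275)) (XT.nd (nat_lit 78) (nat_lit 76) (nat_lit 0) (XT.lf (nat_lit 0) (nat_lit 1024111254) (nat_lit 380) (nat_lit 11884018057) (nat_lit 456) (nat_lit 1113441840) (nat_lit 123) (nat_lit 5) (nat_lit 128) (nat_lit 5) (nat_lit 129) (nat_lit 5) (nat_lit 478) (nat_lit 388) (nat_lit 274)) (XT.lf (nat_lit 0) (nat_lit 2215003805) (nat_lit 456) (nat_lit 4986554679) (nat_lit 76) (nat_lit 6993339021) (nat_lit 122) (nat_lit 5) (nat_lit 128) (nat_lit 5) (nat_lit 123) (nat_lit 5) (nat_lit 479) (nat_lit 388) (nat_lit 273))))))))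
noncomputable def xc119 : XT := (XT.nd (nat_lit 1638) (nat_lit 456) (nat_lit 0) (XT.nd (nat_lit 780) (nat_lit 1900) (nat_lit 0) (XT.nd (nat_lit 390) (nat_lit 988) (nat_lit 0) (XT.nd (nat_lit 156) (nat_lit 760) (nat_lit 0) (XT.nd (nat_lit 78) (nat_lit 0) (nat_lit 0) (XT.lf (nat_lit 0) (nat_lit 3191570705) (nat_lit 304) (nat_lit 2406125253) (nat_lit 380) (nat_lit 8773799924) (nat_lit 118) (nat_lit 5) (nat_lit 122) (nat_lit 5) (nat_lit 123) (nat_lit 5) (nat_lit 480) (nat_lit 388) (nat_lit 272)) (XT.lf (nat_lit 0) (nat_lit 9079830519) (nat_lit 380) (nat_lit 2994066138) (nat_lit 76) (nat_lit 2477098139) (nat_lit 118) (nat_lit 5) (nat_lit 123) (nat_lit 5) (nat_lit 119) (nat_lit 5) (nat_lit 481) (nat_lit 388) (nat_lit 271))) (XT.nd (nat_lit 78) (nat_lit 380) (nat_lit 0) (XT.lf (nat_lit 0) (nat_lit 5383112696) (nat_lit 380) (nat_lit 7281702844) (nat_lit 456) (nat_lit 2068608246) (nat_lit 113) (nat_lit 5) (nat_lit 118) (nat_lit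 5) (nat_lit 119) (nat_lit 5) (nat_lit 482) (nat_lit 388) (nat_lit 270)) (XT.nd (nat_lit 78) (nat_lit 304) (nat_lit 0) (XT.lf (nat_lit 0) (nat_lit 1386210700) (nat_lit 456) (nat_lit 987038371) (nat_lit 76) (nat_lit 12546022334) (nat_lit 112) (nat_lit 5) (nat_lit 118) (nat_lit 5) (nat_lit 113) (nat_lit 5) (nat_lit 483) (nat_lit 388) (nat_lit 269)) (XT.lf (nat_lit 0) (nat_lit 4931991295) (nat_lit 380) (nat_lit 7522456724) (nat_lit 76) (nat_lit 2653127217) (nat_lit 108) (nat_lit 5) (nat_lit 113) (nat_lit 5) (nat_lit 109) (nat_lit 5) (nat_lit 484) (nat_lit 388) (nat_lit 268))))) (XT.nd (nat_lit 156) (nat_lit 684) (nat_lit 0) (XT.nd (nat_lit 78) (nat_lit 0) (nat_lit 0) (XT.lf (nat_lit 0) (nat_lit 1013413234) (nat_lit 304) (nat_lit 7547065253) (nat_lit 380) (nat_lit 6738934766) (nat_lit 104) (nat_lit 5) (nat_lit 108) (nat_lit 5) (nat_lit 109) (nat_lit 5) (nat_lit 485) (nat_lit 388) (nat_lit 267)) (XT.lf (nat_lit 0) (nat_lit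 9795442604) (nat_lit 304) (nat_lit 2499563901) (nat_lit 380) (nat_lit 3199415956) (nat_lit 104) (nat_lit 5) (nat_lit 108) (nat_lit 5) (nat_lit 109) (nat_lit 5) (nat_lit 486) (nat_lit 388) (nat_lit 266))) (XT.nd (nat_lit 78) (nat_lit 304) (nat_lit 0) (XT.lf (nat_lit 0) (nat_lit 425941804) (nat_lit 380) (nat_lit 12639347772) (nat_lit 76) (nat_lit 2627583876) (nat_lit 99) (nat_lit 5) (nat_lit 104) (nat_lit 5) (nat_lit 100) (nat_lit 5) (nat_lit 487) (nat_lit 388) (nat_lit 265)) (XT.nd (nat_lit 78) (nat_lit 304) (nat_lit 0) (XT.lf (nat_lit 0) (nat_lit 4119365948) (nat_lit 380) (nat_lit 3900526897) (nat_lit 76) (nat_lit 7874213296) (nat_lit 99) (nat_lit 5) (nat_lit 104) (nat_lit 5) (nat_lit 100) (nat_lit 5) (nat_lit 488) (nat_lit 388) (nat_lit 264)) (XT.lf (nat_lit 0) (nat_lit 5053528780) (nat_lit 304) (nat_lit 2849577459) (nat_lit 380) (nat_lit 8195931852) (nat_lit 95) (nat_lit 5) (nat_lit 99) (nat_lit 5) (nat_lit 100) (nat_lit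 5) (nat_lit 489) (nat_lit 388) (nat_lit 263)))))) (XT.nd (nat_lit 390) (nat_lit 988) (nat_lit 0) (XT.nd (nat_lit 156) (nat_lit 608) (nat_lit 0) (XT.nd (nat_lit 78) (nat_lit 304) (nat_lit 0) (XT.lf (nat_lit 0) (nat_lit 11788338239) (nat_lit 380) (nat_lit 2109835501) (nat_lit 76) (nat_lit 2409382091) (nat_lit 95) (nat_lit 5) (nat_lit 100) (nat_lit 5) (nat_lit 96) (nat_lit 5) (nat_lit 490) (nat_lit 388) (nat_lit 262)) (XT.lf (nat_lit 0) (nat_lit 7052770868) (nat_lit 304) (nat_lit 8747215494) (nat_lit 380) (nat_lit 719286756) (nat_lit 91) (nat_lit 5) (nat_lit 95) (nat_lit 5) (nat_lit 96) (nat_lit 5) (nat_lit 491) (nat_lit 388) (nat_lit 261))) (XT.nd (nat_lit 78) (nat_lit 532) (nat_lit 0) (XT.lf (nat_lit 0) (nat_lit 3113584398) (nat_lit 380) (nat_lit 353757100) (nat_lit 76) (nat_lit 13267509808) (nat_lit 90) (nat_lit 5) (nat_lit 95) (nat_lit 5) (nat_lit 91) (nat_lit 5) (nat_lit 492) (nat_lit 388) (nat_lit 260)) (XT.nd (nat_lit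 78) (nat_lit 228) (nat_lit 0) (XT.lf (nat_lit 0) (nat_lit 7069333733) (nat_lit 380) (nat_lit 7936648662) (nat_lit 76) (nat_lit 1947549755) (nat_lit 86) (nat_lit 5) (nat_lit 91) (nat_lit 5) (nat_lit 87) (nat_lit 5) (nat_lit 493) (nat_lit 388) (nat_lit 259)) (XT.lf (nat_lit 0) (nat_lit 1373180535) (nat_lit 228) (nat_lit 9749771246) (nat_lit 304) (nat_lit 6053262918) (nat_lit 83) (nat_lit 5) (nat_lit 86) (nat_lit 5) (nat_lit 87) (nat_lit 5) (nat_lit 494) (nat_lit 388) (nat_lit 258))))) (XT.nd (nat_lit 234) (nat_lit 608) (nat_lit 0) (XT.nd (nat_lit 78) (nat_lit 380) (nat_lit 0) (XT.lf (nat_lit 0) (nat_lit 10951910688) (nat_lit 228) (nat_lit 4343619241) (nat_lit 304) (nat_lit 2107066313) (nat_lit 83) (nat_lit 5) (nat_lit 86) (nat_lit 5) (nat_lit 87) (nat_lit 5) (nat_lit 495) (nat_lit 388) (nat_lit 257)) (XT.nd (nat_lit 78) (nat_lit 0) (nat_lit 0) (XT.lf (nat_lit 0) (nat_lit 1905557485) (nat_lit 380) (nat_lit 14548700244)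 (nat_lit 76) (nat_lit 1178748422) (nat_lit 78) (nat_lit 5) (nat_lit 83) (nat_lit 5) (nat_lit 79) (nat_lit 5) (nat_lit 496) (nat_lit 388) (nat_lit 256)) (XT.lf (nat_lit 0) (nat_lit 6027491454) (nat_lit 380) (nat_lit 5037403547) (nat_lit 76) (nat_lit 6801708196) (nat_lit 78) (nat_lit 5) (nat_lit 83) (nat_lit 5) (nat_lit 79) (nat_lit 5) (nat_lit 497) (nat_lit 388) (nat_lit 255)))) (XT.nd (nat_lit 78) (nat_lit 380) (nat_lit 0) (XT.lf (nat_lit 0) (nat_lit 4701588580) (nat_lit 228) (nat_lit 5546002412) (nat_lit 304) (nat_lit 7856969518) (nat_lit 75) (nat_lit 5) (nat_lit 78) (nat_lit 5) (nat_lit 79) (nat_lit 5) (nat_lit 498) (nat_lit 388) (nat_lit 254)) (XT.nd (nat_lit 78) (nat_lit 380) (nat_lit 0) (XT.lf (nat_lit 0) (nat_lit 14571935013) (nat_lit 304) (nat_lit 3667990305) (nat_lit 76) (nat_lit 106957607) (nat_lit 75) (nat_lit 5) (nat_lit 79) (nat_lit 5) (nat_lit 76) (nat_lit 5) (nat_lit 499) (nat_lit 388) (nat_lit 253)) (XT.lf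 (nat_lit 0) (nat_lit 447119921) (nat_lit 380) (nat_lit 12312154542) (nat_lit 76) (nat_lit 5833459470) (nat_lit 70) (nat_lit 5) (nat_lit 75) (nat_lit 5) (nat_lit 71) (nat_lit 5) (nat_lit 500) (nat_lit 388) (nat_lit 252))))))) (XT.nd (nat_lit 51168) (nat_lit 0) (nat_lit 40204) (XT.nd (nat_lit 50700) (nat_lit 0) (nat_lit 42788) (XT.nd (nat_lit 156) (nat_lit 228) (nat_lit 0) (XT.nd (nat_lit 78) (nat_lit 228) (nat_lit 0) (XT.lf (nat_lit 0) (nat_lit 4713502267) (nat_lit 380) (nat_lit 2414161763) (nat_lit 76) (nat_lit 11715133135) (nat_lit 70) (nat_lit 5) (nat_lit 75) (nat_lit 5) (nat_lit 71) (nat_lit 5) (nat_lit 501) (nat_lit 388) (nat_lit 251)) (XT.lf (nat_lit 0) (nat_lit 7760204130) (nat_lit 228) (nat_lit 1341270271) (nat_lit 304) (nat_lit 9995664610) (nat_lit 67) (nat_lit 5) (nat_lit 70) (nat_lit 5) (nat_lit 71) (nat_lit 5) (nat_lit 502) (nat_lit 388) (nat_lit 250))) (XT.nd (nat_lit 78) (nat_lit 228) (nat_lit 0) (XT.lf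 (nat_lit 0) (nat_lit 13609069777) (nat_lit 304) (nat_lit 1238613259) (nat_lit 76) (nat_lit 4508249924) (nat_lit 67) (nat_lit 5) (nat_lit 71) (nat_lit 5) (nat_lit 68) (nat_lit 5) (nat_lit 503) (nat_lit 388) (nat_lit 249)) (XT.nd (nat_lit 50388) (nat_lit 0) (nat_lit 44232) (XT.lf (nat_lit 0) (nat_lit 9149821062) (nat_lit 228) (nat_lit 9111505039) (nat_lit 304) (nat_lit 1357488997) (nat_lit 64) (nat_lit 5) (nat_lit 67) (nat_lit 5) (nat_lit 68) (nat_lit 5) (nat_lit 504) (nat_lit 388) (nat_lit 248)) (XT.lf (nat_lit 0) (nat_lit 1673464764) (nat_lit 684) (nat_lit 812961616) (nat_lit 684) (nat_lit 812961616) (nat_lit 646) (nat_lit 3) (nat_lit 655) (nat_lit 3) (nat_lit 655) (nat_lit 5) (nat_lit 389) (nat_lit 389) (nat_lit 362))))) (XT.nd (nat_lit 234) (nat_lit 760) (nat_lit 0) (XT.nd (nat_lit 78) (nat_lit 684) (nat_lit 0) (XT.lf (nat_lit 76) (nat_lit 1557100620) (nat_lit 0) (nat_lit 4143068681) (nat_lit 684) (nat_lit 916648826)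 (nat_lit 647) (nat_lit 5) (nat_lit 646) (nat_lit 3) (nat_lit 655) (nat_lit 5) (nat_lit 390) (nat_lit 389) (nat_lit 361)) (XT.nd (nat_lit 78) (nat_lit 0) (nat_lit 0) (XT.lf (nat_lit 0) (nat_lit 1395789441) (nat_lit 684) (nat_lit 1850946002) (nat_lit 760) (nat_lit 3389340185) (nat_lit 637) (nat_lit 5) (nat_lit 646) (nat_lit 3) (nat_lit 647) (nat_lit 5) (nat_lit 391) (nat_lit 389) (nat_lit 360)) (XT.lf (nat_lit 76) (nat_lit 1402776875) (nat_lit 0) (nat_lit 2288516148) (nat_lit 760) (nat_lit 2965361347) (nat_lit 638) (nat_lit 5) (nat_lit 637) (nat_lit 5) (nat_lit 647) (nat_lit 5) (nat_lit 392) (nat_lit 389) (nat_lit 359)))) (XT.nd (nat_lit 78) (nat_lit 760) (nat_lit 0) (XT.lf (nat_lit 76) (nat_lit 4715320636) (nat_lit 0) (nat_lit 1270751641) (nat_lit 760) (nat_lit 692543416) (nat_lit 638) (nat_lit 5) (nat_lit 637) (nat_lit 5) (nat_lit 647) (nat_lit 5) (nat_lit 393) (nat_lit 389) (nat_lit 358)) (XT.nd (nat_lit 78) (nat_lit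 0) (nat_lit 76) (XT.lf (nat_lit 76) (nat_lit 1368956927) (nat_lit 0) (nat_lit 186022592) (nat_lit 836) (nat_lit 5146851039) (nat_lit 628) (nat_lit 5) (nat_lit 627) (nat_lit 5) (nat_lit 638) (nat_lit 5) (nat_lit 394) (nat_lit 389) (nat_lit 357)) (XT.lf (nat_lit 0) (nat_lit 3800217643) (nat_lit 760) (nat_lit 1974114925) (nat_lit 836) (nat_lit 951880947) (nat_lit 628) (nat_lit 5) (nat_lit 638) (nat_lit 5) (nat_lit 639) (nat_lit 5) (nat_lit 395) (nat_lit 389) (nat_lit 356)))))) (XT.nd (nat_lit 390) (nat_lit 988) (nat_lit 0) (XT.nd (nat_lit 156) (nat_lit 836) (nat_lit 0) (XT.nd (nat_lit 78) (nat_lit 836) (nat_lit 0) (XT.lf (nat_lit 76) (nat_lit 1437393448) (nat_lit 0) (nat_lit 4607444637) (nat_lit 836) (nat_lit 707191894) (nat_lit 629) (nat_lit 5) (nat_lit 628) (nat_lit 5) (nat_lit 639) (nat_lit 5) (nat_lit 396) (nat_lit 389) (nat_lit 355)) (XT.lf (nat_lit 0) (nat_lit 1493322567) (nat_lit 836) (nat_lit 1877003682) (nat_lit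 912) (nat_lit 3408713670) (nat_lit 617) (nat_lit 5) (nat_lit 628) (nat_lit 5) (nat_lit 629) (nat_lit 5) (nat_lit 397) (nat_lit 389) (nat_lit 354))) (XT.nd (nat_lit 78) (nat_lit 836) (nat_lit 0) (XT.lf (nat_lit 76) (nat_lit 1613897088) (nat_lit 0) (nat_lit 2070464731) (nat_lit 912) (nat_lit 3123048429) (nat_lit 618) (nat_lit 5) (nat_lit 617) (nat_lit 5) (nat_lit 629) (nat_lit 5) (nat_lit 398) (nat_lit 389) (nat_lit 353)) (XT.nd (nat_lit 78) (nat_lit 836) (nat_lit 0) (XT.lf (nat_lit 76) (nat_lit 5168301573) (nat_lit 0) (nat_lit 709874931) (nat_lit 912) (nat_lit 959025090) (nat_lit 618) (nat_lit 5) (nat_lit 617) (nat_lit 5) (nat_lit 629) (nat_lit 5) (nat_lit 399) (nat_lit 389) (nat_lit 352)) (XT.lf (nat_lit 0) (nat_lit 1196021953) (nat_lit 912) (nat_lit 4961646208) (nat_lit 988) (nat_lit 710507654) (nat_lit 606) (nat_lit 5) (nat_lit 618) (nat_lit 5) (nat_lit 619) (nat_lit 5) (nat_lit 400) (nat_lit 389) (nat_lit 351)))))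 (XT.nd (nat_lit 234) (nat_lit 0) (nat_lit 76) (XT.nd (nat_lit 78) (nat_lit 988) (nat_lit 0) (XT.lf (nat_lit 0) (nat_lit 3345311942) (nat_lit 912) (nat_lit 1367448870) (nat_lit 988) (nat_lit 2187633074) (nat_lit 606) (nat_lit 5) (nat_lit 618) (nat_lit 5) (nat_lit 619) (nat_lit 5) (nat_lit 401) (nat_lit 389) (nat_lit 350)) (XT.nd (nat_lit 78) (nat_lit 988) (nat_lit 0) (XT.lf (nat_lit 76) (nat_lit 2296529203) (nat_lit 0) (nat_lit 3204985615) (nat_lit 988) (nat_lit 1432493174) (nat_lit 607) (nat_lit 5) (nat_lit 606) (nat_lit 5) (nat_lit 619) (nat_lit 5) (nat_lit 402) (nat_lit 389) (nat_lit 349)) (XT.lf (nat_lit 0) (nat_lit 681623662) (nat_lit 988) (nat_lit 953316320) (nat_lit 1064) (nat_lit 5334114638) (nat_lit 593) (nat_lit 5) (nat_lit 606) (nat_lit 5) (nat_lit 607) (nat_lit 5) (nat_lit 403) (nat_lit 389) (nat_lit 348)))) (XT.nd (nat_lit 78) (nat_lit 0) (nat_lit 0) (XT.lf (nat_lit 0) (nat_lit 2787554399) (nat_lit 988) (nat_lit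 4205656861) (nat_lit 1064) (nat_lit 12055762) (nat_lit 594) (nat_lit 5) (nat_lit 607) (nat_lit 5) (nat_lit 608) (nat_lit 5) (nat_lit 404) (nat_lit 389) (nat_lit 347)) (XT.nd (nat_lit 78) (nat_lit 0) (nat_lit 0) (XT.lf (nat_lit 0) (nat_lit 4904183666) (nat_lit 988) (nat_lit 445400802) (nat_lit 1064) (nat_lit 1693275517) (nat_lit 594) (nat_lit 5) (nat_lit 607) (nat_lit 5) (nat_lit 608) (nat_lit 5) (nat_lit 405) (nat_lit 389) (nat_lit 346)) (XT.lf (nat_lit 76) (nat_lit 3402356504) (nat_lit 0) (nat_lit 3635146897) (nat_lit 1064) (nat_lit 44241614) (nat_lit 595) (nat_lit 5) (nat_lit 594) (nat_lit 5) (nat_lit 608) (nat_lit 5) (nat_lit 406) (nat_lit 389) (nat_lit 345))))))))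
noncomputable def xc120 : XT := (XT.nd (nat_lit 1638) (nat_lit 9576) (nat_lit 0) (XT.nd (nat_lit 780) (nat_lit 9272) (nat_lit 0) (XT.nd (nat_lit 390) (nat_lit 3952) (nat_lit 0) (XT.nd (nat_lit 156) (nat_lit 2204) (nat_lit 0) (XT.nd (nat_lit 78) (nat_lit 0) (nat_lit 76) (XT.lf (nat_lit 76) (nat_lit 167584254) (nat_lit 0) (nat_lit 1853813424) (nat_lit 1140) (nat_lit 5100629628) (nat_lit 581) (nat_lit 5) (nat_lit 580) (nat_lit 5) (nat_lit 595) (nat_lit 5) (nat_lit 407) (nat_lit 389) (nat_lit 344)) (XT.lf (nat_lit 0) (nat_lit 4105838273) (nat_lit 1064) (nat_lit 3055070370) (nat_lit 76) (nat_lit 2664921) (nat_lit 581) (nat_lit 5) (nat_lit 595) (nat_lit 5) (nat_lit 582) (nat_lit 5) (nat_lit 408) (nat_lit 389) (nat_lit 343))) (XT.nd (nat_lit 78) (nat_lit 1216) (nat_lit 0) (XT.lf (nat_lit 0) (nat_lit 888724259) (nat_lit 1064) (nat_lit 5315668443) (nat_lit 1140) (nat_lit 1002134824) (nat_lit 567) (nat_lit 5) (nat_lit 581) (nat_lit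 5) (nat_lit 582) (nat_lit 5) (nat_lit 409) (nat_lit 389) (nat_lit 342)) (XT.nd (nat_lit 78) (nat_lit 1140) (nat_lit 0) (XT.lf (nat_lit 0) (nat_lit 1055596879) (nat_lit 1140) (nat_lit 2337719420) (nat_lit 76) (nat_lit 3857398936) (nat_lit 566) (nat_lit 5) (nat_lit 581) (nat_lit 5) (nat_lit 567) (nat_lit 5) (nat_lit 410) (nat_lit 389) (nat_lit 341)) (XT.lf (nat_lit 0) (nat_lit 1704991259) (nat_lit 1140) (nat_lit 1402781252) (nat_lit 1216) (nat_lit 4188571370) (nat_lit 551) (nat_lit 5) (nat_lit 566) (nat_lit 5) (nat_lit 567) (nat_lit 5) (nat_lit 411) (nat_lit 389) (nat_lit 340))))) (XT.nd (nat_lit 156) (nat_lit 2736) (nat_lit 0) (XT.nd (nat_lit 78) (nat_lit 1216) (nat_lit 0) (XT.lf (nat_lit 0) (nat_lit 5177214943) (nat_lit 1216) (nat_lit 1519960168) (nat_lit 76) (nat_lit 646208881) (nat_lit 551) (nat_lit 5) (nat_lit 567) (nat_lit 5) (nat_lit 552) (nat_lit 5) (nat_lit 412) (nat_lit 389) (nat_lit 339)) (XT.lf (nat_lit 0)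 (nat_lit 2625201247) (nat_lit 1216) (nat_lit 4646392703) (nat_lit 1292) (nat_lit 120122897) (nat_lit 535) (nat_lit 5) (nat_lit 551) (nat_lit 5) (nat_lit 552) (nat_lit 5) (nat_lit 413) (nat_lit 389) (nat_lit 338))) (XT.nd (nat_lit 78) (nat_lit 2660) (nat_lit 0) (XT.lf (nat_lit 0) (nat_lit 1908855230) (nat_lit 1292) (nat_lit 612950060) (nat_lit 76) (nat_lit 4919621546) (nat_lit 534) (nat_lit 5) (nat_lit 551) (nat_lit 5) (nat_lit 535) (nat_lit 5) (nat_lit 414) (nat_lit 389) (nat_lit 337)) (XT.nd (nat_lit 78) (nat_lit 1368) (nat_lit 0) (XT.lf (nat_lit 0) (nat_lit 3638086373) (nat_lit 1292) (nat_lit 320712325) (nat_lit 1368) (nat_lit 3533698137) (nat_lit 517) (nat_lit 5) (nat_lit 534) (nat_lit 5) (nat_lit 535) (nat_lit 5) (nat_lit 415) (nat_lit 389) (nat_lit 336)) (XT.lf (nat_lit 0) (nat_lit 397433641) (nat_lit 1368) (nat_lit 5630557689) (nat_lit 1444) (nat_lit 1517053054) (nat_lit 499) (nat_lit 5) (nat_lit 517) (nat_lit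 5) (nat_lit 518) (nat_lit 5) (nat_lit 416) (nat_lit 389) (nat_lit 335)))))) (XT.nd (nat_lit 390) (nat_lit 6156) (nat_lit 0) (XT.nd (nat_lit 156) (nat_lit 1596) (nat_lit 0) (XT.nd (nat_lit 78) (nat_lit 1444) (nat_lit 0) (XT.lf (nat_lit 0) (nat_lit 520340210) (nat_lit 1444) (nat_lit 2850909761) (nat_lit 76) (nat_lit 4227593203) (nat_lit 498) (nat_lit 5) (nat_lit 517) (nat_lit 5) (nat_lit 499) (nat_lit 5) (nat_lit 417) (nat_lit 389) (nat_lit 334)) (XT.lf (nat_lit 0) (nat_lit 1508575943) (nat_lit 1444) (nat_lit 1039539206) (nat_lit 1520) (nat_lit 5106023229) (nat_lit 479) (nat_lit 5) (nat_lit 498) (nat_lit 5) (nat_lit 499) (nat_lit 5) (nat_lit 418) (nat_lit 389) (nat_lit 333))) (XT.nd (nat_lit 78) (nat_lit 1596) (nat_lit 0) (XT.lf (nat_lit 0) (nat_lit 4605141878) (nat_lit 1520) (nat_lit 1758599744) (nat_lit 76) (nat_lit 1347043480) (nat_lit 479) (nat_lit 5) (nat_lit 499) (nat_lit 5) (nat_lit 480) (nat_lit 5) (nat_lit 419)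 (nat_lit 389) (nat_lit 332)) (XT.nd (nat_lit 78) (nat_lit 76) (nat_lit 0) (XT.lf (nat_lit 0) (nat_lit 2711922475) (nat_lit 1520) (nat_lit 3977394390) (nat_lit 1596) (nat_lit 1079546902) (nat_lit 459) (nat_lit 5) (nat_lit 479) (nat_lit 5) (nat_lit 480) (nat_lit 5) (nat_lit 420) (nat_lit 389) (nat_lit 331)) (XT.lf (nat_lit 0) (nat_lit 947793593) (nat_lit 1596) (nat_lit 571834169) (nat_lit 76) (nat_lit 6308893126) (nat_lit 458) (nat_lit 5) (nat_lit 479) (nat_lit 5) (nat_lit 459) (nat_lit 5) (nat_lit 421) (nat_lit 389) (nat_lit 330))))) (XT.nd (nat_lit 234) (nat_lit 2888) (nat_lit 0) (XT.nd (nat_lit 78) (nat_lit 1672) (nat_lit 0) (XT.lf (nat_lit 0) (nat_lit 2996513736) (nat_lit 1672) (nat_lit 3880162534) (nat_lit 76) (nat_lit 1012664461) (nat_lit 437) (nat_lit 5) (nat_lit 459) (nat_lit 5) (nat_lit 438) (nat_lit 5) (nat_lit 422) (nat_lit 389) (nat_lit 329)) (XT.nd (nat_lit 78) (nat_lit 0) (nat_lit 0) (XT.lf (nat_lit 0) (nat_lit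 704315167) (nat_lit 1672) (nat_lit 4363485141) (nat_lit 1748) (nat_lit 2883962522) (nat_lit 415) (nat_lit 5) (nat_lit 437) (nat_lit 5) (nat_lit 438) (nat_lit 5) (nat_lit 423) (nat_lit 389) (nat_lit 328)) (XT.lf (nat_lit 0) (nat_lit 5400201949) (nat_lit 1672) (nat_lit 1769951477) (nat_lit 1748) (nat_lit 845504485) (nat_lit 415) (nat_lit 5) (nat_lit 437) (nat_lit 5) (nat_lit 438) (nat_lit 5) (nat_lit 424) (nat_lit 389) (nat_lit 327)))) (XT.nd (nat_lit 78) (nat_lit 1064) (nat_lit 0) (XT.lf (nat_lit 0) (nat_lit 1201061839) (nat_lit 1824) (nat_lit 5991054785) (nat_lit 76) (nat_lit 888900351) (nat_lit 391) (nat_lit 5) (nat_lit 415) (nat_lit 5) (nat_lit 392) (nat_lit 5) (nat_lit 425) (nat_lit 389) (nat_lit 326)) (XT.nd (nat_lit 78) (nat_lit 1064) (nat_lit 0) (XT.lf (nat_lit 0) (nat_lit 3271213651) (nat_lit 1824) (nat_lit 1273083079) (nat_lit 76) (nat_lit 3603411560) (nat_lit 391) (nat_lit 5) (nat_lit 415) (nat_lit 5) (nat_lit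 392) (nat_lit 5) (nat_lit 426) (nat_lit 389) (nat_lit 325)) (XT.lf (nat_lit 0) (nat_lit 3553245944) (nat_lit 1064) (nat_lit 1817863202) (nat_lit 1140) (nat_lit 2844873504) (nat_lit 377) (nat_lit 5) (nat_lit 391) (nat_lit 5) (nat_lit 392) (nat_lit 5) (nat_lit 427) (nat_lit 389) (nat_lit 324))))))) (XT.nd (nat_lit 780) (nat_lit 4332) (nat_lit 0) (XT.nd (nat_lit 390) (nat_lit 2584) (nat_lit 0) (XT.nd (nat_lit 156) (nat_lit 1672) (nat_lit 0) (XT.nd (nat_lit 78) (nat_lit 76) (nat_lit 0) (XT.lf (nat_lit 0) (nat_lit 170734337) (nat_lit 912) (nat_lit 7323982881) (nat_lit 988) (nat_lit 791286703) (nat_lit 365) (nat_lit 5) (nat_lit 377) (nat_lit 5) (nat_lit 378) (nat_lit 5) (nat_lit 428) (nat_lit 389) (nat_lit 323)) (XT.lf (nat_lit 0) (nat_lit 1295785793) (nat_lit 988) (nat_lit 3246780452) (nat_lit 76) (nat_lit 3814515075) (nat_lit 364) (nat_lit 5) (nat_lit 377) (nat_lit 5) (nat_lit 365) (nat_lit 5) (nat_lit 429) (nat_lit 389)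 (nat_lit 322))) (XT.nd (nat_lit 78) (nat_lit 836) (nat_lit 0) (XT.lf (nat_lit 0) (nat_lit 1703481932) (nat_lit 836) (nat_lit 1688232180) (nat_lit 912) (nat_lit 5038222163) (nat_lit 353) (nat_lit 5) (nat_lit 364) (nat_lit 5) (nat_lit 365) (nat_lit 5) (nat_lit 430) (nat_lit 389) (nat_lit 321)) (XT.nd (nat_lit 78) (nat_lit 836) (nat_lit 0) (XT.lf (nat_lit 0) (nat_lit 5526520354) (nat_lit 912) (nat_lit 1748296353) (nat_lit 76) (nat_lit 1229506957) (nat_lit 353) (nat_lit 5) (nat_lit 365) (nat_lit 5) (nat_lit 354) (nat_lit 5) (nat_lit 431) (nat_lit 389) (nat_lit 320)) (XT.lf (nat_lit 0) (nat_lit 3329402058) (nat_lit 836) (nat_lit 4375148781) (nat_lit 912) (nat_lit 875651634) (nat_lit 342) (nat_lit 5) (nat_lit 353) (nat_lit 5) (nat_lit 354) (nat_lit 5) (nat_lit 432) (nat_lit 389) (nat_lit 319))))) (XT.nd (nat_lit 156) (nat_lit 1672) (nat_lit 0) (XT.nd (nat_lit 78) (nat_lit 836) (nat_lit 0) (XT.lf (nat_lit 0) (nat_lit 1231645051)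 (nat_lit 912) (nat_lit 166059196) (nat_lit 76) (nat_lit 7260148787) (nat_lit 341) (nat_lit 5) (nat_lit 353) (nat_lit 5) (nat_lit 342) (nat_lit 5) (nat_lit 433) (nat_lit 389) (nat_lit 318)) (XT.lf (nat_lit 0) (nat_lit 3381606078) (nat_lit 912) (nat_lit 3699121731) (nat_lit 76) (nat_lit 1655981585) (nat_lit 330) (nat_lit 5) (nat_lit 342) (nat_lit 5) (nat_lit 331) (nat_lit 5) (nat_lit 434) (nat_lit 389) (nat_lit 317))) (XT.nd (nat_lit 78) (nat_lit 836) (nat_lit 0) (XT.lf (nat_lit 0) (nat_lit 1508448294) (nat_lit 836) (nat_lit 4055252216) (nat_lit 912) (nat_lit 3253672837) (nat_lit 319) (nat_lit 5) (nat_lit 330) (nat_lit 5) (nat_lit 331) (nat_lit 5) (nat_lit 435) (nat_lit 389) (nat_lit 316)) (XT.nd (nat_lit 78) (nat_lit 836) (nat_lit 0) (XT.lf (nat_lit 0) (nat_lit 6838016747) (nat_lit 836) (nat_lit 945604332) (nat_lit 912) (nat_lit 1116158711) (nat_lit 319) (nat_lit 5) (nat_lit 330) (nat_lit 5) (nat_lit 331) (nat_lit 5)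 (nat_lit 436) (nat_lit 389) (nat_lit 315)) (XT.lf (nat_lit 0) (nat_lit 1055920569) (nat_lit 836) (nat_lit 5703950052) (nat_lit 76) (nat_lit 2223722539) (nat_lit 308) (nat_lit 5) (nat_lit 319) (nat_lit 5) (nat_lit 309) (nat_lit 5) (nat_lit 437) (nat_lit 389) (nat_lit 314)))))) (XT.nd (nat_lit 390) (nat_lit 2052) (nat_lit 0) (XT.nd (nat_lit 156) (nat_lit 1520) (nat_lit 0) (XT.nd (nat_lit 78) (nat_lit 760) (nat_lit 0) (XT.lf (nat_lit 0) (nat_lit 3246823246) (nat_lit 836) (nat_lit 359188720) (nat_lit 76) (nat_lit 5463128883) (nat_lit 308) (nat_lit 5) (nat_lit 319) (nat_lit 5) (nat_lit 309) (nat_lit 5) (nat_lit 438) (nat_lit 389) (nat_lit 313)) (XT.lf (nat_lit 0) (nat_lit 5127895550) (nat_lit 760) (nat_lit 357651717) (nat_lit 836) (nat_lit 3670784070) (nat_lit 298) (nat_lit 5) (nat_lit 308) (nat_lit 5) (nat_lit 309) (nat_lit 5) (nat_lit 439) (nat_lit 389) (nat_lit 312))) (XT.nd (nat_lit 78) (nat_lit 836) (nat_lit 0) (XT.lf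 (nat_lit 0) (nat_lit 1452021538) (nat_lit 684) (nat_lit 6319129378) (nat_lit 760) (nat_lit 1474084296) (nat_lit 289) (nat_lit 5) (nat_lit 298) (nat_lit 5) (nat_lit 299) (nat_lit 5) (nat_lit 440) (nat_lit 389) (nat_lit 311)) (XT.nd (nat_lit 78) (nat_lit 760) (nat_lit 0) (XT.lf (nat_lit 0) (nat_lit 757296936) (nat_lit 760) (nat_lit 2278577227) (nat_lit 76) (nat_lit 6299938668) (nat_lit 288) (nat_lit 5) (nat_lit 298) (nat_lit 5) (nat_lit 289) (nat_lit 5) (nat_lit 441) (nat_lit 389) (nat_lit 310)) (XT.lf (nat_lit 0) (nat_lit 3009331696) (nat_lit 836) (nat_lit 6081591931) (nat_lit 76) (nat_lit 337179228) (nat_lit 278) (nat_lit 5) (nat_lit 289) (nat_lit 5) (nat_lit 279) (nat_lit 5) (nat_lit 442) (nat_lit 389) (nat_lit 309))))) (XT.nd (nat_lit 234) (nat_lit 608) (nat_lit 0) (XT.nd (nat_lit 78) (nat_lit 1444) (nat_lit 0) (XT.lf (nat_lit 0) (nat_lit 5314013470) (nat_lit 836) (nat_lit 459223267) (nat_lit 76) (nat_lit 3748860607)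 (nat_lit 278) (nat_lit 5) (nat_lit 289) (nat_lit 5) (nat_lit 279) (nat_lit 5) (nat_lit 443) (nat_lit 389) (nat_lit 308)) (XT.nd (nat_lit 78) (nat_lit 760) (nat_lit 0) (XT.lf (nat_lit 0) (nat_lit 5313842056) (nat_lit 684) (nat_lit 2358104161) (nat_lit 760) (nat_lit 1945892936) (nat_lit 269) (nat_lit 5) (nat_lit 278) (nat_lit 5) (nat_lit 279) (nat_lit 5) (nat_lit 444) (nat_lit 389) (nat_lit 307)) (XT.lf (nat_lit 0) (nat_lit 349680094) (nat_lit 760) (nat_lit 8244550463) (nat_lit 76) (nat_lit 1121370861) (nat_lit 259) (nat_lit 5) (nat_lit 269) (nat_lit 5) (nat_lit 260) (nat_lit 5) (nat_lit 445) (nat_lit 389) (nat_lit 306)))) (XT.nd (nat_lit 78) (nat_lit 608) (nat_lit 0) (XT.lf (nat_lit 0) (nat_lit 2682924010) (nat_lit 760) (nat_lit 2455411561) (nat_lit 76) (nat_lit 4676379779) (nat_lit 259) (nat_lit 5) (nat_lit 269) (nat_lit 5) (nat_lit 260) (nat_lit 5) (nat_lit 446) (nat_lit 389) (nat_lit 305)) (XT.nd (nat_lit 78) (nat_lit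 0) (nat_lit 0) (XT.lf (nat_lit 0) (nat_lit 3463644782) (nat_lit 608) (nat_lit 1595304372) (nat_lit 684) (nat_lit 4856949852) (nat_lit 251) (nat_lit 5) (nat_lit 259) (nat_lit 5) (nat_lit 260) (nat_lit 5) (nat_lit 447) (nat_lit 389) (nat_lit 304)) (XT.lf (nat_lit 0) (nat_lit 7486097720) (nat_lit 684) (nat_lit 529209776) (nat_lit 76) (nat_lit 2003736361) (nat_lit 251) (nat_lit 5) (nat_lit 260) (nat_lit 5) (nat_lit 252) (nat_lit 5) (nat_lit 448) (nat_lit 389) (nat_lit 303))))))))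
noncomputable def xc121 : XT := (XT.nd (nat_lit 1638) (nat_lit 4636) (nat_lit 0) (XT.nd (nat_lit 780) (nat_lit 3496) (nat_lit 0) (XT.nd (nat_lit 390) (nat_lit 1824) (nat_lit 0) (XT.nd (nat_lit 156) (nat_lit 608) (nat_lit 0) (XT.nd (nat_lit 78) (nat_lit 684) (nat_lit 0) (XT.lf (nat_lit 0) (nat_lit 5543469670) (nat_lit 608) (nat_lit 4439298640) (nat_lit 684) (nat_lit 141073107) (nat_lit 243) (nat_lit 5) (nat_lit 251) (nat_lit 5) (nat_lit 252) (nat_lit 5) (nat_lit 449) (nat_lit 389) (nat_lit 302)) (XT.lf (nat_lit 0) (nat_lit 1487566153) (nat_lit 608) (nat_lit 768704815) (nat_lit 684) (nat_lit 7974418889) (nat_lit 234) (nat_lit 5) (nat_lit 242) (nat_lit 5) (nat_lit 243) (nat_lit 5) (nat_lit 450) (nat_lit 389) (nat_lit 301))) (XT.nd (nat_lit 78) (nat_lit 608) (nat_lit 0) (XT.lf (nat_lit 0) (nat_lit 4724741270) (nat_lit 684) (nat_lit 2651943087) (nat_lit 76) (nat_lit 2962479744) (nat_lit 234) (nat_lit 5) (nat_lit 243) (nat_lit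 5) (nat_lit 235) (nat_lit 5) (nat_lit 451) (nat_lit 389) (nat_lit 300)) (XT.nd (nat_lit 78) (nat_lit 0) (nat_lit 0) (XT.lf (nat_lit 0) (nat_lit 3572055721) (nat_lit 608) (nat_lit 3674110779) (nat_lit 684) (nat_lit 3203578297) (nat_lit 226) (nat_lit 5) (nat_lit 234) (nat_lit 5) (nat_lit 235) (nat_lit 5) (nat_lit 452) (nat_lit 389) (nat_lit 299)) (XT.lf (nat_lit 0) (nat_lit 9812148143) (nat_lit 684) (nat_lit 637499582) (nat_lit 76) (nat_lit 113015330) (nat_lit 226) (nat_lit 5) (nat_lit 235) (nat_lit 5) (nat_lit 227) (nat_lit 5) (nat_lit 453) (nat_lit 389) (nat_lit 298))))) (XT.nd (nat_lit 156) (nat_lit 608) (nat_lit 0) (XT.nd (nat_lit 78) (nat_lit 608) (nat_lit 0) (XT.lf (nat_lit 0) (nat_lit 1766558942) (nat_lit 608) (nat_lit 4940575829) (nat_lit 76) (nat_lit 3969727196) (nat_lit 218) (nat_lit 5) (nat_lit 226) (nat_lit 5) (nat_lit 219) (nat_lit 5) (nat_lit 454) (nat_lit 389) (nat_lit 297)) (XT.lf (nat_lit 0) (nat_lit 1436233436)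 (nat_lit 608) (nat_lit 2877468967) (nat_lit 684) (nat_lit 6479755699) (nat_lit 210) (nat_lit 5) (nat_lit 218) (nat_lit 5) (nat_lit 219) (nat_lit 5) (nat_lit 455) (nat_lit 389) (nat_lit 296))) (XT.nd (nat_lit 78) (nat_lit 608) (nat_lit 0) (XT.lf (nat_lit 0) (nat_lit 6928205806) (nat_lit 684) (nat_lit 2941841742) (nat_lit 76) (nat_lit 1042018133) (nat_lit 210) (nat_lit 5) (nat_lit 219) (nat_lit 5) (nat_lit 211) (nat_lit 5) (nat_lit 456) (nat_lit 389) (nat_lit 295)) (XT.nd (nat_lit 78) (nat_lit 76) (nat_lit 0) (XT.lf (nat_lit 0) (nat_lit 3599839414) (nat_lit 532) (nat_lit 6014415997) (nat_lit 608) (nat_lit 1418412581) (nat_lit 203) (nat_lit 5) (nat_lit 210) (nat_lit 5) (nat_lit 211) (nat_lit 5) (nat_lit 457) (nat_lit 389) (nat_lit 294)) (XT.lf (nat_lit 0) (nat_lit 1179427314) (nat_lit 608) (nat_lit 881248511) (nat_lit 76) (nat_lit 9094922319) (nat_lit 202) (nat_lit 5) (nat_lit 210) (nat_lit 5) (nat_lit 203) (nat_lit 5)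 (nat_lit 458) (nat_lit 389) (nat_lit 293)))))) (XT.nd (nat_lit 390) (nat_lit 1900) (nat_lit 0) (XT.nd (nat_lit 156) (nat_lit 608) (nat_lit 0) (XT.nd (nat_lit 78) (nat_lit 456) (nat_lit 0) (XT.lf (nat_lit 0) (nat_lit 3838611273) (nat_lit 608) (nat_lit 5454712592) (nat_lit 76) (nat_lit 1986915184) (nat_lit 195) (nat_lit 5) (nat_lit 203) (nat_lit 5) (nat_lit 196) (nat_lit 5) (nat_lit 459) (nat_lit 389) (nat_lit 292)) (XT.lf (nat_lit 0) (nat_lit 1243854755) (nat_lit 456) (nat_lit 5312386021) (nat_lit 532) (nat_lit 4851033878) (nat_lit 189) (nat_lit 5) (nat_lit 195) (nat_lit 5) (nat_lit 196) (nat_lit 5) (nat_lit 460) (nat_lit 389) (nat_lit 291))) (XT.nd (nat_lit 78) (nat_lit 608) (nat_lit 0) (XT.lf (nat_lit 0) (nat_lit 8120629646) (nat_lit 456) (nat_lit 1222030114) (nat_lit 532) (nat_lit 2193909451) (nat_lit 189) (nat_lit 5) (nat_lit 195) (nat_lit 5) (nat_lit 196) (nat_lit 5) (nat_lit 461) (nat_lit 389) (nat_lit 290)) (XT.nd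 (nat_lit 78) (nat_lit 0) (nat_lit 0) (XT.lf (nat_lit 0) (nat_lit 529569568) (nat_lit 608) (nat_lit 8208301079) (nat_lit 76) (nat_lit 2930118984) (nat_lit 181) (nat_lit 5) (nat_lit 189) (nat_lit 5) (nat_lit 182) (nat_lit 5) (nat_lit 462) (nat_lit 389) (nat_lit 289)) (XT.lf (nat_lit 0) (nat_lit 3287643632) (nat_lit 608) (nat_lit 1334836378) (nat_lit 76) (nat_lit 7179084954) (nat_lit 181) (nat_lit 5) (nat_lit 189) (nat_lit 5) (nat_lit 182) (nat_lit 5) (nat_lit 463) (nat_lit 389) (nat_lit 288))))) (XT.nd (nat_lit 234) (nat_lit 988) (nat_lit 0) (XT.nd (nat_lit 78) (nat_lit 456) (nat_lit 0) (XT.lf (nat_lit 0) (nat_lit 5722109162) (nat_lit 456) (nat_lit 394654074) (nat_lit 532) (nat_lit 5820737335) (nat_lit 175) (nat_lit 5) (nat_lit 181) (nat_lit 5) (nat_lit 182) (nat_lit 5) (nat_lit 464) (nat_lit 389) (nat_lit 287)) (XT.nd (nat_lit 78) (nat_lit 0) (nat_lit 0) (XT.lf (nat_lit 0) (nat_lit 818328320) (nat_lit 456) (nat_lit 8202814697)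 (nat_lit 532) (nat_lit 3054644637) (nat_lit 169) (nat_lit 5) (nat_lit 175) (nat_lit 5) (nat_lit 176) (nat_lit 5) (nat_lit 465) (nat_lit 389) (nat_lit 286)) (XT.lf (nat_lit 0) (nat_lit 8045297290) (nat_lit 456) (nat_lit 3961754481) (nat_lit 532) (nat_lit 209326078) (nat_lit 169) (nat_lit 5) (nat_lit 175) (nat_lit 5) (nat_lit 176) (nat_lit 5) (nat_lit 466) (nat_lit 389) (nat_lit 285)))) (XT.nd (nat_lit 78) (nat_lit 456) (nat_lit 0) (XT.lf (nat_lit 0) (nat_lit 2659351222) (nat_lit 532) (nat_lit 9311195011) (nat_lit 76) (nat_lit 388854483) (nat_lit 162) (nat_lit 5) (nat_lit 169) (nat_lit 5) (nat_lit 163) (nat_lit 5) (nat_lit 467) (nat_lit 389) (nat_lit 284)) (XT.nd (nat_lit 78) (nat_lit 456) (nat_lit 0) (XT.lf (nat_lit 0) (nat_lit 5616583585) (nat_lit 532) (nat_lit 2093024697) (nat_lit 76) (nat_lit 4794974239) (nat_lit 162) (nat_lit 5) (nat_lit 169) (nat_lit 5) (nat_lit 163) (nat_lit 5) (nat_lit 468) (nat_lit 389) (nat_lit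 283)) (XT.lf (nat_lit 0) (nat_lit 5310818388) (nat_lit 456) (nat_lit 3336593636) (nat_lit 532) (nat_lit 4004972634) (nat_lit 156) (nat_lit 5) (nat_lit 162) (nat_lit 5) (nat_lit 163) (nat_lit 5) (nat_lit 469) (nat_lit 389) (nat_lit 282))))))) (XT.nd (nat_lit 858) (nat_lit 2052) (nat_lit 0) (XT.nd (nat_lit 390) (nat_lit 1292) (nat_lit 0) (XT.nd (nat_lit 156) (nat_lit 836) (nat_lit 0) (XT.nd (nat_lit 78) (nat_lit 76) (nat_lit 0) (XT.lf (nat_lit 0) (nat_lit 53049263) (nat_lit 380) (nat_lit 11687713377) (nat_lit 456) (nat_lit 1062347698) (nat_lit 151) (nat_lit 5) (nat_lit 156) (nat_lit 5) (nat_lit 157) (nat_lit 5) (nat_lit 470) (nat_lit 389) (nat_lit 281)) (XT.lf (nat_lit 0) (nat_lit 1965582418) (nat_lit 456) (nat_lit 5324389715) (nat_lit 76) (nat_lit 5665594297) (nat_lit 150) (nat_lit 5) (nat_lit 156) (nat_lit 5) (nat_lit 151) (nat_lit 5) (nat_lit 471) (nat_lit 389) (nat_lit 280))) (XT.nd (nat_lit 78) (nat_lit 380) (nat_lit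 0) (XT.lf (nat_lit 0) (nat_lit 2244167371) (nat_lit 456) (nat_lit 2790847197) (nat_lit 532) (nat_lit 8076018558) (nat_lit 144) (nat_lit 5) (nat_lit 150) (nat_lit 5) (nat_lit 151) (nat_lit 5) (nat_lit 472) (nat_lit 389) (nat_lit 279)) (XT.nd (nat_lit 78) (nat_lit 380) (nat_lit 0) (XT.lf (nat_lit 0) (nat_lit 8194205225) (nat_lit 532) (nat_lit 3272711651) (nat_lit 76) (nat_lit 1802130067) (nat_lit 144) (nat_lit 5) (nat_lit 151) (nat_lit 5) (nat_lit 145) (nat_lit 5) (nat_lit 473) (nat_lit 389) (nat_lit 278)) (XT.lf (nat_lit 0) (nat_lit 4486056908) (nat_lit 380) (nat_lit 6959237840) (nat_lit 456) (nat_lit 1984357072) (nat_lit 139) (nat_lit 5) (nat_lit 144) (nat_lit 5) (nat_lit 145) (nat_lit 5) (nat_lit 474) (nat_lit 389) (nat_lit 277))))) (XT.nd (nat_lit 234) (nat_lit 456) (nat_lit 0) (XT.nd (nat_lit 78) (nat_lit 760) (nat_lit 0) (XT.lf (nat_lit 0) (nat_lit 1155896323) (nat_lit 456) (nat_lit 1184089767) (nat_lit 76) (nat_lit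 11253270393) (nat_lit 138) (nat_lit 5) (nat_lit 144) (nat_lit 5) (nat_lit 139) (nat_lit 5) (nat_lit 475) (nat_lit 389) (nat_lit 276)) (XT.nd (nat_lit 78) (nat_lit 380) (nat_lit 0) (XT.lf (nat_lit 0) (nat_lit 4373683643) (nat_lit 456) (nat_lit 6995861783) (nat_lit 76) (nat_lit 2389504286) (nat_lit 133) (nat_lit 5) (nat_lit 139) (nat_lit 5) (nat_lit 134) (nat_lit 5) (nat_lit 476) (nat_lit 389) (nat_lit 275)) (XT.lf (nat_lit 0) (nat_lit 926780539) (nat_lit 380) (nat_lit 6740227825) (nat_lit 456) (nat_lit 6260931504) (nat_lit 128) (nat_lit 5) (nat_lit 133) (nat_lit 5) (nat_lit 134) (nat_lit 5) (nat_lit 477) (nat_lit 389) (nat_lit 274)))) (XT.nd (nat_lit 78) (nat_lit 456) (nat_lit 0) (XT.lf (nat_lit 0) (nat_lit 9075598900) (nat_lit 380) (nat_lit 1979399317) (nat_lit 456) (nat_lit 3044638241) (nat_lit 128) (nat_lit 5) (nat_lit 133) (nat_lit 5) (nat_lit 134) (nat_lit 5) (nat_lit 478) (nat_lit 389) (nat_lit 273)) (XT.nd (nat_lit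 78) (nat_lit 0) (nat_lit 0) (XT.lf (nat_lit 0) (nat_lit 254027320) (nat_lit 456) (nat_lit 11168192635) (nat_lit 76) (nat_lit 2852097982) (nat_lit 122) (nat_lit 5) (nat_lit 128) (nat_lit 5) (nat_lit 123) (nat_lit 5) (nat_lit 479) (nat_lit 389) (nat_lit 272)) (XT.lf (nat_lit 0) (nat_lit 3607189124) (nat_lit 456) (nat_lit 3045263544) (nat_lit 76) (nat_lit 7799056402) (nat_lit 122) (nat_lit 5) (nat_lit 128) (nat_lit 5) (nat_lit 123) (nat_lit 5) (nat_lit 480) (nat_lit 389) (nat_lit 271)))))) (XT.nd (nat_lit 390) (nat_lit 988) (nat_lit 0) (XT.nd (nat_lit 156) (nat_lit 760) (nat_lit 0) (XT.nd (nat_lit 78) (nat_lit 0) (nat_lit 0) (XT.lf (nat_lit 0) (nat_lit 5282996571) (nat_lit 304) (nat_lit 1761273915) (nat_lit 380) (nat_lit 7587640667) (nat_lit 118) (nat_lit 5) (nat_lit 122) (nat_lit 5) (nat_lit 123) (nat_lit 5) (nat_lit 481) (nat_lit 389) (nat_lit 270)) (XT.lf (nat_lit 0) (nat_lit 10574289731) (nat_lit 380) (nat_lit 1044035840)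 (nat_lit 76) (nat_lit 3197115951) (nat_lit 118) (nat_lit 5) (nat_lit 123) (nat_lit 5) (nat_lit 119) (nat_lit 5) (nat_lit 482) (nat_lit 389) (nat_lit 269))) (XT.nd (nat_lit 78) (nat_lit 380) (nat_lit 0) (XT.lf (nat_lit 0) (nat_lit 7487463467) (nat_lit 380) (nat_lit 6730732407) (nat_lit 456) (nat_lit 783584983) (nat_lit 113) (nat_lit 5) (nat_lit 118) (nat_lit 5) (nat_lit 119) (nat_lit 5) (nat_lit 483) (nat_lit 389) (nat_lit 268)) (XT.nd (nat_lit 78) (nat_lit 0) (nat_lit 0) (XT.lf (nat_lit 0) (nat_lit 980976825) (nat_lit 304) (nat_lit 1722660096) (nat_lit 380) (nat_lit 12487928174) (nat_lit 108) (nat_lit 5) (nat_lit 112) (nat_lit 5) (nat_lit 113) (nat_lit 5) (nat_lit 484) (nat_lit 389) (nat_lit 267)) (XT.lf (nat_lit 0) (nat_lit 6306024894) (nat_lit 380) (nat_lit 5689784640) (nat_lit 76) (nat_lit 3388117471) (nat_lit 108) (nat_lit 5) (nat_lit 113) (nat_lit 5) (nat_lit 109) (nat_lit 5) (nat_lit 485) (nat_lit 389) (nat_lit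 266))))) (XT.nd (nat_lit 234) (nat_lit 304) (nat_lit 0) (XT.nd (nat_lit 78) (nat_lit 380) (nat_lit 0) (XT.lf (nat_lit 0) (nat_lit 3003755867) (nat_lit 304) (nat_lit 6991109272) (nat_lit 380) (nat_lit 5584986701) (nat_lit 104) (nat_lit 5) (nat_lit 108) (nat_lit 5) (nat_lit 109) (nat_lit 5) (nat_lit 486) (nat_lit 389) (nat_lit 265)) (XT.nd (nat_lit 78) (nat_lit 380) (nat_lit 0) (XT.lf (nat_lit 0) (nat_lit 11922796916) (nat_lit 304) (nat_lit 1856518624) (nat_lit 380) (nat_lit 1999946667) (nat_lit 104) (nat_lit 5) (nat_lit 108) (nat_lit 5) (nat_lit 109) (nat_lit 5) (nat_lit 487) (nat_lit 389) (nat_lit 264)) (XT.lf (nat_lit 0) (nat_lit 1674013289) (nat_lit 380) (nat_lit 10936239652) (nat_lit 76) (nat_lit 3371417294) (nat_lit 99) (nat_lit 5) (nat_lit 104) (nat_lit 5) (nat_lit 100) (nat_lit 5) (nat_lit 488) (nat_lit 389) (nat_lit 263)))) (XT.nd (nat_lit 78) (nat_lit 304) (nat_lit 0) (XT.lf (nat_lit 0) (nat_lit 5417000962) (nat_lit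 380) (nat_lit 2060993243) (nat_lit 76) (nat_lit 8709424759) (nat_lit 99) (nat_lit 5) (nat_lit 104) (nat_lit 5) (nat_lit 100) (nat_lit 5) (nat_lit 489) (nat_lit 389) (nat_lit 262)) (XT.nd (nat_lit 78) (nat_lit 0) (nat_lit 0) (XT.lf (nat_lit 0) (nat_lit 7059528125) (nat_lit 304) (nat_lit 2205427609) (nat_lit 380) (nat_lit 7131728209) (nat_lit 95) (nat_lit 5) (nat_lit 99) (nat_lit 5) (nat_lit 100) (nat_lit 5) (nat_lit 490) (nat_lit 389) (nat_lit 261)) (XT.lf (nat_lit 0) (nat_lit 13208751715) (nat_lit 380) (nat_lit 265060246) (nat_lit 76) (nat_lit 3135947972) (nat_lit 95) (nat_lit 5) (nat_lit 100) (nat_lit 5) (nat_lit 96) (nat_lit 5) (nat_lit 491) (nat_lit 389) (nat_lit 260))))))))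
noncomputable def xc122 : XT := (XT.nd (nat_lit 52104) (nat_lit 0) (nat_lit 29792) (XT.nd (nat_lit 780) (nat_lit 228) (nat_lit 0) (XT.nd (nat_lit 390) (nat_lit 988) (nat_lit 0) (XT.nd (nat_lit 156) (nat_lit 228) (nat_lit 0) (XT.nd (nat_lit 78) (nat_lit 304) (nat_lit 0) (XT.lf (nat_lit 0) (nat_lit 457556916) (nat_lit 380) (nat_lit 7760563980) (nat_lit 76) (nat_lit 8607756597) (nat_lit 90) (nat_lit 5) (nat_lit 95) (nat_lit 5) (nat_lit 91) (nat_lit 5) (nat_lit 492) (nat_lit 389) (nat_lit 259)) (XT.lf (nat_lit 0) (nat_lit 1512439782) (nat_lit 304) (nat_lit 2831674459) (nat_lit 380) (nat_lit 12701829501) (nat_lit 86) (nat_lit 5) (nat_lit 90) (nat_lit 5) (nat_lit 91) (nat_lit 5) (nat_lit 493) (nat_lit 389) (nat_lit 258))) (XT.nd (nat_lit 78) (nat_lit 228) (nat_lit 0) (XT.lf (nat_lit 0) (nat_lit 8362901968) (nat_lit 380) (nat_lit 6235453965) (nat_lit 76) (nat_lit 2670968498) (nat_lit 86) (nat_lit 5) (nat_lit 91) (nat_lit 5)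 (nat_lit 87) (nat_lit 5) (nat_lit 494) (nat_lit 389) (nat_lit 257)) (XT.nd (nat_lit 78) (nat_lit 0) (nat_lit 0) (XT.lf (nat_lit 0) (nat_lit 3248335450) (nat_lit 228) (nat_lit 9238661569) (nat_lit 304) (nat_lit 5009680121) (nat_lit 83) (nat_lit 5) (nat_lit 86) (nat_lit 5) (nat_lit 87) (nat_lit 5) (nat_lit 495) (nat_lit 389) (nat_lit 256)) (XT.lf (nat_lit 0) (nat_lit 12982410964) (nat_lit 228) (nat_lit 3738231722) (nat_lit 304) (nat_lit 1007395821) (nat_lit 83) (nat_lit 5) (nat_lit 86) (nat_lit 5) (nat_lit 87) (nat_lit 5) (nat_lit 496) (nat_lit 389) (nat_lit 255))))) (XT.nd (nat_lit 156) (nat_lit 608) (nat_lit 0) (XT.nd (nat_lit 78) (nat_lit 0) (nat_lit 0) (XT.lf (nat_lit 0) (nat_lit 3064725039) (nat_lit 380) (nat_lit 13007018723) (nat_lit 76) (nat_lit 1891284528) (nat_lit 78) (nat_lit 5) (nat_lit 83) (nat_lit 5) (nat_lit 79) (nat_lit 5) (nat_lit 497) (nat_lit 389) (nat_lit 254)) (XT.lf (nat_lit 0) (nat_lit 7247116189)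 (nat_lit 380) (nat_lit 3341430515) (nat_lit 76) (nat_lit 7613194456) (nat_lit 78) (nat_lit 5) (nat_lit 83) (nat_lit 5) (nat_lit 79) (nat_lit 5) (nat_lit 498) (nat_lit 389) (nat_lit 253))) (XT.nd (nat_lit 78) (nat_lit 380) (nat_lit 0) (XT.lf (nat_lit 0) (nat_lit 6580520921) (nat_lit 228) (nat_lit 4961135066) (nat_lit 304) (nat_lit 6903005034) (nat_lit 75) (nat_lit 5) (nat_lit 78) (nat_lit 5) (nat_lit 79) (nat_lit 5) (nat_lit 499) (nat_lit 389) (nat_lit 252)) (XT.nd (nat_lit 78) (nat_lit 380) (nat_lit 0) (XT.lf (nat_lit 0) (nat_lit 15935560663) (nat_lit 304) (nat_lit 1974317019) (nat_lit 76) (nat_lit 782294816) (nat_lit 75) (nat_lit 5) (nat_lit 79) (nat_lit 5) (nat_lit 76) (nat_lit 5) (nat_lit 500) (nat_lit 389) (nat_lit 251)) (XT.lf (nat_lit 0) (nat_lit 1525857810) (nat_lit 380) (nat_lit 10788576326) (nat_lit 76) (nat_lit 6628562154) (nat_lit 70) (nat_lit 5) (nat_lit 75) (nat_lit 5) (nat_lit 71) (nat_lit 5) (nat_lit 501)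 (nat_lit 389) (nat_lit 250)))))) (XT.nd (nat_lit 50856) (nat_lit 0) (nat_lit 41724) (XT.nd (nat_lit 50622) (nat_lit 0) (nat_lit 43320) (XT.nd (nat_lit 78) (nat_lit 228) (nat_lit 0) (XT.lf (nat_lit 0) (nat_lit 5856591420) (nat_lit 380) (nat_lit 727326070) (nat_lit 76) (nat_lit 12614566675) (nat_lit 70) (nat_lit 5) (nat_lit 75) (nat_lit 5) (nat_lit 71) (nat_lit 5) (nat_lit 502) (nat_lit 389) (nat_lit 249)) (XT.lf (nat_lit 0) (nat_lit 9639111885) (nat_lit 228) (nat_lit 683837458) (nat_lit 304) (nat_lit 9135154752) (nat_lit 67) (nat_lit 5) (nat_lit 70) (nat_lit 5) (nat_lit 71) (nat_lit 5) (nat_lit 503) (nat_lit 389) (nat_lit 248))) (XT.nd (nat_lit 78) (nat_lit 0) (nat_lit 0) (XT.lf (nat_lit 0) (nat_lit 339579454) (nat_lit 0) (nat_lit 339579454) (nat_lit 684) (nat_lit 2638605253) (nat_lit 637) (nat_lit 5) (nat_lit 637) (nat_lit 3) (nat_lit 646) (nat_lit 3) (nat_lit 390) (nat_lit 390) (nat_lit 360)) (XT.nd (nat_lit 78) (nat_lit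 0) (nat_lit 0) (XT.lf (nat_lit 0) (nat_lit 3624607316) (nat_lit 684) (nat_lit 2764759261) (nat_lit 760) (nat_lit 266002099) (nat_lit 637) (nat_lit 5) (nat_lit 646) (nat_lit 3) (nat_lit 647) (nat_lit 5) (nat_lit 391) (nat_lit 390) (nat_lit 359)) (XT.lf (nat_lit 76) (nat_lit 461302868) (nat_lit 0) (nat_lit 5423560843) (nat_lit 760) (nat_lit 791807621) (nat_lit 638) (nat_lit 5) (nat_lit 637) (nat_lit 5) (nat_lit 647) (nat_lit 5) (nat_lit 392) (nat_lit 390) (nat_lit 358))))) (XT.nd (nat_lit 234) (nat_lit 836) (nat_lit 0) (XT.nd (nat_lit 78) (nat_lit 0) (nat_lit 0) (XT.lf (nat_lit 0) (nat_lit 1432716406) (nat_lit 760) (nat_lit 2950016032) (nat_lit 836) (nat_lit 2316303540) (nat_lit 627) (nat_lit 5) (nat_lit 637) (nat_lit 5) (nat_lit 638) (nat_lit 5) (nat_lit 393) (nat_lit 390) (nat_lit 357)) (XT.nd (nat_lit 78) (nat_lit 0) (nat_lit 0) (XT.lf (nat_lit 76) (nat_lit 349055165) (nat_lit 0) (nat_lit 3287175363) (nat_lit 836) (nat_lit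 3086646780) (nat_lit 628) (nat_lit 5) (nat_lit 627) (nat_lit 5) (nat_lit 638) (nat_lit 5) (nat_lit 394) (nat_lit 390) (nat_lit 356)) (XT.lf (nat_lit 76) (nat_lit 3723377021) (nat_lit 0) (nat_lit 2123981397) (nat_lit 836) (nat_lit 900601576) (nat_lit 628) (nat_lit 5) (nat_lit 627) (nat_lit 5) (nat_lit 638) (nat_lit 5) (nat_lit 395) (nat_lit 390) (nat_lit 355)))) (XT.nd (nat_lit 78) (nat_lit 0) (nat_lit 76) (XT.lf (nat_lit 76) (nat_lit 356801761) (nat_lit 0) (nat_lit 901697971) (nat_lit 912) (nat_lit 5515970681) (nat_lit 617) (nat_lit 5) (nat_lit 616) (nat_lit 5) (nat_lit 628) (nat_lit 5) (nat_lit 396) (nat_lit 390) (nat_lit 354)) (XT.nd (nat_lit 78) (nat_lit 0) (nat_lit 0) (XT.lf (nat_lit 0) (nat_lit 3416902874) (nat_lit 836) (nat_lit 2994598632) (nat_lit 912) (nat_lit 390560257) (nat_lit 617) (nat_lit 5) (nat_lit 628) (nat_lit 5) (nat_lit 629) (nat_lit 5) (nat_lit 397) (nat_lit 390) (nat_lit 353)) (XT.lf (nat_lit 76)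 (nat_lit 465728315) (nat_lit 0) (nat_lit 5108306244) (nat_lit 912) (nat_lit 1257091873) (nat_lit 618) (nat_lit 5) (nat_lit 617) (nat_lit 5) (nat_lit 629) (nat_lit 5) (nat_lit 398) (nat_lit 390) (nat_lit 352))))))) (XT.nd (nat_lit 858) (nat_lit 8056) (nat_lit 0) (XT.nd (nat_lit 390) (nat_lit 2128) (nat_lit 0) (XT.nd (nat_lit 156) (nat_lit 912) (nat_lit 0) (XT.nd (nat_lit 78) (nat_lit 0) (nat_lit 0) (XT.lf (nat_lit 0) (nat_lit 868814536) (nat_lit 912) (nat_lit 2862450731) (nat_lit 988) (nat_lit 3130074753) (nat_lit 605) (nat_lit 5) (nat_lit 617) (nat_lit 5) (nat_lit 618) (nat_lit 5) (nat_lit 399) (nat_lit 390) (nat_lit 351)) (XT.lf (nat_lit 76) (nat_lit 679902189) (nat_lit 0) (nat_lit 2293003981) (nat_lit 988) (nat_lit 3920066346) (nat_lit 606) (nat_lit 5) (nat_lit 605) (nat_lit 5) (nat_lit 618) (nat_lit 5) (nat_lit 400) (nat_lit 390) (nat_lit 350))) (XT.nd (nat_lit 78) (nat_lit 912) (nat_lit 0) (XT.lf (nat_lit 76) (nat_lit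 4300863660) (nat_lit 0) (nat_lit 786310688) (nat_lit 988) (nat_lit 1838731633) (nat_lit 606) (nat_lit 5) (nat_lit 605) (nat_lit 5) (nat_lit 618) (nat_lit 5) (nat_lit 401) (nat_lit 390) (nat_lit 349)) (XT.nd (nat_lit 78) (nat_lit 0) (nat_lit 0) (XT.lf (nat_lit 0) (nat_lit 241674234) (nat_lit 988) (nat_lit 5950339312) (nat_lit 1064) (nat_lit 768253258) (nat_lit 593) (nat_lit 5) (nat_lit 606) (nat_lit 5) (nat_lit 607) (nat_lit 5) (nat_lit 402) (nat_lit 390) (nat_lit 348)) (XT.lf (nat_lit 0) (nat_lit 2312467998) (nat_lit 988) (nat_lit 2291353815) (nat_lit 1064) (nat_lit 2391810413) (nat_lit 593) (nat_lit 5) (nat_lit 606) (nat_lit 5) (nat_lit 607) (nat_lit 5) (nat_lit 403) (nat_lit 390) (nat_lit 347))))) (XT.nd (nat_lit 234) (nat_lit 1140) (nat_lit 0) (XT.nd (nat_lit 78) (nat_lit 988) (nat_lit 0) (XT.lf (nat_lit 76) (nat_lit 1428099925) (nat_lit 0) (nat_lit 2957259639) (nat_lit 1064) (nat_lit 2647159664) (nat_lit 594) (nat_lit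 5) (nat_lit 593) (nat_lit 5) (nat_lit 607) (nat_lit 5) (nat_lit 404) (nat_lit 390) (nat_lit 346)) (XT.nd (nat_lit 78) (nat_lit 988) (nat_lit 0) (XT.lf (nat_lit 76) (nat_lit 5221768241) (nat_lit 0) (nat_lit 1245476623) (nat_lit 1064) (nat_lit 603575755) (nat_lit 594) (nat_lit 5) (nat_lit 593) (nat_lit 5) (nat_lit 607) (nat_lit 5) (nat_lit 405) (nat_lit 390) (nat_lit 345)) (XT.lf (nat_lit 0) (nat_lit 1430486864) (nat_lit 1064) (nat_lit 5147593598) (nat_lit 1140) (nat_lit 532260999) (nat_lit 580) (nat_lit 5) (nat_lit 594) (nat_lit 5) (nat_lit 595) (nat_lit 5) (nat_lit 406) (nat_lit 390) (nat_lit 344)))) (XT.nd (nat_lit 78) (nat_lit 1140) (nat_lit 0) (XT.lf (nat_lit 0) (nat_lit 3471480366) (nat_lit 1064) (nat_lit 1319010256) (nat_lit 1140) (nat_lit 2360621462) (nat_lit 580) (nat_lit 5) (nat_lit 594) (nat_lit 5) (nat_lit 595) (nat_lit 5) (nat_lit 407) (nat_lit 390) (nat_lit 343)) (XT.nd (nat_lit 78) (nat_lit 1140) (nat_lit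 0) (XT.lf (nat_lit 76) (nat_lit 2588597967) (nat_lit 0) (nat_lit 2935998232) (nat_lit 1140) (nat_lit 1668701152) (nat_lit 581) (nat_lit 5) (nat_lit 580) (nat_lit 5) (nat_lit 595) (nat_lit 5) (nat_lit 408) (nat_lit 390) (nat_lit 342)) (XT.lf (nat_lit 0) (nat_lit 341205428) (nat_lit 1140) (nat_lit 678366774) (nat_lit 1216) (nat_lit 6217453292) (nat_lit 565) (nat_lit 5) (nat_lit 580) (nat_lit 5) (nat_lit 581) (nat_lit 5) (nat_lit 409) (nat_lit 390) (nat_lit 341)))))) (XT.nd (nat_lit 390) (nat_lit 5700) (nat_lit 0) (XT.nd (nat_lit 156) (nat_lit 1292) (nat_lit 0) (XT.nd (nat_lit 78) (nat_lit 1140) (nat_lit 0) (XT.lf (nat_lit 0) (nat_lit 2352714097) (nat_lit 1140) (nat_lit 3960457899) (nat_lit 76) (nat_lit 968584469) (nat_lit 566) (nat_lit 5) (nat_lit 581) (nat_lit 5) (nat_lit 567) (nat_lit 5) (nat_lit 410) (nat_lit 390) (nat_lit 340)) (XT.lf (nat_lit 0) (nat_lit 44606089) (nat_lit 1140) (nat_lit 4327966434) (nat_lit 1216)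 (nat_lit 2955470495) (nat_lit 551) (nat_lit 5) (nat_lit 566) (nat_lit 5) (nat_lit 567) (nat_lit 5) (nat_lit 411) (nat_lit 390) (nat_lit 339))) (XT.nd (nat_lit 78) (nat_lit 1292) (nat_lit 0) (XT.lf (nat_lit 0) (nat_lit 4151609026) (nat_lit 1140) (nat_lit 2264937597) (nat_lit 1216) (nat_lit 959057207) (nat_lit 551) (nat_lit 5) (nat_lit 566) (nat_lit 5) (nat_lit 567) (nat_lit 5) (nat_lit 412) (nat_lit 390) (nat_lit 338)) (XT.nd (nat_lit 78) (nat_lit 0) (nat_lit 0) (XT.lf (nat_lit 0) (nat_lit 889500355) (nat_lit 1216) (nat_lit 137112126) (nat_lit 1292) (nat_lit 6398116358) (nat_lit 534) (nat_lit 5) (nat_lit 550) (nat_lit 5) (nat_lit 551) (nat_lit 5) (nat_lit 413) (nat_lit 390) (nat_lit 337)) (XT.lf (nat_lit 0) (nat_lit 3032516959) (nat_lit 1292) (nat_lit 2397651182) (nat_lit 76) (nat_lit 2044695734) (nat_lit 534) (nat_lit 5) (nat_lit 551) (nat_lit 5) (nat_lit 535) (nat_lit 5) (nat_lit 414) (nat_lit 390) (nat_lit 336)))))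 (XT.nd (nat_lit 234) (nat_lit 2964) (nat_lit 0) (XT.nd (nat_lit 78) (nat_lit 1444) (nat_lit 0) (XT.lf (nat_lit 0) (nat_lit 1813674879) (nat_lit 1292) (nat_lit 3236736342) (nat_lit 1368) (nat_lit 2476174111) (nat_lit 517) (nat_lit 5) (nat_lit 534) (nat_lit 5) (nat_lit 535) (nat_lit 5) (nat_lit 415) (nat_lit 390) (nat_lit 335)) (XT.nd (nat_lit 78) (nat_lit 1444) (nat_lit 0) (XT.lf (nat_lit 0) (nat_lit 6110056572) (nat_lit 1292) (nat_lit 974478987) (nat_lit 1368) (nat_lit 495308954) (nat_lit 517) (nat_lit 5) (nat_lit 534) (nat_lit 5) (nat_lit 535) (nat_lit 5) (nat_lit 416) (nat_lit 390) (nat_lit 334)) (XT.lf (nat_lit 0) (nat_lit 1492887395) (nat_lit 1444) (nat_lit 4789181519) (nat_lit 76) (nat_lit 1352167512) (nat_lit 498) (nat_lit 5) (nat_lit 517) (nat_lit 5) (nat_lit 499) (nat_lit 5) (nat_lit 417) (nat_lit 390) (nat_lit 333)))) (XT.nd (nat_lit 78) (nat_lit 2964) (nat_lit 0) (XT.lf (nat_lit 0) (nat_lit 3491518739) (nat_lit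 1444) (nat_lit 465442927) (nat_lit 76) (nat_lit 3733162510) (nat_lit 498) (nat_lit 5) (nat_lit 517) (nat_lit 5) (nat_lit 499) (nat_lit 5) (nat_lit 418) (nat_lit 390) (nat_lit 332)) (XT.nd (nat_lit 78) (nat_lit 1520) (nat_lit 0) (XT.lf (nat_lit 0) (nat_lit 3965163511) (nat_lit 1444) (nat_lit 1552385221) (nat_lit 1520) (nat_lit 2229851589) (nat_lit 479) (nat_lit 5) (nat_lit 498) (nat_lit 5) (nat_lit 499) (nat_lit 5) (nat_lit 419) (nat_lit 390) (nat_lit 331)) (XT.lf (nat_lit 0) (nat_lit 655443760) (nat_lit 1520) (nat_lit 6904170776) (nat_lit 1596) (nat_lit 246715931) (nat_lit 459) (nat_lit 5) (nat_lit 479) (nat_lit 5) (nat_lit 480) (nat_lit 5) (nat_lit 420) (nat_lit 390) (nat_lit 330))))))))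
noncomputable def xc123 : XT := (XT.nd (nat_lit 1638) (nat_lit 8132) (nat_lit 0) (XT.nd (nat_lit 780) (nat_lit 5776) (nat_lit 0) (XT.nd (nat_lit 390) (nat_lit 3800) (nat_lit 0) (XT.nd (nat_lit 156) (nat_lit 1748) (nat_lit 0) (XT.nd (nat_lit 78) (nat_lit 1596) (nat_lit 0) (XT.lf (nat_lit 0) (nat_lit 1751156205) (nat_lit 1596) (nat_lit 2687287017) (nat_lit 76) (nat_lit 3427816071) (nat_lit 458) (nat_lit 5) (nat_lit 479) (nat_lit 5) (nat_lit 459) (nat_lit 5) (nat_lit 421) (nat_lit 390) (nat_lit 329)) (XT.lf (nat_lit 0) (nat_lit 1856413385) (nat_lit 1596) (nat_lit 1904597407) (nat_lit 1672) (nat_lit 4166854418) (nat_lit 437) (nat_lit 5) (nat_lit 458) (nat_lit 5) (nat_lit 459) (nat_lit 5) (nat_lit 422) (nat_lit 390) (nat_lit 328))) (XT.nd (nat_lit 78) (nat_lit 1748) (nat_lit 0) (XT.lf (nat_lit 0) (nat_lit 5797445872) (nat_lit 1672) (nat_lit 1499907766) (nat_lit 76) (nat_lit 693639293) (nat_lit 437) (nat_lit 5) (nat_lit 459)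 (nat_lit 5) (nat_lit 438) (nat_lit 5) (nat_lit 423) (nat_lit 390) (nat_lit 327)) (XT.nd (nat_lit 78) (nat_lit 76) (nat_lit 0) (XT.lf (nat_lit 0) (nat_lit 3160089371) (nat_lit 1672) (nat_lit 4712176728) (nat_lit 1748) (nat_lit 183180992) (nat_lit 415) (nat_lit 5) (nat_lit 437) (nat_lit 5) (nat_lit 438) (nat_lit 5) (nat_lit 424) (nat_lit 390) (nat_lit 326)) (XT.lf (nat_lit 0) (nat_lit 1817801119) (nat_lit 1748) (nat_lit 231646950) (nat_lit 76) (nat_lit 6072018132) (nat_lit 414) (nat_lit 5) (nat_lit 437) (nat_lit 5) (nat_lit 415) (nat_lit 5) (nat_lit 425) (nat_lit 390) (nat_lit 325))))) (XT.nd (nat_lit 156) (nat_lit 988) (nat_lit 0) (XT.nd (nat_lit 78) (nat_lit 1064) (nat_lit 0) (XT.lf (nat_lit 0) (nat_lit 3855919705) (nat_lit 1824) (nat_lit 3641074307) (nat_lit 76) (nat_lit 691812104) (nat_lit 391) (nat_lit 5) (nat_lit 415) (nat_lit 5) (nat_lit 392) (nat_lit 5) (nat_lit 426) (nat_lit 390) (nat_lit 324)) (XT.lf (nat_lit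 0) (nat_lit 1137751161) (nat_lit 1064) (nat_lit 4785525394) (nat_lit 1140) (nat_lit 2334462474) (nat_lit 377) (nat_lit 5) (nat_lit 391) (nat_lit 5) (nat_lit 392) (nat_lit 5) (nat_lit 427) (nat_lit 390) (nat_lit 323))) (XT.nd (nat_lit 78) (nat_lit 988) (nat_lit 0) (XT.lf (nat_lit 0) (nat_lit 6029754862) (nat_lit 1064) (nat_lit 1993072241) (nat_lit 1140) (nat_lit 305421977) (nat_lit 377) (nat_lit 5) (nat_lit 391) (nat_lit 5) (nat_lit 392) (nat_lit 5) (nat_lit 428) (nat_lit 390) (nat_lit 322)) (XT.nd (nat_lit 78) (nat_lit 0) (nat_lit 0) (XT.lf (nat_lit 0) (nat_lit 1730601134) (nat_lit 988) (nat_lit 5795403422) (nat_lit 76) (nat_lit 874159707) (nat_lit 364) (nat_lit 5) (nat_lit 377) (nat_lit 5) (nat_lit 365) (nat_lit 5) (nat_lit 429) (nat_lit 390) (nat_lit 321)) (XT.lf (nat_lit 0) (nat_lit 3799278124) (nat_lit 988) (nat_lit 883352095) (nat_lit 76) (nat_lit 3790941215) (nat_lit 364) (nat_lit 5) (nat_lit 377) (nat_lit 5) (nat_lit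 365) (nat_lit 5) (nat_lit 430) (nat_lit 390) (nat_lit 320)))))) (XT.nd (nat_lit 390) (nat_lit 3192) (nat_lit 0) (XT.nd (nat_lit 156) (nat_lit 912) (nat_lit 0) (XT.nd (nat_lit 78) (nat_lit 836) (nat_lit 0) (XT.lf (nat_lit 0) (nat_lit 4149939457) (nat_lit 836) (nat_lit 1754268441) (nat_lit 912) (nat_lit 2644355501) (nat_lit 353) (nat_lit 5) (nat_lit 364) (nat_lit 5) (nat_lit 365) (nat_lit 5) (nat_lit 431) (nat_lit 390) (nat_lit 319)) (XT.lf (nat_lit 0) (nat_lit 639407007) (nat_lit 836) (nat_lit 7398314792) (nat_lit 912) (nat_lit 587617652) (nat_lit 342) (nat_lit 5) (nat_lit 353) (nat_lit 5) (nat_lit 354) (nat_lit 5) (nat_lit 432) (nat_lit 390) (nat_lit 318))) (XT.nd (nat_lit 78) (nat_lit 836) (nat_lit 0) (XT.lf (nat_lit 0) (nat_lit 1500336216) (nat_lit 912) (nat_lit 2918948594) (nat_lit 76) (nat_lit 4283985744) (nat_lit 341) (nat_lit 5) (nat_lit 353) (nat_lit 5) (nat_lit 342) (nat_lit 5) (nat_lit 433) (nat_lit 390) (nat_lit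 317)) (XT.nd (nat_lit 78) (nat_lit 0) (nat_lit 0) (XT.lf (nat_lit 0) (nat_lit 2243443581) (nat_lit 836) (nat_lit 1362485459) (nat_lit 912) (nat_lit 5177091748) (nat_lit 330) (nat_lit 5) (nat_lit 341) (nat_lit 5) (nat_lit 342) (nat_lit 5) (nat_lit 434) (nat_lit 390) (nat_lit 316)) (XT.lf (nat_lit 0) (nat_lit 5754319545) (nat_lit 912) (nat_lit 1358722801) (nat_lit 76) (nat_lit 1751322857) (nat_lit 330) (nat_lit 5) (nat_lit 342) (nat_lit 5) (nat_lit 331) (nat_lit 5) (nat_lit 435) (nat_lit 390) (nat_lit 315))))) (XT.nd (nat_lit 234) (nat_lit 1520) (nat_lit 0) (XT.nd (nat_lit 78) (nat_lit 836) (nat_lit 0) (XT.lf (nat_lit 0) (nat_lit 3937114536) (nat_lit 836) (nat_lit 4013316292) (nat_lit 912) (nat_lit 996823262) (nat_lit 319) (nat_lit 5) (nat_lit 330) (nat_lit 5) (nat_lit 331) (nat_lit 5) (nat_lit 436) (nat_lit 390) (nat_lit 314)) (XT.nd (nat_lit 78) (nat_lit 0) (nat_lit 0) (XT.lf (nat_lit 0) (nat_lit 290446394) (nat_lit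 760) (nat_lit 834428683) (nat_lit 836) (nat_lit 7907159219) (nat_lit 308) (nat_lit 5) (nat_lit 318) (nat_lit 5) (nat_lit 319) (nat_lit 5) (nat_lit 437) (nat_lit 390) (nat_lit 313)) (XT.lf (nat_lit 0) (nat_lit 3295859888) (nat_lit 836) (nat_lit 3407164134) (nat_lit 76) (nat_lit 2414962218) (nat_lit 308) (nat_lit 5) (nat_lit 319) (nat_lit 5) (nat_lit 309) (nat_lit 5) (nat_lit 438) (nat_lit 390) (nat_lit 312)))) (XT.nd (nat_lit 78) (nat_lit 760) (nat_lit 0) (XT.lf (nat_lit 0) (nat_lit 2023762573) (nat_lit 760) (nat_lit 3476451362) (nat_lit 836) (nat_lit 3705655974) (nat_lit 298) (nat_lit 5) (nat_lit 308) (nat_lit 5) (nat_lit 309) (nat_lit 5) (nat_lit 439) (nat_lit 390) (nat_lit 311)) (XT.nd (nat_lit 78) (nat_lit 760) (nat_lit 0) (XT.lf (nat_lit 0) (nat_lit 7578496565) (nat_lit 760) (nat_lit 164668088) (nat_lit 836) (nat_lit 1552467856) (nat_lit 298) (nat_lit 5) (nat_lit 308) (nat_lit 5) (nat_lit 309) (nat_lit 5) (nat_lit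 440) (nat_lit 390) (nat_lit 310)) (XT.lf (nat_lit 0) (nat_lit 653532523) (nat_lit 760) (nat_lit 5535235801) (nat_lit 76) (nat_lit 3197985608) (nat_lit 288) (nat_lit 5) (nat_lit 298) (nat_lit 5) (nat_lit 289) (nat_lit 5) (nat_lit 441) (nat_lit 390) (nat_lit 309))))))) (XT.nd (nat_lit 858) (nat_lit 4028) (nat_lit 0) (XT.nd (nat_lit 390) (nat_lit 1900) (nat_lit 0) (XT.nd (nat_lit 156) (nat_lit 1444) (nat_lit 0) (XT.nd (nat_lit 78) (nat_lit 0) (nat_lit 0) (XT.lf (nat_lit 0) (nat_lit 33228196) (nat_lit 760) (nat_lit 2834899993) (nat_lit 836) (nat_lit 6611669891) (nat_lit 278) (nat_lit 5) (nat_lit 288) (nat_lit 5) (nat_lit 289) (nat_lit 5) (nat_lit 442) (nat_lit 390) (nat_lit 308)) (XT.lf (nat_lit 0) (nat_lit 5140867452) (nat_lit 836) (nat_lit 3821360866) (nat_lit 76) (nat_lit 612208337) (nat_lit 278) (nat_lit 5) (nat_lit 289) (nat_lit 5) (nat_lit 279) (nat_lit 5) (nat_lit 443) (nat_lit 390) (nat_lit 307))) (XT.nd (nat_lit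 78) (nat_lit 760) (nat_lit 0) (XT.lf (nat_lit 0) (nat_lit 1891560127) (nat_lit 684) (nat_lit 5571749308) (nat_lit 760) (nat_lit 2207583978) (nat_lit 269) (nat_lit 5) (nat_lit 278) (nat_lit 5) (nat_lit 279) (nat_lit 5) (nat_lit 444) (nat_lit 390) (nat_lit 306)) (XT.nd (nat_lit 78) (nat_lit 684) (nat_lit 0) (XT.lf (nat_lit 0) (nat_lit 61242807) (nat_lit 760) (nat_lit 2029793420) (nat_lit 76) (nat_lit 7678261935) (nat_lit 268) (nat_lit 5) (nat_lit 278) (nat_lit 5) (nat_lit 269) (nat_lit 5) (nat_lit 445) (nat_lit 390) (nat_lit 305)) (XT.lf (nat_lit 0) (nat_lit 2354412577) (nat_lit 760) (nat_lit 6039020736) (nat_lit 76) (nat_lit 1475785101) (nat_lit 259) (nat_lit 5) (nat_lit 269) (nat_lit 5) (nat_lit 260) (nat_lit 5) (nat_lit 446) (nat_lit 390) (nat_lit 304))))) (XT.nd (nat_lit 234) (nat_lit 684) (nat_lit 0) (XT.nd (nat_lit 78) (nat_lit 1216) (nat_lit 0) (XT.lf (nat_lit 0) (nat_lit 4695150021) (nat_lit 760) (nat_lit 180577894)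 (nat_lit 76) (nat_lit 5095384652) (nat_lit 259) (nat_lit 5) (nat_lit 269) (nat_lit 5) (nat_lit 260) (nat_lit 5) (nat_lit 447) (nat_lit 390) (nat_lit 303)) (XT.nd (nat_lit 78) (nat_lit 608) (nat_lit 0) (XT.lf (nat_lit 0) (nat_lit 5841570484) (nat_lit 608) (nat_lit 1253711204) (nat_lit 684) (nat_lit 2979520717) (nat_lit 251) (nat_lit 5) (nat_lit 259) (nat_lit 5) (nat_lit 260) (nat_lit 5) (nat_lit 448) (nat_lit 390) (nat_lit 302)) (XT.lf (nat_lit 0) (nat_lit 1783242975) (nat_lit 608) (nat_lit 7763741515) (nat_lit 684) (nat_lit 633519389) (nat_lit 243) (nat_lit 5) (nat_lit 251) (nat_lit 5) (nat_lit 252) (nat_lit 5) (nat_lit 449) (nat_lit 390) (nat_lit 301)))) (XT.nd (nat_lit 78) (nat_lit 608) (nat_lit 0) (XT.lf (nat_lit 0) (nat_lit 1748271791) (nat_lit 684) (nat_lit 2360733515) (nat_lit 76) (nat_lit 6178855571) (nat_lit 242) (nat_lit 5) (nat_lit 251) (nat_lit 5) (nat_lit 243) (nat_lit 5) (nat_lit 450) (nat_lit 390) (nat_lit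 300)) (XT.nd (nat_lit 78) (nat_lit 0) (nat_lit 0) (XT.lf (nat_lit 0) (nat_lit 3812429467) (nat_lit 608) (nat_lit 357083170) (nat_lit 684) (nat_lit 6227771368) (nat_lit 234) (nat_lit 5) (nat_lit 242) (nat_lit 5) (nat_lit 243) (nat_lit 5) (nat_lit 451) (nat_lit 390) (nat_lit 299)) (XT.lf (nat_lit 0) (nat_lit 6653440594) (nat_lit 684) (nat_lit 420315967) (nat_lit 76) (nat_lit 3434862296) (nat_lit 234) (nat_lit 5) (nat_lit 243) (nat_lit 5) (nat_lit 235) (nat_lit 5) (nat_lit 452) (nat_lit 390) (nat_lit 298)))))) (XT.nd (nat_lit 390) (nat_lit 2204) (nat_lit 0) (XT.nd (nat_lit 156) (nat_lit 608) (nat_lit 0) (XT.nd (nat_lit 78) (nat_lit 608) (nat_lit 0) (XT.lf (nat_lit 0) (nat_lit 5913132120) (nat_lit 608) (nat_lit 3290933392) (nat_lit 684) (nat_lit 1417782867) (nat_lit 226) (nat_lit 5) (nat_lit 234) (nat_lit 5) (nat_lit 235) (nat_lit 5) (nat_lit 453) (nat_lit 390) (nat_lit 297)) (XT.lf (nat_lit 0) (nat_lit 1047900270) (nat_lit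 608) (nat_lit 9114857108) (nat_lit 76) (nat_lit 574583368) (nat_lit 218) (nat_lit 5) (nat_lit 226) (nat_lit 5) (nat_lit 219) (nat_lit 5) (nat_lit 454) (nat_lit 390) (nat_lit 296))) (XT.nd (nat_lit 78) (nat_lit 608) (nat_lit 0) (XT.lf (nat_lit 0) (nat_lit 3574136954) (nat_lit 608) (nat_lit 2771703826) (nat_lit 76) (nat_lit 4508518129) (nat_lit 218) (nat_lit 5) (nat_lit 226) (nat_lit 5) (nat_lit 219) (nat_lit 5) (nat_lit 455) (nat_lit 390) (nat_lit 295)) (XT.nd (nat_lit 78) (nat_lit 0) (nat_lit 0) (XT.lf (nat_lit 0) (nat_lit 3717722654) (nat_lit 608) (nat_lit 2434377136) (nat_lit 684) (nat_lit 4821601323) (nat_lit 210) (nat_lit 5) (nat_lit 218) (nat_lit 5) (nat_lit 219) (nat_lit 5) (nat_lit 456) (nat_lit 390) (nat_lit 294)) (XT.lf (nat_lit 0) (nat_lit 8787724659) (nat_lit 684) (nat_lit 760345042) (nat_lit 76) (nat_lit 1547245957) (nat_lit 210) (nat_lit 5) (nat_lit 219) (nat_lit 5) (nat_lit 211) (nat_lit 5) (nat_lit 457)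 (nat_lit 390) (nat_lit 293))))) (XT.nd (nat_lit 234) (nat_lit 1064) (nat_lit 0) (XT.nd (nat_lit 78) (nat_lit 532) (nat_lit 0) (XT.lf (nat_lit 0) (nat_lit 285677458) (nat_lit 608) (nat_lit 5323175876) (nat_lit 76) (nat_lit 5609836197) (nat_lit 202) (nat_lit 5) (nat_lit 210) (nat_lit 5) (nat_lit 203) (nat_lit 5) (nat_lit 458) (nat_lit 390) (nat_lit 292)) (XT.nd (nat_lit 78) (nat_lit 0) (nat_lit 0) (XT.lf (nat_lit 0) (nat_lit 1323301277) (nat_lit 532) (nat_lit 1568192118) (nat_lit 608) (nat_lit 8452907926) (nat_lit 195) (nat_lit 5) (nat_lit 202) (nat_lit 5) (nat_lit 203) (nat_lit 5) (nat_lit 459) (nat_lit 390) (nat_lit 291)) (XT.lf (nat_lit 0) (nat_lit 5579986886) (nat_lit 608) (nat_lit 3343176360) (nat_lit 76) (nat_lit 2548859854) (nat_lit 195) (nat_lit 5) (nat_lit 203) (nat_lit 5) (nat_lit 196) (nat_lit 5) (nat_lit 460) (nat_lit 390) (nat_lit 290)))) (XT.nd (nat_lit 78) (nat_lit 608) (nat_lit 0) (XT.lf (nat_lit 0) (nat_lit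 3474752922) (nat_lit 456) (nat_lit 4858899727) (nat_lit 532) (nat_lit 3268323460) (nat_lit 189) (nat_lit 5) (nat_lit 195) (nat_lit 5) (nat_lit 196) (nat_lit 5) (nat_lit 461) (nat_lit 390) (nat_lit 289)) (XT.nd (nat_lit 78) (nat_lit 608) (nat_lit 0) (XT.lf (nat_lit 0) (nat_lit 10445807996) (nat_lit 456) (nat_lit 697711878) (nat_lit 532) (nat_lit 590992449) (nat_lit 189) (nat_lit 5) (nat_lit 195) (nat_lit 5) (nat_lit 196) (nat_lit 5) (nat_lit 462) (nat_lit 390) (nat_lit 288)) (XT.lf (nat_lit 0) (nat_lit 2151239563) (nat_lit 608) (nat_lit 6172998184) (nat_lit 76) (nat_lit 3544401704) (nat_lit 181) (nat_lit 5) (nat_lit 189) (nat_lit 5) (nat_lit 182) (nat_lit 5) (nat_lit 463) (nat_lit 390) (nat_lit 287))))))))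
noncomputable def xc124 : XT := (XT.nd (nat_lit 1638) (nat_lit 3420) (nat_lit 0) (XT.nd (nat_lit 780) (nat_lit 2432) (nat_lit 0) (XT.nd (nat_lit 390) (nat_lit 1368) (nat_lit 0) (XT.nd (nat_lit 156) (nat_lit 988) (nat_lit 0) (XT.nd (nat_lit 78) (nat_lit 0) (nat_lit 0) (XT.lf (nat_lit 0) (nat_lit 805371562) (nat_lit 456) (nat_lit 4132742776) (nat_lit 532) (nat_lit 7067308745) (nat_lit 175) (nat_lit 5) (nat_lit 181) (nat_lit 5) (nat_lit 182) (nat_lit 5) (nat_lit 464) (nat_lit 390) (nat_lit 286)) (XT.lf (nat_lit 0) (nat_lit 7802675635) (nat_lit 532) (nat_lit 4166976032) (nat_lit 76) (nat_lit 174857936) (nat_lit 175) (nat_lit 5) (nat_lit 182) (nat_lit 5) (nat_lit 176) (nat_lit 5) (nat_lit 465) (nat_lit 390) (nat_lit 285))) (XT.nd (nat_lit 78) (nat_lit 532) (nat_lit 0) (XT.lf (nat_lit 0) (nat_lit 2990527452) (nat_lit 456) (nat_lit 7760516635) (nat_lit 532) (nat_lit 1534809524) (nat_lit 169) (nat_lit 5) (nat_lit 175) (nat_lit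 5) (nat_lit 176) (nat_lit 5) (nat_lit 466) (nat_lit 390) (nat_lit 284)) (XT.nd (nat_lit 78) (nat_lit 456) (nat_lit 0) (XT.lf (nat_lit 0) (nat_lit 1318889471) (nat_lit 532) (nat_lit 2118784602) (nat_lit 76) (nat_lit 8992024661) (nat_lit 168) (nat_lit 5) (nat_lit 175) (nat_lit 5) (nat_lit 169) (nat_lit 5) (nat_lit 467) (nat_lit 390) (nat_lit 283)) (XT.lf (nat_lit 0) (nat_lit 4229854682) (nat_lit 532) (nat_lit 7350368543) (nat_lit 76) (nat_lit 995585490) (nat_lit 162) (nat_lit 5) (nat_lit 169) (nat_lit 5) (nat_lit 163) (nat_lit 5) (nat_lit 468) (nat_lit 390) (nat_lit 282))))) (XT.nd (nat_lit 156) (nat_lit 912) (nat_lit 0) (XT.nd (nat_lit 78) (nat_lit 456) (nat_lit 0) (XT.lf (nat_lit 0) (nat_lit 7216480389) (nat_lit 532) (nat_lit 29933849) (nat_lit 76) (nat_lit 5478083448) (nat_lit 162) (nat_lit 5) (nat_lit 169) (nat_lit 5) (nat_lit 163) (nat_lit 5) (nat_lit 469) (nat_lit 390) (nat_lit 281)) (XT.lf (nat_lit 0) (nat_lit 7508137734)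 (nat_lit 456) (nat_lit 2784196547) (nat_lit 532) (nat_lit 2583241744) (nat_lit 156) (nat_lit 5) (nat_lit 162) (nat_lit 5) (nat_lit 163) (nat_lit 5) (nat_lit 470) (nat_lit 390) (nat_lit 280))) (XT.nd (nat_lit 78) (nat_lit 456) (nat_lit 0) (XT.lf (nat_lit 0) (nat_lit 401400662) (nat_lit 456) (nat_lit 10875068004) (nat_lit 76) (nat_lit 1753028251) (nat_lit 150) (nat_lit 5) (nat_lit 156) (nat_lit 5) (nat_lit 151) (nat_lit 5) (nat_lit 471) (nat_lit 390) (nat_lit 279)) (XT.nd (nat_lit 78) (nat_lit 456) (nat_lit 0) (XT.lf (nat_lit 0) (nat_lit 3446838945) (nat_lit 456) (nat_lit 3349545277) (nat_lit 76) (nat_lit 6389061836) (nat_lit 150) (nat_lit 5) (nat_lit 156) (nat_lit 5) (nat_lit 151) (nat_lit 5) (nat_lit 472) (nat_lit 390) (nat_lit 278)) (XT.lf (nat_lit 0) (nat_lit 4356689975) (nat_lit 456) (nat_lit 2206120819) (nat_lit 532) (nat_lit 6781515973) (nat_lit 144) (nat_lit 5) (nat_lit 150) (nat_lit 5) (nat_lit 151) (nat_lit 5)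 (nat_lit 473) (nat_lit 390) (nat_lit 277)))))) (XT.nd (nat_lit 390) (nat_lit 1216) (nat_lit 0) (XT.nd (nat_lit 156) (nat_lit 836) (nat_lit 0) (XT.nd (nat_lit 78) (nat_lit 380) (nat_lit 0) (XT.lf (nat_lit 0) (nat_lit 9761280278) (nat_lit 532) (nat_lit 1286786035) (nat_lit 76) (nat_lit 2457920199) (nat_lit 144) (nat_lit 5) (nat_lit 151) (nat_lit 5) (nat_lit 145) (nat_lit 5) (nat_lit 474) (nat_lit 390) (nat_lit 276)) (XT.lf (nat_lit 0) (nat_lit 6613661974) (nat_lit 380) (nat_lit 6449447363) (nat_lit 456) (nat_lit 606987197) (nat_lit 139) (nat_lit 5) (nat_lit 144) (nat_lit 5) (nat_lit 145) (nat_lit 5) (nat_lit 475) (nat_lit 390) (nat_lit 275))) (XT.nd (nat_lit 78) (nat_lit 380) (nat_lit 0) (XT.lf (nat_lit 0) (nat_lit 819477776) (nat_lit 380) (nat_lit 1735908104) (nat_lit 456) (nat_lit 11281852526) (nat_lit 133) (nat_lit 5) (nat_lit 138) (nat_lit 5) (nat_lit 139) (nat_lit 5) (nat_lit 476) (nat_lit 390) (nat_lit 274)) (XT.nd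 (nat_lit 78) (nat_lit 380) (nat_lit 0) (XT.lf (nat_lit 0) (nat_lit 5822525990) (nat_lit 456) (nat_lit 5109246116) (nat_lit 76) (nat_lit 3074882428) (nat_lit 133) (nat_lit 5) (nat_lit 139) (nat_lit 5) (nat_lit 134) (nat_lit 5) (nat_lit 477) (nat_lit 390) (nat_lit 273)) (XT.lf (nat_lit 0) (nat_lit 2958516600) (nat_lit 380) (nat_lit 6209578135) (nat_lit 456) (nat_lit 5011107047) (nat_lit 128) (nat_lit 5) (nat_lit 133) (nat_lit 5) (nat_lit 134) (nat_lit 5) (nat_lit 478) (nat_lit 390) (nat_lit 272))))) (XT.nd (nat_lit 234) (nat_lit 760) (nat_lit 0) (XT.nd (nat_lit 78) (nat_lit 456) (nat_lit 0) (XT.lf (nat_lit 0) (nat_lit 11230836809) (nat_lit 380) (nat_lit 1366581180) (nat_lit 456) (nat_lit 1757449548) (nat_lit 128) (nat_lit 5) (nat_lit 133) (nat_lit 5) (nat_lit 134) (nat_lit 5) (nat_lit 479) (nat_lit 390) (nat_lit 271)) (XT.nd (nat_lit 78) (nat_lit 0) (nat_lit 0) (XT.lf (nat_lit 0) (nat_lit 1580563986) (nat_lit 456) (nat_lit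 9390554303) (nat_lit 76) (nat_lit 3561934648) (nat_lit 122) (nat_lit 5) (nat_lit 128) (nat_lit 5) (nat_lit 123) (nat_lit 5) (nat_lit 480) (nat_lit 390) (nat_lit 270)) (XT.lf (nat_lit 0) (nat_lit 4974878122) (nat_lit 456) (nat_lit 1144401967) (nat_lit 76) (nat_lit 8595032340) (nat_lit 122) (nat_lit 5) (nat_lit 128) (nat_lit 5) (nat_lit 123) (nat_lit 5) (nat_lit 481) (nat_lit 390) (nat_lit 269)))) (XT.nd (nat_lit 78) (nat_lit 456) (nat_lit 0) (XT.lf (nat_lit 0) (nat_lit 7337516989) (nat_lit 304) (nat_lit 1130434570) (nat_lit 380) (nat_lit 6430632180) (nat_lit 118) (nat_lit 5) (nat_lit 122) (nat_lit 5) (nat_lit 123) (nat_lit 5) (nat_lit 482) (nat_lit 390) (nat_lit 268)) (XT.nd (nat_lit 78) (nat_lit 76) (nat_lit 0) (XT.lf (nat_lit 0) (nat_lit 878469024) (nat_lit 380) (nat_lit 11174892652) (nat_lit 456) (nat_lit 3032733304) (nat_lit 113) (nat_lit 5) (nat_lit 118) (nat_lit 5) (nat_lit 119) (nat_lit 5) (nat_lit 483) (nat_lit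 390) (nat_lit 267)) (XT.lf (nat_lit 0) (nat_lit 469395179) (nat_lit 456) (nat_lit 5723247496) (nat_lit 76) (nat_lit 9083822338) (nat_lit 112) (nat_lit 5) (nat_lit 118) (nat_lit 5) (nat_lit 113) (nat_lit 5) (nat_lit 484) (nat_lit 390) (nat_lit 266))))))) (XT.nd (nat_lit 780) (nat_lit 1444) (nat_lit 0) (XT.nd (nat_lit 390) (nat_lit 988) (nat_lit 0) (XT.nd (nat_lit 156) (nat_lit 684) (nat_lit 0) (XT.nd (nat_lit 78) (nat_lit 0) (nat_lit 0) (XT.lf (nat_lit 0) (nat_lit 2924025360) (nat_lit 304) (nat_lit 1079671954) (nat_lit 380) (nat_lit 11466493195) (nat_lit 108) (nat_lit 5) (nat_lit 112) (nat_lit 5) (nat_lit 113) (nat_lit 5) (nat_lit 485) (nat_lit 390) (nat_lit 265)) (XT.lf (nat_lit 0) (nat_lit 7658014071) (nat_lit 380) (nat_lit 3897466128) (nat_lit 76) (nat_lit 4111327447) (nat_lit 108) (nat_lit 5) (nat_lit 113) (nat_lit 5) (nat_lit 109) (nat_lit 5) (nat_lit 486) (nat_lit 390) (nat_lit 264))) (XT.nd (nat_lit 78) (nat_lit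 380) (nat_lit 0) (XT.lf (nat_lit 0) (nat_lit 4957404963) (nat_lit 304) (nat_lit 6451483855) (nat_lit 380) (nat_lit 4458002506) (nat_lit 104) (nat_lit 5) (nat_lit 108) (nat_lit 5) (nat_lit 109) (nat_lit 5) (nat_lit 487) (nat_lit 390) (nat_lit 263)) (XT.nd (nat_lit 78) (nat_lit 380) (nat_lit 0) (XT.lf (nat_lit 0) (nat_lit 14017697932) (nat_lit 304) (nat_lit 1227523896) (nat_lit 380) (nat_lit 825549592) (nat_lit 104) (nat_lit 5) (nat_lit 108) (nat_lit 5) (nat_lit 109) (nat_lit 5) (nat_lit 488) (nat_lit 390) (nat_lit 262)) (XT.lf (nat_lit 0) (nat_lit 2898912863) (nat_lit 380) (nat_lit 9275019159) (nat_lit 76) (nat_lit 4103284069) (nat_lit 99) (nat_lit 5) (nat_lit 104) (nat_lit 5) (nat_lit 100) (nat_lit 5) (nat_lit 489) (nat_lit 390) (nat_lit 261))))) (XT.nd (nat_lit 156) (nat_lit 684) (nat_lit 0) (XT.nd (nat_lit 78) (nat_lit 304) (nat_lit 0) (XT.lf (nat_lit 0) (nat_lit 6693399128) (nat_lit 380) (nat_lit 259129495) (nat_lit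 76) (nat_lit 9535023478) (nat_lit 99) (nat_lit 5) (nat_lit 104) (nat_lit 5) (nat_lit 100) (nat_lit 5) (nat_lit 490) (nat_lit 390) (nat_lit 260)) (XT.lf (nat_lit 0) (nat_lit 9031676751) (nat_lit 304) (nat_lit 1575620937) (nat_lit 380) (nat_lit 6093929978) (nat_lit 95) (nat_lit 5) (nat_lit 99) (nat_lit 5) (nat_lit 100) (nat_lit 5) (nat_lit 491) (nat_lit 390) (nat_lit 259))) (XT.nd (nat_lit 78) (nat_lit 380) (nat_lit 0) (XT.lf (nat_lit 0) (nat_lit 1563847229) (nat_lit 304) (nat_lit 13057878489) (nat_lit 380) (nat_lit 2297009220) (nat_lit 91) (nat_lit 5) (nat_lit 95) (nat_lit 5) (nat_lit 96) (nat_lit 5) (nat_lit 492) (nat_lit 390) (nat_lit 258)) (XT.nd (nat_lit 78) (nat_lit 304) (nat_lit 0) (XT.lf (nat_lit 0) (nat_lit 1602431970) (nat_lit 380) (nat_lit 6098681039) (nat_lit 76) (nat_lit 9438332824) (nat_lit 90) (nat_lit 5) (nat_lit 95) (nat_lit 5) (nat_lit 91) (nat_lit 5) (nat_lit 493) (nat_lit 390) (nat_lit 257)) (XT.lf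 (nat_lit 0) (nat_lit 3347828232) (nat_lit 304) (nat_lit 2208343278) (nat_lit 380) (nat_lit 11807957480) (nat_lit 86) (nat_lit 5) (nat_lit 90) (nat_lit 5) (nat_lit 91) (nat_lit 5) (nat_lit 494) (nat_lit 390) (nat_lit 256)))))) (XT.nd (nat_lit 390) (nat_lit 836) (nat_lit 0) (XT.nd (nat_lit 156) (nat_lit 380) (nat_lit 0) (XT.nd (nat_lit 78) (nat_lit 228) (nat_lit 0) (XT.lf (nat_lit 0) (nat_lit 9637600953) (nat_lit 380) (nat_lit 4572458632) (nat_lit 76) (nat_lit 3382276899) (nat_lit 86) (nat_lit 5) (nat_lit 91) (nat_lit 5) (nat_lit 87) (nat_lit 5) (nat_lit 495) (nat_lit 390) (nat_lit 255)) (XT.lf (nat_lit 0) (nat_lit 5089245358) (nat_lit 228) (nat_lit 8744748620) (nat_lit 304) (nat_lit 3990450372) (nat_lit 83) (nat_lit 5) (nat_lit 86) (nat_lit 5) (nat_lit 87) (nat_lit 5) (nat_lit 496) (nat_lit 390) (nat_lit 254))) (XT.nd (nat_lit 78) (nat_lit 304) (nat_lit 0) (XT.lf (nat_lit 0) (nat_lit 69012989) (nat_lit 304) (nat_lit 3078141645)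 (nat_lit 76) (nat_lit 14913703863) (nat_lit 82) (nat_lit 5) (nat_lit 86) (nat_lit 5) (nat_lit 83) (nat_lit 5) (nat_lit 497) (nat_lit 390) (nat_lit 253)) (XT.nd (nat_lit 78) (nat_lit 0) (nat_lit 0) (XT.lf (nat_lit 0) (nat_lit 4203543957) (nat_lit 380) (nat_lit 11505667820) (nat_lit 76) (nat_lit 2591318156) (nat_lit 78) (nat_lit 5) (nat_lit 83) (nat_lit 5) (nat_lit 79) (nat_lit 5) (nat_lit 498) (nat_lit 390) (nat_lit 252)) (XT.lf (nat_lit 0) (nat_lit 8448455000) (nat_lit 380) (nat_lit 1681306892) (nat_lit 76) (nat_lit 8414681813) (nat_lit 78) (nat_lit 5) (nat_lit 83) (nat_lit 5) (nat_lit 79) (nat_lit 5) (nat_lit 499) (nat_lit 390) (nat_lit 251))))) (XT.nd (nat_lit 234) (nat_lit 228) (nat_lit 0) (XT.nd (nat_lit 78) (nat_lit 380) (nat_lit 0) (XT.lf (nat_lit 0) (nat_lit 8427722045) (nat_lit 228) (nat_lit 4391588646) (nat_lit 304) (nat_lit 5973106778) (nat_lit 75) (nat_lit 5) (nat_lit 78) (nat_lit 5) (nat_lit 79) (nat_lit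 5) (nat_lit 500) (nat_lit 390) (nat_lit 250)) (XT.nd (nat_lit 78) (nat_lit 380) (nat_lit 0) (XT.lf (nat_lit 0) (nat_lit 17284824500) (nat_lit 304) (nat_lit 315386315) (nat_lit 76) (nat_lit 1444997667) (nat_lit 75) (nat_lit 5) (nat_lit 79) (nat_lit 5) (nat_lit 76) (nat_lit 5) (nat_lit 501) (nat_lit 390) (nat_lit 249)) (XT.lf (nat_lit 0) (nat_lit 2584628993) (nat_lit 380) (nat_lit 9303250864) (nat_lit 76) (nat_lit 7413222493) (nat_lit 70) (nat_lit 5) (nat_lit 75) (nat_lit 5) (nat_lit 71) (nat_lit 5) (nat_lit 502) (nat_lit 390) (nat_lit 248)))) (XT.nd (nat_lit 50622) (nat_lit 0) (nat_lit 42484) (XT.lf (nat_lit 0) (nat_lit 938173873) (nat_lit 228) (nat_lit 6049732806) (nat_lit 304) (nat_lit 12574078416) (nat_lit 67) (nat_lit 5) (nat_lit 70) (nat_lit 5) (nat_lit 71) (nat_lit 5) (nat_lit 503) (nat_lit 390) (nat_lit 247)) (XT.nd (nat_lit 78) (nat_lit 836) (nat_lit 0) (XT.lf (nat_lit 0) (nat_lit 1464541846) (nat_lit 0) (nat_lit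 1464541846) (nat_lit 684) (nat_lit 408857601) (nat_lit 637) (nat_lit 5) (nat_lit 637) (nat_lit 3) (nat_lit 646) (nat_lit 3) (nat_lit 391) (nat_lit 391) (nat_lit 358)) (XT.lf (nat_lit 0) (nat_lit 1364202103) (nat_lit 836) (nat_lit 544207281) (nat_lit 836) (nat_lit 4789377471) (nat_lit 626) (nat_lit 3) (nat_lit 637) (nat_lit 3) (nat_lit 637) (nat_lit 5) (nat_lit 392) (nat_lit 391) (nat_lit 357))))))))
noncomputable def xc125 : XT := (XT.nd (nat_lit 1638) (nat_lit 16720) (nat_lit 0) (XT.nd (nat_lit 780) (nat_lit 3192) (nat_lit 0) (XT.nd (nat_lit 390) (nat_lit 1824) (nat_lit 0) (XT.nd (nat_lit 156) (nat_lit 760) (nat_lit 0) (XT.nd (nat_lit 78) (nat_lit 0) (nat_lit 76) (XT.lf (nat_lit 76) (nat_lit 2723569835) (nat_lit 0) (nat_lit 815769326) (nat_lit 836) (nat_lit 3181507441) (nat_lit 627) (nat_lit 5) (nat_lit 626) (nat_lit 3) (nat_lit 637) (nat_lit 5) (nat_lit 393) (nat_lit 391) (nat_lit 356)) (XT.lf (nat_lit 0) (nat_lit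 5707541349) (nat_lit 760) (nat_lit 712494958) (nat_lit 836) (nat_lit 325375389) (nat_lit 627) (nat_lit 5) (nat_lit 637) (nat_lit 5) (nat_lit 638) (nat_lit 5) (nat_lit 394) (nat_lit 391) (nat_lit 355))) (XT.nd (nat_lit 78) (nat_lit 0) (nat_lit 0) (XT.lf (nat_lit 0) (nat_lit 1100898243) (nat_lit 836) (nat_lit 4140945131) (nat_lit 912) (nat_lit 1529163120) (nat_lit 616) (nat_lit 5) (nat_lit 627) (nat_lit 5) (nat_lit 628) (nat_lit 5) (nat_lit 395) (nat_lit 391) (nat_lit 354)) (XT.nd (nat_lit 78) (nat_lit 0) (nat_lit 0) (XT.lf (nat_lit 0) (nat_lit 3218911030) (nat_lit 836) (nat_lit 785078928) (nat_lit 912) (nat_lit 2794012062) (nat_lit 616) (nat_lit 5) (nat_lit 627) (nat_lit 5) (nat_lit 628) (nat_lit 5) (nat_lit 396) (nat_lit 391) (nat_lit 353)) (XT.lf (nat_lit 76) (nat_lit 2642876940) (nat_lit 0) (nat_lit 2700174324) (nat_lit 912) (nat_lit 1483243553) (nat_lit 617) (nat_lit 5) (nat_lit 616) (nat_lit 5) (nat_lit 628) (nat_lit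 5) (nat_lit 397) (nat_lit 391) (nat_lit 352))))) (XT.nd (nat_lit 156) (nat_lit 912) (nat_lit 0) (XT.nd (nat_lit 78) (nat_lit 0) (nat_lit 76) (XT.lf (nat_lit 0) (nat_lit 598323579) (nat_lit 912) (nat_lit 739527502) (nat_lit 988) (nat_lit 5518201093) (nat_lit 604) (nat_lit 5) (nat_lit 616) (nat_lit 5) (nat_lit 617) (nat_lit 5) (nat_lit 398) (nat_lit 391) (nat_lit 351)) (XT.lf (nat_lit 0) (nat_lit 2668451058) (nat_lit 912) (nat_lit 4117468956) (nat_lit 988) (nat_lit 100983604) (nat_lit 605) (nat_lit 5) (nat_lit 617) (nat_lit 5) (nat_lit 618) (nat_lit 5) (nat_lit 399) (nat_lit 391) (nat_lit 350))) (XT.nd (nat_lit 78) (nat_lit 988) (nat_lit 0) (XT.lf (nat_lit 0) (nat_lit 4742924203) (nat_lit 912) (nat_lit 599197773) (nat_lit 988) (nat_lit 1577021466) (nat_lit 605) (nat_lit 5) (nat_lit 617) (nat_lit 5) (nat_lit 618) (nat_lit 5) (nat_lit 400) (nat_lit 391) (nat_lit 349)) (XT.nd (nat_lit 78) (nat_lit 988) (nat_lit 0) (XT.lf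 (nat_lit 76) (nat_lit 2998735745) (nat_lit 0) (nat_lit 3829706820) (nat_lit 988) (nat_lit 124224002) (nat_lit 606) (nat_lit 5) (nat_lit 605) (nat_lit 5) (nat_lit 618) (nat_lit 5) (nat_lit 401) (nat_lit 391) (nat_lit 348)) (XT.lf (nat_lit 0) (nat_lit 1897554343) (nat_lit 988) (nat_lit 353359518) (nat_lit 1064) (nat_lit 4736627817) (nat_lit 592) (nat_lit 5) (nat_lit 605) (nat_lit 5) (nat_lit 606) (nat_lit 5) (nat_lit 402) (nat_lit 391) (nat_lit 347)))))) (XT.nd (nat_lit 390) (nat_lit 2204) (nat_lit 0) (XT.nd (nat_lit 156) (nat_lit 988) (nat_lit 0) (XT.nd (nat_lit 78) (nat_lit 0) (nat_lit 76) (XT.lf (nat_lit 76) (nat_lit 3332180583) (nat_lit 0) (nat_lit 599047808) (nat_lit 1064) (nat_lit 3092434921) (nat_lit 593) (nat_lit 5) (nat_lit 592) (nat_lit 5) (nat_lit 606) (nat_lit 5) (nat_lit 403) (nat_lit 391) (nat_lit 346)) (XT.lf (nat_lit 0) (nat_lit 5967375453) (nat_lit 988) (nat_lit 2129141) (nat_lit 1064) (nat_lit 1091794158)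 (nat_lit 593) (nat_lit 5) (nat_lit 606) (nat_lit 5) (nat_lit 607) (nat_lit 5) (nat_lit 404) (nat_lit 391) (nat_lit 345))) (XT.nd (nat_lit 78) (nat_lit 0) (nat_lit 0) (XT.lf (nat_lit 0) (nat_lit 913805732) (nat_lit 1064) (nat_lit 3329738472) (nat_lit 1140) (nat_lit 2856413641) (nat_lit 579) (nat_lit 5) (nat_lit 593) (nat_lit 5) (nat_lit 594) (nat_lit 5) (nat_lit 405) (nat_lit 391) (nat_lit 344)) (XT.nd (nat_lit 78) (nat_lit 0) (nat_lit 0) (XT.lf (nat_lit 76) (nat_lit 446603758) (nat_lit 0) (nat_lit 2457052606) (nat_lit 1140) (nat_lit 4236482633) (nat_lit 580) (nat_lit 5) (nat_lit 579) (nat_lit 5) (nat_lit 594) (nat_lit 5) (nat_lit 406) (nat_lit 391) (nat_lit 343)) (XT.lf (nat_lit 76) (nat_lit 4313147247) (nat_lit 0) (nat_lit 596898316) (nat_lit 1140) (nat_lit 2271568658) (nat_lit 580) (nat_lit 5) (nat_lit 579) (nat_lit 5) (nat_lit 594) (nat_lit 5) (nat_lit 407) (nat_lit 391) (nat_lit 342))))) (XT.nd (nat_lit 234) (nat_lit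 1140) (nat_lit 0) (XT.nd (nat_lit 78) (nat_lit 1140) (nat_lit 0) (XT.lf (nat_lit 76) (nat_lit 1006986897) (nat_lit 0) (nat_lit 5919944929) (nat_lit 1140) (nat_lit 297604523) (nat_lit 581) (nat_lit 5) (nat_lit 580) (nat_lit 5) (nat_lit 595) (nat_lit 5) (nat_lit 408) (nat_lit 391) (nat_lit 341)) (XT.nd (nat_lit 78) (nat_lit 0) (nat_lit 0) (XT.lf (nat_lit 0) (nat_lit 1672413164) (nat_lit 1140) (nat_lit 2315607961) (nat_lit 1216) (nat_lit 3280515254) (nat_lit 565) (nat_lit 5) (nat_lit 580) (nat_lit 5) (nat_lit 581) (nat_lit 5) (nat_lit 409) (nat_lit 391) (nat_lit 340)) (XT.lf (nat_lit 76) (nat_lit 1653411870) (nat_lit 0) (nat_lit 1991789299) (nat_lit 1216) (nat_lit 3668852156) (nat_lit 566) (nat_lit 5) (nat_lit 565) (nat_lit 5) (nat_lit 581) (nat_lit 5) (nat_lit 410) (nat_lit 391) (nat_lit 339)))) (XT.nd (nat_lit 78) (nat_lit 1216) (nat_lit 0) (XT.lf (nat_lit 0) (nat_lit 5630723373) (nat_lit 1140) (nat_lit 1658789722) (nat_lit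 76) (nat_lit 71524842) (nat_lit 566) (nat_lit 5) (nat_lit 581) (nat_lit 5) (nat_lit 567) (nat_lit 5) (nat_lit 411) (nat_lit 391) (nat_lit 338)) (XT.nd (nat_lit 78) (nat_lit 0) (nat_lit 0) (XT.lf (nat_lit 0) (nat_lit 230673768) (nat_lit 1216) (nat_lit 5000049855) (nat_lit 76) (nat_lit 2178490168) (nat_lit 550) (nat_lit 5) (nat_lit 566) (nat_lit 5) (nat_lit 551) (nat_lit 5) (nat_lit 412) (nat_lit 391) (nat_lit 337)) (XT.lf (nat_lit 0) (nat_lit 2177451142) (nat_lit 1216) (nat_lit 919884936) (nat_lit 76) (nat_lit 4361415151) (nat_lit 550) (nat_lit 5) (nat_lit 566) (nat_lit 5) (nat_lit 551) (nat_lit 5) (nat_lit 413) (nat_lit 391) (nat_lit 336))))))) (XT.nd (nat_lit 858) (nat_lit 6384) (nat_lit 0) (XT.nd (nat_lit 390) (nat_lit 6384) (nat_lit 0) (XT.nd (nat_lit 156) (nat_lit 2736) (nat_lit 0) (XT.nd (nat_lit 78) (nat_lit 0) (nat_lit 0) (XT.lf (nat_lit 0) (nat_lit 3253987712) (nat_lit 1216) (nat_lit 889628356) (nat_lit 1292)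 (nat_lit 3366075459) (nat_lit 534) (nat_lit 5) (nat_lit 550) (nat_lit 5) (nat_lit 551) (nat_lit 5) (nat_lit 414) (nat_lit 391) (nat_lit 335)) (XT.lf (nat_lit 0) (nat_lit 6124150932) (nat_lit 1292) (nat_lit 77861785) (nat_lit 76) (nat_lit 1360157721) (nat_lit 534) (nat_lit 5) (nat_lit 551) (nat_lit 5) (nat_lit 535) (nat_lit 5) (nat_lit 415) (nat_lit 391) (nat_lit 334))) (XT.nd (nat_lit 78) (nat_lit 1368) (nat_lit 0) (XT.lf (nat_lit 0) (nat_lit 515552113) (nat_lit 1368) (nat_lit 3417118560) (nat_lit 76) (nat_lit 3683101805) (nat_lit 516) (nat_lit 5) (nat_lit 534) (nat_lit 5) (nat_lit 517) (nat_lit 5) (nat_lit 416) (nat_lit 391) (nat_lit 333)) (XT.nd (nat_lit 78) (nat_lit 0) (nat_lit 0) (XT.lf (nat_lit 0) (nat_lit 862120610) (nat_lit 1368) (nat_lit 1594029592) (nat_lit 1444) (nat_lit 5214781590) (nat_lit 498) (nat_lit 5) (nat_lit 516) (nat_lit 5) (nat_lit 517) (nat_lit 5) (nat_lit 417) (nat_lit 391) (nat_lit 332)) (XT.lf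 (nat_lit 0) (nat_lit 4425462520) (nat_lit 1444) (nat_lit 2490371984) (nat_lit 76) (nat_lit 811580904) (nat_lit 498) (nat_lit 5) (nat_lit 517) (nat_lit 5) (nat_lit 499) (nat_lit 5) (nat_lit 418) (nat_lit 391) (nat_lit 331))))) (XT.nd (nat_lit 234) (nat_lit 3344) (nat_lit 0) (XT.nd (nat_lit 78) (nat_lit 1596) (nat_lit 0) (XT.lf (nat_lit 0) (nat_lit 1897778276) (nat_lit 1444) (nat_lit 4521693823) (nat_lit 1520) (nat_lit 1365869161) (nat_lit 479) (nat_lit 5) (nat_lit 498) (nat_lit 5) (nat_lit 499) (nat_lit 5) (nat_lit 419) (nat_lit 391) (nat_lit 330)) (XT.nd (nat_lit 78) (nat_lit 1520) (nat_lit 0) (XT.lf (nat_lit 0) (nat_lit 580478516) (nat_lit 1520) (nat_lit 1472007218) (nat_lit 76) (nat_lit 5792288304) (nat_lit 478) (nat_lit 5) (nat_lit 498) (nat_lit 5) (nat_lit 479) (nat_lit 5) (nat_lit 420) (nat_lit 391) (nat_lit 329)) (XT.lf (nat_lit 0) (nat_lit 2533858448) (nat_lit 1596) (nat_lit 4876933519) (nat_lit 76) (nat_lit 494712754)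 (nat_lit 458) (nat_lit 5) (nat_lit 479) (nat_lit 5) (nat_lit 459) (nat_lit 5) (nat_lit 421) (nat_lit 391) (nat_lit 328)))) (XT.nd (nat_lit 78) (nat_lit 3344) (nat_lit 0) (XT.lf (nat_lit 0) (nat_lit 4513834487) (nat_lit 1596) (nat_lit 373055265) (nat_lit 76) (nat_lit 3080827047) (nat_lit 458) (nat_lit 5) (nat_lit 479) (nat_lit 5) (nat_lit 459) (nat_lit 5) (nat_lit 422) (nat_lit 391) (nat_lit 327)) (XT.nd (nat_lit 78) (nat_lit 1748) (nat_lit 0) (XT.lf (nat_lit 0) (nat_lit 4245940346) (nat_lit 1596) (nat_lit 2279735717) (nat_lit 1672) (nat_lit 1505668749) (nat_lit 437) (nat_lit 5) (nat_lit 458) (nat_lit 5) (nat_lit 459) (nat_lit 5) (nat_lit 423) (nat_lit 391) (nat_lit 326)) (XT.lf (nat_lit 0) (nat_lit 450699282) (nat_lit 1748) (nat_lit 7256139438) (nat_lit 76) (nat_lit 389850388) (nat_lit 414) (nat_lit 5) (nat_lit 437) (nat_lit 5) (nat_lit 415) (nat_lit 5) (nat_lit 424) (nat_lit 391) (nat_lit 325)))))) (XT.nd (nat_lit 390)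 (nat_lit 2584) (nat_lit 0) (XT.nd (nat_lit 156) (nat_lit 2052) (nat_lit 0) (XT.nd (nat_lit 78) (nat_lit 1748) (nat_lit 0) (XT.lf (nat_lit 0) (nat_lit 2432179390) (nat_lit 1748) (nat_lit 2609190222) (nat_lit 76) (nat_lit 3121664747) (nat_lit 414) (nat_lit 5) (nat_lit 437) (nat_lit 5) (nat_lit 415) (nat_lit 5) (nat_lit 425) (nat_lit 391) (nat_lit 324)) (XT.lf (nat_lit 0) (nat_lit 2127764888) (nat_lit 1748) (nat_lit 2305475253) (nat_lit 1824) (nat_lit 3797883071) (nat_lit 391) (nat_lit 5) (nat_lit 414) (nat_lit 5) (nat_lit 415) (nat_lit 5) (nat_lit 426) (nat_lit 391) (nat_lit 323))) (XT.nd (nat_lit 78) (nat_lit 2052) (nat_lit 0) (XT.lf (nat_lit 0) (nat_lit 6461716136) (nat_lit 1824) (nat_lit 1339999625) (nat_lit 76) (nat_lit 499125611) (nat_lit 391) (nat_lit 5) (nat_lit 415) (nat_lit 5) (nat_lit 392) (nat_lit 5) (nat_lit 427) (nat_lit 391) (nat_lit 322)) (XT.nd (nat_lit 78) (nat_lit 912) (nat_lit 0) (XT.lf (nat_lit 0) (nat_lit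 162133795) (nat_lit 1140) (nat_lit 4854143295) (nat_lit 76) (nat_lit 3355562816) (nat_lit 376) (nat_lit 5) (nat_lit 391) (nat_lit 5) (nat_lit 377) (nat_lit 5) (nat_lit 428) (nat_lit 391) (nat_lit 321)) (XT.lf (nat_lit 0) (nat_lit 3471057) (nat_lit 912) (nat_lit 2151907120) (nat_lit 988) (nat_lit 6289119903) (nat_lit 364) (nat_lit 5) (nat_lit 376) (nat_lit 5) (nat_lit 377) (nat_lit 5) (nat_lit 429) (nat_lit 391) (nat_lit 320))))) (XT.nd (nat_lit 234) (nat_lit 1748) (nat_lit 0) (XT.nd (nat_lit 78) (nat_lit 836) (nat_lit 0) (XT.lf (nat_lit 0) (nat_lit 4194209839) (nat_lit 988) (nat_lit 3530562505) (nat_lit 76) (nat_lit 793736861) (nat_lit 364) (nat_lit 5) (nat_lit 377) (nat_lit 5) (nat_lit 365) (nat_lit 5) (nat_lit 430) (nat_lit 391) (nat_lit 319)) (XT.nd (nat_lit 78) (nat_lit 0) (nat_lit 0) (XT.lf (nat_lit 0) (nat_lit 1452092955) (nat_lit 836) (nat_lit 4813967978) (nat_lit 912) (nat_lit 2328108720) (nat_lit 353) (nat_lit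 5) (nat_lit 364) (nat_lit 5) (nat_lit 365) (nat_lit 5) (nat_lit 431) (nat_lit 391) (nat_lit 318)) (XT.lf (nat_lit 0) (nat_lit 6551650171) (nat_lit 836) (nat_lit 1820372281) (nat_lit 912) (nat_lit 299481072) (nat_lit 353) (nat_lit 5) (nat_lit 364) (nat_lit 5) (nat_lit 365) (nat_lit 5) (nat_lit 432) (nat_lit 391) (nat_lit 317)))) (XT.nd (nat_lit 78) (nat_lit 836) (nat_lit 0) (XT.lf (nat_lit 0) (nat_lit 1743576004) (nat_lit 912) (nat_lit 5758358790) (nat_lit 76) (nat_lit 1248291287) (nat_lit 341) (nat_lit 5) (nat_lit 353) (nat_lit 5) (nat_lit 342) (nat_lit 5) (nat_lit 433) (nat_lit 391) (nat_lit 316)) (XT.nd (nat_lit 78) (nat_lit 836) (nat_lit 0) (XT.lf (nat_lit 0) (nat_lit 3819642121) (nat_lit 912) (nat_lit 640660120) (nat_lit 76) (nat_lit 4370270991) (nat_lit 341) (nat_lit 5) (nat_lit 353) (nat_lit 5) (nat_lit 342) (nat_lit 5) (nat_lit 434) (nat_lit 391) (nat_lit 315)) (XT.lf (nat_lit 0) (nat_lit 4609607087) (nat_lit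 836) (nat_lit 1327922880) (nat_lit 912) (nat_lit 2975003992) (nat_lit 330) (nat_lit 5) (nat_lit 341) (nat_lit 5) (nat_lit 342) (nat_lit 5) (nat_lit 435) (nat_lit 391) (nat_lit 314))))))))
noncomputable def xc126 : XT := (XT.nd (nat_lit 1638) (nat_lit 6460) (nat_lit 0) (XT.nd (nat_lit 780) (nat_lit 3876) (nat_lit 0) (XT.nd (nat_lit 390) (nat_lit 2204) (nat_lit 0) (XT.nd (nat_lit 156) (nat_lit 1520) (nat_lit 0) (XT.nd (nat_lit 78) (nat_lit 76) (nat_lit 0) (XT.lf (nat_lit 0) (nat_lit 947152814) (nat_lit 836) (nat_lit 7143974894) (nat_lit 912) (nat_lit 905151543) (nat_lit 319) (nat_lit 5) (nat_lit 330) (nat_lit 5) (nat_lit 331) (nat_lit 5) (nat_lit 436) (nat_lit 391) (nat_lit 313)) (XT.lf (nat_lit 0) (nat_lit 1199065256) (nat_lit 912) (nat_lit 2768207865) (nat_lit 76) (nat_lit 5114105914) (nat_lit 318) (nat_lit 5) (nat_lit 330) (nat_lit 5) (nat_lit 319) (nat_lit 5) (nat_lit 437) (nat_lit 391) (nat_lit 312))) (XT.nd (nat_lit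 78) (nat_lit 760) (nat_lit 0) (XT.lf (nat_lit 0) (nat_lit 2616422976) (nat_lit 760) (nat_lit 705317589) (nat_lit 836) (nat_lit 5846562385) (nat_lit 308) (nat_lit 5) (nat_lit 318) (nat_lit 5) (nat_lit 319) (nat_lit 5) (nat_lit 438) (nat_lit 391) (nat_lit 311)) (XT.nd (nat_lit 78) (nat_lit 760) (nat_lit 0) (XT.lf (nat_lit 0) (nat_lit 5494438473) (nat_lit 836) (nat_lit 1158059320) (nat_lit 76) (nat_lit 2604327617) (nat_lit 308) (nat_lit 5) (nat_lit 319) (nat_lit 5) (nat_lit 309) (nat_lit 5) (nat_lit 439) (nat_lit 391) (nat_lit 310)) (XT.lf (nat_lit 0) (nat_lit 4366240867) (nat_lit 760) (nat_lit 3349767974) (nat_lit 836) (nat_lit 1631012333) (nat_lit 298) (nat_lit 5) (nat_lit 308) (nat_lit 5) (nat_lit 309) (nat_lit 5) (nat_lit 440) (nat_lit 391) (nat_lit 309))))) (XT.nd (nat_lit 156) (nat_lit 1444) (nat_lit 0) (XT.nd (nat_lit 78) (nat_lit 0) (nat_lit 0) (XT.lf (nat_lit 0) (nat_lit 520030761) (nat_lit 760) (nat_lit 8888141265)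 (nat_lit 76) (nat_lit 31105860) (nat_lit 288) (nat_lit 5) (nat_lit 298) (nat_lit 5) (nat_lit 289) (nat_lit 5) (nat_lit 441) (nat_lit 391) (nat_lit 308)) (XT.lf (nat_lit 0) (nat_lit 2720985110) (nat_lit 760) (nat_lit 3335213875) (nat_lit 76) (nat_lit 3476401112) (nat_lit 288) (nat_lit 5) (nat_lit 298) (nat_lit 5) (nat_lit 289) (nat_lit 5) (nat_lit 442) (nat_lit 391) (nat_lit 307))) (XT.nd (nat_lit 78) (nat_lit 684) (nat_lit 0) (XT.lf (nat_lit 0) (nat_lit 2329417253) (nat_lit 760) (nat_lit 2625077506) (nat_lit 836) (nat_lit 4673533639) (nat_lit 278) (nat_lit 5) (nat_lit 288) (nat_lit 5) (nat_lit 289) (nat_lit 5) (nat_lit 443) (nat_lit 391) (nat_lit 306)) (XT.nd (nat_lit 78) (nat_lit 684) (nat_lit 0) (XT.lf (nat_lit 0) (nat_lit 7234600913) (nat_lit 836) (nat_lit 1608415820) (nat_lit 76) (nat_lit 882320173) (nat_lit 278) (nat_lit 5) (nat_lit 289) (nat_lit 5) (nat_lit 279) (nat_lit 5) (nat_lit 444) (nat_lit 391) (nat_lit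 305)) (XT.lf (nat_lit 0) (nat_lit 4203701934) (nat_lit 684) (nat_lit 5375518564) (nat_lit 760) (nat_lit 245002827) (nat_lit 269) (nat_lit 5) (nat_lit 278) (nat_lit 5) (nat_lit 279) (nat_lit 5) (nat_lit 445) (nat_lit 391) (nat_lit 304)))))) (XT.nd (nat_lit 390) (nat_lit 1824) (nat_lit 0) (XT.nd (nat_lit 156) (nat_lit 1292) (nat_lit 0) (XT.nd (nat_lit 78) (nat_lit 0) (nat_lit 0) (XT.lf (nat_lit 0) (nat_lit 188325259) (nat_lit 684) (nat_lit 1816947654) (nat_lit 760) (nat_lit 7919829367) (nat_lit 259) (nat_lit 5) (nat_lit 268) (nat_lit 5) (nat_lit 269) (nat_lit 5) (nat_lit 446) (nat_lit 391) (nat_lit 303)) (XT.lf (nat_lit 0) (nat_lit 4321665075) (nat_lit 760) (nat_lit 3881426740) (nat_lit 76) (nat_lit 1824396173) (nat_lit 259) (nat_lit 5) (nat_lit 269) (nat_lit 5) (nat_lit 260) (nat_lit 5) (nat_lit 447) (nat_lit 391) (nat_lit 302))) (XT.nd (nat_lit 78) (nat_lit 684) (nat_lit 0) (XT.lf (nat_lit 0) (nat_lit 2076747871) (nat_lit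 608) (nat_lit 4608302741) (nat_lit 684) (nat_lit 3446866696) (nat_lit 251) (nat_lit 5) (nat_lit 259) (nat_lit 5) (nat_lit 260) (nat_lit 5) (nat_lit 448) (nat_lit 391) (nat_lit 301)) (XT.nd (nat_lit 78) (nat_lit 684) (nat_lit 0) (XT.lf (nat_lit 0) (nat_lit 8177406899) (nat_lit 608) (nat_lit 919789604) (nat_lit 684) (nat_lit 1141217887) (nat_lit 251) (nat_lit 5) (nat_lit 259) (nat_lit 5) (nat_lit 260) (nat_lit 5) (nat_lit 449) (nat_lit 391) (nat_lit 300)) (XT.lf (nat_lit 0) (nat_lit 1215499977) (nat_lit 684) (nat_lit 6295999446) (nat_lit 76) (nat_lit 2834976822) (nat_lit 242) (nat_lit 5) (nat_lit 251) (nat_lit 5) (nat_lit 243) (nat_lit 5) (nat_lit 450) (nat_lit 391) (nat_lit 299))))) (XT.nd (nat_lit 234) (nat_lit 608) (nat_lit 0) (XT.nd (nat_lit 78) (nat_lit 1216) (nat_lit 0) (XT.lf (nat_lit 0) (nat_lit 3600114541) (nat_lit 684) (nat_lit 187348984) (nat_lit 76) (nat_lit 6669172587) (nat_lit 242) (nat_lit 5) (nat_lit 251)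 (nat_lit 5) (nat_lit 243) (nat_lit 5) (nat_lit 451) (nat_lit 391) (nat_lit 298)) (XT.nd (nat_lit 78) (nat_lit 608) (nat_lit 0) (XT.lf (nat_lit 0) (nat_lit 6048777806) (nat_lit 684) (nat_lit 4474318229) (nat_lit 76) (nat_lit 45584350) (nat_lit 234) (nat_lit 5) (nat_lit 243) (nat_lit 5) (nat_lit 235) (nat_lit 5) (nat_lit 452) (nat_lit 391) (nat_lit 297)) (XT.lf (nat_lit 0) (nat_lit 1790712852) (nat_lit 608) (nat_lit 6770403153) (nat_lit 684) (nat_lit 2121563686) (nat_lit 226) (nat_lit 5) (nat_lit 234) (nat_lit 5) (nat_lit 235) (nat_lit 5) (nat_lit 453) (nat_lit 391) (nat_lit 296)))) (XT.nd (nat_lit 78) (nat_lit 532) (nat_lit 0) (XT.lf (nat_lit 0) (nat_lit 327543008) (nat_lit 684) (nat_lit 2588084113) (nat_lit 76) (nat_lit 7883156350) (nat_lit 225) (nat_lit 5) (nat_lit 234) (nat_lit 5) (nat_lit 226) (nat_lit 5) (nat_lit 454) (nat_lit 391) (nat_lit 295)) (XT.nd (nat_lit 78) (nat_lit 0) (nat_lit 0) (XT.lf (nat_lit 0) (nat_lit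 2806355172) (nat_lit 608) (nat_lit 7073935114) (nat_lit 76) (nat_lit 1036463652) (nat_lit 218) (nat_lit 5) (nat_lit 226) (nat_lit 5) (nat_lit 219) (nat_lit 5) (nat_lit 455) (nat_lit 391) (nat_lit 294)) (XT.lf (nat_lit 0) (nat_lit 5349048023) (nat_lit 608) (nat_lit 647511298) (nat_lit 76) (nat_lit 5040245959) (nat_lit 218) (nat_lit 5) (nat_lit 226) (nat_lit 5) (nat_lit 219) (nat_lit 5) (nat_lit 456) (nat_lit 391) (nat_lit 293))))))) (XT.nd (nat_lit 858) (nat_lit 2736) (nat_lit 0) (XT.nd (nat_lit 390) (nat_lit 1976) (nat_lit 0) (XT.nd (nat_lit 156) (nat_lit 608) (nat_lit 0) (XT.nd (nat_lit 78) (nat_lit 532) (nat_lit 0) (XT.lf (nat_lit 0) (nat_lit 5957364062) (nat_lit 608) (nat_lit 2001863976) (nat_lit 684) (nat_lit 3199704351) (nat_lit 210) (nat_lit 5) (nat_lit 218) (nat_lit 5) (nat_lit 219) (nat_lit 5) (nat_lit 457) (nat_lit 391) (nat_lit 292)) (XT.lf (nat_lit 0) (nat_lit 1396096770) (nat_lit 532) (nat_lit 9230574736)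 (nat_lit 608) (nat_lit 656736598) (nat_lit 203) (nat_lit 5) (nat_lit 210) (nat_lit 5) (nat_lit 211) (nat_lit 5) (nat_lit 458) (nat_lit 391) (nat_lit 291))) (XT.nd (nat_lit 78) (nat_lit 532) (nat_lit 0) (XT.lf (nat_lit 0) (nat_lit 1938337855) (nat_lit 608) (nat_lit 3268051723) (nat_lit 76) (nat_lit 6203206145) (nat_lit 202) (nat_lit 5) (nat_lit 210) (nat_lit 5) (nat_lit 203) (nat_lit 5) (nat_lit 459) (nat_lit 391) (nat_lit 290)) (XT.nd (nat_lit 78) (nat_lit 0) (nat_lit 0) (XT.lf (nat_lit 0) (nat_lit 3497134002) (nat_lit 532) (nat_lit 1080785162) (nat_lit 608) (nat_lit 6960279969) (nat_lit 195) (nat_lit 5) (nat_lit 202) (nat_lit 5) (nat_lit 203) (nat_lit 5) (nat_lit 460) (nat_lit 391) (nat_lit 289)) (XT.lf (nat_lit 0) (nat_lit 7291551433) (nat_lit 608) (nat_lit 1275639192) (nat_lit 76) (nat_lit 3101765507) (nat_lit 195) (nat_lit 5) (nat_lit 203) (nat_lit 5) (nat_lit 196) (nat_lit 5) (nat_lit 461) (nat_lit 391) (nat_lit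 288))))) (XT.nd (nat_lit 234) (nat_lit 912) (nat_lit 0) (XT.nd (nat_lit 78) (nat_lit 608) (nat_lit 0) (XT.lf (nat_lit 0) (nat_lit 5664606566) (nat_lit 456) (nat_lit 4418078860) (nat_lit 532) (nat_lit 1719184840) (nat_lit 189) (nat_lit 5) (nat_lit 195) (nat_lit 5) (nat_lit 196) (nat_lit 5) (nat_lit 462) (nat_lit 391) (nat_lit 287)) (XT.nd (nat_lit 78) (nat_lit 0) (nat_lit 0) (XT.lf (nat_lit 0) (nat_lit 799947995) (nat_lit 532) (nat_lit 172428279) (nat_lit 608) (nat_lit 10965080096) (nat_lit 181) (nat_lit 5) (nat_lit 188) (nat_lit 5) (nat_lit 189) (nat_lit 5) (nat_lit 463) (nat_lit 391) (nat_lit 286)) (XT.lf (nat_lit 0) (nat_lit 3742782812) (nat_lit 608) (nat_lit 4182397289) (nat_lit 76) (nat_lit 4149392334) (nat_lit 181) (nat_lit 5) (nat_lit 189) (nat_lit 5) (nat_lit 182) (nat_lit 5) (nat_lit 464) (nat_lit 391) (nat_lit 285)))) (XT.nd (nat_lit 78) (nat_lit 456) (nat_lit 0) (XT.lf (nat_lit 0) (nat_lit 2921631557) (nat_lit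 456) (nat_lit 3647036002) (nat_lit 532) (nat_lit 5645767935) (nat_lit 175) (nat_lit 5) (nat_lit 181) (nat_lit 5) (nat_lit 182) (nat_lit 5) (nat_lit 465) (nat_lit 391) (nat_lit 284)) (XT.nd (nat_lit 78) (nat_lit 456) (nat_lit 0) (XT.lf (nat_lit 0) (nat_lit 9464102789) (nat_lit 532) (nat_lit 2164473951) (nat_lit 76) (nat_lit 728264374) (nat_lit 175) (nat_lit 5) (nat_lit 182) (nat_lit 5) (nat_lit 176) (nat_lit 5) (nat_lit 466) (nat_lit 391) (nat_lit 283)) (XT.lf (nat_lit 0) (nat_lit 5122456960) (nat_lit 456) (nat_lit 7332918091) (nat_lit 532) (nat_lit 45967070) (nat_lit 169) (nat_lit 5) (nat_lit 175) (nat_lit 5) (nat_lit 176) (nat_lit 5) (nat_lit 467) (nat_lit 391) (nat_lit 282)))))) (XT.nd (nat_lit 390) (nat_lit 1292) (nat_lit 0) (XT.nd (nat_lit 156) (nat_lit 912) (nat_lit 0) (XT.nd (nat_lit 78) (nat_lit 456) (nat_lit 0) (XT.lf (nat_lit 0) (nat_lit 2815472772) (nat_lit 532) (nat_lit 109707677) (nat_lit 76) (nat_lit 9723282965)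 (nat_lit 168) (nat_lit 5) (nat_lit 175) (nat_lit 5) (nat_lit 169) (nat_lit 5) (nat_lit 468) (nat_lit 391) (nat_lit 281)) (XT.lf (nat_lit 0) (nat_lit 5772848964) (nat_lit 532) (nat_lit 5433698127) (nat_lit 76) (nat_lit 1591193008) (nat_lit 162) (nat_lit 5) (nat_lit 169) (nat_lit 5) (nat_lit 163) (nat_lit 5) (nat_lit 469) (nat_lit 391) (nat_lit 280))) (XT.nd (nat_lit 78) (nat_lit 456) (nat_lit 0) (XT.lf (nat_lit 0) (nat_lit 2019162671) (nat_lit 456) (nat_lit 6784558234) (nat_lit 532) (nat_lit 4145999843) (nat_lit 156) (nat_lit 5) (nat_lit 162) (nat_lit 5) (nat_lit 163) (nat_lit 5) (nat_lit 470) (nat_lit 391) (nat_lit 279)) (XT.nd (nat_lit 78) (nat_lit 456) (nat_lit 0) (XT.lf (nat_lit 0) (nat_lit 9668203389) (nat_lit 456) (nat_lit 2244793048) (nat_lit 532) (nat_lit 1191394138) (nat_lit 156) (nat_lit 5) (nat_lit 162) (nat_lit 5) (nat_lit 163) (nat_lit 5) (nat_lit 471) (nat_lit 391) (nat_lit 278)) (XT.lf (nat_lit 0) (nat_lit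 1823100125) (nat_lit 456) (nat_lit 9052047568) (nat_lit 76) (nat_lit 2386280633) (nat_lit 150) (nat_lit 5) (nat_lit 156) (nat_lit 5) (nat_lit 151) (nat_lit 5) (nat_lit 472) (nat_lit 391) (nat_lit 277))))) (XT.nd (nat_lit 234) (nat_lit 456) (nat_lit 0) (XT.nd (nat_lit 78) (nat_lit 836) (nat_lit 0) (XT.lf (nat_lit 0) (nat_lit 4901728126) (nat_lit 456) (nat_lit 1416024617) (nat_lit 76) (nat_lit 7103305637) (nat_lit 150) (nat_lit 5) (nat_lit 156) (nat_lit 5) (nat_lit 151) (nat_lit 5) (nat_lit 473) (nat_lit 391) (nat_lit 276)) (XT.nd (nat_lit 78) (nat_lit 380) (nat_lit 0) (XT.lf (nat_lit 0) (nat_lit 6431174080) (nat_lit 456) (nat_lit 1634572991) (nat_lit 532) (nat_lit 5517662483) (nat_lit 144) (nat_lit 5) (nat_lit 150) (nat_lit 5) (nat_lit 151) (nat_lit 5) (nat_lit 474) (nat_lit 391) (nat_lit 275)) (XT.lf (nat_lit 0) (nat_lit 667960940) (nat_lit 380) (nat_lit 10641585122) (nat_lit 456) (nat_lit 2439136487) (nat_lit 139) (nat_lit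 5) (nat_lit 144) (nat_lit 5) (nat_lit 145) (nat_lit 5) (nat_lit 475) (nat_lit 391) (nat_lit 274)))) (XT.nd (nat_lit 78) (nat_lit 380) (nat_lit 0) (XT.lf (nat_lit 0) (nat_lit 733160703) (nat_lit 456) (nat_lit 5216580977) (nat_lit 76) (nat_lit 7966605028) (nat_lit 138) (nat_lit 5) (nat_lit 144) (nat_lit 5) (nat_lit 139) (nat_lit 5) (nat_lit 476) (nat_lit 391) (nat_lit 273)) (XT.nd (nat_lit 78) (nat_lit 0) (nat_lit 0) (XT.lf (nat_lit 0) (nat_lit 2799823491) (nat_lit 380) (nat_lit 1137232868) (nat_lit 456) (nat_lit 10149973601) (nat_lit 133) (nat_lit 5) (nat_lit 138) (nat_lit 5) (nat_lit 139) (nat_lit 5) (nat_lit 477) (nat_lit 391) (nat_lit 272)) (XT.lf (nat_lit 0) (nat_lit 7247481580) (nat_lit 456) (nat_lit 3263590878) (nat_lit 76) (nat_lit 3749209812) (nat_lit 133) (nat_lit 5) (nat_lit 139) (nat_lit 5) (nat_lit 134) (nat_lit 5) (nat_lit 478) (nat_lit 391) (nat_lit 271))))))))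
noncomputable def xc127 : XT := (XT.nd (nat_lit 1638) (nat_lit 608) (nat_lit 0) (XT.nd (nat_lit 780) (nat_lit 1976) (nat_lit 0) (XT.nd (nat_lit 390) (nat_lit 1064) (nat_lit 0) (XT.nd (nat_lit 156) (nat_lit 760) (nat_lit 0) (XT.nd (nat_lit 78) (nat_lit 0) (nat_lit 0) (XT.lf (nat_lit 0) (nat_lit 4952712354) (nat_lit 380) (nat_lit 5694155852) (nat_lit 456) (nat_lit 3789680700) (nat_lit 128) (nat_lit 5) (nat_lit 133) (nat_lit 5) (nat_lit 134) (nat_lit 5) (nat_lit 479) (nat_lit 391) (nat_lit 270)) (XT.lf (nat_lit 0) (nat_lit 13352537293) (nat_lit 380) (nat_lit 766840406) (nat_lit 456) (nat_lit 496864727) (nat_lit 128) (nat_lit 5) (nat_lit 133) (nat_lit 5) (nat_lit 134) (nat_lit 5) (nat_lit 480) (nat_lit 391) (nat_lit 269))) (XT.nd (nat_lit 78) (nat_lit 304) (nat_lit 0) (XT.lf (nat_lit 0) (nat_lit 2882317634) (nat_lit 456) (nat_lit 7655064557) (nat_lit 76) (nat_lit 4260619234) (nat_lit 122) (nat_lit 5) (nat_lit 128) (nat_lit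 5) (nat_lit 123) (nat_lit 5) (nat_lit 481) (nat_lit 391) (nat_lit 268)) (XT.nd (nat_lit 78) (nat_lit 0) (nat_lit 0) (XT.lf (nat_lit 0) (nat_lit 727844859) (nat_lit 304) (nat_lit 5596494092) (nat_lit 380) (nat_lit 8658956811) (nat_lit 118) (nat_lit 5) (nat_lit 122) (nat_lit 5) (nat_lit 123) (nat_lit 5) (nat_lit 482) (nat_lit 391) (nat_lit 267)) (XT.lf (nat_lit 0) (nat_lit 9357451188) (nat_lit 304) (nat_lit 512842546) (nat_lit 380) (nat_lit 5301304321) (nat_lit 118) (nat_lit 5) (nat_lit 122) (nat_lit 5) (nat_lit 123) (nat_lit 5) (nat_lit 483) (nat_lit 391) (nat_lit 266))))) (XT.nd (nat_lit 156) (nat_lit 608) (nat_lit 0) (XT.nd (nat_lit 78) (nat_lit 76) (nat_lit 0) (XT.lf (nat_lit 0) (nat_lit 2777562590) (nat_lit 380) (nat_lit 10741964533) (nat_lit 456) (nat_lit 1843495934) (nat_lit 113) (nat_lit 5) (nat_lit 118) (nat_lit 5) (nat_lit 119) (nat_lit 5) (nat_lit 484) (nat_lit 391) (nat_lit 265)) (XT.lf (nat_lit 0) (nat_lit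 1688096295) (nat_lit 456) (nat_lit 3976729229) (nat_lit 76) (nat_lit 9892701998) (nat_lit 112) (nat_lit 5) (nat_lit 118) (nat_lit 5) (nat_lit 113) (nat_lit 5) (nat_lit 485) (nat_lit 391) (nat_lit 264))) (XT.nd (nat_lit 78) (nat_lit 304) (nat_lit 0) (XT.lf (nat_lit 0) (nat_lit 4831245773) (nat_lit 304) (nat_lit 450129923) (nat_lit 380) (nat_lit 10473991510) (nat_lit 108) (nat_lit 5) (nat_lit 112) (nat_lit 5) (nat_lit 113) (nat_lit 5) (nat_lit 486) (nat_lit 391) (nat_lit 263)) (XT.nd (nat_lit 78) (nat_lit 304) (nat_lit 0) (XT.lf (nat_lit 0) (nat_lit 8989441057) (nat_lit 380) (nat_lit 2143317984) (nat_lit 76) (nat_lit 4823549792) (nat_lit 108) (nat_lit 5) (nat_lit 113) (nat_lit 5) (nat_lit 109) (nat_lit 5) (nat_lit 487) (nat_lit 391) (nat_lit 262)) (XT.lf (nat_lit 0) (nat_lit 6876597257) (nat_lit 304) (nat_lit 5927449707) (nat_lit 380) (nat_lit 3356578233) (nat_lit 104) (nat_lit 5) (nat_lit 108) (nat_lit 5) (nat_lit 109)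 (nat_lit 5) (nat_lit 488) (nat_lit 391) (nat_lit 261)))))) (XT.nd (nat_lit 390) (nat_lit 988) (nat_lit 0) (XT.nd (nat_lit 156) (nat_lit 608) (nat_lit 0) (XT.nd (nat_lit 78) (nat_lit 304) (nat_lit 0) (XT.lf (nat_lit 0) (nat_lit 320914167) (nat_lit 380) (nat_lit 288748052) (nat_lit 76) (nat_lit 15759341273) (nat_lit 103) (nat_lit 5) (nat_lit 108) (nat_lit 5) (nat_lit 104) (nat_lit 5) (nat_lit 489) (nat_lit 391) (nat_lit 260)) (XT.lf (nat_lit 0) (nat_lit 4102046166) (nat_lit 380) (nat_lit 7653574823) (nat_lit 76) (nat_lit 4823987225) (nat_lit 99) (nat_lit 5) (nat_lit 104) (nat_lit 5) (nat_lit 100) (nat_lit 5) (nat_lit 490) (nat_lit 391) (nat_lit 259))) (XT.nd (nat_lit 78) (nat_lit 304) (nat_lit 0) (XT.lf (nat_lit 0) (nat_lit 1527232271) (nat_lit 304) (nat_lit 6432651668) (nat_lit 380) (nat_lit 8834522652) (nat_lit 95) (nat_lit 5) (nat_lit 99) (nat_lit 5) (nat_lit 100) (nat_lit 5) (nat_lit 491) (nat_lit 391) (nat_lit 258))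 (XT.nd (nat_lit 78) (nat_lit 304) (nat_lit 0) (XT.lf (nat_lit 0) (nat_lit 10972170017) (nat_lit 304) (nat_lit 959387081) (nat_lit 380) (nat_lit 5081213427) (nat_lit 95) (nat_lit 5) (nat_lit 99) (nat_lit 5) (nat_lit 100) (nat_lit 5) (nat_lit 492) (nat_lit 391) (nat_lit 257)) (XT.lf (nat_lit 0) (nat_lit 3361561739) (nat_lit 304) (nat_lit 12658497823) (nat_lit 380) (nat_lit 1214697357) (nat_lit 91) (nat_lit 5) (nat_lit 95) (nat_lit 5) (nat_lit 96) (nat_lit 5) (nat_lit 493) (nat_lit 391) (nat_lit 256))))) (XT.nd (nat_lit 234) (nat_lit 608) (nat_lit 0) (XT.nd (nat_lit 78) (nat_lit 304) (nat_lit 0) (XT.lf (nat_lit 0) (nat_lit 2726102981) (nat_lit 380) (nat_lit 4474120422) (nat_lit 76) (nat_lit 10259953283) (nat_lit 90) (nat_lit 5) (nat_lit 95) (nat_lit 5) (nat_lit 91) (nat_lit 5) (nat_lit 494) (nat_lit 391) (nat_lit 255)) (XT.nd (nat_lit 78) (nat_lit 0) (nat_lit 0) (XT.lf (nat_lit 0) (nat_lit 5149828677) (nat_lit 304) (nat_lit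 1598949329) (nat_lit 380) (nat_lit 10940782708) (nat_lit 86) (nat_lit 5) (nat_lit 90) (nat_lit 5) (nat_lit 91) (nat_lit 5) (nat_lit 495) (nat_lit 391) (nat_lit 254)) (XT.lf (nat_lit 0) (nat_lit 10894790636) (nat_lit 380) (nat_lit 2945622134) (nat_lit 76) (nat_lit 4082264835) (nat_lit 86) (nat_lit 5) (nat_lit 91) (nat_lit 5) (nat_lit 87) (nat_lit 5) (nat_lit 496) (nat_lit 391) (nat_lit 253)))) (XT.nd (nat_lit 78) (nat_lit 380) (nat_lit 0) (XT.lf (nat_lit 0) (nat_lit 6898011425) (nat_lit 228) (nat_lit 8267311624) (nat_lit 304) (nat_lit 2994304601) (nat_lit 83) (nat_lit 5) (nat_lit 86) (nat_lit 5) (nat_lit 87) (nat_lit 5) (nat_lit 497) (nat_lit 391) (nat_lit 252)) (XT.nd (nat_lit 78) (nat_lit 304) (nat_lit 0) (XT.lf (nat_lit 0) (nat_lit 1111416228) (nat_lit 304) (nat_lit 1452154542) (nat_lit 76) (nat_lit 15837480091) (nat_lit 82) (nat_lit 5) (nat_lit 86) (nat_lit 5) (nat_lit 83) (nat_lit 5) (nat_lit 498) (nat_lit 391) (nat_lit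 251)) (XT.lf (nat_lit 0) (nat_lit 5323297668) (nat_lit 380) (nat_lit 10042690751) (nat_lit 76) (nat_lit 3279638115) (nat_lit 78) (nat_lit 5) (nat_lit 83) (nat_lit 5) (nat_lit 79) (nat_lit 5) (nat_lit 499) (nat_lit 391) (nat_lit 250))))))) (XT.nd (nat_lit 51480) (nat_lit 0) (nat_lit 37544) (XT.nd (nat_lit 51012) (nat_lit 0) (nat_lit 40584) (XT.nd (nat_lit 156) (nat_lit 380) (nat_lit 0) (XT.nd (nat_lit 78) (nat_lit 228) (nat_lit 0) (XT.lf (nat_lit 0) (nat_lit 9632799425) (nat_lit 380) (nat_lit 55040457) (nat_lit 76) (nat_lit 9206988779) (nat_lit 78) (nat_lit 5) (nat_lit 83) (nat_lit 5) (nat_lit 79) (nat_lit 5) (nat_lit 500) (nat_lit 391) (nat_lit 249)) (XT.lf (nat_lit 0) (nat_lit 10245248714) (nat_lit 228) (nat_lit 3836620418) (nat_lit 304) (nat_lit 5066080682) (nat_lit 75) (nat_lit 5) (nat_lit 78) (nat_lit 5) (nat_lit 79) (nat_lit 5) (nat_lit 501) (nat_lit 391) (nat_lit 248))) (XT.nd (nat_lit 78) (nat_lit 76) (nat_lit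 0) (XT.lf (nat_lit 0) (nat_lit 1328190861) (nat_lit 304) (nat_lit 17301488635) (nat_lit 380) (nat_lit 776261200) (nat_lit 71) (nat_lit 5) (nat_lit 75) (nat_lit 5) (nat_lit 76) (nat_lit 5) (nat_lit 502) (nat_lit 391) (nat_lit 247)) (XT.nd (nat_lit 50700) (nat_lit 0) (nat_lit 42256) (XT.lf (nat_lit 0) (nat_lit 3624647243) (nat_lit 380) (nat_lit 7854274562) (nat_lit 76) (nat_lit 8188254623) (nat_lit 70) (nat_lit 5) (nat_lit 75) (nat_lit 5) (nat_lit 71) (nat_lit 5) (nat_lit 503) (nat_lit 391) (nat_lit 246)) (XT.lf (nat_lit 0) (nat_lit 1753548245) (nat_lit 836) (nat_lit 803268073) (nat_lit 836) (nat_lit 803268073) (nat_lit 626) (nat_lit 3) (nat_lit 637) (nat_lit 3) (nat_lit 637) (nat_lit 5) (nat_lit 392) (nat_lit 392) (nat_lit 356))))) (XT.nd (nat_lit 234) (nat_lit 836) (nat_lit 0) (XT.nd (nat_lit 78) (nat_lit 836) (nat_lit 0) (XT.lf (nat_lit 76) (nat_lit 1632777045) (nat_lit 0) (nat_lit 4014630787) (nat_lit 836) (nat_lit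 1096534739) (nat_lit 627) (nat_lit 5) (nat_lit 626) (nat_lit 3) (nat_lit 637) (nat_lit 5) (nat_lit 393) (nat_lit 392) (nat_lit 355)) (XT.nd (nat_lit 78) (nat_lit 0) (nat_lit 0) (XT.lf (nat_lit 0) (nat_lit 1003726031) (nat_lit 836) (nat_lit 1845474385) (nat_lit 912) (nat_lit 3919780990) (nat_lit 615) (nat_lit 5) (nat_lit 626) (nat_lit 3) (nat_lit 627) (nat_lit 5) (nat_lit 394) (nat_lit 392) (nat_lit 354)) (XT.lf (nat_lit 76) (nat_lit 1468923247) (nat_lit 0) (nat_lit 1617498943) (nat_lit 912) (nat_lit 3708884968) (nat_lit 616) (nat_lit 5) (nat_lit 615) (nat_lit 5) (nat_lit 627) (nat_lit 5) (nat_lit 395) (nat_lit 392) (nat_lit 353)))) (XT.nd (nat_lit 78) (nat_lit 836) (nat_lit 0) (XT.lf (nat_lit 76) (nat_lit 4846202247) (nat_lit 0) (nat_lit 323398833) (nat_lit 912) (nat_lit 1653414473) (nat_lit 616) (nat_lit 5) (nat_lit 615) (nat_lit 5) (nat_lit 627) (nat_lit 5) (nat_lit 396) (nat_lit 392) (nat_lit 352)) (XT.nd (nat_lit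 78) (nat_lit 0) (nat_lit 0) (XT.lf (nat_lit 0) (nat_lit 400442199) (nat_lit 912) (nat_lit 5431845797) (nat_lit 988) (nat_lit 1019702227) (nat_lit 604) (nat_lit 5) (nat_lit 616) (nat_lit 5) (nat_lit 617) (nat_lit 5) (nat_lit 397) (nat_lit 392) (nat_lit 351)) (XT.lf (nat_lit 0) (nat_lit 2436873800) (nat_lit 912) (nat_lit 2012256950) (nat_lit 988) (nat_lit 2432953133) (nat_lit 604) (nat_lit 5) (nat_lit 616) (nat_lit 5) (nat_lit 617) (nat_lit 5) (nat_lit 398) (nat_lit 392) (nat_lit 350)))))) (XT.nd (nat_lit 390) (nat_lit 2128) (nat_lit 0) (XT.nd (nat_lit 156) (nat_lit 912) (nat_lit 0) (XT.nd (nat_lit 78) (nat_lit 0) (nat_lit 0) (XT.lf (nat_lit 76) (nat_lit 1465894158) (nat_lit 0) (nat_lit 3006795958) (nat_lit 988) (nat_lit 2440946390) (nat_lit 605) (nat_lit 5) (nat_lit 604) (nat_lit 5) (nat_lit 617) (nat_lit 5) (nat_lit 399) (nat_lit 392) (nat_lit 349)) (XT.lf (nat_lit 76) (nat_lit 5012021131) (nat_lit 0) (nat_lit 1500653338)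 (nat_lit 988) (nat_lit 433906300) (nat_lit 605) (nat_lit 5) (nat_lit 604) (nat_lit 5) (nat_lit 617) (nat_lit 5) (nat_lit 400) (nat_lit 392) (nat_lit 348))) (XT.nd (nat_lit 78) (nat_lit 0) (nat_lit 0) (XT.lf (nat_lit 0) (nat_lit 1553784159) (nat_lit 988) (nat_lit 5350465446) (nat_lit 1064) (nat_lit 76519934) (nat_lit 592) (nat_lit 5) (nat_lit 605) (nat_lit 5) (nat_lit 606) (nat_lit 5) (nat_lit 401) (nat_lit 392) (nat_lit 347)) (XT.nd (nat_lit 78) (nat_lit 0) (nat_lit 0) (XT.lf (nat_lit 0) (nat_lit 3549917055) (nat_lit 988) (nat_lit 1765513607) (nat_lit 1064) (nat_lit 1700692001) (nat_lit 592) (nat_lit 5) (nat_lit 605) (nat_lit 5) (nat_lit 606) (nat_lit 5) (nat_lit 402) (nat_lit 392) (nat_lit 346)) (XT.lf (nat_lit 76) (nat_lit 1886544242) (nat_lit 0) (nat_lit 3664115505) (nat_lit 1064) (nat_lit 1502256723) (nat_lit 593) (nat_lit 5) (nat_lit 592) (nat_lit 5) (nat_lit 606) (nat_lit 5) (nat_lit 403) (nat_lit 392) (nat_lit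 345))))) (XT.nd (nat_lit 234) (nat_lit 1064) (nat_lit 0) (XT.nd (nat_lit 78) (nat_lit 0) (nat_lit 0) (XT.lf (nat_lit 0) (nat_lit 459172080) (nat_lit 1064) (nat_lit 1487760410) (nat_lit 1140) (nat_lit 5144179488) (nat_lit 578) (nat_lit 5) (nat_lit 592) (nat_lit 5) (nat_lit 593) (nat_lit 5) (nat_lit 404) (nat_lit 392) (nat_lit 344)) (XT.nd (nat_lit 78) (nat_lit 0) (nat_lit 76) (XT.lf (nat_lit 76) (nat_lit 2254836371) (nat_lit 0) (nat_lit 153306450) (nat_lit 1140) (nat_lit 4722387192) (nat_lit 579) (nat_lit 5) (nat_lit 578) (nat_lit 5) (nat_lit 593) (nat_lit 5) (nat_lit 405) (nat_lit 392) (nat_lit 343)) (XT.lf (nat_lit 0) (nat_lit 4371620731) (nat_lit 1064) (nat_lit 1119095296) (nat_lit 1140) (nat_lit 1680535107) (nat_lit 579) (nat_lit 5) (nat_lit 593) (nat_lit 5) (nat_lit 594) (nat_lit 5) (nat_lit 406) (nat_lit 392) (nat_lit 342)))) (XT.nd (nat_lit 78) (nat_lit 1140) (nat_lit 0) (XT.lf (nat_lit 76) (nat_lit 2717791950)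 (nat_lit 0) (nat_lit 3630722554) (nat_lit 1140) (nat_lit 864814032) (nat_lit 580) (nat_lit 5) (nat_lit 579) (nat_lit 5) (nat_lit 594) (nat_lit 5) (nat_lit 407) (nat_lit 392) (nat_lit 341)) (XT.nd (nat_lit 78) (nat_lit 0) (nat_lit 76) (XT.lf (nat_lit 0) (nat_lit 1057571142) (nat_lit 1140) (nat_lit 646647589) (nat_lit 1216) (nat_lit 5552640345) (nat_lit 564) (nat_lit 5) (nat_lit 579) (nat_lit 5) (nat_lit 580) (nat_lit 5) (nat_lit 408) (nat_lit 392) (nat_lit 340)) (XT.lf (nat_lit 0) (nat_lit 2986861171) (nat_lit 1140) (nat_lit 4016268364) (nat_lit 1216) (nat_lit 298438980) (nat_lit 565) (nat_lit 5) (nat_lit 580) (nat_lit 5) (nat_lit 581) (nat_lit 5) (nat_lit 409) (nat_lit 392) (nat_lit 339))))))))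
noncomputable def xc128 : XT := (XT.nd (nat_lit 1638) (nat_lit 9272) (nat_lit 0) (XT.nd (nat_lit 780) (nat_lit 10184) (nat_lit 0) (XT.nd (nat_lit 390) (nat_lit 2736) (nat_lit 0) (XT.nd (nat_lit 156) (nat_lit 2356) (nat_lit 0) (XT.nd (nat_lit 78) (nat_lit 0) (nat_lit 0) (XT.lf (nat_lit 0) (nat_lit 4927858080) (nat_lit 1140) (nat_lit 83820918) (nat_lit 1216) (nat_lit 2336053619) (nat_lit 565) (nat_lit 5) (nat_lit 580) (nat_lit 5) (nat_lit 581) (nat_lit 5) (nat_lit 410) (nat_lit 392) (nat_lit 338)) (XT.lf (nat_lit 76) (nat_lit 3949591815) (nat_lit 0) (nat_lit 2942027248) (nat_lit 1216) (nat_lit 503544505) (nat_lit 566) (nat_lit 5) (nat_lit 565) (nat_lit 5) (nat_lit 581) (nat_lit 5) (nat_lit 411) (nat_lit 392) (nat_lit 337))) (XT.nd (nat_lit 78) (nat_lit 1140) (nat_lit 0) (XT.lf (nat_lit 76) (nat_lit 589725575) (nat_lit 0) (nat_lit 805384565) (nat_lit 1292) (nat_lit 6049005552) (nat_lit 550) (nat_lit 5) (nat_lit 549) (nat_lit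 5) (nat_lit 566) (nat_lit 5) (nat_lit 412) (nat_lit 392) (nat_lit 336)) (XT.nd (nat_lit 78) (nat_lit 1216) (nat_lit 0) (XT.lf (nat_lit 0) (nat_lit 3316522264) (nat_lit 1216) (nat_lit 2784130860) (nat_lit 76) (nat_lit 1393517781) (nat_lit 550) (nat_lit 5) (nat_lit 566) (nat_lit 5) (nat_lit 551) (nat_lit 5) (nat_lit 413) (nat_lit 392) (nat_lit 335)) (XT.lf (nat_lit 0) (nat_lit 1349931758) (nat_lit 1216) (nat_lit 3900651706) (nat_lit 1292) (nat_lit 2295180081) (nat_lit 534) (nat_lit 5) (nat_lit 550) (nat_lit 5) (nat_lit 551) (nat_lit 5) (nat_lit 414) (nat_lit 392) (nat_lit 334))))) (XT.nd (nat_lit 156) (nat_lit 1368) (nat_lit 0) (XT.nd (nat_lit 78) (nat_lit 1368) (nat_lit 0) (XT.lf (nat_lit 0) (nat_lit 5574639699) (nat_lit 1216) (nat_lit 1628080272) (nat_lit 1292) (nat_lit 396100519) (nat_lit 534) (nat_lit 5) (nat_lit 550) (nat_lit 5) (nat_lit 551) (nat_lit 5) (nat_lit 415) (nat_lit 392) (nat_lit 333)) (XT.lf (nat_lit 0)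 (nat_lit 1501073121) (nat_lit 1368) (nat_lit 5437654736) (nat_lit 76) (nat_lit 714423711) (nat_lit 516) (nat_lit 5) (nat_lit 534) (nat_lit 5) (nat_lit 517) (nat_lit 5) (nat_lit 416) (nat_lit 392) (nat_lit 332))) (XT.nd (nat_lit 78) (nat_lit 1368) (nat_lit 0) (XT.lf (nat_lit 0) (nat_lit 3417178735) (nat_lit 1368) (nat_lit 1184757742) (nat_lit 76) (nat_lit 3106873740) (nat_lit 516) (nat_lit 5) (nat_lit 534) (nat_lit 5) (nat_lit 517) (nat_lit 5) (nat_lit 417) (nat_lit 392) (nat_lit 331)) (XT.nd (nat_lit 78) (nat_lit 0) (nat_lit 0) (XT.lf (nat_lit 0) (nat_lit 3164930006) (nat_lit 1368) (nat_lit 2189805734) (nat_lit 1444) (nat_lit 2411202497) (nat_lit 498) (nat_lit 5) (nat_lit 516) (nat_lit 5) (nat_lit 517) (nat_lit 5) (nat_lit 418) (nat_lit 392) (nat_lit 330)) (XT.lf (nat_lit 0) (nat_lit 7303973094) (nat_lit 1444) (nat_lit 238571228) (nat_lit 76) (nat_lit 282224328) (nat_lit 498) (nat_lit 5) (nat_lit 517) (nat_lit 5) (nat_lit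 499) (nat_lit 5) (nat_lit 419) (nat_lit 392) (nat_lit 329)))))) (XT.nd (nat_lit 390) (nat_lit 5472) (nat_lit 0) (XT.nd (nat_lit 156) (nat_lit 1672) (nat_lit 0) (XT.nd (nat_lit 78) (nat_lit 1520) (nat_lit 0) (XT.lf (nat_lit 0) (nat_lit 1394788617) (nat_lit 1520) (nat_lit 3671653950) (nat_lit 76) (nat_lit 2818051494) (nat_lit 478) (nat_lit 5) (nat_lit 498) (nat_lit 5) (nat_lit 479) (nat_lit 5) (nat_lit 420) (nat_lit 392) (nat_lit 328)) (XT.lf (nat_lit 0) (nat_lit 787920476) (nat_lit 1520) (nat_lit 2524678676) (nat_lit 1596) (nat_lit 4633345570) (nat_lit 458) (nat_lit 5) (nat_lit 478) (nat_lit 5) (nat_lit 479) (nat_lit 5) (nat_lit 421) (nat_lit 392) (nat_lit 327))) (XT.nd (nat_lit 78) (nat_lit 1672) (nat_lit 0) (XT.lf (nat_lit 0) (nat_lit 5258707340) (nat_lit 1596) (nat_lit 2652925628) (nat_lit 76) (nat_lit 97209612) (nat_lit 458) (nat_lit 5) (nat_lit 479) (nat_lit 5) (nat_lit 459) (nat_lit 5) (nat_lit 422) (nat_lit 392)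 (nat_lit 326)) (XT.nd (nat_lit 78) (nat_lit 76) (nat_lit 0) (XT.lf (nat_lit 0) (nat_lit 1920699995) (nat_lit 1596) (nat_lit 5317618622) (nat_lit 1672) (nat_lit 834804839) (nat_lit 437) (nat_lit 5) (nat_lit 458) (nat_lit 5) (nat_lit 459) (nat_lit 5) (nat_lit 423) (nat_lit 392) (nat_lit 325)) (XT.lf (nat_lit 0) (nat_lit 1087712344) (nat_lit 1672) (nat_lit 1554277406) (nat_lit 76) (nat_lit 5496899871) (nat_lit 436) (nat_lit 5) (nat_lit 458) (nat_lit 5) (nat_lit 437) (nat_lit 5) (nat_lit 424) (nat_lit 392) (nat_lit 324))))) (XT.nd (nat_lit 234) (nat_lit 2052) (nat_lit 0) (XT.nd (nat_lit 78) (nat_lit 1748) (nat_lit 0) (XT.lf (nat_lit 0) (nat_lit 3024981407) (nat_lit 1748) (nat_lit 5065123468) (nat_lit 76) (nat_lit 116021999) (nat_lit 414) (nat_lit 5) (nat_lit 437) (nat_lit 5) (nat_lit 415) (nat_lit 5) (nat_lit 425) (nat_lit 392) (nat_lit 323)) (XT.nd (nat_lit 78) (nat_lit 1748) (nat_lit 0) (XT.lf (nat_lit 0) (nat_lit 4995791742)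 (nat_lit 1748) (nat_lit 371041911) (nat_lit 76) (nat_lit 2907994712) (nat_lit 414) (nat_lit 5) (nat_lit 437) (nat_lit 5) (nat_lit 415) (nat_lit 5) (nat_lit 426) (nat_lit 392) (nat_lit 322)) (XT.lf (nat_lit 0) (nat_lit 4445584327) (nat_lit 1748) (nat_lit 2556748792) (nat_lit 1824) (nat_lit 1342659575) (nat_lit 391) (nat_lit 5) (nat_lit 414) (nat_lit 5) (nat_lit 415) (nat_lit 5) (nat_lit 427) (nat_lit 392) (nat_lit 321)))) (XT.nd (nat_lit 78) (nat_lit 912) (nat_lit 0) (XT.lf (nat_lit 0) (nat_lit 602443754) (nat_lit 1140) (nat_lit 7493895545) (nat_lit 76) (nat_lit 320587542) (nat_lit 376) (nat_lit 5) (nat_lit 391) (nat_lit 5) (nat_lit 377) (nat_lit 5) (nat_lit 428) (nat_lit 392) (nat_lit 320)) (XT.nd (nat_lit 78) (nat_lit 912) (nat_lit 0) (XT.lf (nat_lit 0) (nat_lit 2579886551) (nat_lit 1140) (nat_lit 2651356577) (nat_lit 76) (nat_lit 3258664964) (nat_lit 376) (nat_lit 5) (nat_lit 391) (nat_lit 5) (nat_lit 377) (nat_lit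 5) (nat_lit 429) (nat_lit 392) (nat_lit 319)) (XT.lf (nat_lit 0) (nat_lit 2288279341) (nat_lit 912) (nat_lit 2292207184) (nat_lit 988) (nat_lit 3984204235) (nat_lit 364) (nat_lit 5) (nat_lit 376) (nat_lit 5) (nat_lit 377) (nat_lit 5) (nat_lit 430) (nat_lit 392) (nat_lit 318))))))) (XT.nd (nat_lit 780) (nat_lit 4256) (nat_lit 0) (XT.nd (nat_lit 390) (nat_lit 2432) (nat_lit 0) (XT.nd (nat_lit 156) (nat_lit 1748) (nat_lit 0) (XT.nd (nat_lit 78) (nat_lit 836) (nat_lit 0) (XT.lf (nat_lit 0) (nat_lit 6612769816) (nat_lit 988) (nat_lit 1312872154) (nat_lit 76) (nat_lit 715507368) (nat_lit 364) (nat_lit 5) (nat_lit 377) (nat_lit 5) (nat_lit 365) (nat_lit 5) (nat_lit 431) (nat_lit 392) (nat_lit 317)) (XT.lf (nat_lit 0) (nat_lit 3754381800) (nat_lit 836) (nat_lit 4940657603) (nat_lit 912) (nat_lit 23924287) (nat_lit 353) (nat_lit 5) (nat_lit 364) (nat_lit 5) (nat_lit 365) (nat_lit 5) (nat_lit 432) (nat_lit 392) (nat_lit 316)))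 (XT.nd (nat_lit 78) (nat_lit 836) (nat_lit 0) (XT.lf (nat_lit 0) (nat_lit 100932860) (nat_lit 836) (nat_lit 1872685662) (nat_lit 912) (nat_lit 6824876331) (nat_lit 341) (nat_lit 5) (nat_lit 352) (nat_lit 5) (nat_lit 353) (nat_lit 5) (nat_lit 433) (nat_lit 392) (nat_lit 315)) (XT.nd (nat_lit 78) (nat_lit 836) (nat_lit 0) (XT.lf (nat_lit 0) (nat_lit 4022858486) (nat_lit 912) (nat_lit 3582675528) (nat_lit 76) (nat_lit 1273850771) (nat_lit 341) (nat_lit 5) (nat_lit 353) (nat_lit 5) (nat_lit 342) (nat_lit 5) (nat_lit 434) (nat_lit 392) (nat_lit 314)) (XT.lf (nat_lit 0) (nat_lit 1613621413) (nat_lit 836) (nat_lit 4493293154) (nat_lit 912) (nat_lit 2855113716) (nat_lit 330) (nat_lit 5) (nat_lit 341) (nat_lit 5) (nat_lit 342) (nat_lit 5) (nat_lit 435) (nat_lit 392) (nat_lit 313))))) (XT.nd (nat_lit 156) (nat_lit 1520) (nat_lit 0) (XT.nd (nat_lit 78) (nat_lit 912) (nat_lit 0) (XT.lf (nat_lit 0) (nat_lit 6932955163) (nat_lit 836)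 (nat_lit 1295069296) (nat_lit 912) (nat_lit 818404888) (nat_lit 330) (nat_lit 5) (nat_lit 341) (nat_lit 5) (nat_lit 342) (nat_lit 5) (nat_lit 436) (nat_lit 392) (nat_lit 312)) (XT.lf (nat_lit 0) (nat_lit 1248157994) (nat_lit 912) (nat_lit 5914376347) (nat_lit 76) (nat_lit 1969719631) (nat_lit 318) (nat_lit 5) (nat_lit 330) (nat_lit 5) (nat_lit 319) (nat_lit 5) (nat_lit 437) (nat_lit 392) (nat_lit 311))) (XT.nd (nat_lit 78) (nat_lit 1520) (nat_lit 0) (XT.lf (nat_lit 0) (nat_lit 3340011189) (nat_lit 912) (nat_lit 578730612) (nat_lit 76) (nat_lit 5301058197) (nat_lit 318) (nat_lit 5) (nat_lit 330) (nat_lit 5) (nat_lit 319) (nat_lit 5) (nat_lit 438) (nat_lit 392) (nat_lit 310)) (XT.nd (nat_lit 78) (nat_lit 760) (nat_lit 0) (XT.lf (nat_lit 0) (nat_lit 4898824151) (nat_lit 760) (nat_lit 579285853) (nat_lit 836) (nat_lit 3830909992) (nat_lit 308) (nat_lit 5) (nat_lit 318) (nat_lit 5) (nat_lit 319) (nat_lit 5) (nat_lit 439)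 (nat_lit 392) (nat_lit 309)) (XT.lf (nat_lit 0) (nat_lit 1059947422) (nat_lit 760) (nat_lit 6601109248) (nat_lit 836) (nat_lit 1738937013) (nat_lit 298) (nat_lit 5) (nat_lit 308) (nat_lit 5) (nat_lit 309) (nat_lit 5) (nat_lit 440) (nat_lit 392) (nat_lit 308)))))) (XT.nd (nat_lit 390) (nat_lit 2052) (nat_lit 0) (XT.nd (nat_lit 156) (nat_lit 1444) (nat_lit 0) (XT.nd (nat_lit 78) (nat_lit 684) (nat_lit 0) (XT.lf (nat_lit 0) (nat_lit 396417160) (nat_lit 836) (nat_lit 2829092758) (nat_lit 76) (nat_lit 6267101815) (nat_lit 297) (nat_lit 5) (nat_lit 308) (nat_lit 5) (nat_lit 298) (nat_lit 5) (nat_lit 441) (nat_lit 392) (nat_lit 307)) (XT.lf (nat_lit 0) (nat_lit 2544531314) (nat_lit 760) (nat_lit 6800485814) (nat_lit 76) (nat_lit 241978753) (nat_lit 288) (nat_lit 5) (nat_lit 298) (nat_lit 5) (nat_lit 289) (nat_lit 5) (nat_lit 442) (nat_lit 392) (nat_lit 306))) (XT.nd (nat_lit 78) (nat_lit 1444) (nat_lit 0) (XT.lf (nat_lit 0)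 (nat_lit 4750012595) (nat_lit 760) (nat_lit 1180919842) (nat_lit 76) (nat_lit 3752057345) (nat_lit 288) (nat_lit 5) (nat_lit 298) (nat_lit 5) (nat_lit 289) (nat_lit 5) (nat_lit 443) (nat_lit 392) (nat_lit 305)) (XT.nd (nat_lit 78) (nat_lit 684) (nat_lit 0) (XT.lf (nat_lit 0) (nat_lit 4582392078) (nat_lit 760) (nat_lit 2421407884) (nat_lit 836) (nat_lit 2777029639) (nat_lit 278) (nat_lit 5) (nat_lit 288) (nat_lit 5) (nat_lit 289) (nat_lit 5) (nat_lit 444) (nat_lit 392) (nat_lit 304)) (XT.lf (nat_lit 0) (nat_lit 567329642) (nat_lit 684) (nat_lit 8729253181) (nat_lit 760) (nat_lit 584174768) (nat_lit 269) (nat_lit 5) (nat_lit 278) (nat_lit 5) (nat_lit 279) (nat_lit 5) (nat_lit 445) (nat_lit 392) (nat_lit 303))))) (XT.nd (nat_lit 234) (nat_lit 1292) (nat_lit 0) (XT.nd (nat_lit 78) (nat_lit 684) (nat_lit 0) (XT.lf (nat_lit 0) (nat_lit 1656886910) (nat_lit 760) (nat_lit 3519304746) (nat_lit 76) (nat_lit 4805766831) (nat_lit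 268) (nat_lit 5) (nat_lit 278) (nat_lit 5) (nat_lit 269) (nat_lit 5) (nat_lit 446) (nat_lit 392) (nat_lit 302)) (XT.nd (nat_lit 78) (nat_lit 0) (nat_lit 0) (XT.lf (nat_lit 0) (nat_lit 2389543640) (nat_lit 684) (nat_lit 1536290549) (nat_lit 760) (nat_lit 6159463462) (nat_lit 259) (nat_lit 5) (nat_lit 268) (nat_lit 5) (nat_lit 269) (nat_lit 5) (nat_lit 447) (nat_lit 392) (nat_lit 301)) (XT.lf (nat_lit 0) (nat_lit 6253700304) (nat_lit 760) (nat_lit 1769152920) (nat_lit 76) (nat_lit 2167588605) (nat_lit 259) (nat_lit 5) (nat_lit 269) (nat_lit 5) (nat_lit 260) (nat_lit 5) (nat_lit 448) (nat_lit 392) (nat_lit 300)))) (XT.nd (nat_lit 78) (nat_lit 684) (nat_lit 0) (XT.lf (nat_lit 0) (nat_lit 4293777932) (nat_lit 608) (nat_lit 4348512105) (nat_lit 684) (nat_lit 1655124378) (nat_lit 251) (nat_lit 5) (nat_lit 259) (nat_lit 5) (nat_lit 260) (nat_lit 5) (nat_lit 449) (nat_lit 392) (nat_lit 299)) (XT.nd (nat_lit 78) (nat_lit 0) (nat_lit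 0) (XT.lf (nat_lit 0) (nat_lit 63571268) (nat_lit 608) (nat_lit 588336937) (nat_lit 684) (nat_lit 9754767514) (nat_lit 242) (nat_lit 5) (nat_lit 250) (nat_lit 5) (nat_lit 251) (nat_lit 5) (nat_lit 450) (nat_lit 392) (nat_lit 298)) (XT.lf (nat_lit 0) (nat_lit 3021062246) (nat_lit 684) (nat_lit 4244861394) (nat_lit 76) (nat_lit 3251225285) (nat_lit 242) (nat_lit 5) (nat_lit 251) (nat_lit 5) (nat_lit 243) (nat_lit 5) (nat_lit 451) (nat_lit 392) (nat_lit 297))))))))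
noncomputable def xc129 : XT := (XT.nd (nat_lit 1638) (nat_lit 4864) (nat_lit 0) (XT.nd (nat_lit 780) (nat_lit 3040) (nat_lit 0) (XT.nd (nat_lit 390) (nat_lit 1748) (nat_lit 0) (XT.nd (nat_lit 156) (nat_lit 1216) (nat_lit 0) (XT.nd (nat_lit 78) (nat_lit 0) (nat_lit 0) (XT.lf (nat_lit 0) (nat_lit 1969099761) (nat_lit 608) (nat_lit 3462127526) (nat_lit 684) (nat_lit 5198739926) (nat_lit 234) (nat_lit 5) (nat_lit 242) (nat_lit 5) (nat_lit 243) (nat_lit 5) (nat_lit 452) (nat_lit 392) (nat_lit 296)) (XT.lf (nat_lit 0) (nat_lit 7898165229) (nat_lit 684) (nat_lit 2410912812) (nat_lit 76) (nat_lit 435800450) (nat_lit 234) (nat_lit 5) (nat_lit 243) (nat_lit 5) (nat_lit 235) (nat_lit 5) (nat_lit 453) (nat_lit 392) (nat_lit 295))) (XT.nd (nat_lit 78) (nat_lit 608) (nat_lit 0) (XT.lf (nat_lit 0) (nat_lit 3965255129) (nat_lit 608) (nat_lit 6475490674) (nat_lit 684) (nat_lit 420823973) (nat_lit 226) (nat_lit 5) (nat_lit 234) (nat_lit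 5) (nat_lit 235) (nat_lit 5) (nat_lit 454) (nat_lit 392) (nat_lit 294)) (XT.nd (nat_lit 78) (nat_lit 532) (nat_lit 0) (XT.lf (nat_lit 0) (nat_lit 2020671305) (nat_lit 684) (nat_lit 520067651) (nat_lit 76) (nat_lit 8439716394) (nat_lit 225) (nat_lit 5) (nat_lit 234) (nat_lit 5) (nat_lit 226) (nat_lit 5) (nat_lit 455) (nat_lit 392) (nat_lit 293)) (XT.lf (nat_lit 0) (nat_lit 4532510049) (nat_lit 608) (nat_lit 5078524989) (nat_lit 76) (nat_lit 1490092403) (nat_lit 218) (nat_lit 5) (nat_lit 226) (nat_lit 5) (nat_lit 219) (nat_lit 5) (nat_lit 456) (nat_lit 392) (nat_lit 292))))) (XT.nd (nat_lit 156) (nat_lit 1140) (nat_lit 0) (XT.nd (nat_lit 78) (nat_lit 0) (nat_lit 0) (XT.lf (nat_lit 0) (nat_lit 1453591637) (nat_lit 608) (nat_lit 5649157158) (nat_lit 684) (nat_lit 4121308175) (nat_lit 210) (nat_lit 5) (nat_lit 218) (nat_lit 5) (nat_lit 219) (nat_lit 5) (nat_lit 457) (nat_lit 392) (nat_lit 291)) (XT.lf (nat_lit 0) (nat_lit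 8157717567) (nat_lit 608) (nat_lit 1579386163) (nat_lit 684) (nat_lit 1612094249) (nat_lit 210) (nat_lit 5) (nat_lit 218) (nat_lit 5) (nat_lit 219) (nat_lit 5) (nat_lit 458) (nat_lit 392) (nat_lit 290))) (XT.nd (nat_lit 78) (nat_lit 532) (nat_lit 0) (XT.lf (nat_lit 0) (nat_lit 953567924) (nat_lit 608) (nat_lit 7961504714) (nat_lit 76) (nat_lit 2561279243) (nat_lit 202) (nat_lit 5) (nat_lit 210) (nat_lit 5) (nat_lit 203) (nat_lit 5) (nat_lit 459) (nat_lit 392) (nat_lit 289)) (XT.nd (nat_lit 78) (nat_lit 532) (nat_lit 0) (XT.lf (nat_lit 0) (nat_lit 3560098507) (nat_lit 608) (nat_lit 1255762170) (nat_lit 76) (nat_lit 6789758949) (nat_lit 202) (nat_lit 5) (nat_lit 210) (nat_lit 5) (nat_lit 203) (nat_lit 5) (nat_lit 460) (nat_lit 392) (nat_lit 288)) (XT.lf (nat_lit 0) (nat_lit 5631058515) (nat_lit 532) (nat_lit 603774570) (nat_lit 608) (nat_lit 5502324750) (nat_lit 195) (nat_lit 5) (nat_lit 202) (nat_lit 5) (nat_lit 203)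 (nat_lit 5) (nat_lit 461) (nat_lit 392) (nat_lit 287)))))) (XT.nd (nat_lit 390) (nat_lit 1520) (nat_lit 0) (XT.nd (nat_lit 156) (nat_lit 1064) (nat_lit 0) (XT.nd (nat_lit 78) (nat_lit 0) (nat_lit 0) (XT.lf (nat_lit 0) (nat_lit 760339325) (nat_lit 456) (nat_lit 8219815989) (nat_lit 532) (nat_lit 2890836082) (nat_lit 189) (nat_lit 5) (nat_lit 195) (nat_lit 5) (nat_lit 196) (nat_lit 5) (nat_lit 462) (nat_lit 392) (nat_lit 286)) (XT.lf (nat_lit 0) (nat_lit 7815921175) (nat_lit 456) (nat_lit 3989332728) (nat_lit 532) (nat_lit 201756648) (nat_lit 189) (nat_lit 5) (nat_lit 195) (nat_lit 5) (nat_lit 196) (nat_lit 5) (nat_lit 463) (nat_lit 392) (nat_lit 285))) (XT.nd (nat_lit 78) (nat_lit 456) (nat_lit 0) (XT.lf (nat_lit 0) (nat_lit 2508837241) (nat_lit 608) (nat_lit 9286507949) (nat_lit 76) (nat_lit 350059806) (nat_lit 181) (nat_lit 5) (nat_lit 189) (nat_lit 5) (nat_lit 182) (nat_lit 5) (nat_lit 464) (nat_lit 392) (nat_lit 284))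 (XT.nd (nat_lit 78) (nat_lit 456) (nat_lit 0) (XT.lf (nat_lit 0) (nat_lit 5306026066) (nat_lit 608) (nat_lit 2234075935) (nat_lit 76) (nat_lit 4745742921) (nat_lit 181) (nat_lit 5) (nat_lit 189) (nat_lit 5) (nat_lit 182) (nat_lit 5) (nat_lit 465) (nat_lit 392) (nat_lit 283)) (XT.lf (nat_lit 0) (nat_lit 4998665268) (nat_lit 456) (nat_lit 3173685267) (nat_lit 532) (nat_lit 4256485115) (nat_lit 175) (nat_lit 5) (nat_lit 181) (nat_lit 5) (nat_lit 182) (nat_lit 5) (nat_lit 466) (nat_lit 392) (nat_lit 282))))) (XT.nd (nat_lit 234) (nat_lit 532) (nat_lit 0) (XT.nd (nat_lit 78) (nat_lit 988) (nat_lit 0) (XT.lf (nat_lit 0) (nat_lit 11100302994) (nat_lit 532) (nat_lit 202917600) (nat_lit 76) (nat_lit 1271385293) (nat_lit 175) (nat_lit 5) (nat_lit 182) (nat_lit 5) (nat_lit 176) (nat_lit 5) (nat_lit 467) (nat_lit 392) (nat_lit 281)) (XT.nd (nat_lit 78) (nat_lit 456) (nat_lit 0) (XT.lf (nat_lit 0) (nat_lit 1395106464) (nat_lit 532)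 (nat_lit 5514930391) (nat_lit 76) (nat_lit 5812093791) (nat_lit 168) (nat_lit 5) (nat_lit 175) (nat_lit 5) (nat_lit 169) (nat_lit 5) (nat_lit 468) (nat_lit 392) (nat_lit 280)) (XT.lf (nat_lit 0) (nat_lit 1884607344) (nat_lit 456) (nat_lit 2412526644) (nat_lit 532) (nat_lit 8575382987) (nat_lit 162) (nat_lit 5) (nat_lit 168) (nat_lit 5) (nat_lit 169) (nat_lit 5) (nat_lit 469) (nat_lit 392) (nat_lit 279)))) (XT.nd (nat_lit 78) (nat_lit 532) (nat_lit 0) (XT.lf (nat_lit 0) (nat_lit 7290071792) (nat_lit 532) (nat_lit 3558829427) (nat_lit 76) (nat_lit 2176357705) (nat_lit 162) (nat_lit 5) (nat_lit 169) (nat_lit 5) (nat_lit 163) (nat_lit 5) (nat_lit 470) (nat_lit 392) (nat_lit 278)) (XT.nd (nat_lit 78) (nat_lit 76) (nat_lit 0) (XT.lf (nat_lit 0) (nat_lit 4030038964) (nat_lit 456) (nat_lit 6336830350) (nat_lit 532) (nat_lit 2813711565) (nat_lit 156) (nat_lit 5) (nat_lit 162) (nat_lit 5) (nat_lit 163) (nat_lit 5) (nat_lit 471)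 (nat_lit 392) (nat_lit 277)) (XT.lf (nat_lit 0) (nat_lit 169978151) (nat_lit 532) (nat_lit 1546590655) (nat_lit 76) (nat_lit 11622304584) (nat_lit 155) (nat_lit 5) (nat_lit 162) (nat_lit 5) (nat_lit 156) (nat_lit 5) (nat_lit 472) (nat_lit 392) (nat_lit 276))))))) (XT.nd (nat_lit 858) (nat_lit 2052) (nat_lit 0) (XT.nd (nat_lit 390) (nat_lit 1520) (nat_lit 0) (XT.nd (nat_lit 156) (nat_lit 456) (nat_lit 0) (XT.nd (nat_lit 78) (nat_lit 456) (nat_lit 0) (XT.lf (nat_lit 0) (nat_lit 3218338992) (nat_lit 456) (nat_lit 7271802671) (nat_lit 76) (nat_lit 3008969544) (nat_lit 150) (nat_lit 5) (nat_lit 156) (nat_lit 5) (nat_lit 151) (nat_lit 5) (nat_lit 473) (nat_lit 392) (nat_lit 275)) (XT.lf (nat_lit 0) (nat_lit 484842955) (nat_lit 456) (nat_lit 5850201835) (nat_lit 532) (nat_lit 7327366225) (nat_lit 144) (nat_lit 5) (nat_lit 150) (nat_lit 5) (nat_lit 151) (nat_lit 5) (nat_lit 474) (nat_lit 392) (nat_lit 274))) (XT.nd (nat_lit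 78) (nat_lit 456) (nat_lit 0) (XT.lf (nat_lit 0) (nat_lit 8469976632) (nat_lit 456) (nat_lit 1075501433) (nat_lit 532) (nat_lit 4282875585) (nat_lit 144) (nat_lit 5) (nat_lit 150) (nat_lit 5) (nat_lit 151) (nat_lit 5) (nat_lit 475) (nat_lit 392) (nat_lit 273)) (XT.nd (nat_lit 78) (nat_lit 76) (nat_lit 0) (XT.lf (nat_lit 0) (nat_lit 2601663699) (nat_lit 380) (nat_lit 10242872967) (nat_lit 456) (nat_lit 1152594741) (nat_lit 139) (nat_lit 5) (nat_lit 144) (nat_lit 5) (nat_lit 145) (nat_lit 5) (nat_lit 476) (nat_lit 392) (nat_lit 272)) (XT.lf (nat_lit 0) (nat_lit 2039795932) (nat_lit 456) (nat_lit 3420717968) (nat_lit 76) (nat_lit 8707985047) (nat_lit 138) (nat_lit 5) (nat_lit 144) (nat_lit 5) (nat_lit 139) (nat_lit 5) (nat_lit 477) (nat_lit 392) (nat_lit 271))))) (XT.nd (nat_lit 234) (nat_lit 760) (nat_lit 0) (XT.nd (nat_lit 78) (nat_lit 380) (nat_lit 0) (XT.lf (nat_lit 0) (nat_lit 4743513309) (nat_lit 380) (nat_lit 551179565)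 (nat_lit 456) (nat_lit 9048171097) (nat_lit 133) (nat_lit 5) (nat_lit 138) (nat_lit 5) (nat_lit 139) (nat_lit 5) (nat_lit 478) (nat_lit 392) (nat_lit 270)) (XT.nd (nat_lit 78) (nat_lit 380) (nat_lit 0) (XT.lf (nat_lit 0) (nat_lit 8650125434) (nat_lit 456) (nat_lit 1456659542) (nat_lit 76) (nat_lit 4413226818) (nat_lit 133) (nat_lit 5) (nat_lit 139) (nat_lit 5) (nat_lit 134) (nat_lit 5) (nat_lit 479) (nat_lit 392) (nat_lit 269)) (XT.lf (nat_lit 0) (nat_lit 6911652628) (nat_lit 380) (nat_lit 5193262107) (nat_lit 456) (nat_lit 2595147047) (nat_lit 128) (nat_lit 5) (nat_lit 133) (nat_lit 5) (nat_lit 134) (nat_lit 5) (nat_lit 480) (nat_lit 392) (nat_lit 268)))) (XT.nd (nat_lit 78) (nat_lit 304) (nat_lit 0) (XT.lf (nat_lit 0) (nat_lit 561733713) (nat_lit 380) (nat_lit 170843208) (nat_lit 456) (nat_lit 14151097870) (nat_lit 122) (nat_lit 5) (nat_lit 127) (nat_lit 5) (nat_lit 128) (nat_lit 5) (nat_lit 481) (nat_lit 392) (nat_lit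 267)) (XT.nd (nat_lit 78) (nat_lit 304) (nat_lit 0) (XT.lf (nat_lit 0) (nat_lit 4160785179) (nat_lit 456) (nat_lit 5959549132) (nat_lit 76) (nat_lit 4948913023) (nat_lit 122) (nat_lit 5) (nat_lit 128) (nat_lit 5) (nat_lit 123) (nat_lit 5) (nat_lit 482) (nat_lit 392) (nat_lit 266)) (XT.lf (nat_lit 0) (nat_lit 2578856521) (nat_lit 304) (nat_lit 5080776214) (nat_lit 380) (nat_lit 7598860944) (nat_lit 118) (nat_lit 5) (nat_lit 122) (nat_lit 5) (nat_lit 123) (nat_lit 5) (nat_lit 483) (nat_lit 392) (nat_lit 265)))))) (XT.nd (nat_lit 390) (nat_lit 1292) (nat_lit 0) (XT.nd (nat_lit 156) (nat_lit 380) (nat_lit 0) (XT.nd (nat_lit 78) (nat_lit 380) (nat_lit 0) (XT.lf (nat_lit 0) (nat_lit 11253403409) (nat_lit 380) (nat_lit 4106594616) (nat_lit 76) (nat_lit 91031778) (nat_lit 118) (nat_lit 5) (nat_lit 123) (nat_lit 5) (nat_lit 119) (nat_lit 5) (nat_lit 484) (nat_lit 392) (nat_lit 264)) (XT.lf (nat_lit 0) (nat_lit 4641576150) (nat_lit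 380) (nat_lit 10325867671) (nat_lit 456) (nat_lit 679008647) (nat_lit 113) (nat_lit 5) (nat_lit 118) (nat_lit 5) (nat_lit 119) (nat_lit 5) (nat_lit 485) (nat_lit 392) (nat_lit 263))) (XT.nd (nat_lit 78) (nat_lit 304) (nat_lit 0) (XT.lf (nat_lit 0) (nat_lit 2884212328) (nat_lit 456) (nat_lit 2267544844) (nat_lit 76) (nat_lit 10693404187) (nat_lit 112) (nat_lit 5) (nat_lit 118) (nat_lit 5) (nat_lit 113) (nat_lit 5) (nat_lit 486) (nat_lit 392) (nat_lit 262)) (XT.nd (nat_lit 78) (nat_lit 0) (nat_lit 0) (XT.lf (nat_lit 0) (nat_lit 6539185652) (nat_lit 380) (nat_lit 9343448881) (nat_lit 76) (nat_lit 164532021) (nat_lit 108) (nat_lit 5) (nat_lit 113) (nat_lit 5) (nat_lit 109) (nat_lit 5) (nat_lit 487) (nat_lit 392) (nat_lit 261)) (XT.lf (nat_lit 0) (nat_lit 10301743050) (nat_lit 380) (nat_lit 425229454) (nat_lit 76) (nat_lit 5525553079) (nat_lit 108) (nat_lit 5) (nat_lit 113) (nat_lit 5) (nat_lit 109) (nat_lit 5) (nat_lit 488)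 (nat_lit 392) (nat_lit 260))))) (XT.nd (nat_lit 234) (nat_lit 608) (nat_lit 0) (XT.nd (nat_lit 78) (nat_lit 380) (nat_lit 0) (XT.lf (nat_lit 0) (nat_lit 8763498861) (nat_lit 304) (nat_lit 5418294141) (nat_lit 380) (nat_lit 2279357316) (nat_lit 104) (nat_lit 5) (nat_lit 108) (nat_lit 5) (nat_lit 109) (nat_lit 5) (nat_lit 489) (nat_lit 392) (nat_lit 259)) (XT.nd (nat_lit 78) (nat_lit 0) (nat_lit 0) (XT.lf (nat_lit 0) (nat_lit 1444045494) (nat_lit 380) (nat_lit 15219294624) (nat_lit 76) (nat_lit 10464969) (nat_lit 99) (nat_lit 5) (nat_lit 104) (nat_lit 5) (nat_lit 100) (nat_lit 5) (nat_lit 490) (nat_lit 392) (nat_lit 258)) (XT.lf (nat_lit 0) (nat_lit 5284774368) (nat_lit 380) (nat_lit 6069867466) (nat_lit 76) (nat_lit 5534305372) (nat_lit 99) (nat_lit 5) (nat_lit 104) (nat_lit 5) (nat_lit 100) (nat_lit 5) (nat_lit 491) (nat_lit 392) (nat_lit 257)))) (XT.nd (nat_lit 78) (nat_lit 304) (nat_lit 0) (XT.lf (nat_lit 0) (nat_lit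 3283129593) (nat_lit 304) (nat_lit 5926259334) (nat_lit 380) (nat_lit 7898864918) (nat_lit 95) (nat_lit 5) (nat_lit 99) (nat_lit 5) (nat_lit 100) (nat_lit 5) (nat_lit 492) (nat_lit 392) (nat_lit 256)) (XT.nd (nat_lit 78) (nat_lit 304) (nat_lit 0) (XT.lf (nat_lit 0) (nat_lit 12883135649) (nat_lit 304) (nat_lit 355981326) (nat_lit 380) (nat_lit 4092300257) (nat_lit 95) (nat_lit 5) (nat_lit 99) (nat_lit 5) (nat_lit 100) (nat_lit 5) (nat_lit 493) (nat_lit 392) (nat_lit 255)) (XT.lf (nat_lit 0) (nat_lit 5126637615) (nat_lit 304) (nat_lit 12276779049) (nat_lit 380) (nat_lit 154550659) (nat_lit 91) (nat_lit 5) (nat_lit 95) (nat_lit 5) (nat_lit 96) (nat_lit 5) (nat_lit 494) (nat_lit 392) (nat_lit 254))))))))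
noncomputable def xc130 : XT := (XT.nd (nat_lit 52338) (nat_lit 0) (nat_lit 26144) (XT.nd (nat_lit 51480) (nat_lit 0) (nat_lit 38608) (XT.nd (nat_lit 390) (nat_lit 608) (nat_lit 0) (XT.nd (nat_lit 156) (nat_lit 608) (nat_lit 0) (XT.nd (nat_lit 78) (nat_lit 304) (nat_lit 0) (XT.lf (nat_lit 0) (nat_lit 3829858385) (nat_lit 380) (nat_lit 2884888646) (nat_lit 76) (nat_lit 11073431666) (nat_lit 90) (nat_lit 5) (nat_lit 95) (nat_lit 5) (nat_lit 91) (nat_lit 5) (nat_lit 495) (nat_lit 392) (nat_lit 253)) (XT.lf (nat_lit 0) (nat_lit 6920495263) (nat_lit 304) (nat_lit 1002746065) (nat_lit 380) (nat_lit 10099108242) (nat_lit 86) (nat_lit 5) (nat_lit 90) (nat_lit 5) (nat_lit 91) (nat_lit 5) (nat_lit 496) (nat_lit 392) (nat_lit 252))) (XT.nd (nat_lit 78) (nat_lit 608) (nat_lit 0) (XT.lf (nat_lit 0) (nat_lit 12135790702) (nat_lit 380) (nat_lit 1352972032) (nat_lit 76) (nat_lit 4771697904) (nat_lit 86) (nat_lit 5) (nat_lit 91) (nat_lit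 5) (nat_lit 87) (nat_lit 5) (nat_lit 497) (nat_lit 392) (nat_lit 251)) (XT.nd (nat_lit 78) (nat_lit 380) (nat_lit 0) (XT.lf (nat_lit 0) (nat_lit 8676668655) (nat_lit 228) (nat_lit 7805656733) (nat_lit 304) (nat_lit 2020016550) (nat_lit 83) (nat_lit 5) (nat_lit 86) (nat_lit 5) (nat_lit 87) (nat_lit 5) (nat_lit 498) (nat_lit 392) (nat_lit 250)) (XT.lf (nat_lit 0) (nat_lit 142694142) (nat_lit 304) (nat_lit 1992475663) (nat_lit 380) (nat_lit 16613675156) (nat_lit 78) (nat_lit 5) (nat_lit 82) (nat_lit 5) (nat_lit 83) (nat_lit 5) (nat_lit 499) (nat_lit 392) (nat_lit 249))))) (XT.nd (nat_lit 156) (nat_lit 380) (nat_lit 0) (XT.nd (nat_lit 78) (nat_lit 228) (nat_lit 0) (XT.lf (nat_lit 0) (nat_lit 6425229625) (nat_lit 380) (nat_lit 8616198906) (nat_lit 76) (nat_lit 3957008652) (nat_lit 78) (nat_lit 5) (nat_lit 83) (nat_lit 5) (nat_lit 79) (nat_lit 5) (nat_lit 500) (nat_lit 392) (nat_lit 248)) (XT.lf (nat_lit 0) (nat_lit 1559752084)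 (nat_lit 228) (nat_lit 9251777337) (nat_lit 304) (nat_lit 8441285546) (nat_lit 75) (nat_lit 5) (nat_lit 78) (nat_lit 5) (nat_lit 79) (nat_lit 5) (nat_lit 501) (nat_lit 392) (nat_lit 247))) (XT.nd (nat_lit 78) (nat_lit 380) (nat_lit 0) (XT.lf (nat_lit 0) (nat_lit 12035094314) (nat_lit 228) (nat_lit 3295513532) (nat_lit 304) (nat_lit 4180773852) (nat_lit 75) (nat_lit 5) (nat_lit 78) (nat_lit 5) (nat_lit 79) (nat_lit 5) (nat_lit 502) (nat_lit 392) (nat_lit 246)) (XT.nd (nat_lit 50778) (nat_lit 0) (nat_lit 41420) (XT.lf (nat_lit 0) (nat_lit 187544732) (nat_lit 380) (nat_lit 16831182344) (nat_lit 76) (nat_lit 2755878418) (nat_lit 70) (nat_lit 5) (nat_lit 75) (nat_lit 5) (nat_lit 71) (nat_lit 5) (nat_lit 503) (nat_lit 392) (nat_lit 245)) (XT.lf (nat_lit 0) (nat_lit 241057562) (nat_lit 0) (nat_lit 241057562) (nat_lit 836) (nat_lit 2902109199) (nat_lit 615) (nat_lit 5) (nat_lit 615) (nat_lit 3) (nat_lit 626) (nat_lit 3) (nat_lit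 393) (nat_lit 393) (nat_lit 354)))))) (XT.nd (nat_lit 390) (nat_lit 1900) (nat_lit 0) (XT.nd (nat_lit 156) (nat_lit 912) (nat_lit 0) (XT.nd (nat_lit 78) (nat_lit 0) (nat_lit 0) (XT.lf (nat_lit 0) (nat_lit 3020029969) (nat_lit 836) (nat_lit 3038795318) (nat_lit 912) (nat_lit 735137919) (nat_lit 615) (nat_lit 5) (nat_lit 626) (nat_lit 3) (nat_lit 627) (nat_lit 5) (nat_lit 394) (nat_lit 393) (nat_lit 353)) (XT.lf (nat_lit 76) (nat_lit 245673173) (nat_lit 0) (nat_lit 4822689636) (nat_lit 912) (nat_lit 1752629606) (nat_lit 616) (nat_lit 5) (nat_lit 615) (nat_lit 5) (nat_lit 627) (nat_lit 5) (nat_lit 395) (nat_lit 393) (nat_lit 352))) (XT.nd (nat_lit 78) (nat_lit 0) (nat_lit 0) (XT.lf (nat_lit 0) (nat_lit 272688604) (nat_lit 912) (nat_lit 3241873007) (nat_lit 988) (nat_lit 3334639044) (nat_lit 603) (nat_lit 5) (nat_lit 615) (nat_lit 5) (nat_lit 616) (nat_lit 5) (nat_lit 396) (nat_lit 393) (nat_lit 351)) (XT.nd (nat_lit 78)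 (nat_lit 0) (nat_lit 0) (XT.lf (nat_lit 76) (nat_lit 120172779) (nat_lit 0) (nat_lit 2143827266) (nat_lit 988) (nat_lit 4614793043) (nat_lit 604) (nat_lit 5) (nat_lit 603) (nat_lit 5) (nat_lit 616) (nat_lit 5) (nat_lit 397) (nat_lit 393) (nat_lit 350)) (XT.lf (nat_lit 76) (nat_lit 3565549747) (nat_lit 0) (nat_lit 700330816) (nat_lit 988) (nat_lit 2643712163) (nat_lit 604) (nat_lit 5) (nat_lit 603) (nat_lit 5) (nat_lit 616) (nat_lit 5) (nat_lit 398) (nat_lit 393) (nat_lit 349))))) (XT.nd (nat_lit 234) (nat_lit 988) (nat_lit 0) (XT.nd (nat_lit 78) (nat_lit 988) (nat_lit 0) (XT.lf (nat_lit 76) (nat_lit 106727807) (nat_lit 0) (nat_lit 6156912208) (nat_lit 988) (nat_lit 678281136) (nat_lit 605) (nat_lit 5) (nat_lit 604) (nat_lit 5) (nat_lit 617) (nat_lit 5) (nat_lit 399) (nat_lit 393) (nat_lit 348)) (XT.nd (nat_lit 78) (nat_lit 0) (nat_lit 0) (XT.lf (nat_lit 0) (nat_lit 1286864806) (nat_lit 988) (nat_lit 3344985917) (nat_lit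 1064) (nat_lit 2343345587) (nat_lit 591) (nat_lit 5) (nat_lit 604) (nat_lit 5) (nat_lit 605) (nat_lit 5) (nat_lit 400) (nat_lit 393) (nat_lit 347)) (XT.lf (nat_lit 76) (nat_lit 184539131) (nat_lit 0) (nat_lit 3050444269) (nat_lit 1064) (nat_lit 3775036776) (nat_lit 592) (nat_lit 5) (nat_lit 591) (nat_lit 5) (nat_lit 605) (nat_lit 5) (nat_lit 401) (nat_lit 393) (nat_lit 346)))) (XT.nd (nat_lit 78) (nat_lit 988) (nat_lit 0) (XT.lf (nat_lit 76) (nat_lit 3801768924) (nat_lit 0) (nat_lit 1395054156) (nat_lit 1064) (nat_lit 1849249630) (nat_lit 592) (nat_lit 5) (nat_lit 591) (nat_lit 5) (nat_lit 605) (nat_lit 5) (nat_lit 402) (nat_lit 393) (nat_lit 345)) (XT.nd (nat_lit 78) (nat_lit 0) (nat_lit 0) (XT.lf (nat_lit 0) (nat_lit 71000103) (nat_lit 1064) (nat_lit 6701332212) (nat_lit 1140) (nat_lit 311376226) (nat_lit 578) (nat_lit 5) (nat_lit 592) (nat_lit 5) (nat_lit 593) (nat_lit 5) (nat_lit 403) (nat_lit 393) (nat_lit 344))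 (XT.lf (nat_lit 0) (nat_lit 1989840343) (nat_lit 1064) (nat_lit 3046935000) (nat_lit 1140) (nat_lit 2085404123) (nat_lit 578) (nat_lit 5) (nat_lit 592) (nat_lit 5) (nat_lit 593) (nat_lit 5) (nat_lit 404) (nat_lit 393) (nat_lit 343))))))) (XT.nd (nat_lit 780) (nat_lit 10260) (nat_lit 0) (XT.nd (nat_lit 390) (nat_lit 1140) (nat_lit 0) (XT.nd (nat_lit 156) (nat_lit 1064) (nat_lit 0) (XT.nd (nat_lit 78) (nat_lit 0) (nat_lit 0) (XT.lf (nat_lit 76) (nat_lit 660575350) (nat_lit 0) (nat_lit 3245447287) (nat_lit 1140) (nat_lit 3256243148) (nat_lit 579) (nat_lit 5) (nat_lit 578) (nat_lit 5) (nat_lit 593) (nat_lit 5) (nat_lit 405) (nat_lit 393) (nat_lit 342)) (XT.lf (nat_lit 76) (nat_lit 4455087955) (nat_lit 0) (nat_lit 1381267499) (nat_lit 1140) (nat_lit 1367306624) (nat_lit 579) (nat_lit 5) (nat_lit 578) (nat_lit 5) (nat_lit 593) (nat_lit 5) (nat_lit 406) (nat_lit 393) (nat_lit 341))) (XT.nd (nat_lit 78) (nat_lit 0) (nat_lit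 0) (XT.lf (nat_lit 0) (nat_lit 518452847) (nat_lit 1140) (nat_lit 6188737630) (nat_lit 1216) (nat_lit 539319381) (nat_lit 564) (nat_lit 5) (nat_lit 579) (nat_lit 5) (nat_lit 580) (nat_lit 5) (nat_lit 407) (nat_lit 393) (nat_lit 340)) (XT.nd (nat_lit 78) (nat_lit 0) (nat_lit 0) (XT.lf (nat_lit 0) (nat_lit 2408069802) (nat_lit 1140) (nat_lit 2359969854) (nat_lit 1216) (nat_lit 2522328527) (nat_lit 564) (nat_lit 5) (nat_lit 579) (nat_lit 5) (nat_lit 580) (nat_lit 5) (nat_lit 408) (nat_lit 393) (nat_lit 339)) (XT.lf (nat_lit 76) (nat_lit 1536800578) (nat_lit 0) (nat_lit 2766224504) (nat_lit 1216) (nat_lit 3032750569) (nat_lit 565) (nat_lit 5) (nat_lit 564) (nat_lit 5) (nat_lit 580) (nat_lit 5) (nat_lit 409) (nat_lit 393) (nat_lit 338))))) (XT.nd (nat_lit 156) (nat_lit 0) (nat_lit 0) (XT.nd (nat_lit 78) (nat_lit 1140) (nat_lit 0) (XT.lf (nat_lit 76) (nat_lit 5514957320) (nat_lit 0) (nat_lit 694973551) (nat_lit 1216) (nat_lit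 1172701819) (nat_lit 565) (nat_lit 5) (nat_lit 564) (nat_lit 5) (nat_lit 580) (nat_lit 5) (nat_lit 410) (nat_lit 393) (nat_lit 337)) (XT.lf (nat_lit 0) (nat_lit 697071596) (nat_lit 1216) (nat_lit 5303288137) (nat_lit 1292) (nat_lit 1430354103) (nat_lit 549) (nat_lit 5) (nat_lit 565) (nat_lit 5) (nat_lit 566) (nat_lit 5) (nat_lit 411) (nat_lit 393) (nat_lit 336))) (XT.nd (nat_lit 78) (nat_lit 0) (nat_lit 0) (XT.lf (nat_lit 0) (nat_lit 2565216841) (nat_lit 1216) (nat_lit 1293487133) (nat_lit 1292) (nat_lit 3621385176) (nat_lit 549) (nat_lit 5) (nat_lit 565) (nat_lit 5) (nat_lit 566) (nat_lit 5) (nat_lit 412) (nat_lit 393) (nat_lit 335)) (XT.nd (nat_lit 78) (nat_lit 0) (nat_lit 76) (XT.lf (nat_lit 76) (nat_lit 2804591533) (nat_lit 0) (nat_lit 1644583512) (nat_lit 1292) (nat_lit 3081728665) (nat_lit 550) (nat_lit 5) (nat_lit 549) (nat_lit 5) (nat_lit 566) (nat_lit 5) (nat_lit 413) (nat_lit 393) (nat_lit 334)) (XT.lf (nat_lit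 0) (nat_lit 6344439619) (nat_lit 1216) (nat_lit 613823481) (nat_lit 76) (nat_lit 625019248) (nat_lit 550) (nat_lit 5) (nat_lit 566) (nat_lit 5) (nat_lit 551) (nat_lit 5) (nat_lit 414) (nat_lit 393) (nat_lit 333)))))) (XT.nd (nat_lit 390) (nat_lit 6308) (nat_lit 0) (XT.nd (nat_lit 156) (nat_lit 1444) (nat_lit 0) (XT.nd (nat_lit 78) (nat_lit 1292) (nat_lit 0) (XT.lf (nat_lit 0) (nat_lit 628308050) (nat_lit 1292) (nat_lit 4052669186) (nat_lit 76) (nat_lit 2955751391) (nat_lit 533) (nat_lit 5) (nat_lit 550) (nat_lit 5) (nat_lit 534) (nat_lit 5) (nat_lit 415) (nat_lit 393) (nat_lit 332)) (XT.lf (nat_lit 0) (nat_lit 147619705) (nat_lit 1292) (nat_lit 2335681704) (nat_lit 1368) (nat_lit 5208456053) (nat_lit 516) (nat_lit 5) (nat_lit 533) (nat_lit 5) (nat_lit 534) (nat_lit 5) (nat_lit 416) (nat_lit 393) (nat_lit 331))) (XT.nd (nat_lit 78) (nat_lit 1444) (nat_lit 0) (XT.lf (nat_lit 0) (nat_lit 4365717701) (nat_lit 1368) (nat_lit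 3290816469) (nat_lit 76) (nat_lit 91565027) (nat_lit 516) (nat_lit 5) (nat_lit 534) (nat_lit 5) (nat_lit 517) (nat_lit 5) (nat_lit 417) (nat_lit 393) (nat_lit 330)) (XT.nd (nat_lit 78) (nat_lit 76) (nat_lit 0) (XT.lf (nat_lit 0) (nat_lit 1016239344) (nat_lit 1368) (nat_lit 5254923337) (nat_lit 1444) (nat_lit 1534715894) (nat_lit 498) (nat_lit 5) (nat_lit 516) (nat_lit 5) (nat_lit 517) (nat_lit 5) (nat_lit 418) (nat_lit 393) (nat_lit 329)) (XT.lf (nat_lit 0) (nat_lit 331131297) (nat_lit 1444) (nat_lit 2442247285) (nat_lit 76) (nat_lit 5091690876) (nat_lit 497) (nat_lit 5) (nat_lit 516) (nat_lit 5) (nat_lit 498) (nat_lit 5) (nat_lit 419) (nat_lit 393) (nat_lit 328))))) (XT.nd (nat_lit 234) (nat_lit 3344) (nat_lit 0) (XT.nd (nat_lit 78) (nat_lit 1520) (nat_lit 0) (XT.lf (nat_lit 0) (nat_lit 1978960180) (nat_lit 1444) (nat_lit 211955260) (nat_lit 1520) (nat_lit 5734799786) (nat_lit 478) (nat_lit 5) (nat_lit 497) (nat_lit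 5) (nat_lit 498) (nat_lit 5) (nat_lit 420) (nat_lit 393) (nat_lit 327)) (XT.nd (nat_lit 78) (nat_lit 1520) (nat_lit 0) (XT.lf (nat_lit 0) (nat_lit 4084836706) (nat_lit 1520) (nat_lit 1510739852) (nat_lit 76) (nat_lit 2392075537) (nat_lit 478) (nat_lit 5) (nat_lit 498) (nat_lit 5) (nat_lit 479) (nat_lit 5) (nat_lit 421) (nat_lit 393) (nat_lit 326)) (XT.lf (nat_lit 0) (nat_lit 3023326410) (nat_lit 1520) (nat_lit 2979889400) (nat_lit 1596) (nat_lit 2047896982) (nat_lit 458) (nat_lit 5) (nat_lit 478) (nat_lit 5) (nat_lit 479) (nat_lit 5) (nat_lit 422) (nat_lit 393) (nat_lit 325)))) (XT.nd (nat_lit 78) (nat_lit 3344) (nat_lit 0) (XT.lf (nat_lit 0) (nat_lit 7639825690) (nat_lit 1520) (nat_lit 296310013) (nat_lit 1596) (nat_lit 180199889) (nat_lit 458) (nat_lit 5) (nat_lit 478) (nat_lit 5) (nat_lit 479) (nat_lit 5) (nat_lit 423) (nat_lit 393) (nat_lit 324)) (XT.nd (nat_lit 78) (nat_lit 1672) (nat_lit 0) (XT.lf (nat_lit 0) (nat_lit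 1711972936) (nat_lit 1672) (nat_lit 4018116133) (nat_lit 76) (nat_lit 2452370647) (nat_lit 436) (nat_lit 5) (nat_lit 458) (nat_lit 5) (nat_lit 437) (nat_lit 5) (nat_lit 424) (nat_lit 393) (nat_lit 323)) (XT.lf (nat_lit 0) (nat_lit 630581041) (nat_lit 1672) (nat_lit 2985240763) (nat_lit 1748) (nat_lit 4634551198) (nat_lit 414) (nat_lit 5) (nat_lit 436) (nat_lit 5) (nat_lit 437) (nat_lit 5) (nat_lit 425) (nat_lit 393) (nat_lit 322))))))))
noncomputable def xc131 : XT := (XT.nd (nat_lit 1638) (nat_lit 7524) (nat_lit 0) (XT.nd (nat_lit 780) (nat_lit 5548) (nat_lit 0) (XT.nd (nat_lit 390) (nat_lit 2660) (nat_lit 0) (XT.nd (nat_lit 156) (nat_lit 1140) (nat_lit 0) (XT.nd (nat_lit 78) (nat_lit 1748) (nat_lit 0) (XT.lf (nat_lit 0) (nat_lit 5397767257) (nat_lit 1672) (nat_lit 154371712) (nat_lit 1748) (nat_lit 2767632865) (nat_lit 414) (nat_lit 5) (nat_lit 436) (nat_lit 5) (nat_lit 437) (nat_lit 5) (nat_lit 426) (nat_lit 393)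 (nat_lit 321)) (XT.lf (nat_lit 0) (nat_lit 1847158799) (nat_lit 1748) (nat_lit 5677851220) (nat_lit 1824) (nat_lit 865606885) (nat_lit 391) (nat_lit 5) (nat_lit 414) (nat_lit 5) (nat_lit 415) (nat_lit 5) (nat_lit 427) (nat_lit 393) (nat_lit 320))) (XT.nd (nat_lit 78) (nat_lit 1064) (nat_lit 0) (XT.lf (nat_lit 0) (nat_lit 1049433126) (nat_lit 1824) (nat_lit 1748605657) (nat_lit 76) (nat_lit 5664933501) (nat_lit 390) (nat_lit 5) (nat_lit 414) (nat_lit 5) (nat_lit 391) (nat_lit 5) (nat_lit 428) (nat_lit 393) (nat_lit 319)) (XT.nd (nat_lit 78) (nat_lit 0) (nat_lit 0) (XT.lf (nat_lit 0) (nat_lit 2981659373) (nat_lit 1140) (nat_lit 5388999354) (nat_lit 76) (nat_lit 166206049) (nat_lit 376) (nat_lit 5) (nat_lit 391) (nat_lit 5) (nat_lit 377) (nat_lit 5) (nat_lit 429) (nat_lit 393) (nat_lit 318)) (XT.lf (nat_lit 0) (nat_lit 4952235992) (nat_lit 1140) (nat_lit 493820864) (nat_lit 76) (nat_lit 3166197829) (nat_lit 376) (nat_lit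 5) (nat_lit 391) (nat_lit 5) (nat_lit 377) (nat_lit 5) (nat_lit 430) (nat_lit 393) (nat_lit 317))))) (XT.nd (nat_lit 156) (nat_lit 836) (nat_lit 0) (XT.nd (nat_lit 78) (nat_lit 912) (nat_lit 0) (XT.lf (nat_lit 0) (nat_lit 4530064596) (nat_lit 912) (nat_lit 2431536451) (nat_lit 988) (nat_lit 1727577222) (nat_lit 364) (nat_lit 5) (nat_lit 376) (nat_lit 5) (nat_lit 377) (nat_lit 5) (nat_lit 431) (nat_lit 393) (nat_lit 316)) (XT.lf (nat_lit 0) (nat_lit 223746682) (nat_lit 912) (nat_lit 7897706920) (nat_lit 76) (nat_lit 646499449) (nat_lit 352) (nat_lit 5) (nat_lit 364) (nat_lit 5) (nat_lit 353) (nat_lit 5) (nat_lit 432) (nat_lit 393) (nat_lit 315))) (XT.nd (nat_lit 78) (nat_lit 836) (nat_lit 0) (XT.lf (nat_lit 0) (nat_lit 2205748244) (nat_lit 912) (nat_lit 2848150177) (nat_lit 76) (nat_lit 3793893494) (nat_lit 352) (nat_lit 5) (nat_lit 364) (nat_lit 5) (nat_lit 353) (nat_lit 5) (nat_lit 433) (nat_lit 393) (nat_lit 314))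 (XT.nd (nat_lit 78) (nat_lit 0) (nat_lit 0) (XT.lf (nat_lit 0) (nat_lit 2303940344) (nat_lit 836) (nat_lit 1909549622) (nat_lit 912) (nat_lit 4716027980) (nat_lit 341) (nat_lit 5) (nat_lit 352) (nat_lit 5) (nat_lit 353) (nat_lit 5) (nat_lit 434) (nat_lit 393) (nat_lit 313)) (XT.lf (nat_lit 0) (nat_lit 6260573405) (nat_lit 912) (nat_lit 1452435116) (nat_lit 76) (nat_lit 1299898392) (nat_lit 341) (nat_lit 5) (nat_lit 353) (nat_lit 5) (nat_lit 342) (nat_lit 5) (nat_lit 435) (nat_lit 393) (nat_lit 312)))))) (XT.nd (nat_lit 390) (nat_lit 3040) (nat_lit 0) (XT.nd (nat_lit 156) (nat_lit 760) (nat_lit 0) (XT.nd (nat_lit 78) (nat_lit 912) (nat_lit 0) (XT.lf (nat_lit 0) (nat_lit 3833301620) (nat_lit 836) (nat_lit 4524911917) (nat_lit 912) (nat_lit 739569731) (nat_lit 330) (nat_lit 5) (nat_lit 341) (nat_lit 5) (nat_lit 342) (nat_lit 5) (nat_lit 436) (nat_lit 393) (nat_lit 311)) (XT.lf (nat_lit 0) (nat_lit 23302532) (nat_lit 836)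 (nat_lit 1255133399) (nat_lit 912) (nat_lit 7906117861) (nat_lit 318) (nat_lit 5) (nat_lit 329) (nat_lit 5) (nat_lit 330) (nat_lit 5) (nat_lit 437) (nat_lit 393) (nat_lit 310))) (XT.nd (nat_lit 78) (nat_lit 760) (nat_lit 0) (XT.lf (nat_lit 0) (nat_lit 3348576671) (nat_lit 912) (nat_lit 3831838963) (nat_lit 76) (nat_lit 2092123988) (nat_lit 318) (nat_lit 5) (nat_lit 330) (nat_lit 5) (nat_lit 319) (nat_lit 5) (nat_lit 438) (nat_lit 393) (nat_lit 309)) (XT.nd (nat_lit 78) (nat_lit 0) (nat_lit 0) (XT.lf (nat_lit 0) (nat_lit 1588195729) (nat_lit 760) (nat_lit 3863687614) (nat_lit 836) (nat_lit 3910577570) (nat_lit 308) (nat_lit 5) (nat_lit 318) (nat_lit 5) (nat_lit 319) (nat_lit 5) (nat_lit 439) (nat_lit 393) (nat_lit 308)) (XT.lf (nat_lit 0) (nat_lit 7140276909) (nat_lit 760) (nat_lit 456175215) (nat_lit 836) (nat_lit 1857755374) (nat_lit 308) (nat_lit 5) (nat_lit 318) (nat_lit 5) (nat_lit 319) (nat_lit 5) (nat_lit 440)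 (nat_lit 393) (nat_lit 307))))) (XT.nd (nat_lit 234) (nat_lit 1520) (nat_lit 0) (XT.nd (nat_lit 78) (nat_lit 684) (nat_lit 0) (XT.lf (nat_lit 0) (nat_lit 247812436) (nat_lit 836) (nat_lit 6298760705) (nat_lit 76) (nat_lit 3000899864) (nat_lit 297) (nat_lit 5) (nat_lit 308) (nat_lit 5) (nat_lit 298) (nat_lit 5) (nat_lit 441) (nat_lit 393) (nat_lit 306)) (XT.nd (nat_lit 78) (nat_lit 684) (nat_lit 0) (XT.lf (nat_lit 0) (nat_lit 2363429414) (nat_lit 836) (nat_lit 732174276) (nat_lit 76) (nat_lit 6546908439) (nat_lit 297) (nat_lit 5) (nat_lit 308) (nat_lit 5) (nat_lit 298) (nat_lit 5) (nat_lit 442) (nat_lit 393) (nat_lit 305)) (XT.lf (nat_lit 0) (nat_lit 4531311924) (nat_lit 760) (nat_lit 4759046207) (nat_lit 76) (nat_lit 448904810) (nat_lit 288) (nat_lit 5) (nat_lit 298) (nat_lit 5) (nat_lit 289) (nat_lit 5) (nat_lit 443) (nat_lit 393) (nat_lit 304)))) (XT.nd (nat_lit 78) (nat_lit 760) (nat_lit 0) (XT.lf (nat_lit 0) (nat_lit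 942578080) (nat_lit 760) (nat_lit 5806485965) (nat_lit 836) (nat_lit 3088764256) (nat_lit 278) (nat_lit 5) (nat_lit 288) (nat_lit 5) (nat_lit 289) (nat_lit 5) (nat_lit 444) (nat_lit 393) (nat_lit 303)) (XT.nd (nat_lit 78) (nat_lit 760) (nat_lit 0) (XT.lf (nat_lit 0) (nat_lit 6794749722) (nat_lit 760) (nat_lit 2223612308) (nat_lit 836) (nat_lit 919868701) (nat_lit 278) (nat_lit 5) (nat_lit 288) (nat_lit 5) (nat_lit 289) (nat_lit 5) (nat_lit 445) (nat_lit 393) (nat_lit 302)) (XT.lf (nat_lit 0) (nat_lit 1278145027) (nat_lit 760) (nat_lit 7327195902) (nat_lit 76) (nat_lit 1435087861) (nat_lit 268) (nat_lit 5) (nat_lit 278) (nat_lit 5) (nat_lit 269) (nat_lit 5) (nat_lit 446) (nat_lit 393) (nat_lit 301))))))) (XT.nd (nat_lit 858) (nat_lit 3724) (nat_lit 0) (XT.nd (nat_lit 390) (nat_lit 1824) (nat_lit 0) (XT.nd (nat_lit 156) (nat_lit 1292) (nat_lit 0) (XT.nd (nat_lit 78) (nat_lit 684) (nat_lit 0) (XT.lf (nat_lit 0) (nat_lit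 3519621219) (nat_lit 760) (nat_lit 1463581135) (nat_lit 76) (nat_lit 5161119490) (nat_lit 268) (nat_lit 5) (nat_lit 278) (nat_lit 5) (nat_lit 269) (nat_lit 5) (nat_lit 447) (nat_lit 393) (nat_lit 300)) (XT.lf (nat_lit 0) (nat_lit 4549456655) (nat_lit 684) (nat_lit 1262329645) (nat_lit 760) (nat_lit 4438398125) (nat_lit 259) (nat_lit 5) (nat_lit 268) (nat_lit 5) (nat_lit 269) (nat_lit 5) (nat_lit 448) (nat_lit 393) (nat_lit 299))) (XT.nd (nat_lit 78) (nat_lit 684) (nat_lit 0) (XT.lf (nat_lit 0) (nat_lit 304321024) (nat_lit 608) (nat_lit 7850364096) (nat_lit 684) (nat_lit 2203390005) (nat_lit 251) (nat_lit 5) (nat_lit 259) (nat_lit 5) (nat_lit 260) (nat_lit 5) (nat_lit 449) (nat_lit 393) (nat_lit 298)) (XT.nd (nat_lit 78) (nat_lit 608) (nat_lit 0) (XT.lf (nat_lit 0) (nat_lit 98886181) (nat_lit 684) (nat_lit 3997642804) (nat_lit 76) (nat_lit 6371121707) (nat_lit 250) (nat_lit 5) (nat_lit 259) (nat_lit 5) (nat_lit 251) (nat_lit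 5) (nat_lit 450) (nat_lit 393) (nat_lit 297)) (XT.lf (nat_lit 0) (nat_lit 2166032848) (nat_lit 608) (nat_lit 242920204) (nat_lit 684) (nat_lit 8170356637) (nat_lit 242) (nat_lit 5) (nat_lit 250) (nat_lit 5) (nat_lit 251) (nat_lit 5) (nat_lit 451) (nat_lit 393) (nat_lit 296))))) (XT.nd (nat_lit 234) (nat_lit 1216) (nat_lit 0) (XT.nd (nat_lit 78) (nat_lit 608) (nat_lit 0) (XT.lf (nat_lit 0) (nat_lit 4793567563) (nat_lit 684) (nat_lit 2237238399) (nat_lit 76) (nat_lit 3661836994) (nat_lit 242) (nat_lit 5) (nat_lit 251) (nat_lit 5) (nat_lit 243) (nat_lit 5) (nat_lit 452) (nat_lit 393) (nat_lit 295)) (XT.nd (nat_lit 78) (nat_lit 0) (nat_lit 0) (XT.lf (nat_lit 0) (nat_lit 4087235399) (nat_lit 608) (nat_lit 3144626877) (nat_lit 684) (nat_lit 3576268713) (nat_lit 234) (nat_lit 5) (nat_lit 242) (nat_lit 5) (nat_lit 243) (nat_lit 5) (nat_lit 453) (nat_lit 393) (nat_lit 294)) (XT.lf (nat_lit 0) (nat_lit 9717424060) (nat_lit 684)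 (nat_lit 389838698) (nat_lit 76) (nat_lit 818703706) (nat_lit 234) (nat_lit 5) (nat_lit 243) (nat_lit 5) (nat_lit 235) (nat_lit 5) (nat_lit 454) (nat_lit 393) (nat_lit 293)))) (XT.nd (nat_lit 78) (nat_lit 532) (nat_lit 0) (XT.lf (nat_lit 0) (nat_lit 1229896404) (nat_lit 684) (nat_lit 4953240160) (nat_lit 76) (nat_lit 4862089180) (nat_lit 225) (nat_lit 5) (nat_lit 234) (nat_lit 5) (nat_lit 226) (nat_lit 5) (nat_lit 455) (nat_lit 393) (nat_lit 292)) (XT.nd (nat_lit 78) (nat_lit 0) (nat_lit 0) (XT.lf (nat_lit 0) (nat_lit 1527022748) (nat_lit 532) (nat_lit 2165062007) (nat_lit 608) (nat_lit 7474809682) (nat_lit 218) (nat_lit 5) (nat_lit 225) (nat_lit 5) (nat_lit 226) (nat_lit 5) (nat_lit 456) (nat_lit 393) (nat_lit 291)) (XT.lf (nat_lit 0) (nat_lit 6228338810) (nat_lit 608) (nat_lit 3126184658) (nat_lit 76) (nat_lit 1935983715) (nat_lit 218) (nat_lit 5) (nat_lit 226) (nat_lit 5) (nat_lit 219) (nat_lit 5) (nat_lit 457) (nat_lit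 393) (nat_lit 290)))))) (XT.nd (nat_lit 390) (nat_lit 1976) (nat_lit 0) (XT.nd (nat_lit 156) (nat_lit 1140) (nat_lit 0) (XT.nd (nat_lit 78) (nat_lit 0) (nat_lit 0) (XT.lf (nat_lit 0) (nat_lit 3523061729) (nat_lit 608) (nat_lit 5308694132) (nat_lit 684) (nat_lit 2584514545) (nat_lit 210) (nat_lit 5) (nat_lit 218) (nat_lit 5) (nat_lit 219) (nat_lit 5) (nat_lit 458) (nat_lit 393) (nat_lit 289)) (XT.lf (nat_lit 0) (nat_lit 10321262369) (nat_lit 608) (nat_lit 1166418818) (nat_lit 684) (nat_lit 56865748) (nat_lit 210) (nat_lit 5) (nat_lit 218) (nat_lit 5) (nat_lit 219) (nat_lit 5) (nat_lit 459) (nat_lit 393) (nat_lit 288))) (XT.nd (nat_lit 78) (nat_lit 532) (nat_lit 0) (XT.lf (nat_lit 0) (nat_lit 2524594081) (nat_lit 608) (nat_lit 6083822467) (nat_lit 76) (nat_lit 3065925103) (nat_lit 202) (nat_lit 5) (nat_lit 210) (nat_lit 5) (nat_lit 203) (nat_lit 5) (nat_lit 460) (nat_lit 393) (nat_lit 287)) (XT.nd (nat_lit 78) (nat_lit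 0) (nat_lit 0) (XT.lf (nat_lit 0) (nat_lit 725612000) (nat_lit 532) (nat_lit 4431923943) (nat_lit 608) (nat_lit 6649182964) (nat_lit 195) (nat_lit 5) (nat_lit 202) (nat_lit 5) (nat_lit 203) (nat_lit 5) (nat_lit 461) (nat_lit 393) (nat_lit 286)) (XT.lf (nat_lit 0) (nat_lit 7727514589) (nat_lit 532) (nat_lit 136586033) (nat_lit 608) (nat_lit 4077230127) (nat_lit 195) (nat_lit 5) (nat_lit 202) (nat_lit 5) (nat_lit 203) (nat_lit 5) (nat_lit 462) (nat_lit 393) (nat_lit 285))))) (XT.nd (nat_lit 234) (nat_lit 912) (nat_lit 0) (XT.nd (nat_lit 78) (nat_lit 608) (nat_lit 0) (XT.lf (nat_lit 0) (nat_lit 2773607365) (nat_lit 456) (nat_lit 7877243966) (nat_lit 532) (nat_lit 1427268598) (nat_lit 189) (nat_lit 5) (nat_lit 195) (nat_lit 5) (nat_lit 196) (nat_lit 5) (nat_lit 463) (nat_lit 393) (nat_lit 284)) (XT.nd (nat_lit 78) (nat_lit 532) (nat_lit 0) (XT.lf (nat_lit 0) (nat_lit 1268898368) (nat_lit 532) (nat_lit 2294678251) (nat_lit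 76) (nat_lit 8653709835) (nat_lit 188) (nat_lit 5) (nat_lit 195) (nat_lit 5) (nat_lit 189) (nat_lit 5) (nat_lit 464) (nat_lit 393) (nat_lit 283)) (XT.lf (nat_lit 0) (nat_lit 4018217514) (nat_lit 608) (nat_lit 7480111344) (nat_lit 76) (nat_lit 860357806) (nat_lit 181) (nat_lit 5) (nat_lit 189) (nat_lit 5) (nat_lit 182) (nat_lit 5) (nat_lit 465) (nat_lit 393) (nat_lit 282)))) (XT.nd (nat_lit 78) (nat_lit 912) (nat_lit 0) (XT.lf (nat_lit 0) (nat_lit 6842738282) (nat_lit 608) (nat_lit 325692000) (nat_lit 76) (nat_lit 5334086019) (nat_lit 181) (nat_lit 5) (nat_lit 189) (nat_lit 5) (nat_lit 182) (nat_lit 5) (nat_lit 466) (nat_lit 393) (nat_lit 281)) (XT.nd (nat_lit 78) (nat_lit 456) (nat_lit 0) (XT.lf (nat_lit 0) (nat_lit 7038854913) (nat_lit 456) (nat_lit 2712080680) (nat_lit 532) (nat_lit 2897748825) (nat_lit 175) (nat_lit 5) (nat_lit 181) (nat_lit 5) (nat_lit 182) (nat_lit 5) (nat_lit 467) (nat_lit 393) (nat_lit 280)) (XT.lf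 (nat_lit 0) (nat_lit 1742877421) (nat_lit 456) (nat_lit 10981480102) (nat_lit 532) (nat_lit 73282666) (nat_lit 169) (nat_lit 5) (nat_lit 175) (nat_lit 5) (nat_lit 176) (nat_lit 5) (nat_lit 468) (nat_lit 393) (nat_lit 279))))))))
noncomputable def xc132 : XT := (XT.nd (nat_lit 1638) (nat_lit 2204) (nat_lit 0) (XT.nd (nat_lit 780) (nat_lit 2584) (nat_lit 0) (XT.nd (nat_lit 390) (nat_lit 912) (nat_lit 0) (XT.nd (nat_lit 156) (nat_lit 912) (nat_lit 0) (XT.nd (nat_lit 78) (nat_lit 456) (nat_lit 0) (XT.lf (nat_lit 0) (nat_lit 2808416084) (nat_lit 532) (nat_lit 3692099380) (nat_lit 76) (nat_lit 6447948986) (nat_lit 168) (nat_lit 5) (nat_lit 175) (nat_lit 5) (nat_lit 169) (nat_lit 5) (nat_lit 469) (nat_lit 393) (nat_lit 278)) (XT.lf (nat_lit 0) (nat_lit 3842711152) (nat_lit 456) (nat_lit 1911076739) (nat_lit 532) (nat_lit 7348372395) (nat_lit 162) (nat_lit 5) (nat_lit 168) (nat_lit 5) (nat_lit 169) (nat_lit 5) (nat_lit 470)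 (nat_lit 393) (nat_lit 277))) (XT.nd (nat_lit 78) (nat_lit 912) (nat_lit 0) (XT.lf (nat_lit 0) (nat_lit 8783206800) (nat_lit 532) (nat_lit 1723486732) (nat_lit 76) (nat_lit 2751738798) (nat_lit 162) (nat_lit 5) (nat_lit 169) (nat_lit 5) (nat_lit 163) (nat_lit 5) (nat_lit 471) (nat_lit 393) (nat_lit 276)) (XT.nd (nat_lit 78) (nat_lit 456) (nat_lit 0) (XT.lf (nat_lit 0) (nat_lit 6004616137) (nat_lit 456) (nat_lit 5902802781) (nat_lit 532) (nat_lit 1509731784) (nat_lit 156) (nat_lit 5) (nat_lit 162) (nat_lit 5) (nat_lit 163) (nat_lit 5) (nat_lit 472) (nat_lit 393) (nat_lit 275)) (XT.lf (nat_lit 0) (nat_lit 301119430) (nat_lit 380) (nat_lit 1190305544) (nat_lit 456) (nat_lit 12087502050) (nat_lit 150) (nat_lit 5) (nat_lit 155) (nat_lit 5) (nat_lit 156) (nat_lit 5) (nat_lit 473) (nat_lit 393) (nat_lit 274))))) (XT.nd (nat_lit 156) (nat_lit 456) (nat_lit 0) (XT.nd (nat_lit 78) (nat_lit 456) (nat_lit 0) (XT.lf (nat_lit 0) (nat_lit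 4588719675) (nat_lit 456) (nat_lit 5532111996) (nat_lit 76) (nat_lit 3621785708) (nat_lit 150) (nat_lit 5) (nat_lit 156) (nat_lit 5) (nat_lit 151) (nat_lit 5) (nat_lit 474) (nat_lit 393) (nat_lit 273)) (XT.lf (nat_lit 0) (nat_lit 2367264393) (nat_lit 456) (nat_lit 5387046050) (nat_lit 532) (nat_lit 6155148699) (nat_lit 144) (nat_lit 5) (nat_lit 150) (nat_lit 5) (nat_lit 151) (nat_lit 5) (nat_lit 475) (nat_lit 393) (nat_lit 272))) (XT.nd (nat_lit 78) (nat_lit 456) (nat_lit 0) (XT.lf (nat_lit 0) (nat_lit 10475380654) (nat_lit 456) (nat_lit 528227323) (nat_lit 532) (nat_lit 3075626380) (nat_lit 144) (nat_lit 5) (nat_lit 150) (nat_lit 5) (nat_lit 151) (nat_lit 5) (nat_lit 476) (nat_lit 393) (nat_lit 271)) (XT.nd (nat_lit 78) (nat_lit 0) (nat_lit 0) (XT.lf (nat_lit 0) (nat_lit 106411410) (nat_lit 456) (nat_lit 9752808075) (nat_lit 76) (nat_lit 4392345747) (nat_lit 138) (nat_lit 5) (nat_lit 144) (nat_lit 5) (nat_lit 139) (nat_lit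 5) (nat_lit 477) (nat_lit 393) (nat_lit 270)) (XT.lf (nat_lit 0) (nat_lit 3322395018) (nat_lit 456) (nat_lit 1662724573) (nat_lit 76) (nat_lit 9441591038) (nat_lit 138) (nat_lit 5) (nat_lit 144) (nat_lit 5) (nat_lit 139) (nat_lit 5) (nat_lit 478) (nat_lit 393) (nat_lit 269)))))) (XT.nd (nat_lit 390) (nat_lit 1368) (nat_lit 0) (XT.nd (nat_lit 156) (nat_lit 456) (nat_lit 0) (XT.nd (nat_lit 78) (nat_lit 380) (nat_lit 0) (XT.lf (nat_lit 0) (nat_lit 6629970088) (nat_lit 456) (nat_lit 7952194193) (nat_lit 76) (nat_lit 22653385) (nat_lit 133) (nat_lit 5) (nat_lit 139) (nat_lit 5) (nat_lit 134) (nat_lit 5) (nat_lit 479) (nat_lit 393) (nat_lit 268)) (XT.lf (nat_lit 0) (nat_lit 317879536) (nat_lit 380) (nat_lit 9716168715) (nat_lit 456) (nat_lit 4751835650) (nat_lit 128) (nat_lit 5) (nat_lit 133) (nat_lit 5) (nat_lit 134) (nat_lit 5) (nat_lit 480) (nat_lit 393) (nat_lit 267))) (XT.nd (nat_lit 78) (nat_lit 456) (nat_lit 0) (XT.lf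 (nat_lit 0) (nat_lit 8837550066) (nat_lit 380) (nat_lit 4706223023) (nat_lit 456) (nat_lit 1426051077) (nat_lit 128) (nat_lit 5) (nat_lit 133) (nat_lit 5) (nat_lit 134) (nat_lit 5) (nat_lit 481) (nat_lit 393) (nat_lit 266)) (XT.nd (nat_lit 78) (nat_lit 0) (nat_lit 0) (XT.lf (nat_lit 0) (nat_lit 1942980570) (nat_lit 456) (nat_lit 12794879159) (nat_lit 76) (nat_lit 419281658) (nat_lit 122) (nat_lit 5) (nat_lit 128) (nat_lit 5) (nat_lit 123) (nat_lit 5) (nat_lit 482) (nat_lit 393) (nat_lit 265)) (XT.lf (nat_lit 0) (nat_lit 5417416101) (nat_lit 456) (nat_lit 4301907439) (nat_lit 76) (nat_lit 5627554301) (nat_lit 122) (nat_lit 5) (nat_lit 128) (nat_lit 5) (nat_lit 123) (nat_lit 5) (nat_lit 483) (nat_lit 393) (nat_lit 264))))) (XT.nd (nat_lit 234) (nat_lit 608) (nat_lit 0) (XT.nd (nat_lit 78) (nat_lit 456) (nat_lit 0) (XT.lf (nat_lit 0) (nat_lit 4395576638) (nat_lit 304) (nat_lit 4579116306) (nat_lit 380) (nat_lit 6565452731)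 (nat_lit 118) (nat_lit 5) (nat_lit 122) (nat_lit 5) (nat_lit 123) (nat_lit 5) (nat_lit 484) (nat_lit 393) (nat_lit 263)) (XT.nd (nat_lit 78) (nat_lit 456) (nat_lit 0) (XT.lf (nat_lit 0) (nat_lit 12621397379) (nat_lit 380) (nat_lit 2438977489) (nat_lit 76) (nat_lit 676541989) (nat_lit 118) (nat_lit 5) (nat_lit 123) (nat_lit 5) (nat_lit 119) (nat_lit 5) (nat_lit 485) (nat_lit 393) (nat_lit 262)) (XT.lf (nat_lit 0) (nat_lit 456057456) (nat_lit 456) (nat_lit 9466831050) (nat_lit 76) (nat_lit 6013527344) (nat_lit 112) (nat_lit 5) (nat_lit 118) (nat_lit 5) (nat_lit 113) (nat_lit 5) (nat_lit 486) (nat_lit 393) (nat_lit 261)))) (XT.nd (nat_lit 78) (nat_lit 608) (nat_lit 0) (XT.lf (nat_lit 0) (nat_lit 4059115055) (nat_lit 456) (nat_lit 593634909) (nat_lit 76) (nat_lit 11486711090) (nat_lit 112) (nat_lit 5) (nat_lit 118) (nat_lit 5) (nat_lit 113) (nat_lit 5) (nat_lit 487) (nat_lit 393) (nat_lit 260)) (XT.nd (nat_lit 78) (nat_lit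 304) (nat_lit 0) (XT.lf (nat_lit 0) (nat_lit 7780276397) (nat_lit 380) (nat_lit 7803891497) (nat_lit 76) (nat_lit 761481771) (nat_lit 108) (nat_lit 5) (nat_lit 113) (nat_lit 5) (nat_lit 109) (nat_lit 5) (nat_lit 488) (nat_lit 393) (nat_lit 259)) (XT.lf (nat_lit 0) (nat_lit 1275570152) (nat_lit 304) (nat_lit 10329025911) (nat_lit 380) (nat_lit 4950794570) (nat_lit 104) (nat_lit 5) (nat_lit 108) (nat_lit 5) (nat_lit 109) (nat_lit 5) (nat_lit 489) (nat_lit 393) (nat_lit 258))))))) (XT.nd (nat_lit 780) (nat_lit 608) (nat_lit 0) (XT.nd (nat_lit 390) (nat_lit 912) (nat_lit 0) (XT.nd (nat_lit 156) (nat_lit 304) (nat_lit 0) (XT.nd (nat_lit 78) (nat_lit 380) (nat_lit 0) (XT.lf (nat_lit 0) (nat_lit 10620208343) (nat_lit 304) (nat_lit 4923329997) (nat_lit 380) (nat_lit 1225028581) (nat_lit 104) (nat_lit 5) (nat_lit 108) (nat_lit 5) (nat_lit 109) (nat_lit 5) (nat_lit 490) (nat_lit 393) (nat_lit 257)) (XT.lf (nat_lit 0) (nat_lit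 2552031579) (nat_lit 380) (nat_lit 13820956150) (nat_lit 76) (nat_lit 612476624) (nat_lit 99) (nat_lit 5) (nat_lit 104) (nat_lit 5) (nat_lit 100) (nat_lit 5) (nat_lit 491) (nat_lit 393) (nat_lit 256))) (XT.nd (nat_lit 78) (nat_lit 304) (nat_lit 0) (XT.lf (nat_lit 0) (nat_lit 6448416106) (nat_lit 380) (nat_lit 4521927202) (nat_lit 76) (nat_lit 6234993789) (nat_lit 99) (nat_lit 5) (nat_lit 104) (nat_lit 5) (nat_lit 100) (nat_lit 5) (nat_lit 492) (nat_lit 393) (nat_lit 255)) (XT.nd (nat_lit 78) (nat_lit 0) (nat_lit 0) (XT.lf (nat_lit 0) (nat_lit 5007147315) (nat_lit 304) (nat_lit 5434398739) (nat_lit 380) (nat_lit 6987687865) (nat_lit 95) (nat_lit 5) (nat_lit 99) (nat_lit 5) (nat_lit 100) (nat_lit 5) (nat_lit 493) (nat_lit 393) (nat_lit 254)) (XT.lf (nat_lit 0) (nat_lit 14532848075) (nat_lit 380) (nat_lit 2892167072) (nat_lit 76) (nat_lit 232230262) (nat_lit 95) (nat_lit 5) (nat_lit 100) (nat_lit 5) (nat_lit 96) (nat_lit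 5) (nat_lit 494) (nat_lit 393) (nat_lit 253))))) (XT.nd (nat_lit 156) (nat_lit 532) (nat_lit 0) (XT.nd (nat_lit 78) (nat_lit 0) (nat_lit 0) (XT.lf (nat_lit 0) (nat_lit 873085968) (nat_lit 380) (nat_lit 11033134568) (nat_lit 76) (nat_lit 5982140797) (nat_lit 90) (nat_lit 5) (nat_lit 95) (nat_lit 5) (nat_lit 91) (nat_lit 5) (nat_lit 495) (nat_lit 393) (nat_lit 252)) (XT.lf (nat_lit 0) (nat_lit 4914945887) (nat_lit 380) (nat_lit 1329058752) (nat_lit 76) (nat_lit 11879559390) (nat_lit 90) (nat_lit 5) (nat_lit 95) (nat_lit 5) (nat_lit 91) (nat_lit 5) (nat_lit 496) (nat_lit 393) (nat_lit 251))) (XT.nd (nat_lit 78) (nat_lit 228) (nat_lit 0) (XT.lf (nat_lit 0) (nat_lit 8661817521) (nat_lit 304) (nat_lit 419011818) (nat_lit 380) (nat_lit 9281780411) (nat_lit 86) (nat_lit 5) (nat_lit 90) (nat_lit 5) (nat_lit 91) (nat_lit 5) (nat_lit 497) (nat_lit 393) (nat_lit 250)) (XT.nd (nat_lit 78) (nat_lit 0) (nat_lit 0) (XT.lf (nat_lit 0)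 (nat_lit 210155106) (nat_lit 228) (nat_lit 13153091743) (nat_lit 304) (nat_lit 5242527854) (nat_lit 83) (nat_lit 5) (nat_lit 86) (nat_lit 5) (nat_lit 87) (nat_lit 5) (nat_lit 498) (nat_lit 393) (nat_lit 249)) (XT.lf (nat_lit 0) (nat_lit 10427188765) (nat_lit 228) (nat_lit 7359115962) (nat_lit 304) (nat_lit 1066400980) (nat_lit 83) (nat_lit 5) (nat_lit 86) (nat_lit 5) (nat_lit 87) (nat_lit 5) (nat_lit 499) (nat_lit 393) (nat_lit 248)))))) (XT.nd (nat_lit 51168) (nat_lit 0) (nat_lit 39140) (XT.nd (nat_lit 156) (nat_lit 228) (nat_lit 0) (XT.nd (nat_lit 78) (nat_lit 0) (nat_lit 0) (XT.lf (nat_lit 0) (nat_lit 1725302073) (nat_lit 304) (nat_lit 1424572256) (nat_lit 380) (nat_lit 15954318722) (nat_lit 78) (nat_lit 5) (nat_lit 82) (nat_lit 5) (nat_lit 83) (nat_lit 5) (nat_lit 500) (nat_lit 393) (nat_lit 247)) (XT.lf (nat_lit 0) (nat_lit 7510545064) (nat_lit 380) (nat_lit 7224369040) (nat_lit 76) (nat_lit 4624170522) (nat_lit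 78) (nat_lit 5) (nat_lit 83) (nat_lit 5) (nat_lit 79) (nat_lit 5) (nat_lit 501) (nat_lit 393) (nat_lit 246))) (XT.nd (nat_lit 78) (nat_lit 0) (nat_lit 0) (XT.lf (nat_lit 0) (nat_lit 3144810485) (nat_lit 228) (nat_lit 8831088086) (nat_lit 304) (nat_lit 7642828470) (nat_lit 75) (nat_lit 5) (nat_lit 78) (nat_lit 5) (nat_lit 79) (nat_lit 5) (nat_lit 502) (nat_lit 393) (nat_lit 245)) (XT.nd (nat_lit 50856) (nat_lit 0) (nat_lit 41040) (XT.lf (nat_lit 0) (nat_lit 13799191650) (nat_lit 228) (nat_lit 2767575962) (nat_lit 304) (nat_lit 3316072871) (nat_lit 75) (nat_lit 5) (nat_lit 78) (nat_lit 5) (nat_lit 79) (nat_lit 5) (nat_lit 503) (nat_lit 393) (nat_lit 244)) (XT.lf (nat_lit 0) (nat_lit 1259912399) (nat_lit 0) (nat_lit 1259912399) (nat_lit 836) (nat_lit 890283977) (nat_lit 615) (nat_lit 5) (nat_lit 615) (nat_lit 3) (nat_lit 626) (nat_lit 3) (nat_lit 394) (nat_lit 394) (nat_lit 352))))) (XT.nd (nat_lit 234) (nat_lit 912) (nat_lit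 0) (XT.nd (nat_lit 78) (nat_lit 0) (nat_lit 76) (XT.lf (nat_lit 0) (nat_lit 201442744) (nat_lit 988) (nat_lit 1025701147) (nat_lit 988) (nat_lit 5620809885) (nat_lit 602) (nat_lit 3) (nat_lit 615) (nat_lit 3) (nat_lit 615) (nat_lit 5) (nat_lit 395) (nat_lit 394) (nat_lit 351)) (XT.nd (nat_lit 78) (nat_lit 0) (nat_lit 0) (XT.lf (nat_lit 0) (nat_lit 2163347618) (nat_lit 912) (nat_lit 4571222308) (nat_lit 988) (nat_lit 142188308) (nat_lit 603) (nat_lit 5) (nat_lit 615) (nat_lit 5) (nat_lit 616) (nat_lit 5) (nat_lit 396) (nat_lit 394) (nat_lit 350)) (XT.lf (nat_lit 0) (nat_lit 4128714968) (nat_lit 912) (nat_lit 1224360957) (nat_lit 988) (nat_lit 1553808582) (nat_lit 603) (nat_lit 5) (nat_lit 615) (nat_lit 5) (nat_lit 616) (nat_lit 5) (nat_lit 397) (nat_lit 394) (nat_lit 349)))) (XT.nd (nat_lit 78) (nat_lit 988) (nat_lit 0) (XT.lf (nat_lit 76) (nat_lit 2191226077) (nat_lit 0) (nat_lit 3906556185) (nat_lit 988) (nat_lit 840572810)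 (nat_lit 604) (nat_lit 5) (nat_lit 603) (nat_lit 5) (nat_lit 616) (nat_lit 5) (nat_lit 398) (nat_lit 394) (nat_lit 348)) (XT.nd (nat_lit 78) (nat_lit 0) (nat_lit 0) (XT.lf (nat_lit 0) (nat_lit 1079766121) (nat_lit 988) (nat_lit 1313455289) (nat_lit 1064) (nat_lit 4577936903) (nat_lit 590) (nat_lit 5) (nat_lit 603) (nat_lit 5) (nat_lit 604) (nat_lit 5) (nat_lit 399) (nat_lit 394) (nat_lit 347)) (XT.lf (nat_lit 76) (nat_lit 2185063739) (nat_lit 0) (nat_lit 807974203) (nat_lit 1064) (nat_lit 4012180836) (nat_lit 591) (nat_lit 5) (nat_lit 590) (nat_lit 5) (nat_lit 604) (nat_lit 5) (nat_lit 400) (nat_lit 394) (nat_lit 346))))))))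
noncomputable def xc133 : XT := (XT.nd (nat_lit 1638) (nat_lit 14440) (nat_lit 0) (XT.nd (nat_lit 780) (nat_lit 5320) (nat_lit 0) (XT.nd (nat_lit 390) (nat_lit 2204) (nat_lit 0) (XT.nd (nat_lit 156) (nat_lit 1064) (nat_lit 0) (XT.nd (nat_lit 78) (nat_lit 0) (nat_lit 0) (XT.lf (nat_lit 0) (nat_lit 4911195340) (nat_lit 988) (nat_lit 1301595295) (nat_lit 1064) (nat_lit 827864781) (nat_lit 591) (nat_lit 5) (nat_lit 604) (nat_lit 5) (nat_lit 605) (nat_lit 5) (nat_lit 401) (nat_lit 394) (nat_lit 345)) (XT.lf (nat_lit 76) (nat_lit 2284636766) (nat_lit 0) (nat_lit 4556690153) (nat_lit 1064) (nat_lit 236028475) (nat_lit 592) (nat_lit 5) (nat_lit 591) (nat_lit 5) (nat_lit 605) (nat_lit 5) (nat_lit 402) (nat_lit 394) (nat_lit 344))) (XT.nd (nat_lit 78) (nat_lit 0) (nat_lit 0) (XT.lf (nat_lit 0) (nat_lit 1635664565) (nat_lit 1064) (nat_lit 1193213522) (nat_lit 1140) (nat_lit 4286464401) (nat_lit 577) (nat_lit 5) (nat_lit 591) (nat_lit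 5) (nat_lit 592) (nat_lit 5) (nat_lit 403) (nat_lit 394) (nat_lit 343)) (XT.nd (nat_lit 78) (nat_lit 0) (nat_lit 76) (XT.lf (nat_lit 76) (nat_lit 2482044473) (nat_lit 0) (nat_lit 1030444182) (nat_lit 1140) (nat_lit 3642177596) (nat_lit 578) (nat_lit 5) (nat_lit 577) (nat_lit 5) (nat_lit 592) (nat_lit 5) (nat_lit 404) (nat_lit 394) (nat_lit 342)) (XT.lf (nat_lit 0) (nat_lit 5395694232) (nat_lit 1064) (nat_lit 980984087) (nat_lit 1140) (nat_lit 818746055) (nat_lit 578) (nat_lit 5) (nat_lit 592) (nat_lit 5) (nat_lit 593) (nat_lit 5) (nat_lit 405) (nat_lit 394) (nat_lit 341))))) (XT.nd (nat_lit 156) (nat_lit 1140) (nat_lit 0) (XT.nd (nat_lit 78) (nat_lit 0) (nat_lit 0) (XT.lf (nat_lit 0) (nat_lit 59728726) (nat_lit 1140) (nat_lit 4451104067) (nat_lit 1216) (nat_lit 2726554238) (nat_lit 563) (nat_lit 5) (nat_lit 578) (nat_lit 5) (nat_lit 579) (nat_lit 5) (nat_lit 406) (nat_lit 394) (nat_lit 340)) (XT.lf (nat_lit 0) (nat_lit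 1895732873) (nat_lit 1140) (nat_lit 677769367) (nat_lit 1216) (nat_lit 4707203042) (nat_lit 563) (nat_lit 5) (nat_lit 578) (nat_lit 5) (nat_lit 579) (nat_lit 5) (nat_lit 407) (nat_lit 394) (nat_lit 339))) (XT.nd (nat_lit 78) (nat_lit 1140) (nat_lit 0) (XT.lf (nat_lit 76) (nat_lit 3185414604) (nat_lit 0) (nat_lit 561376719) (nat_lit 1216) (nat_lit 3578554789) (nat_lit 564) (nat_lit 5) (nat_lit 563) (nat_lit 5) (nat_lit 579) (nat_lit 5) (nat_lit 408) (nat_lit 394) (nat_lit 338)) (XT.nd (nat_lit 78) (nat_lit 1216) (nat_lit 0) (XT.lf (nat_lit 0) (nat_lit 5607529814) (nat_lit 1140) (nat_lit 273614639) (nat_lit 1216) (nat_lit 1490304575) (nat_lit 564) (nat_lit 5) (nat_lit 579) (nat_lit 5) (nat_lit 580) (nat_lit 5) (nat_lit 409) (nat_lit 394) (nat_lit 337)) (XT.lf (nat_lit 0) (nat_lit 72631545) (nat_lit 1216) (nat_lit 3732181749) (nat_lit 1292) (nat_lit 3613935717) (nat_lit 548) (nat_lit 5) (nat_lit 564) (nat_lit 5) (nat_lit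 565) (nat_lit 5) (nat_lit 410) (nat_lit 394) (nat_lit 336)))))) (XT.nd (nat_lit 390) (nat_lit 4104) (nat_lit 0) (XT.nd (nat_lit 156) (nat_lit 1216) (nat_lit 0) (XT.nd (nat_lit 78) (nat_lit 0) (nat_lit 76) (XT.lf (nat_lit 76) (nat_lit 225983910) (nat_lit 0) (nat_lit 1659198169) (nat_lit 1292) (nat_lit 5582343126) (nat_lit 549) (nat_lit 5) (nat_lit 548) (nat_lit 5) (nat_lit 565) (nat_lit 5) (nat_lit 411) (nat_lit 394) (nat_lit 335)) (XT.lf (nat_lit 0) (nat_lit 3722871929) (nat_lit 1216) (nat_lit 3235176131) (nat_lit 1292) (nat_lit 559471833) (nat_lit 549) (nat_lit 5) (nat_lit 565) (nat_lit 5) (nat_lit 566) (nat_lit 5) (nat_lit 412) (nat_lit 394) (nat_lit 334))) (XT.nd (nat_lit 78) (nat_lit 1292) (nat_lit 0) (XT.lf (nat_lit 76) (nat_lit 822983532) (nat_lit 0) (nat_lit 4751683845) (nat_lit 1292) (nat_lit 1994320396) (nat_lit 550) (nat_lit 5) (nat_lit 549) (nat_lit 5) (nat_lit 566) (nat_lit 5) (nat_lit 413) (nat_lit 394)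 (nat_lit 333)) (XT.nd (nat_lit 78) (nat_lit 1292) (nat_lit 0) (XT.lf (nat_lit 76) (nat_lit 4978206861) (nat_lit 0) (nat_lit 2468604801) (nat_lit 1292) (nat_lit 175027023) (nat_lit 550) (nat_lit 5) (nat_lit 549) (nat_lit 5) (nat_lit 566) (nat_lit 5) (nat_lit 414) (nat_lit 394) (nat_lit 332)) (XT.lf (nat_lit 76) (nat_lit 1521908141) (nat_lit 0) (nat_lit 108670743) (nat_lit 1368) (nat_lit 6045529280) (nat_lit 533) (nat_lit 5) (nat_lit 532) (nat_lit 5) (nat_lit 550) (nat_lit 5) (nat_lit 415) (nat_lit 394) (nat_lit 331))))) (XT.nd (nat_lit 234) (nat_lit 2888) (nat_lit 0) (XT.nd (nat_lit 78) (nat_lit 1292) (nat_lit 0) (XT.lf (nat_lit 0) (nat_lit 3465449374) (nat_lit 1292) (nat_lit 1969286421) (nat_lit 76) (nat_lit 2296812961) (nat_lit 533) (nat_lit 5) (nat_lit 550) (nat_lit 5) (nat_lit 534) (nat_lit 5) (nat_lit 416) (nat_lit 394) (nat_lit 330)) (XT.nd (nat_lit 78) (nat_lit 0) (nat_lit 0) (XT.lf (nat_lit 0) (nat_lit 2300768536)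 (nat_lit 1292) (nat_lit 3015350738) (nat_lit 1368) (nat_lit 2472415260) (nat_lit 516) (nat_lit 5) (nat_lit 533) (nat_lit 5) (nat_lit 534) (nat_lit 5) (nat_lit 417) (nat_lit 394) (nat_lit 329)) (XT.lf (nat_lit 0) (nat_lit 6655090844) (nat_lit 1292) (nat_lit 525906994) (nat_lit 1368) (nat_lit 666136341) (nat_lit 516) (nat_lit 5) (nat_lit 533) (nat_lit 5) (nat_lit 534) (nat_lit 5) (nat_lit 418) (nat_lit 394) (nat_lit 328)))) (XT.nd (nat_lit 78) (nat_lit 1444) (nat_lit 0) (XT.lf (nat_lit 0) (nat_lit 1159338094) (nat_lit 1444) (nat_lit 4724275312) (nat_lit 76) (nat_lit 2023187084) (nat_lit 497) (nat_lit 5) (nat_lit 516) (nat_lit 5) (nat_lit 498) (nat_lit 5) (nat_lit 419) (nat_lit 394) (nat_lit 327)) (XT.nd (nat_lit 78) (nat_lit 1444) (nat_lit 0) (XT.lf (nat_lit 0) (nat_lit 2988947717) (nat_lit 1444) (nat_lit 343059856) (nat_lit 76) (nat_lit 4636050598) (nat_lit 497) (nat_lit 5) (nat_lit 516) (nat_lit 5) (nat_lit 498) (nat_lit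 5) (nat_lit 420) (nat_lit 394) (nat_lit 326)) (XT.lf (nat_lit 0) (nat_lit 4152439967) (nat_lit 1444) (nat_lit 695358082) (nat_lit 1520) (nat_lit 3182906665) (nat_lit 478) (nat_lit 5) (nat_lit 497) (nat_lit 5) (nat_lit 498) (nat_lit 5) (nat_lit 421) (nat_lit 394) (nat_lit 325))))))) (XT.nd (nat_lit 858) (nat_lit 5700) (nat_lit 0) (XT.nd (nat_lit 390) (nat_lit 3876) (nat_lit 0) (XT.nd (nat_lit 156) (nat_lit 3268) (nat_lit 0) (XT.nd (nat_lit 78) (nat_lit 76) (nat_lit 0) (XT.lf (nat_lit 0) (nat_lit 614691898) (nat_lit 1520) (nat_lit 6114610226) (nat_lit 1596) (nat_lit 1365608884) (nat_lit 458) (nat_lit 5) (nat_lit 478) (nat_lit 5) (nat_lit 479) (nat_lit 5) (nat_lit 422) (nat_lit 394) (nat_lit 324)) (XT.lf (nat_lit 0) (nat_lit 478901735) (nat_lit 1596) (nat_lit 2946373260) (nat_lit 76) (nat_lit 4735133426) (nat_lit 457) (nat_lit 5) (nat_lit 478) (nat_lit 5) (nat_lit 458) (nat_lit 5) (nat_lit 423) (nat_lit 394) (nat_lit 323)))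 (XT.nd (nat_lit 78) (nat_lit 1672) (nat_lit 0) (XT.lf (nat_lit 0) (nat_lit 1662850703) (nat_lit 1596) (nat_lit 657102311) (nat_lit 1672) (nat_lit 5907538925) (nat_lit 436) (nat_lit 5) (nat_lit 457) (nat_lit 5) (nat_lit 458) (nat_lit 5) (nat_lit 424) (nat_lit 394) (nat_lit 322)) (XT.nd (nat_lit 78) (nat_lit 1672) (nat_lit 0) (XT.lf (nat_lit 0) (nat_lit 4199409516) (nat_lit 1672) (nat_lit 1934092365) (nat_lit 76) (nat_lit 2162398669) (nat_lit 436) (nat_lit 5) (nat_lit 458) (nat_lit 5) (nat_lit 437) (nat_lit 5) (nat_lit 425) (nat_lit 394) (nat_lit 321)) (XT.lf (nat_lit 0) (nat_lit 2793339370) (nat_lit 1672) (nat_lit 3313854266) (nat_lit 1748) (nat_lit 2258683740) (nat_lit 414) (nat_lit 5) (nat_lit 436) (nat_lit 5) (nat_lit 437) (nat_lit 5) (nat_lit 426) (nat_lit 394) (nat_lit 320))))) (XT.nd (nat_lit 234) (nat_lit 988) (nat_lit 0) (XT.nd (nat_lit 78) (nat_lit 2888) (nat_lit 0) (XT.lf (nat_lit 0) (nat_lit 7613709572) (nat_lit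 1672) (nat_lit 421095114) (nat_lit 1748) (nat_lit 402830148) (nat_lit 414) (nat_lit 5) (nat_lit 436) (nat_lit 5) (nat_lit 437) (nat_lit 5) (nat_lit 427) (nat_lit 394) (nat_lit 319)) (XT.nd (nat_lit 78) (nat_lit 1064) (nat_lit 0) (XT.lf (nat_lit 0) (nat_lit 1482566978) (nat_lit 1824) (nat_lit 4492223112) (nat_lit 76) (nat_lit 2535618409) (nat_lit 390) (nat_lit 5) (nat_lit 414) (nat_lit 5) (nat_lit 391) (nat_lit 5) (nat_lit 428) (nat_lit 394) (nat_lit 318)) (XT.lf (nat_lit 0) (nat_lit 354772845) (nat_lit 1064) (nat_lit 3025703698) (nat_lit 1140) (nat_lit 5204517557) (nat_lit 376) (nat_lit 5) (nat_lit 390) (nat_lit 5) (nat_lit 391) (nat_lit 5) (nat_lit 429) (nat_lit 394) (nat_lit 317)))) (XT.nd (nat_lit 78) (nat_lit 988) (nat_lit 0) (XT.lf (nat_lit 0) (nat_lit 5316539336) (nat_lit 1140) (nat_lit 3329560865) (nat_lit 76) (nat_lit 14980724) (nat_lit 376) (nat_lit 5) (nat_lit 391) (nat_lit 5) (nat_lit 377) (nat_lit 5) (nat_lit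 430) (nat_lit 394) (nat_lit 316)) (XT.nd (nat_lit 78) (nat_lit 76) (nat_lit 0) (XT.lf (nat_lit 0) (nat_lit 1642569305) (nat_lit 912) (nat_lit 5650010149) (nat_lit 988) (nat_lit 1446098065) (nat_lit 364) (nat_lit 5) (nat_lit 376) (nat_lit 5) (nat_lit 377) (nat_lit 5) (nat_lit 431) (nat_lit 394) (nat_lit 315)) (XT.lf (nat_lit 0) (nat_lit 477119852) (nat_lit 988) (nat_lit 2089700584) (nat_lit 76) (nat_lit 6251089859) (nat_lit 363) (nat_lit 5) (nat_lit 376) (nat_lit 5) (nat_lit 364) (nat_lit 5) (nat_lit 432) (nat_lit 394) (nat_lit 314)))))) (XT.nd (nat_lit 390) (nat_lit 3116) (nat_lit 0) (XT.nd (nat_lit 156) (nat_lit 1748) (nat_lit 0) (XT.nd (nat_lit 78) (nat_lit 0) (nat_lit 0) (XT.lf (nat_lit 0) (nat_lit 2414330411) (nat_lit 912) (nat_lit 5883538595) (nat_lit 76) (nat_lit 600782108) (nat_lit 352) (nat_lit 5) (nat_lit 364) (nat_lit 5) (nat_lit 353) (nat_lit 5) (nat_lit 433) (nat_lit 394) (nat_lit 313)) (XT.lf (nat_lit 0)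 (nat_lit 4393107126) (nat_lit 912) (nat_lit 775581354) (nat_lit 76) (nat_lit 3812273982) (nat_lit 352) (nat_lit 5) (nat_lit 364) (nat_lit 5) (nat_lit 353) (nat_lit 5) (nat_lit 434) (nat_lit 394) (nat_lit 312))) (XT.nd (nat_lit 78) (nat_lit 912) (nat_lit 0) (XT.lf (nat_lit 0) (nat_lit 4465540900) (nat_lit 836) (nat_lit 1947173763) (nat_lit 912) (nat_lit 2652192179) (nat_lit 341) (nat_lit 5) (nat_lit 352) (nat_lit 5) (nat_lit 353) (nat_lit 5) (nat_lit 435) (nat_lit 394) (nat_lit 311)) (XT.nd (nat_lit 78) (nat_lit 76) (nat_lit 0) (XT.lf (nat_lit 0) (nat_lit 643345471) (nat_lit 836) (nat_lit 7820105228) (nat_lit 912) (nat_lit 687276363) (nat_lit 330) (nat_lit 5) (nat_lit 341) (nat_lit 5) (nat_lit 342) (nat_lit 5) (nat_lit 436) (nat_lit 394) (nat_lit 310)) (XT.lf (nat_lit 0) (nat_lit 1316424048) (nat_lit 912) (nat_lit 3234166916) (nat_lit 76) (nat_lit 4687177776) (nat_lit 329) (nat_lit 5) (nat_lit 341) (nat_lit 5) (nat_lit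 330) (nat_lit 5) (nat_lit 437) (nat_lit 394) (nat_lit 309))))) (XT.nd (nat_lit 234) (nat_lit 1520) (nat_lit 0) (XT.nd (nat_lit 78) (nat_lit 760) (nat_lit 0) (XT.lf (nat_lit 0) (nat_lit 2140457329) (nat_lit 836) (nat_lit 1197772220) (nat_lit 912) (nat_lit 5988497173) (nat_lit 318) (nat_lit 5) (nat_lit 329) (nat_lit 5) (nat_lit 330) (nat_lit 5) (nat_lit 438) (nat_lit 394) (nat_lit 308)) (XT.nd (nat_lit 78) (nat_lit 760) (nat_lit 0) (XT.lf (nat_lit 0) (nat_lit 5410411254) (nat_lit 912) (nat_lit 1793111544) (nat_lit 76) (nat_lit 2213753055) (nat_lit 318) (nat_lit 5) (nat_lit 330) (nat_lit 5) (nat_lit 319) (nat_lit 5) (nat_lit 439) (nat_lit 394) (nat_lit 307)) (XT.lf (nat_lit 0) (nat_lit 3721406971) (nat_lit 760) (nat_lit 3808906116) (nat_lit 836) (nat_lit 1979207927) (nat_lit 308) (nat_lit 5) (nat_lit 318) (nat_lit 5) (nat_lit 319) (nat_lit 5) (nat_lit 440) (nat_lit 394) (nat_lit 306)))) (XT.nd (nat_lit 78) (nat_lit 1444)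 (nat_lit 0) (XT.lf (nat_lit 0) (nat_lit 74280017) (nat_lit 836) (nat_lit 261054312) (nat_lit 76) (nat_lit 9268546450) (nat_lit 307) (nat_lit 5) (nat_lit 318) (nat_lit 5) (nat_lit 308) (nat_lit 5) (nat_lit 441) (nat_lit 394) (nat_lit 305)) (XT.nd (nat_lit 78) (nat_lit 684) (nat_lit 0) (XT.lf (nat_lit 0) (nat_lit 2173439185) (nat_lit 836) (nat_lit 4313461079) (nat_lit 76) (nat_lit 3212353731) (nat_lit 297) (nat_lit 5) (nat_lit 308) (nat_lit 5) (nat_lit 298) (nat_lit 5) (nat_lit 442) (nat_lit 394) (nat_lit 304)) (XT.lf (nat_lit 0) (nat_lit 1340642296) (nat_lit 684) (nat_lit 2961770339) (nat_lit 760) (nat_lit 5494375189) (nat_lit 288) (nat_lit 5) (nat_lit 297) (nat_lit 5) (nat_lit 298) (nat_lit 5) (nat_lit 443) (nat_lit 394) (nat_lit 303))))))))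
noncomputable def xc134 : XT := (XT.nd (nat_lit 1638) (nat_lit 5320) (nat_lit 0) (XT.nd (nat_lit 780) (nat_lit 4104) (nat_lit 0) (XT.nd (nat_lit 390) (nat_lit 1292) (nat_lit 0) (XT.nd (nat_lit 156) (nat_lit 1444) (nat_lit 0) (XT.nd (nat_lit 78) (nat_lit 760) (nat_lit 0) (XT.lf (nat_lit 0) (nat_lit 6482655178) (nat_lit 760) (nat_lit 2761330818) (nat_lit 76) (nat_lit 652122123) (nat_lit 288) (nat_lit 5) (nat_lit 298) (nat_lit 5) (nat_lit 289) (nat_lit 5) (nat_lit 444) (nat_lit 394) (nat_lit 302)) (XT.lf (nat_lit 0) (nat_lit 3040556900) (nat_lit 760) (nat_lit 5681219867) (nat_lit 836) (nat_lit 1275341961) (nat_lit 278) (nat_lit 5) (nat_lit 288) (nat_lit 5) (nat_lit 289) (nat_lit 5) (nat_lit 445) (nat_lit 394) (nat_lit 301))) (XT.nd (nat_lit 78) (nat_lit 1368) (nat_lit 0) (XT.lf (nat_lit 0) (nat_lit 888357126) (nat_lit 836) (nat_lit 1137103519) (nat_lit 76) (nat_lit 8074686304) (nat_lit 277) (nat_lit 5) (nat_lit 288) (nat_lit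 5) (nat_lit 278) (nat_lit 5) (nat_lit 446) (nat_lit 394) (nat_lit 300)) (XT.nd (nat_lit 78) (nat_lit 684) (nat_lit 0) (XT.lf (nat_lit 0) (nat_lit 3097430056) (nat_lit 760) (nat_lit 5389318540) (nat_lit 76) (nat_lit 1717943855) (nat_lit 268) (nat_lit 5) (nat_lit 278) (nat_lit 5) (nat_lit 269) (nat_lit 5) (nat_lit 447) (nat_lit 394) (nat_lit 299)) (XT.lf (nat_lit 0) (nat_lit 558015996) (nat_lit 684) (nat_lit 4794171764) (nat_lit 760) (nat_lit 4959119714) (nat_lit 259) (nat_lit 5) (nat_lit 268) (nat_lit 5) (nat_lit 269) (nat_lit 5) (nat_lit 448) (nat_lit 394) (nat_lit 298))))) (XT.nd (nat_lit 156) (nat_lit 684) (nat_lit 0) (XT.nd (nat_lit 78) (nat_lit 608) (nat_lit 0) (XT.lf (nat_lit 0) (nat_lit 6670551653) (nat_lit 684) (nat_lit 994720879) (nat_lit 760) (nat_lit 2754526135) (nat_lit 259) (nat_lit 5) (nat_lit 268) (nat_lit 5) (nat_lit 269) (nat_lit 5) (nat_lit 449) (nat_lit 394) (nat_lit 297)) (XT.lf (nat_lit 0) (nat_lit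 2360425068) (nat_lit 608) (nat_lit 7675714728) (nat_lit 684) (nat_lit 494097812) (nat_lit 251) (nat_lit 5) (nat_lit 259) (nat_lit 5) (nat_lit 260) (nat_lit 5) (nat_lit 450) (nat_lit 394) (nat_lit 296))) (XT.nd (nat_lit 78) (nat_lit 608) (nat_lit 0) (XT.lf (nat_lit 0) (nat_lit 1797299553) (nat_lit 684) (nat_lit 2044622457) (nat_lit 76) (nat_lit 6800545717) (nat_lit 250) (nat_lit 5) (nat_lit 259) (nat_lit 5) (nat_lit 251) (nat_lit 5) (nat_lit 451) (nat_lit 394) (nat_lit 295)) (XT.nd (nat_lit 78) (nat_lit 0) (nat_lit 0) (XT.lf (nat_lit 0) (nat_lit 4134037166) (nat_lit 684) (nat_lit 6528443220) (nat_lit 76) (nat_lit 94282036) (nat_lit 242) (nat_lit 5) (nat_lit 251) (nat_lit 5) (nat_lit 243) (nat_lit 5) (nat_lit 452) (nat_lit 394) (nat_lit 294)) (XT.lf (nat_lit 0) (nat_lit 6535040675) (nat_lit 684) (nat_lit 270718054) (nat_lit 76) (nat_lit 4067241364) (nat_lit 242) (nat_lit 5) (nat_lit 251) (nat_lit 5) (nat_lit 243) (nat_lit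 5) (nat_lit 453) (nat_lit 394) (nat_lit 293)))))) (XT.nd (nat_lit 390) (nat_lit 2280) (nat_lit 0) (XT.nd (nat_lit 156) (nat_lit 532) (nat_lit 0) (XT.nd (nat_lit 78) (nat_lit 684) (nat_lit 0) (XT.lf (nat_lit 0) (nat_lit 6167013212) (nat_lit 608) (nat_lit 2835793925) (nat_lit 684) (nat_lit 1988388078) (nat_lit 234) (nat_lit 5) (nat_lit 242) (nat_lit 5) (nat_lit 243) (nat_lit 5) (nat_lit 454) (nat_lit 394) (nat_lit 292)) (XT.lf (nat_lit 0) (nat_lit 401906234) (nat_lit 684) (nat_lit 9501972462) (nat_lit 76) (nat_lit 1207848105) (nat_lit 225) (nat_lit 5) (nat_lit 234) (nat_lit 5) (nat_lit 226) (nat_lit 5) (nat_lit 455) (nat_lit 394) (nat_lit 291))) (XT.nd (nat_lit 78) (nat_lit 532) (nat_lit 0) (XT.lf (nat_lit 0) (nat_lit 2843793920) (nat_lit 684) (nat_lit 3054790673) (nat_lit 76) (nat_lit 5335220438) (nat_lit 225) (nat_lit 5) (nat_lit 234) (nat_lit 5) (nat_lit 226) (nat_lit 5) (nat_lit 456) (nat_lit 394) (nat_lit 290)) (XT.nd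 (nat_lit 78) (nat_lit 0) (nat_lit 0) (XT.lf (nat_lit 0) (nat_lit 3541935951) (nat_lit 532) (nat_lit 1795011214) (nat_lit 608) (nat_lit 6021336084) (nat_lit 218) (nat_lit 5) (nat_lit 225) (nat_lit 5) (nat_lit 226) (nat_lit 5) (nat_lit 457) (nat_lit 394) (nat_lit 289)) (XT.lf (nat_lit 0) (nat_lit 7895753107) (nat_lit 608) (nat_lit 1214553382) (nat_lit 76) (nat_lit 2374635592) (nat_lit 218) (nat_lit 5) (nat_lit 226) (nat_lit 5) (nat_lit 219) (nat_lit 5) (nat_lit 458) (nat_lit 394) (nat_lit 288))))) (XT.nd (nat_lit 234) (nat_lit 1064) (nat_lit 0) (XT.nd (nat_lit 78) (nat_lit 608) (nat_lit 0) (XT.lf (nat_lit 0) (nat_lit 5554690071) (nat_lit 608) (nat_lit 4979029712) (nat_lit 684) (nat_lit 1079861321) (nat_lit 210) (nat_lit 5) (nat_lit 218) (nat_lit 5) (nat_lit 219) (nat_lit 5) (nat_lit 459) (nat_lit 394) (nat_lit 287)) (XT.nd (nat_lit 78) (nat_lit 0) (nat_lit 0) (XT.lf (nat_lit 0) (nat_lit 705086418) (nat_lit 532) (nat_lit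 748064607) (nat_lit 608) (nat_lit 10291598112) (nat_lit 202) (nat_lit 5) (nat_lit 209) (nat_lit 5) (nat_lit 210) (nat_lit 5) (nat_lit 460) (nat_lit 394) (nat_lit 286)) (XT.lf (nat_lit 0) (nat_lit 4066776465) (nat_lit 608) (nat_lit 4247682365) (nat_lit 76) (nat_lit 3563057019) (nat_lit 202) (nat_lit 5) (nat_lit 210) (nat_lit 5) (nat_lit 203) (nat_lit 5) (nat_lit 461) (nat_lit 394) (nat_lit 285)))) (XT.nd (nat_lit 78) (nat_lit 532) (nat_lit 0) (XT.lf (nat_lit 0) (nat_lit 2685060420) (nat_lit 532) (nat_lit 4050695727) (nat_lit 608) (nat_lit 5277126312) (nat_lit 195) (nat_lit 5) (nat_lit 202) (nat_lit 5) (nat_lit 203) (nat_lit 5) (nat_lit 462) (nat_lit 394) (nat_lit 284)) (XT.nd (nat_lit 78) (nat_lit 532) (nat_lit 0) (XT.lf (nat_lit 0) (nat_lit 9469615513) (nat_lit 608) (nat_lit 2363995470) (nat_lit 76) (nat_lit 317121490) (nat_lit 195) (nat_lit 5) (nat_lit 203) (nat_lit 5) (nat_lit 196) (nat_lit 5) (nat_lit 463) (nat_lit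 394) (nat_lit 283)) (XT.lf (nat_lit 0) (nat_lit 6407873) (nat_lit 532) (nat_lit 7541055827) (nat_lit 76) (nat_lit 4743102737) (nat_lit 188) (nat_lit 5) (nat_lit 195) (nat_lit 5) (nat_lit 189) (nat_lit 5) (nat_lit 464) (nat_lit 394) (nat_lit 282))))))) (XT.nd (nat_lit 858) (nat_lit 2432) (nat_lit 0) (XT.nd (nat_lit 390) (nat_lit 1368) (nat_lit 0) (XT.nd (nat_lit 156) (nat_lit 988) (nat_lit 0) (XT.nd (nat_lit 78) (nat_lit 532) (nat_lit 0) (XT.lf (nat_lit 0) (nat_lit 2709108279) (nat_lit 532) (nat_lit 438518013) (nat_lit 76) (nat_lit 9285275565) (nat_lit 188) (nat_lit 5) (nat_lit 195) (nat_lit 5) (nat_lit 189) (nat_lit 5) (nat_lit 465) (nat_lit 394) (nat_lit 281)) (XT.lf (nat_lit 0) (nat_lit 5501122741) (nat_lit 608) (nat_lit 5714943518) (nat_lit 76) (nat_lit 1361318139) (nat_lit 181) (nat_lit 5) (nat_lit 189) (nat_lit 5) (nat_lit 182) (nat_lit 5) (nat_lit 466) (nat_lit 394) (nat_lit 280))) (XT.nd (nat_lit 78) (nat_lit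 532) (nat_lit 0) (XT.lf (nat_lit 0) (nat_lit 1565552201) (nat_lit 456) (nat_lit 6799245524) (nat_lit 532) (nat_lit 4359647961) (nat_lit 175) (nat_lit 5) (nat_lit 181) (nat_lit 5) (nat_lit 182) (nat_lit 5) (nat_lit 467) (nat_lit 394) (nat_lit 279)) (XT.nd (nat_lit 78) (nat_lit 532) (nat_lit 0) (XT.lf (nat_lit 0) (nat_lit 9044507386) (nat_lit 456) (nat_lit 2261633432) (nat_lit 532) (nat_lit 1567904886) (nat_lit 175) (nat_lit 5) (nat_lit 181) (nat_lit 5) (nat_lit 182) (nat_lit 5) (nat_lit 468) (nat_lit 394) (nat_lit 278)) (XT.lf (nat_lit 0) (nat_lit 1284474655) (nat_lit 532) (nat_lit 9380147591) (nat_lit 76) (nat_lit 2361422796) (nat_lit 168) (nat_lit 5) (nat_lit 175) (nat_lit 5) (nat_lit 169) (nat_lit 5) (nat_lit 469) (nat_lit 394) (nat_lit 277))))) (XT.nd (nat_lit 234) (nat_lit 456) (nat_lit 0) (XT.nd (nat_lit 78) (nat_lit 912) (nat_lit 0) (XT.lf (nat_lit 0) (nat_lit 4196194834) (nat_lit 532) (nat_lit 1907877527) (nat_lit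 76) (nat_lit 7076344066) (nat_lit 168) (nat_lit 5) (nat_lit 175) (nat_lit 5) (nat_lit 169) (nat_lit 5) (nat_lit 470) (nat_lit 394) (nat_lit 276)) (XT.nd (nat_lit 78) (nat_lit 456) (nat_lit 0) (XT.lf (nat_lit 0) (nat_lit 5765405110) (nat_lit 456) (nat_lit 1420943375) (nat_lit 532) (nat_lit 6151127759) (nat_lit 162) (nat_lit 5) (nat_lit 168) (nat_lit 5) (nat_lit 169) (nat_lit 5) (nat_lit 471) (nat_lit 394) (nat_lit 275)) (XT.lf (nat_lit 0) (nat_lit 75520818) (nat_lit 456) (nat_lit 10178855416) (nat_lit 532) (nat_lit 3242944489) (nat_lit 156) (nat_lit 5) (nat_lit 162) (nat_lit 5) (nat_lit 163) (nat_lit 5) (nat_lit 472) (nat_lit 394) (nat_lit 274)))) (XT.nd (nat_lit 78) (nat_lit 456) (nat_lit 0) (XT.lf (nat_lit 0) (nat_lit 7945139442) (nat_lit 456) (nat_lit 5481869818) (nat_lit 532) (nat_lit 232492728) (nat_lit 156) (nat_lit 5) (nat_lit 162) (nat_lit 5) (nat_lit 163) (nat_lit 5) (nat_lit 473) (nat_lit 394) (nat_lit 273))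 (XT.nd (nat_lit 78) (nat_lit 0) (nat_lit 0) (XT.lf (nat_lit 0) (nat_lit 2132984132) (nat_lit 380) (nat_lit 665110649) (nat_lit 456) (nat_lit 11026525158) (nat_lit 150) (nat_lit 5) (nat_lit 155) (nat_lit 5) (nat_lit 156) (nat_lit 5) (nat_lit 474) (nat_lit 394) (nat_lit 272)) (XT.lf (nat_lit 0) (nat_lit 5935793860) (nat_lit 456) (nat_lit 3830829276) (nat_lit 76) (nat_lit 4225398636) (nat_lit 150) (nat_lit 5) (nat_lit 156) (nat_lit 5) (nat_lit 151) (nat_lit 5) (nat_lit 475) (nat_lit 394) (nat_lit 271)))))) (XT.nd (nat_lit 390) (nat_lit 1140) (nat_lit 0) (XT.nd (nat_lit 156) (nat_lit 836) (nat_lit 0) (XT.nd (nat_lit 78) (nat_lit 0) (nat_lit 0) (XT.lf (nat_lit 0) (nat_lit 4214614082) (nat_lit 456) (nat_lit 4937155463) (nat_lit 532) (nat_lit 5010696068) (nat_lit 144) (nat_lit 5) (nat_lit 150) (nat_lit 5) (nat_lit 151) (nat_lit 5) (nat_lit 476) (nat_lit 394) (nat_lit 270)) (XT.lf (nat_lit 0) (nat_lit 12441744105) (nat_lit 532)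 (nat_lit 1886582976) (nat_lit 76) (nat_lit 7802003) (nat_lit 144) (nat_lit 5) (nat_lit 151) (nat_lit 5) (nat_lit 145) (nat_lit 5) (nat_lit 477) (nat_lit 394) (nat_lit 269))) (XT.nd (nat_lit 78) (nat_lit 380) (nat_lit 0) (XT.lf (nat_lit 0) (nat_lit 1325993724) (nat_lit 456) (nat_lit 8157268398) (nat_lit 76) (nat_lit 5028669416) (nat_lit 138) (nat_lit 5) (nat_lit 144) (nat_lit 5) (nat_lit 139) (nat_lit 5) (nat_lit 478) (nat_lit 394) (nat_lit 268)) (XT.nd (nat_lit 78) (nat_lit 0) (nat_lit 0) (XT.lf (nat_lit 0) (nat_lit 60297868) (nat_lit 380) (nat_lit 4522518979) (nat_lit 456) (nat_lit 10108238791) (nat_lit 133) (nat_lit 5) (nat_lit 138) (nat_lit 5) (nat_lit 139) (nat_lit 5) (nat_lit 479) (nat_lit 394) (nat_lit 267)) (XT.lf (nat_lit 0) (nat_lit 7947722846) (nat_lit 456) (nat_lit 6347019231) (nat_lit 76) (nat_lit 578165225) (nat_lit 133) (nat_lit 5) (nat_lit 139) (nat_lit 5) (nat_lit 134) (nat_lit 5) (nat_lit 480) (nat_lit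 394) (nat_lit 266))))) (XT.nd (nat_lit 234) (nat_lit 304) (nat_lit 0) (XT.nd (nat_lit 78) (nat_lit 456) (nat_lit 0) (XT.lf (nat_lit 0) (nat_lit 2076849270) (nat_lit 380) (nat_lit 9331174122) (nat_lit 456) (nat_lit 3649814608) (nat_lit 128) (nat_lit 5) (nat_lit 133) (nat_lit 5) (nat_lit 134) (nat_lit 5) (nat_lit 481) (nat_lit 394) (nat_lit 265)) (XT.nd (nat_lit 78) (nat_lit 456) (nat_lit 0) (XT.lf (nat_lit 0) (nat_lit 10732548267) (nat_lit 380) (nat_lit 4232388693) (nat_lit 456) (nat_lit 280986064) (nat_lit 128) (nat_lit 5) (nat_lit 133) (nat_lit 5) (nat_lit 134) (nat_lit 5) (nat_lit 482) (nat_lit 394) (nat_lit 264)) (XT.lf (nat_lit 0) (nat_lit 3132247257) (nat_lit 456) (nat_lit 11308783922) (nat_lit 76) (nat_lit 995964367) (nat_lit 122) (nat_lit 5) (nat_lit 128) (nat_lit 5) (nat_lit 123) (nat_lit 5) (nat_lit 483) (nat_lit 394) (nat_lit 263)))) (XT.nd (nat_lit 78) (nat_lit 304) (nat_lit 0) (XT.lf (nat_lit 0) (nat_lit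 6653614497) (nat_lit 456) (nat_lit 2680109490) (nat_lit 76) (nat_lit 6297259383) (nat_lit 122) (nat_lit 5) (nat_lit 128) (nat_lit 5) (nat_lit 123) (nat_lit 5) (nat_lit 484) (nat_lit 394) (nat_lit 262)) (XT.nd (nat_lit 78) (nat_lit 0) (nat_lit 0) (XT.lf (nat_lit 0) (nat_lit 6180088505) (nat_lit 304) (nat_lit 4090849121) (nat_lit 380) (nat_lit 5557406315) (nat_lit 118) (nat_lit 5) (nat_lit 122) (nat_lit 5) (nat_lit 123) (nat_lit 5) (nat_lit 485) (nat_lit 394) (nat_lit 261)) (XT.lf (nat_lit 0) (nat_lit 13972370022) (nat_lit 380) (nat_lit 805952907) (nat_lit 76) (nat_lit 1251097026) (nat_lit 118) (nat_lit 5) (nat_lit 123) (nat_lit 5) (nat_lit 119) (nat_lit 5) (nat_lit 486) (nat_lit 394) (nat_lit 260))))))))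
noncomputable def xc135 : XT := (XT.nd (nat_lit 52494) (nat_lit 0) (nat_lit 32072) (XT.nd (nat_lit 780) (nat_lit 1140) (nat_lit 0) (XT.nd (nat_lit 390) (nat_lit 1064) (nat_lit 0) (XT.nd (nat_lit 156) (nat_lit 304) (nat_lit 0) (XT.nd (nat_lit 78) (nat_lit 304) (nat_lit 0) (XT.lf (nat_lit 0) (nat_lit 1560490841) (nat_lit 456) (nat_lit 7970617836) (nat_lit 76) (nat_lit 6701875165) (nat_lit 112) (nat_lit 5) (nat_lit 118) (nat_lit 5) (nat_lit 113) (nat_lit 5) (nat_lit 487) (nat_lit 394) (nat_lit 259)) (XT.lf (nat_lit 0) (nat_lit 1060906207) (nat_lit 304) (nat_lit 4160114781) (nat_lit 380) (nat_lit 11219365716) (nat_lit 108) (nat_lit 5) (nat_lit 112) (nat_lit 5) (nat_lit 113) (nat_lit 5) (nat_lit 488) (nat_lit 394) (nat_lit 258))) (XT.nd (nat_lit 78) (nat_lit 304) (nat_lit 0) (XT.lf (nat_lit 0) (nat_lit 9003074381) (nat_lit 380) (nat_lit 6300582205) (nat_lit 76) (nat_lit 1347318009) (nat_lit 108) (nat_lit 5) (nat_lit 113)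 (nat_lit 5) (nat_lit 109) (nat_lit 5) (nat_lit 489) (nat_lit 394) (nat_lit 257)) (XT.nd (nat_lit 78) (nat_lit 0) (nat_lit 0) (XT.lf (nat_lit 0) (nat_lit 2949551657) (nat_lit 304) (nat_lit 9944106403) (nat_lit 380) (nat_lit 3971461559) (nat_lit 104) (nat_lit 5) (nat_lit 108) (nat_lit 5) (nat_lit 109) (nat_lit 5) (nat_lit 490) (nat_lit 394) (nat_lit 256)) (XT.lf (nat_lit 0) (nat_lit 12448759668) (nat_lit 304) (nat_lit 4441894610) (nat_lit 380) (nat_lit 192324346) (nat_lit 104) (nat_lit 5) (nat_lit 108) (nat_lit 5) (nat_lit 109) (nat_lit 5) (nat_lit 491) (nat_lit 394) (nat_lit 255))))) (XT.nd (nat_lit 156) (nat_lit 684) (nat_lit 0) (XT.nd (nat_lit 78) (nat_lit 0) (nat_lit 0) (XT.lf (nat_lit 0) (nat_lit 3640274417) (nat_lit 380) (nat_lit 12460769769) (nat_lit 76) (nat_lit 1203159794) (nat_lit 99) (nat_lit 5) (nat_lit 104) (nat_lit 5) (nat_lit 100) (nat_lit 5) (nat_lit 492) (nat_lit 394) (nat_lit 254)) (XT.lf (nat_lit 0)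 (nat_lit 7594249337) (nat_lit 380) (nat_lit 3007850546) (nat_lit 76) (nat_lit 6926785466) (nat_lit 99) (nat_lit 5) (nat_lit 104) (nat_lit 5) (nat_lit 100) (nat_lit 5) (nat_lit 493) (nat_lit 394) (nat_lit 253))) (XT.nd (nat_lit 78) (nat_lit 380) (nat_lit 0) (XT.lf (nat_lit 0) (nat_lit 6701249440) (nat_lit 304) (nat_lit 4956402956) (nat_lit 380) (nat_lit 6099803838) (nat_lit 95) (nat_lit 5) (nat_lit 99) (nat_lit 5) (nat_lit 100) (nat_lit 5) (nat_lit 494) (nat_lit 394) (nat_lit 252)) (XT.nd (nat_lit 78) (nat_lit 380) (nat_lit 0) (XT.lf (nat_lit 0) (nat_lit 15814764410) (nat_lit 380) (nat_lit 1371076685) (nat_lit 76) (nat_lit 804511431) (nat_lit 95) (nat_lit 5) (nat_lit 100) (nat_lit 5) (nat_lit 96) (nat_lit 5) (nat_lit 495) (nat_lit 394) (nat_lit 251)) (XT.lf (nat_lit 0) (nat_lit 1879263702) (nat_lit 380) (nat_lit 9671907390) (nat_lit 76) (nat_lit 6674978800) (nat_lit 90) (nat_lit 5) (nat_lit 95) (nat_lit 5) (nat_lit 91)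 (nat_lit 5) (nat_lit 496) (nat_lit 394) (nat_lit 250)))))) (XT.nd (nat_lit 390) (nat_lit 228) (nat_lit 0) (XT.nd (nat_lit 156) (nat_lit 608) (nat_lit 0) (XT.nd (nat_lit 78) (nat_lit 0) (nat_lit 0) (XT.lf (nat_lit 0) (nat_lit 197827030) (nat_lit 304) (nat_lit 5786031625) (nat_lit 380) (nat_lit 12482564037) (nat_lit 86) (nat_lit 5) (nat_lit 90) (nat_lit 5) (nat_lit 91) (nat_lit 5) (nat_lit 497) (nat_lit 394) (nat_lit 249)) (XT.lf (nat_lit 0) (nat_lit 10223765002) (nat_lit 380) (nat_lit 8335728889) (nat_lit 76) (nat_lit 150945260) (nat_lit 86) (nat_lit 5) (nat_lit 91) (nat_lit 5) (nat_lit 87) (nat_lit 5) (nat_lit 498) (nat_lit 394) (nat_lit 248))) (XT.nd (nat_lit 78) (nat_lit 380) (nat_lit 0) (XT.lf (nat_lit 0) (nat_lit 1760423637) (nat_lit 228) (nat_lit 12825316415) (nat_lit 304) (nat_lit 4372853018) (nat_lit 83) (nat_lit 5) (nat_lit 86) (nat_lit 5) (nat_lit 87) (nat_lit 5) (nat_lit 499) (nat_lit 394) (nat_lit 247)) (XT.nd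 (nat_lit 78) (nat_lit 380) (nat_lit 0) (XT.lf (nat_lit 0) (nat_lit 12151482960) (nat_lit 228) (nat_lit 6927046162) (nat_lit 304) (nat_lit 132311948) (nat_lit 83) (nat_lit 5) (nat_lit 86) (nat_lit 5) (nat_lit 87) (nat_lit 5) (nat_lit 500) (nat_lit 394) (nat_lit 246)) (XT.lf (nat_lit 0) (nat_lit 3278218388) (nat_lit 304) (nat_lit 868910567) (nat_lit 380) (nat_lit 15320281359) (nat_lit 78) (nat_lit 5) (nat_lit 82) (nat_lit 5) (nat_lit 83) (nat_lit 5) (nat_lit 501) (nat_lit 394) (nat_lit 245))))) (XT.nd (nat_lit 51090) (nat_lit 0) (nat_lit 39064) (XT.nd (nat_lit 78) (nat_lit 228) (nat_lit 0) (XT.lf (nat_lit 0) (nat_lit 8580412681) (nat_lit 380) (nat_lit 5865440576) (nat_lit 76) (nat_lit 5281842031) (nat_lit 78) (nat_lit 5) (nat_lit 83) (nat_lit 5) (nat_lit 79) (nat_lit 5) (nat_lit 502) (nat_lit 394) (nat_lit 244)) (XT.nd (nat_lit 50934) (nat_lit 0) (nat_lit 40052) (XT.lf (nat_lit 0) (nat_lit 4701231645) (nat_lit 228) (nat_lit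 8425506082) (nat_lit 304) (nat_lit 6865963022) (nat_lit 75) (nat_lit 5) (nat_lit 78) (nat_lit 5) (nat_lit 79) (nat_lit 5) (nat_lit 503) (nat_lit 394) (nat_lit 243)) (XT.lf (nat_lit 0) (nat_lit 1067219488) (nat_lit 988) (nat_lit 1185387076) (nat_lit 988) (nat_lit 1185387076) (nat_lit 602) (nat_lit 3) (nat_lit 615) (nat_lit 3) (nat_lit 615) (nat_lit 5) (nat_lit 395) (nat_lit 395) (nat_lit 350)))) (XT.nd (nat_lit 78) (nat_lit 988) (nat_lit 0) (XT.lf (nat_lit 76) (nat_lit 930532674) (nat_lit 0) (nat_lit 3130783279) (nat_lit 988) (nat_lit 2844191301) (nat_lit 603) (nat_lit 5) (nat_lit 602) (nat_lit 3) (nat_lit 615) (nat_lit 5) (nat_lit 396) (nat_lit 395) (nat_lit 349)) (XT.nd (nat_lit 78) (nat_lit 988) (nat_lit 0) (XT.lf (nat_lit 76) (nat_lit 4304238999) (nat_lit 0) (nat_lit 1688409010) (nat_lit 988) (nat_lit 943680887) (nat_lit 603) (nat_lit 5) (nat_lit 602) (nat_lit 3) (nat_lit 615) (nat_lit 5) (nat_lit 397) (nat_lit 395)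 (nat_lit 348)) (XT.lf (nat_lit 76) (nat_lit 755154863) (nat_lit 0) (nat_lit 182175724) (nat_lit 1064) (nat_lit 6031224904) (nat_lit 590) (nat_lit 5) (nat_lit 589) (nat_lit 5) (nat_lit 603) (nat_lit 5) (nat_lit 398) (nat_lit 395) (nat_lit 347))))))) (XT.nd (nat_lit 858) (nat_lit 4940) (nat_lit 0) (XT.nd (nat_lit 390) (nat_lit 1064) (nat_lit 0) (XT.nd (nat_lit 156) (nat_lit 1064) (nat_lit 0) (XT.nd (nat_lit 78) (nat_lit 0) (nat_lit 0) (XT.lf (nat_lit 0) (nat_lit 2821494122) (nat_lit 988) (nat_lit 2797327885) (nat_lit 1064) (nat_lit 1382944414) (nat_lit 590) (nat_lit 5) (nat_lit 603) (nat_lit 5) (nat_lit 604) (nat_lit 5) (nat_lit 399) (nat_lit 395) (nat_lit 346)) (XT.lf (nat_lit 76) (nat_lit 668232717) (nat_lit 0) (nat_lit 4033186591) (nat_lit 1064) (nat_lit 2335088058) (nat_lit 591) (nat_lit 5) (nat_lit 590) (nat_lit 5) (nat_lit 604) (nat_lit 5) (nat_lit 400) (nat_lit 395) (nat_lit 345))) (XT.nd (nat_lit 78) (nat_lit 1064)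 (nat_lit 0) (XT.lf (nat_lit 76) (nat_lit 4214805548) (nat_lit 0) (nat_lit 2376202801) (nat_lit 1064) (nat_lit 481520302) (nat_lit 591) (nat_lit 5) (nat_lit 590) (nat_lit 5) (nat_lit 604) (nat_lit 5) (nat_lit 401) (nat_lit 395) (nat_lit 344)) (XT.nd (nat_lit 78) (nat_lit 0) (nat_lit 76) (XT.lf (nat_lit 76) (nat_lit 696685570) (nat_lit 0) (nat_lit 652356146) (nat_lit 1140) (nat_lit 5760903380) (nat_lit 577) (nat_lit 5) (nat_lit 576) (nat_lit 5) (nat_lit 591) (nat_lit 5) (nat_lit 402) (nat_lit 395) (nat_lit 343)) (XT.lf (nat_lit 0) (nat_lit 3190997522) (nat_lit 1064) (nat_lit 2824529845) (nat_lit 1140) (nat_lit 1132919524) (nat_lit 577) (nat_lit 5) (nat_lit 591) (nat_lit 5) (nat_lit 592) (nat_lit 5) (nat_lit 403) (nat_lit 395) (nat_lit 342))))) (XT.nd (nat_lit 234) (nat_lit 0) (nat_lit 76) (XT.nd (nat_lit 78) (nat_lit 1140) (nat_lit 0) (XT.lf (nat_lit 76) (nat_lit 815658989) (nat_lit 0) (nat_lit 4219376529) (nat_lit 1140)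 (nat_lit 2153403127) (nat_lit 578) (nat_lit 5) (nat_lit 577) (nat_lit 5) (nat_lit 592) (nat_lit 5) (nat_lit 404) (nat_lit 395) (nat_lit 341)) (XT.nd (nat_lit 78) (nat_lit 1140) (nat_lit 0) (XT.lf (nat_lit 76) (nat_lit 4540421741) (nat_lit 0) (nat_lit 2350811543) (nat_lit 1140) (nat_lit 338515670) (nat_lit 578) (nat_lit 5) (nat_lit 577) (nat_lit 5) (nat_lit 592) (nat_lit 5) (nat_lit 405) (nat_lit 395) (nat_lit 340)) (XT.lf (nat_lit 76) (nat_lit 1045085876) (nat_lit 0) (nat_lit 411404341) (nat_lit 1216) (nat_lit 5815948991) (nat_lit 563) (nat_lit 5) (nat_lit 562) (nat_lit 5) (nat_lit 578) (nat_lit 5) (nat_lit 406) (nat_lit 395) (nat_lit 339)))) (XT.nd (nat_lit 78) (nat_lit 0) (nat_lit 0) (XT.lf (nat_lit 0) (nat_lit 3268859093) (nat_lit 1140) (nat_lit 2464909258) (nat_lit 1216) (nat_lit 1582473147) (nat_lit 563) (nat_lit 5) (nat_lit 578) (nat_lit 5) (nat_lit 579) (nat_lit 5) (nat_lit 407) (nat_lit 395) (nat_lit 338)) (XT.nd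 (nat_lit 78) (nat_lit 0) (nat_lit 0) (XT.lf (nat_lit 76) (nat_lit 1361052050) (nat_lit 0) (nat_lit 3726467424) (nat_lit 1216) (nat_lit 2274021930) (nat_lit 564) (nat_lit 5) (nat_lit 563) (nat_lit 5) (nat_lit 579) (nat_lit 5) (nat_lit 408) (nat_lit 395) (nat_lit 337)) (XT.lf (nat_lit 76) (nat_lit 5270264217) (nat_lit 0) (nat_lit 1647953259) (nat_lit 1216) (nat_lit 490038550) (nat_lit 564) (nat_lit 5) (nat_lit 563) (nat_lit 5) (nat_lit 579) (nat_lit 5) (nat_lit 409) (nat_lit 395) (nat_lit 336)))))) (XT.nd (nat_lit 390) (nat_lit 2660) (nat_lit 0) (XT.nd (nat_lit 156) (nat_lit 1216) (nat_lit 0) (XT.nd (nat_lit 78) (nat_lit 0) (nat_lit 0) (XT.lf (nat_lit 0) (nat_lit 1286733840) (nat_lit 1216) (nat_lit 5669734109) (nat_lit 1292) (nat_lit 499794538) (nat_lit 548) (nat_lit 5) (nat_lit 564) (nat_lit 5) (nat_lit 565) (nat_lit 5) (nat_lit 410) (nat_lit 395) (nat_lit 335)) (XT.lf (nat_lit 0) (nat_lit 3078185056) (nat_lit 1216) (nat_lit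 1728116824) (nat_lit 1292) (nat_lit 2699169052) (nat_lit 548) (nat_lit 5) (nat_lit 564) (nat_lit 5) (nat_lit 565) (nat_lit 5) (nat_lit 411) (nat_lit 395) (nat_lit 334))) (XT.nd (nat_lit 78) (nat_lit 1216) (nat_lit 0) (XT.lf (nat_lit 76) (nat_lit 2295536433) (nat_lit 0) (nat_lit 2585953791) (nat_lit 1292) (nat_lit 2674673157) (nat_lit 549) (nat_lit 5) (nat_lit 548) (nat_lit 5) (nat_lit 565) (nat_lit 5) (nat_lit 412) (nat_lit 395) (nat_lit 333)) (XT.nd (nat_lit 78) (nat_lit 1216) (nat_lit 0) (XT.lf (nat_lit 76) (nat_lit 6396362081) (nat_lit 0) (nat_lit 297805587) (nat_lit 1292) (nat_lit 914255821) (nat_lit 549) (nat_lit 5) (nat_lit 548) (nat_lit 5) (nat_lit 565) (nat_lit 5) (nat_lit 413) (nat_lit 395) (nat_lit 332)) (XT.lf (nat_lit 0) (nat_lit 864438802) (nat_lit 1292) (nat_lit 4752095153) (nat_lit 1368) (nat_lit 2045206990) (nat_lit 532) (nat_lit 5) (nat_lit 549) (nat_lit 5) (nat_lit 550) (nat_lit 5) (nat_lit 414) (nat_lit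 395) (nat_lit 331))))) (XT.nd (nat_lit 234) (nat_lit 1444) (nat_lit 0) (XT.nd (nat_lit 78) (nat_lit 1216) (nat_lit 0) (XT.lf (nat_lit 0) (nat_lit 2639467404) (nat_lit 1292) (nat_lit 621206369) (nat_lit 1368) (nat_lit 4455888858) (nat_lit 532) (nat_lit 5) (nat_lit 549) (nat_lit 5) (nat_lit 550) (nat_lit 5) (nat_lit 415) (nat_lit 395) (nat_lit 330)) (XT.nd (nat_lit 78) (nat_lit 1216) (nat_lit 0) (XT.lf (nat_lit 76) (nat_lit 3612839626) (nat_lit 0) (nat_lit 824173580) (nat_lit 1368) (nat_lit 3335745626) (nat_lit 533) (nat_lit 5) (nat_lit 532) (nat_lit 5) (nat_lit 550) (nat_lit 5) (nat_lit 416) (nat_lit 395) (nat_lit 329)) (XT.lf (nat_lit 0) (nat_lit 72669378) (nat_lit 1292) (nat_lit 6177454268) (nat_lit 1368) (nat_lit 1580381093) (nat_lit 516) (nat_lit 5) (nat_lit 533) (nat_lit 5) (nat_lit 534) (nat_lit 5) (nat_lit 417) (nat_lit 395) (nat_lit 328)))) (XT.nd (nat_lit 78) (nat_lit 1368) (nat_lit 0) (XT.lf (nat_lit 0) (nat_lit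 205328824) (nat_lit 1368) (nat_lit 3477328035) (nat_lit 76) (nat_lit 4206778908) (nat_lit 515) (nat_lit 5) (nat_lit 533) (nat_lit 5) (nat_lit 516) (nat_lit 5) (nat_lit 418) (nat_lit 395) (nat_lit 327)) (XT.nd (nat_lit 78) (nat_lit 0) (nat_lit 0) (XT.lf (nat_lit 0) (nat_lit 862406215) (nat_lit 1368) (nat_lit 1113937115) (nat_lit 1444) (nat_lit 5973595138) (nat_lit 497) (nat_lit 5) (nat_lit 515) (nat_lit 5) (nat_lit 516) (nat_lit 5) (nat_lit 419) (nat_lit 395) (nat_lit 326)) (XT.lf (nat_lit 0) (nat_lit 3781734458) (nat_lit 1444) (nat_lit 2712846725) (nat_lit 76) (nat_lit 1517107594) (nat_lit 497) (nat_lit 5) (nat_lit 516) (nat_lit 5) (nat_lit 498) (nat_lit 5) (nat_lit 420) (nat_lit 395) (nat_lit 325))))))))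
noncomputable def xc136 : XT := (XT.nd (nat_lit 1638) (nat_lit 8056) (nat_lit 0) (XT.nd (nat_lit 780) (nat_lit 5168) (nat_lit 0) (XT.nd (nat_lit 390) (nat_lit 4560) (nat_lit 0) (XT.nd (nat_lit 156) (nat_lit 3192) (nat_lit 0) (XT.nd (nat_lit 78) (nat_lit 0) (nat_lit 0) (XT.lf (nat_lit 0) (nat_lit 1737488075) (nat_lit 1444) (nat_lit 3870764229) (nat_lit 1520) (nat_lit 2466737763) (nat_lit 478) (nat_lit 5) (nat_lit 497) (nat_lit 5) (nat_lit 498) (nat_lit 5) (nat_lit 421) (nat_lit 395) (nat_lit 324)) (XT.lf (nat_lit 0) (nat_lit 6286527389) (nat_lit 1444) (nat_lit 1169822450) (nat_lit 1520) (nat_lit 683522588) (nat_lit 478) (nat_lit 5) (nat_lit 497) (nat_lit 5) (nat_lit 498) (nat_lit 5) (nat_lit 422) (nat_lit 395) (nat_lit 323))) (XT.nd (nat_lit 78) (nat_lit 1596) (nat_lit 0) (XT.lf (nat_lit 0) (nat_lit 1115897299) (nat_lit 1596) (nat_lit 5494890883) (nat_lit 76) (nat_lit 1595223615) (nat_lit 457) (nat_lit 5) (nat_lit 478)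 (nat_lit 5) (nat_lit 458) (nat_lit 5) (nat_lit 423) (nat_lit 395) (nat_lit 322)) (XT.nd (nat_lit 78) (nat_lit 1596) (nat_lit 0) (XT.lf (nat_lit 0) (nat_lit 2930195409) (nat_lit 1596) (nat_lit 921095978) (nat_lit 76) (nat_lit 4422346471) (nat_lit 457) (nat_lit 5) (nat_lit 478) (nat_lit 5) (nat_lit 458) (nat_lit 5) (nat_lit 424) (nat_lit 395) (nat_lit 321)) (XT.lf (nat_lit 0) (nat_lit 3766600591) (nat_lit 1596) (nat_lit 1007033358) (nat_lit 1672) (nat_lit 3569140212) (nat_lit 436) (nat_lit 5) (nat_lit 457) (nat_lit 5) (nat_lit 458) (nat_lit 5) (nat_lit 425) (nat_lit 395) (nat_lit 320))))) (XT.nd (nat_lit 156) (nat_lit 2812) (nat_lit 0) (XT.nd (nat_lit 78) (nat_lit 76) (nat_lit 0) (XT.lf (nat_lit 0) (nat_lit 108995624) (nat_lit 1672) (nat_lit 6533046241) (nat_lit 1748) (nat_lit 1771503834) (nat_lit 414) (nat_lit 5) (nat_lit 436) (nat_lit 5) (nat_lit 437) (nat_lit 5) (nat_lit 426) (nat_lit 395) (nat_lit 319)) (XT.lf (nat_lit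 0) (nat_lit 67941031) (nat_lit 1748) (nat_lit 3570201034) (nat_lit 76) (nat_lit 4847463097) (nat_lit 413) (nat_lit 5) (nat_lit 436) (nat_lit 5) (nat_lit 414) (nat_lit 5) (nat_lit 427) (nat_lit 395) (nat_lit 318))) (XT.nd (nat_lit 78) (nat_lit 1064) (nat_lit 0) (XT.lf (nat_lit 0) (nat_lit 1236152382) (nat_lit 1748) (nat_lit 662045192) (nat_lit 1824) (nat_lit 6661132866) (nat_lit 390) (nat_lit 5) (nat_lit 413) (nat_lit 5) (nat_lit 414) (nat_lit 5) (nat_lit 428) (nat_lit 395) (nat_lit 317)) (XT.nd (nat_lit 78) (nat_lit 1064) (nat_lit 0) (XT.lf (nat_lit 0) (nat_lit 3774719625) (nat_lit 1824) (nat_lit 2490207078) (nat_lit 76) (nat_lit 2369423729) (nat_lit 390) (nat_lit 5) (nat_lit 414) (nat_lit 5) (nat_lit 391) (nat_lit 5) (nat_lit 429) (nat_lit 395) (nat_lit 316)) (XT.lf (nat_lit 0) (nat_lit 2439966557) (nat_lit 1064) (nat_lit 3239750445) (nat_lit 1140) (nat_lit 3031348075) (nat_lit 376) (nat_lit 5) (nat_lit 390) (nat_lit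 5) (nat_lit 391) (nat_lit 5) (nat_lit 430) (nat_lit 395) (nat_lit 315)))))) (XT.nd (nat_lit 390) (nat_lit 2508) (nat_lit 0) (XT.nd (nat_lit 156) (nat_lit 1672) (nat_lit 0) (XT.nd (nat_lit 78) (nat_lit 988) (nat_lit 0) (XT.lf (nat_lit 0) (nat_lit 7475604232) (nat_lit 1064) (nat_lit 135038821) (nat_lit 1140) (nat_lit 1178927282) (nat_lit 376) (nat_lit 5) (nat_lit 390) (nat_lit 5) (nat_lit 391) (nat_lit 5) (nat_lit 431) (nat_lit 395) (nat_lit 314)) (XT.lf (nat_lit 0) (nat_lit 717009423) (nat_lit 988) (nat_lit 5129282537) (nat_lit 76) (nat_lit 3022958137) (nat_lit 363) (nat_lit 5) (nat_lit 376) (nat_lit 5) (nat_lit 364) (nat_lit 5) (nat_lit 432) (nat_lit 395) (nat_lit 313))) (XT.nd (nat_lit 78) (nat_lit 1672) (nat_lit 0) (XT.lf (nat_lit 0) (nat_lit 2616744893) (nat_lit 988) (nat_lit 73483779) (nat_lit 76) (nat_lit 6260517762) (nat_lit 363) (nat_lit 5) (nat_lit 376) (nat_lit 5) (nat_lit 364) (nat_lit 5) (nat_lit 433) (nat_lit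 395) (nat_lit 312)) (XT.nd (nat_lit 78) (nat_lit 836) (nat_lit 0) (XT.lf (nat_lit 0) (nat_lit 4563836546) (nat_lit 912) (nat_lit 3913433066) (nat_lit 76) (nat_lit 556427768) (nat_lit 352) (nat_lit 5) (nat_lit 364) (nat_lit 5) (nat_lit 353) (nat_lit 5) (nat_lit 434) (nat_lit 395) (nat_lit 311)) (XT.lf (nat_lit 0) (nat_lit 1272434739) (nat_lit 836) (nat_lit 5276815163) (nat_lit 912) (nat_lit 2569081524) (nat_lit 341) (nat_lit 5) (nat_lit 352) (nat_lit 5) (nat_lit 353) (nat_lit 5) (nat_lit 435) (nat_lit 395) (nat_lit 310))))) (XT.nd (nat_lit 234) (nat_lit 1596) (nat_lit 0) (XT.nd (nat_lit 78) (nat_lit 912) (nat_lit 0) (XT.lf (nat_lit 0) (nat_lit 6588225179) (nat_lit 836) (nat_lit 1985572397) (nat_lit 912) (nat_lit 630883504) (nat_lit 341) (nat_lit 5) (nat_lit 352) (nat_lit 5) (nat_lit 353) (nat_lit 5) (nat_lit 436) (nat_lit 395) (nat_lit 309)) (XT.nd (nat_lit 78) (nat_lit 0) (nat_lit 0) (XT.lf (nat_lit 0) (nat_lit 1328654090)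 (nat_lit 912) (nat_lit 6584049730) (nat_lit 76) (nat_lit 1379885526) (nat_lit 329) (nat_lit 5) (nat_lit 341) (nat_lit 5) (nat_lit 330) (nat_lit 5) (nat_lit 437) (nat_lit 395) (nat_lit 308)) (XT.lf (nat_lit 0) (nat_lit 3323617188) (nat_lit 912) (nat_lit 1250881633) (nat_lit 76) (nat_lit 4807590698) (nat_lit 329) (nat_lit 5) (nat_lit 341) (nat_lit 5) (nat_lit 330) (nat_lit 5) (nat_lit 438) (nat_lit 395) (nat_lit 307)))) (XT.nd (nat_lit 78) (nat_lit 760) (nat_lit 0) (XT.lf (nat_lit 0) (nat_lit 4217761619) (nat_lit 836) (nat_lit 1142465990) (nat_lit 912) (nat_lit 4113127703) (nat_lit 318) (nat_lit 5) (nat_lit 329) (nat_lit 5) (nat_lit 330) (nat_lit 5) (nat_lit 439) (nat_lit 395) (nat_lit 306)) (XT.nd (nat_lit 78) (nat_lit 0) (nat_lit 0) (XT.lf (nat_lit 0) (nat_lit 206962603) (nat_lit 760) (nat_lit 7230400700) (nat_lit 836) (nat_lit 2129097627) (nat_lit 308) (nat_lit 5) (nat_lit 318) (nat_lit 5) (nat_lit 319) (nat_lit 5)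 (nat_lit 440) (nat_lit 395) (nat_lit 305)) (XT.lf (nat_lit 0) (nat_lit 5815680678) (nat_lit 760) (nat_lit 3758156854) (nat_lit 836) (nat_lit 87245378) (nat_lit 308) (nat_lit 5) (nat_lit 318) (nat_lit 5) (nat_lit 319) (nat_lit 5) (nat_lit 441) (nat_lit 395) (nat_lit 304))))))) (XT.nd (nat_lit 780) (nat_lit 3648) (nat_lit 0) (XT.nd (nat_lit 390) (nat_lit 2052) (nat_lit 0) (XT.nd (nat_lit 156) (nat_lit 1520) (nat_lit 0) (XT.nd (nat_lit 78) (nat_lit 0) (nat_lit 0) (XT.lf (nat_lit 0) (nat_lit 1762659064) (nat_lit 760) (nat_lit 193388283) (nat_lit 836) (nat_lit 7801565159) (nat_lit 297) (nat_lit 5) (nat_lit 307) (nat_lit 5) (nat_lit 308) (nat_lit 5) (nat_lit 442) (nat_lit 395) (nat_lit 303)) (XT.lf (nat_lit 0) (nat_lit 4062996493) (nat_lit 836) (nat_lit 2370438836) (nat_lit 76) (nat_lit 3422156236) (nat_lit 297) (nat_lit 5) (nat_lit 308) (nat_lit 5) (nat_lit 298) (nat_lit 5) (nat_lit 443) (nat_lit 395) (nat_lit 302))) (XT.nd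 (nat_lit 78) (nat_lit 836) (nat_lit 0) (XT.lf (nat_lit 0) (nat_lit 3383396005) (nat_lit 684) (nat_lit 2828044418) (nat_lit 760) (nat_lit 3744112057) (nat_lit 288) (nat_lit 5) (nat_lit 297) (nat_lit 5) (nat_lit 298) (nat_lit 5) (nat_lit 444) (nat_lit 395) (nat_lit 301)) (XT.nd (nat_lit 78) (nat_lit 836) (nat_lit 0) (XT.lf (nat_lit 0) (nat_lit 8400771387) (nat_lit 760) (nat_lit 804930836) (nat_lit 76) (nat_lit 851861237) (nat_lit 288) (nat_lit 5) (nat_lit 298) (nat_lit 5) (nat_lit 289) (nat_lit 5) (nat_lit 445) (nat_lit 395) (nat_lit 300)) (XT.lf (nat_lit 0) (nat_lit 494954881) (nat_lit 836) (nat_lit 5064545852) (nat_lit 76) (nat_lit 4601483961) (nat_lit 277) (nat_lit 5) (nat_lit 288) (nat_lit 5) (nat_lit 278) (nat_lit 5) (nat_lit 446) (nat_lit 395) (nat_lit 299))))) (XT.nd (nat_lit 156) (nat_lit 1368) (nat_lit 0) (XT.nd (nat_lit 78) (nat_lit 0) (nat_lit 0) (XT.lf (nat_lit 0) (nat_lit 834134667) (nat_lit 684) (nat_lit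 1821270863) (nat_lit 760) (nat_lit 7611101408) (nat_lit 268) (nat_lit 5) (nat_lit 277) (nat_lit 5) (nat_lit 278) (nat_lit 5) (nat_lit 447) (nat_lit 395) (nat_lit 298)) (XT.lf (nat_lit 0) (nat_lit 4883448369) (nat_lit 760) (nat_lit 3493624250) (nat_lit 76) (nat_lit 1996587851) (nat_lit 268) (nat_lit 5) (nat_lit 278) (nat_lit 5) (nat_lit 269) (nat_lit 5) (nat_lit 448) (nat_lit 395) (nat_lit 297))) (XT.nd (nat_lit 78) (nat_lit 684) (nat_lit 0) (XT.lf (nat_lit 0) (nat_lit 2559476183) (nat_lit 684) (nat_lit 4602942103) (nat_lit 760) (nat_lit 3320419802) (nat_lit 259) (nat_lit 5) (nat_lit 268) (nat_lit 5) (nat_lit 269) (nat_lit 5) (nat_lit 449) (nat_lit 395) (nat_lit 296)) (XT.nd (nat_lit 78) (nat_lit 684) (nat_lit 0) (XT.lf (nat_lit 0) (nat_lit 8755237066) (nat_lit 684) (nat_lit 733131869) (nat_lit 760) (nat_lit 1105810475) (nat_lit 259) (nat_lit 5) (nat_lit 268) (nat_lit 5) (nat_lit 269) (nat_lit 5) (nat_lit 450) (nat_lit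 395) (nat_lit 295)) (XT.lf (nat_lit 0) (nat_lit 1165802221) (nat_lit 684) (nat_lit 6336825636) (nat_lit 76) (nat_lit 3204421143) (nat_lit 250) (nat_lit 5) (nat_lit 259) (nat_lit 5) (nat_lit 251) (nat_lit 5) (nat_lit 451) (nat_lit 395) (nat_lit 294)))))) (XT.nd (nat_lit 390) (nat_lit 1748) (nat_lit 0) (XT.nd (nat_lit 156) (nat_lit 1292) (nat_lit 0) (XT.nd (nat_lit 78) (nat_lit 608) (nat_lit 0) (XT.lf (nat_lit 0) (nat_lit 3463806529) (nat_lit 684) (nat_lit 131484529) (nat_lit 76) (nat_lit 7226831117) (nat_lit 250) (nat_lit 5) (nat_lit 259) (nat_lit 5) (nat_lit 251) (nat_lit 5) (nat_lit 452) (nat_lit 395) (nat_lit 293)) (XT.lf (nat_lit 0) (nat_lit 5830052969) (nat_lit 684) (nat_lit 4687183542) (nat_lit 76) (nat_lit 421822216) (nat_lit 242) (nat_lit 5) (nat_lit 251) (nat_lit 5) (nat_lit 243) (nat_lit 5) (nat_lit 453) (nat_lit 395) (nat_lit 292))) (XT.nd (nat_lit 78) (nat_lit 684) (nat_lit 0) (XT.lf (nat_lit 0) (nat_lit 1679053915)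 (nat_lit 608) (nat_lit 6579290144) (nat_lit 684) (nat_lit 2799702965) (nat_lit 234) (nat_lit 5) (nat_lit 242) (nat_lit 5) (nat_lit 243) (nat_lit 5) (nat_lit 454) (nat_lit 395) (nat_lit 291)) (XT.nd (nat_lit 78) (nat_lit 684) (nat_lit 0) (XT.lf (nat_lit 0) (nat_lit 8210800521) (nat_lit 608) (nat_lit 2535218868) (nat_lit 684) (nat_lit 433186588) (nat_lit 234) (nat_lit 5) (nat_lit 242) (nat_lit 5) (nat_lit 243) (nat_lit 5) (nat_lit 455) (nat_lit 395) (nat_lit 290)) (XT.lf (nat_lit 0) (nat_lit 1968081210) (nat_lit 684) (nat_lit 7733664568) (nat_lit 76) (nat_lit 1600524159) (nat_lit 225) (nat_lit 5) (nat_lit 234) (nat_lit 5) (nat_lit 226) (nat_lit 5) (nat_lit 456) (nat_lit 395) (nat_lit 289))))) (XT.nd (nat_lit 234) (nat_lit 608) (nat_lit 0) (XT.nd (nat_lit 78) (nat_lit 1140) (nat_lit 0) (XT.lf (nat_lit 0) (nat_lit 4428254946) (nat_lit 684) (nat_lit 1195938112) (nat_lit 76) (nat_lit 5803218074) (nat_lit 225) (nat_lit 5) (nat_lit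 234) (nat_lit 5) (nat_lit 226) (nat_lit 5) (nat_lit 457) (nat_lit 395) (nat_lit 288)) (XT.nd (nat_lit 78) (nat_lit 608) (nat_lit 0) (XT.lf (nat_lit 0) (nat_lit 5520091806) (nat_lit 532) (nat_lit 1433610369) (nat_lit 608) (nat_lit 4601038285) (nat_lit 218) (nat_lit 5) (nat_lit 225) (nat_lit 5) (nat_lit 226) (nat_lit 5) (nat_lit 458) (nat_lit 395) (nat_lit 287)) (XT.lf (nat_lit 0) (nat_lit 667404809) (nat_lit 608) (nat_lit 8873533465) (nat_lit 684) (nat_lit 2143459076) (nat_lit 210) (nat_lit 5) (nat_lit 218) (nat_lit 5) (nat_lit 219) (nat_lit 5) (nat_lit 459) (nat_lit 395) (nat_lit 286)))) (XT.nd (nat_lit 78) (nat_lit 532) (nat_lit 0) (XT.lf (nat_lit 0) (nat_lit 389276966) (nat_lit 684) (nat_lit 4267806917) (nat_lit 76) (nat_lit 7158907252) (nat_lit 209) (nat_lit 5) (nat_lit 218) (nat_lit 5) (nat_lit 210) (nat_lit 5) (nat_lit 460) (nat_lit 395) (nat_lit 285)) (XT.nd (nat_lit 78) (nat_lit 0) (nat_lit 0) (XT.lf (nat_lit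 0) (nat_lit 2611765062) (nat_lit 532) (nat_lit 330079679) (nat_lit 608) (nat_lit 9008137328) (nat_lit 202) (nat_lit 5) (nat_lit 209) (nat_lit 5) (nat_lit 210) (nat_lit 5) (nat_lit 461) (nat_lit 395) (nat_lit 284)) (XT.lf (nat_lit 0) (nat_lit 5581878337) (nat_lit 608) (nat_lit 2450843864) (nat_lit 76) (nat_lit 4053208407) (nat_lit 202) (nat_lit 5) (nat_lit 210) (nat_lit 5) (nat_lit 203) (nat_lit 5) (nat_lit 462) (nat_lit 395) (nat_lit 283))))))))
noncomputable def xc137 : XT := (XT.nd (nat_lit 1638) (nat_lit 3724) (nat_lit 0) (XT.nd (nat_lit 780) (nat_lit 2660) (nat_lit 0) (XT.nd (nat_lit 390) (nat_lit 1444) (nat_lit 0) (XT.nd (nat_lit 156) (nat_lit 1064) (nat_lit 0) (XT.nd (nat_lit 78) (nat_lit 0) (nat_lit 0) (XT.lf (nat_lit 0) (nat_lit 4608173565) (nat_lit 532) (nat_lit 3680088443) (nat_lit 608) (nat_lit 3936071076) (nat_lit 195) (nat_lit 5) (nat_lit 202) (nat_lit 5) (nat_lit 203) (nat_lit 5) (nat_lit 463) (nat_lit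 395) (nat_lit 282)) (XT.lf (nat_lit 0) (nat_lit 11051873474) (nat_lit 608) (nat_lit 553151129) (nat_lit 76) (nat_lit 760422847) (nat_lit 195) (nat_lit 5) (nat_lit 203) (nat_lit 5) (nat_lit 196) (nat_lit 5) (nat_lit 464) (nat_lit 395) (nat_lit 281))) (XT.nd (nat_lit 78) (nat_lit 532) (nat_lit 0) (XT.lf (nat_lit 0) (nat_lit 1393626172) (nat_lit 532) (nat_lit 5827118314) (nat_lit 76) (nat_lit 5287466295) (nat_lit 188) (nat_lit 5) (nat_lit 195) (nat_lit 5) (nat_lit 189) (nat_lit 5) (nat_lit 465) (nat_lit 395) (nat_lit 280)) (XT.nd (nat_lit 78) (nat_lit 0) (nat_lit 0) (XT.lf (nat_lit 0) (nat_lit 1399257880) (nat_lit 532) (nat_lit 2733009770) (nat_lit 608) (nat_lit 8521495854) (nat_lit 181) (nat_lit 5) (nat_lit 188) (nat_lit 5) (nat_lit 189) (nat_lit 5) (nat_lit 466) (nat_lit 395) (nat_lit 279)) (XT.lf (nat_lit 0) (nat_lit 6959223701) (nat_lit 608) (nat_lit 3988825190) (nat_lit 76) (nat_lit 1853512952) (nat_lit 181) (nat_lit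 5) (nat_lit 189) (nat_lit 5) (nat_lit 182) (nat_lit 5) (nat_lit 467) (nat_lit 395) (nat_lit 278))))) (XT.nd (nat_lit 156) (nat_lit 988) (nat_lit 0) (XT.nd (nat_lit 78) (nat_lit 0) (nat_lit 0) (XT.lf (nat_lit 0) (nat_lit 3425172436) (nat_lit 456) (nat_lit 6440437433) (nat_lit 532) (nat_lit 3086253748) (nat_lit 175) (nat_lit 5) (nat_lit 181) (nat_lit 5) (nat_lit 182) (nat_lit 5) (nat_lit 468) (nat_lit 395) (nat_lit 277)) (XT.lf (nat_lit 0) (nat_lit 11017857524) (nat_lit 456) (nat_lit 1821774923) (nat_lit 532) (nat_lit 265353991) (nat_lit 175) (nat_lit 5) (nat_lit 181) (nat_lit 5) (nat_lit 182) (nat_lit 5) (nat_lit 469) (nat_lit 395) (nat_lit 276))) (XT.nd (nat_lit 78) (nat_lit 456) (nat_lit 0) (XT.lf (nat_lit 0) (nat_lit 2615664569) (nat_lit 532) (nat_lit 7746119327) (nat_lit 76) (nat_lit 2898294488) (nat_lit 168) (nat_lit 5) (nat_lit 175) (nat_lit 5) (nat_lit 169) (nat_lit 5) (nat_lit 470) (nat_lit 395) (nat_lit 275))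 (XT.nd (nat_lit 78) (nat_lit 456) (nat_lit 0) (XT.lf (nat_lit 0) (nat_lit 5560021104) (nat_lit 532) (nat_lit 160122121) (nat_lit 76) (nat_lit 7697913336) (nat_lit 168) (nat_lit 5) (nat_lit 175) (nat_lit 5) (nat_lit 169) (nat_lit 5) (nat_lit 471) (nat_lit 395) (nat_lit 274)) (XT.lf (nat_lit 0) (nat_lit 7654876742) (nat_lit 456) (nat_lit 941524007) (nat_lit 532) (nat_lit 4982135624) (nat_lit 162) (nat_lit 5) (nat_lit 168) (nat_lit 5) (nat_lit 169) (nat_lit 5) (nat_lit 472) (nat_lit 395) (nat_lit 273)))))) (XT.nd (nat_lit 390) (nat_lit 1292) (nat_lit 0) (XT.nd (nat_lit 156) (nat_lit 836) (nat_lit 0) (XT.nd (nat_lit 78) (nat_lit 76) (nat_lit 0) (XT.lf (nat_lit 0) (nat_lit 1861767491) (nat_lit 456) (nat_lit 9854011917) (nat_lit 532) (nat_lit 2026005642) (nat_lit 156) (nat_lit 5) (nat_lit 162) (nat_lit 5) (nat_lit 163) (nat_lit 5) (nat_lit 473) (nat_lit 395) (nat_lit 272)) (XT.lf (nat_lit 0) (nat_lit 1006150652) (nat_lit 532)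 (nat_lit 4060545342) (nat_lit 76) (nat_lit 8840881206) (nat_lit 155) (nat_lit 5) (nat_lit 162) (nat_lit 5) (nat_lit 156) (nat_lit 5) (nat_lit 474) (nat_lit 395) (nat_lit 271))) (XT.nd (nat_lit 78) (nat_lit 456) (nat_lit 0) (XT.lf (nat_lit 0) (nat_lit 3930586446) (nat_lit 380) (nat_lit 150730236) (nat_lit 456) (nat_lit 9994915203) (nat_lit 150) (nat_lit 5) (nat_lit 155) (nat_lit 5) (nat_lit 156) (nat_lit 5) (nat_lit 475) (nat_lit 395) (nat_lit 270)) (XT.nd (nat_lit 78) (nat_lit 456) (nat_lit 0) (XT.lf (nat_lit 0) (nat_lit 7261064707) (nat_lit 456) (nat_lit 2165880155) (nat_lit 76) (nat_lit 4820457564) (nat_lit 150) (nat_lit 5) (nat_lit 156) (nat_lit 5) (nat_lit 151) (nat_lit 5) (nat_lit 476) (nat_lit 395) (nat_lit 269)) (XT.lf (nat_lit 0) (nat_lit 6029014400) (nat_lit 456) (nat_lit 4499920574) (nat_lit 532) (nat_lit 3892575115) (nat_lit 144) (nat_lit 5) (nat_lit 150) (nat_lit 5) (nat_lit 151) (nat_lit 5) (nat_lit 477)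 (nat_lit 395) (nat_lit 268))))) (XT.nd (nat_lit 234) (nat_lit 456) (nat_lit 0) (XT.nd (nat_lit 78) (nat_lit 836) (nat_lit 0) (XT.lf (nat_lit 0) (nat_lit 13864706402) (nat_lit 532) (nat_lit 207811745) (nat_lit 76) (nat_lit 526535053) (nat_lit 144) (nat_lit 5) (nat_lit 151) (nat_lit 5) (nat_lit 145) (nat_lit 5) (nat_lit 478) (nat_lit 395) (nat_lit 267)) (XT.nd (nat_lit 78) (nat_lit 380) (nat_lit 0) (XT.lf (nat_lit 0) (nat_lit 2522692457) (nat_lit 456) (nat_lit 6599348947) (nat_lit 76) (nat_lit 5656421537) (nat_lit 138) (nat_lit 5) (nat_lit 144) (nat_lit 5) (nat_lit 139) (nat_lit 5) (nat_lit 479) (nat_lit 395) (nat_lit 266)) (XT.lf (nat_lit 0) (nat_lit 1771245851) (nat_lit 380) (nat_lit 4061562289) (nat_lit 456) (nat_lit 9128604217) (nat_lit 133) (nat_lit 5) (nat_lit 138) (nat_lit 5) (nat_lit 139) (nat_lit 5) (nat_lit 480) (nat_lit 395) (nat_lit 265)))) (XT.nd (nat_lit 78) (nat_lit 456) (nat_lit 0) (XT.lf (nat_lit 0) (nat_lit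 9245809710) (nat_lit 456) (nat_lit 4778247537) (nat_lit 76) (nat_lit 1123233693) (nat_lit 133) (nat_lit 5) (nat_lit 139) (nat_lit 5) (nat_lit 134) (nat_lit 5) (nat_lit 481) (nat_lit 395) (nat_lit 264)) (XT.nd (nat_lit 78) (nat_lit 76) (nat_lit 0) (XT.lf (nat_lit 0) (nat_lit 3802942333) (nat_lit 380) (nat_lit 8960975260) (nat_lit 456) (nat_lit 2572236356) (nat_lit 128) (nat_lit 5) (nat_lit 133) (nat_lit 5) (nat_lit 134) (nat_lit 5) (nat_lit 482) (nat_lit 395) (nat_lit 263)) (XT.lf (nat_lit 0) (nat_lit 830373249) (nat_lit 456) (nat_lit 2935186716) (nat_lit 76) (nat_lit 11762779307) (nat_lit 127) (nat_lit 5) (nat_lit 133) (nat_lit 5) (nat_lit 128) (nat_lit 5) (nat_lit 483) (nat_lit 395) (nat_lit 262))))))) (XT.nd (nat_lit 858) (nat_lit 1596) (nat_lit 0) (XT.nd (nat_lit 390) (nat_lit 988) (nat_lit 0) (XT.nd (nat_lit 156) (nat_lit 760) (nat_lit 0) (XT.nd (nat_lit 78) (nat_lit 0) (nat_lit 0) (XT.lf (nat_lit 0) (nat_lit 4300627569)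 (nat_lit 456) (nat_lit 9860610485) (nat_lit 76) (nat_lit 1562113063) (nat_lit 122) (nat_lit 5) (nat_lit 128) (nat_lit 5) (nat_lit 123) (nat_lit 5) (nat_lit 484) (nat_lit 395) (nat_lit 261)) (XT.lf (nat_lit 0) (nat_lit 7870741069) (nat_lit 456) (nat_lit 1092192939) (nat_lit 76) (nat_lit 6958723599) (nat_lit 122) (nat_lit 5) (nat_lit 128) (nat_lit 5) (nat_lit 123) (nat_lit 5) (nat_lit 485) (nat_lit 395) (nat_lit 260))) (XT.nd (nat_lit 78) (nat_lit 456) (nat_lit 0) (XT.lf (nat_lit 0) (nat_lit 7934409550) (nat_lit 304) (nat_lit 3615332854) (nat_lit 380) (nat_lit 4573441532) (nat_lit 118) (nat_lit 5) (nat_lit 122) (nat_lit 5) (nat_lit 123) (nat_lit 5) (nat_lit 486) (nat_lit 395) (nat_lit 259)) (XT.nd (nat_lit 78) (nat_lit 76) (nat_lit 0) (XT.lf (nat_lit 0) (nat_lit 804983162) (nat_lit 380) (nat_lit 14507947611) (nat_lit 456) (nat_lit 1015601233) (nat_lit 113) (nat_lit 5) (nat_lit 118) (nat_lit 5) (nat_lit 119) (nat_lit 5)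 (nat_lit 487) (nat_lit 395) (nat_lit 258)) (XT.lf (nat_lit 0) (nat_lit 2644480584) (nat_lit 456) (nat_lit 6509932311) (nat_lit 76) (nat_lit 7381930810) (nat_lit 112) (nat_lit 5) (nat_lit 118) (nat_lit 5) (nat_lit 113) (nat_lit 5) (nat_lit 488) (nat_lit 395) (nat_lit 257))))) (XT.nd (nat_lit 234) (nat_lit 380) (nat_lit 0) (XT.nd (nat_lit 78) (nat_lit 304) (nat_lit 0) (XT.lf (nat_lit 0) (nat_lit 2691563673) (nat_lit 304) (nat_lit 3676464465) (nat_lit 380) (nat_lit 10380075139) (nat_lit 108) (nat_lit 5) (nat_lit 112) (nat_lit 5) (nat_lit 113) (nat_lit 5) (nat_lit 489) (nat_lit 395) (nat_lit 256)) (XT.nd (nat_lit 78) (nat_lit 304) (nat_lit 0) (XT.lf (nat_lit 0) (nat_lit 10208887941) (nat_lit 380) (nat_lit 4831642751) (nat_lit 76) (nat_lit 1922713621) (nat_lit 108) (nat_lit 5) (nat_lit 113) (nat_lit 5) (nat_lit 109) (nat_lit 5) (nat_lit 490) (nat_lit 395) (nat_lit 255)) (XT.lf (nat_lit 0) (nat_lit 4593000689) (nat_lit 304)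 (nat_lit 9574457171) (nat_lit 380) (nat_lit 3014415489) (nat_lit 104) (nat_lit 5) (nat_lit 108) (nat_lit 5) (nat_lit 109) (nat_lit 5) (nat_lit 491) (nat_lit 395) (nat_lit 254)))) (XT.nd (nat_lit 78) (nat_lit 304) (nat_lit 0) (XT.lf (nat_lit 0) (nat_lit 809227217) (nat_lit 380) (nat_lit 3158691258) (nat_lit 76) (nat_lit 13436467498) (nat_lit 103) (nat_lit 5) (nat_lit 108) (nat_lit 5) (nat_lit 104) (nat_lit 5) (nat_lit 492) (nat_lit 395) (nat_lit 253)) (XT.nd (nat_lit 78) (nat_lit 0) (nat_lit 0) (XT.lf (nat_lit 0) (nat_lit 4710006286) (nat_lit 380) (nat_lit 11136931047) (nat_lit 76) (nat_lit 1783195343) (nat_lit 99) (nat_lit 5) (nat_lit 104) (nat_lit 5) (nat_lit 100) (nat_lit 5) (nat_lit 493) (nat_lit 395) (nat_lit 252)) (XT.lf (nat_lit 0) (nat_lit 8723513128) (nat_lit 380) (nat_lit 1525797637) (nat_lit 76) (nat_lit 7610392110) (nat_lit 99) (nat_lit 5) (nat_lit 104) (nat_lit 5) (nat_lit 100) (nat_lit 5) (nat_lit 494) (nat_lit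 395) (nat_lit 251)))))) (XT.nd (nat_lit 390) (nat_lit 608) (nat_lit 0) (XT.nd (nat_lit 156) (nat_lit 380) (nat_lit 0) (XT.nd (nat_lit 78) (nat_lit 304) (nat_lit 0) (XT.lf (nat_lit 0) (nat_lit 8367338230) (nat_lit 304) (nat_lit 4491628903) (nat_lit 380) (nat_lit 5234066557) (nat_lit 95) (nat_lit 5) (nat_lit 99) (nat_lit 5) (nat_lit 100) (nat_lit 5) (nat_lit 495) (nat_lit 395) (nat_lit 250)) (XT.lf (nat_lit 0) (nat_lit 120706677) (nat_lit 304) (nat_lit 16963904293) (nat_lit 380) (nat_lit 1246273234) (nat_lit 91) (nat_lit 5) (nat_lit 95) (nat_lit 5) (nat_lit 96) (nat_lit 5) (nat_lit 496) (nat_lit 395) (nat_lit 249))) (XT.nd (nat_lit 78) (nat_lit 304) (nat_lit 0) (XT.lf (nat_lit 0) (nat_lit 2867171943) (nat_lit 380) (nat_lit 8344882380) (nat_lit 76) (nat_lit 7359415695) (nat_lit 90) (nat_lit 5) (nat_lit 95) (nat_lit 5) (nat_lit 91) (nat_lit 5) (nat_lit 497) (nat_lit 395) (nat_lit 248)) (XT.nd (nat_lit 78) (nat_lit 0) (nat_lit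 0) (XT.lf (nat_lit 0) (nat_lit 1712243681) (nat_lit 304) (nat_lit 5332788239) (nat_lit 380) (nat_lit 11771696742) (nat_lit 86) (nat_lit 5) (nat_lit 90) (nat_lit 5) (nat_lit 91) (nat_lit 5) (nat_lit 498) (nat_lit 395) (nat_lit 247)) (XT.lf (nat_lit 0) (nat_lit 11354897345) (nat_lit 380) (nat_lit 7006572387) (nat_lit 76) (nat_lit 704456277) (nat_lit 86) (nat_lit 5) (nat_lit 91) (nat_lit 5) (nat_lit 87) (nat_lit 5) (nat_lit 499) (nat_lit 395) (nat_lit 246))))) (XT.nd (nat_lit 234) (nat_lit 0) (nat_lit 0) (XT.nd (nat_lit 78) (nat_lit 380) (nat_lit 0) (XT.lf (nat_lit 0) (nat_lit 3281661933) (nat_lit 228) (nat_lit 12513928508) (nat_lit 304) (nat_lit 3523626695) (nat_lit 83) (nat_lit 5) (nat_lit 86) (nat_lit 5) (nat_lit 87) (nat_lit 5) (nat_lit 500) (nat_lit 395) (nat_lit 245)) (XT.nd (nat_lit 78) (nat_lit 304) (nat_lit 0) (XT.lf (nat_lit 0) (nat_lit 773084964) (nat_lit 304) (nat_lit 5730555260) (nat_lit 76) (nat_lit 13073131832)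 (nat_lit 82) (nat_lit 5) (nat_lit 86) (nat_lit 5) (nat_lit 83) (nat_lit 5) (nat_lit 501) (nat_lit 395) (nat_lit 244)) (XT.lf (nat_lit 0) (nat_lit 4803231307) (nat_lit 304) (nat_lit 324819023) (nat_lit 380) (nat_lit 14710574205) (nat_lit 78) (nat_lit 5) (nat_lit 82) (nat_lit 5) (nat_lit 83) (nat_lit 5) (nat_lit 502) (nat_lit 395) (nat_lit 243)))) (XT.nd (nat_lit 51012) (nat_lit 0) (nat_lit 38836) (XT.lf (nat_lit 0) (nat_lit 9635966258) (nat_lit 380) (nat_lit 4537713012) (nat_lit 76) (nat_lit 5930720027) (nat_lit 78) (nat_lit 5) (nat_lit 83) (nat_lit 5) (nat_lit 79) (nat_lit 5) (nat_lit 503) (nat_lit 395) (nat_lit 242)) (XT.nd (nat_lit 78) (nat_lit 988) (nat_lit 0) (XT.lf (nat_lit 0) (nat_lit 2975722074) (nat_lit 988) (nat_lit 246083179) (nat_lit 988) (nat_lit 246083179) (nat_lit 602) (nat_lit 3) (nat_lit 615) (nat_lit 3) (nat_lit 615) (nat_lit 5) (nat_lit 396) (nat_lit 396) (nat_lit 348)) (XT.lf (nat_lit 0) (nat_lit 876464554)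 (nat_lit 988) (nat_lit 4110433720) (nat_lit 1064) (nat_lit 1980149306) (nat_lit 589) (nat_lit 5) (nat_lit 602) (nat_lit 3) (nat_lit 603) (nat_lit 5) (nat_lit 397) (nat_lit 396) (nat_lit 347))))))))
noncomputable def xc138 : XT := (XT.nd (nat_lit 1638) (nat_lit 14972) (nat_lit 0) (XT.nd (nat_lit 780) (nat_lit 3572) (nat_lit 0) (XT.nd (nat_lit 390) (nat_lit 1064) (nat_lit 0) (XT.nd (nat_lit 156) (nat_lit 988) (nat_lit 0) (XT.nd (nat_lit 78) (nat_lit 0) (nat_lit 0) (XT.lf (nat_lit 0) (nat_lit 2716237766) (nat_lit 988) (nat_lit 751810929) (nat_lit 1064) (nat_lit 3531693991) (nat_lit 589) (nat_lit 5) (nat_lit 602) (nat_lit 3) (nat_lit 603) (nat_lit 5) (nat_lit 398) (nat_lit 396) (nat_lit 346)) (XT.lf (nat_lit 76) (nat_lit 2684253716) (nat_lit 0) (nat_lit 1878532958) (nat_lit 1064) (nat_lit 2470932782) (nat_lit 590) (nat_lit 5) (nat_lit 589) (nat_lit 5) (nat_lit 603) (nat_lit 5) (nat_lit 399) (nat_lit 396) (nat_lit 345)))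 (XT.nd (nat_lit 78) (nat_lit 988) (nat_lit 0) (XT.lf (nat_lit 76) (nat_lit 6174459625) (nat_lit 0) (nat_lit 230173776) (nat_lit 1064) (nat_lit 664601851) (nat_lit 590) (nat_lit 5) (nat_lit 589) (nat_lit 5) (nat_lit 603) (nat_lit 5) (nat_lit 400) (nat_lit 396) (nat_lit 344)) (XT.nd (nat_lit 78) (nat_lit 0) (nat_lit 0) (XT.lf (nat_lit 0) (nat_lit 1143120814) (nat_lit 1064) (nat_lit 4484694952) (nat_lit 1140) (nat_lit 1477904178) (nat_lit 576) (nat_lit 5) (nat_lit 590) (nat_lit 5) (nat_lit 591) (nat_lit 5) (nat_lit 401) (nat_lit 396) (nat_lit 343)) (XT.lf (nat_lit 0) (nat_lit 2940460460) (nat_lit 1064) (nat_lit 955334738) (nat_lit 1140) (nat_lit 3247829321) (nat_lit 576) (nat_lit 5) (nat_lit 590) (nat_lit 5) (nat_lit 591) (nat_lit 5) (nat_lit 402) (nat_lit 396) (nat_lit 342))))) (XT.nd (nat_lit 156) (nat_lit 1064) (nat_lit 0) (XT.nd (nat_lit 78) (nat_lit 0) (nat_lit 0) (XT.lf (nat_lit 76) (nat_lit 2654102484) (nat_lit 0)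 (nat_lit 2092547899) (nat_lit 1140) (nat_lit 2436203519) (nat_lit 577) (nat_lit 5) (nat_lit 576) (nat_lit 5) (nat_lit 591) (nat_lit 5) (nat_lit 403) (nat_lit 396) (nat_lit 341)) (XT.lf (nat_lit 76) (nat_lit 6323525612) (nat_lit 0) (nat_lit 228226465) (nat_lit 1140) (nat_lit 671884334) (nat_lit 577) (nat_lit 5) (nat_lit 576) (nat_lit 5) (nat_lit 591) (nat_lit 5) (nat_lit 404) (nat_lit 396) (nat_lit 340))) (XT.nd (nat_lit 78) (nat_lit 0) (nat_lit 0) (XT.lf (nat_lit 0) (nat_lit 1099220240) (nat_lit 1140) (nat_lit 4471440490) (nat_lit 1216) (nat_lit 1694724973) (nat_lit 562) (nat_lit 5) (nat_lit 577) (nat_lit 5) (nat_lit 578) (nat_lit 5) (nat_lit 405) (nat_lit 396) (nat_lit 339)) (XT.nd (nat_lit 78) (nat_lit 0) (nat_lit 0) (XT.lf (nat_lit 0) (nat_lit 2862070264) (nat_lit 1140) (nat_lit 765838784) (nat_lit 1216) (nat_lit 3680688610) (nat_lit 562) (nat_lit 5) (nat_lit 577) (nat_lit 5) (nat_lit 578) (nat_lit 5) (nat_lit 406)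 (nat_lit 396) (nat_lit 338)) (XT.lf (nat_lit 76) (nat_lit 3028027102) (nat_lit 0) (nat_lit 1610358996) (nat_lit 1216) (nat_lit 2714746026) (nat_lit 563) (nat_lit 5) (nat_lit 562) (nat_lit 5) (nat_lit 578) (nat_lit 5) (nat_lit 407) (nat_lit 396) (nat_lit 337)))))) (XT.nd (nat_lit 390) (nat_lit 2432) (nat_lit 0) (XT.nd (nat_lit 156) (nat_lit 0) (nat_lit 0) (XT.nd (nat_lit 78) (nat_lit 1216) (nat_lit 0) (XT.lf (nat_lit 0) (nat_lit 6417604012) (nat_lit 1140) (nat_lit 519573754) (nat_lit 1216) (nat_lit 462054007) (nat_lit 563) (nat_lit 5) (nat_lit 578) (nat_lit 5) (nat_lit 579) (nat_lit 5) (nat_lit 408) (nat_lit 396) (nat_lit 336)) (XT.lf (nat_lit 0) (nat_lit 768410695) (nat_lit 1216) (nat_lit 4081693368) (nat_lit 1292) (nat_lit 2596217054) (nat_lit 547) (nat_lit 5) (nat_lit 563) (nat_lit 5) (nat_lit 564) (nat_lit 5) (nat_lit 409) (nat_lit 396) (nat_lit 335))) (XT.nd (nat_lit 78) (nat_lit 0) (nat_lit 0) (XT.lf (nat_lit 0)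 (nat_lit 2504257703) (nat_lit 1216) (nat_lit 193441626) (nat_lit 1292) (nat_lit 4797264851) (nat_lit 547) (nat_lit 5) (nat_lit 563) (nat_lit 5) (nat_lit 564) (nat_lit 5) (nat_lit 410) (nat_lit 396) (nat_lit 334)) (XT.nd (nat_lit 78) (nat_lit 0) (nat_lit 76) (XT.lf (nat_lit 76) (nat_lit 3796691581) (nat_lit 0) (nat_lit 463986384) (nat_lit 1292) (nat_lit 3284205346) (nat_lit 548) (nat_lit 5) (nat_lit 547) (nat_lit 5) (nat_lit 564) (nat_lit 5) (nat_lit 411) (nat_lit 396) (nat_lit 333)) (XT.lf (nat_lit 76) (nat_lit 238437766) (nat_lit 0) (nat_lit 5790307069) (nat_lit 1292) (nat_lit 1567545559) (nat_lit 549) (nat_lit 5) (nat_lit 548) (nat_lit 5) (nat_lit 565) (nat_lit 5) (nat_lit 412) (nat_lit 396) (nat_lit 332))))) (XT.nd (nat_lit 234) (nat_lit 1216) (nat_lit 0) (XT.nd (nat_lit 78) (nat_lit 0) (nat_lit 0) (XT.lf (nat_lit 0) (nat_lit 171625643) (nat_lit 1292) (nat_lit 3323768707) (nat_lit 1368) (nat_lit 4153514924) (nat_lit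 531) (nat_lit 5) (nat_lit 548) (nat_lit 5) (nat_lit 549) (nat_lit 5) (nat_lit 413) (nat_lit 396) (nat_lit 331)) (XT.nd (nat_lit 78) (nat_lit 0) (nat_lit 76) (XT.lf (nat_lit 76) (nat_lit 764442258) (nat_lit 0) (nat_lit 1128065284) (nat_lit 1368) (nat_lit 5810526209) (nat_lit 532) (nat_lit 5) (nat_lit 531) (nat_lit 5) (nat_lit 549) (nat_lit 5) (nat_lit 414) (nat_lit 396) (nat_lit 330)) (XT.lf (nat_lit 0) (nat_lit 3642172233) (nat_lit 1292) (nat_lit 2813667475) (nat_lit 1368) (nat_lit 1302532124) (nat_lit 532) (nat_lit 5) (nat_lit 549) (nat_lit 5) (nat_lit 550) (nat_lit 5) (nat_lit 415) (nat_lit 396) (nat_lit 329)))) (XT.nd (nat_lit 78) (nat_lit 1292) (nat_lit 0) (XT.lf (nat_lit 76) (nat_lit 1378040380) (nat_lit 0) (nat_lit 4029481814) (nat_lit 1368) (nat_lit 2407698695) (nat_lit 533) (nat_lit 5) (nat_lit 532) (nat_lit 5) (nat_lit 550) (nat_lit 5) (nat_lit 416) (nat_lit 396) (nat_lit 328)) (XT.nd (nat_lit 78) (nat_lit 1292)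 (nat_lit 0) (XT.lf (nat_lit 76) (nat_lit 5665578274) (nat_lit 0) (nat_lit 1526287023) (nat_lit 1368) (nat_lit 681685607) (nat_lit 533) (nat_lit 5) (nat_lit 532) (nat_lit 5) (nat_lit 550) (nat_lit 5) (nat_lit 417) (nat_lit 396) (nat_lit 327)) (XT.lf (nat_lit 0) (nat_lit 1050444664) (nat_lit 1368) (nat_lit 5839957663) (nat_lit 76) (nat_lit 1042807191) (nat_lit 515) (nat_lit 5) (nat_lit 533) (nat_lit 5) (nat_lit 516) (nat_lit 5) (nat_lit 418) (nat_lit 396) (nat_lit 326))))))) (XT.nd (nat_lit 780) (nat_lit 7220) (nat_lit 0) (XT.nd (nat_lit 390) (nat_lit 3344) (nat_lit 0) (XT.nd (nat_lit 156) (nat_lit 3040) (nat_lit 0) (XT.nd (nat_lit 78) (nat_lit 1368) (nat_lit 0) (XT.lf (nat_lit 0) (nat_lit 2798937222) (nat_lit 1368) (nat_lit 1524748805) (nat_lit 76) (nat_lit 3670484888) (nat_lit 515) (nat_lit 5) (nat_lit 533) (nat_lit 5) (nat_lit 516) (nat_lit 5) (nat_lit 419) (nat_lit 396) (nat_lit 325)) (XT.lf (nat_lit 0) (nat_lit 2888476671)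 (nat_lit 1368) (nat_lit 1679163410) (nat_lit 1444) (nat_lit 3489023004) (nat_lit 497) (nat_lit 5) (nat_lit 515) (nat_lit 5) (nat_lit 516) (nat_lit 5) (nat_lit 420) (nat_lit 396) (nat_lit 324))) (XT.nd (nat_lit 78) (nat_lit 3040) (nat_lit 0) (XT.lf (nat_lit 0) (nat_lit 6355648272) (nat_lit 1444) (nat_lit 742964777) (nat_lit 76) (nat_lit 1022129455) (nat_lit 497) (nat_lit 5) (nat_lit 516) (nat_lit 5) (nat_lit 498) (nat_lit 5) (nat_lit 421) (nat_lit 396) (nat_lit 323)) (XT.nd (nat_lit 78) (nat_lit 1596) (nat_lit 0) (XT.lf (nat_lit 0) (nat_lit 3783060015) (nat_lit 1444) (nat_lit 4399706186) (nat_lit 1520) (nat_lit 3286036) (nat_lit 478) (nat_lit 5) (nat_lit 497) (nat_lit 5) (nat_lit 498) (nat_lit 5) (nat_lit 422) (nat_lit 396) (nat_lit 322)) (XT.lf (nat_lit 0) (nat_lit 120543823) (nat_lit 1520) (nat_lit 1623396299) (nat_lit 1596) (nat_lit 6509036080) (nat_lit 457) (nat_lit 5) (nat_lit 477) (nat_lit 5) (nat_lit 478) (nat_lit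 5) (nat_lit 423) (nat_lit 396) (nat_lit 321))))) (XT.nd (nat_lit 156) (nat_lit 1748) (nat_lit 0) (XT.nd (nat_lit 78) (nat_lit 1596) (nat_lit 0) (XT.lf (nat_lit 0) (nat_lit 3532054106) (nat_lit 1596) (nat_lit 3561450714) (nat_lit 76) (nat_lit 1227628458) (nat_lit 457) (nat_lit 5) (nat_lit 478) (nat_lit 5) (nat_lit 458) (nat_lit 5) (nat_lit 424) (nat_lit 396) (nat_lit 320)) (XT.lf (nat_lit 0) (nat_lit 1077891377) (nat_lit 1596) (nat_lit 4264807169) (nat_lit 1672) (nat_lit 3048234105) (nat_lit 436) (nat_lit 5) (nat_lit 457) (nat_lit 5) (nat_lit 458) (nat_lit 5) (nat_lit 425) (nat_lit 396) (nat_lit 319))) (XT.nd (nat_lit 78) (nat_lit 1748) (nat_lit 0) (XT.lf (nat_lit 0) (nat_lit 5832025715) (nat_lit 1596) (nat_lit 1350885098) (nat_lit 1672) (nat_lit 1279364337) (nat_lit 436) (nat_lit 5) (nat_lit 457) (nat_lit 5) (nat_lit 458) (nat_lit 5) (nat_lit 426) (nat_lit 396) (nat_lit 318)) (XT.nd (nat_lit 78) (nat_lit 0) (nat_lit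 0) (XT.lf (nat_lit 0) (nat_lit 512433903) (nat_lit 1748) (nat_lit 6401233222) (nat_lit 76) (nat_lit 1621434198) (nat_lit 413) (nat_lit 5) (nat_lit 436) (nat_lit 5) (nat_lit 414) (nat_lit 5) (nat_lit 427) (nat_lit 396) (nat_lit 317)) (XT.lf (nat_lit 0) (nat_lit 2319956275) (nat_lit 1748) (nat_lit 1624275603) (nat_lit 76) (nat_lit 4665056048) (nat_lit 413) (nat_lit 5) (nat_lit 436) (nat_lit 5) (nat_lit 414) (nat_lit 5) (nat_lit 428) (nat_lit 396) (nat_lit 316)))))) (XT.nd (nat_lit 390) (nat_lit 3420) (nat_lit 0) (XT.nd (nat_lit 156) (nat_lit 2052) (nat_lit 0) (XT.nd (nat_lit 78) (nat_lit 0) (nat_lit 0) (XT.lf (nat_lit 0) (nat_lit 3264932978) (nat_lit 1748) (nat_lit 890766124) (nat_lit 1824) (nat_lit 4529430911) (nat_lit 390) (nat_lit 5) (nat_lit 413) (nat_lit 5) (nat_lit 414) (nat_lit 5) (nat_lit 429) (nat_lit 396) (nat_lit 315)) (XT.lf (nat_lit 0) (nat_lit 6024859642) (nat_lit 1824) (nat_lit 529380217) (nat_lit 76) (nat_lit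 2208327920) (nat_lit 390) (nat_lit 5) (nat_lit 414) (nat_lit 5) (nat_lit 391) (nat_lit 5) (nat_lit 430) (nat_lit 396) (nat_lit 314))) (XT.nd (nat_lit 78) (nat_lit 988) (nat_lit 0) (XT.lf (nat_lit 0) (nat_lit 4486169056) (nat_lit 1064) (nat_lit 3452116266) (nat_lit 1140) (nat_lit 903143979) (nat_lit 376) (nat_lit 5) (nat_lit 390) (nat_lit 5) (nat_lit 391) (nat_lit 5) (nat_lit 431) (nat_lit 396) (nat_lit 313)) (XT.nd (nat_lit 78) (nat_lit 0) (nat_lit 0) (XT.lf (nat_lit 0) (nat_lit 663567694) (nat_lit 912) (nat_lit 271774648) (nat_lit 988) (nat_lit 7986813594) (nat_lit 363) (nat_lit 5) (nat_lit 375) (nat_lit 5) (nat_lit 376) (nat_lit 5) (nat_lit 432) (nat_lit 396) (nat_lit 312)) (XT.lf (nat_lit 0) (nat_lit 2819665929) (nat_lit 988) (nat_lit 3214210525) (nat_lit 76) (nat_lit 2970089953) (nat_lit 363) (nat_lit 5) (nat_lit 376) (nat_lit 5) (nat_lit 364) (nat_lit 5) (nat_lit 433) (nat_lit 396) (nat_lit 311))))) (XT.nd (nat_lit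 234) (nat_lit 1748) (nat_lit 0) (XT.nd (nat_lit 78) (nat_lit 836) (nat_lit 0) (XT.lf (nat_lit 0) (nat_lit 1928434052) (nat_lit 836) (nat_lit 2800535351) (nat_lit 912) (nat_lit 4358709495) (nat_lit 352) (nat_lit 5) (nat_lit 363) (nat_lit 5) (nat_lit 364) (nat_lit 5) (nat_lit 434) (nat_lit 396) (nat_lit 310)) (XT.nd (nat_lit 78) (nat_lit 836) (nat_lit 0) (XT.lf (nat_lit 0) (nat_lit 6674739888) (nat_lit 912) (nat_lit 1984996325) (nat_lit 76) (nat_lit 513375256) (nat_lit 352) (nat_lit 5) (nat_lit 364) (nat_lit 5) (nat_lit 353) (nat_lit 5) (nat_lit 435) (nat_lit 396) (nat_lit 309)) (XT.lf (nat_lit 0) (nat_lit 3291386827) (nat_lit 836) (nat_lit 5381817309) (nat_lit 912) (nat_lit 586784214) (nat_lit 341) (nat_lit 5) (nat_lit 352) (nat_lit 5) (nat_lit 353) (nat_lit 5) (nat_lit 436) (nat_lit 396) (nat_lit 308)))) (XT.nd (nat_lit 78) (nat_lit 1672) (nat_lit 0) (XT.lf (nat_lit 0) (nat_lit 1332592258) (nat_lit 912) (nat_lit 683225508)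 (nat_lit 76) (nat_lit 7332870120) (nat_lit 340) (nat_lit 5) (nat_lit 352) (nat_lit 5) (nat_lit 341) (nat_lit 5) (nat_lit 437) (nat_lit 396) (nat_lit 307)) (XT.nd (nat_lit 78) (nat_lit 836) (nat_lit 0) (XT.lf (nat_lit 0) (nat_lit 3297251348) (nat_lit 912) (nat_lit 4707918351) (nat_lit 76) (nat_lit 1433629675) (nat_lit 329) (nat_lit 5) (nat_lit 341) (nat_lit 5) (nat_lit 330) (nat_lit 5) (nat_lit 438) (nat_lit 396) (nat_lit 306)) (XT.lf (nat_lit 0) (nat_lit 701747785) (nat_lit 836) (nat_lit 4596843230) (nat_lit 912) (nat_lit 4232184702) (nat_lit 318) (nat_lit 5) (nat_lit 329) (nat_lit 5) (nat_lit 330) (nat_lit 5) (nat_lit 439) (nat_lit 396) (nat_lit 305))))))))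
noncomputable def xc139 : XT := (XT.nd (nat_lit 1638) (nat_lit 5852) (nat_lit 0) (XT.nd (nat_lit 780) (nat_lit 4408) (nat_lit 0) (XT.nd (nat_lit 390) (nat_lit 2204) (nat_lit 0) (XT.nd (nat_lit 156) (nat_lit 836) (nat_lit 0) (XT.nd (nat_lit 78) (nat_lit 760) (nat_lit 0) (XT.lf (nat_lit 0) (nat_lit 6257610069) (nat_lit 836) (nat_lit 1089131462) (nat_lit 912) (nat_lit 2277724539) (nat_lit 318) (nat_lit 5) (nat_lit 329) (nat_lit 5) (nat_lit 330) (nat_lit 5) (nat_lit 440) (nat_lit 396) (nat_lit 304)) (XT.lf (nat_lit 0) (nat_lit 2191342607) (nat_lit 760) (nat_lit 7250570102) (nat_lit 836) (nat_lit 278006336) (nat_lit 308) (nat_lit 5) (nat_lit 318) (nat_lit 5) (nat_lit 319) (nat_lit 5) (nat_lit 441) (nat_lit 396) (nat_lit 303))) (XT.nd (nat_lit 78) (nat_lit 760) (nat_lit 0) (XT.lf (nat_lit 0) (nat_lit 1744370345) (nat_lit 836) (nat_lit 1955245363) (nat_lit 76) (nat_lit 6117330805) (nat_lit 307) (nat_lit 5) (nat_lit 318) (nat_lit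 5) (nat_lit 308) (nat_lit 5) (nat_lit 442) (nat_lit 396) (nat_lit 302)) (XT.nd (nat_lit 78) (nat_lit 0) (nat_lit 0) (XT.lf (nat_lit 0) (nat_lit 3751461959) (nat_lit 760) (nat_lit 52658220) (nat_lit 836) (nat_lit 6111754030) (nat_lit 297) (nat_lit 5) (nat_lit 307) (nat_lit 5) (nat_lit 308) (nat_lit 5) (nat_lit 443) (nat_lit 396) (nat_lit 301)) (XT.lf (nat_lit 0) (nat_lit 5918659079) (nat_lit 836) (nat_lit 467356009) (nat_lit 76) (nat_lit 3630502696) (nat_lit 297) (nat_lit 5) (nat_lit 308) (nat_lit 5) (nat_lit 298) (nat_lit 5) (nat_lit 444) (nat_lit 396) (nat_lit 300))))) (XT.nd (nat_lit 156) (nat_lit 684) (nat_lit 0) (XT.nd (nat_lit 78) (nat_lit 836) (nat_lit 0) (XT.lf (nat_lit 0) (nat_lit 5388723347) (nat_lit 684) (nat_lit 2699136902) (nat_lit 760) (nat_lit 2031075580) (nat_lit 288) (nat_lit 5) (nat_lit 297) (nat_lit 5) (nat_lit 298) (nat_lit 5) (nat_lit 445) (nat_lit 396) (nat_lit 299)) (XT.lf (nat_lit 0) (nat_lit 70664017)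 (nat_lit 836) (nat_lit 9096714928) (nat_lit 76) (nat_lit 1056129338) (nat_lit 277) (nat_lit 5) (nat_lit 288) (nat_lit 5) (nat_lit 278) (nat_lit 5) (nat_lit 446) (nat_lit 396) (nat_lit 298))) (XT.nd (nat_lit 78) (nat_lit 684) (nat_lit 0) (XT.lf (nat_lit 0) (nat_lit 2214526044) (nat_lit 836) (nat_lit 3221679484) (nat_lit 76) (nat_lit 4893160983) (nat_lit 277) (nat_lit 5) (nat_lit 288) (nat_lit 5) (nat_lit 278) (nat_lit 5) (nat_lit 447) (nat_lit 396) (nat_lit 297)) (XT.nd (nat_lit 78) (nat_lit 0) (nat_lit 0) (XT.lf (nat_lit 0) (nat_lit 2782184137) (nat_lit 684) (nat_lit 1615018300) (nat_lit 760) (nat_lit 6040229063) (nat_lit 268) (nat_lit 5) (nat_lit 277) (nat_lit 5) (nat_lit 278) (nat_lit 5) (nat_lit 448) (nat_lit 396) (nat_lit 296)) (XT.lf (nat_lit 0) (nat_lit 6638239321) (nat_lit 760) (nat_lit 1637813669) (nat_lit 76) (nat_lit 2271318837) (nat_lit 268) (nat_lit 5) (nat_lit 278) (nat_lit 5) (nat_lit 269) (nat_lit 5) (nat_lit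 449) (nat_lit 396) (nat_lit 295)))))) (XT.nd (nat_lit 390) (nat_lit 2432) (nat_lit 0) (XT.nd (nat_lit 156) (nat_lit 608) (nat_lit 0) (XT.nd (nat_lit 78) (nat_lit 684) (nat_lit 0) (XT.lf (nat_lit 0) (nat_lit 4523679805) (nat_lit 684) (nat_lit 4419036800) (nat_lit 760) (nat_lit 1716429980) (nat_lit 259) (nat_lit 5) (nat_lit 268) (nat_lit 5) (nat_lit 269) (nat_lit 5) (nat_lit 450) (nat_lit 396) (nat_lit 294)) (XT.lf (nat_lit 0) (nat_lit 29555397) (nat_lit 608) (nat_lit 473670071) (nat_lit 684) (nat_lit 10270073125) (nat_lit 250) (nat_lit 5) (nat_lit 258) (nat_lit 5) (nat_lit 259) (nat_lit 5) (nat_lit 451) (nat_lit 396) (nat_lit 293))) (XT.nd (nat_lit 78) (nat_lit 608) (nat_lit 0) (XT.lf (nat_lit 0) (nat_lit 2787707466) (nat_lit 684) (nat_lit 4547846093) (nat_lit 76) (nat_lit 3553092395) (nat_lit 250) (nat_lit 5) (nat_lit 259) (nat_lit 5) (nat_lit 251) (nat_lit 5) (nat_lit 452) (nat_lit 396) (nat_lit 292)) (XT.nd (nat_lit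 78) (nat_lit 0) (nat_lit 0) (XT.lf (nat_lit 0) (nat_lit 1767216132) (nat_lit 608) (nat_lit 3344584781) (nat_lit 684) (nat_lit 5894628321) (nat_lit 242) (nat_lit 5) (nat_lit 250) (nat_lit 5) (nat_lit 251) (nat_lit 5) (nat_lit 453) (nat_lit 396) (nat_lit 291)) (XT.lf (nat_lit 0) (nat_lit 7497341322) (nat_lit 684) (nat_lit 2885667177) (nat_lit 76) (nat_lit 743267638) (nat_lit 242) (nat_lit 5) (nat_lit 251) (nat_lit 5) (nat_lit 243) (nat_lit 5) (nat_lit 454) (nat_lit 396) (nat_lit 290))))) (XT.nd (nat_lit 234) (nat_lit 1140) (nat_lit 0) (XT.nd (nat_lit 78) (nat_lit 684) (nat_lit 0) (XT.lf (nat_lit 0) (nat_lit 3595426214) (nat_lit 608) (nat_lit 6360590716) (nat_lit 684) (nat_lit 1292001679) (nat_lit 234) (nat_lit 5) (nat_lit 242) (nat_lit 5) (nat_lit 243) (nat_lit 5) (nat_lit 455) (nat_lit 396) (nat_lit 289)) (XT.nd (nat_lit 78) (nat_lit 608) (nat_lit 0) (XT.lf (nat_lit 0) (nat_lit 1076873252) (nat_lit 684) (nat_lit 1158406714)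 (nat_lit 76) (nat_lit 9136790638) (nat_lit 233) (nat_lit 5) (nat_lit 242) (nat_lit 5) (nat_lit 234) (nat_lit 5) (nat_lit 456) (nat_lit 396) (nat_lit 288)) (XT.lf (nat_lit 0) (nat_lit 3505075332) (nat_lit 684) (nat_lit 6006035531) (nat_lit 76) (nat_lit 1986743689) (nat_lit 225) (nat_lit 5) (nat_lit 234) (nat_lit 5) (nat_lit 226) (nat_lit 5) (nat_lit 457) (nat_lit 396) (nat_lit 287)))) (XT.nd (nat_lit 78) (nat_lit 608) (nat_lit 0) (XT.lf (nat_lit 0) (nat_lit 633850630) (nat_lit 532) (nat_lit 5355351949) (nat_lit 608) (nat_lit 5636810956) (nat_lit 218) (nat_lit 5) (nat_lit 225) (nat_lit 5) (nat_lit 226) (nat_lit 5) (nat_lit 458) (nat_lit 396) (nat_lit 286)) (XT.nd (nat_lit 78) (nat_lit 608) (nat_lit 0) (XT.lf (nat_lit 0) (nat_lit 7463747329) (nat_lit 532) (nat_lit 1080409191) (nat_lit 608) (nat_lit 3212162741) (nat_lit 218) (nat_lit 5) (nat_lit 225) (nat_lit 5) (nat_lit 226) (nat_lit 5) (nat_lit 459) (nat_lit 396) (nat_lit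 285)) (XT.lf (nat_lit 0) (nat_lit 2528804473) (nat_lit 608) (nat_lit 8640303968) (nat_lit 684) (nat_lit 719751003) (nat_lit 210) (nat_lit 5) (nat_lit 218) (nat_lit 5) (nat_lit 219) (nat_lit 5) (nat_lit 460) (nat_lit 396) (nat_lit 284))))))) (XT.nd (nat_lit 858) (nat_lit 2660) (nat_lit 0) (XT.nd (nat_lit 390) (nat_lit 1520) (nat_lit 0) (XT.nd (nat_lit 156) (nat_lit 1064) (nat_lit 0) (XT.nd (nat_lit 78) (nat_lit 532) (nat_lit 0) (XT.lf (nat_lit 0) (nat_lit 1816026064) (nat_lit 684) (nat_lit 2522030283) (nat_lit 76) (nat_lit 7685415107) (nat_lit 209) (nat_lit 5) (nat_lit 218) (nat_lit 5) (nat_lit 210) (nat_lit 5) (nat_lit 461) (nat_lit 396) (nat_lit 283)) (XT.lf (nat_lit 0) (nat_lit 4404148954) (nat_lit 608) (nat_lit 7677901126) (nat_lit 76) (nat_lit 78411075) (nat_lit 202) (nat_lit 5) (nat_lit 210) (nat_lit 5) (nat_lit 203) (nat_lit 5) (nat_lit 462) (nat_lit 396) (nat_lit 282))) (XT.nd (nat_lit 78) (nat_lit 1064) (nat_lit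 0) (XT.lf (nat_lit 0) (nat_lit 7071607351) (nat_lit 608) (nat_lit 691140875) (nat_lit 76) (nat_lit 4536896804) (nat_lit 202) (nat_lit 5) (nat_lit 210) (nat_lit 5) (nat_lit 203) (nat_lit 5) (nat_lit 463) (nat_lit 396) (nat_lit 281)) (XT.nd (nat_lit 78) (nat_lit 532) (nat_lit 0) (XT.lf (nat_lit 0) (nat_lit 6497157430) (nat_lit 532) (nat_lit 3319606015) (nat_lit 608) (nat_lit 2624367890) (nat_lit 195) (nat_lit 5) (nat_lit 202) (nat_lit 5) (nat_lit 203) (nat_lit 5) (nat_lit 464) (nat_lit 396) (nat_lit 280)) (XT.lf (nat_lit 0) (nat_lit 33882635) (nat_lit 532) (nat_lit 11347624416) (nat_lit 76) (nat_lit 1203883369) (nat_lit 188) (nat_lit 5) (nat_lit 195) (nat_lit 5) (nat_lit 189) (nat_lit 5) (nat_lit 465) (nat_lit 396) (nat_lit 279))))) (XT.nd (nat_lit 234) (nat_lit 988) (nat_lit 0) (XT.nd (nat_lit 78) (nat_lit 532) (nat_lit 0) (XT.lf (nat_lit 0) (nat_lit 2754726435) (nat_lit 532) (nat_lit 4151312900) (nat_lit 76) (nat_lit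 5825262433) (nat_lit 188) (nat_lit 5) (nat_lit 195) (nat_lit 5) (nat_lit 189) (nat_lit 5) (nat_lit 466) (nat_lit 396) (nat_lit 278)) (XT.nd (nat_lit 78) (nat_lit 0) (nat_lit 0) (XT.lf (nat_lit 0) (nat_lit 3207799056) (nat_lit 532) (nat_lit 2325760517) (nat_lit 608) (nat_lit 7346505610) (nat_lit 181) (nat_lit 5) (nat_lit 188) (nat_lit 5) (nat_lit 189) (nat_lit 5) (nat_lit 467) (nat_lit 396) (nat_lit 277)) (XT.lf (nat_lit 0) (nat_lit 8394139148) (nat_lit 608) (nat_lit 2299650138) (nat_lit 76) (nat_lit 2337496370) (nat_lit 181) (nat_lit 5) (nat_lit 189) (nat_lit 5) (nat_lit 182) (nat_lit 5) (nat_lit 468) (nat_lit 396) (nat_lit 276)))) (XT.nd (nat_lit 78) (nat_lit 532) (nat_lit 0) (XT.lf (nat_lit 0) (nat_lit 5250989601) (nat_lit 456) (nat_lit 6093666595) (nat_lit 532) (nat_lit 1840224908) (nat_lit 175) (nat_lit 5) (nat_lit 181) (nat_lit 5) (nat_lit 182) (nat_lit 5) (nat_lit 469) (nat_lit 396) (nat_lit 275)) (XT.nd (nat_lit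 78) (nat_lit 456) (nat_lit 0) (XT.lf (nat_lit 0) (nat_lit 998185253) (nat_lit 532) (nat_lit 387072323) (nat_lit 76) (nat_lit 11956187659) (nat_lit 174) (nat_lit 5) (nat_lit 181) (nat_lit 5) (nat_lit 175) (nat_lit 5) (nat_lit 470) (nat_lit 396) (nat_lit 274)) (XT.lf (nat_lit 0) (nat_lit 3922784108) (nat_lit 532) (nat_lit 6150146658) (nat_lit 76) (nat_lit 3426890171) (nat_lit 168) (nat_lit 5) (nat_lit 175) (nat_lit 5) (nat_lit 169) (nat_lit 5) (nat_lit 471) (nat_lit 396) (nat_lit 273)))))) (XT.nd (nat_lit 390) (nat_lit 1292) (nat_lit 0) (XT.nd (nat_lit 156) (nat_lit 912) (nat_lit 0) (XT.nd (nat_lit 78) (nat_lit 0) (nat_lit 0) (XT.lf (nat_lit 0) (nat_lit 1573880947) (nat_lit 456) (nat_lit 5337761462) (nat_lit 532) (nat_lit 6749611092) (nat_lit 162) (nat_lit 5) (nat_lit 168) (nat_lit 5) (nat_lit 169) (nat_lit 5) (nat_lit 472) (nat_lit 396) (nat_lit 272)) (XT.lf (nat_lit 0) (nat_lit 9513244874) (nat_lit 456) (nat_lit 472236231)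 (nat_lit 532) (nat_lit 3839934152) (nat_lit 162) (nat_lit 5) (nat_lit 168) (nat_lit 5) (nat_lit 169) (nat_lit 5) (nat_lit 473) (nat_lit 396) (nat_lit 271))) (XT.nd (nat_lit 78) (nat_lit 456) (nat_lit 0) (XT.lf (nat_lit 0) (nat_lit 3614435613) (nat_lit 456) (nat_lit 9543190765) (nat_lit 532) (nat_lit 834501786) (nat_lit 156) (nat_lit 5) (nat_lit 162) (nat_lit 5) (nat_lit 163) (nat_lit 5) (nat_lit 474) (nat_lit 396) (nat_lit 270)) (XT.nd (nat_lit 78) (nat_lit 380) (nat_lit 0) (XT.lf (nat_lit 0) (nat_lit 2218298913) (nat_lit 532) (nat_lit 2443789344) (nat_lit 76) (nat_lit 9499471301) (nat_lit 155) (nat_lit 5) (nat_lit 162) (nat_lit 5) (nat_lit 156) (nat_lit 5) (nat_lit 475) (nat_lit 396) (nat_lit 269)) (XT.lf (nat_lit 0) (nat_lit 5344841832) (nat_lit 456) (nat_lit 8640142775) (nat_lit 76) (nat_lit 348811702) (nat_lit 150) (nat_lit 5) (nat_lit 156) (nat_lit 5) (nat_lit 151) (nat_lit 5) (nat_lit 476) (nat_lit 396) (nat_lit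 268))))) (XT.nd (nat_lit 234) (nat_lit 380) (nat_lit 0) (XT.nd (nat_lit 78) (nat_lit 912) (nat_lit 0) (XT.lf (nat_lit 0) (nat_lit 8565988972) (nat_lit 456) (nat_lit 535259172) (nat_lit 76) (nat_lit 5407592355) (nat_lit 150) (nat_lit 5) (nat_lit 156) (nat_lit 5) (nat_lit 151) (nat_lit 5) (nat_lit 477) (nat_lit 396) (nat_lit 267)) (XT.nd (nat_lit 78) (nat_lit 456) (nat_lit 0) (XT.lf (nat_lit 0) (nat_lit 7812520521) (nat_lit 456) (nat_lit 4074753667) (nat_lit 532) (nat_lit 2799401170) (nat_lit 144) (nat_lit 5) (nat_lit 150) (nat_lit 5) (nat_lit 151) (nat_lit 5) (nat_lit 478) (nat_lit 396) (nat_lit 266)) (XT.lf (nat_lit 0) (nat_lit 406620392) (nat_lit 456) (nat_lit 13413656169) (nat_lit 76) (nat_lit 1047640664) (nat_lit 138) (nat_lit 5) (nat_lit 144) (nat_lit 5) (nat_lit 139) (nat_lit 5) (nat_lit 479) (nat_lit 396) (nat_lit 265)))) (XT.nd (nat_lit 78) (nat_lit 380) (nat_lit 0) (XT.lf (nat_lit 0) (nat_lit 3697885694) (nat_lit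 456) (nat_lit 5077102151) (nat_lit 76) (nat_lit 6276257709) (nat_lit 138) (nat_lit 5) (nat_lit 144) (nat_lit 5) (nat_lit 139) (nat_lit 5) (nat_lit 480) (nat_lit 396) (nat_lit 264)) (XT.nd (nat_lit 78) (nat_lit 0) (nat_lit 0) (XT.lf (nat_lit 0) (nat_lit 3450021426) (nat_lit 380) (nat_lit 3612798274) (nat_lit 456) (nat_lit 8175267660) (nat_lit 133) (nat_lit 5) (nat_lit 138) (nat_lit 5) (nat_lit 139) (nat_lit 5) (nat_lit 481) (nat_lit 396) (nat_lit 263)) (XT.lf (nat_lit 0) (nat_lit 10525624412) (nat_lit 456) (nat_lit 3243946977) (nat_lit 76) (nat_lit 1658486875) (nat_lit 133) (nat_lit 5) (nat_lit 139) (nat_lit 5) (nat_lit 134) (nat_lit 5) (nat_lit 482) (nat_lit 396) (nat_lit 262))))))))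
noncomputable def xc140 : XT := (XT.nd (nat_lit 52650) (nat_lit 0) (nat_lit 33136) (XT.nd (nat_lit 780) (nat_lit 1976) (nat_lit 0) (XT.nd (nat_lit 390) (nat_lit 1064) (nat_lit 0) (XT.nd (nat_lit 156) (nat_lit 684) (nat_lit 0) (XT.nd (nat_lit 78) (nat_lit 76) (nat_lit 0) (XT.lf (nat_lit 0) (nat_lit 5498143891) (nat_lit 380) (nat_lit 8604994511) (nat_lit 456) (nat_lit 1517784751) (nat_lit 128) (nat_lit 5) (nat_lit 133) (nat_lit 5) (nat_lit 134) (nat_lit 5) (nat_lit 483) (nat_lit 396) (nat_lit 261)) (XT.lf (nat_lit 0) (nat_lit 1916973168) (nat_lit 456) (nat_lit 1392011653) (nat_lit 76) (nat_lit 12508257043) (nat_lit 127) (nat_lit 5) (nat_lit 133) (nat_lit 5) (nat_lit 128) (nat_lit 5) (nat_lit 484) (nat_lit 396) (nat_lit 260))) (XT.nd (nat_lit 78) (nat_lit 304) (nat_lit 0) (XT.lf (nat_lit 0) (nat_lit 5449438436) (nat_lit 456) (nat_lit 8448490596) (nat_lit 76) (nat_lit 2118373979) (nat_lit 122) (nat_lit 5) (nat_lit 128) (nat_lit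 5) (nat_lit 123) (nat_lit 5) (nat_lit 485) (nat_lit 396) (nat_lit 259)) (XT.nd (nat_lit 78) (nat_lit 0) (nat_lit 0) (XT.lf (nat_lit 0) (nat_lit 469902625) (nat_lit 304) (nat_lit 8603263316) (nat_lit 380) (nat_lit 7145770536) (nat_lit 118) (nat_lit 5) (nat_lit 122) (nat_lit 5) (nat_lit 123) (nat_lit 5) (nat_lit 486) (nat_lit 396) (nat_lit 258)) (XT.lf (nat_lit 0) (nat_lit 9660494200) (nat_lit 304) (nat_lit 3151948192) (nat_lit 380) (nat_lit 3612322022) (nat_lit 118) (nat_lit 5) (nat_lit 122) (nat_lit 5) (nat_lit 123) (nat_lit 5) (nat_lit 487) (nat_lit 396) (nat_lit 257))))) (XT.nd (nat_lit 156) (nat_lit 608) (nat_lit 0) (XT.nd (nat_lit 78) (nat_lit 0) (nat_lit 0) (XT.lf (nat_lit 0) (nat_lit 9810113) (nat_lit 456) (nat_lit 14238962730) (nat_lit 76) (nat_lit 2385582151) (nat_lit 112) (nat_lit 5) (nat_lit 118) (nat_lit 5) (nat_lit 113) (nat_lit 5) (nat_lit 488) (nat_lit 396) (nat_lit 256)) (XT.lf (nat_lit 0) (nat_lit 3709269395)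 (nat_lit 456) (nat_lit 5082943452) (nat_lit 76) (nat_lit 8054385018) (nat_lit 112) (nat_lit 5) (nat_lit 118) (nat_lit 5) (nat_lit 113) (nat_lit 5) (nat_lit 489) (nat_lit 396) (nat_lit 255))) (XT.nd (nat_lit 78) (nat_lit 304) (nat_lit 0) (XT.lf (nat_lit 0) (nat_lit 4292337798) (nat_lit 304) (nat_lit 3205152720) (nat_lit 380) (nat_lit 9565302659) (nat_lit 108) (nat_lit 5) (nat_lit 112) (nat_lit 5) (nat_lit 113) (nat_lit 5) (nat_lit 490) (nat_lit 396) (nat_lit 254)) (XT.nd (nat_lit 78) (nat_lit 304) (nat_lit 0) (XT.lf (nat_lit 0) (nat_lit 11398986569) (nat_lit 380) (nat_lit 3395258403) (nat_lit 76) (nat_lit 2488320194) (nat_lit 108) (nat_lit 5) (nat_lit 113) (nat_lit 5) (nat_lit 109) (nat_lit 5) (nat_lit 491) (nat_lit 396) (nat_lit 253)) (XT.lf (nat_lit 0) (nat_lit 6207792266) (nat_lit 304) (nat_lit 9219491721) (nat_lit 380) (nat_lit 2078476098) (nat_lit 104) (nat_lit 5) (nat_lit 108) (nat_lit 5) (nat_lit 109) (nat_lit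 5) (nat_lit 492) (nat_lit 396) (nat_lit 252)))))) (XT.nd (nat_lit 390) (nat_lit 988) (nat_lit 0) (XT.nd (nat_lit 156) (nat_lit 608) (nat_lit 0) (XT.nd (nat_lit 78) (nat_lit 304) (nat_lit 0) (XT.lf (nat_lit 0) (nat_lit 1789296071) (nat_lit 380) (nat_lit 1715772804) (nat_lit 76) (nat_lit 14227914527) (nat_lit 103) (nat_lit 5) (nat_lit 108) (nat_lit 5) (nat_lit 104) (nat_lit 5) (nat_lit 493) (nat_lit 396) (nat_lit 251)) (XT.lf (nat_lit 0) (nat_lit 5762420926) (nat_lit 380) (nat_lit 9847699159) (nat_lit 76) (nat_lit 2353242520) (nat_lit 99) (nat_lit 5) (nat_lit 104) (nat_lit 5) (nat_lit 100) (nat_lit 5) (nat_lit 494) (nat_lit 396) (nat_lit 250))) (XT.nd (nat_lit 78) (nat_lit 608) (nat_lit 0) (XT.lf (nat_lit 0) (nat_lit 9837409385) (nat_lit 380) (nat_lit 73989562) (nat_lit 76) (nat_lit 8286505119) (nat_lit 99) (nat_lit 5) (nat_lit 104) (nat_lit 5) (nat_lit 100) (nat_lit 5) (nat_lit 495) (nat_lit 396) (nat_lit 249)) (XT.nd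 (nat_lit 78) (nat_lit 304) (nat_lit 0) (XT.lf (nat_lit 0) (nat_lit 10007256892) (nat_lit 304) (nat_lit 4039456374) (nat_lit 380) (nat_lit 4389369421) (nat_lit 95) (nat_lit 5) (nat_lit 99) (nat_lit 5) (nat_lit 100) (nat_lit 5) (nat_lit 496) (nat_lit 396) (nat_lit 248)) (XT.lf (nat_lit 0) (nat_lit 1601196745) (nat_lit 304) (nat_lit 16750473532) (nat_lit 380) (nat_lit 327127857) (nat_lit 91) (nat_lit 5) (nat_lit 95) (nat_lit 5) (nat_lit 96) (nat_lit 5) (nat_lit 497) (nat_lit 396) (nat_lit 247))))) (XT.nd (nat_lit 234) (nat_lit 608) (nat_lit 0) (XT.nd (nat_lit 78) (nat_lit 304) (nat_lit 0) (XT.lf (nat_lit 0) (nat_lit 3837936149) (nat_lit 380) (nat_lit 7050358307) (nat_lit 76) (nat_lit 8036147760) (nat_lit 90) (nat_lit 5) (nat_lit 95) (nat_lit 5) (nat_lit 91) (nat_lit 5) (nat_lit 498) (nat_lit 396) (nat_lit 246)) (XT.nd (nat_lit 78) (nat_lit 0) (nat_lit 0) (XT.lf (nat_lit 0) (nat_lit 3198295659) (nat_lit 304) (nat_lit 4892573552)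 (nat_lit 380) (nat_lit 11083910209) (nat_lit 86) (nat_lit 5) (nat_lit 90) (nat_lit 5) (nat_lit 91) (nat_lit 5) (nat_lit 499) (nat_lit 396) (nat_lit 245)) (XT.lf (nat_lit 0) (nat_lit 12472669112) (nat_lit 380) (nat_lit 5708919251) (nat_lit 76) (nat_lit 1247661233) (nat_lit 86) (nat_lit 5) (nat_lit 91) (nat_lit 5) (nat_lit 87) (nat_lit 5) (nat_lit 500) (nat_lit 396) (nat_lit 244)))) (XT.nd (nat_lit 78) (nat_lit 380) (nat_lit 0) (XT.lf (nat_lit 0) (nat_lit 4775620646) (nat_lit 228) (nat_lit 12218364869) (nat_lit 304) (nat_lit 2693788402) (nat_lit 83) (nat_lit 5) (nat_lit 86) (nat_lit 5) (nat_lit 87) (nat_lit 5) (nat_lit 501) (nat_lit 396) (nat_lit 243)) (XT.nd (nat_lit 78) (nat_lit 304) (nat_lit 0) (XT.lf (nat_lit 0) (nat_lit 1659628122) (nat_lit 304) (nat_lit 4433100069) (nat_lit 76) (nat_lit 13857986687) (nat_lit 82) (nat_lit 5) (nat_lit 86) (nat_lit 5) (nat_lit 83) (nat_lit 5) (nat_lit 502) (nat_lit 396) (nat_lit 242))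 (XT.lf (nat_lit 0) (nat_lit 6095073281) (nat_lit 380) (nat_lit 13917247646) (nat_lit 76) (nat_lit 205619224) (nat_lit 78) (nat_lit 5) (nat_lit 83) (nat_lit 5) (nat_lit 79) (nat_lit 5) (nat_lit 503) (nat_lit 396) (nat_lit 241))))))) (XT.nd (nat_lit 780) (nat_lit 3572) (nat_lit 0) (XT.nd (nat_lit 390) (nat_lit 1064) (nat_lit 0) (XT.nd (nat_lit 156) (nat_lit 1064) (nat_lit 0) (XT.nd (nat_lit 78) (nat_lit 0) (nat_lit 0) (XT.lf (nat_lit 0) (nat_lit 670173643) (nat_lit 0) (nat_lit 670173643) (nat_lit 988) (nat_lit 2159191435) (nat_lit 589) (nat_lit 5) (nat_lit 589) (nat_lit 3) (nat_lit 602) (nat_lit 3) (nat_lit 397) (nat_lit 397) (nat_lit 346)) (XT.lf (nat_lit 0) (nat_lit 4488276390) (nat_lit 988) (nat_lit 2303749037) (nat_lit 1064) (nat_lit 240404497) (nat_lit 589) (nat_lit 5) (nat_lit 602) (nat_lit 3) (nat_lit 603) (nat_lit 5) (nat_lit 398) (nat_lit 397) (nat_lit 345))) (XT.nd (nat_lit 78) (nat_lit 1064) (nat_lit 0) (XT.lf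 (nat_lit 76) (nat_lit 1099428283) (nat_lit 0) (nat_lit 5202078872) (nat_lit 1064) (nat_lit 765579183) (nat_lit 590) (nat_lit 5) (nat_lit 589) (nat_lit 5) (nat_lit 603) (nat_lit 5) (nat_lit 399) (nat_lit 397) (nat_lit 344)) (XT.nd (nat_lit 78) (nat_lit 0) (nat_lit 0) (XT.lf (nat_lit 0) (nat_lit 1004284293) (nat_lit 1064) (nat_lit 2532063630) (nat_lit 1140) (nat_lit 3566588188) (nat_lit 575) (nat_lit 5) (nat_lit 589) (nat_lit 5) (nat_lit 590) (nat_lit 5) (nat_lit 400) (nat_lit 397) (nat_lit 343)) (XT.lf (nat_lit 76) (nat_lit 955266165) (nat_lit 0) (nat_lit 1805051366) (nat_lit 1140) (nat_lit 4379888947) (nat_lit 576) (nat_lit 5) (nat_lit 575) (nat_lit 5) (nat_lit 590) (nat_lit 5) (nat_lit 401) (nat_lit 397) (nat_lit 342))))) (XT.nd (nat_lit 156) (nat_lit 1064) (nat_lit 0) (XT.nd (nat_lit 78) (nat_lit 0) (nat_lit 76) (XT.lf (nat_lit 76) (nat_lit 4522391159) (nat_lit 0) (nat_lit 1611988) (nat_lit 1140) (nat_lit 2654793257)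 (nat_lit 576) (nat_lit 5) (nat_lit 575) (nat_lit 5) (nat_lit 590) (nat_lit 5) (nat_lit 402) (nat_lit 397) (nat_lit 341)) (XT.lf (nat_lit 76) (nat_lit 917984441) (nat_lit 0) (nat_lit 5379411520) (nat_lit 1140) (nat_lit 921297797) (nat_lit 577) (nat_lit 5) (nat_lit 576) (nat_lit 5) (nat_lit 591) (nat_lit 5) (nat_lit 403) (nat_lit 397) (nat_lit 340))) (XT.nd (nat_lit 78) (nat_lit 0) (nat_lit 0) (XT.lf (nat_lit 0) (nat_lit 810641140) (nat_lit 1140) (nat_lit 2690044754) (nat_lit 1216) (nat_lit 3759118946) (nat_lit 561) (nat_lit 5) (nat_lit 576) (nat_lit 5) (nat_lit 577) (nat_lit 5) (nat_lit 404) (nat_lit 397) (nat_lit 339)) (XT.nd (nat_lit 78) (nat_lit 0) (nat_lit 76) (XT.lf (nat_lit 76) (nat_lit 974755838) (nat_lit 0) (nat_lit 1554237510) (nat_lit 1216) (nat_lit 4773363682) (nat_lit 562) (nat_lit 5) (nat_lit 561) (nat_lit 5) (nat_lit 577) (nat_lit 5) (nat_lit 405) (nat_lit 397) (nat_lit 338)) (XT.lf (nat_lit 0) (nat_lit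 4261231861) (nat_lit 1140) (nat_lit 2624562292) (nat_lit 1216) (nat_lit 460398175) (nat_lit 562) (nat_lit 5) (nat_lit 577) (nat_lit 5) (nat_lit 578) (nat_lit 5) (nat_lit 406) (nat_lit 397) (nat_lit 337)))))) (XT.nd (nat_lit 390) (nat_lit 2432) (nat_lit 0) (XT.nd (nat_lit 156) (nat_lit 0) (nat_lit 0) (XT.nd (nat_lit 78) (nat_lit 1216) (nat_lit 0) (XT.lf (nat_lit 76) (nat_lit 1132031439) (nat_lit 0) (nat_lit 4873088183) (nat_lit 1216) (nat_lit 1386266628) (nat_lit 563) (nat_lit 5) (nat_lit 562) (nat_lit 5) (nat_lit 578) (nat_lit 5) (nat_lit 407) (nat_lit 397) (nat_lit 336)) (XT.lf (nat_lit 0) (nat_lit 319297405) (nat_lit 1216) (nat_lit 2465615322) (nat_lit 1292) (nat_lit 4652998709) (nat_lit 546) (nat_lit 5) (nat_lit 562) (nat_lit 5) (nat_lit 563) (nat_lit 5) (nat_lit 408) (nat_lit 397) (nat_lit 335))) (XT.nd (nat_lit 78) (nat_lit 0) (nat_lit 76) (XT.lf (nat_lit 76) (nat_lit 1388070739) (nat_lit 0) (nat_lit 621870083)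 (nat_lit 1292) (nat_lit 5475873173) (nat_lit 547) (nat_lit 5) (nat_lit 546) (nat_lit 5) (nat_lit 563) (nat_lit 5) (nat_lit 409) (nat_lit 397) (nat_lit 334)) (XT.nd (nat_lit 78) (nat_lit 0) (nat_lit 0) (XT.lf (nat_lit 0) (nat_lit 3722545127) (nat_lit 1216) (nat_lit 2218165734) (nat_lit 1292) (nat_lit 1594221117) (nat_lit 547) (nat_lit 5) (nat_lit 563) (nat_lit 5) (nat_lit 564) (nat_lit 5) (nat_lit 410) (nat_lit 397) (nat_lit 333)) (XT.lf (nat_lit 76) (nat_lit 1732431774) (nat_lit 0) (nat_lit 3714302530) (nat_lit 1292) (nat_lit 2138771295) (nat_lit 548) (nat_lit 5) (nat_lit 547) (nat_lit 5) (nat_lit 564) (nat_lit 5) (nat_lit 411) (nat_lit 397) (nat_lit 332))))) (XT.nd (nat_lit 234) (nat_lit 1292) (nat_lit 0) (XT.nd (nat_lit 78) (nat_lit 1216) (nat_lit 0) (XT.lf (nat_lit 76) (nat_lit 5767100301) (nat_lit 0) (nat_lit 1415741755) (nat_lit 1292) (nat_lit 454719483) (nat_lit 548) (nat_lit 5) (nat_lit 547) (nat_lit 5) (nat_lit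 564) (nat_lit 5) (nat_lit 412) (nat_lit 397) (nat_lit 331)) (XT.nd (nat_lit 78) (nat_lit 0) (nat_lit 0) (XT.lf (nat_lit 0) (nat_lit 1229928116) (nat_lit 1292) (nat_lit 5509964160) (nat_lit 1368) (nat_lit 950951511) (nat_lit 531) (nat_lit 5) (nat_lit 548) (nat_lit 5) (nat_lit 549) (nat_lit 5) (nat_lit 413) (nat_lit 397) (nat_lit 330)) (XT.lf (nat_lit 0) (nat_lit 2927856953) (nat_lit 1292) (nat_lit 1444494646) (nat_lit 1368) (nat_lit 3373084845) (nat_lit 531) (nat_lit 5) (nat_lit 548) (nat_lit 5) (nat_lit 549) (nat_lit 5) (nat_lit 414) (nat_lit 397) (nat_lit 329)))) (XT.nd (nat_lit 78) (nat_lit 1292) (nat_lit 0) (XT.lf (nat_lit 76) (nat_lit 2712679556) (nat_lit 0) (nat_lit 1929050470) (nat_lit 1368) (nat_lit 3159769268) (nat_lit 532) (nat_lit 5) (nat_lit 531) (nat_lit 5) (nat_lit 549) (nat_lit 5) (nat_lit 415) (nat_lit 397) (nat_lit 328)) (XT.nd (nat_lit 78) (nat_lit 1368) (nat_lit 0) (XT.lf (nat_lit 0) (nat_lit 6368268902)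 (nat_lit 1292) (nat_lit 915433344) (nat_lit 1368) (nat_lit 575431089) (nat_lit 532) (nat_lit 5) (nat_lit 549) (nat_lit 5) (nat_lit 550) (nat_lit 5) (nat_lit 416) (nat_lit 397) (nat_lit 327)) (XT.lf (nat_lit 0) (nat_lit 208798906) (nat_lit 1368) (nat_lit 4572057639) (nat_lit 1444) (nat_lit 3137050008) (nat_lit 514) (nat_lit 5) (nat_lit 532) (nat_lit 5) (nat_lit 533) (nat_lit 5) (nat_lit 417) (nat_lit 397) (nat_lit 326))))))))
noncomputable def xc141 : XT := (XT.nd (nat_lit 1638) (nat_lit 8436) (nat_lit 0) (XT.nd (nat_lit 780) (nat_lit 8056) (nat_lit 0) (XT.nd (nat_lit 390) (nat_lit 3192) (nat_lit 0) (XT.nd (nat_lit 156) (nat_lit 2812) (nat_lit 0) (XT.nd (nat_lit 78) (nat_lit 0) (nat_lit 76) (XT.lf (nat_lit 0) (nat_lit 1894626022) (nat_lit 1368) (nat_lit 308478927) (nat_lit 1444) (nat_lit 5775127211) (nat_lit 514) (nat_lit 5) (nat_lit 532) (nat_lit 5) (nat_lit 533) (nat_lit 5) (nat_lit 418) (nat_lit 397) (nat_lit 325))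 (XT.lf (nat_lit 0) (nat_lit 3610180834) (nat_lit 1368) (nat_lit 3974280551) (nat_lit 76) (nat_lit 455399022) (nat_lit 515) (nat_lit 5) (nat_lit 533) (nat_lit 5) (nat_lit 516) (nat_lit 5) (nat_lit 419) (nat_lit 397) (nat_lit 324))) (XT.nd (nat_lit 78) (nat_lit 1520) (nat_lit 0) (XT.lf (nat_lit 0) (nat_lit 393521504) (nat_lit 1368) (nat_lit 4952897775) (nat_lit 1444) (nat_lit 2756590523) (nat_lit 497) (nat_lit 5) (nat_lit 515) (nat_lit 5) (nat_lit 516) (nat_lit 5) (nat_lit 420) (nat_lit 397) (nat_lit 323)) (XT.nd (nat_lit 78) (nat_lit 1520) (nat_lit 0) (XT.lf (nat_lit 0) (nat_lit 4877063516) (nat_lit 1368) (nat_lit 2234610915) (nat_lit 1444) (nat_lit 1055877631) (nat_lit 497) (nat_lit 5) (nat_lit 515) (nat_lit 5) (nat_lit 516) (nat_lit 5) (nat_lit 421) (nat_lit 397) (nat_lit 322)) (XT.lf (nat_lit 0) (nat_lit 649404399) (nat_lit 1520) (nat_lit 7034581672) (nat_lit 76) (nat_lit 549736892) (nat_lit 477) (nat_lit 5) (nat_lit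 497) (nat_lit 5) (nat_lit 478) (nat_lit 5) (nat_lit 422) (nat_lit 397) (nat_lit 321))))) (XT.nd (nat_lit 156) (nat_lit 1672) (nat_lit 0) (XT.nd (nat_lit 78) (nat_lit 1520) (nat_lit 0) (XT.lf (nat_lit 0) (nat_lit 2380228182) (nat_lit 1520) (nat_lit 2525492885) (nat_lit 76) (nat_lit 3395259952) (nat_lit 477) (nat_lit 5) (nat_lit 497) (nat_lit 5) (nat_lit 478) (nat_lit 5) (nat_lit 423) (nat_lit 397) (nat_lit 320)) (XT.lf (nat_lit 0) (nat_lit 2075560953) (nat_lit 1520) (nat_lit 2052735568) (nat_lit 1596) (nat_lit 4241649674) (nat_lit 457) (nat_lit 5) (nat_lit 477) (nat_lit 5) (nat_lit 478) (nat_lit 5) (nat_lit 424) (nat_lit 397) (nat_lit 319))) (XT.nd (nat_lit 78) (nat_lit 1672) (nat_lit 0) (XT.lf (nat_lit 0) (nat_lit 5903578369) (nat_lit 1596) (nat_lit 1668687045) (nat_lit 76) (nat_lit 868194454) (nat_lit 457) (nat_lit 5) (nat_lit 478) (nat_lit 5) (nat_lit 458) (nat_lit 5) (nat_lit 425) (nat_lit 397) (nat_lit 318)) (XT.nd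 (nat_lit 78) (nat_lit 76) (nat_lit 0) (XT.lf (nat_lit 0) (nat_lit 3050520884) (nat_lit 1596) (nat_lit 4667467110) (nat_lit 1672) (nat_lit 794337336) (nat_lit 436) (nat_lit 5) (nat_lit 457) (nat_lit 5) (nat_lit 458) (nat_lit 5) (nat_lit 426) (nat_lit 397) (nat_lit 317)) (XT.lf (nat_lit 0) (nat_lit 951870528) (nat_lit 1672) (nat_lit 730785697) (nat_lit 76) (nat_lit 6903223520) (nat_lit 435) (nat_lit 5) (nat_lit 457) (nat_lit 5) (nat_lit 436) (nat_lit 5) (nat_lit 427) (nat_lit 397) (nat_lit 316)))))) (XT.nd (nat_lit 390) (nat_lit 3496) (nat_lit 0) (XT.nd (nat_lit 156) (nat_lit 1140) (nat_lit 0) (XT.nd (nat_lit 78) (nat_lit 1748) (nat_lit 0) (XT.lf (nat_lit 0) (nat_lit 2729208487) (nat_lit 1748) (nat_lit 4551483914) (nat_lit 76) (nat_lit 1379984146) (nat_lit 413) (nat_lit 5) (nat_lit 436) (nat_lit 5) (nat_lit 414) (nat_lit 5) (nat_lit 428) (nat_lit 397) (nat_lit 315)) (XT.lf (nat_lit 0) (nat_lit 285983703) (nat_lit 1748)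 (nat_lit 4245489185) (nat_lit 1824) (nat_lit 4205721697) (nat_lit 390) (nat_lit 5) (nat_lit 413) (nat_lit 5) (nat_lit 414) (nat_lit 5) (nat_lit 429) (nat_lit 397) (nat_lit 314))) (XT.nd (nat_lit 78) (nat_lit 1140) (nat_lit 0) (XT.lf (nat_lit 0) (nat_lit 5256469188) (nat_lit 1748) (nat_lit 1115694123) (nat_lit 1824) (nat_lit 2443044700) (nat_lit 390) (nat_lit 5) (nat_lit 413) (nat_lit 5) (nat_lit 414) (nat_lit 5) (nat_lit 430) (nat_lit 397) (nat_lit 313)) (XT.nd (nat_lit 78) (nat_lit 76) (nat_lit 0) (XT.lf (nat_lit 0) (nat_lit 1411094690) (nat_lit 1064) (nat_lit 6833625391) (nat_lit 1140) (nat_lit 650172966) (nat_lit 376) (nat_lit 5) (nat_lit 390) (nat_lit 5) (nat_lit 391) (nat_lit 5) (nat_lit 431) (nat_lit 397) (nat_lit 312)) (XT.lf (nat_lit 0) (nat_lit 1167118826) (nat_lit 1140) (nat_lit 2488048241) (nat_lit 76) (nat_lit 5320783198) (nat_lit 375) (nat_lit 5) (nat_lit 390) (nat_lit 5) (nat_lit 376) (nat_lit 5) (nat_lit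 432) (nat_lit 397) (nat_lit 311))))) (XT.nd (nat_lit 234) (nat_lit 1748) (nat_lit 0) (XT.nd (nat_lit 78) (nat_lit 836) (nat_lit 0) (XT.lf (nat_lit 0) (nat_lit 2612357170) (nat_lit 912) (nat_lit 389791914) (nat_lit 988) (nat_lit 6056603301) (nat_lit 363) (nat_lit 5) (nat_lit 375) (nat_lit 5) (nat_lit 376) (nat_lit 5) (nat_lit 433) (nat_lit 397) (nat_lit 310)) (XT.nd (nat_lit 78) (nat_lit 836) (nat_lit 0) (XT.lf (nat_lit 0) (nat_lit 4883283698) (nat_lit 988) (nat_lit 1339185178) (nat_lit 76) (nat_lit 2920565044) (nat_lit 363) (nat_lit 5) (nat_lit 376) (nat_lit 5) (nat_lit 364) (nat_lit 5) (nat_lit 434) (nat_lit 397) (nat_lit 309)) (XT.lf (nat_lit 0) (nat_lit 3893553675) (nat_lit 836) (nat_lit 2910370670) (nat_lit 912) (nat_lit 2425050300) (nat_lit 352) (nat_lit 5) (nat_lit 363) (nat_lit 5) (nat_lit 364) (nat_lit 5) (nat_lit 435) (nat_lit 397) (nat_lit 308)))) (XT.nd (nat_lit 78) (nat_lit 1748) (nat_lit 0) (XT.lf (nat_lit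 0) (nat_lit 8749436734) (nat_lit 912) (nat_lit 95913666) (nat_lit 76) (nat_lit 471565611) (nat_lit 352) (nat_lit 5) (nat_lit 364) (nat_lit 5) (nat_lit 353) (nat_lit 5) (nat_lit 436) (nat_lit 397) (nat_lit 307)) (XT.nd (nat_lit 78) (nat_lit 836) (nat_lit 0) (XT.lf (nat_lit 0) (nat_lit 1338402149) (nat_lit 912) (nat_lit 4141556707) (nat_lit 76) (nat_lit 3925924258) (nat_lit 340) (nat_lit 5) (nat_lit 352) (nat_lit 5) (nat_lit 341) (nat_lit 5) (nat_lit 437) (nat_lit 397) (nat_lit 306)) (XT.lf (nat_lit 0) (nat_lit 1223599730) (nat_lit 836) (nat_lit 2034836198) (nat_lit 912) (nat_lit 6238456315) (nat_lit 329) (nat_lit 5) (nat_lit 340) (nat_lit 5) (nat_lit 341) (nat_lit 5) (nat_lit 438) (nat_lit 397) (nat_lit 305))))))) (XT.nd (nat_lit 858) (nat_lit 3800) (nat_lit 0) (XT.nd (nat_lit 390) (nat_lit 2964) (nat_lit 0) (XT.nd (nat_lit 156) (nat_lit 836) (nat_lit 0) (XT.nd (nat_lit 78) (nat_lit 836) (nat_lit 0) (XT.lf (nat_lit 0)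 (nat_lit 5229809386) (nat_lit 912) (nat_lit 2872230147) (nat_lit 76) (nat_lit 1487433409) (nat_lit 329) (nat_lit 5) (nat_lit 341) (nat_lit 5) (nat_lit 330) (nat_lit 5) (nat_lit 439) (nat_lit 397) (nat_lit 304)) (XT.lf (nat_lit 0) (nat_lit 2632932953) (nat_lit 836) (nat_lit 4614090048) (nat_lit 912) (nat_lit 2436763966) (nat_lit 318) (nat_lit 5) (nat_lit 329) (nat_lit 5) (nat_lit 330) (nat_lit 5) (nat_lit 440) (nat_lit 397) (nat_lit 303))) (XT.nd (nat_lit 78) (nat_lit 836) (nat_lit 0) (XT.lf (nat_lit 0) (nat_lit 8262321302) (nat_lit 836) (nat_lit 1037688556) (nat_lit 912) (nat_lit 480078609) (nat_lit 318) (nat_lit 5) (nat_lit 329) (nat_lit 5) (nat_lit 330) (nat_lit 5) (nat_lit 441) (nat_lit 397) (nat_lit 302)) (XT.nd (nat_lit 78) (nat_lit 0) (nat_lit 0) (XT.lf (nat_lit 0) (nat_lit 1516420705) (nat_lit 836) (nat_lit 5749378308) (nat_lit 76) (nat_lit 2611918363) (nat_lit 307) (nat_lit 5) (nat_lit 318) (nat_lit 5) (nat_lit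 308) (nat_lit 5) (nat_lit 442) (nat_lit 397) (nat_lit 301)) (XT.lf (nat_lit 0) (nat_lit 3540304952) (nat_lit 836) (nat_lit 104224234) (nat_lit 76) (nat_lit 6332837756) (nat_lit 307) (nat_lit 5) (nat_lit 318) (nat_lit 5) (nat_lit 308) (nat_lit 5) (nat_lit 443) (nat_lit 397) (nat_lit 300))))) (XT.nd (nat_lit 234) (nat_lit 1520) (nat_lit 0) (XT.nd (nat_lit 78) (nat_lit 684) (nat_lit 0) (XT.lf (nat_lit 0) (nat_lit 5619464300) (nat_lit 836) (nat_lit 4375105095) (nat_lit 76) (nat_lit 84153182) (nat_lit 297) (nat_lit 5) (nat_lit 308) (nat_lit 5) (nat_lit 298) (nat_lit 5) (nat_lit 444) (nat_lit 397) (nat_lit 299)) (XT.nd (nat_lit 78) (nat_lit 0) (nat_lit 0) (XT.lf (nat_lit 0) (nat_lit 1416627837) (nat_lit 684) (nat_lit 6335102550) (nat_lit 760) (nat_lit 2430153319) (nat_lit 288) (nat_lit 5) (nat_lit 297) (nat_lit 5) (nat_lit 298) (nat_lit 5) (nat_lit 445) (nat_lit 397) (nat_lit 298)) (XT.lf (nat_lit 0) (nat_lit 7358915560) (nat_lit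 684) (nat_lit 2574853200) (nat_lit 760) (nat_lit 353205435) (nat_lit 288) (nat_lit 5) (nat_lit 297) (nat_lit 5) (nat_lit 298) (nat_lit 5) (nat_lit 446) (nat_lit 397) (nat_lit 297)))) (XT.nd (nat_lit 78) (nat_lit 684) (nat_lit 0) (XT.lf (nat_lit 0) (nat_lit 1748226381) (nat_lit 836) (nat_lit 7372612672) (nat_lit 76) (nat_lit 1272984614) (nat_lit 277) (nat_lit 5) (nat_lit 288) (nat_lit 5) (nat_lit 278) (nat_lit 5) (nat_lit 447) (nat_lit 397) (nat_lit 296)) (XT.nd (nat_lit 78) (nat_lit 684) (nat_lit 0) (XT.lf (nat_lit 0) (nat_lit 3902099980) (nat_lit 836) (nat_lit 1417449785) (nat_lit 76) (nat_lit 5182918997) (nat_lit 277) (nat_lit 5) (nat_lit 288) (nat_lit 5) (nat_lit 278) (nat_lit 5) (nat_lit 448) (nat_lit 397) (nat_lit 295)) (XT.lf (nat_lit 0) (nat_lit 4694197271) (nat_lit 684) (nat_lit 1414064168) (nat_lit 760) (nat_lit 4504849125) (nat_lit 268) (nat_lit 5) (nat_lit 277) (nat_lit 5) (nat_lit 278) (nat_lit 5) (nat_lit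 449) (nat_lit 397) (nat_lit 294)))))) (XT.nd (nat_lit 390) (nat_lit 1824) (nat_lit 0) (XT.nd (nat_lit 156) (nat_lit 1292) (nat_lit 0) (XT.nd (nat_lit 78) (nat_lit 0) (nat_lit 0) (XT.lf (nat_lit 0) (nat_lit 182733079) (nat_lit 684) (nat_lit 8182231370) (nat_lit 760) (nat_lit 2360880249) (nat_lit 259) (nat_lit 5) (nat_lit 268) (nat_lit 5) (nat_lit 269) (nat_lit 5) (nat_lit 450) (nat_lit 397) (nat_lit 293)) (XT.lf (nat_lit 0) (nat_lit 6452882830) (nat_lit 684) (nat_lit 4242169415) (nat_lit 760) (nat_lit 145223960) (nat_lit 259) (nat_lit 5) (nat_lit 268) (nat_lit 5) (nat_lit 269) (nat_lit 5) (nat_lit 451) (nat_lit 397) (nat_lit 292))) (XT.nd (nat_lit 78) (nat_lit 608) (nat_lit 0) (XT.lf (nat_lit 0) (nat_lit 1878265849) (nat_lit 608) (nat_lit 200432899) (nat_lit 684) (nat_lit 8878196622) (nat_lit 250) (nat_lit 5) (nat_lit 258) (nat_lit 5) (nat_lit 259) (nat_lit 5) (nat_lit 452) (nat_lit 397) (nat_lit 291)) (XT.nd (nat_lit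 78) (nat_lit 608) (nat_lit 0) (XT.lf (nat_lit 0) (nat_lit 4379975649) (nat_lit 684) (nat_lit 2797476549) (nat_lit 76) (nat_lit 3897686375) (nat_lit 250) (nat_lit 5) (nat_lit 259) (nat_lit 5) (nat_lit 251) (nat_lit 5) (nat_lit 453) (nat_lit 397) (nat_lit 290)) (XT.lf (nat_lit 0) (nat_lit 3631772930) (nat_lit 608) (nat_lit 3100526769) (nat_lit 684) (nat_lit 4463353629) (nat_lit 242) (nat_lit 5) (nat_lit 250) (nat_lit 5) (nat_lit 251) (nat_lit 5) (nat_lit 454) (nat_lit 397) (nat_lit 289))))) (XT.nd (nat_lit 234) (nat_lit 532) (nat_lit 0) (XT.nd (nat_lit 78) (nat_lit 1292) (nat_lit 0) (XT.lf (nat_lit 0) (nat_lit 9137760364) (nat_lit 684) (nat_lit 1121715741) (nat_lit 76) (nat_lit 1058987448) (nat_lit 242) (nat_lit 5) (nat_lit 251) (nat_lit 5) (nat_lit 243) (nat_lit 5) (nat_lit 455) (nat_lit 397) (nat_lit 288)) (XT.nd (nat_lit 78) (nat_lit 608) (nat_lit 0) (XT.lf (nat_lit 0) (nat_lit 182705376) (nat_lit 684) (nat_lit 5967187876)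 (nat_lit 76) (nat_lit 5293083455) (nat_lit 233) (nat_lit 5) (nat_lit 242) (nat_lit 5) (nat_lit 234) (nat_lit 5) (nat_lit 456) (nat_lit 397) (nat_lit 287)) (XT.lf (nat_lit 0) (nat_lit 620583892) (nat_lit 608) (nat_lit 1936035831) (nat_lit 684) (nat_lit 9013229943) (nat_lit 225) (nat_lit 5) (nat_lit 233) (nat_lit 5) (nat_lit 234) (nat_lit 5) (nat_lit 457) (nat_lit 397) (nat_lit 286)))) (XT.nd (nat_lit 78) (nat_lit 532) (nat_lit 0) (XT.lf (nat_lit 0) (nat_lit 5014654442) (nat_lit 684) (nat_lit 4316946007) (nat_lit 76) (nat_lit 2366933241) (nat_lit 225) (nat_lit 5) (nat_lit 234) (nat_lit 5) (nat_lit 226) (nat_lit 5) (nat_lit 458) (nat_lit 397) (nat_lit 285)) (XT.nd (nat_lit 78) (nat_lit 0) (nat_lit 0) (XT.lf (nat_lit 0) (nat_lit 2443835178) (nat_lit 532) (nat_lit 5088073317) (nat_lit 608) (nat_lit 4297688048) (nat_lit 218) (nat_lit 5) (nat_lit 225) (nat_lit 5) (nat_lit 226) (nat_lit 5) (nat_lit 459) (nat_lit 397) (nat_lit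 284)) (XT.lf (nat_lit 0) (nat_lit 9375088487) (nat_lit 532) (nat_lit 734972599) (nat_lit 608) (nat_lit 1853014694) (nat_lit 218) (nat_lit 5) (nat_lit 225) (nat_lit 5) (nat_lit 226) (nat_lit 5) (nat_lit 460) (nat_lit 397) (nat_lit 283))))))))
noncomputable def xc142 : XT := (XT.nd (nat_lit 1638) (nat_lit 4256) (nat_lit 0) (XT.nd (nat_lit 780) (nat_lit 2812) (nat_lit 0) (XT.nd (nat_lit 390) (nat_lit 1520) (nat_lit 0) (XT.nd (nat_lit 156) (nat_lit 1064) (nat_lit 0) (XT.nd (nat_lit 78) (nat_lit 0) (nat_lit 0) (XT.lf (nat_lit 0) (nat_lit 666623177) (nat_lit 684) (nat_lit 7747261299) (nat_lit 76) (nat_lit 3684573465) (nat_lit 209) (nat_lit 5) (nat_lit 218) (nat_lit 5) (nat_lit 210) (nat_lit 5) (nat_lit 461) (nat_lit 397) (nat_lit 282)) (XT.lf (nat_lit 0) (nat_lit 3216210060) (nat_lit 684) (nat_lit 812443232) (nat_lit 76) (nat_lit 8207567960) (nat_lit 209) (nat_lit 5) (nat_lit 218) (nat_lit 5) (nat_lit 210) (nat_lit 5) (nat_lit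 462) (nat_lit 397) (nat_lit 281))) (XT.nd (nat_lit 78) (nat_lit 532) (nat_lit 0) (XT.lf (nat_lit 0) (nat_lit 5843301980) (nat_lit 608) (nat_lit 6058204378) (nat_lit 76) (nat_lit 474708933) (nat_lit 202) (nat_lit 5) (nat_lit 210) (nat_lit 5) (nat_lit 203) (nat_lit 5) (nat_lit 463) (nat_lit 397) (nat_lit 280)) (XT.nd (nat_lit 78) (nat_lit 0) (nat_lit 0) (XT.lf (nat_lit 0) (nat_lit 1047256332) (nat_lit 532) (nat_lit 7497161126) (nat_lit 608) (nat_lit 3974167731) (nat_lit 195) (nat_lit 5) (nat_lit 202) (nat_lit 5) (nat_lit 203) (nat_lit 5) (nat_lit 464) (nat_lit 397) (nat_lit 279)) (XT.lf (nat_lit 0) (nat_lit 8354148247) (nat_lit 532) (nat_lit 2968769957) (nat_lit 608) (nat_lit 1340422523) (nat_lit 195) (nat_lit 5) (nat_lit 202) (nat_lit 5) (nat_lit 203) (nat_lit 5) (nat_lit 465) (nat_lit 397) (nat_lit 278))))) (XT.nd (nat_lit 156) (nat_lit 988) (nat_lit 0) (XT.nd (nat_lit 78) (nat_lit 0) (nat_lit 0) (XT.lf (nat_lit 0) (nat_lit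 1341646307) (nat_lit 532) (nat_lit 9817373198) (nat_lit 76) (nat_lit 1651536343) (nat_lit 188) (nat_lit 5) (nat_lit 195) (nat_lit 5) (nat_lit 189) (nat_lit 5) (nat_lit 466) (nat_lit 397) (nat_lit 277)) (XT.lf (nat_lit 0) (nat_lit 4091277846) (nat_lit 532) (nat_lit 2511590427) (nat_lit 76) (nat_lit 6357037589) (nat_lit 188) (nat_lit 5) (nat_lit 195) (nat_lit 5) (nat_lit 189) (nat_lit 5) (nat_lit 467) (nat_lit 397) (nat_lit 276))) (XT.nd (nat_lit 78) (nat_lit 456) (nat_lit 0) (XT.lf (nat_lit 0) (nat_lit 4983369895) (nat_lit 532) (nat_lit 1928302787) (nat_lit 608) (nat_lit 6200259865) (nat_lit 181) (nat_lit 5) (nat_lit 188) (nat_lit 5) (nat_lit 189) (nat_lit 5) (nat_lit 468) (nat_lit 397) (nat_lit 275)) (XT.nd (nat_lit 78) (nat_lit 456) (nat_lit 0) (XT.lf (nat_lit 0) (nat_lit 9807438092) (nat_lit 608) (nat_lit 645382129) (nat_lit 76) (nat_lit 2813805274) (nat_lit 181) (nat_lit 5) (nat_lit 189) (nat_lit 5) (nat_lit 182)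 (nat_lit 5) (nat_lit 469) (nat_lit 397) (nat_lit 274)) (XT.lf (nat_lit 0) (nat_lit 7045084476) (nat_lit 456) (nat_lit 5758427676) (nat_lit 532) (nat_lit 620057170) (nat_lit 175) (nat_lit 5) (nat_lit 181) (nat_lit 5) (nat_lit 182) (nat_lit 5) (nat_lit 470) (nat_lit 397) (nat_lit 273)))))) (XT.nd (nat_lit 390) (nat_lit 1292) (nat_lit 0) (XT.nd (nat_lit 156) (nat_lit 988) (nat_lit 0) (XT.nd (nat_lit 78) (nat_lit 0) (nat_lit 0) (XT.lf (nat_lit 0) (nat_lit 1294639572) (nat_lit 456) (nat_lit 948078592) (nat_lit 532) (nat_lit 11340708816) (nat_lit 168) (nat_lit 5) (nat_lit 174) (nat_lit 5) (nat_lit 175) (nat_lit 5) (nat_lit 471) (nat_lit 397) (nat_lit 272)) (XT.lf (nat_lit 0) (nat_lit 5207320382) (nat_lit 532) (nat_lit 4590243925) (nat_lit 76) (nat_lit 3947782638) (nat_lit 168) (nat_lit 5) (nat_lit 175) (nat_lit 5) (nat_lit 169) (nat_lit 5) (nat_lit 472) (nat_lit 397) (nat_lit 271))) (XT.nd (nat_lit 78) (nat_lit 532) (nat_lit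 0) (XT.lf (nat_lit 0) (nat_lit 3277192484) (nat_lit 456) (nat_lit 4965969380) (nat_lit 532) (nat_lit 5667109015) (nat_lit 162) (nat_lit 5) (nat_lit 168) (nat_lit 5) (nat_lit 169) (nat_lit 5) (nat_lit 473) (nat_lit 397) (nat_lit 270)) (XT.nd (nat_lit 78) (nat_lit 532) (nat_lit 0) (XT.lf (nat_lit 0) (nat_lit 11342562632) (nat_lit 456) (nat_lit 12516925) (nat_lit 532) (nat_lit 2723110973) (nat_lit 162) (nat_lit 5) (nat_lit 168) (nat_lit 5) (nat_lit 169) (nat_lit 5) (nat_lit 474) (nat_lit 397) (nat_lit 269)) (XT.lf (nat_lit 0) (nat_lit 328623915) (nat_lit 532) (nat_lit 8915046464) (nat_lit 76) (nat_lit 5004715599) (nat_lit 155) (nat_lit 5) (nat_lit 162) (nat_lit 5) (nat_lit 156) (nat_lit 5) (nat_lit 475) (nat_lit 397) (nat_lit 268))))) (XT.nd (nat_lit 234) (nat_lit 456) (nat_lit 0) (XT.nd (nat_lit 78) (nat_lit 836) (nat_lit 0) (XT.lf (nat_lit 0) (nat_lit 3408402346) (nat_lit 532) (nat_lit 860632350) (nat_lit 76) (nat_lit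 10152525387) (nat_lit 155) (nat_lit 5) (nat_lit 162) (nat_lit 5) (nat_lit 156) (nat_lit 5) (nat_lit 476) (nat_lit 397) (nat_lit 267)) (XT.nd (nat_lit 78) (nat_lit 456) (nat_lit 0) (XT.lf (nat_lit 0) (nat_lit 6588702365) (nat_lit 456) (nat_lit 7171829370) (nat_lit 76) (nat_lit 836891504) (nat_lit 150) (nat_lit 5) (nat_lit 156) (nat_lit 5) (nat_lit 151) (nat_lit 5) (nat_lit 477) (nat_lit 397) (nat_lit 266)) (XT.lf (nat_lit 0) (nat_lit 1077099509) (nat_lit 456) (nat_lit 8781872777) (nat_lit 532) (nat_lit 4917308102) (nat_lit 144) (nat_lit 5) (nat_lit 150) (nat_lit 5) (nat_lit 151) (nat_lit 5) (nat_lit 478) (nat_lit 397) (nat_lit 265)))) (XT.nd (nat_lit 78) (nat_lit 456) (nat_lit 0) (XT.lf (nat_lit 0) (nat_lit 9567123328) (nat_lit 456) (nat_lit 3661087919) (nat_lit 532) (nat_lit 1729836091) (nat_lit 144) (nat_lit 5) (nat_lit 150) (nat_lit 5) (nat_lit 151) (nat_lit 5) (nat_lit 479) (nat_lit 397) (nat_lit 264)) (XT.nd (nat_lit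 78) (nat_lit 0) (nat_lit 0) (XT.lf (nat_lit 0) (nat_lit 1517438474) (nat_lit 456) (nat_lit 12060131473) (nat_lit 76) (nat_lit 1565365772) (nat_lit 138) (nat_lit 5) (nat_lit 144) (nat_lit 5) (nat_lit 139) (nat_lit 5) (nat_lit 480) (nat_lit 397) (nat_lit 263)) (XT.lf (nat_lit 0) (nat_lit 4852907795) (nat_lit 456) (nat_lit 3588646332) (nat_lit 76) (nat_lit 6888814524) (nat_lit 138) (nat_lit 5) (nat_lit 144) (nat_lit 5) (nat_lit 139) (nat_lit 5) (nat_lit 481) (nat_lit 397) (nat_lit 262))))))) (XT.nd (nat_lit 858) (nat_lit 1976) (nat_lit 0) (XT.nd (nat_lit 390) (nat_lit 1064) (nat_lit 0) (XT.nd (nat_lit 156) (nat_lit 836) (nat_lit 0) (XT.nd (nat_lit 78) (nat_lit 0) (nat_lit 0) (XT.lf (nat_lit 0) (nat_lit 5098559203) (nat_lit 380) (nat_lit 3175639340) (nat_lit 456) (nat_lit 7246973089) (nat_lit 133) (nat_lit 5) (nat_lit 138) (nat_lit 5) (nat_lit 139) (nat_lit 5) (nat_lit 482) (nat_lit 397) (nat_lit 261)) (XT.lf (nat_lit 0)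 (nat_lit 11788519164) (nat_lit 456) (nat_lit 1742250069) (nat_lit 76) (nat_lit 2184532918) (nat_lit 133) (nat_lit 5) (nat_lit 139) (nat_lit 5) (nat_lit 134) (nat_lit 5) (nat_lit 483) (nat_lit 397) (nat_lit 260))) (XT.nd (nat_lit 78) (nat_lit 456) (nat_lit 0) (XT.lf (nat_lit 0) (nat_lit 7164376196) (nat_lit 380) (nat_lit 8262676626) (nat_lit 456) (nat_lit 485187416) (nat_lit 128) (nat_lit 5) (nat_lit 133) (nat_lit 5) (nat_lit 134) (nat_lit 5) (nat_lit 484) (nat_lit 397) (nat_lit 259)) (XT.nd (nat_lit 78) (nat_lit 0) (nat_lit 0) (XT.lf (nat_lit 0) (nat_lit 121416403) (nat_lit 380) (nat_lit 2863127886) (nat_lit 456) (nat_lit 13128203698) (nat_lit 122) (nat_lit 5) (nat_lit 127) (nat_lit 5) (nat_lit 128) (nat_lit 5) (nat_lit 485) (nat_lit 397) (nat_lit 258)) (XT.lf (nat_lit 0) (nat_lit 6579955766) (nat_lit 456) (nat_lit 7070620636) (nat_lit 76) (nat_lit 2665372999) (nat_lit 122) (nat_lit 5) (nat_lit 128) (nat_lit 5) (nat_lit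 123) (nat_lit 5) (nat_lit 486) (nat_lit 397) (nat_lit 257))))) (XT.nd (nat_lit 234) (nat_lit 304) (nat_lit 0) (XT.nd (nat_lit 78) (nat_lit 456) (nat_lit 0) (XT.lf (nat_lit 0) (nat_lit 2015963872) (nat_lit 304) (nat_lit 8250141014) (nat_lit 380) (nat_lit 6256736593) (nat_lit 118) (nat_lit 5) (nat_lit 122) (nat_lit 5) (nat_lit 123) (nat_lit 5) (nat_lit 487) (nat_lit 397) (nat_lit 256)) (XT.nd (nat_lit 78) (nat_lit 456) (nat_lit 0) (XT.lf (nat_lit 0) (nat_lit 11360236627) (nat_lit 304) (nat_lit 2700097383) (nat_lit 380) (nat_lit 2672853410) (nat_lit 118) (nat_lit 5) (nat_lit 122) (nat_lit 5) (nat_lit 123) (nat_lit 5) (nat_lit 488) (nat_lit 397) (nat_lit 255)) (XT.lf (nat_lit 0) (nat_lit 1002064353) (nat_lit 456) (nat_lit 12997087567) (nat_lit 76) (nat_lit 2947818883) (nat_lit 112) (nat_lit 5) (nat_lit 118) (nat_lit 5) (nat_lit 113) (nat_lit 5) (nat_lit 489) (nat_lit 397) (nat_lit 254)))) (XT.nd (nat_lit 78) (nat_lit 304)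 (nat_lit 0) (XT.lf (nat_lit 0) (nat_lit 4756060703) (nat_lit 456) (nat_lit 3687882303) (nat_lit 76) (nat_lit 8719909081) (nat_lit 112) (nat_lit 5) (nat_lit 118) (nat_lit 5) (nat_lit 113) (nat_lit 5) (nat_lit 490) (nat_lit 397) (nat_lit 253)) (XT.nd (nat_lit 78) (nat_lit 0) (nat_lit 0) (XT.lf (nat_lit 0) (nat_lit 5865057729) (nat_lit 304) (nat_lit 2745571582) (nat_lit 380) (nat_lit 8773934758) (nat_lit 108) (nat_lit 5) (nat_lit 112) (nat_lit 5) (nat_lit 113) (nat_lit 5) (nat_lit 491) (nat_lit 397) (nat_lit 252)) (XT.lf (nat_lit 0) (nat_lit 12574602661) (nat_lit 380) (nat_lit 1989675294) (nat_lit 76) (nat_lit 3044768931) (nat_lit 108) (nat_lit 5) (nat_lit 113) (nat_lit 5) (nat_lit 109) (nat_lit 5) (nat_lit 492) (nat_lit 397) (nat_lit 251)))))) (XT.nd (nat_lit 390) (nat_lit 988) (nat_lit 0) (XT.nd (nat_lit 156) (nat_lit 608) (nat_lit 0) (XT.nd (nat_lit 78) (nat_lit 76) (nat_lit 0) (XT.lf (nat_lit 0) (nat_lit 7795742386)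 (nat_lit 304) (nat_lit 8878646459) (nat_lit 380) (nat_lit 1162502654) (nat_lit 104) (nat_lit 5) (nat_lit 108) (nat_lit 5) (nat_lit 109) (nat_lit 5) (nat_lit 493) (nat_lit 397) (nat_lit 250)) (XT.lf (nat_lit 0) (nat_lit 2751537500) (nat_lit 380) (nat_lit 302479381) (nat_lit 76) (nat_lit 15014892733) (nat_lit 103) (nat_lit 5) (nat_lit 108) (nat_lit 5) (nat_lit 104) (nat_lit 5) (nat_lit 494) (nat_lit 397) (nat_lit 249))) (XT.nd (nat_lit 78) (nat_lit 304) (nat_lit 0) (XT.lf (nat_lit 0) (nat_lit 6798675222) (nat_lit 380) (nat_lit 8591394290) (nat_lit 76) (nat_lit 2913939886) (nat_lit 99) (nat_lit 5) (nat_lit 104) (nat_lit 5) (nat_lit 100) (nat_lit 5) (nat_lit 495) (nat_lit 397) (nat_lit 248)) (XT.nd (nat_lit 78) (nat_lit 0) (nat_lit 0) (XT.lf (nat_lit 0) (nat_lit 1367225636) (nat_lit 304) (nat_lit 9578755810) (nat_lit 380) (nat_lit 7597447811) (nat_lit 95) (nat_lit 5) (nat_lit 99) (nat_lit 5) (nat_lit 100) (nat_lit 5) (nat_lit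 496) (nat_lit 397) (nat_lit 247)) (XT.lf (nat_lit 0) (nat_lit 11622792165) (nat_lit 304) (nat_lit 3599287114) (nat_lit 380) (nat_lit 3564643866) (nat_lit 95) (nat_lit 5) (nat_lit 99) (nat_lit 5) (nat_lit 100) (nat_lit 5) (nat_lit 497) (nat_lit 397) (nat_lit 246))))) (XT.nd (nat_lit 234) (nat_lit 304) (nat_lit 0) (XT.nd (nat_lit 78) (nat_lit 304) (nat_lit 0) (XT.lf (nat_lit 0) (nat_lit 566216289) (nat_lit 380) (nat_lit 15984220615) (nat_lit 76) (nat_lit 2483885225) (nat_lit 90) (nat_lit 5) (nat_lit 95) (nat_lit 5) (nat_lit 91) (nat_lit 5) (nat_lit 498) (nat_lit 397) (nat_lit 245)) (XT.nd (nat_lit 78) (nat_lit 304) (nat_lit 0) (XT.lf (nat_lit 0) (nat_lit 4792646398) (nat_lit 380) (nat_lit 5786692539) (nat_lit 76) (nat_lit 8705851638) (nat_lit 90) (nat_lit 5) (nat_lit 95) (nat_lit 5) (nat_lit 91) (nat_lit 5) (nat_lit 499) (nat_lit 397) (nat_lit 244)) (XT.lf (nat_lit 0) (nat_lit 4657693236) (nat_lit 304) (nat_lit 4464790216)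 (nat_lit 380) (nat_lit 10418217720) (nat_lit 86) (nat_lit 5) (nat_lit 90) (nat_lit 5) (nat_lit 91) (nat_lit 5) (nat_lit 500) (nat_lit 397) (nat_lit 243)))) (XT.nd (nat_lit 78) (nat_lit 304) (nat_lit 0) (XT.lf (nat_lit 0) (nat_lit 13578210365) (nat_lit 380) (nat_lit 4441143980) (nat_lit 76) (nat_lit 1781184077) (nat_lit 86) (nat_lit 5) (nat_lit 91) (nat_lit 5) (nat_lit 87) (nat_lit 5) (nat_lit 501) (nat_lit 397) (nat_lit 242)) (XT.nd (nat_lit 78) (nat_lit 76) (nat_lit 0) (XT.lf (nat_lit 0) (nat_lit 6243994914) (nat_lit 228) (nat_lit 11938085675) (nat_lit 304) (nat_lit 1882313510) (nat_lit 83) (nat_lit 5) (nat_lit 86) (nat_lit 5) (nat_lit 87) (nat_lit 5) (nat_lit 502) (nat_lit 397) (nat_lit 241)) (XT.lf (nat_lit 0) (nat_lit 2530076989) (nat_lit 304) (nat_lit 3164528030) (nat_lit 76) (nat_lit 14638214681) (nat_lit 82) (nat_lit 5) (nat_lit 86) (nat_lit 5) (nat_lit 83) (nat_lit 5) (nat_lit 503) (nat_lit 397) (nat_lit 240))))))))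
noncomputable def xc143 : XT := (XT.nd (nat_lit 1638) (nat_lit 13984) (nat_lit 0) (XT.nd (nat_lit 780) (nat_lit 3572) (nat_lit 0) (XT.nd (nat_lit 390) (nat_lit 1064) (nat_lit 0) (XT.nd (nat_lit 156) (nat_lit 0) (nat_lit 76) (XT.nd (nat_lit 78) (nat_lit 1140) (nat_lit 0) (XT.lf (nat_lit 0) (nat_lit 1567397896) (nat_lit 0) (nat_lit 1567397896) (nat_lit 988) (nat_lit 398364718) (nat_lit 589) (nat_lit 5) (nat_lit 589) (nat_lit 3) (nat_lit 602) (nat_lit 3) (nat_lit 398) (nat_lit 398) (nat_lit 344)) (XT.lf (nat_lit 0) (nat_lit 928257414) (nat_lit 1140) (nat_lit 550024076) (nat_lit 1140) (nat_lit 5623395422) (nat_lit 574) (nat_lit 3) (nat_lit 589) (nat_lit 3) (nat_lit 589) (nat_lit 5) (nat_lit 399) (nat_lit 398) (nat_lit 343))) (XT.nd (nat_lit 78) (nat_lit 0) (nat_lit 0) (XT.lf (nat_lit 0) (nat_lit 2652469255) (nat_lit 1064) (nat_lit 4230933673) (nat_lit 1140) (nat_lit 254749077) (nat_lit 575) (nat_lit 5) (nat_lit 589) (nat_lit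 5) (nat_lit 590) (nat_lit 5) (nat_lit 400) (nat_lit 398) (nat_lit 342)) (XT.nd (nat_lit 78) (nat_lit 0) (nat_lit 0) (XT.lf (nat_lit 0) (nat_lit 4380368508) (nat_lit 1064) (nat_lit 767991685) (nat_lit 1140) (nat_lit 2027637130) (nat_lit 575) (nat_lit 5) (nat_lit 589) (nat_lit 5) (nat_lit 590) (nat_lit 5) (nat_lit 401) (nat_lit 398) (nat_lit 341)) (XT.lf (nat_lit 76) (nat_lit 2777145804) (nat_lit 0) (nat_lit 3340277521) (nat_lit 1140) (nat_lit 1097708569) (nat_lit 576) (nat_lit 5) (nat_lit 575) (nat_lit 5) (nat_lit 590) (nat_lit 5) (nat_lit 402) (nat_lit 398) (nat_lit 340))))) (XT.nd (nat_lit 156) (nat_lit 0) (nat_lit 76) (XT.nd (nat_lit 78) (nat_lit 0) (nat_lit 76) (XT.lf (nat_lit 0) (nat_lit 588000732) (nat_lit 1140) (nat_lit 879428219) (nat_lit 1216) (nat_lit 5788318255) (nat_lit 560) (nat_lit 5) (nat_lit 575) (nat_lit 5) (nat_lit 576) (nat_lit 5) (nat_lit 403) (nat_lit 398) (nat_lit 339)) (XT.lf (nat_lit 0) (nat_lit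 2271599379) (nat_lit 1140) (nat_lit 4544987003) (nat_lit 1216) (nat_lit 480888751) (nat_lit 561) (nat_lit 5) (nat_lit 576) (nat_lit 5) (nat_lit 577) (nat_lit 5) (nat_lit 404) (nat_lit 398) (nat_lit 338))) (XT.nd (nat_lit 78) (nat_lit 0) (nat_lit 0) (XT.lf (nat_lit 0) (nat_lit 3963126989) (nat_lit 1140) (nat_lit 904987618) (nat_lit 1216) (nat_lit 2472460322) (nat_lit 561) (nat_lit 5) (nat_lit 576) (nat_lit 5) (nat_lit 577) (nat_lit 5) (nat_lit 405) (nat_lit 398) (nat_lit 337)) (XT.nd (nat_lit 78) (nat_lit 0) (nat_lit 0) (XT.lf (nat_lit 76) (nat_lit 2821011235) (nat_lit 0) (nat_lit 2845199997) (nat_lit 1216) (nat_lit 1718792977) (nat_lit 562) (nat_lit 5) (nat_lit 561) (nat_lit 5) (nat_lit 577) (nat_lit 5) (nat_lit 406) (nat_lit 398) (nat_lit 336)) (XT.lf (nat_lit 76) (nat_lit 6610155392) (nat_lit 0) (nat_lit 759327293) (nat_lit 1216) (nat_lit 61538453) (nat_lit 562) (nat_lit 5) (nat_lit 561) (nat_lit 5) (nat_lit 577) (nat_lit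 5) (nat_lit 407) (nat_lit 398) (nat_lit 335)))))) (XT.nd (nat_lit 390) (nat_lit 1292) (nat_lit 0) (XT.nd (nat_lit 156) (nat_lit 1216) (nat_lit 0) (XT.nd (nat_lit 78) (nat_lit 0) (nat_lit 0) (XT.lf (nat_lit 0) (nat_lit 1596731113) (nat_lit 1216) (nat_lit 4485152167) (nat_lit 1292) (nat_lit 1396099699) (nat_lit 546) (nat_lit 5) (nat_lit 562) (nat_lit 5) (nat_lit 563) (nat_lit 5) (nat_lit 408) (nat_lit 398) (nat_lit 334)) (XT.lf (nat_lit 0) (nat_lit 3259191506) (nat_lit 1216) (nat_lit 661781386) (nat_lit 1292) (nat_lit 3605486374) (nat_lit 546) (nat_lit 5) (nat_lit 562) (nat_lit 5) (nat_lit 563) (nat_lit 5) (nat_lit 409) (nat_lit 398) (nat_lit 333))) (XT.nd (nat_lit 78) (nat_lit 1216) (nat_lit 0) (XT.lf (nat_lit 76) (nat_lit 3256786645) (nat_lit 0) (nat_lit 1681294077) (nat_lit 1292) (nat_lit 2638180696) (nat_lit 547) (nat_lit 5) (nat_lit 546) (nat_lit 5) (nat_lit 563) (nat_lit 5) (nat_lit 410) (nat_lit 398) (nat_lit 332))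 (XT.nd (nat_lit 78) (nat_lit 1292) (nat_lit 0) (XT.lf (nat_lit 0) (nat_lit 6621646373) (nat_lit 1216) (nat_lit 392900540) (nat_lit 1292) (nat_lit 613110271) (nat_lit 547) (nat_lit 5) (nat_lit 563) (nat_lit 5) (nat_lit 564) (nat_lit 5) (nat_lit 411) (nat_lit 398) (nat_lit 331)) (XT.lf (nat_lit 0) (nat_lit 648240435) (nat_lit 1292) (nat_lit 4059993840) (nat_lit 1368) (nat_lit 2971818261) (nat_lit 530) (nat_lit 5) (nat_lit 547) (nat_lit 5) (nat_lit 548) (nat_lit 5) (nat_lit 412) (nat_lit 398) (nat_lit 330))))) (XT.nd (nat_lit 234) (nat_lit 1292) (nat_lit 0) (XT.nd (nat_lit 78) (nat_lit 0) (nat_lit 76) (XT.lf (nat_lit 0) (nat_lit 2288519893) (nat_lit 1292) (nat_lit 46057690) (nat_lit 1368) (nat_lit 5399475360) (nat_lit 530) (nat_lit 5) (nat_lit 547) (nat_lit 5) (nat_lit 548) (nat_lit 5) (nat_lit 413) (nat_lit 398) (nat_lit 329)) (XT.nd (nat_lit 78) (nat_lit 0) (nat_lit 0) (XT.lf (nat_lit 0) (nat_lit 3953349029) (nat_lit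 1292) (nat_lit 3712565958) (nat_lit 1368) (nat_lit 123401544) (nat_lit 531) (nat_lit 5) (nat_lit 548) (nat_lit 5) (nat_lit 549) (nat_lit 5) (nat_lit 414) (nat_lit 398) (nat_lit 328)) (XT.lf (nat_lit 76) (nat_lit 402082458) (nat_lit 0) (nat_lit 5232846484) (nat_lit 1368) (nat_lit 2211105065) (nat_lit 532) (nat_lit 5) (nat_lit 531) (nat_lit 5) (nat_lit 549) (nat_lit 5) (nat_lit 415) (nat_lit 398) (nat_lit 327)))) (XT.nd (nat_lit 78) (nat_lit 1368) (nat_lit 0) (XT.lf (nat_lit 76) (nat_lit 4624822856) (nat_lit 0) (nat_lit 2715828212) (nat_lit 1368) (nat_lit 563441906) (nat_lit 532) (nat_lit 5) (nat_lit 531) (nat_lit 5) (nat_lit 549) (nat_lit 5) (nat_lit 416) (nat_lit 398) (nat_lit 326)) (XT.nd (nat_lit 78) (nat_lit 0) (nat_lit 76) (XT.lf (nat_lit 76) (nat_lit 949389924) (nat_lit 0) (nat_lit 125328465) (nat_lit 1444) (nat_lit 6889022427) (nat_lit 514) (nat_lit 5) (nat_lit 513) (nat_lit 5) (nat_lit 532) (nat_lit 5) (nat_lit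 417) (nat_lit 398) (nat_lit 325)) (XT.lf (nat_lit 0) (nat_lit 2743196555) (nat_lit 1368) (nat_lit 2762382437) (nat_lit 1444) (nat_lit 2518842504) (nat_lit 514) (nat_lit 5) (nat_lit 532) (nat_lit 5) (nat_lit 533) (nat_lit 5) (nat_lit 418) (nat_lit 398) (nat_lit 324))))))) (XT.nd (nat_lit 858) (nat_lit 6384) (nat_lit 0) (XT.nd (nat_lit 390) (nat_lit 4864) (nat_lit 0) (XT.nd (nat_lit 156) (nat_lit 2812) (nat_lit 0) (XT.nd (nat_lit 78) (nat_lit 0) (nat_lit 0) (XT.lf (nat_lit 76) (nat_lit 1569778991) (nat_lit 0) (nat_lit 2853541078) (nat_lit 1444) (nat_lit 3663446237) (nat_lit 515) (nat_lit 5) (nat_lit 514) (nat_lit 5) (nat_lit 533) (nat_lit 5) (nat_lit 419) (nat_lit 398) (nat_lit 323)) (XT.lf (nat_lit 76) (nat_lit 6001586002) (nat_lit 0) (nat_lit 121734230) (nat_lit 1444) (nat_lit 2027328015) (nat_lit 515) (nat_lit 5) (nat_lit 514) (nat_lit 5) (nat_lit 533) (nat_lit 5) (nat_lit 420) (nat_lit 398) (nat_lit 322))) (XT.nd (nat_lit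 78) (nat_lit 1520) (nat_lit 0) (XT.lf (nat_lit 0) (nat_lit 2294350084) (nat_lit 1368) (nat_lit 5563587335) (nat_lit 1444) (nat_lit 357873477) (nat_lit 497) (nat_lit 5) (nat_lit 515) (nat_lit 5) (nat_lit 516) (nat_lit 5) (nat_lit 421) (nat_lit 398) (nat_lit 321)) (XT.nd (nat_lit 78) (nat_lit 1444) (nat_lit 0) (XT.lf (nat_lit 0) (nat_lit 1311312336) (nat_lit 1444) (nat_lit 1460790813) (nat_lit 76) (nat_lit 5510334176) (nat_lit 496) (nat_lit 5) (nat_lit 515) (nat_lit 5) (nat_lit 497) (nat_lit 5) (nat_lit 422) (nat_lit 398) (nat_lit 320)) (XT.lf (nat_lit 0) (nat_lit 2999192469) (nat_lit 1520) (nat_lit 5248275834) (nat_lit 76) (nat_lit 103093140) (nat_lit 477) (nat_lit 5) (nat_lit 497) (nat_lit 5) (nat_lit 478) (nat_lit 5) (nat_lit 423) (nat_lit 398) (nat_lit 319))))) (XT.nd (nat_lit 234) (nat_lit 1748) (nat_lit 0) (XT.nd (nat_lit 78) (nat_lit 3116) (nat_lit 0) (XT.lf (nat_lit 0) (nat_lit 4718813120) (nat_lit 1520) (nat_lit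 686789535) (nat_lit 76) (nat_lit 3014499966) (nat_lit 477) (nat_lit 5) (nat_lit 497) (nat_lit 5) (nat_lit 478) (nat_lit 5) (nat_lit 424) (nat_lit 398) (nat_lit 318)) (XT.nd (nat_lit 78) (nat_lit 1596) (nat_lit 0) (XT.lf (nat_lit 0) (nat_lit 3993856345) (nat_lit 1520) (nat_lit 2475250625) (nat_lit 1596) (nat_lit 2022015994) (nat_lit 457) (nat_lit 5) (nat_lit 477) (nat_lit 5) (nat_lit 478) (nat_lit 5) (nat_lit 425) (nat_lit 398) (nat_lit 317)) (XT.lf (nat_lit 0) (nat_lit 188135092) (nat_lit 1596) (nat_lit 8046273425) (nat_lit 1672) (nat_lit 329568843) (nat_lit 436) (nat_lit 5) (nat_lit 457) (nat_lit 5) (nat_lit 458) (nat_lit 5) (nat_lit 426) (nat_lit 398) (nat_lit 316)))) (XT.nd (nat_lit 78) (nat_lit 1672) (nat_lit 0) (XT.lf (nat_lit 0) (nat_lit 1396193795) (nat_lit 1672) (nat_lit 3660293635) (nat_lit 76) (nat_lit 3581277497) (nat_lit 435) (nat_lit 5) (nat_lit 457) (nat_lit 5) (nat_lit 436) (nat_lit 5) (nat_lit 427) (nat_lit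 398) (nat_lit 315)) (XT.nd (nat_lit 78) (nat_lit 0) (nat_lit 0) (XT.lf (nat_lit 0) (nat_lit 1137642889) (nat_lit 1672) (nat_lit 1993388288) (nat_lit 1748) (nat_lit 5582386948) (nat_lit 413) (nat_lit 5) (nat_lit 435) (nat_lit 5) (nat_lit 436) (nat_lit 5) (nat_lit 428) (nat_lit 398) (nat_lit 314)) (XT.lf (nat_lit 0) (nat_lit 4904636471) (nat_lit 1748) (nat_lit 2741538994) (nat_lit 76) (nat_lit 1144340138) (nat_lit 413) (nat_lit 5) (nat_lit 436) (nat_lit 5) (nat_lit 414) (nat_lit 5) (nat_lit 429) (nat_lit 398) (nat_lit 313)))))) (XT.nd (nat_lit 390) (nat_lit 2584) (nat_lit 0) (XT.nd (nat_lit 156) (nat_lit 2052) (nat_lit 0) (XT.nd (nat_lit 78) (nat_lit 0) (nat_lit 0) (XT.lf (nat_lit 0) (nat_lit 2180171564) (nat_lit 1748) (nat_lit 4533450612) (nat_lit 1824) (nat_lit 2155547083) (nat_lit 390) (nat_lit 5) (nat_lit 413) (nat_lit 5) (nat_lit 414) (nat_lit 5) (nat_lit 430) (nat_lit 398) (nat_lit 312)) (XT.lf (nat_lit 0) (nat_lit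 7213037970) (nat_lit 1748) (nat_lit 1337078244) (nat_lit 1824) (nat_lit 399465350) (nat_lit 390) (nat_lit 5) (nat_lit 413) (nat_lit 5) (nat_lit 414) (nat_lit 5) (nat_lit 431) (nat_lit 398) (nat_lit 311))) (XT.nd (nat_lit 78) (nat_lit 912) (nat_lit 0) (XT.lf (nat_lit 0) (nat_lit 1381054479) (nat_lit 1140) (nat_lit 5719035090) (nat_lit 76) (nat_lit 1931192118) (nat_lit 375) (nat_lit 5) (nat_lit 390) (nat_lit 5) (nat_lit 376) (nat_lit 5) (nat_lit 432) (nat_lit 398) (nat_lit 310)) (XT.nd (nat_lit 78) (nat_lit 912) (nat_lit 0) (XT.lf (nat_lit 0) (nat_lit 3186082013) (nat_lit 1140) (nat_lit 665129349) (nat_lit 76) (nat_lit 5263478166) (nat_lit 375) (nat_lit 5) (nat_lit 390) (nat_lit 5) (nat_lit 376) (nat_lit 5) (nat_lit 433) (nat_lit 398) (nat_lit 309)) (XT.lf (nat_lit 0) (nat_lit 4524963908) (nat_lit 912) (nat_lit 505797837) (nat_lit 988) (nat_lit 4168943974) (nat_lit 363) (nat_lit 5) (nat_lit 375) (nat_lit 5) (nat_lit 376)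 (nat_lit 5) (nat_lit 434) (nat_lit 398) (nat_lit 308))))) (XT.nd (nat_lit 234) (nat_lit 836) (nat_lit 0) (XT.nd (nat_lit 78) (nat_lit 912) (nat_lit 0) (XT.lf (nat_lit 0) (nat_lit 504653543) (nat_lit 836) (nat_lit 6408853853) (nat_lit 912) (nat_lit 2372902396) (nat_lit 352) (nat_lit 5) (nat_lit 363) (nat_lit 5) (nat_lit 364) (nat_lit 5) (nat_lit 435) (nat_lit 398) (nat_lit 307)) (XT.nd (nat_lit 78) (nat_lit 912) (nat_lit 0) (XT.lf (nat_lit 0) (nat_lit 5823165369) (nat_lit 836) (nat_lit 3020312621) (nat_lit 912) (nat_lit 531189344) (nat_lit 352) (nat_lit 5) (nat_lit 363) (nat_lit 5) (nat_lit 364) (nat_lit 5) (nat_lit 436) (nat_lit 398) (nat_lit 306)) (XT.lf (nat_lit 0) (nat_lit 1319362091) (nat_lit 912) (nat_lit 7694194858) (nat_lit 76) (nat_lit 451174991) (nat_lit 340) (nat_lit 5) (nat_lit 352) (nat_lit 5) (nat_lit 341) (nat_lit 5) (nat_lit 437) (nat_lit 398) (nat_lit 305)))) (XT.nd (nat_lit 78) (nat_lit 836) (nat_lit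 0) (XT.lf (nat_lit 0) (nat_lit 3219334314) (nat_lit 912) (nat_lit 2357287824) (nat_lit 76) (nat_lit 3979525196) (nat_lit 340) (nat_lit 5) (nat_lit 352) (nat_lit 5) (nat_lit 341) (nat_lit 5) (nat_lit 438) (nat_lit 398) (nat_lit 304)) (XT.nd (nat_lit 78) (nat_lit 0) (nat_lit 0) (XT.lf (nat_lit 0) (nat_lit 3102888189) (nat_lit 836) (nat_lit 2050567118) (nat_lit 912) (nat_lit 4496022708) (nat_lit 329) (nat_lit 5) (nat_lit 340) (nat_lit 5) (nat_lit 341) (nat_lit 5) (nat_lit 439) (nat_lit 398) (nat_lit 303)) (XT.lf (nat_lit 0) (nat_lit 7128535727) (nat_lit 912) (nat_lit 1074766472) (nat_lit 76) (nat_lit 1541337344) (nat_lit 329) (nat_lit 5) (nat_lit 341) (nat_lit 5) (nat_lit 330) (nat_lit 5) (nat_lit 440) (nat_lit 398) (nat_lit 302))))))))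
noncomputable def xc144 : XT := (XT.nd (nat_lit 1638) (nat_lit 6080) (nat_lit 0) (XT.nd (nat_lit 780) (nat_lit 3800) (nat_lit 0) (XT.nd (nat_lit 390) (nat_lit 2204) (nat_lit 0) (XT.nd (nat_lit 156) (nat_lit 760) (nat_lit 0) (XT.nd (nat_lit 78) (nat_lit 836) (nat_lit 0) (XT.lf (nat_lit 0) (nat_lit 4528296546) (nat_lit 836) (nat_lit 4634582108) (nat_lit 912) (nat_lit 678440009) (nat_lit 318) (nat_lit 5) (nat_lit 329) (nat_lit 5) (nat_lit 330) (nat_lit 5) (nat_lit 441) (nat_lit 398) (nat_lit 301)) (XT.lf (nat_lit 0) (nat_lit 289358027) (nat_lit 760) (nat_lit 977654238) (nat_lit 836) (nat_lit 8673038597) (nat_lit 307) (nat_lit 5) (nat_lit 317) (nat_lit 5) (nat_lit 318) (nat_lit 5) (nat_lit 442) (nat_lit 398) (nat_lit 300))) (XT.nd (nat_lit 78) (nat_lit 760) (nat_lit 0) (XT.lf (nat_lit 0) (nat_lit 3273265983) (nat_lit 836) (nat_lit 4011301132) (nat_lit 76) (nat_lit 2755490391) (nat_lit 307) (nat_lit 5) (nat_lit 318) (nat_lit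 5) (nat_lit 308) (nat_lit 5) (nat_lit 443) (nat_lit 398) (nat_lit 299)) (XT.nd (nat_lit 78) (nat_lit 0) (nat_lit 0) (XT.lf (nat_lit 0) (nat_lit 1733152021) (nat_lit 760) (nat_lit 3581875394) (nat_lit 836) (nat_lit 4827138067) (nat_lit 297) (nat_lit 5) (nat_lit 307) (nat_lit 5) (nat_lit 308) (nat_lit 5) (nat_lit 444) (nat_lit 398) (nat_lit 298)) (XT.lf (nat_lit 0) (nat_lit 7403912840) (nat_lit 836) (nat_lit 2624615395) (nat_lit 76) (nat_lit 217670284) (nat_lit 297) (nat_lit 5) (nat_lit 308) (nat_lit 5) (nat_lit 298) (nat_lit 5) (nat_lit 445) (nat_lit 398) (nat_lit 297))))) (XT.nd (nat_lit 156) (nat_lit 1444) (nat_lit 0) (XT.nd (nat_lit 78) (nat_lit 76) (nat_lit 0) (XT.lf (nat_lit 0) (nat_lit 3270860144) (nat_lit 684) (nat_lit 6287033582) (nat_lit 760) (nat_lit 793960644) (nat_lit 288) (nat_lit 5) (nat_lit 297) (nat_lit 5) (nat_lit 298) (nat_lit 5) (nat_lit 446) (nat_lit 398) (nat_lit 296)) (XT.lf (nat_lit 0) (nat_lit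 1274552850) (nat_lit 760) (nat_lit 1171900357) (nat_lit 76) (nat_lit 8013085895) (nat_lit 287) (nat_lit 5) (nat_lit 297) (nat_lit 5) (nat_lit 288) (nat_lit 5) (nat_lit 447) (nat_lit 398) (nat_lit 295))) (XT.nd (nat_lit 78) (nat_lit 684) (nat_lit 0) (XT.lf (nat_lit 0) (nat_lit 3394253080) (nat_lit 836) (nat_lit 5688042093) (nat_lit 76) (nat_lit 1486576457) (nat_lit 277) (nat_lit 5) (nat_lit 288) (nat_lit 5) (nat_lit 278) (nat_lit 5) (nat_lit 448) (nat_lit 398) (nat_lit 294)) (XT.nd (nat_lit 78) (nat_lit 0) (nat_lit 0) (XT.lf (nat_lit 0) (nat_lit 354957364) (nat_lit 684) (nat_lit 5206961951) (nat_lit 760) (nat_lit 5118367915) (nat_lit 268) (nat_lit 5) (nat_lit 277) (nat_lit 5) (nat_lit 278) (nat_lit 5) (nat_lit 449) (nat_lit 398) (nat_lit 293)) (XT.lf (nat_lit 0) (nat_lit 6572365580) (nat_lit 684) (nat_lit 1218148510) (nat_lit 760) (nat_lit 3003073252) (nat_lit 268) (nat_lit 5) (nat_lit 277) (nat_lit 5) (nat_lit 278) (nat_lit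 5) (nat_lit 450) (nat_lit 398) (nat_lit 292)))))) (XT.nd (nat_lit 390) (nat_lit 1824) (nat_lit 0) (XT.nd (nat_lit 156) (nat_lit 1216) (nat_lit 0) (XT.nd (nat_lit 78) (nat_lit 76) (nat_lit 0) (XT.lf (nat_lit 0) (nat_lit 1989063651) (nat_lit 684) (nat_lit 8085828820) (nat_lit 760) (nat_lit 834044305) (nat_lit 259) (nat_lit 5) (nat_lit 268) (nat_lit 5) (nat_lit 269) (nat_lit 5) (nat_lit 451) (nat_lit 398) (nat_lit 291)) (XT.lf (nat_lit 0) (nat_lit 1376764833) (nat_lit 760) (nat_lit 2686060939) (nat_lit 76) (nat_lit 6963266160) (nat_lit 258) (nat_lit 5) (nat_lit 268) (nat_lit 5) (nat_lit 259) (nat_lit 5) (nat_lit 452) (nat_lit 398) (nat_lit 290))) (XT.nd (nat_lit 78) (nat_lit 608) (nat_lit 0) (XT.lf (nat_lit 0) (nat_lit 3625331660) (nat_lit 684) (nat_lit 7453652716) (nat_lit 76) (nat_lit 66408487) (nat_lit 250) (nat_lit 5) (nat_lit 259) (nat_lit 5) (nat_lit 251) (nat_lit 5) (nat_lit 453) (nat_lit 398) (nat_lit 289)) (XT.nd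 (nat_lit 78) (nat_lit 608) (nat_lit 0) (XT.lf (nat_lit 0) (nat_lit 5944424483) (nat_lit 684) (nat_lit 1083600565) (nat_lit 76) (nat_lit 4238550648) (nat_lit 250) (nat_lit 5) (nat_lit 259) (nat_lit 5) (nat_lit 251) (nat_lit 5) (nat_lit 454) (nat_lit 398) (nat_lit 288)) (XT.lf (nat_lit 0) (nat_lit 5462590315) (nat_lit 608) (nat_lit 2863662153) (nat_lit 684) (nat_lit 3063609495) (nat_lit 242) (nat_lit 5) (nat_lit 250) (nat_lit 5) (nat_lit 251) (nat_lit 5) (nat_lit 455) (nat_lit 398) (nat_lit 287))))) (XT.nd (nat_lit 234) (nat_lit 532) (nat_lit 0) (XT.nd (nat_lit 78) (nat_lit 684) (nat_lit 0) (XT.lf (nat_lit 0) (nat_lit 614841009) (nat_lit 608) (nat_lit 10142261881) (nat_lit 684) (nat_lit 758490055) (nat_lit 234) (nat_lit 5) (nat_lit 242) (nat_lit 5) (nat_lit 243) (nat_lit 5) (nat_lit 456) (nat_lit 398) (nat_lit 286)) (XT.nd (nat_lit 78) (nat_lit 608) (nat_lit 0) (XT.lf (nat_lit 0) (nat_lit 1612025919) (nat_lit 684) (nat_lit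 4327688818) (nat_lit 76) (nat_lit 5703119773) (nat_lit 233) (nat_lit 5) (nat_lit 242) (nat_lit 5) (nat_lit 234) (nat_lit 5) (nat_lit 457) (nat_lit 398) (nat_lit 285)) (XT.lf (nat_lit 0) (nat_lit 2380267051) (nat_lit 608) (nat_lit 1636541703) (nat_lit 684) (nat_lit 7755777947) (nat_lit 225) (nat_lit 5) (nat_lit 233) (nat_lit 5) (nat_lit 234) (nat_lit 5) (nat_lit 458) (nat_lit 398) (nat_lit 284)))) (XT.nd (nat_lit 78) (nat_lit 532) (nat_lit 0) (XT.lf (nat_lit 0) (nat_lit 6498528464) (nat_lit 684) (nat_lit 2664328530) (nat_lit 76) (nat_lit 2741506314) (nat_lit 225) (nat_lit 5) (nat_lit 234) (nat_lit 5) (nat_lit 226) (nat_lit 5) (nat_lit 459) (nat_lit 398) (nat_lit 283)) (XT.nd (nat_lit 78) (nat_lit 0) (nat_lit 0) (XT.lf (nat_lit 0) (nat_lit 4220227776) (nat_lit 532) (nat_lit 4829986963) (nat_lit 608) (nat_lit 2988160141) (nat_lit 218) (nat_lit 5) (nat_lit 225) (nat_lit 5) (nat_lit 226) (nat_lit 5) (nat_lit 460) (nat_lit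 398) (nat_lit 282)) (XT.lf (nat_lit 0) (nat_lit 11256233290) (nat_lit 532) (nat_lit 396880071) (nat_lit 608) (nat_lit 521955706) (nat_lit 218) (nat_lit 5) (nat_lit 225) (nat_lit 5) (nat_lit 226) (nat_lit 5) (nat_lit 461) (nat_lit 398) (nat_lit 281))))))) (XT.nd (nat_lit 780) (nat_lit 2736) (nat_lit 0) (XT.nd (nat_lit 390) (nat_lit 1596) (nat_lit 0) (XT.nd (nat_lit 156) (nat_lit 532) (nat_lit 0) (XT.nd (nat_lit 78) (nat_lit 532) (nat_lit 0) (XT.lf (nat_lit 0) (nat_lit 2017076694) (nat_lit 684) (nat_lit 6176689215) (nat_lit 76) (nat_lit 4119485082) (nat_lit 209) (nat_lit 5) (nat_lit 218) (nat_lit 5) (nat_lit 210) (nat_lit 5) (nat_lit 462) (nat_lit 398) (nat_lit 280)) (XT.lf (nat_lit 0) (nat_lit 874460242) (nat_lit 532) (nat_lit 3722654589) (nat_lit 608) (nat_lit 7857074053) (nat_lit 202) (nat_lit 5) (nat_lit 209) (nat_lit 5) (nat_lit 210) (nat_lit 5) (nat_lit 463) (nat_lit 398) (nat_lit 279))) (XT.nd (nat_lit 78) (nat_lit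 532) (nat_lit 0) (XT.lf (nat_lit 0) (nat_lit 7258774370) (nat_lit 608) (nat_lit 4474971338) (nat_lit 76) (nat_lit 863604915) (nat_lit 202) (nat_lit 5) (nat_lit 210) (nat_lit 5) (nat_lit 203) (nat_lit 5) (nat_lit 464) (nat_lit 398) (nat_lit 278)) (XT.nd (nat_lit 78) (nat_lit 0) (nat_lit 0) (XT.lf (nat_lit 0) (nat_lit 2761385446) (nat_lit 532) (nat_lit 7238057115) (nat_lit 608) (nat_lit 2743422923) (nat_lit 195) (nat_lit 5) (nat_lit 202) (nat_lit 5) (nat_lit 203) (nat_lit 5) (nat_lit 465) (nat_lit 398) (nat_lit 277)) (XT.lf (nat_lit 0) (nat_lit 10181215513) (nat_lit 532) (nat_lit 2627118656) (nat_lit 608) (nat_lit 82693560) (nat_lit 195) (nat_lit 5) (nat_lit 202) (nat_lit 5) (nat_lit 203) (nat_lit 5) (nat_lit 466) (nat_lit 398) (nat_lit 276))))) (XT.nd (nat_lit 156) (nat_lit 1064) (nat_lit 0) (XT.nd (nat_lit 78) (nat_lit 0) (nat_lit 0) (XT.lf (nat_lit 0) (nat_lit 2624809510) (nat_lit 532) (nat_lit 8324751318) (nat_lit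 76) (nat_lit 2091694430) (nat_lit 188) (nat_lit 5) (nat_lit 195) (nat_lit 5) (nat_lit 189) (nat_lit 5) (nat_lit 467) (nat_lit 398) (nat_lit 275)) (XT.lf (nat_lit 0) (nat_lit 5404799753) (nat_lit 532) (nat_lit 905969937) (nat_lit 76) (nat_lit 6883322812) (nat_lit 188) (nat_lit 5) (nat_lit 195) (nat_lit 5) (nat_lit 189) (nat_lit 5) (nat_lit 468) (nat_lit 398) (nat_lit 274))) (XT.nd (nat_lit 78) (nat_lit 532) (nat_lit 0) (XT.lf (nat_lit 0) (nat_lit 6727995826) (nat_lit 532) (nat_lit 1540135912) (nat_lit 608) (nat_lit 5081304799) (nat_lit 181) (nat_lit 5) (nat_lit 188) (nat_lit 5) (nat_lit 189) (nat_lit 5) (nat_lit 469) (nat_lit 398) (nat_lit 273)) (XT.nd (nat_lit 78) (nat_lit 76) (nat_lit 0) (XT.lf (nat_lit 0) (nat_lit 988917867) (nat_lit 456) (nat_lit 10218144831) (nat_lit 532) (nat_lit 2300462901) (nat_lit 175) (nat_lit 5) (nat_lit 181) (nat_lit 5) (nat_lit 182) (nat_lit 5) (nat_lit 470) (nat_lit 398) (nat_lit 272)) (XT.lf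 (nat_lit 0) (nat_lit 568153694) (nat_lit 532) (nat_lit 4862267899) (nat_lit 76) (nat_lit 8237506100) (nat_lit 174) (nat_lit 5) (nat_lit 181) (nat_lit 5) (nat_lit 175) (nat_lit 5) (nat_lit 471) (nat_lit 398) (nat_lit 271)))))) (XT.nd (nat_lit 390) (nat_lit 1292) (nat_lit 0) (XT.nd (nat_lit 156) (nat_lit 988) (nat_lit 0) (XT.nd (nat_lit 78) (nat_lit 0) (nat_lit 0) (XT.lf (nat_lit 0) (nat_lit 2949425299) (nat_lit 456) (nat_lit 517661517) (nat_lit 532) (nat_lit 10364076459) (nat_lit 168) (nat_lit 5) (nat_lit 174) (nat_lit 5) (nat_lit 175) (nat_lit 5) (nat_lit 472) (nat_lit 398) (nat_lit 270)) (XT.lf (nat_lit 0) (nat_lit 6470713803) (nat_lit 532) (nat_lit 3064492415) (nat_lit 76) (nat_lit 4461527472) (nat_lit 168) (nat_lit 5) (nat_lit 175) (nat_lit 5) (nat_lit 169) (nat_lit 5) (nat_lit 473) (nat_lit 398) (nat_lit 269))) (XT.nd (nat_lit 78) (nat_lit 532) (nat_lit 0) (XT.lf (nat_lit 0) (nat_lit 4949650904) (nat_lit 456) (nat_lit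 4605324032) (nat_lit 532) (nat_lit 4610233683) (nat_lit 162) (nat_lit 5) (nat_lit 168) (nat_lit 5) (nat_lit 169) (nat_lit 5) (nat_lit 474) (nat_lit 398) (nat_lit 268)) (XT.nd (nat_lit 78) (nat_lit 532) (nat_lit 0) (XT.lf (nat_lit 0) (nat_lit 12709486717) (nat_lit 532) (nat_lit 1194967513) (nat_lit 76) (nat_lit 432431764) (nat_lit 162) (nat_lit 5) (nat_lit 169) (nat_lit 5) (nat_lit 163) (nat_lit 5) (nat_lit 475) (nat_lit 398) (nat_lit 267)) (XT.lf (nat_lit 0) (nat_lit 1458468407) (nat_lit 532) (nat_lit 7493315256) (nat_lit 76) (nat_lit 5558794871) (nat_lit 155) (nat_lit 5) (nat_lit 162) (nat_lit 5) (nat_lit 156) (nat_lit 5) (nat_lit 476) (nat_lit 398) (nat_lit 266))))) (XT.nd (nat_lit 234) (nat_lit 456) (nat_lit 0) (XT.nd (nat_lit 78) (nat_lit 456) (nat_lit 0) (XT.lf (nat_lit 0) (nat_lit 699994514) (nat_lit 380) (nat_lit 3882367779) (nat_lit 456) (nat_lit 10105209503) (nat_lit 150) (nat_lit 5) (nat_lit 155) (nat_lit 5)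 (nat_lit 156) (nat_lit 5) (nat_lit 477) (nat_lit 398) (nat_lit 265)) (XT.nd (nat_lit 78) (nat_lit 456) (nat_lit 0) (XT.lf (nat_lit 0) (nat_lit 7813290423) (nat_lit 456) (nat_lit 5737876240) (nat_lit 76) (nat_lit 1316051064) (nat_lit 150) (nat_lit 5) (nat_lit 156) (nat_lit 5) (nat_lit 151) (nat_lit 5) (nat_lit 478) (nat_lit 398) (nat_lit 264)) (XT.lf (nat_lit 0) (nat_lit 2665653652) (nat_lit 456) (nat_lit 8472058447) (nat_lit 532) (nat_lit 3912170831) (nat_lit 144) (nat_lit 5) (nat_lit 150) (nat_lit 5) (nat_lit 151) (nat_lit 5) (nat_lit 479) (nat_lit 398) (nat_lit 263)))) (XT.nd (nat_lit 78) (nat_lit 456) (nat_lit 0) (XT.lf (nat_lit 0) (nat_lit 11294752219) (nat_lit 456) (nat_lit 3258376553) (nat_lit 532) (nat_lit 682586310) (nat_lit 144) (nat_lit 5) (nat_lit 150) (nat_lit 5) (nat_lit 151) (nat_lit 5) (nat_lit 480) (nat_lit 398) (nat_lit 262)) (XT.nd (nat_lit 78) (nat_lit 0) (nat_lit 0) (XT.lf (nat_lit 0) (nat_lit 2607654289)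 (nat_lit 456) (nat_lit 10742512670) (nat_lit 76) (nat_lit 2074155108) (nat_lit 138) (nat_lit 5) (nat_lit 144) (nat_lit 5) (nat_lit 139) (nat_lit 5) (nat_lit 481) (nat_lit 398) (nat_lit 261)) (XT.lf (nat_lit 0) (nat_lit 5989051290) (nat_lit 456) (nat_lit 2132162952) (nat_lit 76) (nat_lit 7494710443) (nat_lit 138) (nat_lit 5) (nat_lit 144) (nat_lit 5) (nat_lit 139) (nat_lit 5) (nat_lit 482) (nat_lit 398) (nat_lit 260))))))))
noncomputable def xc145 : XT := (XT.nd (nat_lit 52806) (nat_lit 0) (nat_lit 32680) (XT.nd (nat_lit 780) (nat_lit 1900) (nat_lit 0) (XT.nd (nat_lit 390) (nat_lit 1064) (nat_lit 0) (XT.nd (nat_lit 156) (nat_lit 836) (nat_lit 0) (XT.nd (nat_lit 78) (nat_lit 0) (nat_lit 0) (XT.lf (nat_lit 0) (nat_lit 6718732376) (nat_lit 380) (nat_lit 2749518429) (nat_lit 456) (nat_lit 6342508549) (nat_lit 133) (nat_lit 5) (nat_lit 138) (nat_lit 5) (nat_lit 139) (nat_lit 5) (nat_lit 483) (nat_lit 398) (nat_lit 259)) (XT.lf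 (nat_lit 0) (nat_lit 13035806526) (nat_lit 456) (nat_lit 271351273) (nat_lit 76) (nat_lit 2701960894) (nat_lit 133) (nat_lit 5) (nat_lit 139) (nat_lit 5) (nat_lit 134) (nat_lit 5) (nat_lit 484) (nat_lit 398) (nat_lit 258))) (XT.nd (nat_lit 78) (nat_lit 380) (nat_lit 0) (XT.lf (nat_lit 0) (nat_lit 519877208) (nat_lit 456) (nat_lit 7410121993) (nat_lit 76) (nat_lit 8280135450) (nat_lit 127) (nat_lit 5) (nat_lit 133) (nat_lit 5) (nat_lit 128) (nat_lit 5) (nat_lit 485) (nat_lit 398) (nat_lit 257)) (XT.nd (nat_lit 78) (nat_lit 0) (nat_lit 0) (XT.lf (nat_lit 0) (nat_lit 1623400069) (nat_lit 380) (nat_lit 2419078848) (nat_lit 456) (nat_lit 12372314940) (nat_lit 122) (nat_lit 5) (nat_lit 127) (nat_lit 5) (nat_lit 128) (nat_lit 5) (nat_lit 486) (nat_lit 398) (nat_lit 256)) (XT.lf (nat_lit 0) (nat_lit 7693416244) (nat_lit 456) (nat_lit 5725258951) (nat_lit 76) (nat_lit 3203716542) (nat_lit 122) (nat_lit 5) (nat_lit 128) (nat_lit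 5) (nat_lit 123) (nat_lit 5) (nat_lit 487) (nat_lit 398) (nat_lit 255))))) (XT.nd (nat_lit 156) (nat_lit 760) (nat_lit 0) (XT.nd (nat_lit 78) (nat_lit 0) (nat_lit 0) (XT.lf (nat_lit 0) (nat_lit 3533275839) (nat_lit 304) (nat_lit 7910349940) (nat_lit 380) (nat_lit 5389993823) (nat_lit 118) (nat_lit 5) (nat_lit 122) (nat_lit 5) (nat_lit 123) (nat_lit 5) (nat_lit 488) (nat_lit 398) (nat_lit 254)) (XT.lf (nat_lit 0) (nat_lit 13035473408) (nat_lit 304) (nat_lit 2259203356) (nat_lit 380) (nat_lit 1753881555) (nat_lit 118) (nat_lit 5) (nat_lit 122) (nat_lit 5) (nat_lit 123) (nat_lit 5) (nat_lit 489) (nat_lit 398) (nat_lit 253))) (XT.nd (nat_lit 78) (nat_lit 304) (nat_lit 0) (XT.lf (nat_lit 0) (nat_lit 1975640856) (nat_lit 456) (nat_lit 11789656752) (nat_lit 76) (nat_lit 3501320715) (nat_lit 112) (nat_lit 5) (nat_lit 118) (nat_lit 5) (nat_lit 113) (nat_lit 5) (nat_lit 490) (nat_lit 398) (nat_lit 252)) (XT.nd (nat_lit 78) (nat_lit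 304) (nat_lit 0) (XT.lf (nat_lit 0) (nat_lit 5786020363) (nat_lit 456) (nat_lit 2323039395) (nat_lit 76) (nat_lit 9379155746) (nat_lit 112) (nat_lit 5) (nat_lit 118) (nat_lit 5) (nat_lit 113) (nat_lit 5) (nat_lit 491) (nat_lit 398) (nat_lit 251)) (XT.lf (nat_lit 0) (nat_lit 7411494961) (nat_lit 304) (nat_lit 2297134117) (nat_lit 380) (nat_lit 8004897926) (nat_lit 108) (nat_lit 5) (nat_lit 112) (nat_lit 5) (nat_lit 113) (nat_lit 5) (nat_lit 492) (nat_lit 398) (nat_lit 250)))))) (XT.nd (nat_lit 390) (nat_lit 912) (nat_lit 0) (XT.nd (nat_lit 156) (nat_lit 684) (nat_lit 0) (XT.nd (nat_lit 78) (nat_lit 304) (nat_lit 0) (XT.lf (nat_lit 0) (nat_lit 13736933200) (nat_lit 380) (nat_lit 613197869) (nat_lit 76) (nat_lit 3592671551) (nat_lit 108) (nat_lit 5) (nat_lit 113) (nat_lit 5) (nat_lit 109) (nat_lit 5) (nat_lit 493) (nat_lit 398) (nat_lit 249)) (XT.lf (nat_lit 0) (nat_lit 9358610593) (nat_lit 304) (nat_lit 8551379811) (nat_lit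 380) (nat_lit 265392302) (nat_lit 104) (nat_lit 5) (nat_lit 108) (nat_lit 5) (nat_lit 109) (nat_lit 5) (nat_lit 494) (nat_lit 398) (nat_lit 248))) (XT.nd (nat_lit 78) (nat_lit 304) (nat_lit 0) (XT.lf (nat_lit 0) (nat_lit 1097258233) (nat_lit 304) (nat_lit 2606914256) (nat_lit 380) (nat_lit 14707966819) (nat_lit 99) (nat_lit 5) (nat_lit 103) (nat_lit 5) (nat_lit 104) (nat_lit 5) (nat_lit 495) (nat_lit 398) (nat_lit 247)) (XT.nd (nat_lit 78) (nat_lit 304) (nat_lit 0) (XT.lf (nat_lit 0) (nat_lit 7819890822) (nat_lit 380) (nat_lit 7366395137) (nat_lit 76) (nat_lit 3465906224) (nat_lit 99) (nat_lit 5) (nat_lit 104) (nat_lit 5) (nat_lit 100) (nat_lit 5) (nat_lit 496) (nat_lit 398) (nat_lit 246)) (XT.lf (nat_lit 0) (nat_lit 2782207536) (nat_lit 304) (nat_lit 9259587409) (nat_lit 380) (nat_lit 6854776233) (nat_lit 95) (nat_lit 5) (nat_lit 99) (nat_lit 5) (nat_lit 100) (nat_lit 5) (nat_lit 497) (nat_lit 398) (nat_lit 245)))))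 (XT.nd (nat_lit 234) (nat_lit 532) (nat_lit 0) (XT.nd (nat_lit 78) (nat_lit 380) (nat_lit 0) (XT.lf (nat_lit 0) (nat_lit 13215676819) (nat_lit 304) (nat_lit 3170543918) (nat_lit 380) (nat_lit 2758857789) (nat_lit 95) (nat_lit 5) (nat_lit 99) (nat_lit 5) (nat_lit 100) (nat_lit 5) (nat_lit 498) (nat_lit 398) (nat_lit 244)) (XT.nd (nat_lit 78) (nat_lit 0) (nat_lit 0) (XT.lf (nat_lit 0) (nat_lit 1438277405) (nat_lit 380) (nat_lit 14926774700) (nat_lit 76) (nat_lit 3032563834) (nat_lit 90) (nat_lit 5) (nat_lit 95) (nat_lit 5) (nat_lit 91) (nat_lit 5) (nat_lit 499) (nat_lit 398) (nat_lit 243)) (XT.lf (nat_lit 0) (nat_lit 5732358925) (nat_lit 380) (nat_lit 4552298618) (nat_lit 76) (nat_lit 9369185243) (nat_lit 90) (nat_lit 5) (nat_lit 95) (nat_lit 5) (nat_lit 91) (nat_lit 5) (nat_lit 500) (nat_lit 398) (nat_lit 242)))) (XT.nd (nat_lit 78) (nat_lit 228) (nat_lit 0) (XT.lf (nat_lit 0) (nat_lit 6092092453) (nat_lit 304) (nat_lit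 4048862255) (nat_lit 380) (nat_lit 9773669068) (nat_lit 86) (nat_lit 5) (nat_lit 90) (nat_lit 5) (nat_lit 91) (nat_lit 5) (nat_lit 501) (nat_lit 398) (nat_lit 241)) (XT.nd (nat_lit 78) (nat_lit 228) (nat_lit 0) (XT.lf (nat_lit 0) (nat_lit 14672619508) (nat_lit 380) (nat_lit 3201676149) (nat_lit 76) (nat_lit 2305628999) (nat_lit 86) (nat_lit 5) (nat_lit 91) (nat_lit 5) (nat_lit 87) (nat_lit 5) (nat_lit 502) (nat_lit 398) (nat_lit 240)) (XT.lf (nat_lit 0) (nat_lit 7688426769) (nat_lit 228) (nat_lit 11672573559) (nat_lit 304) (nat_lit 1088211740) (nat_lit 83) (nat_lit 5) (nat_lit 86) (nat_lit 5) (nat_lit 87) (nat_lit 5) (nat_lit 503) (nat_lit 398) (nat_lit 239))))))) (XT.nd (nat_lit 858) (nat_lit 2432) (nat_lit 0) (XT.nd (nat_lit 390) (nat_lit 1140) (nat_lit 0) (XT.nd (nat_lit 156) (nat_lit 1064) (nat_lit 0) (XT.nd (nat_lit 78) (nat_lit 0) (nat_lit 0) (XT.lf (nat_lit 0) (nat_lit 1310214542) (nat_lit 1140) (nat_lit 1129240024)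 (nat_lit 1140) (nat_lit 1129240024) (nat_lit 574) (nat_lit 3) (nat_lit 589) (nat_lit 3) (nat_lit 589) (nat_lit 5) (nat_lit 399) (nat_lit 399) (nat_lit 342)) (XT.lf (nat_lit 76) (nat_lit 1166429583) (nat_lit 0) (nat_lit 3143294523) (nat_lit 1140) (nat_lit 2864850774) (nat_lit 575) (nat_lit 5) (nat_lit 574) (nat_lit 3) (nat_lit 589) (nat_lit 5) (nat_lit 400) (nat_lit 399) (nat_lit 341))) (XT.nd (nat_lit 78) (nat_lit 1064) (nat_lit 0) (XT.lf (nat_lit 76) (nat_lit 4667998412) (nat_lit 0) (nat_lit 1336391605) (nat_lit 1140) (nat_lit 1208706876) (nat_lit 575) (nat_lit 5) (nat_lit 574) (nat_lit 3) (nat_lit 589) (nat_lit 5) (nat_lit 401) (nat_lit 399) (nat_lit 340)) (XT.nd (nat_lit 78) (nat_lit 0) (nat_lit 0) (XT.lf (nat_lit 0) (nat_lit 441044730) (nat_lit 1140) (nat_lit 6282310243) (nat_lit 1216) (nat_lit 529659578) (nat_lit 560) (nat_lit 5) (nat_lit 575) (nat_lit 5) (nat_lit 576) (nat_lit 5) (nat_lit 402) (nat_lit 399) (nat_lit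 339)) (XT.lf (nat_lit 0) (nat_lit 2091468310) (nat_lit 1140) (nat_lit 2742492180) (nat_lit 1216) (nat_lit 2459955948) (nat_lit 560) (nat_lit 5) (nat_lit 575) (nat_lit 5) (nat_lit 576) (nat_lit 5) (nat_lit 403) (nat_lit 399) (nat_lit 338))))) (XT.nd (nat_lit 234) (nat_lit 1140) (nat_lit 0) (XT.nd (nat_lit 78) (nat_lit 0) (nat_lit 0) (XT.lf (nat_lit 76) (nat_lit 856355690) (nat_lit 0) (nat_lit 2882736137) (nat_lit 1216) (nat_lit 3597283156) (nat_lit 561) (nat_lit 5) (nat_lit 560) (nat_lit 5) (nat_lit 576) (nat_lit 5) (nat_lit 404) (nat_lit 399) (nat_lit 337)) (XT.nd (nat_lit 78) (nat_lit 0) (nat_lit 76) (XT.lf (nat_lit 76) (nat_lit 4541509210) (nat_lit 0) (nat_lit 855856421) (nat_lit 1216) (nat_lit 1982785119) (nat_lit 561) (nat_lit 5) (nat_lit 560) (nat_lit 5) (nat_lit 576) (nat_lit 5) (nat_lit 405) (nat_lit 399) (nat_lit 336)) (XT.lf (nat_lit 76) (nat_lit 855586735) (nat_lit 0) (nat_lit 6206845554) (nat_lit 1216) (nat_lit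 362918774) (nat_lit 562) (nat_lit 5) (nat_lit 561) (nat_lit 5) (nat_lit 577) (nat_lit 5) (nat_lit 406) (nat_lit 399) (nat_lit 335)))) (XT.nd (nat_lit 78) (nat_lit 0) (nat_lit 0) (XT.lf (nat_lit 0) (nat_lit 1257833384) (nat_lit 1216) (nat_lit 2846785037) (nat_lit 1292) (nat_lit 3366982304) (nat_lit 545) (nat_lit 5) (nat_lit 561) (nat_lit 5) (nat_lit 562) (nat_lit 5) (nat_lit 407) (nat_lit 399) (nat_lit 334)) (XT.nd (nat_lit 78) (nat_lit 0) (nat_lit 76) (XT.lf (nat_lit 76) (nat_lit 937284843) (nat_lit 0) (nat_lit 1936275320) (nat_lit 1292) (nat_lit 4645839190) (nat_lit 546) (nat_lit 5) (nat_lit 545) (nat_lit 5) (nat_lit 562) (nat_lit 5) (nat_lit 408) (nat_lit 399) (nat_lit 333)) (XT.lf (nat_lit 0) (nat_lit 4504654120) (nat_lit 1216) (nat_lit 2758045169) (nat_lit 1292) (nat_lit 305813546) (nat_lit 546) (nat_lit 5) (nat_lit 562) (nat_lit 5) (nat_lit 563) (nat_lit 5) (nat_lit 409) (nat_lit 399) (nat_lit 332)))))) (XT.nd (nat_lit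 390) (nat_lit 1216) (nat_lit 0) (XT.nd (nat_lit 156) (nat_lit 0) (nat_lit 0) (XT.nd (nat_lit 78) (nat_lit 1292) (nat_lit 0) (XT.lf (nat_lit 76) (nat_lit 1120869708) (nat_lit 0) (nat_lit 5030379513) (nat_lit 1292) (nat_lit 1467721325) (nat_lit 547) (nat_lit 5) (nat_lit 546) (nat_lit 5) (nat_lit 563) (nat_lit 5) (nat_lit 410) (nat_lit 399) (nat_lit 331)) (XT.lf (nat_lit 0) (nat_lit 139961855) (nat_lit 1292) (nat_lit 2580349712) (nat_lit 1368) (nat_lit 4950489288) (nat_lit 529) (nat_lit 5) (nat_lit 546) (nat_lit 5) (nat_lit 547) (nat_lit 5) (nat_lit 411) (nat_lit 399) (nat_lit 330))) (XT.nd (nat_lit 78) (nat_lit 0) (nat_lit 76) (XT.lf (nat_lit 76) (nat_lit 1401011160) (nat_lit 0) (nat_lit 332068447) (nat_lit 1368) (nat_lit 5990953873) (nat_lit 530) (nat_lit 5) (nat_lit 529) (nat_lit 5) (nat_lit 547) (nat_lit 5) (nat_lit 412) (nat_lit 399) (nat_lit 329)) (XT.nd (nat_lit 78) (nat_lit 0) (nat_lit 0) (XT.lf (nat_lit 0) (nat_lit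 3353607953) (nat_lit 1292) (nat_lit 2318839417) (nat_lit 1368) (nat_lit 2105990476) (nat_lit 530) (nat_lit 5) (nat_lit 547) (nat_lit 5) (nat_lit 548) (nat_lit 5) (nat_lit 413) (nat_lit 399) (nat_lit 328)) (XT.lf (nat_lit 76) (nat_lit 1762761958) (nat_lit 0) (nat_lit 3222583852) (nat_lit 1368) (nat_lit 2849026213) (nat_lit 531) (nat_lit 5) (nat_lit 530) (nat_lit 5) (nat_lit 548) (nat_lit 5) (nat_lit 414) (nat_lit 399) (nat_lit 327))))) (XT.nd (nat_lit 234) (nat_lit 0) (nat_lit 0) (XT.nd (nat_lit 78) (nat_lit 1292) (nat_lit 0) (XT.lf (nat_lit 76) (nat_lit 5933998008) (nat_lit 0) (nat_lit 696966962) (nat_lit 1368) (nat_lit 1260852336) (nat_lit 531) (nat_lit 5) (nat_lit 530) (nat_lit 5) (nat_lit 548) (nat_lit 5) (nat_lit 415) (nat_lit 399) (nat_lit 326)) (XT.nd (nat_lit 78) (nat_lit 0) (nat_lit 0) (XT.lf (nat_lit 0) (nat_lit 347430901) (nat_lit 1368) (nat_lit 5721267277) (nat_lit 1444) (nat_lit 1881822260) (nat_lit 513)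 (nat_lit 5) (nat_lit 531) (nat_lit 5) (nat_lit 532) (nat_lit 5) (nat_lit 416) (nat_lit 399) (nat_lit 325)) (XT.lf (nat_lit 0) (nat_lit 1955551245) (nat_lit 1368) (nat_lit 1520614095) (nat_lit 1444) (nat_lit 4534390876) (nat_lit 513) (nat_lit 5) (nat_lit 531) (nat_lit 5) (nat_lit 532) (nat_lit 5) (nat_lit 417) (nat_lit 399) (nat_lit 324)))) (XT.nd (nat_lit 78) (nat_lit 0) (nat_lit 76) (XT.lf (nat_lit 76) (nat_lit 2776910706) (nat_lit 0) (nat_lit 804303615) (nat_lit 1444) (nat_lit 4490886814) (nat_lit 514) (nat_lit 5) (nat_lit 513) (nat_lit 5) (nat_lit 532) (nat_lit 5) (nat_lit 418) (nat_lit 399) (nat_lit 323)) (XT.nd (nat_lit 78) (nat_lit 0) (nat_lit 0) (XT.lf (nat_lit 0) (nat_lit 5230030566) (nat_lit 1368) (nat_lit 990336396) (nat_lit 1444) (nat_lit 1914712910) (nat_lit 514) (nat_lit 5) (nat_lit 532) (nat_lit 5) (nat_lit 533) (nat_lit 5) (nat_lit 419) (nat_lit 399) (nat_lit 322)) (XT.lf (nat_lit 76) (nat_lit 3416446592)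 (nat_lit 0) (nat_lit 3491410221) (nat_lit 1444) (nat_lit 1291556106) (nat_lit 515) (nat_lit 5) (nat_lit 514) (nat_lit 5) (nat_lit 533) (nat_lit 5) (nat_lit 420) (nat_lit 399) (nat_lit 321))))))))
noncomputable def xc146 : XT := (XT.nd (nat_lit 1638) (nat_lit 8284) (nat_lit 0) (XT.nd (nat_lit 780) (nat_lit 7220) (nat_lit 0) (XT.nd (nat_lit 390) (nat_lit 3344) (nat_lit 0) (XT.nd (nat_lit 156) (nat_lit 2888) (nat_lit 0) (XT.nd (nat_lit 78) (nat_lit 0) (nat_lit 76) (XT.lf (nat_lit 0) (nat_lit 325020828) (nat_lit 1444) (nat_lit 366377144) (nat_lit 1520) (nat_lit 7574094285) (nat_lit 495) (nat_lit 5) (nat_lit 514) (nat_lit 5) (nat_lit 515) (nat_lit 5) (nat_lit 421) (nat_lit 399) (nat_lit 320)) (XT.lf (nat_lit 0) (nat_lit 1967386436) (nat_lit 1444) (nat_lit 4186034773) (nat_lit 76) (nat_lit 2179100728) (nat_lit 496) (nat_lit 5) (nat_lit 515) (nat_lit 5) (nat_lit 497) (nat_lit 5) (nat_lit 422) (nat_lit 399) (nat_lit 319))) (XT.nd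 (nat_lit 78) (nat_lit 1520) (nat_lit 0) (XT.lf (nat_lit 0) (nat_lit 329496375) (nat_lit 1444) (nat_lit 3292171651) (nat_lit 1520) (nat_lit 4779657046) (nat_lit 477) (nat_lit 5) (nat_lit 496) (nat_lit 5) (nat_lit 497) (nat_lit 5) (nat_lit 423) (nat_lit 399) (nat_lit 318)) (XT.nd (nat_lit 78) (nat_lit 1520) (nat_lit 0) (XT.lf (nat_lit 0) (nat_lit 4968276584) (nat_lit 1444) (nat_lit 339160982) (nat_lit 1520) (nat_lit 3164112615) (nat_lit 477) (nat_lit 5) (nat_lit 496) (nat_lit 5) (nat_lit 497) (nat_lit 5) (nat_lit 424) (nat_lit 399) (nat_lit 317)) (XT.lf (nat_lit 0) (nat_lit 1130149543) (nat_lit 1520) (nat_lit 5892396333) (nat_lit 1596) (nat_lit 1520735133) (nat_lit 457) (nat_lit 5) (nat_lit 477) (nat_lit 5) (nat_lit 478) (nat_lit 5) (nat_lit 425) (nat_lit 399) (nat_lit 316))))) (XT.nd (nat_lit 156) (nat_lit 1672) (nat_lit 0) (XT.nd (nat_lit 78) (nat_lit 1596) (nat_lit 0) (XT.lf (nat_lit 0) (nat_lit 150524716) (nat_lit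 1596) (nat_lit 2739868596) (nat_lit 76) (nat_lit 5726105012) (nat_lit 456) (nat_lit 5) (nat_lit 477) (nat_lit 5) (nat_lit 457) (nat_lit 5) (nat_lit 426) (nat_lit 399) (nat_lit 315)) (XT.lf (nat_lit 0) (nat_lit 1820985488) (nat_lit 1672) (nat_lit 6673052629) (nat_lit 76) (nat_lit 197230954) (nat_lit 435) (nat_lit 5) (nat_lit 457) (nat_lit 5) (nat_lit 436) (nat_lit 5) (nat_lit 427) (nat_lit 399) (nat_lit 314))) (XT.nd (nat_lit 78) (nat_lit 1672) (nat_lit 0) (XT.lf (nat_lit 0) (nat_lit 3534644050) (nat_lit 1672) (nat_lit 1902005479) (nat_lit 76) (nat_lit 3330702572) (nat_lit 435) (nat_lit 5) (nat_lit 457) (nat_lit 5) (nat_lit 436) (nat_lit 5) (nat_lit 428) (nat_lit 399) (nat_lit 313)) (XT.nd (nat_lit 78) (nat_lit 0) (nat_lit 0) (XT.lf (nat_lit 0) (nat_lit 2979840473) (nat_lit 1672) (nat_lit 2294767878) (nat_lit 1748) (nat_lit 3570520184) (nat_lit 413) (nat_lit 5) (nat_lit 435) (nat_lit 5) (nat_lit 436) (nat_lit 5) (nat_lit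 429) (nat_lit 399) (nat_lit 312)) (XT.lf (nat_lit 0) (nat_lit 7041218066) (nat_lit 1748) (nat_lit 969212336) (nat_lit 76) (nat_lit 914205323) (nat_lit 413) (nat_lit 5) (nat_lit 436) (nat_lit 5) (nat_lit 414) (nat_lit 5) (nat_lit 430) (nat_lit 399) (nat_lit 311)))))) (XT.nd (nat_lit 390) (nat_lit 3420) (nat_lit 0) (XT.nd (nat_lit 156) (nat_lit 912) (nat_lit 0) (XT.nd (nat_lit 78) (nat_lit 1140) (nat_lit 0) (XT.lf (nat_lit 0) (nat_lit 4038911660) (nat_lit 1748) (nat_lit 4819286525) (nat_lit 1824) (nat_lit 147246021) (nat_lit 390) (nat_lit 5) (nat_lit 413) (nat_lit 5) (nat_lit 414) (nat_lit 5) (nat_lit 431) (nat_lit 399) (nat_lit 310)) (XT.lf (nat_lit 0) (nat_lit 38668312) (nat_lit 1064) (nat_lit 1544283074) (nat_lit 1140) (nat_lit 7505106149) (nat_lit 375) (nat_lit 5) (nat_lit 389) (nat_lit 5) (nat_lit 390) (nat_lit 5) (nat_lit 432) (nat_lit 399) (nat_lit 309))) (XT.nd (nat_lit 78) (nat_lit 912) (nat_lit 0) (XT.lf (nat_lit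 0) (nat_lit 3365166560) (nat_lit 1140) (nat_lit 3997455148) (nat_lit 76) (nat_lit 1809305474) (nat_lit 375) (nat_lit 5) (nat_lit 390) (nat_lit 5) (nat_lit 376) (nat_lit 5) (nat_lit 433) (nat_lit 399) (nat_lit 308)) (XT.nd (nat_lit 78) (nat_lit 0) (nat_lit 0) (XT.lf (nat_lit 0) (nat_lit 1136434015) (nat_lit 912) (nat_lit 4038876544) (nat_lit 988) (nat_lit 4082328975) (nat_lit 363) (nat_lit 5) (nat_lit 375) (nat_lit 5) (nat_lit 376) (nat_lit 5) (nat_lit 434) (nat_lit 399) (nat_lit 307)) (XT.lf (nat_lit 0) (nat_lit 6403582751) (nat_lit 912) (nat_lit 619921949) (nat_lit 988) (nat_lit 2321535278) (nat_lit 363) (nat_lit 5) (nat_lit 375) (nat_lit 5) (nat_lit 376) (nat_lit 5) (nat_lit 435) (nat_lit 399) (nat_lit 306))))) (XT.nd (nat_lit 234) (nat_lit 1672) (nat_lit 0) (XT.nd (nat_lit 78) (nat_lit 912) (nat_lit 0) (XT.lf (nat_lit 0) (nat_lit 2330178595) (nat_lit 836) (nat_lit 6587751064) (nat_lit 912) (nat_lit 516084010) (nat_lit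 352) (nat_lit 5) (nat_lit 363) (nat_lit 5) (nat_lit 364) (nat_lit 5) (nat_lit 436) (nat_lit 399) (nat_lit 305)) (XT.nd (nat_lit 78) (nat_lit 836) (nat_lit 0) (XT.lf (nat_lit 0) (nat_lit 1307745301) (nat_lit 912) (nat_lit 1813923535) (nat_lit 76) (nat_lit 6402942991) (nat_lit 351) (nat_lit 5) (nat_lit 363) (nat_lit 5) (nat_lit 352) (nat_lit 5) (nat_lit 437) (nat_lit 399) (nat_lit 304)) (XT.lf (nat_lit 0) (nat_lit 3163557296) (nat_lit 912) (nat_lit 6017588541) (nat_lit 76) (nat_lit 435769523) (nat_lit 340) (nat_lit 5) (nat_lit 352) (nat_lit 5) (nat_lit 341) (nat_lit 5) (nat_lit 438) (nat_lit 399) (nat_lit 303)))) (XT.nd (nat_lit 78) (nat_lit 1672) (nat_lit 0) (XT.lf (nat_lit 0) (nat_lit 5065885669) (nat_lit 912) (nat_lit 609835332) (nat_lit 76) (nat_lit 4035165731) (nat_lit 340) (nat_lit 5) (nat_lit 352) (nat_lit 5) (nat_lit 341) (nat_lit 5) (nat_lit 439) (nat_lit 399) (nat_lit 302)) (XT.nd (nat_lit 78) (nat_lit 836) (nat_lit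 0) (XT.lf (nat_lit 0) (nat_lit 4947737634) (nat_lit 836) (nat_lit 2067582110) (nat_lit 912) (nat_lit 2791246186) (nat_lit 329) (nat_lit 5) (nat_lit 340) (nat_lit 5) (nat_lit 341) (nat_lit 5) (nat_lit 440) (nat_lit 399) (nat_lit 301)) (XT.lf (nat_lit 0) (nat_lit 695742919) (nat_lit 836) (nat_lit 8304342638) (nat_lit 912) (nat_lit 904155685) (nat_lit 318) (nat_lit 5) (nat_lit 329) (nat_lit 5) (nat_lit 330) (nat_lit 5) (nat_lit 441) (nat_lit 399) (nat_lit 300))))))) (XT.nd (nat_lit 780) (nat_lit 4484) (nat_lit 0) (XT.nd (nat_lit 390) (nat_lit 2204) (nat_lit 0) (XT.nd (nat_lit 156) (nat_lit 760) (nat_lit 0) (XT.nd (nat_lit 78) (nat_lit 760) (nat_lit 0) (XT.lf (nat_lit 0) (nat_lit 1031176322) (nat_lit 912) (nat_lit 3620175634) (nat_lit 76) (nat_lit 5351916873) (nat_lit 317) (nat_lit 5) (nat_lit 329) (nat_lit 5) (nat_lit 318) (nat_lit 5) (nat_lit 442) (nat_lit 399) (nat_lit 299)) (XT.lf (nat_lit 0) (nat_lit 2077952463) (nat_lit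 760) (nat_lit 906474541) (nat_lit 836) (nat_lit 7119912913) (nat_lit 307) (nat_lit 5) (nat_lit 317) (nat_lit 5) (nat_lit 318) (nat_lit 5) (nat_lit 443) (nat_lit 399) (nat_lit 298))) (XT.nd (nat_lit 78) (nat_lit 760) (nat_lit 0) (XT.lf (nat_lit 0) (nat_lit 4998205412) (nat_lit 836) (nat_lit 2310419175) (nat_lit 76) (nat_lit 2898387263) (nat_lit 307) (nat_lit 5) (nat_lit 318) (nat_lit 5) (nat_lit 308) (nat_lit 5) (nat_lit 444) (nat_lit 399) (nat_lit 297)) (XT.nd (nat_lit 78) (nat_lit 0) (nat_lit 0) (XT.lf (nat_lit 0) (nat_lit 3537205226) (nat_lit 760) (nat_lit 3522546193) (nat_lit 836) (nat_lit 3251844468) (nat_lit 297) (nat_lit 5) (nat_lit 307) (nat_lit 5) (nat_lit 308) (nat_lit 5) (nat_lit 445) (nat_lit 399) (nat_lit 296)) (XT.lf (nat_lit 0) (nat_lit 9159122253) (nat_lit 836) (nat_lit 910487363) (nat_lit 76) (nat_lit 348738451) (nat_lit 297) (nat_lit 5) (nat_lit 308) (nat_lit 5) (nat_lit 298) (nat_lit 5) (nat_lit 446)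 (nat_lit 399) (nat_lit 295))))) (XT.nd (nat_lit 156) (nat_lit 684) (nat_lit 0) (XT.nd (nat_lit 78) (nat_lit 760) (nat_lit 0) (XT.lf (nat_lit 0) (nat_lit 798916038) (nat_lit 760) (nat_lit 5440512620) (nat_lit 76) (nat_lit 4286997999) (nat_lit 287) (nat_lit 5) (nat_lit 297) (nat_lit 5) (nat_lit 288) (nat_lit 5) (nat_lit 447) (nat_lit 399) (nat_lit 294)) (XT.lf (nat_lit 0) (nat_lit 553929931) (nat_lit 760) (nat_lit 2316509182) (nat_lit 836) (nat_lit 7766287507) (nat_lit 277) (nat_lit 5) (nat_lit 287) (nat_lit 5) (nat_lit 288) (nat_lit 5) (nat_lit 448) (nat_lit 399) (nat_lit 293))) (XT.nd (nat_lit 78) (nat_lit 684) (nat_lit 0) (XT.lf (nat_lit 0) (nat_lit 5010640806) (nat_lit 836) (nat_lit 4040919783) (nat_lit 76) (nat_lit 1697134736) (nat_lit 277) (nat_lit 5) (nat_lit 288) (nat_lit 5) (nat_lit 278) (nat_lit 5) (nat_lit 449) (nat_lit 399) (nat_lit 292)) (XT.nd (nat_lit 78) (nat_lit 0) (nat_lit 0) (XT.lf (nat_lit 0) (nat_lit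 2111354906) (nat_lit 684) (nat_lit 5091300267) (nat_lit 760) (nat_lit 3660075611) (nat_lit 268) (nat_lit 5) (nat_lit 277) (nat_lit 5) (nat_lit 278) (nat_lit 5) (nat_lit 450) (nat_lit 399) (nat_lit 291)) (XT.lf (nat_lit 0) (nat_lit 8418811318) (nat_lit 684) (nat_lit 1027020379) (nat_lit 760) (nat_lit 1533076225) (nat_lit 268) (nat_lit 5) (nat_lit 277) (nat_lit 5) (nat_lit 278) (nat_lit 5) (nat_lit 451) (nat_lit 399) (nat_lit 290)))))) (XT.nd (nat_lit 390) (nat_lit 2508) (nat_lit 0) (XT.nd (nat_lit 156) (nat_lit 1216) (nat_lit 0) (XT.nd (nat_lit 78) (nat_lit 0) (nat_lit 0) (XT.lf (nat_lit 0) (nat_lit 653520989) (nat_lit 760) (nat_lit 7339689709) (nat_lit 76) (nat_lit 3103614273) (nat_lit 258) (nat_lit 5) (nat_lit 268) (nat_lit 5) (nat_lit 259) (nat_lit 5) (nat_lit 452) (nat_lit 399) (nat_lit 289)) (XT.lf (nat_lit 0) (nat_lit 2868112647) (nat_lit 760) (nat_lit 1021098425) (nat_lit 76) (nat_lit 7327597787) (nat_lit 258)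 (nat_lit 5) (nat_lit 268) (nat_lit 5) (nat_lit 259) (nat_lit 5) (nat_lit 453) (nat_lit 399) (nat_lit 288))) (XT.nd (nat_lit 78) (nat_lit 608) (nat_lit 0) (XT.lf (nat_lit 0) (nat_lit 5145729785) (nat_lit 684) (nat_lit 5867602716) (nat_lit 76) (nat_lit 325492093) (nat_lit 250) (nat_lit 5) (nat_lit 259) (nat_lit 5) (nat_lit 251) (nat_lit 5) (nat_lit 454) (nat_lit 399) (nat_lit 287)) (XT.nd (nat_lit 78) (nat_lit 0) (nat_lit 0) (XT.lf (nat_lit 0) (nat_lit 603746702) (nat_lit 608) (nat_lit 6882987656) (nat_lit 684) (nat_lit 3976196290) (nat_lit 242) (nat_lit 5) (nat_lit 250) (nat_lit 5) (nat_lit 251) (nat_lit 5) (nat_lit 455) (nat_lit 399) (nat_lit 286)) (XT.lf (nat_lit 0) (nat_lit 7261751701) (nat_lit 608) (nat_lit 2633665930) (nat_lit 684) (nat_lit 1693690599) (nat_lit 242) (nat_lit 5) (nat_lit 250) (nat_lit 5) (nat_lit 251) (nat_lit 5) (nat_lit 456) (nat_lit 399) (nat_lit 285))))) (XT.nd (nat_lit 234) (nat_lit 1216) (nat_lit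 0) (XT.nd (nat_lit 78) (nat_lit 608) (nat_lit 0) (XT.lf (nat_lit 0) (nat_lit 634199022) (nat_lit 684) (nat_lit 9389388160) (nat_lit 76) (nat_lit 1693985014) (nat_lit 233) (nat_lit 5) (nat_lit 242) (nat_lit 5) (nat_lit 234) (nat_lit 5) (nat_lit 457) (nat_lit 399) (nat_lit 284)) (XT.nd (nat_lit 78) (nat_lit 608) (nat_lit 0) (XT.lf (nat_lit 0) (nat_lit 3014572507) (nat_lit 684) (nat_lit 2723697789) (nat_lit 76) (nat_lit 6109545346) (nat_lit 233) (nat_lit 5) (nat_lit 242) (nat_lit 5) (nat_lit 234) (nat_lit 5) (nat_lit 458) (nat_lit 399) (nat_lit 283)) (XT.lf (nat_lit 0) (nat_lit 4107295193) (nat_lit 608) (nat_lit 1344190987) (nat_lit 684) (nat_lit 6529005199) (nat_lit 225) (nat_lit 5) (nat_lit 233) (nat_lit 5) (nat_lit 234) (nat_lit 5) (nat_lit 459) (nat_lit 399) (nat_lit 282)))) (XT.nd (nat_lit 78) (nat_lit 1216) (nat_lit 0) (XT.lf (nat_lit 0) (nat_lit 7958353833) (nat_lit 684) (nat_lit 1046184501) (nat_lit 76) (nat_lit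 3110863937) (nat_lit 225) (nat_lit 5) (nat_lit 234) (nat_lit 5) (nat_lit 226) (nat_lit 5) (nat_lit 460) (nat_lit 399) (nat_lit 281)) (XT.nd (nat_lit 78) (nat_lit 684) (nat_lit 0) (XT.lf (nat_lit 0) (nat_lit 5965066678) (nat_lit 532) (nat_lit 4580712212) (nat_lit 608) (nat_lit 1706629930) (nat_lit 218) (nat_lit 5) (nat_lit 225) (nat_lit 5) (nat_lit 226) (nat_lit 5) (nat_lit 461) (nat_lit 399) (nat_lit 280)) (XT.lf (nat_lit 0) (nat_lit 721251885) (nat_lit 608) (nat_lit 55765759) (nat_lit 684) (nat_lit 11615148153) (nat_lit 209) (nat_lit 5) (nat_lit 217) (nat_lit 5) (nat_lit 218) (nat_lit 5) (nat_lit 462) (nat_lit 399) (nat_lit 279))))))))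
noncomputable def xc147 : XT := (XT.nd (nat_lit 1638) (nat_lit 3952) (nat_lit 0) (XT.nd (nat_lit 780) (nat_lit 2736) (nat_lit 0) (XT.nd (nat_lit 390) (nat_lit 1520) (nat_lit 0) (XT.nd (nat_lit 156) (nat_lit 608) (nat_lit 0) (XT.nd (nat_lit 78) (nat_lit 532) (nat_lit 0) (XT.lf (nat_lit 0) (nat_lit 3342617242) (nat_lit 684) (nat_lit 4641709630) (nat_lit 76) (nat_lit 4549068313) (nat_lit 209) (nat_lit 5) (nat_lit 218) (nat_lit 5) (nat_lit 210) (nat_lit 5) (nat_lit 463) (nat_lit 399) (nat_lit 278)) (XT.lf (nat_lit 0) (nat_lit 2539551544) (nat_lit 532) (nat_lit 3420201941) (nat_lit 608) (nat_lit 6717696575) (nat_lit 202) (nat_lit 5) (nat_lit 209) (nat_lit 5) (nat_lit 210) (nat_lit 5) (nat_lit 464) (nat_lit 399) (nat_lit 277))) (XT.nd (nat_lit 78) (nat_lit 608) (nat_lit 0) (XT.lf (nat_lit 0) (nat_lit 8652129740) (nat_lit 608) (nat_lit 2926257456) (nat_lit 76) (nat_lit 1245546183) (nat_lit 202) (nat_lit 5) (nat_lit 210) (nat_lit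 5) (nat_lit 203) (nat_lit 5) (nat_lit 465) (nat_lit 399) (nat_lit 276)) (XT.nd (nat_lit 78) (nat_lit 76) (nat_lit 0) (XT.lf (nat_lit 0) (nat_lit 4444048745) (nat_lit 532) (nat_lit 6989654826) (nat_lit 608) (nat_lit 1538940976) (nat_lit 195) (nat_lit 5) (nat_lit 202) (nat_lit 5) (nat_lit 203) (nat_lit 5) (nat_lit 466) (nat_lit 399) (nat_lit 275)) (XT.lf (nat_lit 0) (nat_lit 1135223308) (nat_lit 608) (nat_lit 1151365430) (nat_lit 76) (nat_lit 10837523657) (nat_lit 194) (nat_lit 5) (nat_lit 202) (nat_lit 5) (nat_lit 195) (nat_lit 5) (nat_lit 467) (nat_lit 399) (nat_lit 274))))) (XT.nd (nat_lit 156) (nat_lit 532) (nat_lit 0) (XT.nd (nat_lit 78) (nat_lit 532) (nat_lit 0) (XT.lf (nat_lit 0) (nat_lit 3884851141) (nat_lit 532) (nat_lit 6867861738) (nat_lit 76) (nat_lit 2524846427) (nat_lit 188) (nat_lit 5) (nat_lit 195) (nat_lit 5) (nat_lit 189) (nat_lit 5) (nat_lit 468) (nat_lit 399) (nat_lit 273)) (XT.lf (nat_lit 0) (nat_lit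 676334447) (nat_lit 532) (nat_lit 6024820592) (nat_lit 608) (nat_lit 6732691238) (nat_lit 181) (nat_lit 5) (nat_lit 188) (nat_lit 5) (nat_lit 189) (nat_lit 5) (nat_lit 469) (nat_lit 399) (nat_lit 272))) (XT.nd (nat_lit 78) (nat_lit 532) (nat_lit 0) (XT.lf (nat_lit 0) (nat_lit 8443638532) (nat_lit 532) (nat_lit 1160776259) (nat_lit 608) (nat_lit 3988236295) (nat_lit 181) (nat_lit 5) (nat_lit 188) (nat_lit 5) (nat_lit 189) (nat_lit 5) (nat_lit 470) (nat_lit 399) (nat_lit 271)) (XT.nd (nat_lit 78) (nat_lit 76) (nat_lit 0) (XT.lf (nat_lit 0) (nat_lit 2600349400) (nat_lit 456) (nat_lit 9991760643) (nat_lit 532) (nat_lit 1161999147) (nat_lit 175) (nat_lit 5) (nat_lit 181) (nat_lit 5) (nat_lit 182) (nat_lit 5) (nat_lit 471) (nat_lit 399) (nat_lit 270)) (XT.lf (nat_lit 0) (nat_lit 1725534842) (nat_lit 532) (nat_lit 3383503736) (nat_lit 76) (nat_lit 8808992054) (nat_lit 174) (nat_lit 5) (nat_lit 181) (nat_lit 5) (nat_lit 175)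 (nat_lit 5) (nat_lit 472) (nat_lit 399) (nat_lit 269)))))) (XT.nd (nat_lit 390) (nat_lit 1292) (nat_lit 0) (XT.nd (nat_lit 156) (nat_lit 988) (nat_lit 0) (XT.nd (nat_lit 78) (nat_lit 0) (nat_lit 0) (XT.lf (nat_lit 0) (nat_lit 4574054842) (nat_lit 456) (nat_lit 96086021) (nat_lit 532) (nat_lit 9414642750) (nat_lit 168) (nat_lit 5) (nat_lit 174) (nat_lit 5) (nat_lit 175) (nat_lit 5) (nat_lit 473) (nat_lit 399) (nat_lit 268)) (XT.lf (nat_lit 0) (nat_lit 7714360117) (nat_lit 532) (nat_lit 1571037561) (nat_lit 76) (nat_lit 4968663809) (nat_lit 168) (nat_lit 5) (nat_lit 175) (nat_lit 5) (nat_lit 169) (nat_lit 5) (nat_lit 474) (nat_lit 399) (nat_lit 267))) (XT.nd (nat_lit 78) (nat_lit 532) (nat_lit 0) (XT.lf (nat_lit 0) (nat_lit 6593160041) (nat_lit 456) (nat_lit 4255326769) (nat_lit 532) (nat_lit 3577661818) (nat_lit 162) (nat_lit 5) (nat_lit 168) (nat_lit 5) (nat_lit 169) (nat_lit 5) (nat_lit 475) (nat_lit 399) (nat_lit 266))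 (XT.nd (nat_lit 78) (nat_lit 76) (nat_lit 0) (XT.lf (nat_lit 0) (nat_lit 318655352) (nat_lit 456) (nat_lit 13730700614) (nat_lit 532) (nat_lit 552244434) (nat_lit 156) (nat_lit 5) (nat_lit 162) (nat_lit 5) (nat_lit 163) (nat_lit 5) (nat_lit 476) (nat_lit 399) (nat_lit 265)) (XT.lf (nat_lit 0) (nat_lit 2567291768) (nat_lit 532) (nat_lit 6105280621) (nat_lit 76) (nat_lit 6106326939) (nat_lit 155) (nat_lit 5) (nat_lit 162) (nat_lit 5) (nat_lit 156) (nat_lit 5) (nat_lit 477) (nat_lit 399) (nat_lit 264))))) (XT.nd (nat_lit 234) (nat_lit 456) (nat_lit 0) (XT.nd (nat_lit 78) (nat_lit 456) (nat_lit 0) (XT.lf (nat_lit 0) (nat_lit 2241777575) (nat_lit 380) (nat_lit 3500635653) (nat_lit 456) (nat_lit 9217250072) (nat_lit 150) (nat_lit 5) (nat_lit 155) (nat_lit 5) (nat_lit 156) (nat_lit 5) (nat_lit 478) (nat_lit 399) (nat_lit 263)) (XT.nd (nat_lit 78) (nat_lit 456) (nat_lit 0) (XT.lf (nat_lit 0) (nat_lit 9019934942) (nat_lit 456)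 (nat_lit 4336496013) (nat_lit 76) (nat_lit 1786837417) (nat_lit 150) (nat_lit 5) (nat_lit 156) (nat_lit 5) (nat_lit 151) (nat_lit 5) (nat_lit 479) (nat_lit 399) (nat_lit 262)) (XT.lf (nat_lit 0) (nat_lit 4225129886) (nat_lit 456) (nat_lit 8174898514) (nat_lit 532) (nat_lit 2929780421) (nat_lit 144) (nat_lit 5) (nat_lit 150) (nat_lit 5) (nat_lit 151) (nat_lit 5) (nat_lit 480) (nat_lit 399) (nat_lit 261)))) (XT.nd (nat_lit 78) (nat_lit 380) (nat_lit 0) (XT.lf (nat_lit 0) (nat_lit 339092685) (nat_lit 532) (nat_lit 2524723848) (nat_lit 76) (nat_lit 12655909638) (nat_lit 143) (nat_lit 5) (nat_lit 150) (nat_lit 5) (nat_lit 144) (nat_lit 5) (nat_lit 481) (nat_lit 399) (nat_lit 260)) (XT.nd (nat_lit 78) (nat_lit 0) (nat_lit 0) (XT.lf (nat_lit 0) (nat_lit 3678518491) (nat_lit 456) (nat_lit 9459072426) (nat_lit 76) (nat_lit 2574579022) (nat_lit 138) (nat_lit 5) (nat_lit 144) (nat_lit 5) (nat_lit 139) (nat_lit 5) (nat_lit 482)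 (nat_lit 399) (nat_lit 259)) (XT.lf (nat_lit 0) (nat_lit 7107568704) (nat_lit 456) (nat_lit 705893959) (nat_lit 76) (nat_lit 8094546625) (nat_lit 138) (nat_lit 5) (nat_lit 144) (nat_lit 5) (nat_lit 139) (nat_lit 5) (nat_lit 483) (nat_lit 399) (nat_lit 258))))))) (XT.nd (nat_lit 858) (nat_lit 1368) (nat_lit 0) (XT.nd (nat_lit 390) (nat_lit 1368) (nat_lit 0) (XT.nd (nat_lit 156) (nat_lit 456) (nat_lit 0) (XT.nd (nat_lit 78) (nat_lit 380) (nat_lit 0) (XT.lf (nat_lit 0) (nat_lit 8312355379) (nat_lit 380) (nat_lit 2333888173) (nat_lit 456) (nat_lit 5460704354) (nat_lit 133) (nat_lit 5) (nat_lit 138) (nat_lit 5) (nat_lit 139) (nat_lit 5) (nat_lit 484) (nat_lit 399) (nat_lit 257)) (XT.lf (nat_lit 0) (nat_lit 1186050902) (nat_lit 380) (nat_lit 13090410924) (nat_lit 456) (nat_lit 2032991358) (nat_lit 128) (nat_lit 5) (nat_lit 133) (nat_lit 5) (nat_lit 134) (nat_lit 5) (nat_lit 485) (nat_lit 399) (nat_lit 256))) (XT.nd (nat_lit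 78) (nat_lit 380) (nat_lit 0) (XT.lf (nat_lit 0) (nat_lit 1499399884) (nat_lit 456) (nat_lit 6107453452) (nat_lit 76) (nat_lit 8907862079) (nat_lit 127) (nat_lit 5) (nat_lit 133) (nat_lit 5) (nat_lit 128) (nat_lit 5) (nat_lit 486) (nat_lit 399) (nat_lit 255)) (XT.nd (nat_lit 78) (nat_lit 0) (nat_lit 0) (XT.lf (nat_lit 0) (nat_lit 3097193847) (nat_lit 380) (nat_lit 1985615369) (nat_lit 456) (nat_lit 11640856172) (nat_lit 122) (nat_lit 5) (nat_lit 127) (nat_lit 5) (nat_lit 128) (nat_lit 5) (nat_lit 487) (nat_lit 399) (nat_lit 254)) (XT.lf (nat_lit 0) (nat_lit 8791019058) (nat_lit 456) (nat_lit 4410723282) (nat_lit 76) (nat_lit 3733992413) (nat_lit 122) (nat_lit 5) (nat_lit 128) (nat_lit 5) (nat_lit 123) (nat_lit 5) (nat_lit 488) (nat_lit 399) (nat_lit 253))))) (XT.nd (nat_lit 234) (nat_lit 608) (nat_lit 0) (XT.nd (nat_lit 78) (nat_lit 456) (nat_lit 0) (XT.lf (nat_lit 0) (nat_lit 5023580620) (nat_lit 304) (nat_lit 7583364806)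 (nat_lit 380) (nat_lit 4544432009) (nat_lit 118) (nat_lit 5) (nat_lit 122) (nat_lit 5) (nat_lit 123) (nat_lit 5) (nat_lit 489) (nat_lit 399) (nat_lit 252)) (XT.nd (nat_lit 78) (nat_lit 456) (nat_lit 0) (XT.lf (nat_lit 0) (nat_lit 14687986076) (nat_lit 304) (nat_lit 1828708861) (nat_lit 380) (nat_lit 854290862) (nat_lit 118) (nat_lit 5) (nat_lit 122) (nat_lit 5) (nat_lit 123) (nat_lit 5) (nat_lit 490) (nat_lit 399) (nat_lit 251)) (XT.lf (nat_lit 0) (nat_lit 2931661954) (nat_lit 456) (nat_lit 10615057186) (nat_lit 76) (nat_lit 4046688780) (nat_lit 112) (nat_lit 5) (nat_lit 118) (nat_lit 5) (nat_lit 113) (nat_lit 5) (nat_lit 491) (nat_lit 399) (nat_lit 250)))) (XT.nd (nat_lit 78) (nat_lit 608) (nat_lit 0) (XT.lf (nat_lit 0) (nat_lit 6800278301) (nat_lit 456) (nat_lit 986762241) (nat_lit 76) (nat_lit 10032760087) (nat_lit 112) (nat_lit 5) (nat_lit 118) (nat_lit 5) (nat_lit 113) (nat_lit 5) (nat_lit 492) (nat_lit 399) (nat_lit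 249)) (XT.nd (nat_lit 78) (nat_lit 304) (nat_lit 0) (XT.lf (nat_lit 0) (nat_lit 8933365842) (nat_lit 304) (nat_lit 1859273553) (nat_lit 380) (nat_lit 7257157046) (nat_lit 108) (nat_lit 5) (nat_lit 112) (nat_lit 5) (nat_lit 113) (nat_lit 5) (nat_lit 493) (nat_lit 399) (nat_lit 248)) (XT.lf (nat_lit 0) (nat_lit 745592152) (nat_lit 304) (nat_lit 14146390107) (nat_lit 380) (nat_lit 3391869864) (nat_lit 104) (nat_lit 5) (nat_lit 108) (nat_lit 5) (nat_lit 109) (nat_lit 5) (nat_lit 494) (nat_lit 399) (nat_lit 247)))))) (XT.nd (nat_lit 390) (nat_lit 684) (nat_lit 0) (XT.nd (nat_lit 156) (nat_lit 304) (nat_lit 0) (XT.nd (nat_lit 78) (nat_lit 304) (nat_lit 0) (XT.lf (nat_lit 0) (nat_lit 605869849) (nat_lit 380) (nat_lit 7627235811) (nat_lit 76) (nat_lit 10288166895) (nat_lit 103) (nat_lit 5) (nat_lit 108) (nat_lit 5) (nat_lit 104) (nat_lit 5) (nat_lit 495) (nat_lit 399) (nat_lit 246)) (XT.lf (nat_lit 0) (nat_lit 2474343142) (nat_lit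 304) (nat_lit 2168612946) (nat_lit 380) (nat_lit 14119943218) (nat_lit 99) (nat_lit 5) (nat_lit 103) (nat_lit 5) (nat_lit 104) (nat_lit 5) (nat_lit 496) (nat_lit 399) (nat_lit 245))) (XT.nd (nat_lit 78) (nat_lit 304) (nat_lit 0) (XT.lf (nat_lit 0) (nat_lit 8827155705) (nat_lit 380) (nat_lit 6171136497) (nat_lit 76) (nat_lit 4009741399) (nat_lit 99) (nat_lit 5) (nat_lit 104) (nat_lit 5) (nat_lit 100) (nat_lit 5) (nat_lit 497) (nat_lit 399) (nat_lit 244)) (XT.nd (nat_lit 78) (nat_lit 0) (nat_lit 0) (XT.lf (nat_lit 0) (nat_lit 4171605423) (nat_lit 304) (nat_lit 8953868433) (nat_lit 380) (nat_lit 6131990430) (nat_lit 95) (nat_lit 5) (nat_lit 99) (nat_lit 5) (nat_lit 100) (nat_lit 5) (nat_lit 498) (nat_lit 399) (nat_lit 243)) (XT.lf (nat_lit 0) (nat_lit 14787592058) (nat_lit 304) (nat_lit 2752669773) (nat_lit 380) (nat_lit 1971014035) (nat_lit 95) (nat_lit 5) (nat_lit 99) (nat_lit 5) (nat_lit 100) (nat_lit 5) (nat_lit 499)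 (nat_lit 399) (nat_lit 242))))) (XT.nd (nat_lit 234) (nat_lit 0) (nat_lit 0) (XT.nd (nat_lit 78) (nat_lit 304) (nat_lit 0) (XT.lf (nat_lit 0) (nat_lit 2294356285) (nat_lit 380) (nat_lit 13901655515) (nat_lit 76) (nat_lit 3572839201) (nat_lit 90) (nat_lit 5) (nat_lit 95) (nat_lit 5) (nat_lit 91) (nat_lit 5) (nat_lit 500) (nat_lit 399) (nat_lit 241)) (XT.nd (nat_lit 78) (nat_lit 304) (nat_lit 0) (XT.lf (nat_lit 0) (nat_lit 6658097605) (nat_lit 380) (nat_lit 3345643926) (nat_lit 76) (nat_lit 10026788645) (nat_lit 90) (nat_lit 5) (nat_lit 95) (nat_lit 5) (nat_lit 91) (nat_lit 5) (nat_lit 501) (nat_lit 399) (nat_lit 240)) (XT.lf (nat_lit 0) (nat_lit 7503097463) (nat_lit 304) (nat_lit 3644234188) (nat_lit 380) (nat_lit 9149349094) (nat_lit 86) (nat_lit 5) (nat_lit 90) (nat_lit 5) (nat_lit 91) (nat_lit 5) (nat_lit 502) (nat_lit 399) (nat_lit 239)))) (XT.nd (nat_lit 51324) (nat_lit 0) (nat_lit 35948) (XT.lf (nat_lit 0) (nat_lit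 15756964762) (nat_lit 380) (nat_lit 1988998108) (nat_lit 76) (nat_lit 2821581295) (nat_lit 86) (nat_lit 5) (nat_lit 91) (nat_lit 5) (nat_lit 87) (nat_lit 5) (nat_lit 503) (nat_lit 399) (nat_lit 238)) (XT.nd (nat_lit 78) (nat_lit 1140) (nat_lit 0) (XT.lf (nat_lit 0) (nat_lit 2981187612) (nat_lit 1140) (nat_lit 312532566) (nat_lit 1140) (nat_lit 312532566) (nat_lit 574) (nat_lit 3) (nat_lit 589) (nat_lit 3) (nat_lit 589) (nat_lit 5) (nat_lit 400) (nat_lit 400) (nat_lit 340)) (XT.lf (nat_lit 0) (nat_lit 375250833) (nat_lit 1140) (nat_lit 4396713856) (nat_lit 1216) (nat_lit 2479530408) (nat_lit 559) (nat_lit 5) (nat_lit 574) (nat_lit 3) (nat_lit 575) (nat_lit 5) (nat_lit 401) (nat_lit 400) (nat_lit 339))))))))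
noncomputable def xc148 : XT := (XT.nd (nat_lit 1638) (nat_lit 13528) (nat_lit 0) (XT.nd (nat_lit 780) (nat_lit 2584) (nat_lit 0) (XT.nd (nat_lit 390) (nat_lit 1140) (nat_lit 0) (XT.nd (nat_lit 156) (nat_lit 1140) (nat_lit 0) (XT.nd (nat_lit 78) (nat_lit 0) (nat_lit 0) (XT.lf (nat_lit 0) (nat_lit 1978459157) (nat_lit 1140) (nat_lit 908954765) (nat_lit 1216) (nat_lit 4404467032) (nat_lit 559) (nat_lit 5) (nat_lit 574) (nat_lit 3) (nat_lit 575) (nat_lit 5) (nat_lit 402) (nat_lit 400) (nat_lit 338)) (XT.lf (nat_lit 76) (nat_lit 2661738458) (nat_lit 0) (nat_lit 927922909) (nat_lit 1216) (nat_lit 3743917015) (nat_lit 560) (nat_lit 5) (nat_lit 559) (nat_lit 5) (nat_lit 575) (nat_lit 5) (nat_lit 403) (nat_lit 400) (nat_lit 337))) (XT.nd (nat_lit 78) (nat_lit 1216) (nat_lit 0) (XT.lf (nat_lit 0) (nat_lit 5205622237) (nat_lit 1140) (nat_lit 1089360441) (nat_lit 1216) (nat_lit 1081698397) (nat_lit 560) (nat_lit 5) (nat_lit 575)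 (nat_lit 5) (nat_lit 576) (nat_lit 5) (nat_lit 404) (nat_lit 400) (nat_lit 336)) (XT.nd (nat_lit 78) (nat_lit 1216) (nat_lit 0) (XT.lf (nat_lit 76) (nat_lit 2570227666) (nat_lit 0) (nat_lit 4266745293) (nat_lit 1216) (nat_lit 584033026) (nat_lit 561) (nat_lit 5) (nat_lit 560) (nat_lit 5) (nat_lit 576) (nat_lit 5) (nat_lit 405) (nat_lit 400) (nat_lit 335)) (XT.lf (nat_lit 0) (nat_lit 989116103) (nat_lit 1216) (nat_lit 1177567440) (nat_lit 1292) (nat_lit 5300061156) (nat_lit 544) (nat_lit 5) (nat_lit 560) (nat_lit 5) (nat_lit 561) (nat_lit 5) (nat_lit 406) (nat_lit 400) (nat_lit 334))))) (XT.nd (nat_lit 156) (nat_lit 1216) (nat_lit 0) (XT.nd (nat_lit 78) (nat_lit 0) (nat_lit 0) (XT.lf (nat_lit 0) (nat_lit 2564098472) (nat_lit 1216) (nat_lit 4936888471) (nat_lit 1292) (nat_lit 12790558) (nat_lit 545) (nat_lit 5) (nat_lit 561) (nat_lit 5) (nat_lit 562) (nat_lit 5) (nat_lit 407) (nat_lit 400) (nat_lit 333)) (XT.lf (nat_lit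 0) (nat_lit 4154971113) (nat_lit 1216) (nat_lit 1176399456) (nat_lit 1292) (nat_lit 2230712513) (nat_lit 545) (nat_lit 5) (nat_lit 561) (nat_lit 5) (nat_lit 562) (nat_lit 5) (nat_lit 408) (nat_lit 400) (nat_lit 332))) (XT.nd (nat_lit 78) (nat_lit 1216) (nat_lit 0) (XT.lf (nat_lit 76) (nat_lit 2671987866) (nat_lit 0) (nat_lit 3085852341) (nat_lit 1292) (nat_lit 1853930529) (nat_lit 546) (nat_lit 5) (nat_lit 545) (nat_lit 5) (nat_lit 562) (nat_lit 5) (nat_lit 409) (nat_lit 400) (nat_lit 331)) (XT.nd (nat_lit 78) (nat_lit 1216) (nat_lit 0) (XT.lf (nat_lit 76) (nat_lit 6591081338) (nat_lit 0) (nat_lit 772994911) (nat_lit 1292) (nat_lit 298968864) (nat_lit 546) (nat_lit 5) (nat_lit 545) (nat_lit 5) (nat_lit 562) (nat_lit 5) (nat_lit 410) (nat_lit 400) (nat_lit 330)) (XT.lf (nat_lit 0) (nat_lit 1263356653) (nat_lit 1292) (nat_lit 4845751511) (nat_lit 1368) (nat_lit 1606225193) (nat_lit 529) (nat_lit 5) (nat_lit 546) (nat_lit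 5) (nat_lit 547) (nat_lit 5) (nat_lit 411) (nat_lit 400) (nat_lit 329)))))) (XT.nd (nat_lit 390) (nat_lit 1292) (nat_lit 0) (XT.nd (nat_lit 156) (nat_lit 1292) (nat_lit 0) (XT.nd (nat_lit 78) (nat_lit 0) (nat_lit 0) (XT.lf (nat_lit 0) (nat_lit 2829817944) (nat_lit 1292) (nat_lit 894122063) (nat_lit 1368) (nat_lit 4045168042) (nat_lit 529) (nat_lit 5) (nat_lit 546) (nat_lit 5) (nat_lit 547) (nat_lit 5) (nat_lit 412) (nat_lit 400) (nat_lit 328)) (XT.lf (nat_lit 76) (nat_lit 3155432903) (nat_lit 0) (nat_lit 1257886701) (nat_lit 1368) (nat_lit 3410942108) (nat_lit 530) (nat_lit 5) (nat_lit 529) (nat_lit 5) (nat_lit 547) (nat_lit 5) (nat_lit 413) (nat_lit 400) (nat_lit 327))) (XT.nd (nat_lit 78) (nat_lit 1368) (nat_lit 0) (XT.lf (nat_lit 0) (nat_lit 6008533543) (nat_lit 1292) (nat_lit 613626144) (nat_lit 1368) (nat_lit 1258775271) (nat_lit 530) (nat_lit 5) (nat_lit 547) (nat_lit 5) (nat_lit 548) (nat_lit 5) (nat_lit 414)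 (nat_lit 400) (nat_lit 326)) (XT.nd (nat_lit 78) (nat_lit 1368) (nat_lit 0) (XT.lf (nat_lit 76) (nat_lit 3538083640) (nat_lit 0) (nat_lit 4095377959) (nat_lit 1368) (nat_lit 305340887) (nat_lit 531) (nat_lit 5) (nat_lit 530) (nat_lit 5) (nat_lit 548) (nat_lit 5) (nat_lit 415) (nat_lit 400) (nat_lit 325)) (XT.lf (nat_lit 0) (nat_lit 1247030638) (nat_lit 1368) (nat_lit 248000008) (nat_lit 1444) (nat_lit 6503226590) (nat_lit 512) (nat_lit 5) (nat_lit 530) (nat_lit 5) (nat_lit 531) (nat_lit 5) (nat_lit 416) (nat_lit 400) (nat_lit 324))))) (XT.nd (nat_lit 234) (nat_lit 1368) (nat_lit 0) (XT.nd (nat_lit 78) (nat_lit 0) (nat_lit 0) (XT.lf (nat_lit 0) (nat_lit 2827638887) (nat_lit 1368) (nat_lit 4050878874) (nat_lit 1444) (nat_lit 1180333432) (nat_lit 513) (nat_lit 5) (nat_lit 531) (nat_lit 5) (nat_lit 532) (nat_lit 5) (nat_lit 417) (nat_lit 400) (nat_lit 323)) (XT.nd (nat_lit 78) (nat_lit 0) (nat_lit 0) (XT.lf (nat_lit 76)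 (nat_lit 201432851) (nat_lit 0) (nat_lit 4219301341) (nat_lit 1444) (nat_lit 3700321057) (nat_lit 514) (nat_lit 5) (nat_lit 513) (nat_lit 5) (nat_lit 532) (nat_lit 5) (nat_lit 418) (nat_lit 400) (nat_lit 322)) (XT.lf (nat_lit 76) (nat_lit 4570754364) (nat_lit 0) (nat_lit 1470590168) (nat_lit 1444) (nat_lit 2143261200) (nat_lit 514) (nat_lit 5) (nat_lit 513) (nat_lit 5) (nat_lit 532) (nat_lit 5) (nat_lit 419) (nat_lit 400) (nat_lit 321)))) (XT.nd (nat_lit 78) (nat_lit 1444) (nat_lit 0) (XT.lf (nat_lit 76) (nat_lit 756111057) (nat_lit 0) (nat_lit 6920963012) (nat_lit 1444) (nat_lit 572714124) (nat_lit 515) (nat_lit 5) (nat_lit 514) (nat_lit 5) (nat_lit 533) (nat_lit 5) (nat_lit 420) (nat_lit 400) (nat_lit 320)) (XT.nd (nat_lit 78) (nat_lit 0) (nat_lit 0) (XT.lf (nat_lit 0) (nat_lit 1019277657) (nat_lit 1444) (nat_lit 3093366093) (nat_lit 1520) (nat_lit 4203440773) (nat_lit 495) (nat_lit 5) (nat_lit 514) (nat_lit 5) (nat_lit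 515) (nat_lit 5) (nat_lit 421) (nat_lit 400) (nat_lit 319)) (XT.lf (nat_lit 76) (nat_lit 1386346326) (nat_lit 0) (nat_lit 1228084934) (nat_lit 1520) (nat_lit 5769634230) (nat_lit 496) (nat_lit 5) (nat_lit 495) (nat_lit 5) (nat_lit 515) (nat_lit 5) (nat_lit 422) (nat_lit 400) (nat_lit 318))))))) (XT.nd (nat_lit 780) (nat_lit 5472) (nat_lit 0) (XT.nd (nat_lit 390) (nat_lit 5092) (nat_lit 0) (XT.nd (nat_lit 156) (nat_lit 1596) (nat_lit 0) (XT.nd (nat_lit 78) (nat_lit 1444) (nat_lit 0) (XT.lf (nat_lit 0) (nat_lit 4243979394) (nat_lit 1444) (nat_lit 2490165663) (nat_lit 76) (nat_lit 1719225147) (nat_lit 496) (nat_lit 5) (nat_lit 515) (nat_lit 5) (nat_lit 497) (nat_lit 5) (nat_lit 423) (nat_lit 400) (nat_lit 317)) (XT.lf (nat_lit 0) (nat_lit 2103968280) (nat_lit 1444) (nat_lit 3794989046) (nat_lit 1520) (nat_lit 2625260595) (nat_lit 477) (nat_lit 5) (nat_lit 496) (nat_lit 5) (nat_lit 497) (nat_lit 5) (nat_lit 424) (nat_lit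 400) (nat_lit 316))) (XT.nd (nat_lit 78) (nat_lit 1596) (nat_lit 0) (XT.lf (nat_lit 0) (nat_lit 6800859741) (nat_lit 1444) (nat_lit 774350046) (nat_lit 1520) (nat_lit 1021522718) (nat_lit 477) (nat_lit 5) (nat_lit 496) (nat_lit 5) (nat_lit 497) (nat_lit 5) (nat_lit 425) (nat_lit 400) (nat_lit 315)) (XT.nd (nat_lit 78) (nat_lit 0) (nat_lit 0) (XT.lf (nat_lit 0) (nat_lit 612263915) (nat_lit 1596) (nat_lit 5753330334) (nat_lit 76) (nat_lit 2304915649) (nat_lit 456) (nat_lit 5) (nat_lit 477) (nat_lit 5) (nat_lit 457) (nat_lit 5) (nat_lit 426) (nat_lit 400) (nat_lit 314)) (XT.lf (nat_lit 0) (nat_lit 2254584369) (nat_lit 1596) (nat_lit 1031928058) (nat_lit 76) (nat_lit 5459337282) (nat_lit 456) (nat_lit 5) (nat_lit 477) (nat_lit 5) (nat_lit 457) (nat_lit 5) (nat_lit 427) (nat_lit 400) (nat_lit 313))))) (XT.nd (nat_lit 156) (nat_lit 3496) (nat_lit 0) (XT.nd (nat_lit 78) (nat_lit 0) (nat_lit 0) (XT.lf (nat_lit 0) (nat_lit 3811071714)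 (nat_lit 1596) (nat_lit 116231644) (nat_lit 1672) (nat_lit 4895454308) (nat_lit 435) (nat_lit 5) (nat_lit 456) (nat_lit 5) (nat_lit 457) (nat_lit 5) (nat_lit 428) (nat_lit 400) (nat_lit 312)) (XT.lf (nat_lit 0) (nat_lit 5633908998) (nat_lit 1672) (nat_lit 179670705) (nat_lit 76) (nat_lit 3087627585) (nat_lit 435) (nat_lit 5) (nat_lit 457) (nat_lit 5) (nat_lit 436) (nat_lit 5) (nat_lit 429) (nat_lit 400) (nat_lit 311))) (XT.nd (nat_lit 78) (nat_lit 1824) (nat_lit 0) (XT.lf (nat_lit 0) (nat_lit 4788230752) (nat_lit 1672) (nat_lit 2592020237) (nat_lit 1748) (nat_lit 1600874741) (nat_lit 413) (nat_lit 5) (nat_lit 435) (nat_lit 5) (nat_lit 436) (nat_lit 5) (nat_lit 430) (nat_lit 400) (nat_lit 310)) (XT.nd (nat_lit 78) (nat_lit 0) (nat_lit 0) (XT.lf (nat_lit 0) (nat_lit 82373521) (nat_lit 1824) (nat_lit 8285686821) (nat_lit 76) (nat_lit 694884948) (nat_lit 389) (nat_lit 5) (nat_lit 413) (nat_lit 5) (nat_lit 390) (nat_lit 5)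 (nat_lit 431) (nat_lit 400) (nat_lit 309)) (XT.lf (nat_lit 0) (nat_lit 1797672117) (nat_lit 1824) (nat_lit 3293525144) (nat_lit 76) (nat_lit 4054607147) (nat_lit 389) (nat_lit 5) (nat_lit 413) (nat_lit 5) (nat_lit 390) (nat_lit 5) (nat_lit 432) (nat_lit 400) (nat_lit 308)))))) (XT.nd (nat_lit 390) (nat_lit 2584) (nat_lit 0) (XT.nd (nat_lit 156) (nat_lit 1824) (nat_lit 0) (XT.nd (nat_lit 78) (nat_lit 0) (nat_lit 0) (XT.lf (nat_lit 0) (nat_lit 1799150889) (nat_lit 1064) (nat_lit 1734623232) (nat_lit 1140) (nat_lit 5696827644) (nat_lit 375) (nat_lit 5) (nat_lit 389) (nat_lit 5) (nat_lit 390) (nat_lit 5) (nat_lit 433) (nat_lit 400) (nat_lit 307)) (XT.lf (nat_lit 0) (nat_lit 5312987952) (nat_lit 1140) (nat_lit 2312736196) (nat_lit 76) (nat_lit 1691213914) (nat_lit 375) (nat_lit 5) (nat_lit 390) (nat_lit 5) (nat_lit 376) (nat_lit 5) (nat_lit 434) (nat_lit 400) (nat_lit 306))) (XT.nd (nat_lit 78) (nat_lit 912) (nat_lit 0) (XT.lf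 (nat_lit 0) (nat_lit 2912221092) (nat_lit 912) (nat_lit 4221622855) (nat_lit 988) (nat_lit 2271046559) (nat_lit 363) (nat_lit 5) (nat_lit 375) (nat_lit 5) (nat_lit 376) (nat_lit 5) (nat_lit 435) (nat_lit 400) (nat_lit 305)) (XT.nd (nat_lit 78) (nat_lit 912) (nat_lit 0) (XT.lf (nat_lit 0) (nat_lit 8250339108) (nat_lit 912) (nat_lit 732289780) (nat_lit 988) (nat_lit 512153244) (nat_lit 363) (nat_lit 5) (nat_lit 375) (nat_lit 5) (nat_lit 376) (nat_lit 5) (nat_lit 436) (nat_lit 400) (nat_lit 304)) (XT.lf (nat_lit 0) (nat_lit 1286824151) (nat_lit 912) (nat_lit 5472797277) (nat_lit 76) (nat_lit 2826259292) (nat_lit 351) (nat_lit 5) (nat_lit 363) (nat_lit 5) (nat_lit 352) (nat_lit 5) (nat_lit 437) (nat_lit 400) (nat_lit 303))))) (XT.nd (nat_lit 234) (nat_lit 912) (nat_lit 0) (XT.nd (nat_lit 78) (nat_lit 1672) (nat_lit 0) (XT.lf (nat_lit 0) (nat_lit 3104807990) (nat_lit 912) (nat_lit 115205216) (nat_lit 76) (nat_lit 6458932448)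 (nat_lit 351) (nat_lit 5) (nat_lit 363) (nat_lit 5) (nat_lit 352) (nat_lit 5) (nat_lit 438) (nat_lit 400) (nat_lit 302)) (XT.nd (nat_lit 78) (nat_lit 836) (nat_lit 0) (XT.lf (nat_lit 0) (nat_lit 4974048705) (nat_lit 912) (nat_lit 4378530265) (nat_lit 76) (nat_lit 421004552) (nat_lit 340) (nat_lit 5) (nat_lit 352) (nat_lit 5) (nat_lit 341) (nat_lit 5) (nat_lit 439) (nat_lit 400) (nat_lit 301)) (XT.lf (nat_lit 0) (nat_lit 1117536464) (nat_lit 836) (nat_lit 5769883749) (nat_lit 912) (nat_lit 2982568408) (nat_lit 329) (nat_lit 5) (nat_lit 340) (nat_lit 5) (nat_lit 341) (nat_lit 5) (nat_lit 440) (nat_lit 400) (nat_lit 300)))) (XT.nd (nat_lit 78) (nat_lit 912) (nat_lit 0) (XT.lf (nat_lit 0) (nat_lit 6760256094) (nat_lit 836) (nat_lit 2085869208) (nat_lit 912) (nat_lit 1122064404) (nat_lit 329) (nat_lit 5) (nat_lit 340) (nat_lit 5) (nat_lit 341) (nat_lit 5) (nat_lit 441) (nat_lit 400) (nat_lit 299)) (XT.nd (nat_lit 78) (nat_lit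 0) (nat_lit 0) (XT.lf (nat_lit 0) (nat_lit 770355855) (nat_lit 912) (nat_lit 7627255066) (nat_lit 76) (nat_lit 1670554444) (nat_lit 317) (nat_lit 5) (nat_lit 329) (nat_lit 5) (nat_lit 318) (nat_lit 5) (nat_lit 442) (nat_lit 400) (nat_lit 298)) (XT.lf (nat_lit 0) (nat_lit 2699348208) (nat_lit 912) (nat_lit 1967652247) (nat_lit 76) (nat_lit 5502725459) (nat_lit 317) (nat_lit 5) (nat_lit 329) (nat_lit 5) (nat_lit 318) (nat_lit 5) (nat_lit 443) (nat_lit 400) (nat_lit 297))))))))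
noncomputable def xc149 : XT := (XT.nd (nat_lit 1638) (nat_lit 6156) (nat_lit 0) (XT.nd (nat_lit 780) (nat_lit 3724) (nat_lit 0) (XT.nd (nat_lit 390) (nat_lit 2204) (nat_lit 0) (XT.nd (nat_lit 156) (nat_lit 1520) (nat_lit 0) (XT.nd (nat_lit 78) (nat_lit 0) (nat_lit 0) (XT.lf (nat_lit 0) (nat_lit 3833090209) (nat_lit 760) (nat_lit 837394514) (nat_lit 836) (nat_lit 5602770173) (nat_lit 307) (nat_lit 5) (nat_lit 317) (nat_lit 5) (nat_lit 318) (nat_lit 5) (nat_lit 444) (nat_lit 400) (nat_lit 296)) (XT.lf (nat_lit 0) (nat_lit 6693204227) (nat_lit 836) (nat_lit 644682172) (nat_lit 76) (nat_lit 3040733193) (nat_lit 307) (nat_lit 5) (nat_lit 318) (nat_lit 5) (nat_lit 308) (nat_lit 5) (nat_lit 445) (nat_lit 400) (nat_lit 295))) (XT.nd (nat_lit 78) (nat_lit 760) (nat_lit 0) (XT.lf (nat_lit 0) (nat_lit 5308631918) (nat_lit 760) (nat_lit 3467116005) (nat_lit 836) (nat_lit 1709964440) (nat_lit 297) (nat_lit 5) (nat_lit 307) (nat_lit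 5) (nat_lit 308) (nat_lit 5) (nat_lit 446) (nat_lit 400) (nat_lit 294)) (XT.nd (nat_lit 78) (nat_lit 0) (nat_lit 0) (XT.lf (nat_lit 0) (nat_lit 293083355) (nat_lit 760) (nat_lit 9817493121) (nat_lit 76) (nat_lit 484497010) (nat_lit 287) (nat_lit 5) (nat_lit 297) (nat_lit 5) (nat_lit 288) (nat_lit 5) (nat_lit 447) (nat_lit 400) (nat_lit 293)) (XT.lf (nat_lit 0) (nat_lit 2350971541) (nat_lit 760) (nat_lit 3841476396) (nat_lit 76) (nat_lit 4513202023) (nat_lit 287) (nat_lit 5) (nat_lit 297) (nat_lit 5) (nat_lit 288) (nat_lit 5) (nat_lit 448) (nat_lit 400) (nat_lit 292))))) (XT.nd (nat_lit 156) (nat_lit 1444) (nat_lit 0) (XT.nd (nat_lit 78) (nat_lit 0) (nat_lit 0) (XT.lf (nat_lit 0) (nat_lit 2261619173) (nat_lit 760) (nat_lit 2183202265) (nat_lit 836) (nat_lit 6373728002) (nat_lit 277) (nat_lit 5) (nat_lit 287) (nat_lit 5) (nat_lit 288) (nat_lit 5) (nat_lit 449) (nat_lit 400) (nat_lit 291)) (XT.lf (nat_lit 0) (nat_lit 6599226040)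 (nat_lit 836) (nat_lit 2429232265) (nat_lit 76) (nat_lit 1904882458) (nat_lit 277) (nat_lit 5) (nat_lit 288) (nat_lit 5) (nat_lit 278) (nat_lit 5) (nat_lit 450) (nat_lit 400) (nat_lit 290))) (XT.nd (nat_lit 78) (nat_lit 760) (nat_lit 0) (XT.lf (nat_lit 0) (nat_lit 3834953011) (nat_lit 684) (nat_lit 4981860487) (nat_lit 760) (nat_lit 2233219778) (nat_lit 268) (nat_lit 5) (nat_lit 277) (nat_lit 5) (nat_lit 278) (nat_lit 5) (nat_lit 451) (nat_lit 400) (nat_lit 289)) (XT.nd (nat_lit 78) (nat_lit 760) (nat_lit 0) (XT.lf (nat_lit 0) (nat_lit 10235590492) (nat_lit 684) (nat_lit 840437468) (nat_lit 760) (nat_lit 93093293) (nat_lit 268) (nat_lit 5) (nat_lit 277) (nat_lit 5) (nat_lit 278) (nat_lit 5) (nat_lit 452) (nat_lit 400) (nat_lit 288)) (XT.lf (nat_lit 0) (nat_lit 2101701719) (nat_lit 760) (nat_lit 5801499452) (nat_lit 76) (nat_lit 3386339797) (nat_lit 258) (nat_lit 5) (nat_lit 268) (nat_lit 5) (nat_lit 259) (nat_lit 5)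 (nat_lit 453) (nat_lit 400) (nat_lit 287)))))) (XT.nd (nat_lit 390) (nat_lit 1824) (nat_lit 0) (XT.nd (nat_lit 156) (nat_lit 1292) (nat_lit 0) (XT.nd (nat_lit 78) (nat_lit 0) (nat_lit 0) (XT.lf (nat_lit 0) (nat_lit 618536977) (nat_lit 608) (nat_lit 3717924767) (nat_lit 684) (nat_lit 7075955421) (nat_lit 250) (nat_lit 5) (nat_lit 258) (nat_lit 5) (nat_lit 259) (nat_lit 5) (nat_lit 454) (nat_lit 400) (nat_lit 286)) (XT.lf (nat_lit 0) (nat_lit 6640312480) (nat_lit 684) (nat_lit 4317208659) (nat_lit 76) (nat_lit 579748414) (nat_lit 250) (nat_lit 5) (nat_lit 259) (nat_lit 5) (nat_lit 251) (nat_lit 5) (nat_lit 455) (nat_lit 400) (nat_lit 285))) (XT.nd (nat_lit 78) (nat_lit 684) (nat_lit 0) (XT.lf (nat_lit 0) (nat_lit 2272595734) (nat_lit 608) (nat_lit 6739010679) (nat_lit 684) (nat_lit 2652591700) (nat_lit 242) (nat_lit 5) (nat_lit 250) (nat_lit 5) (nat_lit 251) (nat_lit 5) (nat_lit 456) (nat_lit 400) (nat_lit 284)) (XT.nd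 (nat_lit 78) (nat_lit 684) (nat_lit 0) (XT.lf (nat_lit 0) (nat_lit 9031275065) (nat_lit 608) (nat_lit 2410224807) (nat_lit 684) (nat_lit 351948218) (nat_lit 242) (nat_lit 5) (nat_lit 250) (nat_lit 5) (nat_lit 251) (nat_lit 5) (nat_lit 457) (nat_lit 400) (nat_lit 283)) (XT.lf (nat_lit 0) (nat_lit 1990320326) (nat_lit 684) (nat_lit 7919779055) (nat_lit 76) (nat_lit 2014495280) (nat_lit 233) (nat_lit 5) (nat_lit 242) (nat_lit 5) (nat_lit 234) (nat_lit 5) (nat_lit 458) (nat_lit 400) (nat_lit 282))))) (XT.nd (nat_lit 234) (nat_lit 684) (nat_lit 0) (XT.nd (nat_lit 78) (nat_lit 1140) (nat_lit 0) (XT.lf (nat_lit 0) (nat_lit 4391959373) (nat_lit 684) (nat_lit 1153272854) (nat_lit 76) (nat_lit 6512746612) (nat_lit 233) (nat_lit 5) (nat_lit 242) (nat_lit 5) (nat_lit 234) (nat_lit 5) (nat_lit 459) (nat_lit 400) (nat_lit 281)) (XT.nd (nat_lit 78) (nat_lit 532) (nat_lit 0) (XT.lf (nat_lit 0) (nat_lit 5803649863) (nat_lit 608) (nat_lit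 1058616569) (nat_lit 684) (nat_lit 5331357402) (nat_lit 225) (nat_lit 5) (nat_lit 233) (nat_lit 5) (nat_lit 234) (nat_lit 5) (nat_lit 460) (nat_lit 400) (nat_lit 280)) (XT.lf (nat_lit 0) (nat_lit 546587312) (nat_lit 532) (nat_lit 8852697321) (nat_lit 608) (nat_lit 2932356722) (nat_lit 218) (nat_lit 5) (nat_lit 225) (nat_lit 5) (nat_lit 226) (nat_lit 5) (nat_lit 461) (nat_lit 400) (nat_lit 279)))) (XT.nd (nat_lit 78) (nat_lit 684) (nat_lit 0) (XT.lf (nat_lit 0) (nat_lit 7680325668) (nat_lit 532) (nat_lit 4339882694) (nat_lit 608) (nat_lit 451553172) (nat_lit 218) (nat_lit 5) (nat_lit 225) (nat_lit 5) (nat_lit 226) (nat_lit 5) (nat_lit 462) (nat_lit 400) (nat_lit 278)) (XT.nd (nat_lit 78) (nat_lit 0) (nat_lit 0) (XT.lf (nat_lit 0) (nat_lit 2052187721) (nat_lit 684) (nat_lit 10277969382) (nat_lit 76) (nat_lit 284250743) (nat_lit 209) (nat_lit 5) (nat_lit 218) (nat_lit 5) (nat_lit 210) (nat_lit 5) (nat_lit 463) (nat_lit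 400) (nat_lit 277)) (XT.lf (nat_lit 0) (nat_lit 4644762756) (nat_lit 684) (nat_lit 3140432548) (nat_lit 76) (nat_lit 4973761261) (nat_lit 209) (nat_lit 5) (nat_lit 218) (nat_lit 5) (nat_lit 210) (nat_lit 5) (nat_lit 464) (nat_lit 400) (nat_lit 276))))))) (XT.nd (nat_lit 858) (nat_lit 3040) (nat_lit 0) (XT.nd (nat_lit 390) (nat_lit 1520) (nat_lit 0) (XT.nd (nat_lit 156) (nat_lit 1064) (nat_lit 0) (XT.nd (nat_lit 78) (nat_lit 0) (nat_lit 0) (XT.lf (nat_lit 0) (nat_lit 4173966275) (nat_lit 532) (nat_lit 3126335951) (nat_lit 608) (nat_lit 5605876960) (nat_lit 202) (nat_lit 5) (nat_lit 209) (nat_lit 5) (nat_lit 210) (nat_lit 5) (nat_lit 465) (nat_lit 400) (nat_lit 275)) (XT.lf (nat_lit 0) (nat_lit 10024883872) (nat_lit 608) (nat_lit 1410183115) (nat_lit 76) (nat_lit 1620965727) (nat_lit 202) (nat_lit 5) (nat_lit 210) (nat_lit 5) (nat_lit 203) (nat_lit 5) (nat_lit 466) (nat_lit 400) (nat_lit 274))) (XT.nd (nat_lit 78) (nat_lit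 532) (nat_lit 0) (XT.lf (nat_lit 0) (nat_lit 6097170003) (nat_lit 532) (nat_lit 6751551506) (nat_lit 608) (nat_lit 359271501) (nat_lit 195) (nat_lit 5) (nat_lit 202) (nat_lit 5) (nat_lit 203) (nat_lit 5) (nat_lit 467) (nat_lit 400) (nat_lit 273)) (XT.nd (nat_lit 78) (nat_lit 0) (nat_lit 0) (XT.lf (nat_lit 0) (nat_lit 380087944) (nat_lit 456) (nat_lit 1951457660) (nat_lit 532) (nat_lit 11031213794) (nat_lit 188) (nat_lit 5) (nat_lit 194) (nat_lit 5) (nat_lit 195) (nat_lit 5) (nat_lit 468) (nat_lit 400) (nat_lit 272)) (XT.lf (nat_lit 0) (nat_lit 5123203144) (nat_lit 532) (nat_lit 5444872369) (nat_lit 76) (nat_lit 2951466106) (nat_lit 188) (nat_lit 5) (nat_lit 195) (nat_lit 5) (nat_lit 189) (nat_lit 5) (nat_lit 469) (nat_lit 400) (nat_lit 271))))) (XT.nd (nat_lit 234) (nat_lit 532) (nat_lit 0) (XT.nd (nat_lit 78) (nat_lit 456) (nat_lit 0) (XT.lf (nat_lit 0) (nat_lit 2239942301) (nat_lit 532) (nat_lit 5743197032) (nat_lit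 608) (nat_lit 5696075846) (nat_lit 181) (nat_lit 5) (nat_lit 188) (nat_lit 5) (nat_lit 189) (nat_lit 5) (nat_lit 470) (nat_lit 400) (nat_lit 270)) (XT.nd (nat_lit 78) (nat_lit 456) (nat_lit 0) (XT.lf (nat_lit 0) (nat_lit 10132198719) (nat_lit 532) (nat_lit 789756519) (nat_lit 608) (nat_lit 2919697868) (nat_lit 181) (nat_lit 5) (nat_lit 188) (nat_lit 5) (nat_lit 189) (nat_lit 5) (nat_lit 471) (nat_lit 400) (nat_lit 269)) (XT.lf (nat_lit 0) (nat_lit 4182203731) (nat_lit 456) (nat_lit 9777575207) (nat_lit 532) (nat_lit 46760649) (nat_lit 175) (nat_lit 5) (nat_lit 181) (nat_lit 5) (nat_lit 182) (nat_lit 5) (nat_lit 472) (nat_lit 400) (nat_lit 268)))) (XT.nd (nat_lit 78) (nat_lit 456) (nat_lit 0) (XT.lf (nat_lit 0) (nat_lit 2861562334) (nat_lit 532) (nat_lit 1936362660) (nat_lit 76) (nat_lit 9376113678) (nat_lit 174) (nat_lit 5) (nat_lit 181) (nat_lit 5) (nat_lit 175) (nat_lit 5) (nat_lit 473) (nat_lit 400) (nat_lit 267))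 (XT.nd (nat_lit 78) (nat_lit 0) (nat_lit 0) (XT.lf (nat_lit 0) (nat_lit 5855291702) (nat_lit 532) (nat_lit 8176047504) (nat_lit 76) (nat_lit 312989203) (nat_lit 168) (nat_lit 5) (nat_lit 175) (nat_lit 5) (nat_lit 169) (nat_lit 5) (nat_lit 474) (nat_lit 400) (nat_lit 266)) (XT.lf (nat_lit 0) (nat_lit 8939612370) (nat_lit 532) (nat_lit 108086242) (nat_lit 76) (nat_lit 5469715081) (nat_lit 168) (nat_lit 5) (nat_lit 175) (nat_lit 5) (nat_lit 169) (nat_lit 5) (nat_lit 475) (nat_lit 400) (nat_lit 265)))))) (XT.nd (nat_lit 390) (nat_lit 1672) (nat_lit 0) (XT.nd (nat_lit 156) (nat_lit 380) (nat_lit 0) (XT.nd (nat_lit 78) (nat_lit 532) (nat_lit 0) (XT.lf (nat_lit 0) (nat_lit 8209563917) (nat_lit 456) (nat_lit 3915496987) (nat_lit 532) (nat_lit 2568114959) (nat_lit 162) (nat_lit 5) (nat_lit 168) (nat_lit 5) (nat_lit 169) (nat_lit 5) (nat_lit 476) (nat_lit 400) (nat_lit 264)) (XT.lf (nat_lit 0) (nat_lit 502582624) (nat_lit 532)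 (nat_lit 13057200683) (nat_lit 76) (nat_lit 1312460702) (nat_lit 155) (nat_lit 5) (nat_lit 162) (nat_lit 5) (nat_lit 156) (nat_lit 5) (nat_lit 477) (nat_lit 400) (nat_lit 263))) (XT.nd (nat_lit 78) (nat_lit 380) (nat_lit 0) (XT.lf (nat_lit 0) (nat_lit 3656367316) (nat_lit 532) (nat_lit 4749203862) (nat_lit 76) (nat_lit 6647865407) (nat_lit 155) (nat_lit 5) (nat_lit 162) (nat_lit 5) (nat_lit 156) (nat_lit 5) (nat_lit 478) (nat_lit 400) (nat_lit 262)) (XT.nd (nat_lit 78) (nat_lit 0) (nat_lit 0) (XT.lf (nat_lit 0) (nat_lit 3755070614) (nat_lit 380) (nat_lit 3129107149) (nat_lit 456) (nat_lit 8353859951) (nat_lit 150) (nat_lit 5) (nat_lit 155) (nat_lit 5) (nat_lit 156) (nat_lit 5) (nat_lit 479) (nat_lit 400) (nat_lit 261)) (XT.lf (nat_lit 0) (nat_lit 10209924865) (nat_lit 456) (nat_lit 2965961658) (nat_lit 76) (nat_lit 2249780365) (nat_lit 150) (nat_lit 5) (nat_lit 156) (nat_lit 5) (nat_lit 151) (nat_lit 5) (nat_lit 480)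 (nat_lit 400) (nat_lit 260))))) (XT.nd (nat_lit 234) (nat_lit 760) (nat_lit 0) (XT.nd (nat_lit 78) (nat_lit 456) (nat_lit 0) (XT.lf (nat_lit 0) (nat_lit 5757309494) (nat_lit 456) (nat_lit 7889914073) (nat_lit 532) (nat_lit 1968927907) (nat_lit 144) (nat_lit 5) (nat_lit 150) (nat_lit 5) (nat_lit 151) (nat_lit 5) (nat_lit 481) (nat_lit 400) (nat_lit 259)) (XT.nd (nat_lit 78) (nat_lit 380) (nat_lit 0) (XT.lf (nat_lit 0) (nat_lit 1332225399) (nat_lit 532) (nat_lit 1142559893) (nat_lit 76) (nat_lit 13335349223) (nat_lit 143) (nat_lit 5) (nat_lit 150) (nat_lit 5) (nat_lit 144) (nat_lit 5) (nat_lit 482) (nat_lit 400) (nat_lit 258)) (XT.lf (nat_lit 0) (nat_lit 4731242184) (nat_lit 456) (nat_lit 8208143824) (nat_lit 76) (nat_lit 3067190184) (nat_lit 138) (nat_lit 5) (nat_lit 144) (nat_lit 5) (nat_lit 139) (nat_lit 5) (nat_lit 483) (nat_lit 400) (nat_lit 257)))) (XT.nd (nat_lit 78) (nat_lit 380) (nat_lit 0) (XT.lf (nat_lit 0)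 (nat_lit 701055225) (nat_lit 380) (nat_lit 7513170807) (nat_lit 456) (nat_lit 7992404225) (nat_lit 133) (nat_lit 5) (nat_lit 138) (nat_lit 5) (nat_lit 139) (nat_lit 5) (nat_lit 484) (nat_lit 400) (nat_lit 256)) (XT.nd (nat_lit 78) (nat_lit 380) (nat_lit 0) (XT.lf (nat_lit 0) (nat_lit 9881186450) (nat_lit 380) (nat_lit 1928220084) (nat_lit 456) (nat_lit 4600431353) (nat_lit 133) (nat_lit 5) (nat_lit 138) (nat_lit 5) (nat_lit 139) (nat_lit 5) (nat_lit 485) (nat_lit 400) (nat_lit 255)) (XT.lf (nat_lit 0) (nat_lit 2619333089) (nat_lit 380) (nat_lit 12886295113) (nat_lit 456) (nat_lit 1110901877) (nat_lit 128) (nat_lit 5) (nat_lit 133) (nat_lit 5) (nat_lit 134) (nat_lit 5) (nat_lit 486) (nat_lit 400) (nat_lit 254))))))))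
noncomputable def xc150 : XT := (XT.nd (nat_lit 52962) (nat_lit 0) (nat_lit 29640) (XT.nd (nat_lit 780) (nat_lit 1292) (nat_lit 0) (XT.nd (nat_lit 390) (nat_lit 1064) (nat_lit 0) (XT.nd (nat_lit 156) (nat_lit 380) (nat_lit 0) (XT.nd (nat_lit 78) (nat_lit 380) (nat_lit 0) (XT.lf (nat_lit 0) (nat_lit 2460880703) (nat_lit 456) (nat_lit 4835070629) (nat_lit 76) (nat_lit 9530198406) (nat_lit 127) (nat_lit 5) (nat_lit 133) (nat_lit 5) (nat_lit 128) (nat_lit 5) (nat_lit 487) (nat_lit 400) (nat_lit 253)) (XT.lf (nat_lit 0) (nat_lit 4544495064) (nat_lit 380) (nat_lit 1562193252) (nat_lit 456) (nat_lit 10932780306) (nat_lit 122) (nat_lit 5) (nat_lit 127) (nat_lit 5) (nat_lit 128) (nat_lit 5) (nat_lit 488) (nat_lit 400) (nat_lit 252))) (XT.nd (nat_lit 78) (nat_lit 380) (nat_lit 0) (XT.lf (nat_lit 0) (nat_lit 9873927567) (nat_lit 456) (nat_lit 3125388297) (nat_lit 76) (nat_lit 4256770628) (nat_lit 122) (nat_lit 5) (nat_lit 128)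 (nat_lit 5) (nat_lit 123) (nat_lit 5) (nat_lit 489) (nat_lit 400) (nat_lit 251)) (XT.nd (nat_lit 78) (nat_lit 76) (nat_lit 0) (XT.lf (nat_lit 0) (nat_lit 6488565173) (nat_lit 304) (nat_lit 7268680572) (nat_lit 380) (nat_lit 3718979156) (nat_lit 118) (nat_lit 5) (nat_lit 122) (nat_lit 5) (nat_lit 123) (nat_lit 5) (nat_lit 490) (nat_lit 400) (nat_lit 250)) (XT.lf (nat_lit 0) (nat_lit 26643258) (nat_lit 380) (nat_lit 1381253607) (nat_lit 76) (nat_lit 16292681534) (nat_lit 117) (nat_lit 5) (nat_lit 122) (nat_lit 5) (nat_lit 118) (nat_lit 5) (nat_lit 491) (nat_lit 400) (nat_lit 249))))) (XT.nd (nat_lit 156) (nat_lit 380) (nat_lit 0) (XT.nd (nat_lit 78) (nat_lit 304) (nat_lit 0) (XT.lf (nat_lit 0) (nat_lit 3871214341) (nat_lit 456) (nat_lit 9471732897) (nat_lit 76) (nat_lit 4584506110) (nat_lit 112) (nat_lit 5) (nat_lit 118) (nat_lit 5) (nat_lit 113) (nat_lit 5) (nat_lit 492) (nat_lit 400) (nat_lit 248)) (XT.lf (nat_lit 0)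 (nat_lit 326833537) (nat_lit 304) (nat_lit 7475218573) (nat_lit 380) (nat_lit 10356628826) (nat_lit 108) (nat_lit 5) (nat_lit 112) (nat_lit 5) (nat_lit 113) (nat_lit 5) (nat_lit 493) (nat_lit 400) (nat_lit 247))) (XT.nd (nat_lit 78) (nat_lit 380) (nat_lit 0) (XT.lf (nat_lit 0) (nat_lit 10432333987) (nat_lit 304) (nat_lit 1431442448) (nat_lit 380) (nat_lit 6529713837) (nat_lit 108) (nat_lit 5) (nat_lit 112) (nat_lit 5) (nat_lit 113) (nat_lit 5) (nat_lit 494) (nat_lit 400) (nat_lit 246)) (XT.nd (nat_lit 78) (nat_lit 76) (nat_lit 0) (XT.lf (nat_lit 0) (nat_lit 2086307569) (nat_lit 304) (nat_lit 13953596300) (nat_lit 380) (nat_lit 2592431096) (nat_lit 104) (nat_lit 5) (nat_lit 108) (nat_lit 5) (nat_lit 109) (nat_lit 5) (nat_lit 495) (nat_lit 400) (nat_lit 245)) (XT.lf (nat_lit 0) (nat_lit 1457106543) (nat_lit 380) (nat_lit 6468636564) (nat_lit 76) (nat_lit 10948987430) (nat_lit 103) (nat_lit 5) (nat_lit 108) (nat_lit 5)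 (nat_lit 104) (nat_lit 5) (nat_lit 496) (nat_lit 400) (nat_lit 244)))))) (XT.nd (nat_lit 390) (nat_lit 304) (nat_lit 0) (XT.nd (nat_lit 156) (nat_lit 684) (nat_lit 0) (XT.nd (nat_lit 78) (nat_lit 0) (nat_lit 0) (XT.lf (nat_lit 0) (nat_lit 3826348021) (nat_lit 304) (nat_lit 1740589977) (nat_lit 380) (nat_lit 13554415384) (nat_lit 99) (nat_lit 5) (nat_lit 103) (nat_lit 5) (nat_lit 104) (nat_lit 5) (nat_lit 497) (nat_lit 400) (nat_lit 243)) (XT.lf (nat_lit 0) (nat_lit 9821525681) (nat_lit 380) (nat_lit 5004106956) (nat_lit 76) (nat_lit 4546027202) (nat_lit 99) (nat_lit 5) (nat_lit 104) (nat_lit 5) (nat_lit 100) (nat_lit 5) (nat_lit 498) (nat_lit 400) (nat_lit 242))) (XT.nd (nat_lit 78) (nat_lit 380) (nat_lit 0) (XT.lf (nat_lit 0) (nat_lit 5536999985) (nat_lit 304) (nat_lit 8661097740) (nat_lit 380) (nat_lit 5428139151) (nat_lit 95) (nat_lit 5) (nat_lit 99) (nat_lit 5) (nat_lit 100) (nat_lit 5) (nat_lit 499) (nat_lit 400)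 (nat_lit 241)) (XT.nd (nat_lit 78) (nat_lit 380) (nat_lit 0) (XT.lf (nat_lit 0) (nat_lit 16340169834) (nat_lit 304) (nat_lit 2345127029) (nat_lit 380) (nat_lit 1200148935) (nat_lit 95) (nat_lit 5) (nat_lit 99) (nat_lit 5) (nat_lit 100) (nat_lit 5) (nat_lit 500) (nat_lit 400) (nat_lit 240)) (XT.lf (nat_lit 0) (nat_lit 3135431158) (nat_lit 380) (nat_lit 12907433072) (nat_lit 76) (nat_lit 4105295688) (nat_lit 90) (nat_lit 5) (nat_lit 95) (nat_lit 5) (nat_lit 91) (nat_lit 5) (nat_lit 501) (nat_lit 400) (nat_lit 239))))) (XT.nd (nat_lit 51558) (nat_lit 0) (nat_lit 35948) (XT.nd (nat_lit 78) (nat_lit 304) (nat_lit 0) (XT.lf (nat_lit 0) (nat_lit 7570855387) (nat_lit 380) (nat_lit 2165247438) (nat_lit 76) (nat_lit 10679284911) (nat_lit 90) (nat_lit 5) (nat_lit 95) (nat_lit 5) (nat_lit 91) (nat_lit 5) (nat_lit 502) (nat_lit 400) (nat_lit 238)) (XT.nd (nat_lit 51402) (nat_lit 0) (nat_lit 35948) (XT.lf (nat_lit 0) (nat_lit 8892262796)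 (nat_lit 304) (nat_lit 3250370207) (nat_lit 380) (nat_lit 8544376295) (nat_lit 86) (nat_lit 5) (nat_lit 90) (nat_lit 5) (nat_lit 91) (nat_lit 5) (nat_lit 503) (nat_lit 400) (nat_lit 237)) (XT.lf (nat_lit 0) (nat_lit 484708311) (nat_lit 0) (nat_lit 484708311) (nat_lit 1140) (nat_lit 2676204263) (nat_lit 559) (nat_lit 5) (nat_lit 559) (nat_lit 3) (nat_lit 574) (nat_lit 3) (nat_lit 401) (nat_lit 401) (nat_lit 338)))) (XT.nd (nat_lit 78) (nat_lit 0) (nat_lit 0) (XT.lf (nat_lit 0) (nat_lit 3515276159) (nat_lit 1140) (nat_lit 2838529501) (nat_lit 1216) (nat_lit 978368388) (nat_lit 559) (nat_lit 5) (nat_lit 574) (nat_lit 3) (nat_lit 575) (nat_lit 5) (nat_lit 402) (nat_lit 401) (nat_lit 337)) (XT.nd (nat_lit 78) (nat_lit 0) (nat_lit 0) (XT.lf (nat_lit 76) (nat_lit 695833923) (nat_lit 0) (nat_lit 4397810575) (nat_lit 1216) (nat_lit 2280894551) (nat_lit 560) (nat_lit 5) (nat_lit 559) (nat_lit 5) (nat_lit 575) (nat_lit 5) (nat_lit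 403) (nat_lit 401) (nat_lit 336)) (XT.lf (nat_lit 76) (nat_lit 4318197643) (nat_lit 0) (nat_lit 2364546875) (nat_lit 1216) (nat_lit 735445121) (nat_lit 560) (nat_lit 5) (nat_lit 559) (nat_lit 5) (nat_lit 575) (nat_lit 5) (nat_lit 404) (nat_lit 401) (nat_lit 335))))))) (XT.nd (nat_lit 858) (nat_lit 2736) (nat_lit 0) (XT.nd (nat_lit 390) (nat_lit 2356) (nat_lit 0) (XT.nd (nat_lit 156) (nat_lit 0) (nat_lit 76) (XT.nd (nat_lit 78) (nat_lit 0) (nat_lit 76) (XT.lf (nat_lit 76) (nat_lit 530500126) (nat_lit 0) (nat_lit 263447292) (nat_lit 1292) (nat_lit 6669396111) (nat_lit 544) (nat_lit 5) (nat_lit 543) (nat_lit 5) (nat_lit 560) (nat_lit 5) (nat_lit 405) (nat_lit 401) (nat_lit 334)) (XT.lf (nat_lit 0) (nat_lit 2338601411) (nat_lit 1216) (nat_lit 3272636016) (nat_lit 1292) (nat_lit 1898195753) (nat_lit 544) (nat_lit 5) (nat_lit 560) (nat_lit 5) (nat_lit 561) (nat_lit 5) (nat_lit 406) (nat_lit 401) (nat_lit 333))) (XT.nd (nat_lit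 78) (nat_lit 0) (nat_lit 0) (XT.lf (nat_lit 76) (nat_lit 443213746) (nat_lit 0) (nat_lit 3437682126) (nat_lit 1292) (nat_lit 3676233736) (nat_lit 545) (nat_lit 5) (nat_lit 544) (nat_lit 5) (nat_lit 561) (nat_lit 5) (nat_lit 407) (nat_lit 401) (nat_lit 332)) (XT.nd (nat_lit 78) (nat_lit 0) (nat_lit 76) (XT.lf (nat_lit 76) (nat_lit 4256254332) (nat_lit 0) (nat_lit 1182471204) (nat_lit 1292) (nat_lit 2167380186) (nat_lit 545) (nat_lit 5) (nat_lit 544) (nat_lit 5) (nat_lit 561) (nat_lit 5) (nat_lit 408) (nat_lit 401) (nat_lit 331)) (XT.lf (nat_lit 76) (nat_lit 466437254) (nat_lit 0) (nat_lit 6535120238) (nat_lit 1292) (nat_lit 655046113) (nat_lit 546) (nat_lit 5) (nat_lit 545) (nat_lit 5) (nat_lit 562) (nat_lit 5) (nat_lit 409) (nat_lit 401) (nat_lit 330))))) (XT.nd (nat_lit 234) (nat_lit 1216) (nat_lit 0) (XT.nd (nat_lit 78) (nat_lit 0) (nat_lit 0) (XT.lf (nat_lit 0) (nat_lit 870230116) (nat_lit 1292) (nat_lit 3339215366)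 (nat_lit 1368) (nat_lit 3498682417) (nat_lit 528) (nat_lit 5) (nat_lit 545) (nat_lit 5) (nat_lit 546) (nat_lit 5) (nat_lit 410) (nat_lit 401) (nat_lit 329)) (XT.nd (nat_lit 78) (nat_lit 0) (nat_lit 76) (XT.lf (nat_lit 76) (nat_lit 570058666) (nat_lit 0) (nat_lit 1815476420) (nat_lit 1368) (nat_lit 5375713165) (nat_lit 529) (nat_lit 5) (nat_lit 528) (nat_lit 5) (nat_lit 546) (nat_lit 5) (nat_lit 411) (nat_lit 401) (nat_lit 328)) (XT.lf (nat_lit 0) (nat_lit 3922993248) (nat_lit 1292) (nat_lit 3238907087) (nat_lit 1368) (nat_lit 653711431) (nat_lit 529) (nat_lit 5) (nat_lit 546) (nat_lit 5) (nat_lit 547) (nat_lit 5) (nat_lit 412) (nat_lit 401) (nat_lit 327)))) (XT.nd (nat_lit 78) (nat_lit 1292) (nat_lit 0) (XT.lf (nat_lit 76) (nat_lit 768425945) (nat_lit 0) (nat_lit 4705692647) (nat_lit 1368) (nat_lit 2397302956) (nat_lit 530) (nat_lit 5) (nat_lit 529) (nat_lit 5) (nat_lit 547) (nat_lit 5) (nat_lit 413) (nat_lit 401) (nat_lit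 326)) (XT.nd (nat_lit 78) (nat_lit 1292) (nat_lit 0) (XT.lf (nat_lit 76) (nat_lit 4877904807) (nat_lit 0) (nat_lit 2166528562) (nat_lit 1368) (nat_lit 884167830) (nat_lit 530) (nat_lit 5) (nat_lit 529) (nat_lit 5) (nat_lit 547) (nat_lit 5) (nat_lit 414) (nat_lit 401) (nat_lit 325)) (XT.lf (nat_lit 0) (nat_lit 627286541) (nat_lit 1368) (nat_lit 6919799605) (nat_lit 1444) (nat_lit 440234997) (nat_lit 512) (nat_lit 5) (nat_lit 530) (nat_lit 5) (nat_lit 531) (nat_lit 5) (nat_lit 415) (nat_lit 401) (nat_lit 324)))))) (XT.nd (nat_lit 390) (nat_lit 1368) (nat_lit 0) (XT.nd (nat_lit 156) (nat_lit 1368) (nat_lit 0) (XT.nd (nat_lit 78) (nat_lit 0) (nat_lit 0) (XT.lf (nat_lit 0) (nat_lit 2159532076) (nat_lit 1368) (nat_lit 2780215352) (nat_lit 1444) (nat_lit 3107319181) (nat_lit 512) (nat_lit 5) (nat_lit 530) (nat_lit 5) (nat_lit 531) (nat_lit 5) (nat_lit 416) (nat_lit 401) (nat_lit 323)) (XT.lf (nat_lit 76) (nat_lit 1438947085)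 (nat_lit 0) (nat_lit 2260891362) (nat_lit 1444) (nat_lit 4408635938) (nat_lit 513) (nat_lit 5) (nat_lit 512) (nat_lit 5) (nat_lit 531) (nat_lit 5) (nat_lit 417) (nat_lit 401) (nat_lit 322))) (XT.nd (nat_lit 78) (nat_lit 1444) (nat_lit 0) (XT.lf (nat_lit 0) (nat_lit 5261411358) (nat_lit 1368) (nat_lit 2416389196) (nat_lit 1444) (nat_lit 493515963) (nat_lit 513) (nat_lit 5) (nat_lit 531) (nat_lit 5) (nat_lit 532) (nat_lit 5) (nat_lit 418) (nat_lit 401) (nat_lit 321)) (XT.nd (nat_lit 78) (nat_lit 1444) (nat_lit 0) (XT.lf (nat_lit 76) (nat_lit 1909682532) (nat_lit 0) (nat_lit 4941138819) (nat_lit 1444) (nat_lit 1384677135) (nat_lit 514) (nat_lit 5) (nat_lit 513) (nat_lit 5) (nat_lit 532) (nat_lit 5) (nat_lit 419) (nat_lit 401) (nat_lit 320)) (XT.lf (nat_lit 0) (nat_lit 154613299) (nat_lit 1444) (nat_lit 1969303538) (nat_lit 1520) (nat_lit 6177323540) (nat_lit 494) (nat_lit 5) (nat_lit 513) (nat_lit 5) (nat_lit 514) (nat_lit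 5) (nat_lit 420) (nat_lit 401) (nat_lit 319))))) (XT.nd (nat_lit 234) (nat_lit 1444) (nat_lit 0) (XT.nd (nat_lit 78) (nat_lit 0) (nat_lit 0) (XT.lf (nat_lit 0) (nat_lit 1697402003) (nat_lit 1444) (nat_lit 5897889038) (nat_lit 1520) (nat_lit 773012182) (nat_lit 495) (nat_lit 5) (nat_lit 514) (nat_lit 5) (nat_lit 515) (nat_lit 5) (nat_lit 421) (nat_lit 401) (nat_lit 318)) (XT.nd (nat_lit 78) (nat_lit 0) (nat_lit 0) (XT.lf (nat_lit 0) (nat_lit 3268985696) (nat_lit 1444) (nat_lit 1447518873) (nat_lit 1520) (nat_lit 3720257928) (nat_lit 495) (nat_lit 5) (nat_lit 514) (nat_lit 5) (nat_lit 515) (nat_lit 5) (nat_lit 422) (nat_lit 401) (nat_lit 317)) (XT.lf (nat_lit 76) (nat_lit 3110552831) (nat_lit 0) (nat_lit 1752792007) (nat_lit 1520) (nat_lit 3643432928) (nat_lit 496) (nat_lit 5) (nat_lit 495) (nat_lit 5) (nat_lit 515) (nat_lit 5) (nat_lit 423) (nat_lit 401) (nat_lit 316)))) (XT.nd (nat_lit 78) (nat_lit 1520) (nat_lit 0)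 (XT.lf (nat_lit 0) (nat_lit 6479229253) (nat_lit 1444) (nat_lit 829482813) (nat_lit 76) (nat_lit 1269701927) (nat_lit 496) (nat_lit 5) (nat_lit 515) (nat_lit 5) (nat_lit 497) (nat_lit 5) (nat_lit 424) (nat_lit 401) (nat_lit 315)) (XT.nd (nat_lit 78) (nat_lit 76) (nat_lit 0) (XT.lf (nat_lit 0) (nat_lit 3845280611) (nat_lit 1444) (nat_lit 4290894557) (nat_lit 1520) (nat_lit 515146052) (nat_lit 477) (nat_lit 5) (nat_lit 496) (nat_lit 5) (nat_lit 497) (nat_lit 5) (nat_lit 425) (nat_lit 401) (nat_lit 314)) (XT.lf (nat_lit 0) (nat_lit 1064120668) (nat_lit 1520) (nat_lit 130345892) (nat_lit 76) (nat_lit 7531530129) (nat_lit 476) (nat_lit 5) (nat_lit 496) (nat_lit 5) (nat_lit 477) (nat_lit 5) (nat_lit 426) (nat_lit 401) (nat_lit 313))))))))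
noncomputable def xc151 : XT := (XT.nd (nat_lit 1638) (nat_lit 8284) (nat_lit 0) (XT.nd (nat_lit 780) (nat_lit 5016) (nat_lit 0) (XT.nd (nat_lit 390) (nat_lit 3724) (nat_lit 0) (XT.nd (nat_lit 156) (nat_lit 1748) (nat_lit 0) (XT.nd (nat_lit 78) (nat_lit 1596) (nat_lit 0) (XT.lf (nat_lit 0) (nat_lit 2684361309) (nat_lit 1596) (nat_lit 4140222520) (nat_lit 76) (nat_lit 1977200403) (nat_lit 456) (nat_lit 5) (nat_lit 477) (nat_lit 5) (nat_lit 457) (nat_lit 5) (nat_lit 427) (nat_lit 401) (nat_lit 312)) (XT.lf (nat_lit 0) (nat_lit 650250175) (nat_lit 1596) (nat_lit 3673110595) (nat_lit 1672) (nat_lit 4556011825) (nat_lit 435) (nat_lit 5) (nat_lit 456) (nat_lit 5) (nat_lit 457) (nat_lit 5) (nat_lit 428) (nat_lit 401) (nat_lit 311))) (XT.nd (nat_lit 78) (nat_lit 1748) (nat_lit 0) (XT.lf (nat_lit 0) (nat_lit 5570435161) (nat_lit 1596) (nat_lit 426207887) (nat_lit 1672) (nat_lit 2961851533) (nat_lit 435) (nat_lit 5) (nat_lit 456)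 (nat_lit 5) (nat_lit 457) (nat_lit 5) (nat_lit 429) (nat_lit 401) (nat_lit 310)) (XT.nd (nat_lit 78) (nat_lit 76) (nat_lit 0) (XT.lf (nat_lit 0) (nat_lit 1528803798) (nat_lit 1672) (nat_lit 6177509530) (nat_lit 1748) (nat_lit 1332838911) (nat_lit 413) (nat_lit 5) (nat_lit 435) (nat_lit 5) (nat_lit 436) (nat_lit 5) (nat_lit 430) (nat_lit 401) (nat_lit 309)) (XT.lf (nat_lit 0) (nat_lit 324593251) (nat_lit 1748) (nat_lit 2558685702) (nat_lit 76) (nat_lit 6238109612) (nat_lit 412) (nat_lit 5) (nat_lit 435) (nat_lit 5) (nat_lit 413) (nat_lit 5) (nat_lit 431) (nat_lit 401) (nat_lit 308))))) (XT.nd (nat_lit 156) (nat_lit 1976) (nat_lit 0) (XT.nd (nat_lit 78) (nat_lit 0) (nat_lit 0) (XT.lf (nat_lit 0) (nat_lit 1991759499) (nat_lit 1824) (nat_lit 6714770250) (nat_lit 76) (nat_lit 498686030) (nat_lit 389) (nat_lit 5) (nat_lit 413) (nat_lit 5) (nat_lit 390) (nat_lit 5) (nat_lit 432) (nat_lit 401) (nat_lit 307)) (XT.lf (nat_lit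 0) (nat_lit 3703957429) (nat_lit 1824) (nat_lit 1656816914) (nat_lit 76) (nat_lit 3929722215) (nat_lit 389) (nat_lit 5) (nat_lit 413) (nat_lit 5) (nat_lit 390) (nat_lit 5) (nat_lit 433) (nat_lit 401) (nat_lit 306))) (XT.nd (nat_lit 78) (nat_lit 912) (nat_lit 0) (XT.lf (nat_lit 0) (nat_lit 3526511464) (nat_lit 1064) (nat_lit 1922578381) (nat_lit 1140) (nat_lit 3928429876) (nat_lit 375) (nat_lit 5) (nat_lit 389) (nat_lit 5) (nat_lit 390) (nat_lit 5) (nat_lit 434) (nat_lit 401) (nat_lit 305)) (XT.nd (nat_lit 78) (nat_lit 912) (nat_lit 0) (XT.lf (nat_lit 0) (nat_lit 7226742965) (nat_lit 1140) (nat_lit 662847077) (nat_lit 76) (nat_lit 1576751314) (nat_lit 375) (nat_lit 5) (nat_lit 390) (nat_lit 5) (nat_lit 376) (nat_lit 5) (nat_lit 435) (nat_lit 401) (nat_lit 304)) (XT.lf (nat_lit 0) (nat_lit 4655450516) (nat_lit 912) (nat_lit 4404064520) (nat_lit 988) (nat_lit 497043235) (nat_lit 363) (nat_lit 5) (nat_lit 375) (nat_lit 5)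 (nat_lit 376) (nat_lit 5) (nat_lit 436) (nat_lit 401) (nat_lit 303)))))) (XT.nd (nat_lit 390) (nat_lit 2432) (nat_lit 0) (XT.nd (nat_lit 156) (nat_lit 1672) (nat_lit 0) (XT.nd (nat_lit 78) (nat_lit 0) (nat_lit 0) (XT.lf (nat_lit 0) (nat_lit 415590935) (nat_lit 836) (nat_lit 831917446) (nat_lit 912) (nat_lit 8401235907) (nat_lit 351) (nat_lit 5) (nat_lit 362) (nat_lit 5) (nat_lit 363) (nat_lit 5) (nat_lit 437) (nat_lit 401) (nat_lit 302)) (XT.lf (nat_lit 0) (nat_lit 3048744734) (nat_lit 912) (nat_lit 3881275978) (nat_lit 76) (nat_lit 2812128201) (nat_lit 351) (nat_lit 5) (nat_lit 363) (nat_lit 5) (nat_lit 352) (nat_lit 5) (nat_lit 438) (nat_lit 401) (nat_lit 301))) (XT.nd (nat_lit 78) (nat_lit 836) (nat_lit 0) (XT.lf (nat_lit 0) (nat_lit 1570715646) (nat_lit 836) (nat_lit 3308527905) (nat_lit 912) (nat_lit 4958322718) (nat_lit 340) (nat_lit 5) (nat_lit 351) (nat_lit 5) (nat_lit 352) (nat_lit 5) (nat_lit 439) (nat_lit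 401) (nat_lit 300)) (XT.nd (nat_lit 78) (nat_lit 836) (nat_lit 0) (XT.lf (nat_lit 0) (nat_lit 6752903251) (nat_lit 912) (nat_lit 2775010859) (nat_lit 76) (nat_lit 406856053) (nat_lit 340) (nat_lit 5) (nat_lit 352) (nat_lit 5) (nat_lit 341) (nat_lit 5) (nat_lit 440) (nat_lit 401) (nat_lit 299)) (XT.lf (nat_lit 0) (nat_lit 2819851612) (nat_lit 836) (nat_lit 5862669127) (nat_lit 912) (nat_lit 1351036732) (nat_lit 329) (nat_lit 5) (nat_lit 340) (nat_lit 5) (nat_lit 341) (nat_lit 5) (nat_lit 441) (nat_lit 401) (nat_lit 298))))) (XT.nd (nat_lit 234) (nat_lit 1520) (nat_lit 0) (XT.nd (nat_lit 78) (nat_lit 836) (nat_lit 0) (XT.lf (nat_lit 0) (nat_lit 506782032) (nat_lit 912) (nat_lit 1595234866) (nat_lit 76) (nat_lit 8032302348) (nat_lit 328) (nat_lit 5) (nat_lit 340) (nat_lit 5) (nat_lit 329) (nat_lit 5) (nat_lit 442) (nat_lit 401) (nat_lit 297)) (XT.nd (nat_lit 78) (nat_lit 0) (nat_lit 0) (XT.lf (nat_lit 0) (nat_lit 2401006462)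 (nat_lit 912) (nat_lit 6088695364) (nat_lit 76) (nat_lit 1746877541) (nat_lit 317) (nat_lit 5) (nat_lit 329) (nat_lit 5) (nat_lit 318) (nat_lit 5) (nat_lit 443) (nat_lit 401) (nat_lit 296)) (XT.lf (nat_lit 0) (nat_lit 4336907221) (nat_lit 912) (nat_lit 349059406) (nat_lit 76) (nat_lit 5654850565) (nat_lit 317) (nat_lit 5) (nat_lit 329) (nat_lit 5) (nat_lit 318) (nat_lit 5) (nat_lit 444) (nat_lit 401) (nat_lit 295)))) (XT.nd (nat_lit 78) (nat_lit 760) (nat_lit 0) (XT.lf (nat_lit 0) (nat_lit 5556790360) (nat_lit 760) (nat_lit 770319339) (nat_lit 836) (nat_lit 4119726577) (nat_lit 307) (nat_lit 5) (nat_lit 317) (nat_lit 5) (nat_lit 318) (nat_lit 5) (nat_lit 445) (nat_lit 401) (nat_lit 294)) (XT.nd (nat_lit 78) (nat_lit 0) (nat_lit 0) (XT.lf (nat_lit 0) (nat_lit 1001021218) (nat_lit 760) (nat_lit 7365643952) (nat_lit 836) (nat_lit 2188127610) (nat_lit 297) (nat_lit 5) (nat_lit 307) (nat_lit 5) (nat_lit 308) (nat_lit 5) (nat_lit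 446) (nat_lit 401) (nat_lit 293)) (XT.lf (nat_lit 0) (nat_lit 7049447566) (nat_lit 760) (nat_lit 3415465331) (nat_lit 836) (nat_lit 199645353) (nat_lit 297) (nat_lit 5) (nat_lit 307) (nat_lit 5) (nat_lit 308) (nat_lit 5) (nat_lit 447) (nat_lit 401) (nat_lit 292))))))) (XT.nd (nat_lit 858) (nat_lit 4028) (nat_lit 0) (XT.nd (nat_lit 390) (nat_lit 2052) (nat_lit 0) (XT.nd (nat_lit 156) (nat_lit 1444) (nat_lit 0) (XT.nd (nat_lit 78) (nat_lit 0) (nat_lit 0) (XT.lf (nat_lit 0) (nat_lit 1804903044) (nat_lit 760) (nat_lit 8339483693) (nat_lit 76) (nat_lit 631896817) (nat_lit 287) (nat_lit 5) (nat_lit 297) (nat_lit 5) (nat_lit 288) (nat_lit 5) (nat_lit 448) (nat_lit 401) (nat_lit 291)) (XT.lf (nat_lit 0) (nat_lit 3874420405) (nat_lit 760) (nat_lit 2276777209) (nat_lit 76) (nat_lit 4738475737) (nat_lit 287) (nat_lit 5) (nat_lit 297) (nat_lit 5) (nat_lit 288) (nat_lit 5) (nat_lit 449) (nat_lit 401) (nat_lit 290))) (XT.nd (nat_lit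 78) (nat_lit 684) (nat_lit 0) (XT.lf (nat_lit 0) (nat_lit 3937580741) (nat_lit 760) (nat_lit 2054204738) (nat_lit 836) (nat_lit 5013423578) (nat_lit 277) (nat_lit 5) (nat_lit 287) (nat_lit 5) (nat_lit 288) (nat_lit 5) (nat_lit 450) (nat_lit 401) (nat_lit 289)) (XT.nd (nat_lit 78) (nat_lit 684) (nat_lit 0) (XT.lf (nat_lit 0) (nat_lit 8161787664) (nat_lit 836) (nat_lit 851033064) (nat_lit 76) (nat_lit 2110036073) (nat_lit 277) (nat_lit 5) (nat_lit 288) (nat_lit 5) (nat_lit 278) (nat_lit 5) (nat_lit 451) (nat_lit 401) (nat_lit 288)) (XT.lf (nat_lit 0) (nat_lit 5527733392) (nat_lit 684) (nat_lit 4878435619) (nat_lit 760) (nat_lit 836075883) (nat_lit 268) (nat_lit 5) (nat_lit 277) (nat_lit 5) (nat_lit 278) (nat_lit 5) (nat_lit 452) (nat_lit 401) (nat_lit 287))))) (XT.nd (nat_lit 234) (nat_lit 684) (nat_lit 0) (XT.nd (nat_lit 78) (nat_lit 608) (nat_lit 0) (XT.lf (nat_lit 0) (nat_lit 660518335) (nat_lit 684) (nat_lit 645059122)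 (nat_lit 760) (nat_lit 10058444672) (nat_lit 258) (nat_lit 5) (nat_lit 267) (nat_lit 5) (nat_lit 268) (nat_lit 5) (nat_lit 453) (nat_lit 401) (nat_lit 286)) (XT.nd (nat_lit 78) (nat_lit 608) (nat_lit 0) (XT.lf (nat_lit 0) (nat_lit 3523118981) (nat_lit 760) (nat_lit 4297975374) (nat_lit 76) (nat_lit 3666151598) (nat_lit 258) (nat_lit 5) (nat_lit 268) (nat_lit 5) (nat_lit 259) (nat_lit 5) (nat_lit 454) (nat_lit 401) (nat_lit 285)) (XT.lf (nat_lit 0) (nat_lit 2239806823) (nat_lit 608) (nat_lit 3546166694) (nat_lit 684) (nat_lit 5826947939) (nat_lit 250) (nat_lit 5) (nat_lit 258) (nat_lit 5) (nat_lit 259) (nat_lit 5) (nat_lit 455) (nat_lit 401) (nat_lit 284)))) (XT.nd (nat_lit 78) (nat_lit 684) (nat_lit 0) (XT.lf (nat_lit 0) (nat_lit 8110746662) (nat_lit 684) (nat_lit 2800567335) (nat_lit 76) (nat_lit 829469563) (nat_lit 250) (nat_lit 5) (nat_lit 259) (nat_lit 5) (nat_lit 251) (nat_lit 5) (nat_lit 456) (nat_lit 401) (nat_lit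 283)) (XT.nd (nat_lit 78) (nat_lit 76) (nat_lit 0) (XT.lf (nat_lit 0) (nat_lit 3910487188) (nat_lit 608) (nat_lit 6603090459) (nat_lit 684) (nat_lit 1357000208) (nat_lit 242) (nat_lit 5) (nat_lit 250) (nat_lit 5) (nat_lit 251) (nat_lit 5) (nat_lit 457) (nat_lit 401) (nat_lit 282)) (XT.lf (nat_lit 0) (nat_lit 950579454) (nat_lit 684) (nat_lit 1236078379) (nat_lit 76) (nat_lit 9816157458) (nat_lit 241) (nat_lit 5) (nat_lit 250) (nat_lit 5) (nat_lit 242) (nat_lit 5) (nat_lit 458) (nat_lit 401) (nat_lit 281)))))) (XT.nd (nat_lit 390) (nat_lit 2204) (nat_lit 0) (XT.nd (nat_lit 156) (nat_lit 608) (nat_lit 0) (XT.nd (nat_lit 78) (nat_lit 608) (nat_lit 0) (XT.lf (nat_lit 0) (nat_lit 3321396748) (nat_lit 684) (nat_lit 6485136509) (nat_lit 76) (nat_lit 2330285538) (nat_lit 233) (nat_lit 5) (nat_lit 242) (nat_lit 5) (nat_lit 234) (nat_lit 5) (nat_lit 459) (nat_lit 401) (nat_lit 280)) (XT.lf (nat_lit 0) (nat_lit 390586385) (nat_lit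 608) (nat_lit 5357699116) (nat_lit 684) (nat_lit 6525049489) (nat_lit 225) (nat_lit 5) (nat_lit 233) (nat_lit 5) (nat_lit 234) (nat_lit 5) (nat_lit 460) (nat_lit 401) (nat_lit 279))) (XT.nd (nat_lit 78) (nat_lit 608) (nat_lit 0) (XT.lf (nat_lit 0) (nat_lit 7471249932) (nat_lit 608) (nat_lit 779463798) (nat_lit 684) (nat_lit 4161333358) (nat_lit 225) (nat_lit 5) (nat_lit 233) (nat_lit 5) (nat_lit 234) (nat_lit 5) (nat_lit 461) (nat_lit 401) (nat_lit 278)) (XT.nd (nat_lit 78) (nat_lit 76) (nat_lit 0) (XT.lf (nat_lit 0) (nat_lit 2122183428) (nat_lit 532) (nat_lit 8703826010) (nat_lit 608) (nat_lit 1727073115) (nat_lit 218) (nat_lit 5) (nat_lit 225) (nat_lit 5) (nat_lit 226) (nat_lit 5) (nat_lit 462) (nat_lit 401) (nat_lit 277)) (XT.lf (nat_lit 0) (nat_lit 768352548) (nat_lit 608) (nat_lit 3333637184) (nat_lit 76) (nat_lit 8594408259) (nat_lit 217) (nat_lit 5) (nat_lit 225) (nat_lit 5) (nat_lit 218) (nat_lit 5) (nat_lit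 463) (nat_lit 401) (nat_lit 276))))) (XT.nd (nat_lit 234) (nat_lit 1064) (nat_lit 0) (XT.nd (nat_lit 78) (nat_lit 532) (nat_lit 0) (XT.lf (nat_lit 0) (nat_lit 3304303210) (nat_lit 684) (nat_lit 8920674580) (nat_lit 76) (nat_lit 617103975) (nat_lit 209) (nat_lit 5) (nat_lit 218) (nat_lit 5) (nat_lit 210) (nat_lit 5) (nat_lit 464) (nat_lit 401) (nat_lit 275)) (XT.nd (nat_lit 78) (nat_lit 532) (nat_lit 0) (XT.lf (nat_lit 0) (nat_lit 5924983241) (nat_lit 684) (nat_lit 1671031209) (nat_lit 76) (nat_lit 5393989640) (nat_lit 209) (nat_lit 5) (nat_lit 218) (nat_lit 5) (nat_lit 210) (nat_lit 5) (nat_lit 465) (nat_lit 401) (nat_lit 274)) (XT.lf (nat_lit 0) (nat_lit 5779575262) (nat_lit 532) (nat_lit 2840660027) (nat_lit 608) (nat_lit 4520211389) (nat_lit 202) (nat_lit 5) (nat_lit 209) (nat_lit 5) (nat_lit 210) (nat_lit 5) (nat_lit 466) (nat_lit 401) (nat_lit 273)))) (XT.nd (nat_lit 78) (nat_lit 532) (nat_lit 0) (XT.lf (nat_lit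 0) (nat_lit 76066723) (nat_lit 532) (nat_lit 11302933977) (nat_lit 608) (nat_lit 1914710137) (nat_lit 195) (nat_lit 5) (nat_lit 202) (nat_lit 5) (nat_lit 203) (nat_lit 5) (nat_lit 467) (nat_lit 401) (nat_lit 272)) (XT.nd (nat_lit 78) (nat_lit 456) (nat_lit 0) (XT.lf (nat_lit 0) (nat_lit 786535537) (nat_lit 608) (nat_lit 5731546694) (nat_lit 76) (nat_lit 6930798724) (nat_lit 194) (nat_lit 5) (nat_lit 202) (nat_lit 5) (nat_lit 195) (nat_lit 5) (nat_lit 468) (nat_lit 401) (nat_lit 271)) (XT.lf (nat_lit 0) (nat_lit 1896809028) (nat_lit 456) (nat_lit 1616838555) (nat_lit 532) (nat_lit 10093308783) (nat_lit 188) (nat_lit 5) (nat_lit 194) (nat_lit 5) (nat_lit 195) (nat_lit 5) (nat_lit 469) (nat_lit 401) (nat_lit 270))))))))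
noncomputable def xc152 : XT := (XT.nd (nat_lit 1638) (nat_lit 2432) (nat_lit 0) (XT.nd (nat_lit 780) (nat_lit 2508) (nat_lit 0) (XT.nd (nat_lit 390) (nat_lit 1444) (nat_lit 0) (XT.nd (nat_lit 156) (nat_lit 532) (nat_lit 0) (XT.nd (nat_lit 78) (nat_lit 532) (nat_lit 0) (XT.lf (nat_lit 0) (nat_lit 6341252539) (nat_lit 532) (nat_lit 4054013373) (nat_lit 76) (nat_lit 3372012873) (nat_lit 188) (nat_lit 5) (nat_lit 195) (nat_lit 5) (nat_lit 189) (nat_lit 5) (nat_lit 470) (nat_lit 401) (nat_lit 269)) (XT.lf (nat_lit 0) (nat_lit 3774630772) (nat_lit 532) (nat_lit 5471555810) (nat_lit 608) (nat_lit 4684209958) (nat_lit 181) (nat_lit 5) (nat_lit 188) (nat_lit 5) (nat_lit 189) (nat_lit 5) (nat_lit 471) (nat_lit 401) (nat_lit 268))) (XT.nd (nat_lit 78) (nat_lit 532) (nat_lit 0) (XT.lf (nat_lit 0) (nat_lit 11795518796) (nat_lit 532) (nat_lit 426625019) (nat_lit 608) (nat_lit 1874378683) (nat_lit 181) (nat_lit 5) (nat_lit 188) (nat_lit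 5) (nat_lit 189) (nat_lit 5) (nat_lit 472) (nat_lit 401) (nat_lit 267)) (XT.nd (nat_lit 78) (nat_lit 0) (nat_lit 0) (XT.lf (nat_lit 0) (nat_lit 1032848104) (nat_lit 532) (nat_lit 8535403929) (nat_lit 76) (nat_lit 4696510253) (nat_lit 174) (nat_lit 5) (nat_lit 181) (nat_lit 5) (nat_lit 175) (nat_lit 5) (nat_lit 473) (nat_lit 401) (nat_lit 266)) (XT.lf (nat_lit 0) (nat_lit 3977537136) (nat_lit 532) (nat_lit 519100726) (nat_lit 76) (nat_lit 9939396990) (nat_lit 174) (nat_lit 5) (nat_lit 181) (nat_lit 5) (nat_lit 175) (nat_lit 5) (nat_lit 474) (nat_lit 401) (nat_lit 265))))) (XT.nd (nat_lit 156) (nat_lit 532) (nat_lit 0) (XT.nd (nat_lit 78) (nat_lit 456) (nat_lit 0) (XT.lf (nat_lit 0) (nat_lit 7022363271) (nat_lit 532) (nat_lit 6874497796) (nat_lit 76) (nat_lit 713050944) (nat_lit 168) (nat_lit 5) (nat_lit 175) (nat_lit 5) (nat_lit 169) (nat_lit 5) (nat_lit 475) (nat_lit 401) (nat_lit 264)) (XT.lf (nat_lit 0) (nat_lit 1343718930)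 (nat_lit 456) (nat_lit 8812788174) (nat_lit 532) (nat_lit 4630195117) (nat_lit 162) (nat_lit 5) (nat_lit 168) (nat_lit 5) (nat_lit 169) (nat_lit 5) (nat_lit 476) (nat_lit 401) (nat_lit 263))) (XT.nd (nat_lit 78) (nat_lit 532) (nat_lit 0) (XT.lf (nat_lit 0) (nat_lit 9800649347) (nat_lit 456) (nat_lit 3585371405) (nat_lit 532) (nat_lit 1580357596) (nat_lit 162) (nat_lit 5) (nat_lit 168) (nat_lit 5) (nat_lit 169) (nat_lit 5) (nat_lit 477) (nat_lit 401) (nat_lit 262)) (XT.nd (nat_lit 78) (nat_lit 0) (nat_lit 0) (XT.lf (nat_lit 0) (nat_lit 1530016347) (nat_lit 532) (nat_lit 11869146293) (nat_lit 76) (nat_lit 1749898081) (nat_lit 155) (nat_lit 5) (nat_lit 162) (nat_lit 5) (nat_lit 156) (nat_lit 5) (nat_lit 478) (nat_lit 401) (nat_lit 261)) (XT.lf (nat_lit 0) (nat_lit 4726928065) (nat_lit 532) (nat_lit 3423405190) (nat_lit 76) (nat_lit 7183948367) (nat_lit 155) (nat_lit 5) (nat_lit 162) (nat_lit 5) (nat_lit 156) (nat_lit 5)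 (nat_lit 479) (nat_lit 401) (nat_lit 260)))))) (XT.nd (nat_lit 390) (nat_lit 1216) (nat_lit 0) (XT.nd (nat_lit 156) (nat_lit 912) (nat_lit 0) (XT.nd (nat_lit 78) (nat_lit 0) (nat_lit 0) (XT.lf (nat_lit 0) (nat_lit 5241607520) (nat_lit 380) (nat_lit 2767293659) (nat_lit 456) (nat_lit 7513886860) (nat_lit 150) (nat_lit 5) (nat_lit 155) (nat_lit 5) (nat_lit 156) (nat_lit 5) (nat_lit 480) (nat_lit 401) (nat_lit 259)) (XT.lf (nat_lit 0) (nat_lit 11384510930) (nat_lit 456) (nat_lit 1624603964) (nat_lit 76) (nat_lit 2705393235) (nat_lit 150) (nat_lit 5) (nat_lit 156) (nat_lit 5) (nat_lit 151) (nat_lit 5) (nat_lit 481) (nat_lit 401) (nat_lit 258))) (XT.nd (nat_lit 78) (nat_lit 456) (nat_lit 0) (XT.lf (nat_lit 0) (nat_lit 7263917631) (nat_lit 456) (nat_lit 7616645061) (nat_lit 532) (nat_lit 1028444755) (nat_lit 144) (nat_lit 5) (nat_lit 150) (nat_lit 5) (nat_lit 151) (nat_lit 5) (nat_lit 482) (nat_lit 401) (nat_lit 257)) (XT.nd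 (nat_lit 78) (nat_lit 0) (nat_lit 0) (XT.lf (nat_lit 0) (nat_lit 214427726) (nat_lit 380) (nat_lit 2093884041) (nat_lit 456) (nat_lit 13798787502) (nat_lit 138) (nat_lit 5) (nat_lit 143) (nat_lit 5) (nat_lit 144) (nat_lit 5) (nat_lit 483) (nat_lit 401) (nat_lit 256)) (XT.lf (nat_lit 0) (nat_lit 5766998633) (nat_lit 456) (nat_lit 6988117879) (nat_lit 76) (nat_lit 3552524358) (nat_lit 138) (nat_lit 5) (nat_lit 144) (nat_lit 5) (nat_lit 139) (nat_lit 5) (nat_lit 484) (nat_lit 401) (nat_lit 255))))) (XT.nd (nat_lit 234) (nat_lit 456) (nat_lit 0) (XT.nd (nat_lit 78) (nat_lit 380) (nat_lit 0) (XT.lf (nat_lit 0) (nat_lit 2090158646) (nat_lit 380) (nat_lit 7219957897) (nat_lit 456) (nat_lit 7201774773) (nat_lit 133) (nat_lit 5) (nat_lit 138) (nat_lit 5) (nat_lit 139) (nat_lit 5) (nat_lit 485) (nat_lit 401) (nat_lit 254)) (XT.nd (nat_lit 78) (nat_lit 380) (nat_lit 0) (XT.lf (nat_lit 0) (nat_lit 11426930098) (nat_lit 380) (nat_lit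 1532003774) (nat_lit 456) (nat_lit 3760599258) (nat_lit 133) (nat_lit 5) (nat_lit 138) (nat_lit 5) (nat_lit 139) (nat_lit 5) (nat_lit 486) (nat_lit 401) (nat_lit 253)) (XT.lf (nat_lit 0) (nat_lit 4026545941) (nat_lit 380) (nat_lit 12696189385) (nat_lit 456) (nat_lit 207755335) (nat_lit 128) (nat_lit 5) (nat_lit 133) (nat_lit 5) (nat_lit 134) (nat_lit 5) (nat_lit 487) (nat_lit 401) (nat_lit 252)))) (XT.nd (nat_lit 78) (nat_lit 380) (nat_lit 0) (XT.lf (nat_lit 0) (nat_lit 3405420138) (nat_lit 456) (nat_lit 3591391522) (nat_lit 76) (nat_lit 10147733445) (nat_lit 127) (nat_lit 5) (nat_lit 133) (nat_lit 5) (nat_lit 128) (nat_lit 5) (nat_lit 488) (nat_lit 401) (nat_lit 251)) (XT.nd (nat_lit 78) (nat_lit 0) (nat_lit 0) (XT.lf (nat_lit 0) (nat_lit 5966947192) (nat_lit 380) (nat_lit 1148286766) (nat_lit 456) (nat_lit 10247078943) (nat_lit 122) (nat_lit 5) (nat_lit 127) (nat_lit 5) (nat_lit 128) (nat_lit 5) (nat_lit 489) (nat_lit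 401) (nat_lit 250)) (XT.lf (nat_lit 0) (nat_lit 10943270910) (nat_lit 456) (nat_lit 1867683212) (nat_lit 76) (nat_lit 4772604201) (nat_lit 122) (nat_lit 5) (nat_lit 128) (nat_lit 5) (nat_lit 123) (nat_lit 5) (nat_lit 490) (nat_lit 401) (nat_lit 249))))))) (XT.nd (nat_lit 780) (nat_lit 380) (nat_lit 0) (XT.nd (nat_lit 390) (nat_lit 988) (nat_lit 0) (XT.nd (nat_lit 156) (nat_lit 684) (nat_lit 0) (XT.nd (nat_lit 78) (nat_lit 76) (nat_lit 0) (XT.lf (nat_lit 0) (nat_lit 7929863716) (nat_lit 304) (nat_lit 6965811651) (nat_lit 380) (nat_lit 2912599903) (nat_lit 118) (nat_lit 5) (nat_lit 122) (nat_lit 5) (nat_lit 123) (nat_lit 5) (nat_lit 491) (nat_lit 401) (nat_lit 248)) (XT.lf (nat_lit 0) (nat_lit 879340364) (nat_lit 380) (nat_lit 111542504) (nat_lit 76) (nat_lit 17046463472) (nat_lit 117) (nat_lit 5) (nat_lit 122) (nat_lit 5) (nat_lit 118) (nat_lit 5) (nat_lit 492) (nat_lit 401) (nat_lit 247))) (XT.nd (nat_lit 78) (nat_lit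 304) (nat_lit 0) (XT.lf (nat_lit 0) (nat_lit 4795350611) (nat_lit 456) (nat_lit 8358182709) (nat_lit 76) (nat_lit 5115338442) (nat_lit 112) (nat_lit 5) (nat_lit 118) (nat_lit 5) (nat_lit 113) (nat_lit 5) (nat_lit 493) (nat_lit 401) (nat_lit 246)) (XT.nd (nat_lit 78) (nat_lit 0) (nat_lit 0) (XT.lf (nat_lit 0) (nat_lit 1627782784) (nat_lit 304) (nat_lit 7168824340) (nat_lit 380) (nat_lit 9708284589) (nat_lit 108) (nat_lit 5) (nat_lit 112) (nat_lit 5) (nat_lit 113) (nat_lit 5) (nat_lit 494) (nat_lit 401) (nat_lit 245)) (XT.lf (nat_lit 0) (nat_lit 11910012605) (nat_lit 304) (nat_lit 1013111881) (nat_lit 380) (nat_lit 5821605355) (nat_lit 108) (nat_lit 5) (nat_lit 112) (nat_lit 5) (nat_lit 113) (nat_lit 5) (nat_lit 495) (nat_lit 401) (nat_lit 244))))) (XT.nd (nat_lit 156) (nat_lit 608) (nat_lit 0) (XT.nd (nat_lit 78) (nat_lit 76) (nat_lit 0) (XT.lf (nat_lit 0) (nat_lit 3402354726) (nat_lit 304) (nat_lit 13775419467) (nat_lit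 380) (nat_lit 1810680943) (nat_lit 104) (nat_lit 5) (nat_lit 108) (nat_lit 5) (nat_lit 109) (nat_lit 5) (nat_lit 496) (nat_lit 401) (nat_lit 243)) (XT.lf (nat_lit 0) (nat_lit 2292783945) (nat_lit 380) (nat_lit 5337778650) (nat_lit 76) (nat_lit 11605353949) (nat_lit 103) (nat_lit 5) (nat_lit 108) (nat_lit 5) (nat_lit 104) (nat_lit 5) (nat_lit 497) (nat_lit 401) (nat_lit 242))) (XT.nd (nat_lit 78) (nat_lit 304) (nat_lit 0) (XT.lf (nat_lit 0) (nat_lit 5154814635) (nat_lit 304) (nat_lit 1322311400) (nat_lit 380) (nat_lit 13010503020) (nat_lit 99) (nat_lit 5) (nat_lit 103) (nat_lit 5) (nat_lit 104) (nat_lit 5) (nat_lit 498) (nat_lit 401) (nat_lit 241)) (XT.nd (nat_lit 78) (nat_lit 304) (nat_lit 0) (XT.lf (nat_lit 0) (nat_lit 10804025842) (nat_lit 380) (nat_lit 3863846659) (nat_lit 76) (nat_lit 5075328153) (nat_lit 99) (nat_lit 5) (nat_lit 104) (nat_lit 5) (nat_lit 100) (nat_lit 5) (nat_lit 499) (nat_lit 401) (nat_lit 240))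 (XT.lf (nat_lit 0) (nat_lit 6879922274) (nat_lit 304) (nat_lit 8380794068) (nat_lit 380) (nat_lit 4742304502) (nat_lit 95) (nat_lit 5) (nat_lit 99) (nat_lit 5) (nat_lit 100) (nat_lit 5) (nat_lit 500) (nat_lit 401) (nat_lit 239)))))) (XT.nd (nat_lit 51792) (nat_lit 0) (nat_lit 33212) (XT.nd (nat_lit 156) (nat_lit 0) (nat_lit 0) (XT.nd (nat_lit 78) (nat_lit 380) (nat_lit 0) (XT.lf (nat_lit 0) (nat_lit 17874995082) (nat_lit 304) (nat_lit 1947396603) (nat_lit 380) (nat_lit 445330902) (nat_lit 95) (nat_lit 5) (nat_lit 99) (nat_lit 5) (nat_lit 100) (nat_lit 5) (nat_lit 501) (nat_lit 401) (nat_lit 238)) (XT.lf (nat_lit 0) (nat_lit 3962449418) (nat_lit 380) (nat_lit 11942729413) (nat_lit 76) (nat_lit 4630500124) (nat_lit 90) (nat_lit 5) (nat_lit 95) (nat_lit 5) (nat_lit 91) (nat_lit 5) (nat_lit 502) (nat_lit 401) (nat_lit 237))) (XT.nd (nat_lit 51480) (nat_lit 0) (nat_lit 35644) (XT.lf (nat_lit 0) (nat_lit 8471595669) (nat_lit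 380) (nat_lit 1009677563) (nat_lit 76) (nat_lit 11327280925) (nat_lit 90) (nat_lit 5) (nat_lit 95) (nat_lit 5) (nat_lit 91) (nat_lit 5) (nat_lit 503) (nat_lit 401) (nat_lit 236)) (XT.nd (nat_lit 78) (nat_lit 0) (nat_lit 0) (XT.lf (nat_lit 0) (nat_lit 1264677631) (nat_lit 0) (nat_lit 1264677631) (nat_lit 1140) (nat_lit 1157533433) (nat_lit 559) (nat_lit 5) (nat_lit 559) (nat_lit 3) (nat_lit 574) (nat_lit 3) (nat_lit 402) (nat_lit 402) (nat_lit 336)) (XT.lf (nat_lit 0) (nat_lit 6100557553) (nat_lit 0) (nat_lit 499145642) (nat_lit 1140) (nat_lit 817197393) (nat_lit 559) (nat_lit 5) (nat_lit 559) (nat_lit 3) (nat_lit 574) (nat_lit 3) (nat_lit 403) (nat_lit 402) (nat_lit 335))))) (XT.nd (nat_lit 234) (nat_lit 1216) (nat_lit 0) (XT.nd (nat_lit 78) (nat_lit 0) (nat_lit 0) (XT.lf (nat_lit 0) (nat_lit 687246796) (nat_lit 1216) (nat_lit 5184168504) (nat_lit 1292) (nat_lit 1589680661) (nat_lit 543) (nat_lit 5) (nat_lit 559) (nat_lit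 5) (nat_lit 560) (nat_lit 5) (nat_lit 404) (nat_lit 402) (nat_lit 334)) (XT.nd (nat_lit 78) (nat_lit 0) (nat_lit 0) (XT.lf (nat_lit 0) (nat_lit 2184435958) (nat_lit 1216) (nat_lit 1575743435) (nat_lit 1292) (nat_lit 3746436182) (nat_lit 543) (nat_lit 5) (nat_lit 559) (nat_lit 5) (nat_lit 560) (nat_lit 5) (nat_lit 405) (nat_lit 402) (nat_lit 333)) (XT.lf (nat_lit 76) (nat_lit 2112084231) (nat_lit 0) (nat_lit 1575345449) (nat_lit 1292) (nat_lit 3866118618) (nat_lit 544) (nat_lit 5) (nat_lit 543) (nat_lit 5) (nat_lit 560) (nat_lit 5) (nat_lit 406) (nat_lit 402) (nat_lit 332)))) (XT.nd (nat_lit 78) (nat_lit 1292) (nat_lit 0) (XT.lf (nat_lit 0) (nat_lit 5198235998) (nat_lit 1216) (nat_lit 1731696866) (nat_lit 1292) (nat_lit 671951301) (nat_lit 544) (nat_lit 5) (nat_lit 560) (nat_lit 5) (nat_lit 561) (nat_lit 5) (nat_lit 407) (nat_lit 402) (nat_lit 331)) (XT.nd (nat_lit 78) (nat_lit 1292) (nat_lit 0) (XT.lf (nat_lit 76) (nat_lit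 2047901524) (nat_lit 0) (nat_lit 4678681802) (nat_lit 1292) (nat_lit 924876085) (nat_lit 545) (nat_lit 5) (nat_lit 544) (nat_lit 5) (nat_lit 561) (nat_lit 5) (nat_lit 408) (nat_lit 402) (nat_lit 330)) (XT.lf (nat_lit 0) (nat_lit 551436385) (nat_lit 1292) (nat_lit 1800244630) (nat_lit 1368) (nat_lit 5350775451) (nat_lit 527) (nat_lit 5) (nat_lit 544) (nat_lit 5) (nat_lit 545) (nat_lit 5) (nat_lit 409) (nat_lit 402) (nat_lit 329))))))))
noncomputable def xc153 : XT := (XT.nd (nat_lit 1638) (nat_lit 12692) (nat_lit 0) (XT.nd (nat_lit 780) (nat_lit 5776) (nat_lit 0) (XT.nd (nat_lit 390) (nat_lit 0) (nat_lit 0) (XT.nd (nat_lit 156) (nat_lit 1292) (nat_lit 0) (XT.nd (nat_lit 78) (nat_lit 0) (nat_lit 0) (XT.lf (nat_lit 0) (nat_lit 2023398510) (nat_lit 1292) (nat_lit 5675626256) (nat_lit 1368) (nat_lit 55774333) (nat_lit 528) (nat_lit 5) (nat_lit 545) (nat_lit 5) (nat_lit 546) (nat_lit 5) (nat_lit 410) (nat_lit 402) (nat_lit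 328)) (XT.lf (nat_lit 0) (nat_lit 3517813814) (nat_lit 1292) (nat_lit 1784425782) (nat_lit 1368) (nat_lit 2506106410) (nat_lit 528) (nat_lit 5) (nat_lit 545) (nat_lit 5) (nat_lit 546) (nat_lit 5) (nat_lit 411) (nat_lit 402) (nat_lit 327))) (XT.nd (nat_lit 78) (nat_lit 1292) (nat_lit 0) (XT.lf (nat_lit 76) (nat_lit 2192365481) (nat_lit 0) (nat_lit 2829946331) (nat_lit 1368) (nat_lit 2841065506) (nat_lit 529) (nat_lit 5) (nat_lit 528) (nat_lit 5) (nat_lit 546) (nat_lit 5) (nat_lit 412) (nat_lit 402) (nat_lit 326)) (XT.nd (nat_lit 78) (nat_lit 1292) (nat_lit 0) (XT.lf (nat_lit 76) (nat_lit 6252032513) (nat_lit 0) (nat_lit 283333876) (nat_lit 1368) (nat_lit 1384590546) (nat_lit 529) (nat_lit 5) (nat_lit 528) (nat_lit 5) (nat_lit 546) (nat_lit 5) (nat_lit 413) (nat_lit 402) (nat_lit 325)) (XT.lf (nat_lit 0) (nat_lit 97565295) (nat_lit 1368) (nat_lit 5567747399) (nat_lit 1444) (nat_lit 2312401164) (nat_lit 511) (nat_lit 5)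 (nat_lit 529) (nat_lit 5) (nat_lit 530) (nat_lit 5) (nat_lit 414) (nat_lit 402) (nat_lit 324))))) (XT.nd (nat_lit 156) (nat_lit 0) (nat_lit 76) (XT.nd (nat_lit 78) (nat_lit 0) (nat_lit 0) (XT.lf (nat_lit 0) (nat_lit 1571490900) (nat_lit 1368) (nat_lit 1477000063) (nat_lit 1444) (nat_lit 4988354619) (nat_lit 511) (nat_lit 5) (nat_lit 529) (nat_lit 5) (nat_lit 530) (nat_lit 5) (nat_lit 415) (nat_lit 402) (nat_lit 323)) (XT.lf (nat_lit 76) (nat_lit 2710023953) (nat_lit 0) (nat_lit 350609303) (nat_lit 1444) (nat_lit 5036827637) (nat_lit 512) (nat_lit 5) (nat_lit 511) (nat_lit 5) (nat_lit 530) (nat_lit 5) (nat_lit 416) (nat_lit 402) (nat_lit 322))) (XT.nd (nat_lit 78) (nat_lit 0) (nat_lit 0) (XT.lf (nat_lit 0) (nat_lit 4573825264) (nat_lit 1368) (nat_lit 1195589224) (nat_lit 1444) (nat_lit 2390004097) (nat_lit 512) (nat_lit 5) (nat_lit 530) (nat_lit 5) (nat_lit 531) (nat_lit 5) (nat_lit 417) (nat_lit 402) (nat_lit 321)) (XT.nd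 (nat_lit 78) (nat_lit 0) (nat_lit 0) (XT.lf (nat_lit 76) (nat_lit 3097165473) (nat_lit 0) (nat_lit 3011859484) (nat_lit 1444) (nat_lit 2113770702) (nat_lit 513) (nat_lit 5) (nat_lit 512) (nat_lit 5) (nat_lit 531) (nat_lit 5) (nat_lit 418) (nat_lit 402) (nat_lit 320)) (XT.lf (nat_lit 76) (nat_lit 7470893507) (nat_lit 0) (nat_lit 181836032) (nat_lit 1444) (nat_lit 635169530) (nat_lit 513) (nat_lit 5) (nat_lit 512) (nat_lit 5) (nat_lit 531) (nat_lit 5) (nat_lit 419) (nat_lit 402) (nat_lit 319)))))) (XT.nd (nat_lit 390) (nat_lit 4484) (nat_lit 0) (XT.nd (nat_lit 156) (nat_lit 0) (nat_lit 76) (XT.nd (nat_lit 78) (nat_lit 0) (nat_lit 0) (XT.lf (nat_lit 0) (nat_lit 872886428) (nat_lit 1444) (nat_lit 4773916075) (nat_lit 1520) (nat_lit 2707176270) (nat_lit 494) (nat_lit 5) (nat_lit 513) (nat_lit 5) (nat_lit 514) (nat_lit 5) (nat_lit 420) (nat_lit 402) (nat_lit 318)) (XT.lf (nat_lit 0) (nat_lit 2379993419) (nat_lit 1444) (nat_lit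 372173774) (nat_lit 1520) (nat_lit 5669594969) (nat_lit 494) (nat_lit 5) (nat_lit 513) (nat_lit 5) (nat_lit 514) (nat_lit 5) (nat_lit 421) (nat_lit 402) (nat_lit 317))) (XT.nd (nat_lit 78) (nat_lit 0) (nat_lit 0) (XT.lf (nat_lit 0) (nat_lit 3916960324) (nat_lit 1444) (nat_lit 4341616876) (nat_lit 1520) (nat_lit 232343347) (nat_lit 495) (nat_lit 5) (nat_lit 514) (nat_lit 5) (nat_lit 515) (nat_lit 5) (nat_lit 422) (nat_lit 402) (nat_lit 316)) (XT.nd (nat_lit 78) (nat_lit 0) (nat_lit 0) (XT.lf (nat_lit 76) (nat_lit 167124521) (nat_lit 0) (nat_lit 5311081149) (nat_lit 1520) (nat_lit 3083399061) (nat_lit 496) (nat_lit 5) (nat_lit 495) (nat_lit 5) (nat_lit 515) (nat_lit 5) (nat_lit 423) (nat_lit 402) (nat_lit 315)) (XT.lf (nat_lit 76) (nat_lit 4803367095) (nat_lit 0) (nat_lit 2268571967) (nat_lit 1520) (nat_lit 1561751428) (nat_lit 496) (nat_lit 5) (nat_lit 495) (nat_lit 5) (nat_lit 515) (nat_lit 5) (nat_lit 424) (nat_lit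 402) (nat_lit 314))))) (XT.nd (nat_lit 234) (nat_lit 1596) (nat_lit 0) (XT.nd (nat_lit 78) (nat_lit 1596) (nat_lit 0) (XT.lf (nat_lit 0) (nat_lit 808598344) (nat_lit 1444) (nat_lit 7872334223) (nat_lit 1520) (nat_lit 26630581) (nat_lit 477) (nat_lit 5) (nat_lit 496) (nat_lit 5) (nat_lit 497) (nat_lit 5) (nat_lit 425) (nat_lit 402) (nat_lit 313)) (XT.nd (nat_lit 78) (nat_lit 1520) (nat_lit 0) (XT.lf (nat_lit 0) (nat_lit 1532823206) (nat_lit 1520) (nat_lit 3237299587) (nat_lit 76) (nat_lit 4012326645) (nat_lit 476) (nat_lit 5) (nat_lit 496) (nat_lit 5) (nat_lit 477) (nat_lit 5) (nat_lit 426) (nat_lit 402) (nat_lit 312)) (XT.lf (nat_lit 0) (nat_lit 1515799994) (nat_lit 1520) (nat_lit 1590602335) (nat_lit 1596) (nat_lit 5752773896) (nat_lit 456) (nat_lit 5) (nat_lit 476) (nat_lit 5) (nat_lit 477) (nat_lit 5) (nat_lit 427) (nat_lit 402) (nat_lit 311)))) (XT.nd (nat_lit 78) (nat_lit 1596) (nat_lit 0) (XT.lf (nat_lit 0) (nat_lit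 4717914084) (nat_lit 1596) (nat_lit 2561959668) (nat_lit 76) (nat_lit 1657446488) (nat_lit 456) (nat_lit 5) (nat_lit 477) (nat_lit 5) (nat_lit 457) (nat_lit 5) (nat_lit 428) (nat_lit 402) (nat_lit 310)) (XT.nd (nat_lit 78) (nat_lit 0) (nat_lit 0) (XT.lf (nat_lit 0) (nat_lit 2313394407) (nat_lit 1596) (nat_lit 4048192033) (nat_lit 1672) (nat_lit 2655453766) (nat_lit 435) (nat_lit 5) (nat_lit 456) (nat_lit 5) (nat_lit 457) (nat_lit 5) (nat_lit 429) (nat_lit 402) (nat_lit 309)) (XT.lf (nat_lit 0) (nat_lit 7299627420) (nat_lit 1596) (nat_lit 730437168) (nat_lit 1672) (nat_lit 1068462785) (nat_lit 435) (nat_lit 5) (nat_lit 456) (nat_lit 5) (nat_lit 457) (nat_lit 5) (nat_lit 430) (nat_lit 402) (nat_lit 308))))))) (XT.nd (nat_lit 858) (nat_lit 5472) (nat_lit 0) (XT.nd (nat_lit 390) (nat_lit 2660) (nat_lit 0) (XT.nd (nat_lit 156) (nat_lit 2812) (nat_lit 0) (XT.nd (nat_lit 78) (nat_lit 0) (nat_lit 0) (XT.lf (nat_lit 0) (nat_lit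 556441999) (nat_lit 1748) (nat_lit 5977743019) (nat_lit 76) (nat_lit 2647131001) (nat_lit 412) (nat_lit 5) (nat_lit 435) (nat_lit 5) (nat_lit 413) (nat_lit 5) (nat_lit 431) (nat_lit 402) (nat_lit 307)) (XT.lf (nat_lit 0) (nat_lit 2191974977) (nat_lit 1748) (nat_lit 968697020) (nat_lit 76) (nat_lit 6105109241) (nat_lit 412) (nat_lit 5) (nat_lit 435) (nat_lit 5) (nat_lit 413) (nat_lit 5) (nat_lit 432) (nat_lit 402) (nat_lit 306))) (XT.nd (nat_lit 78) (nat_lit 1064) (nat_lit 0) (XT.lf (nat_lit 0) (nat_lit 3865253386) (nat_lit 1824) (nat_lit 5179870818) (nat_lit 76) (nat_lit 306721441) (nat_lit 389) (nat_lit 5) (nat_lit 413) (nat_lit 5) (nat_lit 390) (nat_lit 5) (nat_lit 433) (nat_lit 402) (nat_lit 305)) (XT.nd (nat_lit 78) (nat_lit 1064) (nat_lit 0) (XT.lf (nat_lit 0) (nat_lit 5575741182) (nat_lit 1824) (nat_lit 53487727) (nat_lit 76) (nat_lit 3810337924) (nat_lit 389) (nat_lit 5) (nat_lit 413) (nat_lit 5) (nat_lit 390)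 (nat_lit 5) (nat_lit 434) (nat_lit 402) (nat_lit 304)) (XT.lf (nat_lit 0) (nat_lit 5222740998) (nat_lit 1064) (nat_lit 2108341256) (nat_lit 1140) (nat_lit 2197757488) (nat_lit 375) (nat_lit 5) (nat_lit 389) (nat_lit 5) (nat_lit 390) (nat_lit 5) (nat_lit 435) (nat_lit 402) (nat_lit 303))))) (XT.nd (nat_lit 234) (nat_lit 836) (nat_lit 0) (XT.nd (nat_lit 78) (nat_lit 912) (nat_lit 0) (XT.lf (nat_lit 0) (nat_lit 966856995) (nat_lit 912) (nat_lit 8148006315) (nat_lit 988) (nat_lit 505178103) (nat_lit 363) (nat_lit 5) (nat_lit 375) (nat_lit 5) (nat_lit 376) (nat_lit 5) (nat_lit 436) (nat_lit 402) (nat_lit 302)) (XT.nd (nat_lit 78) (nat_lit 836) (nat_lit 0) (XT.lf (nat_lit 0) (nat_lit 1225503398) (nat_lit 988) (nat_lit 3352622031) (nat_lit 76) (nat_lit 5134387336) (nat_lit 362) (nat_lit 5) (nat_lit 375) (nat_lit 5) (nat_lit 363) (nat_lit 5) (nat_lit 437) (nat_lit 402) (nat_lit 301)) (XT.lf (nat_lit 0) (nat_lit 2056308324) (nat_lit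 836) (nat_lit 918747228) (nat_lit 912) (nat_lit 6831900172) (nat_lit 351) (nat_lit 5) (nat_lit 362) (nat_lit 5) (nat_lit 363) (nat_lit 5) (nat_lit 438) (nat_lit 402) (nat_lit 300)))) (XT.nd (nat_lit 78) (nat_lit 836) (nat_lit 0) (XT.lf (nat_lit 0) (nat_lit 4778485584) (nat_lit 912) (nat_lit 2323975272) (nat_lit 76) (nat_lit 2800458157) (nat_lit 351) (nat_lit 5) (nat_lit 363) (nat_lit 5) (nat_lit 352) (nat_lit 5) (nat_lit 439) (nat_lit 402) (nat_lit 299)) (XT.nd (nat_lit 78) (nat_lit 0) (nat_lit 0) (XT.lf (nat_lit 0) (nat_lit 3226300091) (nat_lit 836) (nat_lit 3397118576) (nat_lit 912) (nat_lit 3377283243) (nat_lit 340) (nat_lit 5) (nat_lit 351) (nat_lit 5) (nat_lit 352) (nat_lit 5) (nat_lit 440) (nat_lit 402) (nat_lit 298)) (XT.lf (nat_lit 0) (nat_lit 8502122765) (nat_lit 912) (nat_lit 1205088152) (nat_lit 76) (nat_lit 393300949) (nat_lit 340) (nat_lit 5) (nat_lit 352) (nat_lit 5) (nat_lit 341) (nat_lit 5) (nat_lit 441)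 (nat_lit 402) (nat_lit 297)))))) (XT.nd (nat_lit 390) (nat_lit 2964) (nat_lit 0) (XT.nd (nat_lit 156) (nat_lit 1596) (nat_lit 0) (XT.nd (nat_lit 78) (nat_lit 0) (nat_lit 0) (XT.lf (nat_lit 0) (nat_lit 244209463) (nat_lit 912) (nat_lit 5712340037) (nat_lit 76) (nat_lit 4245129759) (nat_lit 328) (nat_lit 5) (nat_lit 340) (nat_lit 5) (nat_lit 329) (nat_lit 5) (nat_lit 442) (nat_lit 402) (nat_lit 296)) (XT.lf (nat_lit 0) (nat_lit 2089656358) (nat_lit 912) (nat_lit 22538901) (nat_lit 76) (nat_lit 8192723799) (nat_lit 328) (nat_lit 5) (nat_lit 340) (nat_lit 5) (nat_lit 329) (nat_lit 5) (nat_lit 443) (nat_lit 402) (nat_lit 295))) (XT.nd (nat_lit 78) (nat_lit 760) (nat_lit 0) (XT.lf (nat_lit 0) (nat_lit 4001548207) (nat_lit 912) (nat_lit 4585032128) (nat_lit 76) (nat_lit 1823060775) (nat_lit 317) (nat_lit 5) (nat_lit 329) (nat_lit 5) (nat_lit 318) (nat_lit 5) (nat_lit 444) (nat_lit 402) (nat_lit 294)) (XT.nd (nat_lit 78) (nat_lit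 0) (nat_lit 0) (XT.lf (nat_lit 0) (nat_lit 1253971291) (nat_lit 760) (nat_lit 4699895704) (nat_lit 836) (nat_lit 4562554842) (nat_lit 307) (nat_lit 5) (nat_lit 317) (nat_lit 5) (nat_lit 318) (nat_lit 5) (nat_lit 445) (nat_lit 402) (nat_lit 293)) (XT.lf (nat_lit 0) (nat_lit 7251008008) (nat_lit 760) (nat_lit 705157612) (nat_lit 836) (nat_lit 2668961748) (nat_lit 307) (nat_lit 5) (nat_lit 317) (nat_lit 5) (nat_lit 318) (nat_lit 5) (nat_lit 446) (nat_lit 402) (nat_lit 292))))) (XT.nd (nat_lit 234) (nat_lit 1444) (nat_lit 0) (XT.nd (nat_lit 78) (nat_lit 760) (nat_lit 0) (XT.lf (nat_lit 0) (nat_lit 2623632829) (nat_lit 760) (nat_lit 7394336248) (nat_lit 836) (nat_lit 717656461) (nat_lit 297) (nat_lit 5) (nat_lit 307) (nat_lit 5) (nat_lit 308) (nat_lit 5) (nat_lit 447) (nat_lit 402) (nat_lit 291)) (XT.nd (nat_lit 78) (nat_lit 684) (nat_lit 0) (XT.lf (nat_lit 0) (nat_lit 1264105289) (nat_lit 836) (nat_lit 2094891847) (nat_lit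 76) (nat_lit 7489016247) (nat_lit 296) (nat_lit 5) (nat_lit 307) (nat_lit 5) (nat_lit 297) (nat_lit 5) (nat_lit 448) (nat_lit 402) (nat_lit 290)) (XT.lf (nat_lit 0) (nat_lit 3288480941) (nat_lit 760) (nat_lit 6896931489) (nat_lit 76) (nat_lit 776897178) (nat_lit 287) (nat_lit 5) (nat_lit 297) (nat_lit 5) (nat_lit 288) (nat_lit 5) (nat_lit 449) (nat_lit 402) (nat_lit 289)))) (XT.nd (nat_lit 78) (nat_lit 1444) (nat_lit 0) (XT.lf (nat_lit 0) (nat_lit 5371006692) (nat_lit 760) (nat_lit 744526598) (nat_lit 76) (nat_lit 4963012335) (nat_lit 287) (nat_lit 5) (nat_lit 297) (nat_lit 5) (nat_lit 288) (nat_lit 5) (nat_lit 450) (nat_lit 402) (nat_lit 288)) (XT.nd (nat_lit 78) (nat_lit 684) (nat_lit 0) (XT.lf (nat_lit 0) (nat_lit 5583738339) (nat_lit 760) (nat_lit 1929331919) (nat_lit 836) (nat_lit 3683685337) (nat_lit 277) (nat_lit 5) (nat_lit 287) (nat_lit 5) (nat_lit 288) (nat_lit 5) (nat_lit 451) (nat_lit 402) (nat_lit 287))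 (XT.lf (nat_lit 0) (nat_lit 704803749) (nat_lit 684) (nat_lit 8999821772) (nat_lit 760) (nat_lit 1612578077) (nat_lit 268) (nat_lit 5) (nat_lit 277) (nat_lit 5) (nat_lit 278) (nat_lit 5) (nat_lit 452) (nat_lit 402) (nat_lit 286))))))))
noncomputable def xc154 : XT := (XT.nd (nat_lit 1638) (nat_lit 5244) (nat_lit 0) (XT.nd (nat_lit 780) (nat_lit 3344) (nat_lit 0) (XT.nd (nat_lit 390) (nat_lit 1900) (nat_lit 0) (XT.nd (nat_lit 156) (nat_lit 608) (nat_lit 0) (XT.nd (nat_lit 78) (nat_lit 684) (nat_lit 0) (XT.lf (nat_lit 0) (nat_lit 526033014) (nat_lit 760) (nat_lit 4251264429) (nat_lit 76) (nat_lit 6662052001) (nat_lit 267) (nat_lit 5) (nat_lit 277) (nat_lit 5) (nat_lit 268) (nat_lit 5) (nat_lit 453) (nat_lit 402) (nat_lit 285)) (XT.lf (nat_lit 0) (nat_lit 2235386971) (nat_lit 684) (nat_lit 447270596) (nat_lit 760) (nat_lit 8881137231) (nat_lit 258) (nat_lit 5) (nat_lit 267) (nat_lit 5) (nat_lit 268) (nat_lit 5) (nat_lit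 454) (nat_lit 402) (nat_lit 284))) (XT.nd (nat_lit 78) (nat_lit 608) (nat_lit 0) (XT.lf (nat_lit 0) (nat_lit 4919401457) (nat_lit 760) (nat_lit 2827270072) (nat_lit 76) (nat_lit 3943324115) (nat_lit 258) (nat_lit 5) (nat_lit 268) (nat_lit 5) (nat_lit 259) (nat_lit 5) (nat_lit 455) (nat_lit 402) (nat_lit 283)) (XT.nd (nat_lit 78) (nat_lit 0) (nat_lit 0) (XT.lf (nat_lit 0) (nat_lit 3831026553) (nat_lit 608) (nat_lit 3380530467) (nat_lit 684) (nat_lit 4606956149) (nat_lit 250) (nat_lit 5) (nat_lit 258) (nat_lit 5) (nat_lit 259) (nat_lit 5) (nat_lit 456) (nat_lit 402) (nat_lit 282)) (XT.lf (nat_lit 0) (nat_lit 9558647804) (nat_lit 684) (nat_lit 1315839065) (nat_lit 76) (nat_lit 1074938406) (nat_lit 250) (nat_lit 5) (nat_lit 259) (nat_lit 5) (nat_lit 251) (nat_lit 5) (nat_lit 457) (nat_lit 402) (nat_lit 281))))) (XT.nd (nat_lit 156) (nat_lit 608) (nat_lit 0) (XT.nd (nat_lit 78) (nat_lit 684) (nat_lit 0) (XT.lf (nat_lit 0)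 (nat_lit 5519300104) (nat_lit 608) (nat_lit 6474963463) (nat_lit 684) (nat_lit 87866351) (nat_lit 242) (nat_lit 5) (nat_lit 250) (nat_lit 5) (nat_lit 251) (nat_lit 5) (nat_lit 458) (nat_lit 402) (nat_lit 280)) (XT.lf (nat_lit 0) (nat_lit 260306567) (nat_lit 608) (nat_lit 1965163772) (nat_lit 684) (nat_lit 9991849986) (nat_lit 233) (nat_lit 5) (nat_lit 241) (nat_lit 5) (nat_lit 242) (nat_lit 5) (nat_lit 459) (nat_lit 402) (nat_lit 279))) (XT.nd (nat_lit 78) (nat_lit 608) (nat_lit 0) (XT.lf (nat_lit 0) (nat_lit 4628953109) (nat_lit 684) (nat_lit 5083660723) (nat_lit 76) (nat_lit 2641693586) (nat_lit 233) (nat_lit 5) (nat_lit 242) (nat_lit 5) (nat_lit 234) (nat_lit 5) (nat_lit 460) (nat_lit 402) (nat_lit 278)) (XT.nd (nat_lit 78) (nat_lit 0) (nat_lit 0) (XT.lf (nat_lit 0) (nat_lit 1919503085) (nat_lit 608) (nat_lit 5170416723) (nat_lit 684) (nat_lit 5403931663) (nat_lit 225) (nat_lit 5) (nat_lit 233) (nat_lit 5) (nat_lit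 234) (nat_lit 5) (nat_lit 461) (nat_lit 402) (nat_lit 277)) (XT.lf (nat_lit 0) (nat_lit 9111954316) (nat_lit 608) (nat_lit 506389961) (nat_lit 684) (nat_lit 3017482755) (nat_lit 225) (nat_lit 5) (nat_lit 233) (nat_lit 5) (nat_lit 234) (nat_lit 5) (nat_lit 462) (nat_lit 402) (nat_lit 276)))))) (XT.nd (nat_lit 390) (nat_lit 1596) (nat_lit 0) (XT.nd (nat_lit 156) (nat_lit 1140) (nat_lit 0) (XT.nd (nat_lit 78) (nat_lit 76) (nat_lit 0) (XT.lf (nat_lit 0) (nat_lit 3668533642) (nat_lit 532) (nat_lit 8564633348) (nat_lit 608) (nat_lit 546763807) (nat_lit 218) (nat_lit 5) (nat_lit 225) (nat_lit 5) (nat_lit 226) (nat_lit 5) (nat_lit 463) (nat_lit 402) (nat_lit 275)) (XT.lf (nat_lit 0) (nat_lit 1959129191) (nat_lit 608) (nat_lit 1909886070) (nat_lit 76) (nat_lit 9057417397) (nat_lit 217) (nat_lit 5) (nat_lit 225) (nat_lit 5) (nat_lit 218) (nat_lit 5) (nat_lit 464) (nat_lit 402) (nat_lit 274))) (XT.nd (nat_lit 78) (nat_lit 532)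 (nat_lit 0) (XT.lf (nat_lit 0) (nat_lit 4534433618) (nat_lit 684) (nat_lit 7596921414) (nat_lit 76) (nat_lit 943909931) (nat_lit 209) (nat_lit 5) (nat_lit 218) (nat_lit 5) (nat_lit 210) (nat_lit 5) (nat_lit 465) (nat_lit 402) (nat_lit 273)) (XT.nd (nat_lit 78) (nat_lit 532) (nat_lit 0) (XT.lf (nat_lit 0) (nat_lit 7184702851) (nat_lit 684) (nat_lit 231739424) (nat_lit 76) (nat_lit 5810167351) (nat_lit 209) (nat_lit 5) (nat_lit 218) (nat_lit 5) (nat_lit 210) (nat_lit 5) (nat_lit 466) (nat_lit 402) (nat_lit 272)) (XT.lf (nat_lit 0) (nat_lit 7358190279) (nat_lit 532) (nat_lit 2562791717) (nat_lit 608) (nat_lit 3459343885) (nat_lit 202) (nat_lit 5) (nat_lit 209) (nat_lit 5) (nat_lit 210) (nat_lit 5) (nat_lit 467) (nat_lit 402) (nat_lit 271))))) (XT.nd (nat_lit 234) (nat_lit 532) (nat_lit 0) (XT.nd (nat_lit 78) (nat_lit 532) (nat_lit 0) (XT.lf (nat_lit 0) (nat_lit 1551606612) (nat_lit 532) (nat_lit 11172892424) (nat_lit 608)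 (nat_lit 812371877) (nat_lit 195) (nat_lit 5) (nat_lit 202) (nat_lit 5) (nat_lit 203) (nat_lit 5) (nat_lit 468) (nat_lit 402) (nat_lit 270)) (XT.nd (nat_lit 78) (nat_lit 456) (nat_lit 0) (XT.lf (nat_lit 0) (nat_lit 1905867094) (nat_lit 608) (nat_lit 4386053164) (nat_lit 76) (nat_lit 7403524340) (nat_lit 194) (nat_lit 5) (nat_lit 202) (nat_lit 5) (nat_lit 195) (nat_lit 5) (nat_lit 469) (nat_lit 402) (nat_lit 269)) (XT.lf (nat_lit 0) (nat_lit 3385263590) (nat_lit 456) (nat_lit 1290036285) (nat_lit 532) (nat_lit 9181632777) (nat_lit 188) (nat_lit 5) (nat_lit 194) (nat_lit 5) (nat_lit 195) (nat_lit 5) (nat_lit 470) (nat_lit 402) (nat_lit 268)))) (XT.nd (nat_lit 78) (nat_lit 532) (nat_lit 0) (XT.lf (nat_lit 0) (nat_lit 7540343384) (nat_lit 532) (nat_lit 2693574568) (nat_lit 76) (nat_lit 3786932413) (nat_lit 188) (nat_lit 5) (nat_lit 195) (nat_lit 5) (nat_lit 189) (nat_lit 5) (nat_lit 471) (nat_lit 402) (nat_lit 267)) (XT.nd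 (nat_lit 78) (nat_lit 0) (nat_lit 0) (XT.lf (nat_lit 0) (nat_lit 5282158782) (nat_lit 532) (nat_lit 5209490230) (nat_lit 608) (nat_lit 3695822449) (nat_lit 181) (nat_lit 5) (nat_lit 188) (nat_lit 5) (nat_lit 189) (nat_lit 5) (nat_lit 472) (nat_lit 402) (nat_lit 266)) (XT.lf (nat_lit 0) (nat_lit 13435385441) (nat_lit 532) (nat_lit 70945072) (nat_lit 608) (nat_lit 851011640) (nat_lit 181) (nat_lit 5) (nat_lit 188) (nat_lit 5) (nat_lit 189) (nat_lit 5) (nat_lit 473) (nat_lit 402) (nat_lit 265))))))) (XT.nd (nat_lit 780) (nat_lit 2432) (nat_lit 0) (XT.nd (nat_lit 390) (nat_lit 1368) (nat_lit 0) (XT.nd (nat_lit 156) (nat_lit 456) (nat_lit 0) (XT.nd (nat_lit 78) (nat_lit 456) (nat_lit 0) (XT.lf (nat_lit 0) (nat_lit 2091488944) (nat_lit 532) (nat_lit 7278671627) (nat_lit 76) (nat_lit 5158833632) (nat_lit 174) (nat_lit 5) (nat_lit 181) (nat_lit 5) (nat_lit 175) (nat_lit 5) (nat_lit 474) (nat_lit 402) (nat_lit 264)) (XT.lf (nat_lit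 0) (nat_lit 881530037) (nat_lit 456) (nat_lit 4198912573) (nat_lit 532) (nat_lit 9623548149) (nat_lit 168) (nat_lit 5) (nat_lit 174) (nat_lit 5) (nat_lit 175) (nat_lit 5) (nat_lit 475) (nat_lit 402) (nat_lit 263))) (XT.nd (nat_lit 78) (nat_lit 456) (nat_lit 0) (XT.lf (nat_lit 0) (nat_lit 8172004823) (nat_lit 532) (nat_lit 5603807574) (nat_lit 76) (nat_lit 1105822110) (nat_lit 168) (nat_lit 5) (nat_lit 175) (nat_lit 5) (nat_lit 169) (nat_lit 5) (nat_lit 476) (nat_lit 402) (nat_lit 262)) (XT.nd (nat_lit 78) (nat_lit 0) (nat_lit 0) (XT.lf (nat_lit 0) (nat_lit 2769509143) (nat_lit 456) (nat_lit 8588616955) (nat_lit 532) (nat_lit 3704054254) (nat_lit 162) (nat_lit 5) (nat_lit 168) (nat_lit 5) (nat_lit 169) (nat_lit 5) (nat_lit 477) (nat_lit 402) (nat_lit 261)) (XT.lf (nat_lit 0) (nat_lit 11368148447) (nat_lit 456) (nat_lit 3264503360) (nat_lit 532) (nat_lit 613195370) (nat_lit 162) (nat_lit 5) (nat_lit 168) (nat_lit 5) (nat_lit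 169) (nat_lit 5) (nat_lit 478) (nat_lit 402) (nat_lit 260))))) (XT.nd (nat_lit 156) (nat_lit 836) (nat_lit 0) (XT.nd (nat_lit 78) (nat_lit 0) (nat_lit 0) (XT.lf (nat_lit 0) (nat_lit 2538492559) (nat_lit 532) (nat_lit 10713604955) (nat_lit 76) (nat_lit 2180117271) (nat_lit 155) (nat_lit 5) (nat_lit 162) (nat_lit 5) (nat_lit 156) (nat_lit 5) (nat_lit 479) (nat_lit 402) (nat_lit 259)) (XT.lf (nat_lit 0) (nat_lit 5780168475) (nat_lit 532) (nat_lit 2126261271) (nat_lit 76) (nat_lit 7715099127) (nat_lit 155) (nat_lit 5) (nat_lit 162) (nat_lit 5) (nat_lit 156) (nat_lit 5) (nat_lit 480) (nat_lit 402) (nat_lit 258))) (XT.nd (nat_lit 78) (nat_lit 456) (nat_lit 0) (XT.lf (nat_lit 0) (nat_lit 6703067404) (nat_lit 380) (nat_lit 2414723699) (nat_lit 456) (nat_lit 6696219297) (nat_lit 150) (nat_lit 5) (nat_lit 155) (nat_lit 5) (nat_lit 156) (nat_lit 5) (nat_lit 481) (nat_lit 402) (nat_lit 257)) (XT.nd (nat_lit 78) (nat_lit 456) (nat_lit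 0) (XT.lf (nat_lit 0) (nat_lit 12544907384) (nat_lit 456) (nat_lit 310809109) (nat_lit 76) (nat_lit 3154173594) (nat_lit 150) (nat_lit 5) (nat_lit 156) (nat_lit 5) (nat_lit 151) (nat_lit 5) (nat_lit 482) (nat_lit 402) (nat_lit 256)) (XT.lf (nat_lit 0) (nat_lit 8746625768) (nat_lit 456) (nat_lit 7354649537) (nat_lit 532) (nat_lit 107201165) (nat_lit 144) (nat_lit 5) (nat_lit 150) (nat_lit 5) (nat_lit 151) (nat_lit 5) (nat_lit 483) (nat_lit 402) (nat_lit 255)))))) (XT.nd (nat_lit 390) (nat_lit 1140) (nat_lit 0) (XT.nd (nat_lit 156) (nat_lit 836) (nat_lit 0) (XT.nd (nat_lit 78) (nat_lit 0) (nat_lit 0) (XT.lf (nat_lit 0) (nat_lit 1559860569) (nat_lit 380) (nat_lit 1714560762) (nat_lit 456) (nat_lit 13136181631) (nat_lit 138) (nat_lit 5) (nat_lit 143) (nat_lit 5) (nat_lit 144) (nat_lit 5) (nat_lit 484) (nat_lit 402) (nat_lit 254)) (XT.lf (nat_lit 0) (nat_lit 6786924924) (nat_lit 456) (nat_lit 5797441153) (nat_lit 76) (nat_lit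 4031101152) (nat_lit 138) (nat_lit 5) (nat_lit 144) (nat_lit 5) (nat_lit 139) (nat_lit 5) (nat_lit 485) (nat_lit 402) (nat_lit 253))) (XT.nd (nat_lit 78) (nat_lit 456) (nat_lit 0) (XT.lf (nat_lit 0) (nat_lit 3453648013) (nat_lit 380) (nat_lit 6938101456) (nat_lit 456) (nat_lit 6432240933) (nat_lit 133) (nat_lit 5) (nat_lit 138) (nat_lit 5) (nat_lit 139) (nat_lit 5) (nat_lit 486) (nat_lit 402) (nat_lit 252)) (XT.nd (nat_lit 78) (nat_lit 456) (nat_lit 0) (XT.lf (nat_lit 0) (nat_lit 12951239479) (nat_lit 380) (nat_lit 1144746203) (nat_lit 456) (nat_lit 2940155031) (nat_lit 133) (nat_lit 5) (nat_lit 138) (nat_lit 5) (nat_lit 139) (nat_lit 5) (nat_lit 487) (nat_lit 402) (nat_lit 251)) (XT.lf (nat_lit 0) (nat_lit 668635291) (nat_lit 456) (nat_lit 11846549203) (nat_lit 76) (nat_lit 4736171312) (nat_lit 127) (nat_lit 5) (nat_lit 133) (nat_lit 5) (nat_lit 128) (nat_lit 5) (nat_lit 488) (nat_lit 402) (nat_lit 250))))) (XT.nd (nat_lit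 234) (nat_lit 760) (nat_lit 0) (XT.nd (nat_lit 78) (nat_lit 380) (nat_lit 0) (XT.lf (nat_lit 0) (nat_lit 4334083923) (nat_lit 456) (nat_lit 2374887443) (nat_lit 76) (nat_lit 10761040930) (nat_lit 127) (nat_lit 5) (nat_lit 133) (nat_lit 5) (nat_lit 128) (nat_lit 5) (nat_lit 489) (nat_lit 402) (nat_lit 249)) (XT.nd (nat_lit 78) (nat_lit 0) (nat_lit 0) (XT.lf (nat_lit 0) (nat_lit 7366142178) (nat_lit 380) (nat_lit 743387881) (nat_lit 456) (nat_lit 9582780837) (nat_lit 122) (nat_lit 5) (nat_lit 127) (nat_lit 5) (nat_lit 128) (nat_lit 5) (nat_lit 490) (nat_lit 402) (nat_lit 248)) (XT.lf (nat_lit 0) (nat_lit 12000145547) (nat_lit 456) (nat_lit 636089500) (nat_lit 76) (nat_lit 5282029911) (nat_lit 122) (nat_lit 5) (nat_lit 128) (nat_lit 5) (nat_lit 123) (nat_lit 5) (nat_lit 491) (nat_lit 402) (nat_lit 247)))) (XT.nd (nat_lit 78) (nat_lit 456) (nat_lit 0) (XT.lf (nat_lit 0) (nat_lit 9349060030) (nat_lit 304) (nat_lit 6674291155)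 (nat_lit 380) (nat_lit 2124294003) (nat_lit 118) (nat_lit 5) (nat_lit 122) (nat_lit 5) (nat_lit 123) (nat_lit 5) (nat_lit 492) (nat_lit 402) (nat_lit 246)) (XT.nd (nat_lit 78) (nat_lit 0) (nat_lit 0) (XT.lf (nat_lit 0) (nat_lit 1148245116) (nat_lit 380) (nat_lit 575210889) (nat_lit 456) (nat_lit 16657914124) (nat_lit 112) (nat_lit 5) (nat_lit 117) (nat_lit 5) (nat_lit 118) (nat_lit 5) (nat_lit 493) (nat_lit 402) (nat_lit 245)) (XT.lf (nat_lit 0) (nat_lit 5705090748) (nat_lit 456) (nat_lit 7272958007) (nat_lit 76) (nat_lit 5639734994) (nat_lit 112) (nat_lit 5) (nat_lit 118) (nat_lit 5) (nat_lit 113) (nat_lit 5) (nat_lit 494) (nat_lit 402) (nat_lit 244))))))))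
noncomputable def xc155 : XT := (XT.nd (nat_lit 53196) (nat_lit 0) (nat_lit 20368) (XT.nd (nat_lit 52338) (nat_lit 0) (nat_lit 31616) (XT.nd (nat_lit 390) (nat_lit 380) (nat_lit 0) (XT.nd (nat_lit 156) (nat_lit 684) (nat_lit 0) (XT.nd (nat_lit 78) (nat_lit 0) (nat_lit 0) (XT.lf (nat_lit 0) (nat_lit 2904487399) (nat_lit 304) (nat_lit 6874005322) (nat_lit 380) (nat_lit 9080192675) (nat_lit 108) (nat_lit 5) (nat_lit 112) (nat_lit 5) (nat_lit 113) (nat_lit 5) (nat_lit 495) (nat_lit 402) (nat_lit 243)) (XT.lf (nat_lit 0) (nat_lit 13367966738) (nat_lit 304) (nat_lit 603770682) (nat_lit 380) (nat_lit 5131902554) (nat_lit 108) (nat_lit 5) (nat_lit 112) (nat_lit 5) (nat_lit 113) (nat_lit 5) (nat_lit 496) (nat_lit 402) (nat_lit 242))) (XT.nd (nat_lit 78) (nat_lit 380) (nat_lit 0) (XT.lf (nat_lit 0) (nat_lit 4695239388) (nat_lit 304) (nat_lit 13611434624) (nat_lit 380) (nat_lit 1045665443) (nat_lit 104) (nat_lit 5) (nat_lit 108)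 (nat_lit 5) (nat_lit 109) (nat_lit 5) (nat_lit 497) (nat_lit 402) (nat_lit 241)) (XT.nd (nat_lit 78) (nat_lit 304) (nat_lit 0) (XT.lf (nat_lit 0) (nat_lit 3113856148) (nat_lit 380) (nat_lit 4233239870) (nat_lit 76) (nat_lit 12257863538) (nat_lit 103) (nat_lit 5) (nat_lit 108) (nat_lit 5) (nat_lit 104) (nat_lit 5) (nat_lit 498) (nat_lit 402) (nat_lit 240)) (XT.lf (nat_lit 0) (nat_lit 6461236239) (nat_lit 304) (nat_lit 913261302) (nat_lit 380) (nat_lit 12487359878) (nat_lit 99) (nat_lit 5) (nat_lit 103) (nat_lit 5) (nat_lit 104) (nat_lit 5) (nat_lit 499) (nat_lit 402) (nat_lit 239))))) (XT.nd (nat_lit 156) (nat_lit 76) (nat_lit 0) (XT.nd (nat_lit 78) (nat_lit 304) (nat_lit 0) (XT.lf (nat_lit 0) (nat_lit 11775651964) (nat_lit 380) (nat_lit 2748945164) (nat_lit 76) (nat_lit 5598192277) (nat_lit 99) (nat_lit 5) (nat_lit 104) (nat_lit 5) (nat_lit 100) (nat_lit 5) (nat_lit 500) (nat_lit 402) (nat_lit 238)) (XT.lf (nat_lit 0)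 (nat_lit 8201855868) (nat_lit 304) (nat_lit 8112495275) (nat_lit 380) (nat_lit 4073600581) (nat_lit 95) (nat_lit 5) (nat_lit 99) (nat_lit 5) (nat_lit 100) (nat_lit 5) (nat_lit 501) (nat_lit 402) (nat_lit 237))) (XT.nd (nat_lit 51636) (nat_lit 0) (nat_lit 34048) (XT.lf (nat_lit 0) (nat_lit 290480587) (nat_lit 380) (nat_lit 1266547342) (nat_lit 76) (nat_lit 19101178010) (nat_lit 94) (nat_lit 5) (nat_lit 99) (nat_lit 5) (nat_lit 95) (nat_lit 5) (nat_lit 502) (nat_lit 402) (nat_lit 236)) (XT.nd (nat_lit 78) (nat_lit 0) (nat_lit 0) (XT.lf (nat_lit 0) (nat_lit 326126518) (nat_lit 1292) (nat_lit 1702020616) (nat_lit 1292) (nat_lit 1702020616) (nat_lit 542) (nat_lit 3) (nat_lit 559) (nat_lit 3) (nat_lit 559) (nat_lit 5) (nat_lit 403) (nat_lit 403) (nat_lit 334)) (XT.lf (nat_lit 76) (nat_lit 156895575) (nat_lit 0) (nat_lit 1945681909) (nat_lit 1292) (nat_lit 5402725382) (nat_lit 543) (nat_lit 5) (nat_lit 542) (nat_lit 3) (nat_lit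 559) (nat_lit 5) (nat_lit 404) (nat_lit 403) (nat_lit 333)))))) (XT.nd (nat_lit 390) (nat_lit 1216) (nat_lit 0) (XT.nd (nat_lit 156) (nat_lit 1292) (nat_lit 0) (XT.nd (nat_lit 78) (nat_lit 0) (nat_lit 0) (XT.lf (nat_lit 0) (nat_lit 3568395239) (nat_lit 1216) (nat_lit 3737481380) (nat_lit 1292) (nat_lit 245583155) (nat_lit 543) (nat_lit 5) (nat_lit 559) (nat_lit 5) (nat_lit 560) (nat_lit 5) (nat_lit 405) (nat_lit 403) (nat_lit 332)) (XT.lf (nat_lit 0) (nat_lit 5039304586) (nat_lit 1216) (nat_lit 87287231) (nat_lit 1292) (nat_lit 2472452043) (nat_lit 543) (nat_lit 5) (nat_lit 559) (nat_lit 5) (nat_lit 560) (nat_lit 5) (nat_lit 406) (nat_lit 403) (nat_lit 331))) (XT.nd (nat_lit 78) (nat_lit 1292) (nat_lit 0) (XT.lf (nat_lit 76) (nat_lit 3664297178) (nat_lit 0) (nat_lit 2862743565) (nat_lit 1292) (nat_lit 1120809872) (nat_lit 544) (nat_lit 5) (nat_lit 543) (nat_lit 5) (nat_lit 560) (nat_lit 5) (nat_lit 407) (nat_lit 403)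 (nat_lit 330)) (XT.nd (nat_lit 78) (nat_lit 0) (nat_lit 76) (XT.lf (nat_lit 0) (nat_lit 306886587) (nat_lit 1292) (nat_lit 227821126) (nat_lit 1368) (nat_lit 7163608400) (nat_lit 526) (nat_lit 5) (nat_lit 543) (nat_lit 5) (nat_lit 544) (nat_lit 5) (nat_lit 408) (nat_lit 403) (nat_lit 329)) (XT.lf (nat_lit 0) (nat_lit 1748577420) (nat_lit 1292) (nat_lit 4138670433) (nat_lit 1368) (nat_lit 1862403990) (nat_lit 527) (nat_lit 5) (nat_lit 544) (nat_lit 5) (nat_lit 545) (nat_lit 5) (nat_lit 409) (nat_lit 403) (nat_lit 328))))) (XT.nd (nat_lit 234) (nat_lit 1292) (nat_lit 0) (XT.nd (nat_lit 78) (nat_lit 0) (nat_lit 0) (XT.lf (nat_lit 0) (nat_lit 3189502872) (nat_lit 1292) (nat_lit 296216577) (nat_lit 1368) (nat_lit 4316904524) (nat_lit 527) (nat_lit 5) (nat_lit 544) (nat_lit 5) (nat_lit 545) (nat_lit 5) (nat_lit 410) (nat_lit 403) (nat_lit 327)) (XT.nd (nat_lit 78) (nat_lit 0) (nat_lit 76) (XT.lf (nat_lit 76) (nat_lit 3651039212)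 (nat_lit 0) (nat_lit 997913340) (nat_lit 1368) (nat_lit 3207926231) (nat_lit 528) (nat_lit 5) (nat_lit 527) (nat_lit 5) (nat_lit 545) (nat_lit 5) (nat_lit 411) (nat_lit 403) (nat_lit 326)) (XT.lf (nat_lit 0) (nat_lit 6116216127) (nat_lit 1292) (nat_lit 261508097) (nat_lit 1368) (nat_lit 1534938981) (nat_lit 528) (nat_lit 5) (nat_lit 545) (nat_lit 5) (nat_lit 546) (nat_lit 5) (nat_lit 412) (nat_lit 403) (nat_lit 325)))) (XT.nd (nat_lit 78) (nat_lit 1368) (nat_lit 0) (XT.lf (nat_lit 76) (nat_lit 3784565003) (nat_lit 0) (nat_lit 3826722480) (nat_lit 1368) (nat_lit 358323261) (nat_lit 529) (nat_lit 5) (nat_lit 528) (nat_lit 5) (nat_lit 546) (nat_lit 5) (nat_lit 413) (nat_lit 403) (nat_lit 324)) (XT.nd (nat_lit 78) (nat_lit 0) (nat_lit 76) (XT.lf (nat_lit 0) (nat_lit 1063354412) (nat_lit 1368) (nat_lit 140252849) (nat_lit 1444) (nat_lit 6824575449) (nat_lit 510) (nat_lit 5) (nat_lit 528) (nat_lit 5) (nat_lit 529) (nat_lit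 5) (nat_lit 414) (nat_lit 403) (nat_lit 323)) (XT.lf (nat_lit 0) (nat_lit 2512765765) (nat_lit 1368) (nat_lit 4082185836) (nat_lit 1444) (nat_lit 1492860899) (nat_lit 511) (nat_lit 5) (nat_lit 529) (nat_lit 5) (nat_lit 530) (nat_lit 5) (nat_lit 415) (nat_lit 403) (nat_lit 322))))))) (XT.nd (nat_lit 858) (nat_lit 8588) (nat_lit 0) (XT.nd (nat_lit 390) (nat_lit 1368) (nat_lit 0) (XT.nd (nat_lit 156) (nat_lit 1368) (nat_lit 0) (XT.nd (nat_lit 78) (nat_lit 0) (nat_lit 0) (XT.lf (nat_lit 76) (nat_lit 59849292) (nat_lit 0) (nat_lit 3909390560) (nat_lit 1444) (nat_lit 4179848952) (nat_lit 512) (nat_lit 5) (nat_lit 511) (nat_lit 5) (nat_lit 530) (nat_lit 5) (nat_lit 416) (nat_lit 403) (nat_lit 321)) (XT.lf (nat_lit 76) (nat_lit 4319528825) (nat_lit 0) (nat_lit 1131954921) (nat_lit 1444) (nat_lit 2760189189) (nat_lit 512) (nat_lit 5) (nat_lit 511) (nat_lit 5) (nat_lit 530) (nat_lit 5) (nat_lit 417) (nat_lit 403) (nat_lit 320)))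 (XT.nd (nat_lit 78) (nat_lit 1444) (nat_lit 0) (XT.lf (nat_lit 76) (nat_lit 361782117) (nat_lit 0) (nat_lit 6584898325) (nat_lit 1444) (nat_lit 1329176961) (nat_lit 513) (nat_lit 5) (nat_lit 512) (nat_lit 5) (nat_lit 531) (nat_lit 5) (nat_lit 418) (nat_lit 403) (nat_lit 319)) (XT.nd (nat_lit 78) (nat_lit 0) (nat_lit 0) (XT.lf (nat_lit 0) (nat_lit 132692160) (nat_lit 1444) (nat_lit 3616859230) (nat_lit 1520) (nat_lit 4591692514) (nat_lit 493) (nat_lit 5) (nat_lit 512) (nat_lit 5) (nat_lit 513) (nat_lit 5) (nat_lit 419) (nat_lit 403) (nat_lit 318)) (XT.lf (nat_lit 76) (nat_lit 746618546) (nat_lit 0) (nat_lit 834991618) (nat_lit 1520) (nat_lit 6826654026) (nat_lit 494) (nat_lit 5) (nat_lit 493) (nat_lit 5) (nat_lit 513) (nat_lit 5) (nat_lit 420) (nat_lit 403) (nat_lit 317))))) (XT.nd (nat_lit 234) (nat_lit 1444) (nat_lit 0) (XT.nd (nat_lit 78) (nat_lit 0) (nat_lit 0) (XT.lf (nat_lit 0) (nat_lit 3069057739) (nat_lit 1444)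 (nat_lit 3264967107) (nat_lit 1520) (nat_lit 2142422696) (nat_lit 494) (nat_lit 5) (nat_lit 513) (nat_lit 5) (nat_lit 514) (nat_lit 5) (nat_lit 421) (nat_lit 403) (nat_lit 316)) (XT.nd (nat_lit 78) (nat_lit 0) (nat_lit 0) (XT.lf (nat_lit 76) (nat_lit 1209209683) (nat_lit 0) (nat_lit 3362228304) (nat_lit 1520) (nat_lit 3974866314) (nat_lit 495) (nat_lit 5) (nat_lit 494) (nat_lit 5) (nat_lit 514) (nat_lit 5) (nat_lit 422) (nat_lit 403) (nat_lit 315)) (XT.lf (nat_lit 76) (nat_lit 5796499532) (nat_lit 0) (nat_lit 301497893) (nat_lit 1520) (nat_lit 2519691290) (nat_lit 495) (nat_lit 5) (nat_lit 494) (nat_lit 5) (nat_lit 514) (nat_lit 5) (nat_lit 423) (nat_lit 403) (nat_lit 314)))) (XT.nd (nat_lit 78) (nat_lit 1520) (nat_lit 0) (XT.lf (nat_lit 76) (nat_lit 1769097608) (nat_lit 0) (nat_lit 5888600929) (nat_lit 1520) (nat_lit 1032762964) (nat_lit 496) (nat_lit 5) (nat_lit 495) (nat_lit 5) (nat_lit 515) (nat_lit 5) (nat_lit 424)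 (nat_lit 403) (nat_lit 313)) (XT.nd (nat_lit 78) (nat_lit 0) (nat_lit 76) (XT.lf (nat_lit 0) (nat_lit 471632151) (nat_lit 1520) (nat_lit 2301203372) (nat_lit 1596) (nat_lit 5991922284) (nat_lit 475) (nat_lit 5) (nat_lit 495) (nat_lit 5) (nat_lit 496) (nat_lit 5) (nat_lit 425) (nat_lit 403) (nat_lit 312)) (XT.lf (nat_lit 0) (nat_lit 1984350725) (nat_lit 1520) (nat_lit 6427894924) (nat_lit 76) (nat_lit 428328722) (nat_lit 476) (nat_lit 5) (nat_lit 496) (nat_lit 5) (nat_lit 477) (nat_lit 5) (nat_lit 426) (nat_lit 403) (nat_lit 311)))))) (XT.nd (nat_lit 390) (nat_lit 5472) (nat_lit 0) (XT.nd (nat_lit 156) (nat_lit 1672) (nat_lit 0) (XT.nd (nat_lit 78) (nat_lit 1520) (nat_lit 0) (XT.lf (nat_lit 0) (nat_lit 3535202875) (nat_lit 1520) (nat_lit 1705111446) (nat_lit 76) (nat_lit 3677447275) (nat_lit 476) (nat_lit 5) (nat_lit 496) (nat_lit 5) (nat_lit 477) (nat_lit 5) (nat_lit 427) (nat_lit 403) (nat_lit 310)) (XT.lf (nat_lit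 0) (nat_lit 3132543981) (nat_lit 1520) (nat_lit 1979348503) (nat_lit 1596) (nat_lit 3884715351) (nat_lit 456) (nat_lit 5) (nat_lit 476) (nat_lit 5) (nat_lit 477) (nat_lit 5) (nat_lit 428) (nat_lit 403) (nat_lit 309))) (XT.nd (nat_lit 78) (nat_lit 1672) (nat_lit 0) (XT.lf (nat_lit 0) (nat_lit 6715257321) (nat_lit 1596) (nat_lit 1016632827) (nat_lit 76) (nat_lit 1345249470) (nat_lit 456) (nat_lit 5) (nat_lit 477) (nat_lit 5) (nat_lit 457) (nat_lit 5) (nat_lit 429) (nat_lit 403) (nat_lit 308)) (XT.nd (nat_lit 78) (nat_lit 76) (nat_lit 0) (XT.lf (nat_lit 0) (nat_lit 3945724605) (nat_lit 1596) (nat_lit 4419062857) (nat_lit 1672) (nat_lit 794223842) (nat_lit 435) (nat_lit 5) (nat_lit 456) (nat_lit 5) (nat_lit 457) (nat_lit 5) (nat_lit 430) (nat_lit 403) (nat_lit 307)) (XT.lf (nat_lit 0) (nat_lit 776649635) (nat_lit 1672) (nat_lit 247407082) (nat_lit 76) (nat_lit 8218721655) (nat_lit 434) (nat_lit 5) (nat_lit 456) (nat_lit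 5) (nat_lit 435) (nat_lit 5) (nat_lit 431) (nat_lit 403) (nat_lit 306))))) (XT.nd (nat_lit 234) (nat_lit 2052) (nat_lit 0) (XT.nd (nat_lit 78) (nat_lit 1748) (nat_lit 0) (XT.lf (nat_lit 0) (nat_lit 2391972664) (nat_lit 1748) (nat_lit 4488315138) (nat_lit 76) (nat_lit 2447365225) (nat_lit 412) (nat_lit 5) (nat_lit 435) (nat_lit 5) (nat_lit 413) (nat_lit 5) (nat_lit 432) (nat_lit 403) (nat_lit 305)) (XT.nd (nat_lit 78) (nat_lit 0) (nat_lit 0) (XT.lf (nat_lit 0) (nat_lit 597195423) (nat_lit 1748) (nat_lit 3431125682) (nat_lit 1824) (nat_lit 5386140061) (nat_lit 389) (nat_lit 5) (nat_lit 412) (nat_lit 5) (nat_lit 413) (nat_lit 5) (nat_lit 433) (nat_lit 403) (nat_lit 304)) (XT.lf (nat_lit 0) (nat_lit 5705013948) (nat_lit 1824) (nat_lit 3679090268) (nat_lit 76) (nat_lit 118759071) (nat_lit 389) (nat_lit 5) (nat_lit 413) (nat_lit 5) (nat_lit 390) (nat_lit 5) (nat_lit 434) (nat_lit 403) (nat_lit 303)))) (XT.nd (nat_lit 78) (nat_lit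 988) (nat_lit 0) (XT.lf (nat_lit 0) (nat_lit 1538540326) (nat_lit 1064) (nat_lit 5886602447) (nat_lit 1140) (nat_lit 2167702602) (nat_lit 375) (nat_lit 5) (nat_lit 389) (nat_lit 5) (nat_lit 390) (nat_lit 5) (nat_lit 435) (nat_lit 403) (nat_lit 302)) (XT.nd (nat_lit 78) (nat_lit 988) (nat_lit 0) (XT.lf (nat_lit 0) (nat_lit 6889767238) (nat_lit 1064) (nat_lit 2292099111) (nat_lit 1140) (nat_lit 502726684) (nat_lit 375) (nat_lit 5) (nat_lit 389) (nat_lit 5) (nat_lit 390) (nat_lit 5) (nat_lit 436) (nat_lit 403) (nat_lit 301)) (XT.lf (nat_lit 0) (nat_lit 1183474690) (nat_lit 988) (nat_lit 7211906278) (nat_lit 76) (nat_lit 1382576707) (nat_lit 362) (nat_lit 5) (nat_lit 375) (nat_lit 5) (nat_lit 363) (nat_lit 5) (nat_lit 437) (nat_lit 403) (nat_lit 300))))))))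
noncomputable def xc156 : XT := (XT.nd (nat_lit 1638) (nat_lit 6156) (nat_lit 0) (XT.nd (nat_lit 780) (nat_lit 4940) (nat_lit 0) (XT.nd (nat_lit 390) (nat_lit 1672) (nat_lit 0) (XT.nd (nat_lit 156) (nat_lit 1672) (nat_lit 0) (XT.nd (nat_lit 78) (nat_lit 836) (nat_lit 0) (XT.lf (nat_lit 0) (nat_lit 2908835371) (nat_lit 988) (nat_lit 1840266356) (nat_lit 76) (nat_lit 5123787296) (nat_lit 362) (nat_lit 5) (nat_lit 375) (nat_lit 5) (nat_lit 363) (nat_lit 5) (nat_lit 438) (nat_lit 403) (nat_lit 299)) (XT.lf (nat_lit 0) (nat_lit 3666451764) (nat_lit 836) (nat_lit 1004587987) (nat_lit 912) (nat_lit 5298641545) (nat_lit 351) (nat_lit 5) (nat_lit 362) (nat_lit 5) (nat_lit 363) (nat_lit 5) (nat_lit 439) (nat_lit 403) (nat_lit 298))) (XT.nd (nat_lit 78) (nat_lit 1672) (nat_lit 0) (XT.lf (nat_lit 0) (nat_lit 6478021036) (nat_lit 912) (nat_lit 799014731) (nat_lit 76) (nat_lit 2791191842) (nat_lit 351) (nat_lit 5) (nat_lit 363) (nat_lit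 5) (nat_lit 352) (nat_lit 5) (nat_lit 440) (nat_lit 403) (nat_lit 297)) (XT.nd (nat_lit 78) (nat_lit 836) (nat_lit 0) (XT.lf (nat_lit 0) (nat_lit 4851927718) (nat_lit 836) (nat_lit 3486610459) (nat_lit 912) (nat_lit 1829867422) (nat_lit 340) (nat_lit 5) (nat_lit 351) (nat_lit 5) (nat_lit 352) (nat_lit 5) (nat_lit 441) (nat_lit 403) (nat_lit 296)) (XT.lf (nat_lit 0) (nat_lit 337542790) (nat_lit 836) (nat_lit 9888295573) (nat_lit 912) (nat_lit 44965840) (nat_lit 329) (nat_lit 5) (nat_lit 340) (nat_lit 5) (nat_lit 341) (nat_lit 5) (nat_lit 442) (nat_lit 403) (nat_lit 295))))) (XT.nd (nat_lit 156) (nat_lit 760) (nat_lit 0) (XT.nd (nat_lit 78) (nat_lit 836) (nat_lit 0) (XT.lf (nat_lit 0) (nat_lit 1790994324) (nat_lit 912) (nat_lit 4253448933) (nat_lit 76) (nat_lit 4329812162) (nat_lit 328) (nat_lit 5) (nat_lit 340) (nat_lit 5) (nat_lit 329) (nat_lit 5) (nat_lit 443) (nat_lit 403) (nat_lit 294)) (XT.lf (nat_lit 0) (nat_lit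 1539493112) (nat_lit 836) (nat_lit 2113619108) (nat_lit 912) (nat_lit 6826864698) (nat_lit 317) (nat_lit 5) (nat_lit 328) (nat_lit 5) (nat_lit 329) (nat_lit 5) (nat_lit 444) (nat_lit 403) (nat_lit 293))) (XT.nd (nat_lit 78) (nat_lit 760) (nat_lit 0) (XT.lf (nat_lit 0) (nat_lit 5573814481) (nat_lit 912) (nat_lit 3114413332) (nat_lit 76) (nat_lit 1899166053) (nat_lit 317) (nat_lit 5) (nat_lit 329) (nat_lit 5) (nat_lit 318) (nat_lit 5) (nat_lit 445) (nat_lit 403) (nat_lit 292)) (XT.nd (nat_lit 78) (nat_lit 0) (nat_lit 0) (XT.lf (nat_lit 0) (nat_lit 2831091737) (nat_lit 760) (nat_lit 4714905271) (nat_lit 836) (nat_lit 3150708526) (nat_lit 307) (nat_lit 5) (nat_lit 317) (nat_lit 5) (nat_lit 318) (nat_lit 5) (nat_lit 446) (nat_lit 403) (nat_lit 291)) (XT.lf (nat_lit 0) (nat_lit 8917637012) (nat_lit 760) (nat_lit 641821209) (nat_lit 836) (nat_lit 1248716068) (nat_lit 307) (nat_lit 5) (nat_lit 317) (nat_lit 5) (nat_lit 318)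 (nat_lit 5) (nat_lit 447) (nat_lit 403) (nat_lit 290)))))) (XT.nd (nat_lit 390) (nat_lit 2660) (nat_lit 0) (XT.nd (nat_lit 156) (nat_lit 1444) (nat_lit 0) (XT.nd (nat_lit 78) (nat_lit 0) (nat_lit 0) (XT.lf (nat_lit 0) (nat_lit 713936726) (nat_lit 836) (nat_lit 6709480954) (nat_lit 76) (nat_lit 3497738485) (nat_lit 296) (nat_lit 5) (nat_lit 307) (nat_lit 5) (nat_lit 297) (nat_lit 5) (nat_lit 448) (nat_lit 403) (nat_lit 289)) (XT.lf (nat_lit 0) (nat_lit 2697569630) (nat_lit 836) (nat_lit 607378980) (nat_lit 76) (nat_lit 7731322160) (nat_lit 296) (nat_lit 5) (nat_lit 307) (nat_lit 5) (nat_lit 297) (nat_lit 5) (nat_lit 449) (nat_lit 403) (nat_lit 288))) (XT.nd (nat_lit 78) (nat_lit 760) (nat_lit 0) (XT.lf (nat_lit 0) (nat_lit 4745522990) (nat_lit 760) (nat_lit 5488020948) (nat_lit 76) (nat_lit 919657752) (nat_lit 287) (nat_lit 5) (nat_lit 297) (nat_lit 5) (nat_lit 288) (nat_lit 5) (nat_lit 450) (nat_lit 403) (nat_lit 287))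 (XT.nd (nat_lit 78) (nat_lit 0) (nat_lit 0) (XT.lf (nat_lit 0) (nat_lit 767163147) (nat_lit 760) (nat_lit 6080237189) (nat_lit 836) (nat_lit 4424818435) (nat_lit 277) (nat_lit 5) (nat_lit 287) (nat_lit 5) (nat_lit 288) (nat_lit 5) (nat_lit 451) (nat_lit 403) (nat_lit 286)) (XT.lf (nat_lit 0) (nat_lit 7201954804) (nat_lit 760) (nat_lit 1808405954) (nat_lit 836) (nat_lit 2382881234) (nat_lit 277) (nat_lit 5) (nat_lit 287) (nat_lit 5) (nat_lit 288) (nat_lit 5) (nat_lit 452) (nat_lit 403) (nat_lit 285))))) (XT.nd (nat_lit 234) (nat_lit 1216) (nat_lit 0) (XT.nd (nat_lit 78) (nat_lit 760) (nat_lit 0) (XT.lf (nat_lit 0) (nat_lit 2241769347) (nat_lit 684) (nat_lit 8988468277) (nat_lit 760) (nat_lit 286181484) (nat_lit 268) (nat_lit 5) (nat_lit 277) (nat_lit 5) (nat_lit 278) (nat_lit 5) (nat_lit 453) (nat_lit 403) (nat_lit 284)) (XT.nd (nat_lit 78) (nat_lit 684) (nat_lit 0) (XT.lf (nat_lit 0) (nat_lit 1851092144) (nat_lit 760)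 (nat_lit 2825332032) (nat_lit 76) (nat_lit 6964942663) (nat_lit 267) (nat_lit 5) (nat_lit 277) (nat_lit 5) (nat_lit 268) (nat_lit 5) (nat_lit 454) (nat_lit 403) (nat_lit 283)) (XT.lf (nat_lit 0) (nat_lit 3781111886) (nat_lit 684) (nat_lit 253707638) (nat_lit 760) (nat_lit 7733811558) (nat_lit 258) (nat_lit 5) (nat_lit 267) (nat_lit 5) (nat_lit 268) (nat_lit 5) (nat_lit 455) (nat_lit 403) (nat_lit 282)))) (XT.nd (nat_lit 78) (nat_lit 1216) (nat_lit 0) (XT.lf (nat_lit 0) (nat_lit 6292126373) (nat_lit 760) (nat_lit 1387597856) (nat_lit 76) (nat_lit 4218124359) (nat_lit 258) (nat_lit 5) (nat_lit 268) (nat_lit 5) (nat_lit 259) (nat_lit 5) (nat_lit 456) (nat_lit 403) (nat_lit 281)) (XT.nd (nat_lit 78) (nat_lit 608) (nat_lit 0) (XT.lf (nat_lit 0) (nat_lit 5394021164) (nat_lit 608) (nat_lit 3220767410) (nat_lit 684) (nat_lit 3414463641) (nat_lit 250) (nat_lit 5) (nat_lit 258) (nat_lit 5) (nat_lit 259) (nat_lit 5) (nat_lit 457)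 (nat_lit 403) (nat_lit 280)) (XT.lf (nat_lit 0) (nat_lit 140598952) (nat_lit 608) (nat_lit 10845896115) (nat_lit 684) (nat_lit 1176742866) (nat_lit 242) (nat_lit 5) (nat_lit 250) (nat_lit 5) (nat_lit 251) (nat_lit 5) (nat_lit 458) (nat_lit 403) (nat_lit 279))))))) (XT.nd (nat_lit 780) (nat_lit 3116) (nat_lit 0) (XT.nd (nat_lit 390) (nat_lit 1748) (nat_lit 0) (XT.nd (nat_lit 156) (nat_lit 608) (nat_lit 0) (XT.nd (nat_lit 78) (nat_lit 608) (nat_lit 0) (XT.lf (nat_lit 0) (nat_lit 1141149019) (nat_lit 684) (nat_lit 5205570646) (nat_lit 76) (nat_lit 5952047361) (nat_lit 241) (nat_lit 5) (nat_lit 250) (nat_lit 5) (nat_lit 242) (nat_lit 5) (nat_lit 459) (nat_lit 403) (nat_lit 278)) (XT.lf (nat_lit 0) (nat_lit 1743657528) (nat_lit 608) (nat_lit 1741406831) (nat_lit 684) (nat_lit 8951883833) (nat_lit 233) (nat_lit 5) (nat_lit 241) (nat_lit 5) (nat_lit 242) (nat_lit 5) (nat_lit 460) (nat_lit 403) (nat_lit 277))) (XT.nd (nat_lit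 78) (nat_lit 608) (nat_lit 0) (XT.lf (nat_lit 0) (nat_lit 5914466069) (nat_lit 684) (nat_lit 3713612950) (nat_lit 76) (nat_lit 2949047198) (nat_lit 233) (nat_lit 5) (nat_lit 242) (nat_lit 5) (nat_lit 234) (nat_lit 5) (nat_lit 461) (nat_lit 403) (nat_lit 276)) (XT.nd (nat_lit 78) (nat_lit 0) (nat_lit 0) (XT.lf (nat_lit 0) (nat_lit 3419931760) (nat_lit 608) (nat_lit 4990822005) (nat_lit 684) (nat_lit 4308993365) (nat_lit 225) (nat_lit 5) (nat_lit 233) (nat_lit 5) (nat_lit 234) (nat_lit 5) (nat_lit 462) (nat_lit 403) (nat_lit 275)) (XT.lf (nat_lit 0) (nat_lit 10727564592) (nat_lit 608) (nat_lit 239063787) (nat_lit 684) (nat_lit 1898404046) (nat_lit 225) (nat_lit 5) (nat_lit 233) (nat_lit 5) (nat_lit 234) (nat_lit 5) (nat_lit 463) (nat_lit 403) (nat_lit 274))))) (XT.nd (nat_lit 156) (nat_lit 1140) (nat_lit 0) (XT.nd (nat_lit 78) (nat_lit 0) (nat_lit 0) (XT.lf (nat_lit 0) (nat_lit 601977584) (nat_lit 608) (nat_lit 7828804286)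 (nat_lit 76) (nat_lit 4581395164) (nat_lit 217) (nat_lit 5) (nat_lit 225) (nat_lit 5) (nat_lit 218) (nat_lit 5) (nat_lit 464) (nat_lit 403) (nat_lit 273)) (XT.lf (nat_lit 0) (nat_lit 3128078779) (nat_lit 608) (nat_lit 515534908) (nat_lit 76) (nat_lit 9518382136) (nat_lit 217) (nat_lit 5) (nat_lit 225) (nat_lit 5) (nat_lit 218) (nat_lit 5) (nat_lit 465) (nat_lit 403) (nat_lit 272))) (XT.nd (nat_lit 78) (nat_lit 532) (nat_lit 0) (XT.lf (nat_lit 0) (nat_lit 5743965373) (nat_lit 684) (nat_lit 6305024147) (nat_lit 76) (nat_lit 1265040991) (nat_lit 209) (nat_lit 5) (nat_lit 218) (nat_lit 5) (nat_lit 210) (nat_lit 5) (nat_lit 466) (nat_lit 403) (nat_lit 271)) (XT.nd (nat_lit 78) (nat_lit 0) (nat_lit 0) (XT.lf (nat_lit 0) (nat_lit 1194821274) (nat_lit 532) (nat_lit 7238238189) (nat_lit 608) (nat_lit 5035633330) (nat_lit 202) (nat_lit 5) (nat_lit 209) (nat_lit 5) (nat_lit 210) (nat_lit 5) (nat_lit 467) (nat_lit 403) (nat_lit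 270)) (XT.lf (nat_lit 0) (nat_lit 8911566610) (nat_lit 532) (nat_lit 2292362133) (nat_lit 608) (nat_lit 2421964316) (nat_lit 202) (nat_lit 5) (nat_lit 209) (nat_lit 5) (nat_lit 210) (nat_lit 5) (nat_lit 468) (nat_lit 403) (nat_lit 269)))))) (XT.nd (nat_lit 390) (nat_lit 1520) (nat_lit 0) (XT.nd (nat_lit 156) (nat_lit 988) (nat_lit 0) (XT.nd (nat_lit 78) (nat_lit 0) (nat_lit 0) (XT.lf (nat_lit 0) (nat_lit 264209789) (nat_lit 608) (nat_lit 10788095069) (nat_lit 76) (nat_lit 2733436586) (nat_lit 194) (nat_lit 5) (nat_lit 202) (nat_lit 5) (nat_lit 195) (nat_lit 5) (nat_lit 469) (nat_lit 403) (nat_lit 268)) (XT.lf (nat_lit 0) (nat_lit 3004731116) (nat_lit 608) (nat_lit 3070348175) (nat_lit 76) (nat_lit 7872730584) (nat_lit 194) (nat_lit 5) (nat_lit 202) (nat_lit 5) (nat_lit 195) (nat_lit 5) (nat_lit 470) (nat_lit 403) (nat_lit 267))) (XT.nd (nat_lit 78) (nat_lit 532) (nat_lit 0) (XT.lf (nat_lit 0) (nat_lit 4847161847) (nat_lit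 456) (nat_lit 970643777) (nat_lit 532) (nat_lit 8294963450) (nat_lit 188) (nat_lit 5) (nat_lit 194) (nat_lit 5) (nat_lit 195) (nat_lit 5) (nat_lit 471) (nat_lit 403) (nat_lit 266)) (XT.nd (nat_lit 78) (nat_lit 532) (nat_lit 0) (XT.lf (nat_lit 0) (nat_lit 8721778658) (nat_lit 532) (nat_lit 1361902929) (nat_lit 76) (nat_lit 4196657299) (nat_lit 188) (nat_lit 5) (nat_lit 195) (nat_lit 5) (nat_lit 189) (nat_lit 5) (nat_lit 472) (nat_lit 403) (nat_lit 265)) (XT.lf (nat_lit 0) (nat_lit 6764229672) (nat_lit 532) (nat_lit 4956609008) (nat_lit 608) (nat_lit 2729685353) (nat_lit 181) (nat_lit 5) (nat_lit 188) (nat_lit 5) (nat_lit 189) (nat_lit 5) (nat_lit 473) (nat_lit 403) (nat_lit 264))))) (XT.nd (nat_lit 234) (nat_lit 532) (nat_lit 0) (XT.nd (nat_lit 78) (nat_lit 456) (nat_lit 0) (XT.lf (nat_lit 0) (nat_lit 154286151) (nat_lit 532) (nat_lit 14191907949) (nat_lit 76) (nat_lit 277891245) (nat_lit 174) (nat_lit 5) (nat_lit 181)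 (nat_lit 5) (nat_lit 175) (nat_lit 5) (nat_lit 474) (nat_lit 403) (nat_lit 263)) (XT.nd (nat_lit 78) (nat_lit 456) (nat_lit 0) (XT.lf (nat_lit 0) (nat_lit 3130996422) (nat_lit 532) (nat_lit 6052233930) (nat_lit 76) (nat_lit 5616098323) (nat_lit 174) (nat_lit 5) (nat_lit 181) (nat_lit 5) (nat_lit 175) (nat_lit 5) (nat_lit 475) (nat_lit 403) (nat_lit 262)) (XT.lf (nat_lit 0) (nat_lit 2262145378) (nat_lit 456) (nat_lit 3906870875) (nat_lit 532) (nat_lit 8809028887) (nat_lit 168) (nat_lit 5) (nat_lit 174) (nat_lit 5) (nat_lit 175) (nat_lit 5) (nat_lit 476) (nat_lit 403) (nat_lit 261)))) (XT.nd (nat_lit 78) (nat_lit 532) (nat_lit 0) (XT.lf (nat_lit 0) (nat_lit 9305450962) (nat_lit 532) (nat_lit 4362384900) (nat_lit 76) (nat_lit 1491750689) (nat_lit 168) (nat_lit 5) (nat_lit 175) (nat_lit 5) (nat_lit 169) (nat_lit 5) (nat_lit 477) (nat_lit 403) (nat_lit 260)) (XT.nd (nat_lit 78) (nat_lit 76) (nat_lit 0) (XT.lf (nat_lit 0)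 (nat_lit 4169493555) (nat_lit 456) (nat_lit 8375511379) (nat_lit 532) (nat_lit 2798949674) (nat_lit 162) (nat_lit 5) (nat_lit 168) (nat_lit 5) (nat_lit 169) (nat_lit 5) (nat_lit 478) (nat_lit 403) (nat_lit 259)) (XT.lf (nat_lit 0) (nat_lit 330139290) (nat_lit 532) (nat_lit 2620107439) (nat_lit 76) (nat_lit 12581386352) (nat_lit 161) (nat_lit 5) (nat_lit 168) (nat_lit 5) (nat_lit 162) (nat_lit 5) (nat_lit 479) (nat_lit 403) (nat_lit 258))))))))
noncomputable def xc157 : XT := (XT.nd (nat_lit 1638) (nat_lit 304) (nat_lit 0) (XT.nd (nat_lit 780) (nat_lit 2128) (nat_lit 0) (XT.nd (nat_lit 390) (nat_lit 1216) (nat_lit 0) (XT.nd (nat_lit 156) (nat_lit 912) (nat_lit 0) (XT.nd (nat_lit 78) (nat_lit 0) (nat_lit 0) (XT.lf (nat_lit 0) (nat_lit 3529166183) (nat_lit 532) (nat_lit 9589041737) (nat_lit 76) (nat_lit 2603593923) (nat_lit 155) (nat_lit 5) (nat_lit 162) (nat_lit 5) (nat_lit 156) (nat_lit 5) (nat_lit 480) (nat_lit 403)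 (nat_lit 257)) (XT.lf (nat_lit 0) (nat_lit 6817246132) (nat_lit 532) (nat_lit 856202853) (nat_lit 76) (nat_lit 8241826900) (nat_lit 155) (nat_lit 5) (nat_lit 162) (nat_lit 5) (nat_lit 156) (nat_lit 5) (nat_lit 481) (nat_lit 403) (nat_lit 256))) (XT.nd (nat_lit 78) (nat_lit 532) (nat_lit 0) (XT.lf (nat_lit 0) (nat_lit 8141076977) (nat_lit 380) (nat_lit 2070942208) (nat_lit 456) (nat_lit 5899784878) (nat_lit 150) (nat_lit 5) (nat_lit 155) (nat_lit 5) (nat_lit 156) (nat_lit 5) (nat_lit 482) (nat_lit 403) (nat_lit 255)) (XT.nd (nat_lit 78) (nat_lit 76) (nat_lit 0) (XT.lf (nat_lit 0) (nat_lit 989967280) (nat_lit 456) (nat_lit 12708753892) (nat_lit 532) (nat_lit 2613064190) (nat_lit 144) (nat_lit 5) (nat_lit 150) (nat_lit 5) (nat_lit 151) (nat_lit 5) (nat_lit 483) (nat_lit 403) (nat_lit 254)) (XT.lf (nat_lit 0) (nat_lit 785457255) (nat_lit 532) (nat_lit 6312774893) (nat_lit 76) (nat_lit 9416325951) (nat_lit 143) (nat_lit 5)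 (nat_lit 150) (nat_lit 5) (nat_lit 144) (nat_lit 5) (nat_lit 484) (nat_lit 403) (nat_lit 253))))) (XT.nd (nat_lit 156) (nat_lit 836) (nat_lit 0) (XT.nd (nat_lit 78) (nat_lit 0) (nat_lit 0) (XT.lf (nat_lit 0) (nat_lit 2880123801) (nat_lit 380) (nat_lit 1344006764) (nat_lit 456) (nat_lit 12496769911) (nat_lit 138) (nat_lit 5) (nat_lit 143) (nat_lit 5) (nat_lit 144) (nat_lit 5) (nat_lit 485) (nat_lit 403) (nat_lit 252)) (XT.lf (nat_lit 0) (nat_lit 7792123551) (nat_lit 456) (nat_lit 4634613464) (nat_lit 76) (nat_lit 4503424740) (nat_lit 138) (nat_lit 5) (nat_lit 144) (nat_lit 5) (nat_lit 139) (nat_lit 5) (nat_lit 486) (nat_lit 403) (nat_lit 251))) (XT.nd (nat_lit 78) (nat_lit 456) (nat_lit 0) (XT.lf (nat_lit 0) (nat_lit 4793084483) (nat_lit 380) (nat_lit 6667159910) (nat_lit 456) (nat_lit 5682791426) (nat_lit 133) (nat_lit 5) (nat_lit 138) (nat_lit 5) (nat_lit 139) (nat_lit 5) (nat_lit 487) (nat_lit 403) (nat_lit 250)) (XT.nd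 (nat_lit 78) (nat_lit 456) (nat_lit 0) (XT.lf (nat_lit 0) (nat_lit 14455718689) (nat_lit 380) (nat_lit 765970955) (nat_lit 456) (nat_lit 2138081343) (nat_lit 133) (nat_lit 5) (nat_lit 138) (nat_lit 5) (nat_lit 139) (nat_lit 5) (nat_lit 488) (nat_lit 403) (nat_lit 249)) (XT.lf (nat_lit 0) (nat_lit 1525689745) (nat_lit 456) (nat_lit 10820409687) (nat_lit 76) (nat_lit 5233201420) (nat_lit 127) (nat_lit 5) (nat_lit 133) (nat_lit 5) (nat_lit 128) (nat_lit 5) (nat_lit 489) (nat_lit 403) (nat_lit 248)))))) (XT.nd (nat_lit 390) (nat_lit 988) (nat_lit 0) (XT.nd (nat_lit 156) (nat_lit 760) (nat_lit 0) (XT.nd (nat_lit 78) (nat_lit 380) (nat_lit 0) (XT.lf (nat_lit 0) (nat_lit 5247904570) (nat_lit 456) (nat_lit 1184080780) (nat_lit 76) (nat_lit 11370680065) (nat_lit 127) (nat_lit 5) (nat_lit 133) (nat_lit 5) (nat_lit 128) (nat_lit 5) (nat_lit 490) (nat_lit 403) (nat_lit 247)) (XT.lf (nat_lit 0) (nat_lit 8743622694) (nat_lit 380)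 (nat_lit 347005523) (nat_lit 456) (nat_lit 8938950405) (nat_lit 122) (nat_lit 5) (nat_lit 127) (nat_lit 5) (nat_lit 128) (nat_lit 5) (nat_lit 491) (nat_lit 403) (nat_lit 246))) (XT.nd (nat_lit 78) (nat_lit 456) (nat_lit 0) (XT.lf (nat_lit 0) (nat_lit 578447759) (nat_lit 304) (nat_lit 12470924663) (nat_lit 380) (nat_lit 5210876942) (nat_lit 118) (nat_lit 5) (nat_lit 122) (nat_lit 5) (nat_lit 123) (nat_lit 5) (nat_lit 492) (nat_lit 403) (nat_lit 245)) (XT.nd (nat_lit 78) (nat_lit 456) (nat_lit 0) (XT.lf (nat_lit 0) (nat_lit 10747689672) (nat_lit 304) (nat_lit 6393670165) (nat_lit 380) (nat_lit 1353094860) (nat_lit 118) (nat_lit 5) (nat_lit 122) (nat_lit 5) (nat_lit 123) (nat_lit 5) (nat_lit 493) (nat_lit 403) (nat_lit 244)) (XT.lf (nat_lit 0) (nat_lit 2385676050) (nat_lit 380) (nat_lit 167402231) (nat_lit 456) (nat_lit 16179831104) (nat_lit 112) (nat_lit 5) (nat_lit 117) (nat_lit 5) (nat_lit 118) (nat_lit 5) (nat_lit 494)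 (nat_lit 403) (nat_lit 243))))) (XT.nd (nat_lit 234) (nat_lit 684) (nat_lit 0) (XT.nd (nat_lit 78) (nat_lit 304) (nat_lit 0) (XT.lf (nat_lit 0) (nat_lit 6601423556) (nat_lit 456) (nat_lit 6214660578) (nat_lit 76) (nat_lit 6158229216) (nat_lit 112) (nat_lit 5) (nat_lit 118) (nat_lit 5) (nat_lit 113) (nat_lit 5) (nat_lit 495) (nat_lit 403) (nat_lit 242)) (XT.nd (nat_lit 78) (nat_lit 0) (nat_lit 0) (XT.lf (nat_lit 0) (nat_lit 4158414285) (nat_lit 304) (nat_lit 6590305588) (nat_lit 380) (nat_lit 8471468187) (nat_lit 108) (nat_lit 5) (nat_lit 112) (nat_lit 5) (nat_lit 113) (nat_lit 5) (nat_lit 496) (nat_lit 403) (nat_lit 241)) (XT.lf (nat_lit 0) (nat_lit 14807715425) (nat_lit 304) (nat_lit 202924683) (nat_lit 380) (nat_lit 4459708898) (nat_lit 108) (nat_lit 5) (nat_lit 112) (nat_lit 5) (nat_lit 113) (nat_lit 5) (nat_lit 497) (nat_lit 403) (nat_lit 240)))) (XT.nd (nat_lit 78) (nat_lit 380) (nat_lit 0) (XT.lf (nat_lit 0) (nat_lit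 5966419808) (nat_lit 304) (nat_lit 13461236142) (nat_lit 380) (nat_lit 296462336) (nat_lit 104) (nat_lit 5) (nat_lit 108) (nat_lit 5) (nat_lit 109) (nat_lit 5) (nat_lit 498) (nat_lit 403) (nat_lit 239)) (XT.nd (nat_lit 78) (nat_lit 304) (nat_lit 0) (XT.lf (nat_lit 0) (nat_lit 3921247193) (nat_lit 380) (nat_lit 3153646350) (nat_lit 76) (nat_lit 12907098576) (nat_lit 103) (nat_lit 5) (nat_lit 108) (nat_lit 5) (nat_lit 104) (nat_lit 5) (nat_lit 499) (nat_lit 403) (nat_lit 238)) (XT.lf (nat_lit 0) (nat_lit 7747059687) (nat_lit 304) (nat_lit 512941056) (nat_lit 380) (nat_lit 11984172432) (nat_lit 99) (nat_lit 5) (nat_lit 103) (nat_lit 5) (nat_lit 104) (nat_lit 5) (nat_lit 500) (nat_lit 403) (nat_lit 237))))))) (XT.nd (nat_lit 52494) (nat_lit 0) (nat_lit 30248) (XT.nd (nat_lit 52026) (nat_lit 0) (nat_lit 32756) (XT.nd (nat_lit 51792) (nat_lit 0) (nat_lit 33972) (XT.nd (nat_lit 78) (nat_lit 304) (nat_lit 0) (XT.lf (nat_lit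 0) (nat_lit 12737371852) (nat_lit 380) (nat_lit 1658039381) (nat_lit 76) (nat_lit 6115151856) (nat_lit 99) (nat_lit 5) (nat_lit 104) (nat_lit 5) (nat_lit 100) (nat_lit 5) (nat_lit 501) (nat_lit 403) (nat_lit 236)) (XT.lf (nat_lit 0) (nat_lit 9504238957) (nat_lit 304) (nat_lit 7855757605) (nat_lit 380) (nat_lit 3421172159) (nat_lit 95) (nat_lit 5) (nat_lit 99) (nat_lit 5) (nat_lit 100) (nat_lit 5) (nat_lit 502) (nat_lit 403) (nat_lit 235))) (XT.nd (nat_lit 78) (nat_lit 0) (nat_lit 0) (XT.lf (nat_lit 0) (nat_lit 1766064789) (nat_lit 1292) (nat_lit 1004641491) (nat_lit 1292) (nat_lit 1004641491) (nat_lit 542) (nat_lit 3) (nat_lit 559) (nat_lit 3) (nat_lit 559) (nat_lit 5) (nat_lit 404) (nat_lit 404) (nat_lit 332)) (XT.nd (nat_lit 78) (nat_lit 0) (nat_lit 0) (XT.lf (nat_lit 76) (nat_lit 1613248618) (nat_lit 0) (nat_lit 3351434751) (nat_lit 1292) (nat_lit 2632844039) (nat_lit 543) (nat_lit 5) (nat_lit 542) (nat_lit 3) (nat_lit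 559) (nat_lit 5) (nat_lit 405) (nat_lit 404) (nat_lit 331)) (XT.lf (nat_lit 76) (nat_lit 5316659633) (nat_lit 0) (nat_lit 1086214671) (nat_lit 1292) (nat_lit 1242901044) (nat_lit 543) (nat_lit 5) (nat_lit 542) (nat_lit 3) (nat_lit 559) (nat_lit 5) (nat_lit 406) (nat_lit 404) (nat_lit 330))))) (XT.nd (nat_lit 234) (nat_lit 0) (nat_lit 76) (XT.nd (nat_lit 78) (nat_lit 0) (nat_lit 0) (XT.lf (nat_lit 0) (nat_lit 153711150) (nat_lit 1292) (nat_lit 6306244368) (nat_lit 1368) (nat_lit 1235405172) (nat_lit 526) (nat_lit 5) (nat_lit 543) (nat_lit 5) (nat_lit 544) (nat_lit 5) (nat_lit 407) (nat_lit 404) (nat_lit 329)) (XT.nd (nat_lit 78) (nat_lit 0) (nat_lit 0) (XT.lf (nat_lit 0) (nat_lit 1549210647) (nat_lit 1292) (nat_lit 2567515190) (nat_lit 1368) (nat_lit 3629313695) (nat_lit 526) (nat_lit 5) (nat_lit 543) (nat_lit 5) (nat_lit 544) (nat_lit 5) (nat_lit 408) (nat_lit 404) (nat_lit 328)) (XT.lf (nat_lit 76) (nat_lit 1243029649)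 (nat_lit 0) (nat_lit 1703009460) (nat_lit 1368) (nat_lit 4852242162) (nat_lit 527) (nat_lit 5) (nat_lit 526) (nat_lit 5) (nat_lit 544) (nat_lit 5) (nat_lit 409) (nat_lit 404) (nat_lit 327)))) (XT.nd (nat_lit 78) (nat_lit 0) (nat_lit 0) (XT.lf (nat_lit 0) (nat_lit 4359076183) (nat_lit 1292) (nat_lit 2711607620) (nat_lit 1368) (nat_lit 781135956) (nat_lit 527) (nat_lit 5) (nat_lit 544) (nat_lit 5) (nat_lit 545) (nat_lit 5) (nat_lit 410) (nat_lit 404) (nat_lit 326)) (XT.nd (nat_lit 78) (nat_lit 0) (nat_lit 0) (XT.lf (nat_lit 76) (nat_lit 1193746886) (nat_lit 0) (nat_lit 4592323320) (nat_lit 1368) (nat_lit 2120661899) (nat_lit 528) (nat_lit 5) (nat_lit 527) (nat_lit 5) (nat_lit 545) (nat_lit 5) (nat_lit 411) (nat_lit 404) (nat_lit 325)) (XT.lf (nat_lit 76) (nat_lit 5194553220) (nat_lit 0) (nat_lit 2032442153) (nat_lit 1368) (nat_lit 736056179) (nat_lit 528) (nat_lit 5) (nat_lit 527) (nat_lit 5) (nat_lit 545) (nat_lit 5)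 (nat_lit 412) (nat_lit 404) (nat_lit 324)))))) (XT.nd (nat_lit 390) (nat_lit 1292) (nat_lit 0) (XT.nd (nat_lit 156) (nat_lit 0) (nat_lit 0) (XT.nd (nat_lit 78) (nat_lit 0) (nat_lit 0) (XT.lf (nat_lit 0) (nat_lit 647003875) (nat_lit 1368) (nat_lit 6777465426) (nat_lit 1444) (nat_lit 596363683) (nat_lit 510) (nat_lit 5) (nat_lit 528) (nat_lit 5) (nat_lit 529) (nat_lit 5) (nat_lit 413) (nat_lit 404) (nat_lit 323)) (XT.lf (nat_lit 0) (nat_lit 2048239455) (nat_lit 1368) (nat_lit 2744941705) (nat_lit 1444) (nat_lit 3286499892) (nat_lit 510) (nat_lit 5) (nat_lit 528) (nat_lit 5) (nat_lit 529) (nat_lit 5) (nat_lit 414) (nat_lit 404) (nat_lit 322))) (XT.nd (nat_lit 78) (nat_lit 0) (nat_lit 76) (XT.lf (nat_lit 76) (nat_lit 1366463458) (nat_lit 0) (nat_lit 2088731714) (nat_lit 1444) (nat_lit 4684972411) (nat_lit 511) (nat_lit 5) (nat_lit 510) (nat_lit 5) (nat_lit 529) (nat_lit 5) (nat_lit 415) (nat_lit 404) (nat_lit 321)) (XT.nd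 (nat_lit 78) (nat_lit 0) (nat_lit 0) (XT.lf (nat_lit 0) (nat_lit 4882560838) (nat_lit 1368) (nat_lit 2628923256) (nat_lit 1444) (nat_lit 690549442) (nat_lit 511) (nat_lit 5) (nat_lit 529) (nat_lit 5) (nat_lit 530) (nat_lit 5) (nat_lit 416) (nat_lit 404) (nat_lit 320)) (XT.lf (nat_lit 76) (nat_lit 1585854506) (nat_lit 0) (nat_lit 4746728795) (nat_lit 1444) (nat_lit 1932686127) (nat_lit 512) (nat_lit 5) (nat_lit 511) (nat_lit 5) (nat_lit 530) (nat_lit 5) (nat_lit 417) (nat_lit 404) (nat_lit 319))))) (XT.nd (nat_lit 234) (nat_lit 0) (nat_lit 0) (XT.nd (nat_lit 78) (nat_lit 1368) (nat_lit 0) (XT.lf (nat_lit 76) (nat_lit 5900829430) (nat_lit 0) (nat_lit 1898859141) (nat_lit 1444) (nat_lit 530334341) (nat_lit 512) (nat_lit 5) (nat_lit 511) (nat_lit 5) (nat_lit 530) (nat_lit 5) (nat_lit 418) (nat_lit 404) (nat_lit 318)) (XT.nd (nat_lit 78) (nat_lit 0) (nat_lit 0) (XT.lf (nat_lit 0) (nat_lit 878159115) (nat_lit 1444) (nat_lit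 6497588532) (nat_lit 1520) (nat_lit 1020422917) (nat_lit 493) (nat_lit 5) (nat_lit 512) (nat_lit 5) (nat_lit 513) (nat_lit 5) (nat_lit 419) (nat_lit 404) (nat_lit 317)) (XT.lf (nat_lit 0) (nat_lit 2308030878) (nat_lit 1444) (nat_lit 2153935862) (nat_lit 1520) (nat_lit 4001611809) (nat_lit 493) (nat_lit 5) (nat_lit 512) (nat_lit 5) (nat_lit 513) (nat_lit 5) (nat_lit 420) (nat_lit 404) (nat_lit 316)))) (XT.nd (nat_lit 78) (nat_lit 0) (nat_lit 76) (XT.lf (nat_lit 76) (nat_lit 2286711072) (nat_lit 0) (nat_lit 1466516858) (nat_lit 1520) (nat_lit 4779385622) (nat_lit 494) (nat_lit 5) (nat_lit 493) (nat_lit 5) (nat_lit 513) (nat_lit 5) (nat_lit 421) (nat_lit 404) (nat_lit 315)) (XT.nd (nat_lit 78) (nat_lit 0) (nat_lit 0) (XT.lf (nat_lit 0) (nat_lit 5224550373) (nat_lit 1444) (nat_lit 1788141027) (nat_lit 1520) (nat_lit 1590406578) (nat_lit 494) (nat_lit 5) (nat_lit 513) (nat_lit 5) (nat_lit 514) (nat_lit 5) (nat_lit 422) (nat_lit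 404) (nat_lit 314)) (XT.lf (nat_lit 76) (nat_lit 2765373737) (nat_lit 0) (nat_lit 3960490109) (nat_lit 1520) (nat_lit 1949129849) (nat_lit 495) (nat_lit 5) (nat_lit 494) (nat_lit 5) (nat_lit 514) (nat_lit 5) (nat_lit 423) (nat_lit 404) (nat_lit 313))))))))
noncomputable def xc158 : XT := (XT.nd (nat_lit 1638) (nat_lit 9044) (nat_lit 0) (XT.nd (nat_lit 780) (nat_lit 6384) (nat_lit 0) (XT.nd (nat_lit 390) (nat_lit 4788) (nat_lit 0) (XT.nd (nat_lit 156) (nat_lit 0) (nat_lit 0) (XT.nd (nat_lit 78) (nat_lit 1444) (nat_lit 0) (XT.lf (nat_lit 76) (nat_lit 7414370562) (nat_lit 0) (nat_lit 828132986) (nat_lit 1520) (nat_lit 506130419) (nat_lit 495) (nat_lit 5) (nat_lit 494) (nat_lit 5) (nat_lit 514) (nat_lit 5) (nat_lit 424) (nat_lit 404) (nat_lit 312)) (XT.lf (nat_lit 0) (nat_lit 964050784) (nat_lit 1520) (nat_lit 5488849950) (nat_lit 1596) (nat_lit 2370513309) (nat_lit 475) (nat_lit 5) (nat_lit 495) (nat_lit 5) (nat_lit 496)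 (nat_lit 5) (nat_lit 425) (nat_lit 404) (nat_lit 311))) (XT.nd (nat_lit 78) (nat_lit 0) (nat_lit 76) (XT.lf (nat_lit 0) (nat_lit 2445430714) (nat_lit 1520) (nat_lit 813794368) (nat_lit 1596) (nat_lit 5640638195) (nat_lit 475) (nat_lit 5) (nat_lit 495) (nat_lit 5) (nat_lit 496) (nat_lit 5) (nat_lit 426) (nat_lit 404) (nat_lit 310)) (XT.nd (nat_lit 78) (nat_lit 0) (nat_lit 0) (XT.lf (nat_lit 0) (nat_lit 3957099705) (nat_lit 1520) (nat_lit 4990831124) (nat_lit 76) (nat_lit 29909118) (nat_lit 476) (nat_lit 5) (nat_lit 496) (nat_lit 5) (nat_lit 477) (nat_lit 5) (nat_lit 427) (nat_lit 404) (nat_lit 309)) (XT.lf (nat_lit 0) (nat_lit 5501065722) (nat_lit 1520) (nat_lit 204290441) (nat_lit 76) (nat_lit 3351990163) (nat_lit 476) (nat_lit 5) (nat_lit 496) (nat_lit 5) (nat_lit 477) (nat_lit 5) (nat_lit 428) (nat_lit 404) (nat_lit 308))))) (XT.nd (nat_lit 156) (nat_lit 1748) (nat_lit 0) (XT.nd (nat_lit 78) (nat_lit 1596) (nat_lit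 0) (XT.lf (nat_lit 0) (nat_lit 4720019915) (nat_lit 1520) (nat_lit 2362009407) (nat_lit 1596) (nat_lit 2056302369) (nat_lit 456) (nat_lit 5) (nat_lit 476) (nat_lit 5) (nat_lit 477) (nat_lit 5) (nat_lit 429) (nat_lit 404) (nat_lit 307)) (XT.lf (nat_lit 0) (nat_lit 504216839) (nat_lit 1596) (nat_lit 8177709069) (nat_lit 1672) (nat_lit 539275588) (nat_lit 435) (nat_lit 5) (nat_lit 456) (nat_lit 5) (nat_lit 457) (nat_lit 5) (nat_lit 430) (nat_lit 404) (nat_lit 306))) (XT.nd (nat_lit 78) (nat_lit 1672) (nat_lit 0) (XT.lf (nat_lit 0) (nat_lit 1016387311) (nat_lit 1672) (nat_lit 3762885851) (nat_lit 76) (nat_lit 4525904870) (nat_lit 434) (nat_lit 5) (nat_lit 456) (nat_lit 5) (nat_lit 435) (nat_lit 5) (nat_lit 431) (nat_lit 404) (nat_lit 305)) (XT.nd (nat_lit 78) (nat_lit 0) (nat_lit 0) (XT.lf (nat_lit 0) (nat_lit 1283504463) (nat_lit 1672) (nat_lit 1297277128) (nat_lit 1748) (nat_lit 6810294804) (nat_lit 412) (nat_lit 5) (nat_lit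 434) (nat_lit 5) (nat_lit 435) (nat_lit 5) (nat_lit 432) (nat_lit 404) (nat_lit 304)) (XT.lf (nat_lit 0) (nat_lit 4193370196) (nat_lit 1748) (nat_lit 3031577461) (nat_lit 76) (nat_lit 2253417109) (nat_lit 412) (nat_lit 5) (nat_lit 435) (nat_lit 5) (nat_lit 413) (nat_lit 5) (nat_lit 433) (nat_lit 404) (nat_lit 303)))))) (XT.nd (nat_lit 390) (nat_lit 2584) (nat_lit 0) (XT.nd (nat_lit 156) (nat_lit 2052) (nat_lit 0) (XT.nd (nat_lit 78) (nat_lit 0) (nat_lit 0) (XT.lf (nat_lit 0) (nat_lit 2145468944) (nat_lit 1748) (nat_lit 3692568042) (nat_lit 1824) (nat_lit 3729375356) (nat_lit 389) (nat_lit 5) (nat_lit 412) (nat_lit 5) (nat_lit 413) (nat_lit 5) (nat_lit 434) (nat_lit 404) (nat_lit 302)) (XT.lf (nat_lit 0) (nat_lit 7447266856) (nat_lit 1748) (nat_lit 66295000) (nat_lit 1824) (nat_lit 2144729489) (nat_lit 389) (nat_lit 5) (nat_lit 412) (nat_lit 5) (nat_lit 413) (nat_lit 5) (nat_lit 435) (nat_lit 404) (nat_lit 301))) (XT.nd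 (nat_lit 78) (nat_lit 988) (nat_lit 0) (XT.lf (nat_lit 0) (nat_lit 3101243897) (nat_lit 1064) (nat_lit 6143149232) (nat_lit 1140) (nat_lit 506168465) (nat_lit 375) (nat_lit 5) (nat_lit 389) (nat_lit 5) (nat_lit 390) (nat_lit 5) (nat_lit 436) (nat_lit 404) (nat_lit 300)) (XT.nd (nat_lit 78) (nat_lit 912) (nat_lit 0) (XT.lf (nat_lit 0) (nat_lit 1143481523) (nat_lit 1140) (nat_lit 1322879085) (nat_lit 76) (nat_lit 7378302564) (nat_lit 374) (nat_lit 5) (nat_lit 389) (nat_lit 5) (nat_lit 375) (nat_lit 5) (nat_lit 437) (nat_lit 404) (nat_lit 299)) (XT.lf (nat_lit 0) (nat_lit 2833440170) (nat_lit 988) (nat_lit 5807705075) (nat_lit 76) (nat_lit 1299161784) (nat_lit 362) (nat_lit 5) (nat_lit 375) (nat_lit 5) (nat_lit 363) (nat_lit 5) (nat_lit 438) (nat_lit 404) (nat_lit 298))))) (XT.nd (nat_lit 234) (nat_lit 912) (nat_lit 0) (XT.nd (nat_lit 78) (nat_lit 1672) (nat_lit 0) (XT.lf (nat_lit 0) (nat_lit 4561419909) (nat_lit 988) (nat_lit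 358993909) (nat_lit 76) (nat_lit 5117374358) (nat_lit 362) (nat_lit 5) (nat_lit 375) (nat_lit 5) (nat_lit 363) (nat_lit 5) (nat_lit 439) (nat_lit 404) (nat_lit 297)) (XT.nd (nat_lit 78) (nat_lit 836) (nat_lit 0) (XT.lf (nat_lit 0) (nat_lit 5247871219) (nat_lit 836) (nat_lit 1089525781) (nat_lit 912) (nat_lit 3799561868) (nat_lit 351) (nat_lit 5) (nat_lit 362) (nat_lit 5) (nat_lit 363) (nat_lit 5) (nat_lit 440) (nat_lit 404) (nat_lit 296)) (XT.lf (nat_lit 0) (nat_lit 704665909) (nat_lit 836) (nat_lit 7449172500) (nat_lit 912) (nat_lit 2084184176) (nat_lit 340) (nat_lit 5) (nat_lit 351) (nat_lit 5) (nat_lit 352) (nat_lit 5) (nat_lit 441) (nat_lit 404) (nat_lit 295)))) (XT.nd (nat_lit 78) (nat_lit 912) (nat_lit 0) (XT.lf (nat_lit 0) (nat_lit 6449448420) (nat_lit 836) (nat_lit 3577055387) (nat_lit 912) (nat_lit 314214207) (nat_lit 340) (nat_lit 5) (nat_lit 351) (nat_lit 5) (nat_lit 352) (nat_lit 5) (nat_lit 442) (nat_lit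 404) (nat_lit 294)) (XT.nd (nat_lit 78) (nat_lit 0) (nat_lit 0) (XT.lf (nat_lit 0) (nat_lit 1466403697) (nat_lit 912) (nat_lit 8589336792) (nat_lit 76) (nat_lit 389645142) (nat_lit 328) (nat_lit 5) (nat_lit 340) (nat_lit 5) (nat_lit 329) (nat_lit 5) (nat_lit 443) (nat_lit 404) (nat_lit 293)) (XT.lf (nat_lit 0) (nat_lit 3308841000) (nat_lit 912) (nat_lit 2826466870) (nat_lit 76) (nat_lit 4416196763) (nat_lit 328) (nat_lit 5) (nat_lit 340) (nat_lit 5) (nat_lit 329) (nat_lit 5) (nat_lit 444) (nat_lit 404) (nat_lit 292))))))) (XT.nd (nat_lit 858) (nat_lit 4408) (nat_lit 0) (XT.nd (nat_lit 390) (nat_lit 2204) (nat_lit 0) (XT.nd (nat_lit 156) (nat_lit 1596) (nat_lit 0) (XT.nd (nat_lit 78) (nat_lit 0) (nat_lit 0) (XT.lf (nat_lit 0) (nat_lit 3072386313) (nat_lit 836) (nat_lit 2116508244) (nat_lit 912) (nat_lit 5470843812) (nat_lit 317) (nat_lit 5) (nat_lit 328) (nat_lit 5) (nat_lit 329) (nat_lit 5) (nat_lit 445) (nat_lit 404)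 (nat_lit 291)) (XT.lf (nat_lit 0) (nat_lit 7119580765) (nat_lit 912) (nat_lit 1675048929) (nat_lit 76) (nat_lit 1975254009) (nat_lit 317) (nat_lit 5) (nat_lit 329) (nat_lit 5) (nat_lit 318) (nat_lit 5) (nat_lit 446) (nat_lit 404) (nat_lit 290))) (XT.nd (nat_lit 78) (nat_lit 836) (nat_lit 0) (XT.lf (nat_lit 0) (nat_lit 4379486948) (nat_lit 760) (nat_lit 4733282243) (nat_lit 836) (nat_lit 1768992388) (nat_lit 307) (nat_lit 5) (nat_lit 317) (nat_lit 5) (nat_lit 318) (nat_lit 5) (nat_lit 447) (nat_lit 404) (nat_lit 289)) (XT.nd (nat_lit 78) (nat_lit 760) (nat_lit 0) (XT.lf (nat_lit 0) (nat_lit 140840180) (nat_lit 836) (nat_lit 438439857) (nat_lit 76) (nat_lit 10416727377) (nat_lit 306) (nat_lit 5) (nat_lit 317) (nat_lit 5) (nat_lit 307) (nat_lit 5) (nat_lit 448) (nat_lit 404) (nat_lit 288)) (XT.lf (nat_lit 0) (nat_lit 2108786280) (nat_lit 836) (nat_lit 5344248314) (nat_lit 76) (nat_lit 3658404616) (nat_lit 296) (nat_lit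 5) (nat_lit 307) (nat_lit 5) (nat_lit 297) (nat_lit 5) (nat_lit 449) (nat_lit 404) (nat_lit 287))))) (XT.nd (nat_lit 234) (nat_lit 760) (nat_lit 0) (XT.nd (nat_lit 78) (nat_lit 760) (nat_lit 0) (XT.lf (nat_lit 0) (nat_lit 861797897) (nat_lit 684) (nat_lit 3248819292) (nat_lit 760) (nat_lit 7118678777) (nat_lit 287) (nat_lit 5) (nat_lit 296) (nat_lit 5) (nat_lit 297) (nat_lit 5) (nat_lit 450) (nat_lit 404) (nat_lit 286)) (XT.nd (nat_lit 78) (nat_lit 760) (nat_lit 0) (XT.lf (nat_lit 0) (nat_lit 6177681076) (nat_lit 760) (nat_lit 4110998234) (nat_lit 76) (nat_lit 1060333328) (nat_lit 287) (nat_lit 5) (nat_lit 297) (nat_lit 5) (nat_lit 288) (nat_lit 5) (nat_lit 451) (nat_lit 404) (nat_lit 285)) (XT.lf (nat_lit 0) (nat_lit 2259508075) (nat_lit 760) (nat_lit 6045457027) (nat_lit 836) (nat_lit 3165787540) (nat_lit 277) (nat_lit 5) (nat_lit 287) (nat_lit 5) (nat_lit 288) (nat_lit 5) (nat_lit 452) (nat_lit 404) (nat_lit 284))))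 (XT.nd (nat_lit 78) (nat_lit 760) (nat_lit 0) (XT.lf (nat_lit 0) (nat_lit 8794034748) (nat_lit 760) (nat_lit 1691255537) (nat_lit 836) (nat_lit 1109433698) (nat_lit 277) (nat_lit 5) (nat_lit 287) (nat_lit 5) (nat_lit 288) (nat_lit 5) (nat_lit 453) (nat_lit 404) (nat_lit 283)) (XT.nd (nat_lit 78) (nat_lit 0) (nat_lit 0) (XT.lf (nat_lit 0) (nat_lit 1000686479) (nat_lit 760) (nat_lit 7976916450) (nat_lit 76) (nat_lit 2742937765) (nat_lit 267) (nat_lit 5) (nat_lit 277) (nat_lit 5) (nat_lit 268) (nat_lit 5) (nat_lit 454) (nat_lit 404) (nat_lit 282)) (XT.lf (nat_lit 0) (nat_lit 3151607326) (nat_lit 760) (nat_lit 1429553314) (nat_lit 76) (nat_lit 7267303436) (nat_lit 267) (nat_lit 5) (nat_lit 277) (nat_lit 5) (nat_lit 268) (nat_lit 5) (nat_lit 455) (nat_lit 404) (nat_lit 281)))))) (XT.nd (nat_lit 390) (nat_lit 2432) (nat_lit 0) (XT.nd (nat_lit 156) (nat_lit 684) (nat_lit 0) (XT.nd (nat_lit 78) (nat_lit 608) (nat_lit 0) (XT.lf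 (nat_lit 0) (nat_lit 5299464973) (nat_lit 684) (nat_lit 64137067) (nat_lit 760) (nat_lit 6614988733) (nat_lit 258) (nat_lit 5) (nat_lit 267) (nat_lit 5) (nat_lit 268) (nat_lit 5) (nat_lit 456) (nat_lit 404) (nat_lit 280)) (XT.lf (nat_lit 0) (nat_lit 23070422) (nat_lit 608) (nat_lit 7619901098) (nat_lit 684) (nat_lit 4467891627) (nat_lit 250) (nat_lit 5) (nat_lit 258) (nat_lit 5) (nat_lit 259) (nat_lit 5) (nat_lit 457) (nat_lit 404) (nat_lit 279))) (XT.nd (nat_lit 78) (nat_lit 684) (nat_lit 0) (XT.lf (nat_lit 0) (nat_lit 6930557950) (nat_lit 608) (nat_lit 3066638290) (nat_lit 684) (nat_lit 2248005095) (nat_lit 250) (nat_lit 5) (nat_lit 258) (nat_lit 5) (nat_lit 259) (nat_lit 5) (nat_lit 458) (nat_lit 404) (nat_lit 278)) (XT.nd (nat_lit 78) (nat_lit 0) (nat_lit 0) (XT.lf (nat_lit 0) (nat_lit 20951650) (nat_lit 684) (nat_lit 10796540068) (nat_lit 76) (nat_lit 1564640238) (nat_lit 241) (nat_lit 5) (nat_lit 250) (nat_lit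 5) (nat_lit 242) (nat_lit 5) (nat_lit 459) (nat_lit 404) (nat_lit 277)) (XT.lf (nat_lit 0) (nat_lit 2345822506) (nat_lit 684) (nat_lit 3879526475) (nat_lit 76) (nat_lit 6295347702) (nat_lit 241) (nat_lit 5) (nat_lit 250) (nat_lit 5) (nat_lit 242) (nat_lit 5) (nat_lit 460) (nat_lit 404) (nat_lit 276))))) (XT.nd (nat_lit 234) (nat_lit 1216) (nat_lit 0) (XT.nd (nat_lit 78) (nat_lit 608) (nat_lit 0) (XT.lf (nat_lit 0) (nat_lit 3199277344) (nat_lit 608) (nat_lit 1523389699) (nat_lit 684) (nat_lit 7939261425) (nat_lit 233) (nat_lit 5) (nat_lit 241) (nat_lit 5) (nat_lit 242) (nat_lit 5) (nat_lit 461) (nat_lit 404) (nat_lit 275)) (XT.nd (nat_lit 78) (nat_lit 608) (nat_lit 0) (XT.lf (nat_lit 0) (nat_lit 7179366210) (nat_lit 684) (nat_lit 2373312940) (nat_lit 76) (nat_lit 3252664570) (nat_lit 233) (nat_lit 5) (nat_lit 242) (nat_lit 5) (nat_lit 234) (nat_lit 5) (nat_lit 462) (nat_lit 404) (nat_lit 274)) (XT.lf (nat_lit 0) (nat_lit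 4893596267) (nat_lit 608) (nat_lit 4818624746) (nat_lit 684) (nat_lit 3238870914) (nat_lit 225) (nat_lit 5) (nat_lit 233) (nat_lit 5) (nat_lit 234) (nat_lit 5) (nat_lit 463) (nat_lit 404) (nat_lit 273)))) (XT.nd (nat_lit 78) (nat_lit 1216) (nat_lit 0) (XT.lf (nat_lit 0) (nat_lit 12297140749) (nat_lit 684) (nat_lit 780055630) (nat_lit 76) (nat_lit 22535548) (nat_lit 225) (nat_lit 5) (nat_lit 234) (nat_lit 5) (nat_lit 226) (nat_lit 5) (nat_lit 464) (nat_lit 404) (nat_lit 272)) (XT.nd (nat_lit 78) (nat_lit 608) (nat_lit 0) (XT.lf (nat_lit 0) (nat_lit 1721631847) (nat_lit 608) (nat_lit 6580920682) (nat_lit 76) (nat_lit 4947352862) (nat_lit 217) (nat_lit 5) (nat_lit 225) (nat_lit 5) (nat_lit 218) (nat_lit 5) (nat_lit 465) (nat_lit 404) (nat_lit 271)) (XT.lf (nat_lit 0) (nat_lit 862386004) (nat_lit 608) (nat_lit 3419750307) (nat_lit 684) (nat_lit 9120913734) (nat_lit 209) (nat_lit 5) (nat_lit 217) (nat_lit 5) (nat_lit 218)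 (nat_lit 5) (nat_lit 466) (nat_lit 404) (nat_lit 270))))))))
noncomputable def xc159 : XT := (XT.nd (nat_lit 1638) (nat_lit 2964) (nat_lit 0) (XT.nd (nat_lit 780) (nat_lit 2736) (nat_lit 0) (XT.nd (nat_lit 390) (nat_lit 1520) (nat_lit 0) (XT.nd (nat_lit 156) (nat_lit 608) (nat_lit 0) (XT.nd (nat_lit 78) (nat_lit 532) (nat_lit 0) (XT.lf (nat_lit 0) (nat_lit 6934241723) (nat_lit 684) (nat_lit 5043354834) (nat_lit 76) (nat_lit 1580857824) (nat_lit 209) (nat_lit 5) (nat_lit 218) (nat_lit 5) (nat_lit 210) (nat_lit 5) (nat_lit 467) (nat_lit 404) (nat_lit 269)) (XT.lf (nat_lit 0) (nat_lit 2597357430) (nat_lit 532) (nat_lit 7067625091) (nat_lit 608) (nat_lit 4051476931) (nat_lit 202) (nat_lit 5) (nat_lit 209) (nat_lit 5) (nat_lit 210) (nat_lit 5) (nat_lit 468) (nat_lit 404) (nat_lit 268))) (XT.nd (nat_lit 78) (nat_lit 608) (nat_lit 0) (XT.lf (nat_lit 0) (nat_lit 10441405522) (nat_lit 532) (nat_lit 2029015393) (nat_lit 608) (nat_lit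 1406806478) (nat_lit 202) (nat_lit 5) (nat_lit 209) (nat_lit 5) (nat_lit 210) (nat_lit 5) (nat_lit 469) (nat_lit 404) (nat_lit 267)) (XT.nd (nat_lit 78) (nat_lit 0) (nat_lit 0) (XT.lf (nat_lit 0) (nat_lit 1309441711) (nat_lit 608) (nat_lit 9627949077) (nat_lit 76) (nat_lit 3102944296) (nat_lit 194) (nat_lit 5) (nat_lit 202) (nat_lit 5) (nat_lit 195) (nat_lit 5) (nat_lit 470) (nat_lit 404) (nat_lit 266)) (XT.lf (nat_lit 0) (nat_lit 4084382332) (nat_lit 608) (nat_lit 1782825831) (nat_lit 76) (nat_lit 8338850860) (nat_lit 194) (nat_lit 5) (nat_lit 202) (nat_lit 5) (nat_lit 195) (nat_lit 5) (nat_lit 471) (nat_lit 404) (nat_lit 265))))) (XT.nd (nat_lit 156) (nat_lit 1064) (nat_lit 0) (XT.nd (nat_lit 78) (nat_lit 0) (nat_lit 0) (XT.lf (nat_lit 0) (nat_lit 6284159857) (nat_lit 456) (nat_lit 658267692) (nat_lit 532) (nat_lit 7432121867) (nat_lit 188) (nat_lit 5) (nat_lit 194) (nat_lit 5) (nat_lit 195) (nat_lit 5) (nat_lit 472)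 (nat_lit 404) (nat_lit 264)) (XT.lf (nat_lit 0) (nat_lit 9886822081) (nat_lit 532) (nat_lit 57400186) (nat_lit 76) (nat_lit 4601607590) (nat_lit 188) (nat_lit 5) (nat_lit 195) (nat_lit 5) (nat_lit 189) (nat_lit 5) (nat_lit 473) (nat_lit 404) (nat_lit 263))) (XT.nd (nat_lit 78) (nat_lit 532) (nat_lit 0) (XT.lf (nat_lit 0) (nat_lit 8222493615) (nat_lit 532) (nat_lit 4712535665) (nat_lit 608) (nat_lit 1784612062) (nat_lit 181) (nat_lit 5) (nat_lit 188) (nat_lit 5) (nat_lit 189) (nat_lit 5) (nat_lit 474) (nat_lit 404) (nat_lit 262)) (XT.nd (nat_lit 78) (nat_lit 0) (nat_lit 0) (XT.lf (nat_lit 0) (nat_lit 1135487265) (nat_lit 532) (nat_lit 13130637157) (nat_lit 76) (nat_lit 630594186) (nat_lit 174) (nat_lit 5) (nat_lit 181) (nat_lit 5) (nat_lit 175) (nat_lit 5) (nat_lit 475) (nat_lit 404) (nat_lit 261)) (XT.lf (nat_lit 0) (nat_lit 4152553009) (nat_lit 532) (nat_lit 4854544343) (nat_lit 76) (nat_lit 6068758638) (nat_lit 174)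 (nat_lit 5) (nat_lit 181) (nat_lit 5) (nat_lit 175) (nat_lit 5) (nat_lit 476) (nat_lit 404) (nat_lit 260)))))) (XT.nd (nat_lit 390) (nat_lit 1292) (nat_lit 0) (XT.nd (nat_lit 156) (nat_lit 988) (nat_lit 0) (XT.nd (nat_lit 78) (nat_lit 0) (nat_lit 0) (XT.lf (nat_lit 0) (nat_lit 3617446669) (nat_lit 456) (nat_lit 3623589657) (nat_lit 532) (nat_lit 8017321898) (nat_lit 168) (nat_lit 5) (nat_lit 174) (nat_lit 5) (nat_lit 175) (nat_lit 5) (nat_lit 477) (nat_lit 404) (nat_lit 259)) (XT.lf (nat_lit 0) (nat_lit 10423899507) (nat_lit 532) (nat_lit 3148691781) (nat_lit 76) (nat_lit 1871270571) (nat_lit 168) (nat_lit 5) (nat_lit 175) (nat_lit 5) (nat_lit 169) (nat_lit 5) (nat_lit 478) (nat_lit 404) (nat_lit 258))) (XT.nd (nat_lit 78) (nat_lit 532) (nat_lit 0) (XT.lf (nat_lit 0) (nat_lit 5545265421) (nat_lit 456) (nat_lit 8173088971) (nat_lit 532) (nat_lit 1913765975) (nat_lit 162) (nat_lit 5) (nat_lit 168) (nat_lit 5) (nat_lit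 169) (nat_lit 5) (nat_lit 479) (nat_lit 404) (nat_lit 257)) (XT.nd (nat_lit 78) (nat_lit 456) (nat_lit 0) (XT.lf (nat_lit 0) (nat_lit 1247349110) (nat_lit 532) (nat_lit 1393112847) (nat_lit 76) (nat_lit 13183337565) (nat_lit 161) (nat_lit 5) (nat_lit 168) (nat_lit 5) (nat_lit 162) (nat_lit 5) (nat_lit 480) (nat_lit 404) (nat_lit 256)) (XT.lf (nat_lit 0) (nat_lit 4503155671) (nat_lit 532) (nat_lit 8493975862) (nat_lit 76) (nat_lit 3020789125) (nat_lit 155) (nat_lit 5) (nat_lit 162) (nat_lit 5) (nat_lit 156) (nat_lit 5) (nat_lit 481) (nat_lit 404) (nat_lit 255))))) (XT.nd (nat_lit 234) (nat_lit 456) (nat_lit 0) (XT.nd (nat_lit 78) (nat_lit 456) (nat_lit 0) (XT.lf (nat_lit 0) (nat_lit 393447647) (nat_lit 380) (nat_lit 7448390247) (nat_lit 456) (nat_lit 8373734356) (nat_lit 150) (nat_lit 5) (nat_lit 155) (nat_lit 5) (nat_lit 156) (nat_lit 5) (nat_lit 482) (nat_lit 404) (nat_lit 254)) (XT.nd (nat_lit 78) (nat_lit 456) (nat_lit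 0) (XT.lf (nat_lit 0) (nat_lit 9557212843) (nat_lit 380) (nat_lit 1735509876) (nat_lit 456) (nat_lit 5123548737) (nat_lit 150) (nat_lit 5) (nat_lit 155) (nat_lit 5) (nat_lit 156) (nat_lit 5) (nat_lit 483) (nat_lit 404) (nat_lit 253)) (XT.lf (nat_lit 0) (nat_lit 2270056582) (nat_lit 456) (nat_lit 12572498041) (nat_lit 532) (nat_lit 1777834535) (nat_lit 144) (nat_lit 5) (nat_lit 150) (nat_lit 5) (nat_lit 151) (nat_lit 5) (nat_lit 484) (nat_lit 404) (nat_lit 252)))) (XT.nd (nat_lit 78) (nat_lit 380) (nat_lit 0) (XT.lf (nat_lit 0) (nat_lit 1659844181) (nat_lit 532) (nat_lit 5191815010) (nat_lit 76) (nat_lit 9975790898) (nat_lit 143) (nat_lit 5) (nat_lit 150) (nat_lit 5) (nat_lit 144) (nat_lit 5) (nat_lit 485) (nat_lit 404) (nat_lit 251)) (XT.nd (nat_lit 78) (nat_lit 0) (nat_lit 0) (XT.lf (nat_lit 0) (nat_lit 4176736294) (nat_lit 380) (nat_lit 981762319) (nat_lit 456) (nat_lit 11879600971) (nat_lit 138) (nat_lit 5) (nat_lit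 143) (nat_lit 5) (nat_lit 144) (nat_lit 5) (nat_lit 486) (nat_lit 404) (nat_lit 250)) (XT.lf (nat_lit 0) (nat_lit 8783663955) (nat_lit 456) (nat_lit 3498185671) (nat_lit 76) (nat_lit 4969984549) (nat_lit 138) (nat_lit 5) (nat_lit 144) (nat_lit 5) (nat_lit 139) (nat_lit 5) (nat_lit 487) (nat_lit 404) (nat_lit 249))))))) (XT.nd (nat_lit 858) (nat_lit 684) (nat_lit 0) (XT.nd (nat_lit 390) (nat_lit 1064) (nat_lit 0) (XT.nd (nat_lit 156) (nat_lit 836) (nat_lit 0) (XT.nd (nat_lit 78) (nat_lit 0) (nat_lit 0) (XT.lf (nat_lit 0) (nat_lit 6109979918) (nat_lit 380) (nat_lit 6406708822) (nat_lit 456) (nat_lit 4952450403) (nat_lit 133) (nat_lit 5) (nat_lit 138) (nat_lit 5) (nat_lit 139) (nat_lit 5) (nat_lit 488) (nat_lit 404) (nat_lit 248)) (XT.lf (nat_lit 0) (nat_lit 15941924970) (nat_lit 380) (nat_lit 395217545) (nat_lit 456) (nat_lit 1353395075) (nat_lit 133) (nat_lit 5) (nat_lit 138) (nat_lit 5) (nat_lit 139) (nat_lit 5) (nat_lit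 489) (nat_lit 404) (nat_lit 247))) (XT.nd (nat_lit 78) (nat_lit 380) (nat_lit 0) (XT.lf (nat_lit 0) (nat_lit 2367124097) (nat_lit 456) (nat_lit 9822793948) (nat_lit 76) (nat_lit 5724550073) (nat_lit 127) (nat_lit 5) (nat_lit 133) (nat_lit 5) (nat_lit 128) (nat_lit 5) (nat_lit 490) (nat_lit 404) (nat_lit 246)) (XT.nd (nat_lit 78) (nat_lit 380) (nat_lit 0) (XT.lf (nat_lit 0) (nat_lit 6147882815) (nat_lit 456) (nat_lit 17542853) (nat_lit 76) (nat_lit 11977196239) (nat_lit 127) (nat_lit 5) (nat_lit 133) (nat_lit 5) (nat_lit 128) (nat_lit 5) (nat_lit 491) (nat_lit 404) (nat_lit 245)) (XT.lf (nat_lit 0) (nat_lit 10059817535) (nat_lit 456) (nat_lit 8273619542) (nat_lit 76) (nat_lit 40793020) (nat_lit 122) (nat_lit 5) (nat_lit 128) (nat_lit 5) (nat_lit 123) (nat_lit 5) (nat_lit 492) (nat_lit 404) (nat_lit 244))))) (XT.nd (nat_lit 234) (nat_lit 304) (nat_lit 0) (XT.nd (nat_lit 78) (nat_lit 456) (nat_lit 0) (XT.lf (nat_lit 0)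 (nat_lit 1777907344) (nat_lit 304) (nat_lit 12314356085) (nat_lit 380) (nat_lit 4517364066) (nat_lit 118) (nat_lit 5) (nat_lit 122) (nat_lit 5) (nat_lit 123) (nat_lit 5) (nat_lit 493) (nat_lit 404) (nat_lit 243)) (XT.nd (nat_lit 78) (nat_lit 456) (nat_lit 0) (XT.lf (nat_lit 0) (nat_lit 12127242122) (nat_lit 304) (nat_lit 6123517027) (nat_lit 380) (nat_lit 598068116) (nat_lit 118) (nat_lit 5) (nat_lit 122) (nat_lit 5) (nat_lit 123) (nat_lit 5) (nat_lit 494) (nat_lit 404) (nat_lit 242)) (XT.lf (nat_lit 0) (nat_lit 3369924353) (nat_lit 456) (nat_lit 15492915858) (nat_lit 76) (nat_lit 229233774) (nat_lit 112) (nat_lit 5) (nat_lit 118) (nat_lit 5) (nat_lit 113) (nat_lit 5) (nat_lit 495) (nat_lit 404) (nat_lit 241)))) (XT.nd (nat_lit 78) (nat_lit 304) (nat_lit 0) (XT.lf (nat_lit 0) (nat_lit 7485308038) (nat_lit 456) (nat_lit 5181940535) (nat_lit 76) (nat_lit 6671339515) (nat_lit 112) (nat_lit 5) (nat_lit 118) (nat_lit 5) (nat_lit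 113) (nat_lit 5) (nat_lit 496) (nat_lit 404) (nat_lit 240)) (XT.nd (nat_lit 78) (nat_lit 0) (nat_lit 0) (XT.lf (nat_lit 0) (nat_lit 5390983896) (nat_lit 304) (nat_lit 6317286786) (nat_lit 380) (nat_lit 7881258622) (nat_lit 108) (nat_lit 5) (nat_lit 112) (nat_lit 5) (nat_lit 113) (nat_lit 5) (nat_lit 497) (nat_lit 404) (nat_lit 239)) (XT.lf (nat_lit 0) (nat_lit 16042062767) (nat_lit 380) (nat_lit 3615488019) (nat_lit 76) (nat_lit 187413367) (nat_lit 108) (nat_lit 5) (nat_lit 113) (nat_lit 5) (nat_lit 109) (nat_lit 5) (nat_lit 498) (nat_lit 404) (nat_lit 238)))))) (XT.nd (nat_lit 52104) (nat_lit 0) (nat_lit 32376) (XT.nd (nat_lit 156) (nat_lit 304) (nat_lit 0) (XT.nd (nat_lit 78) (nat_lit 0) (nat_lit 0) (XT.lf (nat_lit 0) (nat_lit 432078181) (nat_lit 380) (nat_lit 12889459398) (nat_lit 76) (nat_lit 6782331134) (nat_lit 103) (nat_lit 5) (nat_lit 108) (nat_lit 5) (nat_lit 104) (nat_lit 5) (nat_lit 499) (nat_lit 404) (nat_lit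 237)) (XT.lf (nat_lit 0) (nat_lit 4715852377) (nat_lit 380) (nat_lit 2097670529) (nat_lit 76) (nat_lit 13553627483) (nat_lit 103) (nat_lit 5) (nat_lit 108) (nat_lit 5) (nat_lit 104) (nat_lit 5) (nat_lit 500) (nat_lit 404) (nat_lit 236))) (XT.nd (nat_lit 78) (nat_lit 0) (nat_lit 0) (XT.lf (nat_lit 0) (nat_lit 9013687466) (nat_lit 304) (nat_lit 120868589) (nat_lit 380) (nat_lit 11500158608) (nat_lit 99) (nat_lit 5) (nat_lit 103) (nat_lit 5) (nat_lit 104) (nat_lit 5) (nat_lit 501) (nat_lit 404) (nat_lit 235)) (XT.nd (nat_lit 51792) (nat_lit 0) (nat_lit 33668) (XT.lf (nat_lit 0) (nat_lit 13690126641) (nat_lit 380) (nat_lit 589811580) (nat_lit 76) (nat_lit 6626724149) (nat_lit 99) (nat_lit 5) (nat_lit 104) (nat_lit 5) (nat_lit 100) (nat_lit 5) (nat_lit 502) (nat_lit 404) (nat_lit 234)) (XT.lf (nat_lit 0) (nat_lit 3179140546) (nat_lit 1292) (nat_lit 321716696) (nat_lit 1292) (nat_lit 321716696) (nat_lit 542) (nat_lit 3) (nat_lit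 559) (nat_lit 3) (nat_lit 559) (nat_lit 5) (nat_lit 405) (nat_lit 405) (nat_lit 330))))) (XT.nd (nat_lit 234) (nat_lit 0) (nat_lit 76) (XT.nd (nat_lit 78) (nat_lit 0) (nat_lit 0) (XT.lf (nat_lit 0) (nat_lit 79623024) (nat_lit 1292) (nat_lit 4652069281) (nat_lit 1368) (nat_lit 2962141271) (nat_lit 525) (nat_lit 5) (nat_lit 542) (nat_lit 3) (nat_lit 543) (nat_lit 5) (nat_lit 406) (nat_lit 405) (nat_lit 329)) (XT.nd (nat_lit 78) (nat_lit 0) (nat_lit 76) (XT.lf (nat_lit 0) (nat_lit 1425243428) (nat_lit 1292) (nat_lit 961134512) (nat_lit 1368) (nat_lit 5357582339) (nat_lit 525) (nat_lit 5) (nat_lit 542) (nat_lit 3) (nat_lit 543) (nat_lit 5) (nat_lit 407) (nat_lit 405) (nat_lit 328)) (XT.lf (nat_lit 0) (nat_lit 2781729591) (nat_lit 1292) (nat_lit 4973264614) (nat_lit 1368) (nat_lit 40433946) (nat_lit 526) (nat_lit 5) (nat_lit 543) (nat_lit 5) (nat_lit 544) (nat_lit 5) (nat_lit 408) (nat_lit 405) (nat_lit 327)))) (XT.nd (nat_lit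 78) (nat_lit 0) (nat_lit 0) (XT.lf (nat_lit 0) (nat_lit 4153669583) (nat_lit 1292) (nat_lit 1188370748) (nat_lit 1368) (nat_lit 2506135920) (nat_lit 526) (nat_lit 5) (nat_lit 543) (nat_lit 5) (nat_lit 544) (nat_lit 5) (nat_lit 409) (nat_lit 405) (nat_lit 326)) (XT.nd (nat_lit 78) (nat_lit 0) (nat_lit 0) (XT.lf (nat_lit 76) (nat_lit 2688973839) (nat_lit 0) (nat_lit 2848227104) (nat_lit 1368) (nat_lit 2365112332) (nat_lit 527) (nat_lit 5) (nat_lit 526) (nat_lit 5) (nat_lit 544) (nat_lit 5) (nat_lit 410) (nat_lit 405) (nat_lit 325)) (XT.lf (nat_lit 76) (nat_lit 6641582264) (nat_lit 0) (nat_lit 282022875) (nat_lit 1368) (nat_lit 1034440536) (nat_lit 527) (nat_lit 5) (nat_lit 526) (nat_lit 5) (nat_lit 544) (nat_lit 5) (nat_lit 411) (nat_lit 405) (nat_lit 324))))))))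
noncomputable def xc160 : XT := (XT.nd (nat_lit 1638) (nat_lit 11932) (nat_lit 0) (XT.nd (nat_lit 780) (nat_lit 4408) (nat_lit 0) (XT.nd (nat_lit 390) (nat_lit 1292) (nat_lit 0) (XT.nd (nat_lit 156) (nat_lit 0) (nat_lit 0) (XT.nd (nat_lit 78) (nat_lit 0) (nat_lit 0) (XT.lf (nat_lit 0) (nat_lit 318988203) (nat_lit 1368) (nat_lit 5357718011) (nat_lit 1444) (nat_lit 2338153065) (nat_lit 509) (nat_lit 5) (nat_lit 527) (nat_lit 5) (nat_lit 528) (nat_lit 5) (nat_lit 412) (nat_lit 405) (nat_lit 323)) (XT.lf (nat_lit 0) (nat_lit 1664651846) (nat_lit 1368) (nat_lit 1372441996) (nat_lit 1444) (nat_lit 5036013928) (nat_lit 509) (nat_lit 5) (nat_lit 527) (nat_lit 5) (nat_lit 528) (nat_lit 5) (nat_lit 413) (nat_lit 405) (nat_lit 322))) (XT.nd (nat_lit 78) (nat_lit 0) (nat_lit 76) (XT.lf (nat_lit 76) (nat_lit 2709351833) (nat_lit 0) (nat_lit 314334673) (nat_lit 1444) (nat_lit 5109120979) (nat_lit 510) (nat_lit 5) (nat_lit 509) (nat_lit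 5) (nat_lit 528) (nat_lit 5) (nat_lit 414) (nat_lit 405) (nat_lit 321)) (XT.nd (nat_lit 78) (nat_lit 0) (nat_lit 0) (XT.lf (nat_lit 0) (nat_lit 4404598053) (nat_lit 1368) (nat_lit 1337487646) (nat_lit 1444) (nat_lit 2451736680) (nat_lit 510) (nat_lit 5) (nat_lit 528) (nat_lit 5) (nat_lit 529) (nat_lit 5) (nat_lit 415) (nat_lit 405) (nat_lit 320)) (XT.lf (nat_lit 76) (nat_lit 2846524878) (nat_lit 0) (nat_lit 2957200229) (nat_lit 1444) (nat_lit 2452535329) (nat_lit 511) (nat_lit 5) (nat_lit 510) (nat_lit 5) (nat_lit 529) (nat_lit 5) (nat_lit 416) (nat_lit 405) (nat_lit 319))))) (XT.nd (nat_lit 156) (nat_lit 0) (nat_lit 0) (XT.nd (nat_lit 78) (nat_lit 1368) (nat_lit 0) (XT.lf (nat_lit 76) (nat_lit 7113546321) (nat_lit 0) (nat_lit 96763186) (nat_lit 1444) (nat_lit 1110062771) (nat_lit 511) (nat_lit 5) (nat_lit 510) (nat_lit 5) (nat_lit 529) (nat_lit 5) (nat_lit 417) (nat_lit 405) (nat_lit 318)) (XT.lf (nat_lit 0) (nat_lit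 265386858) (nat_lit 1444) (nat_lit 5304167314) (nat_lit 1520) (nat_lit 2816001919) (nat_lit 492) (nat_lit 5) (nat_lit 511) (nat_lit 5) (nat_lit 512) (nat_lit 5) (nat_lit 418) (nat_lit 405) (nat_lit 317))) (XT.nd (nat_lit 78) (nat_lit 0) (nat_lit 76) (XT.lf (nat_lit 0) (nat_lit 1633675306) (nat_lit 1444) (nat_lit 1007562596) (nat_lit 1520) (nat_lit 5811068741) (nat_lit 492) (nat_lit 5) (nat_lit 511) (nat_lit 5) (nat_lit 512) (nat_lit 5) (nat_lit 419) (nat_lit 405) (nat_lit 316)) (XT.nd (nat_lit 78) (nat_lit 0) (nat_lit 0) (XT.lf (nat_lit 0) (nat_lit 3025805508) (nat_lit 1444) (nat_lit 5122382898) (nat_lit 1520) (nat_lit 372287694) (nat_lit 493) (nat_lit 5) (nat_lit 512) (nat_lit 5) (nat_lit 513) (nat_lit 5) (nat_lit 420) (nat_lit 405) (nat_lit 315)) (XT.lf (nat_lit 0) (nat_lit 4442508370) (nat_lit 1444) (nat_lit 721370065) (nat_lit 1520) (nat_lit 3426209063) (nat_lit 493) (nat_lit 5) (nat_lit 512) (nat_lit 5) (nat_lit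 513) (nat_lit 5) (nat_lit 421) (nat_lit 405) (nat_lit 314)))))) (XT.nd (nat_lit 390) (nat_lit 3040) (nat_lit 0) (XT.nd (nat_lit 156) (nat_lit 1444) (nat_lit 0) (XT.nd (nat_lit 78) (nat_lit 0) (nat_lit 76) (XT.lf (nat_lit 76) (nat_lit 3798381620) (nat_lit 0) (nat_lit 2086798184) (nat_lit 1520) (nat_lit 2775971523) (nat_lit 494) (nat_lit 5) (nat_lit 493) (nat_lit 5) (nat_lit 513) (nat_lit 5) (nat_lit 422) (nat_lit 405) (nat_lit 313)) (XT.lf (nat_lit 0) (nat_lit 7341835958) (nat_lit 1444) (nat_lit 341661035) (nat_lit 1520) (nat_lit 1050449455) (nat_lit 494) (nat_lit 5) (nat_lit 513) (nat_lit 5) (nat_lit 514) (nat_lit 5) (nat_lit 423) (nat_lit 405) (nat_lit 312))) (XT.nd (nat_lit 78) (nat_lit 0) (nat_lit 0) (XT.lf (nat_lit 0) (nat_lit 34908632) (nat_lit 1520) (nat_lit 4514954215) (nat_lit 1596) (nat_lit 4258029538) (nat_lit 474) (nat_lit 5) (nat_lit 494) (nat_lit 5) (nat_lit 495) (nat_lit 5) (nat_lit 424) (nat_lit 405) (nat_lit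 311)) (XT.nd (nat_lit 78) (nat_lit 0) (nat_lit 76) (XT.lf (nat_lit 76) (nat_lit 114443340) (nat_lit 0) (nat_lit 1334608235) (nat_lit 1596) (nat_lit 7434549066) (nat_lit 475) (nat_lit 5) (nat_lit 474) (nat_lit 5) (nat_lit 495) (nat_lit 5) (nat_lit 425) (nat_lit 405) (nat_lit 310)) (XT.lf (nat_lit 0) (nat_lit 2909180741) (nat_lit 1520) (nat_lit 4095261193) (nat_lit 1596) (nat_lit 1956038738) (nat_lit 475) (nat_lit 5) (nat_lit 495) (nat_lit 5) (nat_lit 496) (nat_lit 5) (nat_lit 426) (nat_lit 405) (nat_lit 309))))) (XT.nd (nat_lit 234) (nat_lit 1672) (nat_lit 0) (XT.nd (nat_lit 78) (nat_lit 1444) (nat_lit 0) (XT.lf (nat_lit 76) (nat_lit 652373738) (nat_lit 0) (nat_lit 3734288431) (nat_lit 1596) (nat_lit 4652484592) (nat_lit 476) (nat_lit 5) (nat_lit 475) (nat_lit 5) (nat_lit 496) (nat_lit 5) (nat_lit 427) (nat_lit 405) (nat_lit 308)) (XT.nd (nat_lit 78) (nat_lit 1444) (nat_lit 0) (XT.lf (nat_lit 76) (nat_lit 5531145085)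 (nat_lit 0) (nat_lit 365468290) (nat_lit 1596) (nat_lit 3222725618) (nat_lit 476) (nat_lit 5) (nat_lit 475) (nat_lit 5) (nat_lit 496) (nat_lit 5) (nat_lit 428) (nat_lit 405) (nat_lit 307)) (XT.lf (nat_lit 0) (nat_lit 1283781063) (nat_lit 1520) (nat_lit 6157208595) (nat_lit 1596) (nat_lit 1760071895) (nat_lit 456) (nat_lit 5) (nat_lit 476) (nat_lit 5) (nat_lit 477) (nat_lit 5) (nat_lit 429) (nat_lit 405) (nat_lit 306)))) (XT.nd (nat_lit 78) (nat_lit 1672) (nat_lit 0) (XT.lf (nat_lit 0) (nat_lit 6280034553) (nat_lit 1520) (nat_lit 2739001551) (nat_lit 1596) (nat_lit 265337597) (nat_lit 456) (nat_lit 5) (nat_lit 476) (nat_lit 5) (nat_lit 477) (nat_lit 5) (nat_lit 430) (nat_lit 405) (nat_lit 305)) (XT.nd (nat_lit 78) (nat_lit 0) (nat_lit 0) (XT.lf (nat_lit 0) (nat_lit 1237418652) (nat_lit 1672) (nat_lit 7368726693) (nat_lit 76) (nat_lit 763160731) (nat_lit 434) (nat_lit 5) (nat_lit 456) (nat_lit 5) (nat_lit 435) (nat_lit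 5) (nat_lit 431) (nat_lit 405) (nat_lit 304)) (XT.lf (nat_lit 0) (nat_lit 2782073491) (nat_lit 1672) (nat_lit 2348902102) (nat_lit 76) (nat_lit 4324628670) (nat_lit 434) (nat_lit 5) (nat_lit 456) (nat_lit 5) (nat_lit 435) (nat_lit 5) (nat_lit 432) (nat_lit 405) (nat_lit 303))))))) (XT.nd (nat_lit 780) (nat_lit 4788) (nat_lit 0) (XT.nd (nat_lit 390) (nat_lit 2584) (nat_lit 0) (XT.nd (nat_lit 156) (nat_lit 2888) (nat_lit 0) (XT.nd (nat_lit 78) (nat_lit 0) (nat_lit 0) (XT.lf (nat_lit 0) (nat_lit 2788618378) (nat_lit 1672) (nat_lit 1564520096) (nat_lit 1748) (nat_lit 5190589566) (nat_lit 412) (nat_lit 5) (nat_lit 434) (nat_lit 5) (nat_lit 435) (nat_lit 5) (nat_lit 433) (nat_lit 405) (nat_lit 302)) (XT.lf (nat_lit 0) (nat_lit 5962702881) (nat_lit 1748) (nat_lit 1605757664) (nat_lit 76) (nat_lit 2065021955) (nat_lit 412) (nat_lit 5) (nat_lit 435) (nat_lit 5) (nat_lit 413) (nat_lit 5) (nat_lit 434) (nat_lit 405) (nat_lit 301)))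 (XT.nd (nat_lit 78) (nat_lit 1140) (nat_lit 0) (XT.lf (nat_lit 0) (nat_lit 3665050383) (nat_lit 1748) (nat_lit 3951751819) (nat_lit 1824) (nat_lit 2107992557) (nat_lit 389) (nat_lit 5) (nat_lit 412) (nat_lit 5) (nat_lit 413) (nat_lit 5) (nat_lit 435) (nat_lit 405) (nat_lit 300)) (XT.nd (nat_lit 78) (nat_lit 1140) (nat_lit 0) (XT.lf (nat_lit 0) (nat_lit 9043929900) (nat_lit 1748) (nat_lit 249319348) (nat_lit 1824) (nat_lit 524908092) (nat_lit 389) (nat_lit 5) (nat_lit 412) (nat_lit 5) (nat_lit 413) (nat_lit 5) (nat_lit 436) (nat_lit 405) (nat_lit 299)) (XT.lf (nat_lit 0) (nat_lit 1107673076) (nat_lit 1140) (nat_lit 5284330460) (nat_lit 76) (nat_lit 3520608577) (nat_lit 374) (nat_lit 5) (nat_lit 389) (nat_lit 5) (nat_lit 375) (nat_lit 5) (nat_lit 437) (nat_lit 405) (nat_lit 298))))) (XT.nd (nat_lit 156) (nat_lit 1672) (nat_lit 0) (XT.nd (nat_lit 78) (nat_lit 0) (nat_lit 0) (XT.lf (nat_lit 0) (nat_lit 117519804) (nat_lit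 912) (nat_lit 2635078337) (nat_lit 988) (nat_lit 7256562884) (nat_lit 362) (nat_lit 5) (nat_lit 374) (nat_lit 5) (nat_lit 375) (nat_lit 5) (nat_lit 438) (nat_lit 405) (nat_lit 297)) (XT.lf (nat_lit 0) (nat_lit 4453253905) (nat_lit 988) (nat_lit 4435547634) (nat_lit 76) (nat_lit 1218391408) (nat_lit 362) (nat_lit 5) (nat_lit 375) (nat_lit 5) (nat_lit 363) (nat_lit 5) (nat_lit 439) (nat_lit 405) (nat_lit 296))) (XT.nd (nat_lit 78) (nat_lit 836) (nat_lit 0) (XT.lf (nat_lit 0) (nat_lit 1107479974) (nat_lit 836) (nat_lit 5084853857) (nat_lit 912) (nat_lit 4014771961) (nat_lit 351) (nat_lit 5) (nat_lit 362) (nat_lit 5) (nat_lit 363) (nat_lit 5) (nat_lit 440) (nat_lit 405) (nat_lit 295)) (XT.nd (nat_lit 78) (nat_lit 836) (nat_lit 0) (XT.lf (nat_lit 0) (nat_lit 6802358074) (nat_lit 836) (nat_lit 1173644281) (nat_lit 912) (nat_lit 2332826742) (nat_lit 351) (nat_lit 5) (nat_lit 362) (nat_lit 5) (nat_lit 363) (nat_lit 5) (nat_lit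 441) (nat_lit 405) (nat_lit 294)) (XT.lf (nat_lit 0) (nat_lit 2189820155) (nat_lit 836) (nat_lit 7618462537) (nat_lit 912) (nat_lit 604053582) (nat_lit 340) (nat_lit 5) (nat_lit 351) (nat_lit 5) (nat_lit 352) (nat_lit 5) (nat_lit 442) (nat_lit 405) (nat_lit 293)))))) (XT.nd (nat_lit 390) (nat_lit 3040) (nat_lit 0) (XT.nd (nat_lit 156) (nat_lit 836) (nat_lit 0) (XT.nd (nat_lit 78) (nat_lit 836) (nat_lit 0) (XT.lf (nat_lit 0) (nat_lit 1156112167) (nat_lit 912) (nat_lit 2504634625) (nat_lit 76) (nat_lit 6856783696) (nat_lit 339) (nat_lit 5) (nat_lit 351) (nat_lit 5) (nat_lit 340) (nat_lit 5) (nat_lit 443) (nat_lit 405) (nat_lit 292)) (XT.lf (nat_lit 0) (nat_lit 2948699211) (nat_lit 912) (nat_lit 7278720545) (nat_lit 76) (nat_lit 397230552) (nat_lit 328) (nat_lit 5) (nat_lit 340) (nat_lit 5) (nat_lit 329) (nat_lit 5) (nat_lit 444) (nat_lit 405) (nat_lit 291))) (XT.nd (nat_lit 78) (nat_lit 836) (nat_lit 0) (XT.lf (nat_lit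 0) (nat_lit 4799495703) (nat_lit 912) (nat_lit 1429659950) (nat_lit 76) (nat_lit 4504317274) (nat_lit 328) (nat_lit 5) (nat_lit 340) (nat_lit 5) (nat_lit 329) (nat_lit 5) (nat_lit 445) (nat_lit 405) (nat_lit 290)) (XT.nd (nat_lit 78) (nat_lit 0) (nat_lit 0) (XT.lf (nat_lit 0) (nat_lit 4577608874) (nat_lit 836) (nat_lit 2120984462) (nat_lit 912) (nat_lit 4145660363) (nat_lit 317) (nat_lit 5) (nat_lit 328) (nat_lit 5) (nat_lit 329) (nat_lit 5) (nat_lit 446) (nat_lit 405) (nat_lit 289)) (XT.lf (nat_lit 0) (nat_lit 8640567145) (nat_lit 912) (nat_lit 265208241) (nat_lit 76) (nat_lit 2051384075) (nat_lit 317) (nat_lit 5) (nat_lit 329) (nat_lit 5) (nat_lit 318) (nat_lit 5) (nat_lit 447) (nat_lit 405) (nat_lit 288))))) (XT.nd (nat_lit 234) (nat_lit 1444) (nat_lit 0) (XT.nd (nat_lit 78) (nat_lit 836) (nat_lit 0) (XT.lf (nat_lit 0) (nat_lit 5900922684) (nat_lit 760) (nat_lit 4754974865) (nat_lit 836) (nat_lit 415742567) (nat_lit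 307) (nat_lit 5) (nat_lit 317) (nat_lit 5) (nat_lit 318) (nat_lit 5) (nat_lit 448) (nat_lit 405) (nat_lit 287)) (XT.nd (nat_lit 78) (nat_lit 0) (nat_lit 0) (XT.lf (nat_lit 0) (nat_lit 989878473) (nat_lit 760) (nat_lit 503752068) (nat_lit 836) (nat_lit 9694779255) (nat_lit 296) (nat_lit 5) (nat_lit 306) (nat_lit 5) (nat_lit 307) (nat_lit 5) (nat_lit 449) (nat_lit 405) (nat_lit 286)) (XT.lf (nat_lit 0) (nat_lit 3477923577) (nat_lit 836) (nat_lit 4009935415) (nat_lit 76) (nat_lit 3818761637) (nat_lit 296) (nat_lit 5) (nat_lit 307) (nat_lit 5) (nat_lit 297) (nat_lit 5) (nat_lit 450) (nat_lit 405) (nat_lit 285)))) (XT.nd (nat_lit 78) (nat_lit 760) (nat_lit 0) (XT.lf (nat_lit 0) (nat_lit 2310750155) (nat_lit 684) (nat_lit 3192317747) (nat_lit 760) (nat_lit 5924111046) (nat_lit 287) (nat_lit 5) (nat_lit 296) (nat_lit 5) (nat_lit 297) (nat_lit 5) (nat_lit 451) (nat_lit 405) (nat_lit 284)) (XT.nd (nat_lit 78) (nat_lit 760) (nat_lit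 0) (XT.lf (nat_lit 0) (nat_lit 7586555368) (nat_lit 760) (nat_lit 2764168666) (nat_lit 76) (nat_lit 1199074040) (nat_lit 287) (nat_lit 5) (nat_lit 297) (nat_lit 5) (nat_lit 288) (nat_lit 5) (nat_lit 452) (nat_lit 405) (nat_lit 283)) (XT.lf (nat_lit 0) (nat_lit 3724346127) (nat_lit 760) (nat_lit 6016053878) (nat_lit 836) (nat_lit 1933902152) (nat_lit 277) (nat_lit 5) (nat_lit 287) (nat_lit 5) (nat_lit 288) (nat_lit 5) (nat_lit 453) (nat_lit 405) (nat_lit 282))))))))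
noncomputable def xc161 : XT := (XT.nd (nat_lit 1638) (nat_lit 5244) (nat_lit 0) (XT.nd (nat_lit 780) (nat_lit 3952) (nat_lit 0) (XT.nd (nat_lit 390) (nat_lit 1292) (nat_lit 0) (XT.nd (nat_lit 156) (nat_lit 1292) (nat_lit 0) (XT.nd (nat_lit 78) (nat_lit 684) (nat_lit 0) (XT.lf (nat_lit 0) (nat_lit 136370374) (nat_lit 836) (nat_lit 1440430167) (nat_lit 76) (nat_lit 10224441608) (nat_lit 276) (nat_lit 5) (nat_lit 287) (nat_lit 5) (nat_lit 277) (nat_lit 5) (nat_lit 454) (nat_lit 405) (nat_lit 281)) (XT.lf (nat_lit 0) (nat_lit 2259419169) (nat_lit 760) (nat_lit 6712645604) (nat_lit 76) (nat_lit 2957661148) (nat_lit 267) (nat_lit 5) (nat_lit 277) (nat_lit 5) (nat_lit 268) (nat_lit 5) (nat_lit 455) (nat_lit 405) (nat_lit 280))) (XT.nd (nat_lit 78) (nat_lit 1292) (nat_lit 0) (XT.lf (nat_lit 0) (nat_lit 4429069826) (nat_lit 760) (nat_lit 62253033) (nat_lit 76) (nat_lit 7569379531) (nat_lit 267) (nat_lit 5) (nat_lit 277) (nat_lit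 5) (nat_lit 268) (nat_lit 5) (nat_lit 456) (nat_lit 405) (nat_lit 279)) (XT.nd (nat_lit 78) (nat_lit 608) (nat_lit 0) (XT.lf (nat_lit 0) (nat_lit 6671285442) (nat_lit 760) (nat_lit 5402364290) (nat_lit 76) (nat_lit 120070942) (nat_lit 258) (nat_lit 5) (nat_lit 268) (nat_lit 5) (nat_lit 259) (nat_lit 5) (nat_lit 457) (nat_lit 405) (nat_lit 278)) (XT.lf (nat_lit 0) (nat_lit 1424175323) (nat_lit 608) (nat_lit 7558039836) (nat_lit 684) (nat_lit 3346712382) (nat_lit 250) (nat_lit 5) (nat_lit 258) (nat_lit 5) (nat_lit 259) (nat_lit 5) (nat_lit 458) (nat_lit 405) (nat_lit 277))))) (XT.nd (nat_lit 156) (nat_lit 608) (nat_lit 0) (XT.nd (nat_lit 78) (nat_lit 684) (nat_lit 0) (XT.lf (nat_lit 0) (nat_lit 8442349005) (nat_lit 608) (nat_lit 2917912934) (nat_lit 684) (nat_lit 1106164140) (nat_lit 250) (nat_lit 5) (nat_lit 258) (nat_lit 5) (nat_lit 259) (nat_lit 5) (nat_lit 459) (nat_lit 405) (nat_lit 276)) (XT.lf (nat_lit 0) (nat_lit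 1180047651) (nat_lit 684) (nat_lit 9610357552) (nat_lit 76) (nat_lit 1815795193) (nat_lit 241) (nat_lit 5) (nat_lit 250) (nat_lit 5) (nat_lit 242) (nat_lit 5) (nat_lit 460) (nat_lit 405) (nat_lit 275))) (XT.nd (nat_lit 78) (nat_lit 608) (nat_lit 0) (XT.lf (nat_lit 0) (nat_lit 3528696767) (nat_lit 684) (nat_lit 2582496106) (nat_lit 76) (nat_lit 6636805784) (nat_lit 241) (nat_lit 5) (nat_lit 250) (nat_lit 5) (nat_lit 242) (nat_lit 5) (nat_lit 461) (nat_lit 405) (nat_lit 274)) (XT.nd (nat_lit 78) (nat_lit 0) (nat_lit 0) (XT.lf (nat_lit 0) (nat_lit 4628840231) (nat_lit 608) (nat_lit 1310830515) (nat_lit 684) (nat_lit 6952660182) (nat_lit 233) (nat_lit 5) (nat_lit 241) (nat_lit 5) (nat_lit 242) (nat_lit 5) (nat_lit 462) (nat_lit 405) (nat_lit 273)) (XT.lf (nat_lit 0) (nat_lit 8425040058) (nat_lit 684) (nat_lit 1061136496) (nat_lit 76) (nat_lit 3552854759) (nat_lit 233) (nat_lit 5) (nat_lit 242) (nat_lit 5) (nat_lit 234) (nat_lit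 5) (nat_lit 463) (nat_lit 405) (nat_lit 272)))))) (XT.nd (nat_lit 390) (nat_lit 2128) (nat_lit 0) (XT.nd (nat_lit 156) (nat_lit 608) (nat_lit 0) (XT.nd (nat_lit 78) (nat_lit 608) (nat_lit 0) (XT.lf (nat_lit 0) (nat_lit 6342165877) (nat_lit 608) (nat_lit 4653546166) (nat_lit 684) (nat_lit 2192246643) (nat_lit 225) (nat_lit 5) (nat_lit 233) (nat_lit 5) (nat_lit 234) (nat_lit 5) (nat_lit 464) (nat_lit 405) (nat_lit 271)) (XT.lf (nat_lit 0) (nat_lit 272721173) (nat_lit 608) (nat_lit 12785790756) (nat_lit 76) (nat_lit 281352614) (nat_lit 217) (nat_lit 5) (nat_lit 225) (nat_lit 5) (nat_lit 218) (nat_lit 5) (nat_lit 465) (nat_lit 405) (nat_lit 270))) (XT.nd (nat_lit 78) (nat_lit 608) (nat_lit 0) (XT.lf (nat_lit 0) (nat_lit 2820669165) (nat_lit 608) (nat_lit 5362616288) (nat_lit 76) (nat_lit 5309977154) (nat_lit 217) (nat_lit 5) (nat_lit 225) (nat_lit 5) (nat_lit 218) (nat_lit 5) (nat_lit 466) (nat_lit 405) (nat_lit 269)) (XT.nd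 (nat_lit 78) (nat_lit 0) (nat_lit 0) (XT.lf (nat_lit 0) (nat_lit 2220675461) (nat_lit 608) (nat_lit 3199540589) (nat_lit 684) (nat_lit 8229504297) (nat_lit 209) (nat_lit 5) (nat_lit 217) (nat_lit 5) (nat_lit 218) (nat_lit 5) (nat_lit 467) (nat_lit 405) (nat_lit 268)) (XT.lf (nat_lit 0) (nat_lit 8106564622) (nat_lit 684) (nat_lit 3810340928) (nat_lit 76) (nat_lit 1891709904) (nat_lit 209) (nat_lit 5) (nat_lit 218) (nat_lit 5) (nat_lit 210) (nat_lit 5) (nat_lit 468) (nat_lit 405) (nat_lit 267))))) (XT.nd (nat_lit 234) (nat_lit 988) (nat_lit 0) (XT.nd (nat_lit 78) (nat_lit 608) (nat_lit 0) (XT.lf (nat_lit 0) (nat_lit 3974410049) (nat_lit 532) (nat_lit 6905846238) (nat_lit 608) (nat_lit 3089764192) (nat_lit 202) (nat_lit 5) (nat_lit 209) (nat_lit 5) (nat_lit 210) (nat_lit 5) (nat_lit 469) (nat_lit 405) (nat_lit 266)) (XT.nd (nat_lit 78) (nat_lit 608) (nat_lit 0) (XT.lf (nat_lit 0) (nat_lit 11949356642) (nat_lit 532) (nat_lit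 1772408098) (nat_lit 608) (nat_lit 412646257) (nat_lit 202) (nat_lit 5) (nat_lit 209) (nat_lit 5) (nat_lit 210) (nat_lit 5) (nat_lit 470) (nat_lit 405) (nat_lit 265)) (XT.lf (nat_lit 0) (nat_lit 2335195833) (nat_lit 608) (nat_lit 8498028345) (nat_lit 76) (nat_lit 3467616578) (nat_lit 194) (nat_lit 5) (nat_lit 202) (nat_lit 5) (nat_lit 195) (nat_lit 5) (nat_lit 471) (nat_lit 405) (nat_lit 264)))) (XT.nd (nat_lit 78) (nat_lit 988) (nat_lit 0) (XT.lf (nat_lit 0) (nat_lit 5146035947) (nat_lit 608) (nat_lit 521933610) (nat_lit 76) (nat_lit 8802307678) (nat_lit 194) (nat_lit 5) (nat_lit 202) (nat_lit 5) (nat_lit 195) (nat_lit 5) (nat_lit 472) (nat_lit 405) (nat_lit 263)) (XT.nd (nat_lit 78) (nat_lit 532) (nat_lit 0) (XT.lf (nat_lit 0) (nat_lit 7697861867) (nat_lit 456) (nat_lit 352527855) (nat_lit 532) (nat_lit 6591970714) (nat_lit 188) (nat_lit 5) (nat_lit 194) (nat_lit 5) (nat_lit 195) (nat_lit 5) (nat_lit 473) (nat_lit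 405) (nat_lit 262)) (XT.lf (nat_lit 0) (nat_lit 1237712312) (nat_lit 532) (nat_lit 9807023599) (nat_lit 608) (nat_lit 3772515137) (nat_lit 181) (nat_lit 5) (nat_lit 188) (nat_lit 5) (nat_lit 189) (nat_lit 5) (nat_lit 474) (nat_lit 405) (nat_lit 261))))))) (XT.nd (nat_lit 858) (nat_lit 2432) (nat_lit 0) (XT.nd (nat_lit 390) (nat_lit 1824) (nat_lit 0) (XT.nd (nat_lit 156) (nat_lit 456) (nat_lit 0) (XT.nd (nat_lit 78) (nat_lit 532) (nat_lit 0) (XT.lf (nat_lit 0) (nat_lit 9658549936) (nat_lit 532) (nat_lit 4476907943) (nat_lit 608) (nat_lit 859455593) (nat_lit 181) (nat_lit 5) (nat_lit 188) (nat_lit 5) (nat_lit 189) (nat_lit 5) (nat_lit 475) (nat_lit 405) (nat_lit 260)) (XT.lf (nat_lit 0) (nat_lit 2098330989) (nat_lit 532) (nat_lit 12100373169) (nat_lit 76) (nat_lit 976871117) (nat_lit 174) (nat_lit 5) (nat_lit 181) (nat_lit 5) (nat_lit 175) (nat_lit 5) (nat_lit 476) (nat_lit 405) (nat_lit 259))) (XT.nd (nat_lit 78) (nat_lit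 456) (nat_lit 0) (XT.lf (nat_lit 0) (nat_lit 5157304048) (nat_lit 532) (nat_lit 3684109022) (nat_lit 76) (nat_lit 6517256407) (nat_lit 174) (nat_lit 5) (nat_lit 181) (nat_lit 5) (nat_lit 175) (nat_lit 5) (nat_lit 477) (nat_lit 405) (nat_lit 258)) (XT.nd (nat_lit 78) (nat_lit 0) (nat_lit 0) (XT.lf (nat_lit 0) (nat_lit 4948982821) (nat_lit 456) (nat_lit 3348677140) (nat_lit 532) (nat_lit 7247365024) (nat_lit 168) (nat_lit 5) (nat_lit 174) (nat_lit 5) (nat_lit 175) (nat_lit 5) (nat_lit 478) (nat_lit 405) (nat_lit 257)) (XT.lf (nat_lit 0) (nat_lit 11528513143) (nat_lit 532) (nat_lit 1961241917) (nat_lit 76) (nat_lit 2244802161) (nat_lit 168) (nat_lit 5) (nat_lit 175) (nat_lit 5) (nat_lit 169) (nat_lit 5) (nat_lit 479) (nat_lit 405) (nat_lit 256))))) (XT.nd (nat_lit 234) (nat_lit 836) (nat_lit 0) (XT.nd (nat_lit 78) (nat_lit 532) (nat_lit 0) (XT.lf (nat_lit 0) (nat_lit 6898367957) (nat_lit 456) (nat_lit 7980983049) (nat_lit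 532) (nat_lit 1047425097) (nat_lit 162) (nat_lit 5) (nat_lit 168) (nat_lit 5) (nat_lit 169) (nat_lit 5) (nat_lit 480) (nat_lit 405) (nat_lit 255)) (XT.nd (nat_lit 78) (nat_lit 456) (nat_lit 0) (XT.lf (nat_lit 0) (nat_lit 2147543145) (nat_lit 532) (nat_lit 191258897) (nat_lit 76) (nat_lit 13783724315) (nat_lit 161) (nat_lit 5) (nat_lit 168) (nat_lit 5) (nat_lit 162) (nat_lit 5) (nat_lit 481) (nat_lit 405) (nat_lit 254)) (XT.lf (nat_lit 0) (nat_lit 5461544586) (nat_lit 532) (nat_lit 7426978496) (nat_lit 76) (nat_lit 3432150047) (nat_lit 155) (nat_lit 5) (nat_lit 162) (nat_lit 5) (nat_lit 156) (nat_lit 5) (nat_lit 482) (nat_lit 405) (nat_lit 253)))) (XT.nd (nat_lit 78) (nat_lit 456) (nat_lit 0) (XT.lf (nat_lit 0) (nat_lit 1630056136) (nat_lit 380) (nat_lit 7227896114) (nat_lit 456) (nat_lit 7664511162) (nat_lit 150) (nat_lit 5) (nat_lit 155) (nat_lit 5) (nat_lit 156) (nat_lit 5) (nat_lit 483) (nat_lit 405) (nat_lit 252))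 (XT.nd (nat_lit 78) (nat_lit 456) (nat_lit 0) (XT.lf (nat_lit 0) (nat_lit 10953003704) (nat_lit 380) (nat_lit 1408002487) (nat_lit 456) (nat_lit 4366511986) (nat_lit 150) (nat_lit 5) (nat_lit 155) (nat_lit 5) (nat_lit 156) (nat_lit 5) (nat_lit 484) (nat_lit 405) (nat_lit 251)) (XT.lf (nat_lit 0) (nat_lit 3526809075) (nat_lit 456) (nat_lit 12448677982) (nat_lit 532) (nat_lit 960362640) (nat_lit 144) (nat_lit 5) (nat_lit 150) (nat_lit 5) (nat_lit 151) (nat_lit 5) (nat_lit 485) (nat_lit 405) (nat_lit 250)))))) (XT.nd (nat_lit 390) (nat_lit 1596) (nat_lit 0) (XT.nd (nat_lit 156) (nat_lit 380) (nat_lit 0) (XT.nd (nat_lit 78) (nat_lit 380) (nat_lit 0) (XT.lf (nat_lit 0) (nat_lit 2518375341) (nat_lit 532) (nat_lit 4096866823) (nat_lit 76) (nat_lit 10532033387) (nat_lit 143) (nat_lit 5) (nat_lit 150) (nat_lit 5) (nat_lit 144) (nat_lit 5) (nat_lit 486) (nat_lit 405) (nat_lit 249)) (XT.lf (nat_lit 0) (nat_lit 5451168767) (nat_lit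 380) (nat_lit 627383167) (nat_lit 456) (nat_lit 11283759371) (nat_lit 138) (nat_lit 5) (nat_lit 143) (nat_lit 5) (nat_lit 144) (nat_lit 5) (nat_lit 487) (nat_lit 405) (nat_lit 248))) (XT.nd (nat_lit 78) (nat_lit 380) (nat_lit 0) (XT.lf (nat_lit 0) (nat_lit 9762583998) (nat_lit 456) (nat_lit 2386757553) (nat_lit 76) (nat_lit 5431255939) (nat_lit 138) (nat_lit 5) (nat_lit 144) (nat_lit 5) (nat_lit 139) (nat_lit 5) (nat_lit 488) (nat_lit 405) (nat_lit 247)) (XT.nd (nat_lit 78) (nat_lit 0) (nat_lit 0) (XT.lf (nat_lit 0) (nat_lit 7405799033) (nat_lit 380) (nat_lit 6156340224) (nat_lit 456) (nat_lit 4240275985) (nat_lit 133) (nat_lit 5) (nat_lit 138) (nat_lit 5) (nat_lit 139) (nat_lit 5) (nat_lit 489) (nat_lit 405) (nat_lit 246)) (XT.lf (nat_lit 0) (nat_lit 17411370839) (nat_lit 380) (nat_lit 32040745) (nat_lit 456) (nat_lit 585145892) (nat_lit 133) (nat_lit 5) (nat_lit 138) (nat_lit 5) (nat_lit 139) (nat_lit 5) (nat_lit 490)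 (nat_lit 405) (nat_lit 245))))) (XT.nd (nat_lit 234) (nat_lit 760) (nat_lit 0) (XT.nd (nat_lit 78) (nat_lit 380) (nat_lit 0) (XT.lf (nat_lit 0) (nat_lit 3193898102) (nat_lit 456) (nat_lit 8852367922) (nat_lit 76) (nat_lit 6210710263) (nat_lit 127) (nat_lit 5) (nat_lit 133) (nat_lit 5) (nat_lit 128) (nat_lit 5) (nat_lit 491) (nat_lit 405) (nat_lit 244)) (XT.nd (nat_lit 78) (nat_lit 0) (nat_lit 0) (XT.lf (nat_lit 0) (nat_lit 1141073541) (nat_lit 380) (nat_lit 5901324089) (nat_lit 456) (nat_lit 11447456786) (nat_lit 122) (nat_lit 5) (nat_lit 127) (nat_lit 5) (nat_lit 128) (nat_lit 5) (nat_lit 492) (nat_lit 405) (nat_lit 243)) (XT.lf (nat_lit 0) (nat_lit 11020024654) (nat_lit 456) (nat_lit 7289767198) (nat_lit 76) (nat_lit 416557548) (nat_lit 122) (nat_lit 5) (nat_lit 128) (nat_lit 5) (nat_lit 123) (nat_lit 5) (nat_lit 493) (nat_lit 405) (nat_lit 242)))) (XT.nd (nat_lit 78) (nat_lit 456) (nat_lit 0) (XT.lf (nat_lit 0) (nat_lit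 2955228879) (nat_lit 304) (nat_lit 12170421107) (nat_lit 380) (nat_lit 3840957777) (nat_lit 118) (nat_lit 5) (nat_lit 122) (nat_lit 5) (nat_lit 123) (nat_lit 5) (nat_lit 494) (nat_lit 405) (nat_lit 241)) (XT.nd (nat_lit 78) (nat_lit 380) (nat_lit 0) (XT.lf (nat_lit 0) (nat_lit 139831421) (nat_lit 380) (nat_lit 5722646919) (nat_lit 76) (nat_lit 13348393072) (nat_lit 117) (nat_lit 5) (nat_lit 122) (nat_lit 5) (nat_lit 118) (nat_lit 5) (nat_lit 495) (nat_lit 405) (nat_lit 240)) (XT.lf (nat_lit 0) (nat_lit 4174436576) (nat_lit 456) (nat_lit 14668447456) (nat_lit 76) (nat_lit 616118170) (nat_lit 112) (nat_lit 5) (nat_lit 118) (nat_lit 5) (nat_lit 113) (nat_lit 5) (nat_lit 496) (nat_lit 405) (nat_lit 239))))))))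
noncomputable def xc162 : XT := (XT.nd (nat_lit 53430) (nat_lit 0) (nat_lit 19152) (XT.nd (nat_lit 52572) (nat_lit 0) (nat_lit 29792) (XT.nd (nat_lit 390) (nat_lit 304) (nat_lit 0) (XT.nd (nat_lit 156) (nat_lit 380) (nat_lit 0) (XT.nd (nat_lit 78) (nat_lit 304) (nat_lit 0) (XT.lf (nat_lit 0) (nat_lit 8357674723) (nat_lit 456) (nat_lit 4173494326) (nat_lit 76) (nat_lit 7179569953) (nat_lit 112) (nat_lit 5) (nat_lit 118) (nat_lit 5) (nat_lit 113) (nat_lit 5) (nat_lit 497) (nat_lit 405) (nat_lit 238)) (XT.lf (nat_lit 0) (nat_lit 6603572244) (nat_lit 304) (nat_lit 6054527453) (nat_lit 380) (nat_lit 7308742571) (nat_lit 108) (nat_lit 5) (nat_lit 112) (nat_lit 5) (nat_lit 113) (nat_lit 5) (nat_lit 498) (nat_lit 405) (nat_lit 237))) (XT.nd (nat_lit 78) (nat_lit 380) (nat_lit 0) (XT.lf (nat_lit 0) (nat_lit 17067011797) (nat_lit 380) (nat_lit 2592974285) (nat_lit 76) (nat_lit 567634072) (nat_lit 108) (nat_lit 5) (nat_lit 113)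 (nat_lit 5) (nat_lit 109) (nat_lit 5) (nat_lit 499) (nat_lit 405) (nat_lit 236)) (XT.nd (nat_lit 78) (nat_lit 0) (nat_lit 0) (XT.lf (nat_lit 0) (nat_lit 1142857235) (nat_lit 380) (nat_lit 12050141970) (nat_lit 76) (nat_lit 7298749262) (nat_lit 103) (nat_lit 5) (nat_lit 108) (nat_lit 5) (nat_lit 104) (nat_lit 5) (nat_lit 500) (nat_lit 405) (nat_lit 235)) (XT.lf (nat_lit 0) (nat_lit 5498539513) (nat_lit 380) (nat_lit 1064029219) (nat_lit 76) (nat_lit 14198005430) (nat_lit 103) (nat_lit 5) (nat_lit 108) (nat_lit 5) (nat_lit 104) (nat_lit 5) (nat_lit 501) (nat_lit 405) (nat_lit 234))))) (XT.nd (nat_lit 51948) (nat_lit 0) (nat_lit 32376) (XT.nd (nat_lit 51870) (nat_lit 0) (nat_lit 32376) (XT.lf (nat_lit 0) (nat_lit 10000767656) (nat_lit 380) (nat_lit 10772854555) (nat_lit 76) (nat_lit 259967481) (nat_lit 99) (nat_lit 5) (nat_lit 104) (nat_lit 5) (nat_lit 100) (nat_lit 5) (nat_lit 502) (nat_lit 405) (nat_lit 233)) (XT.lf (nat_lit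 0) (nat_lit 345280933) (nat_lit 0) (nat_lit 345280933) (nat_lit 1292) (nat_lit 3181099802) (nat_lit 525) (nat_lit 5) (nat_lit 525) (nat_lit 3) (nat_lit 542) (nat_lit 3) (nat_lit 406) (nat_lit 406) (nat_lit 328))) (XT.nd (nat_lit 78) (nat_lit 0) (nat_lit 0) (XT.lf (nat_lit 0) (nat_lit 2705113137) (nat_lit 1292) (nat_lit 3366353426) (nat_lit 1368) (nat_lit 1722424863) (nat_lit 525) (nat_lit 5) (nat_lit 542) (nat_lit 3) (nat_lit 543) (nat_lit 5) (nat_lit 407) (nat_lit 406) (nat_lit 327)) (XT.nd (nat_lit 78) (nat_lit 0) (nat_lit 0) (XT.lf (nat_lit 76) (nat_lit 376300834) (nat_lit 0) (nat_lit 3652339335) (nat_lit 1368) (nat_lit 3817386901) (nat_lit 526) (nat_lit 5) (nat_lit 525) (nat_lit 5) (nat_lit 543) (nat_lit 5) (nat_lit 408) (nat_lit 406) (nat_lit 326)) (XT.lf (nat_lit 76) (nat_lit 4221713439) (nat_lit 0) (nat_lit 1146106461) (nat_lit 1368) (nat_lit 2531618898) (nat_lit 526) (nat_lit 5) (nat_lit 525) (nat_lit 5) (nat_lit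 543) (nat_lit 5) (nat_lit 409) (nat_lit 406) (nat_lit 325)))))) (XT.nd (nat_lit 390) (nat_lit 1292) (nat_lit 0) (XT.nd (nat_lit 156) (nat_lit 0) (nat_lit 0) (XT.nd (nat_lit 78) (nat_lit 1368) (nat_lit 0) (XT.lf (nat_lit 76) (nat_lit 164972371) (nat_lit 0) (nat_lit 6546385277) (nat_lit 1368) (nat_lit 1243026305) (nat_lit 527) (nat_lit 5) (nat_lit 526) (nat_lit 5) (nat_lit 544) (nat_lit 5) (nat_lit 410) (nat_lit 406) (nat_lit 324)) (XT.lf (nat_lit 0) (nat_lit 70476842) (nat_lit 1368) (nat_lit 3902251724) (nat_lit 1444) (nat_lit 4037704725) (nat_lit 508) (nat_lit 5) (nat_lit 526) (nat_lit 5) (nat_lit 527) (nat_lit 5) (nat_lit 411) (nat_lit 406) (nat_lit 323))) (XT.nd (nat_lit 78) (nat_lit 0) (nat_lit 76) (XT.lf (nat_lit 76) (nat_lit 36786961) (nat_lit 0) (nat_lit 1325349150) (nat_lit 1444) (nat_lit 6705948291) (nat_lit 509) (nat_lit 5) (nat_lit 508) (nat_lit 5) (nat_lit 527) (nat_lit 5) (nat_lit 412) (nat_lit 406) (nat_lit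 322)) (XT.nd (nat_lit 78) (nat_lit 0) (nat_lit 0) (XT.lf (nat_lit 0) (nat_lit 2683782251) (nat_lit 1368) (nat_lit 4046684372) (nat_lit 1444) (nat_lit 1396354249) (nat_lit 509) (nat_lit 5) (nat_lit 527) (nat_lit 5) (nat_lit 528) (nat_lit 5) (nat_lit 413) (nat_lit 406) (nat_lit 321)) (XT.lf (nat_lit 0) (nat_lit 4010115750) (nat_lit 1368) (nat_lit 9510444) (nat_lit 1444) (nat_lit 4167555896) (nat_lit 509) (nat_lit 5) (nat_lit 527) (nat_lit 5) (nat_lit 528) (nat_lit 5) (nat_lit 414) (nat_lit 406) (nat_lit 320))))) (XT.nd (nat_lit 234) (nat_lit 1368) (nat_lit 0) (XT.nd (nat_lit 78) (nat_lit 0) (nat_lit 76) (XT.lf (nat_lit 76) (nat_lit 4144772022) (nat_lit 0) (nat_lit 1215190279) (nat_lit 1444) (nat_lit 2888863314) (nat_lit 510) (nat_lit 5) (nat_lit 509) (nat_lit 5) (nat_lit 528) (nat_lit 5) (nat_lit 415) (nat_lit 406) (nat_lit 319)) (XT.nd (nat_lit 78) (nat_lit 0) (nat_lit 0) (XT.lf (nat_lit 76) (nat_lit 41879809) (nat_lit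 0) (nat_lit 6676566361) (nat_lit 1444) (nat_lit 1593637554) (nat_lit 511) (nat_lit 5) (nat_lit 510) (nat_lit 5) (nat_lit 529) (nat_lit 5) (nat_lit 416) (nat_lit 406) (nat_lit 318)) (XT.lf (nat_lit 76) (nat_lit 4299776166) (nat_lit 0) (nat_lit 3810936583) (nat_lit 1444) (nat_lit 265776222) (nat_lit 511) (nat_lit 5) (nat_lit 510) (nat_lit 5) (nat_lit 529) (nat_lit 5) (nat_lit 417) (nat_lit 406) (nat_lit 317)))) (XT.nd (nat_lit 78) (nat_lit 0) (nat_lit 76) (XT.lf (nat_lit 76) (nat_lit 177442697) (nat_lit 0) (nat_lit 869517517) (nat_lit 1520) (nat_lit 7395642515) (nat_lit 492) (nat_lit 5) (nat_lit 491) (nat_lit 5) (nat_lit 511) (nat_lit 5) (nat_lit 418) (nat_lit 406) (nat_lit 316)) (XT.nd (nat_lit 78) (nat_lit 0) (nat_lit 0) (XT.lf (nat_lit 0) (nat_lit 2395715964) (nat_lit 1444) (nat_lit 3972306926) (nat_lit 1520) (nat_lit 2141727685) (nat_lit 492) (nat_lit 5) (nat_lit 511) (nat_lit 5) (nat_lit 512) (nat_lit 5) (nat_lit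 419) (nat_lit 406) (nat_lit 315)) (XT.lf (nat_lit 76) (nat_lit 387111953) (nat_lit 0) (nat_lit 3365104529) (nat_lit 1520) (nat_lit 4826422655) (nat_lit 493) (nat_lit 5) (nat_lit 492) (nat_lit 5) (nat_lit 512) (nat_lit 5) (nat_lit 420) (nat_lit 406) (nat_lit 314))))))) (XT.nd (nat_lit 780) (nat_lit 7904) (nat_lit 0) (XT.nd (nat_lit 390) (nat_lit 1444) (nat_lit 0) (XT.nd (nat_lit 156) (nat_lit 1368) (nat_lit 0) (XT.nd (nat_lit 78) (nat_lit 0) (nat_lit 76) (XT.lf (nat_lit 76) (nat_lit 4869077374) (nat_lit 0) (nat_lit 266343003) (nat_lit 1520) (nat_lit 3513506520) (nat_lit 493) (nat_lit 5) (nat_lit 492) (nat_lit 5) (nat_lit 512) (nat_lit 5) (nat_lit 421) (nat_lit 406) (nat_lit 313)) (XT.lf (nat_lit 76) (nat_lit 691616649) (nat_lit 0) (nat_lit 5851457306) (nat_lit 1520) (nat_lit 2177623387) (nat_lit 494) (nat_lit 5) (nat_lit 493) (nat_lit 5) (nat_lit 513) (nat_lit 5) (nat_lit 422) (nat_lit 406) (nat_lit 312))) (XT.nd (nat_lit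 78) (nat_lit 1444) (nat_lit 0) (XT.lf (nat_lit 76) (nat_lit 5283361485) (nat_lit 0) (nat_lit 2696537789) (nat_lit 1520) (nat_lit 813995941) (nat_lit 494) (nat_lit 5) (nat_lit 493) (nat_lit 5) (nat_lit 513) (nat_lit 5) (nat_lit 423) (nat_lit 406) (nat_lit 311)) (XT.nd (nat_lit 78) (nat_lit 0) (nat_lit 0) (XT.lf (nat_lit 0) (nat_lit 554153136) (nat_lit 1520) (nat_lit 7782023121) (nat_lit 1596) (nat_lit 532621481) (nat_lit 474) (nat_lit 5) (nat_lit 494) (nat_lit 5) (nat_lit 495) (nat_lit 5) (nat_lit 424) (nat_lit 406) (nat_lit 310)) (XT.lf (nat_lit 0) (nat_lit 1955009561) (nat_lit 1520) (nat_lit 3163548188) (nat_lit 1596) (nat_lit 3826219757) (nat_lit 474) (nat_lit 5) (nat_lit 494) (nat_lit 5) (nat_lit 495) (nat_lit 5) (nat_lit 425) (nat_lit 406) (nat_lit 309))))) (XT.nd (nat_lit 156) (nat_lit 1444) (nat_lit 0) (XT.nd (nat_lit 78) (nat_lit 0) (nat_lit 76) (XT.lf (nat_lit 76) (nat_lit 1548952417) (nat_lit 0) (nat_lit 1820146521)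 (nat_lit 1596) (nat_lit 5653485063) (nat_lit 475) (nat_lit 5) (nat_lit 474) (nat_lit 5) (nat_lit 495) (nat_lit 5) (nat_lit 426) (nat_lit 406) (nat_lit 308)) (XT.lf (nat_lit 0) (nat_lit 4818430237) (nat_lit 1520) (nat_lit 2732178186) (nat_lit 1596) (nat_lit 1551210226) (nat_lit 475) (nat_lit 5) (nat_lit 495) (nat_lit 5) (nat_lit 496) (nat_lit 5) (nat_lit 427) (nat_lit 406) (nat_lit 307))) (XT.nd (nat_lit 78) (nat_lit 1520) (nat_lit 0) (XT.lf (nat_lit 76) (nat_lit 2100902942) (nat_lit 0) (nat_lit 4197583041) (nat_lit 1596) (nat_lit 2884128255) (nat_lit 476) (nat_lit 5) (nat_lit 475) (nat_lit 5) (nat_lit 496) (nat_lit 5) (nat_lit 428) (nat_lit 406) (nat_lit 306)) (XT.nd (nat_lit 78) (nat_lit 1520) (nat_lit 0) (XT.lf (nat_lit 76) (nat_lit 7049103015) (nat_lit 0) (nat_lit 753766716) (nat_lit 1596) (nat_lit 1462272259) (nat_lit 476) (nat_lit 5) (nat_lit 475) (nat_lit 5) (nat_lit 496) (nat_lit 5) (nat_lit 429) (nat_lit 406)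 (nat_lit 305)) (XT.lf (nat_lit 0) (nat_lit 882409) (nat_lit 1596) (nat_lit 6602750666) (nat_lit 76) (nat_lit 2745445059) (nat_lit 455) (nat_lit 5) (nat_lit 476) (nat_lit 5) (nat_lit 456) (nat_lit 5) (nat_lit 430) (nat_lit 406) (nat_lit 304)))))) (XT.nd (nat_lit 390) (nat_lit 4636) (nat_lit 0) (XT.nd (nat_lit 156) (nat_lit 1672) (nat_lit 0) (XT.nd (nat_lit 78) (nat_lit 1596) (nat_lit 0) (XT.lf (nat_lit 0) (nat_lit 1470758543) (nat_lit 1596) (nat_lit 1630100759) (nat_lit 76) (nat_lit 6333709789) (nat_lit 455) (nat_lit 5) (nat_lit 476) (nat_lit 5) (nat_lit 456) (nat_lit 5) (nat_lit 431) (nat_lit 406) (nat_lit 303)) (XT.lf (nat_lit 0) (nat_lit 2973302745) (nat_lit 1672) (nat_lit 6056060574) (nat_lit 76) (nat_lit 492351106) (nat_lit 434) (nat_lit 5) (nat_lit 456) (nat_lit 5) (nat_lit 435) (nat_lit 5) (nat_lit 432) (nat_lit 406) (nat_lit 302))) (XT.nd (nat_lit 78) (nat_lit 1672) (nat_lit 0) (XT.lf (nat_lit 0) (nat_lit 4515298999)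 (nat_lit 1672) (nat_lit 964467739) (nat_lit 76) (nat_lit 4130657675) (nat_lit 434) (nat_lit 5) (nat_lit 456) (nat_lit 5) (nat_lit 435) (nat_lit 5) (nat_lit 433) (nat_lit 406) (nat_lit 301)) (XT.nd (nat_lit 78) (nat_lit 0) (nat_lit 0) (XT.lf (nat_lit 0) (nat_lit 4266385964) (nat_lit 1672) (nat_lit 1827738049) (nat_lit 1748) (nat_lit 3606674392) (nat_lit 412) (nat_lit 5) (nat_lit 434) (nat_lit 5) (nat_lit 435) (nat_lit 5) (nat_lit 434) (nat_lit 406) (nat_lit 300)) (XT.lf (nat_lit 0) (nat_lit 7701973549) (nat_lit 1748) (nat_lit 209142189) (nat_lit 76) (nat_lit 1881924571) (nat_lit 412) (nat_lit 5) (nat_lit 435) (nat_lit 5) (nat_lit 413) (nat_lit 5) (nat_lit 435) (nat_lit 406) (nat_lit 299))))) (XT.nd (nat_lit 234) (nat_lit 1748) (nat_lit 0) (XT.nd (nat_lit 78) (nat_lit 1140) (nat_lit 0) (XT.lf (nat_lit 0) (nat_lit 5157682476) (nat_lit 1748) (nat_lit 4208922588) (nat_lit 1824) (nat_lit 520038696) (nat_lit 389) (nat_lit 5)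 (nat_lit 412) (nat_lit 5) (nat_lit 413) (nat_lit 5) (nat_lit 436) (nat_lit 406) (nat_lit 298)) (XT.nd (nat_lit 78) (nat_lit 0) (nat_lit 0) (XT.lf (nat_lit 0) (nat_lit 635226906) (nat_lit 1064) (nat_lit 417703767) (nat_lit 1140) (nat_lit 8929362568) (nat_lit 374) (nat_lit 5) (nat_lit 388) (nat_lit 5) (nat_lit 389) (nat_lit 5) (nat_lit 437) (nat_lit 406) (nat_lit 297)) (XT.lf (nat_lit 0) (nat_lit 2684222588) (nat_lit 1140) (nat_lit 3953433562) (nat_lit 76) (nat_lit 3441462961) (nat_lit 374) (nat_lit 5) (nat_lit 389) (nat_lit 5) (nat_lit 375) (nat_lit 5) (nat_lit 438) (nat_lit 406) (nat_lit 296)))) (XT.nd (nat_lit 78) (nat_lit 836) (nat_lit 0) (XT.lf (nat_lit 0) (nat_lit 1547002500) (nat_lit 912) (nat_lit 2793831189) (nat_lit 988) (nat_lit 5837202448) (nat_lit 362) (nat_lit 5) (nat_lit 374) (nat_lit 5) (nat_lit 375) (nat_lit 5) (nat_lit 439) (nat_lit 406) (nat_lit 295)) (XT.nd (nat_lit 78) (nat_lit 836) (nat_lit 0) (XT.lf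 (nat_lit 0) (nat_lit 6044765091) (nat_lit 988) (nat_lit 3093739995) (nat_lit 76) (nat_lit 1140150997) (nat_lit 362) (nat_lit 5) (nat_lit 375) (nat_lit 5) (nat_lit 363) (nat_lit 5) (nat_lit 440) (nat_lit 406) (nat_lit 294)) (XT.lf (nat_lit 0) (nat_lit 2550736859) (nat_lit 836) (nat_lit 5247656801) (nat_lit 912) (nat_lit 2582590574) (nat_lit 351) (nat_lit 5) (nat_lit 362) (nat_lit 5) (nat_lit 363) (nat_lit 5) (nat_lit 441) (nat_lit 406) (nat_lit 293))))))))
noncomputable def xc163 : XT := (XT.nd (nat_lit 1638) (nat_lit 6916) (nat_lit 0) (XT.nd (nat_lit 780) (nat_lit 4180) (nat_lit 0) (XT.nd (nat_lit 390) (nat_lit 2432) (nat_lit 0) (XT.nd (nat_lit 156) (nat_lit 836) (nat_lit 0) (XT.nd (nat_lit 78) (nat_lit 912) (nat_lit 0) (XT.lf (nat_lit 0) (nat_lit 8331647672) (nat_lit 836) (nat_lit 1257024879) (nat_lit 912) (nat_lit 896662859) (nat_lit 351) (nat_lit 5) (nat_lit 362) (nat_lit 5) (nat_lit 363) (nat_lit 5) (nat_lit 442)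 (nat_lit 406) (nat_lit 292)) (XT.lf (nat_lit 0) (nat_lit 835482595) (nat_lit 912) (nat_lit 6949260721) (nat_lit 76) (nat_lit 2806465274) (nat_lit 339) (nat_lit 5) (nat_lit 351) (nat_lit 5) (nat_lit 340) (nat_lit 5) (nat_lit 443) (nat_lit 406) (nat_lit 291))) (XT.nd (nat_lit 78) (nat_lit 836) (nat_lit 0) (XT.lf (nat_lit 0) (nat_lit 2594466306) (nat_lit 912) (nat_lit 1149133821) (nat_lit 76) (nat_lit 6955404092) (nat_lit 339) (nat_lit 5) (nat_lit 351) (nat_lit 5) (nat_lit 340) (nat_lit 5) (nat_lit 444) (nat_lit 406) (nat_lit 290)) (XT.nd (nat_lit 78) (nat_lit 0) (nat_lit 0) (XT.lf (nat_lit 0) (nat_lit 4404220140) (nat_lit 912) (nat_lit 5999455488) (nat_lit 76) (nat_lit 404975728) (nat_lit 328) (nat_lit 5) (nat_lit 340) (nat_lit 5) (nat_lit 329) (nat_lit 5) (nat_lit 445) (nat_lit 406) (nat_lit 289)) (XT.lf (nat_lit 0) (nat_lit 6264649287) (nat_lit 912) (nat_lit 61351709) (nat_lit 76) (nat_lit 4594208095) (nat_lit 328) (nat_lit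 5) (nat_lit 340) (nat_lit 5) (nat_lit 329) (nat_lit 5) (nat_lit 446) (nat_lit 406) (nat_lit 288))))) (XT.nd (nat_lit 156) (nat_lit 836) (nat_lit 0) (XT.nd (nat_lit 78) (nat_lit 760) (nat_lit 0) (XT.lf (nat_lit 0) (nat_lit 6056872349) (nat_lit 836) (nat_lit 2127020119) (nat_lit 912) (nat_lit 2849680523) (nat_lit 317) (nat_lit 5) (nat_lit 328) (nat_lit 5) (nat_lit 329) (nat_lit 5) (nat_lit 447) (nat_lit 406) (nat_lit 287)) (XT.lf (nat_lit 0) (nat_lit 1131623996) (nat_lit 760) (nat_lit 9014163996) (nat_lit 836) (nat_lit 1003337807) (nat_lit 307) (nat_lit 5) (nat_lit 317) (nat_lit 5) (nat_lit 318) (nat_lit 5) (nat_lit 448) (nat_lit 406) (nat_lit 286))) (XT.nd (nat_lit 78) (nat_lit 760) (nat_lit 0) (XT.lf (nat_lit 0) (nat_lit 898706729) (nat_lit 836) (nat_lit 3875197447) (nat_lit 76) (nat_lit 6492371624) (nat_lit 306) (nat_lit 5) (nat_lit 317) (nat_lit 5) (nat_lit 307) (nat_lit 5) (nat_lit 449) (nat_lit 406) (nat_lit 285))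 (XT.nd (nat_lit 78) (nat_lit 0) (nat_lit 0) (XT.lf (nat_lit 0) (nat_lit 2396671713) (nat_lit 760) (nat_lit 427211792) (nat_lit 836) (nat_lit 8561788709) (nat_lit 296) (nat_lit 5) (nat_lit 306) (nat_lit 5) (nat_lit 307) (nat_lit 5) (nat_lit 450) (nat_lit 406) (nat_lit 284)) (XT.lf (nat_lit 0) (nat_lit 4822916085) (nat_lit 836) (nat_lit 2704899728) (nat_lit 76) (nat_lit 3978940146) (nat_lit 296) (nat_lit 5) (nat_lit 307) (nat_lit 5) (nat_lit 297) (nat_lit 5) (nat_lit 451) (nat_lit 406) (nat_lit 283)))))) (XT.nd (nat_lit 390) (nat_lit 1976) (nat_lit 0) (XT.nd (nat_lit 156) (nat_lit 1520) (nat_lit 0) (XT.nd (nat_lit 78) (nat_lit 0) (nat_lit 0) (XT.lf (nat_lit 0) (nat_lit 3733086170) (nat_lit 684) (nat_lit 3139403306) (nat_lit 760) (nat_lit 4757567021) (nat_lit 287) (nat_lit 5) (nat_lit 296) (nat_lit 5) (nat_lit 297) (nat_lit 5) (nat_lit 452) (nat_lit 406) (nat_lit 282)) (XT.lf (nat_lit 0) (nat_lit 8973696578) (nat_lit 760)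 (nat_lit 1445894243) (nat_lit 76) (nat_lit 1336025576) (nat_lit 287) (nat_lit 5) (nat_lit 297) (nat_lit 5) (nat_lit 288) (nat_lit 5) (nat_lit 453) (nat_lit 406) (nat_lit 281))) (XT.nd (nat_lit 78) (nat_lit 760) (nat_lit 0) (XT.lf (nat_lit 0) (nat_lit 5163354282) (nat_lit 760) (nat_lit 5991899475) (nat_lit 836) (nat_lit 727673296) (nat_lit 277) (nat_lit 5) (nat_lit 287) (nat_lit 5) (nat_lit 288) (nat_lit 5) (nat_lit 454) (nat_lit 406) (nat_lit 280)) (XT.nd (nat_lit 78) (nat_lit 684) (nat_lit 0) (XT.lf (nat_lit 0) (nat_lit 1343587704) (nat_lit 836) (nat_lit 115023459) (nat_lit 76) (nat_lit 10554123670) (nat_lit 276) (nat_lit 5) (nat_lit 287) (nat_lit 5) (nat_lit 277) (nat_lit 5) (nat_lit 455) (nat_lit 406) (nat_lit 279)) (XT.lf (nat_lit 0) (nat_lit 3495225545) (nat_lit 760) (nat_lit 5478377587) (nat_lit 76) (nat_lit 3170471260) (nat_lit 267) (nat_lit 5) (nat_lit 277) (nat_lit 5) (nat_lit 268) (nat_lit 5) (nat_lit 456)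 (nat_lit 406) (nat_lit 278))))) (XT.nd (nat_lit 234) (nat_lit 684) (nat_lit 0) (XT.nd (nat_lit 78) (nat_lit 608) (nat_lit 0) (XT.lf (nat_lit 0) (nat_lit 1295175551) (nat_lit 684) (nat_lit 4398157352) (nat_lit 760) (nat_lit 6584644718) (nat_lit 258) (nat_lit 5) (nat_lit 267) (nat_lit 5) (nat_lit 268) (nat_lit 5) (nat_lit 457) (nat_lit 406) (nat_lit 277)) (XT.nd (nat_lit 78) (nat_lit 608) (nat_lit 0) (XT.lf (nat_lit 0) (nat_lit 7958917331) (nat_lit 760) (nat_lit 4155241182) (nat_lit 76) (nat_lit 299935605) (nat_lit 258) (nat_lit 5) (nat_lit 268) (nat_lit 5) (nat_lit 259) (nat_lit 5) (nat_lit 458) (nat_lit 406) (nat_lit 276)) (XT.lf (nat_lit 0) (nat_lit 2798913629) (nat_lit 608) (nat_lit 7503261299) (nat_lit 684) (nat_lit 2250116182) (nat_lit 250) (nat_lit 5) (nat_lit 258) (nat_lit 5) (nat_lit 259) (nat_lit 5) (nat_lit 459) (nat_lit 406) (nat_lit 275)))) (XT.nd (nat_lit 78) (nat_lit 608) (nat_lit 0) (XT.lf (nat_lit 0) (nat_lit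 12265696) (nat_lit 684) (nat_lit 2762021879) (nat_lit 76) (nat_lit 9918705625) (nat_lit 249) (nat_lit 5) (nat_lit 258) (nat_lit 5) (nat_lit 250) (nat_lit 5) (nat_lit 460) (nat_lit 406) (nat_lit 274)) (XT.nd (nat_lit 78) (nat_lit 0) (nat_lit 0) (XT.lf (nat_lit 0) (nat_lit 2317332732) (nat_lit 684) (nat_lit 8454897155) (nat_lit 76) (nat_lit 2063435732) (nat_lit 241) (nat_lit 5) (nat_lit 250) (nat_lit 5) (nat_lit 242) (nat_lit 5) (nat_lit 461) (nat_lit 406) (nat_lit 273)) (XT.lf (nat_lit 0) (nat_lit 4691117888) (nat_lit 684) (nat_lit 1312903334) (nat_lit 76) (nat_lit 6976722914) (nat_lit 241) (nat_lit 5) (nat_lit 250) (nat_lit 5) (nat_lit 242) (nat_lit 5) (nat_lit 462) (nat_lit 406) (nat_lit 272))))))) (XT.nd (nat_lit 858) (nat_lit 2888) (nat_lit 0) (XT.nd (nat_lit 390) (nat_lit 2204) (nat_lit 0) (XT.nd (nat_lit 156) (nat_lit 608) (nat_lit 0) (XT.nd (nat_lit 78) (nat_lit 608) (nat_lit 0) (XT.lf (nat_lit 0) (nat_lit 6033967344)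 (nat_lit 608) (nat_lit 1103457181) (nat_lit 684) (nat_lit 5990803667) (nat_lit 233) (nat_lit 5) (nat_lit 241) (nat_lit 5) (nat_lit 242) (nat_lit 5) (nat_lit 463) (nat_lit 406) (nat_lit 271)) (XT.lf (nat_lit 0) (nat_lit 227470205) (nat_lit 608) (nat_lit 9426838703) (nat_lit 684) (nat_lit 3623924781) (nat_lit 225) (nat_lit 5) (nat_lit 233) (nat_lit 5) (nat_lit 234) (nat_lit 5) (nat_lit 464) (nat_lit 406) (nat_lit 270))) (XT.nd (nat_lit 78) (nat_lit 608) (nat_lit 0) (XT.lf (nat_lit 0) (nat_lit 7767257643) (nat_lit 608) (nat_lit 4495318478) (nat_lit 684) (nat_lit 1167846968) (nat_lit 225) (nat_lit 5) (nat_lit 233) (nat_lit 5) (nat_lit 234) (nat_lit 5) (nat_lit 465) (nat_lit 406) (nat_lit 269)) (XT.nd (nat_lit 78) (nat_lit 0) (nat_lit 0) (XT.lf (nat_lit 0) (nat_lit 1321905677) (nat_lit 608) (nat_lit 11718052838) (nat_lit 76) (nat_lit 545486759) (nat_lit 217) (nat_lit 5) (nat_lit 225) (nat_lit 5) (nat_lit 218) (nat_lit 5)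 (nat_lit 466) (nat_lit 406) (nat_lit 268)) (XT.lf (nat_lit 0) (nat_lit 3900347333) (nat_lit 608) (nat_lit 4172364954) (nat_lit 76) (nat_lit 5669615023) (nat_lit 217) (nat_lit 5) (nat_lit 225) (nat_lit 5) (nat_lit 218) (nat_lit 5) (nat_lit 467) (nat_lit 406) (nat_lit 267))))) (XT.nd (nat_lit 234) (nat_lit 1064) (nat_lit 0) (XT.nd (nat_lit 78) (nat_lit 532) (nat_lit 0) (XT.lf (nat_lit 0) (nat_lit 3554056422) (nat_lit 608) (nat_lit 2986133550) (nat_lit 684) (nat_lit 7361964710) (nat_lit 209) (nat_lit 5) (nat_lit 217) (nat_lit 5) (nat_lit 218) (nat_lit 5) (nat_lit 468) (nat_lit 406) (nat_lit 266)) (XT.nd (nat_lit 78) (nat_lit 532) (nat_lit 0) (XT.lf (nat_lit 0) (nat_lit 9262196553) (nat_lit 684) (nat_lit 2604462969) (nat_lit 76) (nat_lit 2197935993) (nat_lit 209) (nat_lit 5) (nat_lit 218) (nat_lit 5) (nat_lit 210) (nat_lit 5) (nat_lit 469) (nat_lit 406) (nat_lit 265)) (XT.lf (nat_lit 0) (nat_lit 5327548260) (nat_lit 532)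 (nat_lit 6752602767) (nat_lit 608) (nat_lit 2149308151) (nat_lit 202) (nat_lit 5) (nat_lit 209) (nat_lit 5) (nat_lit 210) (nat_lit 5) (nat_lit 470) (nat_lit 406) (nat_lit 264)))) (XT.nd (nat_lit 78) (nat_lit 988) (nat_lit 0) (XT.lf (nat_lit 0) (nat_lit 554333356) (nat_lit 608) (nat_lit 964155589) (nat_lit 76) (nat_lit 12878967031) (nat_lit 201) (nat_lit 5) (nat_lit 209) (nat_lit 5) (nat_lit 202) (nat_lit 5) (nat_lit 471) (nat_lit 406) (nat_lit 263)) (XT.nd (nat_lit 78) (nat_lit 456) (nat_lit 0) (XT.lf (nat_lit 0) (nat_lit 3342650699) (nat_lit 608) (nat_lit 7396862698) (nat_lit 76) (nat_lit 3827831459) (nat_lit 194) (nat_lit 5) (nat_lit 202) (nat_lit 5) (nat_lit 195) (nat_lit 5) (nat_lit 472) (nat_lit 406) (nat_lit 262)) (XT.lf (nat_lit 0) (nat_lit 723316312) (nat_lit 456) (nat_lit 5472249299) (nat_lit 532) (nat_lit 8544893131) (nat_lit 188) (nat_lit 5) (nat_lit 194) (nat_lit 5) (nat_lit 195) (nat_lit 5) (nat_lit 473)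 (nat_lit 406) (nat_lit 261)))))) (XT.nd (nat_lit 390) (nat_lit 1824) (nat_lit 0) (XT.nd (nat_lit 156) (nat_lit 532) (nat_lit 0) (XT.nd (nat_lit 78) (nat_lit 532) (nat_lit 0) (XT.lf (nat_lit 0) (nat_lit 9089822576) (nat_lit 456) (nat_lit 53056699) (nat_lit 532) (nat_lit 5773412598) (nat_lit 188) (nat_lit 5) (nat_lit 194) (nat_lit 5) (nat_lit 195) (nat_lit 5) (nat_lit 474) (nat_lit 406) (nat_lit 260)) (XT.lf (nat_lit 0) (nat_lit 2509139547) (nat_lit 532) (nat_lit 9679753840) (nat_lit 608) (nat_lit 2905956900) (nat_lit 181) (nat_lit 5) (nat_lit 188) (nat_lit 5) (nat_lit 189) (nat_lit 5) (nat_lit 475) (nat_lit 406) (nat_lit 259))) (XT.nd (nat_lit 78) (nat_lit 456) (nat_lit 0) (XT.lf (nat_lit 0) (nat_lit 46278067) (nat_lit 608) (nat_lit 4202788631) (nat_lit 76) (nat_lit 11027360737) (nat_lit 180) (nat_lit 5) (nat_lit 188) (nat_lit 5) (nat_lit 181) (nat_lit 5) (nat_lit 476) (nat_lit 406) (nat_lit 258)) (XT.nd (nat_lit 78)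 (nat_lit 0) (nat_lit 0) (XT.lf (nat_lit 0) (nat_lit 3043925039) (nat_lit 532) (nat_lit 11099707880) (nat_lit 76) (nat_lit 1317116967) (nat_lit 174) (nat_lit 5) (nat_lit 181) (nat_lit 5) (nat_lit 175) (nat_lit 5) (nat_lit 477) (nat_lit 406) (nat_lit 257)) (XT.lf (nat_lit 0) (nat_lit 6146359374) (nat_lit 532) (nat_lit 2539484583) (nat_lit 76) (nat_lit 6962021562) (nat_lit 174) (nat_lit 5) (nat_lit 181) (nat_lit 5) (nat_lit 175) (nat_lit 5) (nat_lit 478) (nat_lit 406) (nat_lit 256))))) (XT.nd (nat_lit 234) (nat_lit 912) (nat_lit 0) (XT.nd (nat_lit 78) (nat_lit 456) (nat_lit 0) (XT.lf (nat_lit 0) (nat_lit 6258253922) (nat_lit 456) (nat_lit 3081755729) (nat_lit 532) (nat_lit 6498133823) (nat_lit 168) (nat_lit 5) (nat_lit 174) (nat_lit 5) (nat_lit 175) (nat_lit 5) (nat_lit 479) (nat_lit 406) (nat_lit 255)) (XT.nd (nat_lit 78) (nat_lit 456) (nat_lit 0) (XT.lf (nat_lit 0) (nat_lit 12620421012) (nat_lit 532) (nat_lit 798598532)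 (nat_lit 76) (nat_lit 2612752970) (nat_lit 168) (nat_lit 5) (nat_lit 175) (nat_lit 5) (nat_lit 169) (nat_lit 5) (nat_lit 480) (nat_lit 406) (nat_lit 254)) (XT.lf (nat_lit 0) (nat_lit 8230296512) (nat_lit 456) (nat_lit 7798842136) (nat_lit 532) (nat_lit 198884750) (nat_lit 162) (nat_lit 5) (nat_lit 168) (nat_lit 5) (nat_lit 169) (nat_lit 5) (nat_lit 481) (nat_lit 406) (nat_lit 253)))) (XT.nd (nat_lit 78) (nat_lit 380) (nat_lit 0) (XT.lf (nat_lit 0) (nat_lit 999995877) (nat_lit 456) (nat_lit 2038250910) (nat_lit 532) (nat_lit 13389540310) (nat_lit 155) (nat_lit 5) (nat_lit 161) (nat_lit 5) (nat_lit 162) (nat_lit 5) (nat_lit 482) (nat_lit 406) (nat_lit 252)) (XT.nd (nat_lit 78) (nat_lit 380) (nat_lit 0) (XT.lf (nat_lit 0) (nat_lit 6405383130) (nat_lit 532) (nat_lit 6386670619) (nat_lit 76) (nat_lit 3838110561) (nat_lit 155) (nat_lit 5) (nat_lit 162) (nat_lit 5) (nat_lit 156) (nat_lit 5) (nat_lit 483) (nat_lit 406) (nat_lit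 251)) (XT.lf (nat_lit 0) (nat_lit 2843683341) (nat_lit 380) (nat_lit 7017338755) (nat_lit 456) (nat_lit 6975146752) (nat_lit 150) (nat_lit 5) (nat_lit 155) (nat_lit 5) (nat_lit 156) (nat_lit 5) (nat_lit 484) (nat_lit 406) (nat_lit 250))))))))
noncomputable def xc164 : XT := (XT.nd (nat_lit 53508) (nat_lit 0) (nat_lit 26676) (XT.nd (nat_lit 780) (nat_lit 1444) (nat_lit 0) (XT.nd (nat_lit 390) (nat_lit 1216) (nat_lit 0) (XT.nd (nat_lit 156) (nat_lit 456) (nat_lit 0) (XT.nd (nat_lit 78) (nat_lit 456) (nat_lit 0) (XT.lf (nat_lit 0) (nat_lit 12329932486) (nat_lit 380) (nat_lit 1088010300) (nat_lit 456) (nat_lit 3627710232) (nat_lit 150) (nat_lit 5) (nat_lit 155) (nat_lit 5) (nat_lit 156) (nat_lit 5) (nat_lit 485) (nat_lit 406) (nat_lit 249)) (XT.lf (nat_lit 0) (nat_lit 4761658368) (nat_lit 456) (nat_lit 12336953714) (nat_lit 532) (nat_lit 159665448) (nat_lit 144) (nat_lit 5) (nat_lit 150) (nat_lit 5) (nat_lit 151) (nat_lit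 5) (nat_lit 486) (nat_lit 406) (nat_lit 248))) (XT.nd (nat_lit 78) (nat_lit 380) (nat_lit 0) (XT.lf (nat_lit 0) (nat_lit 3362028388) (nat_lit 532) (nat_lit 3026569934) (nat_lit 76) (nat_lit 11085548594) (nat_lit 143) (nat_lit 5) (nat_lit 150) (nat_lit 5) (nat_lit 144) (nat_lit 5) (nat_lit 487) (nat_lit 406) (nat_lit 247)) (XT.nd (nat_lit 78) (nat_lit 0) (nat_lit 0) (XT.lf (nat_lit 0) (nat_lit 6704845879) (nat_lit 380) (nat_lit 280439867) (nat_lit 456) (nat_lit 10708364182) (nat_lit 138) (nat_lit 5) (nat_lit 143) (nat_lit 5) (nat_lit 144) (nat_lit 5) (nat_lit 488) (nat_lit 406) (nat_lit 246)) (XT.lf (nat_lit 0) (nat_lit 10729891390) (nat_lit 456) (nat_lit 1298975757) (nat_lit 76) (nat_lit 5887700837) (nat_lit 138) (nat_lit 5) (nat_lit 144) (nat_lit 5) (nat_lit 139) (nat_lit 5) (nat_lit 489) (nat_lit 406) (nat_lit 245))))) (XT.nd (nat_lit 156) (nat_lit 380) (nat_lit 0) (XT.nd (nat_lit 78) (nat_lit 456) (nat_lit 0) (XT.lf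 (nat_lit 0) (nat_lit 8681961455) (nat_lit 380) (nat_lit 5915661979) (nat_lit 456) (nat_lit 3545358873) (nat_lit 133) (nat_lit 5) (nat_lit 138) (nat_lit 5) (nat_lit 139) (nat_lit 5) (nat_lit 490) (nat_lit 406) (nat_lit 244)) (XT.lf (nat_lit 0) (nat_lit 170746255) (nat_lit 456) (nat_lit 17878991335) (nat_lit 76) (nat_lit 324084407) (nat_lit 127) (nat_lit 5) (nat_lit 133) (nat_lit 5) (nat_lit 128) (nat_lit 5) (nat_lit 491) (nat_lit 406) (nat_lit 243))) (XT.nd (nat_lit 78) (nat_lit 380) (nat_lit 0) (XT.lf (nat_lit 0) (nat_lit 4006941312) (nat_lit 456) (nat_lit 7907844823) (nat_lit 76) (nat_lit 6692161289) (nat_lit 127) (nat_lit 5) (nat_lit 133) (nat_lit 5) (nat_lit 128) (nat_lit 5) (nat_lit 492) (nat_lit 406) (nat_lit 242)) (XT.nd (nat_lit 78) (nat_lit 0) (nat_lit 0) (XT.lf (nat_lit 0) (nat_lit 2278086716) (nat_lit 380) (nat_lit 5646868671) (nat_lit 456) (nat_lit 10919680466) (nat_lit 122) (nat_lit 5) (nat_lit 127) (nat_lit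 5) (nat_lit 128) (nat_lit 5) (nat_lit 493) (nat_lit 406) (nat_lit 241)) (XT.lf (nat_lit 0) (nat_lit 11969962602) (nat_lit 456) (nat_lit 6330867486) (nat_lit 76) (nat_lit 785277653) (nat_lit 122) (nat_lit 5) (nat_lit 128) (nat_lit 5) (nat_lit 123) (nat_lit 5) (nat_lit 494) (nat_lit 406) (nat_lit 240)))))) (XT.nd (nat_lit 390) (nat_lit 380) (nat_lit 0) (XT.nd (nat_lit 156) (nat_lit 684) (nat_lit 0) (XT.nd (nat_lit 78) (nat_lit 76) (nat_lit 0) (XT.lf (nat_lit 0) (nat_lit 4111760781) (nat_lit 304) (nat_lit 12038760230) (nat_lit 380) (nat_lit 3180797339) (nat_lit 118) (nat_lit 5) (nat_lit 122) (nat_lit 5) (nat_lit 123) (nat_lit 5) (nat_lit 495) (nat_lit 406) (nat_lit 239)) (XT.lf (nat_lit 0) (nat_lit 855680966) (nat_lit 380) (nat_lit 4751546981) (nat_lit 76) (nat_lit 13973432198) (nat_lit 117) (nat_lit 5) (nat_lit 122) (nat_lit 5) (nat_lit 118) (nat_lit 5) (nat_lit 496) (nat_lit 406) (nat_lit 238))) (XT.nd (nat_lit 78) (nat_lit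 304) (nat_lit 0) (XT.lf (nat_lit 0) (nat_lit 4966416018) (nat_lit 456) (nat_lit 13871536974) (nat_lit 76) (nat_lit 995895090) (nat_lit 112) (nat_lit 5) (nat_lit 118) (nat_lit 5) (nat_lit 113) (nat_lit 5) (nat_lit 497) (nat_lit 406) (nat_lit 237)) (XT.nd (nat_lit 78) (nat_lit 304) (nat_lit 0) (XT.lf (nat_lit 0) (nat_lit 9219426954) (nat_lit 456) (nat_lit 3188062810) (nat_lit 76) (nat_lit 7683410917) (nat_lit 112) (nat_lit 5) (nat_lit 118) (nat_lit 5) (nat_lit 113) (nat_lit 5) (nat_lit 498) (nat_lit 406) (nat_lit 236)) (XT.lf (nat_lit 0) (nat_lit 7797512846) (nat_lit 304) (nat_lit 5801622357) (nat_lit 380) (nat_lit 6753128473) (nat_lit 108) (nat_lit 5) (nat_lit 112) (nat_lit 5) (nat_lit 113) (nat_lit 5) (nat_lit 499) (nat_lit 406) (nat_lit 235))))) (XT.nd (nat_lit 52104) (nat_lit 0) (nat_lit 32072) (XT.nd (nat_lit 78) (nat_lit 380) (nat_lit 0) (XT.lf (nat_lit 0) (nat_lit 18085118444) (nat_lit 380) (nat_lit 1592523607)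 (nat_lit 76) (nat_lit 940840307) (nat_lit 108) (nat_lit 5) (nat_lit 113) (nat_lit 5) (nat_lit 109) (nat_lit 5) (nat_lit 500) (nat_lit 406) (nat_lit 234)) (XT.nd (nat_lit 78) (nat_lit 0) (nat_lit 0) (XT.lf (nat_lit 0) (nat_lit 1840587016) (nat_lit 380) (nat_lit 11236640181) (nat_lit 76) (nat_lit 7810709931) (nat_lit 103) (nat_lit 5) (nat_lit 108) (nat_lit 5) (nat_lit 104) (nat_lit 5) (nat_lit 501) (nat_lit 406) (nat_lit 233)) (XT.lf (nat_lit 0) (nat_lit 6270150143) (nat_lit 380) (nat_lit 51481736) (nat_lit 76) (nat_lit 14840775033) (nat_lit 103) (nat_lit 5) (nat_lit 108) (nat_lit 5) (nat_lit 104) (nat_lit 5) (nat_lit 502) (nat_lit 406) (nat_lit 232)))) (XT.nd (nat_lit 78) (nat_lit 0) (nat_lit 0) (XT.lf (nat_lit 0) (nat_lit 997393277) (nat_lit 0) (nat_lit 997393277) (nat_lit 1292) (nat_lit 1927842791) (nat_lit 525) (nat_lit 5) (nat_lit 525) (nat_lit 3) (nat_lit 542) (nat_lit 3) (nat_lit 407) (nat_lit 407) (nat_lit 326))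 (XT.nd (nat_lit 78) (nat_lit 0) (nat_lit 0) (XT.lf (nat_lit 0) (nat_lit 5281223909) (nat_lit 1292) (nat_lit 2108462079) (nat_lit 1368) (nat_lit 508354296) (nat_lit 525) (nat_lit 5) (nat_lit 542) (nat_lit 3) (nat_lit 543) (nat_lit 5) (nat_lit 408) (nat_lit 407) (nat_lit 325)) (XT.lf (nat_lit 76) (nat_lit 1700326725) (nat_lit 0) (nat_lit 4889991200) (nat_lit 1368) (nat_lit 1361744058) (nat_lit 526) (nat_lit 5) (nat_lit 525) (nat_lit 5) (nat_lit 543) (nat_lit 5) (nat_lit 409) (nat_lit 407) (nat_lit 324))))))) (XT.nd (nat_lit 780) (nat_lit 2812) (nat_lit 0) (XT.nd (nat_lit 390) (nat_lit 1292) (nat_lit 0) (XT.nd (nat_lit 156) (nat_lit 0) (nat_lit 0) (XT.nd (nat_lit 78) (nat_lit 1292) (nat_lit 0) (XT.lf (nat_lit 76) (nat_lit 5596833859) (nat_lit 0) (nat_lit 2310798274) (nat_lit 1368) (nat_lit 99907569) (nat_lit 526) (nat_lit 5) (nat_lit 525) (nat_lit 5) (nat_lit 543) (nat_lit 5) (nat_lit 410) (nat_lit 407) (nat_lit 323)) (XT.lf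 (nat_lit 0) (nat_lit 1151930135) (nat_lit 1368) (nat_lit 6564721277) (nat_lit 1444) (nat_lit 347730438) (nat_lit 508) (nat_lit 5) (nat_lit 526) (nat_lit 5) (nat_lit 527) (nat_lit 5) (nat_lit 411) (nat_lit 407) (nat_lit 322))) (XT.nd (nat_lit 78) (nat_lit 0) (nat_lit 0) (XT.lf (nat_lit 0) (nat_lit 2427953440) (nat_lit 1368) (nat_lit 2634956979) (nat_lit 1444) (nat_lit 3059442889) (nat_lit 508) (nat_lit 5) (nat_lit 526) (nat_lit 5) (nat_lit 527) (nat_lit 5) (nat_lit 412) (nat_lit 407) (nat_lit 321)) (XT.nd (nat_lit 78) (nat_lit 0) (nat_lit 76) (XT.lf (nat_lit 76) (nat_lit 1374011560) (nat_lit 0) (nat_lit 2333914314) (nat_lit 1444) (nat_lit 4474004858) (nat_lit 509) (nat_lit 5) (nat_lit 508) (nat_lit 5) (nat_lit 527) (nat_lit 5) (nat_lit 413) (nat_lit 407) (nat_lit 320)) (XT.lf (nat_lit 0) (nat_lit 5004292080) (nat_lit 1368) (nat_lit 2764500028) (nat_lit 1444) (nat_lit 474106519) (nat_lit 509) (nat_lit 5) (nat_lit 527)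 (nat_lit 5) (nat_lit 528) (nat_lit 5) (nat_lit 414) (nat_lit 407) (nat_lit 319))))) (XT.nd (nat_lit 156) (nat_lit 1368) (nat_lit 0) (XT.nd (nat_lit 78) (nat_lit 0) (nat_lit 0) (XT.lf (nat_lit 76) (nat_lit 1344320578) (nat_lit 0) (nat_lit 4977112161) (nat_lit 1444) (nat_lit 1983770719) (nat_lit 510) (nat_lit 5) (nat_lit 509) (nat_lit 5) (nat_lit 528) (nat_lit 5) (nat_lit 415) (nat_lit 407) (nat_lit 318)) (XT.lf (nat_lit 76) (nat_lit 5555265648) (nat_lit 0) (nat_lit 2099325797) (nat_lit 1444) (nat_lit 714383674) (nat_lit 510) (nat_lit 5) (nat_lit 509) (nat_lit 5) (nat_lit 528) (nat_lit 5) (nat_lit 416) (nat_lit 407) (nat_lit 317))) (XT.nd (nat_lit 78) (nat_lit 0) (nat_lit 0) (XT.lf (nat_lit 0) (nat_lit 559030874) (nat_lit 1444) (nat_lit 7026327530) (nat_lit 1520) (nat_lit 848877091) (nat_lit 491) (nat_lit 5) (nat_lit 510) (nat_lit 5) (nat_lit 511) (nat_lit 5) (nat_lit 417) (nat_lit 407) (nat_lit 316)) (XT.nd (nat_lit 78)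 (nat_lit 0) (nat_lit 0) (XT.lf (nat_lit 0) (nat_lit 1853269866) (nat_lit 1444) (nat_lit 2785186393) (nat_lit 1520) (nat_lit 3862165359) (nat_lit 491) (nat_lit 5) (nat_lit 510) (nat_lit 5) (nat_lit 511) (nat_lit 5) (nat_lit 418) (nat_lit 407) (nat_lit 315)) (XT.lf (nat_lit 76) (nat_lit 1543270398) (nat_lit 0) (nat_lit 1612695599) (nat_lit 1520) (nat_lit 5412731170) (nat_lit 492) (nat_lit 5) (nat_lit 491) (nat_lit 5) (nat_lit 511) (nat_lit 5) (nat_lit 419) (nat_lit 407) (nat_lit 314)))))) (XT.nd (nat_lit 390) (nat_lit 1444) (nat_lit 0) (XT.nd (nat_lit 156) (nat_lit 1444) (nat_lit 0) (XT.nd (nat_lit 78) (nat_lit 0) (nat_lit 0) (XT.lf (nat_lit 0) (nat_lit 4486134483) (nat_lit 1444) (nat_lit 2669646438) (nat_lit 1520) (nat_lit 1482337832) (nat_lit 492) (nat_lit 5) (nat_lit 511) (nat_lit 5) (nat_lit 512) (nat_lit 5) (nat_lit 420) (nat_lit 407) (nat_lit 313)) (XT.lf (nat_lit 76) (nat_lit 1767868012) (nat_lit 0) (nat_lit 4070762414)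 (nat_lit 1520) (nat_lit 2870396504) (nat_lit 493) (nat_lit 5) (nat_lit 492) (nat_lit 5) (nat_lit 512) (nat_lit 5) (nat_lit 421) (nat_lit 407) (nat_lit 312))) (XT.nd (nat_lit 78) (nat_lit 1444) (nat_lit 0) (XT.lf (nat_lit 76) (nat_lit 6312550902) (nat_lit 0) (nat_lit 897508877) (nat_lit 1520) (nat_lit 1571468215) (nat_lit 493) (nat_lit 5) (nat_lit 492) (nat_lit 5) (nat_lit 512) (nat_lit 5) (nat_lit 422) (nat_lit 407) (nat_lit 311)) (XT.nd (nat_lit 78) (nat_lit 1520) (nat_lit 0) (XT.lf (nat_lit 76) (nat_lit 2086833523) (nat_lit 0) (nat_lit 6525352768) (nat_lit 1520) (nat_lit 243239567) (nat_lit 494) (nat_lit 5) (nat_lit 493) (nat_lit 5) (nat_lit 513) (nat_lit 5) (nat_lit 423) (nat_lit 407) (nat_lit 310)) (XT.lf (nat_lit 0) (nat_lit 1094334236) (nat_lit 1520) (nat_lit 2194738117) (nat_lit 1596) (nat_lit 5641649489) (nat_lit 473) (nat_lit 5) (nat_lit 493) (nat_lit 5) (nat_lit 494) (nat_lit 5) (nat_lit 424) (nat_lit 407)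 (nat_lit 309))))) (XT.nd (nat_lit 234) (nat_lit 1520) (nat_lit 0) (XT.nd (nat_lit 78) (nat_lit 0) (nat_lit 0) (XT.lf (nat_lit 0) (nat_lit 2447003606) (nat_lit 1520) (nat_lit 6524227200) (nat_lit 1596) (nat_lit 36440213) (nat_lit 474) (nat_lit 5) (nat_lit 494) (nat_lit 5) (nat_lit 495) (nat_lit 5) (nat_lit 425) (nat_lit 407) (nat_lit 308)) (XT.nd (nat_lit 78) (nat_lit 0) (nat_lit 0) (XT.lf (nat_lit 0) (nat_lit 3838979760) (nat_lit 1520) (nat_lit 1841097206) (nat_lit 1596) (nat_lit 3405848370) (nat_lit 474) (nat_lit 5) (nat_lit 494) (nat_lit 5) (nat_lit 495) (nat_lit 5) (nat_lit 426) (nat_lit 407) (nat_lit 307)) (XT.lf (nat_lit 76) (nat_lit 2956536819) (nat_lit 0) (nat_lit 2297578019) (nat_lit 1596) (nat_lit 3911734518) (nat_lit 475) (nat_lit 5) (nat_lit 474) (nat_lit 5) (nat_lit 495) (nat_lit 5) (nat_lit 427) (nat_lit 407) (nat_lit 306)))) (XT.nd (nat_lit 78) (nat_lit 1596) (nat_lit 0) (XT.lf (nat_lit 0) (nat_lit 6693985578)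 (nat_lit 1520) (nat_lit 1397944173) (nat_lit 1596) (nat_lit 1155524236) (nat_lit 475) (nat_lit 5) (nat_lit 495) (nat_lit 5) (nat_lit 496) (nat_lit 5) (nat_lit 428) (nat_lit 407) (nat_lit 305)) (XT.nd (nat_lit 78) (nat_lit 1596) (nat_lit 0) (XT.lf (nat_lit 76) (nat_lit 3522661226) (nat_lit 0) (nat_lit 4655053388) (nat_lit 1596) (nat_lit 1152685456) (nat_lit 476) (nat_lit 5) (nat_lit 475) (nat_lit 5) (nat_lit 496) (nat_lit 5) (nat_lit 429) (nat_lit 407) (nat_lit 304)) (XT.lf (nat_lit 0) (nat_lit 259083683) (nat_lit 1596) (nat_lit 874214568) (nat_lit 1672) (nat_lit 8281949298) (nat_lit 454) (nat_lit 5) (nat_lit 475) (nat_lit 5) (nat_lit 476) (nat_lit 5) (nat_lit 430) (nat_lit 407) (nat_lit 303))))))))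
noncomputable def xc165 : XT := (XT.nd (nat_lit 1638) (nat_lit 7752) (nat_lit 0) (XT.nd (nat_lit 780) (nat_lit 5016) (nat_lit 0) (XT.nd (nat_lit 390) (nat_lit 3800) (nat_lit 0) (XT.nd (nat_lit 156) (nat_lit 3268) (nat_lit 0) (XT.nd (nat_lit 78) (nat_lit 0) (nat_lit 0) (XT.lf (nat_lit 0) (nat_lit 1704677845) (nat_lit 1596) (nat_lit 5330327278) (nat_lit 76) (nat_lit 2466223958) (nat_lit 455) (nat_lit 5) (nat_lit 476) (nat_lit 5) (nat_lit 456) (nat_lit 5) (nat_lit 431) (nat_lit 407) (nat_lit 302)) (XT.lf (nat_lit 0) (nat_lit 3170544094) (nat_lit 1596) (nat_lit 285763165) (nat_lit 76) (nat_lit 6132805552) (nat_lit 455) (nat_lit 5) (nat_lit 476) (nat_lit 5) (nat_lit 456) (nat_lit 5) (nat_lit 432) (nat_lit 407) (nat_lit 301))) (XT.nd (nat_lit 78) (nat_lit 1672) (nat_lit 0) (XT.lf (nat_lit 0) (nat_lit 4677459033) (nat_lit 1672) (nat_lit 4773836290) (nat_lit 76) (nat_lit 227233846) (nat_lit 434) (nat_lit 5) (nat_lit 456) (nat_lit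 5) (nat_lit 435) (nat_lit 5) (nat_lit 433) (nat_lit 407) (nat_lit 300)) (XT.nd (nat_lit 78) (nat_lit 0) (nat_lit 0) (XT.lf (nat_lit 0) (nat_lit 397282251) (nat_lit 1672) (nat_lit 5823343553) (nat_lit 1748) (nat_lit 3548995171) (nat_lit 412) (nat_lit 5) (nat_lit 434) (nat_lit 5) (nat_lit 435) (nat_lit 5) (nat_lit 434) (nat_lit 407) (nat_lit 299)) (XT.lf (nat_lit 0) (nat_lit 5718491094) (nat_lit 1672) (nat_lit 2087214332) (nat_lit 1748) (nat_lit 2056617410) (nat_lit 412) (nat_lit 5) (nat_lit 434) (nat_lit 5) (nat_lit 435) (nat_lit 5) (nat_lit 435) (nat_lit 407) (nat_lit 298))))) (XT.nd (nat_lit 156) (nat_lit 1976) (nat_lit 0) (XT.nd (nat_lit 78) (nat_lit 76) (nat_lit 0) (XT.lf (nat_lit 0) (nat_lit 1175341052) (nat_lit 1748) (nat_lit 8245412452) (nat_lit 1824) (nat_lit 536168920) (nat_lit 389) (nat_lit 5) (nat_lit 412) (nat_lit 5) (nat_lit 413) (nat_lit 5) (nat_lit 436) (nat_lit 407) (nat_lit 297)) (XT.lf (nat_lit 0) (nat_lit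 1022782696) (nat_lit 1824) (nat_lit 3434673438) (nat_lit 76) (nat_lit 5595406748) (nat_lit 388) (nat_lit 5) (nat_lit 412) (nat_lit 5) (nat_lit 389) (nat_lit 5) (nat_lit 437) (nat_lit 407) (nat_lit 296))) (XT.nd (nat_lit 78) (nat_lit 912) (nat_lit 0) (XT.lf (nat_lit 0) (nat_lit 2024239925) (nat_lit 1064) (nat_lit 574631697) (nat_lit 1140) (nat_lit 7551925400) (nat_lit 374) (nat_lit 5) (nat_lit 388) (nat_lit 5) (nat_lit 389) (nat_lit 5) (nat_lit 438) (nat_lit 407) (nat_lit 295)) (XT.nd (nat_lit 78) (nat_lit 912) (nat_lit 0) (XT.lf (nat_lit 0) (nat_lit 4231943997) (nat_lit 1140) (nat_lit 2651703014) (nat_lit 76) (nat_lit 3366541943) (nat_lit 374) (nat_lit 5) (nat_lit 389) (nat_lit 5) (nat_lit 375) (nat_lit 5) (nat_lit 439) (nat_lit 407) (nat_lit 294)) (XT.lf (nat_lit 0) (nat_lit 2949657564) (nat_lit 912) (nat_lit 2951640997) (nat_lit 988) (nat_lit 4450205922) (nat_lit 362) (nat_lit 5) (nat_lit 374) (nat_lit 5) (nat_lit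 375) (nat_lit 5) (nat_lit 440) (nat_lit 407) (nat_lit 293)))))) (XT.nd (nat_lit 390) (nat_lit 2432) (nat_lit 0) (XT.nd (nat_lit 156) (nat_lit 1748) (nat_lit 0) (XT.nd (nat_lit 78) (nat_lit 836) (nat_lit 0) (XT.lf (nat_lit 0) (nat_lit 7609764688) (nat_lit 988) (nat_lit 1780644983) (nat_lit 76) (nat_lit 1064330181) (nat_lit 362) (nat_lit 5) (nat_lit 375) (nat_lit 5) (nat_lit 363) (nat_lit 5) (nat_lit 441) (nat_lit 407) (nat_lit 292)) (XT.lf (nat_lit 0) (nat_lit 3967675553) (nat_lit 836) (nat_lit 5411342988) (nat_lit 912) (nat_lit 1180496877) (nat_lit 351) (nat_lit 5) (nat_lit 362) (nat_lit 5) (nat_lit 363) (nat_lit 5) (nat_lit 442) (nat_lit 407) (nat_lit 291))) (XT.nd (nat_lit 78) (nat_lit 1672) (nat_lit 0) (XT.lf (nat_lit 0) (nat_lit 503947382) (nat_lit 912) (nat_lit 832417665) (nat_lit 76) (nat_lit 9330092626) (nat_lit 350) (nat_lit 5) (nat_lit 362) (nat_lit 5) (nat_lit 351) (nat_lit 5) (nat_lit 443) (nat_lit 407) (nat_lit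 290)) (XT.nd (nat_lit 78) (nat_lit 836) (nat_lit 0) (XT.lf (nat_lit 0) (nat_lit 2239674498) (nat_lit 912) (nat_lit 5710213096) (nat_lit 76) (nat_lit 2824834503) (nat_lit 339) (nat_lit 5) (nat_lit 351) (nat_lit 5) (nat_lit 340) (nat_lit 5) (nat_lit 444) (nat_lit 407) (nat_lit 289)) (XT.lf (nat_lit 0) (nat_lit 181273524) (nat_lit 836) (nat_lit 3826535772) (nat_lit 912) (nat_lit 6877395914) (nat_lit 328) (nat_lit 5) (nat_lit 339) (nat_lit 5) (nat_lit 340) (nat_lit 5) (nat_lit 445) (nat_lit 407) (nat_lit 288))))) (XT.nd (nat_lit 234) (nat_lit 1596) (nat_lit 0) (XT.nd (nat_lit 78) (nat_lit 836) (nat_lit 0) (XT.lf (nat_lit 0) (nat_lit 5834621867) (nat_lit 912) (nat_lit 4749933383) (nat_lit 76) (nat_lit 412883552) (nat_lit 328) (nat_lit 5) (nat_lit 340) (nat_lit 5) (nat_lit 329) (nat_lit 5) (nat_lit 446) (nat_lit 407) (nat_lit 287)) (XT.nd (nat_lit 78) (nat_lit 0) (nat_lit 0) (XT.lf (nat_lit 0) (nat_lit 1297090890) (nat_lit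 836) (nat_lit 6417270334) (nat_lit 912) (nat_lit 3397235009) (nat_lit 317) (nat_lit 5) (nat_lit 328) (nat_lit 5) (nat_lit 329) (nat_lit 5) (nat_lit 447) (nat_lit 407) (nat_lit 286)) (XT.lf (nat_lit 0) (nat_lit 7511834574) (nat_lit 836) (nat_lit 2134589326) (nat_lit 912) (nat_lit 1581325184) (nat_lit 317) (nat_lit 5) (nat_lit 328) (nat_lit 5) (nat_lit 329) (nat_lit 5) (nat_lit 448) (nat_lit 407) (nat_lit 285)))) (XT.nd (nat_lit 78) (nat_lit 760) (nat_lit 0) (XT.lf (nat_lit 0) (nat_lit 281392628) (nat_lit 836) (nat_lit 8842402246) (nat_lit 76) (nat_lit 2222120663) (nat_lit 306) (nat_lit 5) (nat_lit 317) (nat_lit 5) (nat_lit 307) (nat_lit 5) (nat_lit 449) (nat_lit 407) (nat_lit 284)) (XT.nd (nat_lit 78) (nat_lit 760) (nat_lit 0) (XT.lf (nat_lit 0) (nat_lit 2182734841) (nat_lit 836) (nat_lit 2610735736) (nat_lit 76) (nat_lit 6672321257) (nat_lit 306) (nat_lit 5) (nat_lit 317) (nat_lit 5) (nat_lit 307) (nat_lit 5) (nat_lit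 450) (nat_lit 407) (nat_lit 283)) (XT.lf (nat_lit 0) (nat_lit 3777742086) (nat_lit 760) (nat_lit 352504088) (nat_lit 836) (nat_lit 7457662959) (nat_lit 296) (nat_lit 5) (nat_lit 306) (nat_lit 5) (nat_lit 307) (nat_lit 5) (nat_lit 451) (nat_lit 407) (nat_lit 282))))))) (XT.nd (nat_lit 858) (nat_lit 3572) (nat_lit 0) (XT.nd (nat_lit 390) (nat_lit 1976) (nat_lit 0) (XT.nd (nat_lit 156) (nat_lit 1520) (nat_lit 0) (XT.nd (nat_lit 78) (nat_lit 684) (nat_lit 0) (XT.lf (nat_lit 0) (nat_lit 6145281785) (nat_lit 836) (nat_lit 1427553667) (nat_lit 76) (nat_lit 4139068042) (nat_lit 296) (nat_lit 5) (nat_lit 307) (nat_lit 5) (nat_lit 297) (nat_lit 5) (nat_lit 452) (nat_lit 407) (nat_lit 281)) (XT.lf (nat_lit 0) (nat_lit 5130432448) (nat_lit 684) (nat_lit 3089964541) (nat_lit 760) (nat_lit 3617591250) (nat_lit 287) (nat_lit 5) (nat_lit 296) (nat_lit 5) (nat_lit 297) (nat_lit 5) (nat_lit 453) (nat_lit 407) (nat_lit 280))) (XT.nd (nat_lit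 78) (nat_lit 1520) (nat_lit 0) (XT.lf (nat_lit 0) (nat_lit 10340608133) (nat_lit 760) (nat_lit 154591254) (nat_lit 76) (nat_lit 1471329378) (nat_lit 287) (nat_lit 5) (nat_lit 297) (nat_lit 5) (nat_lit 288) (nat_lit 5) (nat_lit 454) (nat_lit 407) (nat_lit 279)) (XT.nd (nat_lit 78) (nat_lit 684) (nat_lit 0) (XT.lf (nat_lit 0) (nat_lit 448380148) (nat_lit 836) (nat_lit 5521483128) (nat_lit 76) (nat_lit 6126767562) (nat_lit 276) (nat_lit 5) (nat_lit 287) (nat_lit 5) (nat_lit 277) (nat_lit 5) (nat_lit 455) (nat_lit 407) (nat_lit 278)) (XT.lf (nat_lit 0) (nat_lit 1200044349) (nat_lit 684) (nat_lit 1335924704) (nat_lit 760) (nat_lit 9693285102) (nat_lit 267) (nat_lit 5) (nat_lit 276) (nat_lit 5) (nat_lit 277) (nat_lit 5) (nat_lit 456) (nat_lit 407) (nat_lit 277))))) (XT.nd (nat_lit 234) (nat_lit 1292) (nat_lit 0) (XT.nd (nat_lit 78) (nat_lit 684) (nat_lit 0) (XT.lf (nat_lit 0) (nat_lit 4709514902) (nat_lit 760) (nat_lit 4272565546)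 (nat_lit 76) (nat_lit 3381570890) (nat_lit 267) (nat_lit 5) (nat_lit 277) (nat_lit 5) (nat_lit 268) (nat_lit 5) (nat_lit 457) (nat_lit 407) (nat_lit 276)) (XT.nd (nat_lit 78) (nat_lit 0) (nat_lit 0) (XT.lf (nat_lit 0) (nat_lit 2627804842) (nat_lit 684) (nat_lit 4309824776) (nat_lit 760) (nat_lit 5562890281) (nat_lit 258) (nat_lit 5) (nat_lit 267) (nat_lit 5) (nat_lit 268) (nat_lit 5) (nat_lit 458) (nat_lit 407) (nat_lit 275)) (XT.lf (nat_lit 0) (nat_lit 9227482624) (nat_lit 760) (nat_lit 2935798529) (nat_lit 76) (nat_lit 476506448) (nat_lit 258) (nat_lit 5) (nat_lit 268) (nat_lit 5) (nat_lit 259) (nat_lit 5) (nat_lit 459) (nat_lit 407) (nat_lit 274)))) (XT.nd (nat_lit 78) (nat_lit 684) (nat_lit 0) (XT.lf (nat_lit 0) (nat_lit 4148869987) (nat_lit 608) (nat_lit 7455384066) (nat_lit 684) (nat_lit 1176769363) (nat_lit 250) (nat_lit 5) (nat_lit 258) (nat_lit 5) (nat_lit 259) (nat_lit 5) (nat_lit 460) (nat_lit 407) (nat_lit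 273)) (XT.nd (nat_lit 78) (nat_lit 608) (nat_lit 0) (XT.lf (nat_lit 0) (nat_lit 1094551983) (nat_lit 684) (nat_lit 1533899045) (nat_lit 76) (nat_lit 10296383666) (nat_lit 249) (nat_lit 5) (nat_lit 258) (nat_lit 5) (nat_lit 250) (nat_lit 5) (nat_lit 461) (nat_lit 407) (nat_lit 272)) (XT.lf (nat_lit 0) (nat_lit 3434117804) (nat_lit 684) (nat_lit 7328659123) (nat_lit 76) (nat_lit 2307823089) (nat_lit 241) (nat_lit 5) (nat_lit 250) (nat_lit 5) (nat_lit 242) (nat_lit 5) (nat_lit 462) (nat_lit 407) (nat_lit 271)))))) (XT.nd (nat_lit 390) (nat_lit 1748) (nat_lit 0) (XT.nd (nat_lit 156) (nat_lit 1216) (nat_lit 0) (XT.nd (nat_lit 78) (nat_lit 608) (nat_lit 0) (XT.lf (nat_lit 0) (nat_lit 5834389673) (nat_lit 684) (nat_lit 69224170) (nat_lit 76) (nat_lit 7315393296) (nat_lit 241) (nat_lit 5) (nat_lit 250) (nat_lit 5) (nat_lit 242) (nat_lit 5) (nat_lit 463) (nat_lit 407) (nat_lit 270)) (XT.lf (nat_lit 0) (nat_lit 7416229071) (nat_lit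 608) (nat_lit 901006963) (nat_lit 684) (nat_lit 5052459688) (nat_lit 233) (nat_lit 5) (nat_lit 241) (nat_lit 5) (nat_lit 242) (nat_lit 5) (nat_lit 464) (nat_lit 407) (nat_lit 269))) (XT.nd (nat_lit 78) (nat_lit 608) (nat_lit 0) (XT.lf (nat_lit 0) (nat_lit 1504812206) (nat_lit 608) (nat_lit 9369004289) (nat_lit 684) (nat_lit 2649104642) (nat_lit 225) (nat_lit 5) (nat_lit 233) (nat_lit 5) (nat_lit 234) (nat_lit 5) (nat_lit 465) (nat_lit 407) (nat_lit 268)) (XT.nd (nat_lit 78) (nat_lit 608) (nat_lit 0) (XT.lf (nat_lit 0) (nat_lit 9170438674) (nat_lit 608) (nat_lit 4343684467) (nat_lit 684) (nat_lit 164440540) (nat_lit 225) (nat_lit 5) (nat_lit 233) (nat_lit 5) (nat_lit 234) (nat_lit 5) (nat_lit 466) (nat_lit 407) (nat_lit 267)) (XT.lf (nat_lit 0) (nat_lit 2351544559) (nat_lit 608) (nat_lit 10680351483) (nat_lit 76) (nat_lit 804865441) (nat_lit 217) (nat_lit 5) (nat_lit 225) (nat_lit 5) (nat_lit 218) (nat_lit 5) (nat_lit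 467) (nat_lit 407) (nat_lit 266))))) (XT.nd (nat_lit 234) (nat_lit 1140) (nat_lit 0) (XT.nd (nat_lit 78) (nat_lit 608) (nat_lit 0) (XT.lf (nat_lit 0) (nat_lit 4961884445) (nat_lit 608) (nat_lit 3008692241) (nat_lit 76) (nat_lit 6026604330) (nat_lit 217) (nat_lit 5) (nat_lit 225) (nat_lit 5) (nat_lit 218) (nat_lit 5) (nat_lit 468) (nat_lit 407) (nat_lit 265)) (XT.nd (nat_lit 78) (nat_lit 0) (nat_lit 0) (XT.lf (nat_lit 0) (nat_lit 4864052825) (nat_lit 608) (nat_lit 2779230066) (nat_lit 684) (nat_lit 6517153184) (nat_lit 209) (nat_lit 5) (nat_lit 217) (nat_lit 5) (nat_lit 218) (nat_lit 5) (nat_lit 469) (nat_lit 407) (nat_lit 264)) (XT.lf (nat_lit 0) (nat_lit 10402362282) (nat_lit 684) (nat_lit 1424252365) (nat_lit 76) (nat_lit 2499864619) (nat_lit 209) (nat_lit 5) (nat_lit 218) (nat_lit 5) (nat_lit 210) (nat_lit 5) (nat_lit 470) (nat_lit 407) (nat_lit 263)))) (XT.nd (nat_lit 78) (nat_lit 608) (nat_lit 0) (XT.lf (nat_lit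 0) (nat_lit 6658291852) (nat_lit 532) (nat_lit 6607608307) (nat_lit 608) (nat_lit 1228961630) (nat_lit 202) (nat_lit 5) (nat_lit 209) (nat_lit 5) (nat_lit 210) (nat_lit 5) (nat_lit 471) (nat_lit 407) (nat_lit 262)) (XT.nd (nat_lit 78) (nat_lit 0) (nat_lit 0) (XT.lf (nat_lit 0) (nat_lit 232477542) (nat_lit 532) (nat_lit 1266509136) (nat_lit 608) (nat_lit 13167455225) (nat_lit 194) (nat_lit 5) (nat_lit 201) (nat_lit 5) (nat_lit 202) (nat_lit 5) (nat_lit 472) (nat_lit 407) (nat_lit 261)) (XT.lf (nat_lit 0) (nat_lit 4332947532) (nat_lit 608) (nat_lit 6323033118) (nat_lit 76) (nat_lit 4183956090) (nat_lit 194) (nat_lit 5) (nat_lit 202) (nat_lit 5) (nat_lit 195) (nat_lit 5) (nat_lit 473) (nat_lit 407) (nat_lit 260))))))))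
noncomputable def xc166 : XT := (XT.nd (nat_lit 1638) (nat_lit 1444) (nat_lit 0) (XT.nd (nat_lit 780) (nat_lit 2508) (nat_lit 0) (XT.nd (nat_lit 390) (nat_lit 1444) (nat_lit 0) (XT.nd (nat_lit 156) (nat_lit 1064) (nat_lit 0) (XT.nd (nat_lit 78) (nat_lit 0) (nat_lit 0) (XT.lf (nat_lit 0) (nat_lit 1951511532) (nat_lit 456) (nat_lit 5281182801) (nat_lit 532) (nat_lit 7784028709) (nat_lit 188) (nat_lit 5) (nat_lit 194) (nat_lit 5) (nat_lit 195) (nat_lit 5) (nat_lit 474) (nat_lit 407) (nat_lit 259)) (XT.lf (nat_lit 0) (nat_lit 10222609542) (nat_lit 532) (nat_lit 4736448640) (nat_lit 76) (nat_lit 237347050) (nat_lit 188) (nat_lit 5) (nat_lit 195) (nat_lit 5) (nat_lit 189) (nat_lit 5) (nat_lit 475) (nat_lit 407) (nat_lit 258))) (XT.nd (nat_lit 78) (nat_lit 532) (nat_lit 0) (XT.lf (nat_lit 0) (nat_lit 3757585495) (nat_lit 532) (nat_lit 9562497100) (nat_lit 608) (nat_lit 2058646839) (nat_lit 181) (nat_lit 5) (nat_lit 188) (nat_lit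 5) (nat_lit 189) (nat_lit 5) (nat_lit 476) (nat_lit 407) (nat_lit 257)) (XT.nd (nat_lit 78) (nat_lit 456) (nat_lit 0) (XT.lf (nat_lit 0) (nat_lit 923237288) (nat_lit 608) (nat_lit 3100175414) (nat_lit 76) (nat_lit 11540763447) (nat_lit 180) (nat_lit 5) (nat_lit 188) (nat_lit 5) (nat_lit 181) (nat_lit 5) (nat_lit 477) (nat_lit 407) (nat_lit 256)) (XT.lf (nat_lit 0) (nat_lit 3973342016) (nat_lit 532) (nat_lit 10127283783) (nat_lit 76) (nat_lit 1651714235) (nat_lit 174) (nat_lit 5) (nat_lit 181) (nat_lit 5) (nat_lit 175) (nat_lit 5) (nat_lit 478) (nat_lit 407) (nat_lit 255))))) (XT.nd (nat_lit 156) (nat_lit 988) (nat_lit 0) (XT.nd (nat_lit 78) (nat_lit 456) (nat_lit 0) (XT.lf (nat_lit 0) (nat_lit 7120794872) (nat_lit 532) (nat_lit 1419275986) (nat_lit 76) (nat_lit 7403472707) (nat_lit 174) (nat_lit 5) (nat_lit 181) (nat_lit 5) (nat_lit 175) (nat_lit 5) (nat_lit 479) (nat_lit 407) (nat_lit 254)) (XT.lf (nat_lit 0) (nat_lit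 7546713353) (nat_lit 456) (nat_lit 2822461438) (nat_lit 532) (nat_lit 5768640039) (nat_lit 168) (nat_lit 5) (nat_lit 174) (nat_lit 5) (nat_lit 175) (nat_lit 5) (nat_lit 480) (nat_lit 407) (nat_lit 253))) (XT.nd (nat_lit 78) (nat_lit 532) (nat_lit 0) (XT.lf (nat_lit 0) (nat_lit 345154474) (nat_lit 456) (nat_lit 13357806746) (nat_lit 532) (nat_lit 2632604682) (nat_lit 162) (nat_lit 5) (nat_lit 168) (nat_lit 5) (nat_lit 169) (nat_lit 5) (nat_lit 481) (nat_lit 407) (nat_lit 252)) (XT.nd (nat_lit 78) (nat_lit 456) (nat_lit 0) (XT.lf (nat_lit 0) (nat_lit 624562977) (nat_lit 532) (nat_lit 6997575261) (nat_lit 76) (nat_lit 8913746545) (nat_lit 161) (nat_lit 5) (nat_lit 168) (nat_lit 5) (nat_lit 162) (nat_lit 5) (nat_lit 482) (nat_lit 407) (nat_lit 251)) (XT.lf (nat_lit 0) (nat_lit 2171161229) (nat_lit 456) (nat_lit 1743917609) (nat_lit 532) (nat_lit 12824717042) (nat_lit 155) (nat_lit 5) (nat_lit 161) (nat_lit 5) (nat_lit 162)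 (nat_lit 5) (nat_lit 483) (nat_lit 407) (nat_lit 250)))))) (XT.nd (nat_lit 390) (nat_lit 1596) (nat_lit 0) (XT.nd (nat_lit 156) (nat_lit 532) (nat_lit 0) (XT.nd (nat_lit 78) (nat_lit 380) (nat_lit 0) (XT.lf (nat_lit 0) (nat_lit 7335689613) (nat_lit 532) (nat_lit 5371720980) (nat_lit 76) (nat_lit 4239091835) (nat_lit 155) (nat_lit 5) (nat_lit 162) (nat_lit 5) (nat_lit 156) (nat_lit 5) (nat_lit 484) (nat_lit 407) (nat_lit 249)) (XT.lf (nat_lit 0) (nat_lit 4035722407) (nat_lit 380) (nat_lit 6816359809) (nat_lit 456) (nat_lit 6304716360) (nat_lit 150) (nat_lit 5) (nat_lit 155) (nat_lit 5) (nat_lit 156) (nat_lit 5) (nat_lit 485) (nat_lit 407) (nat_lit 248))) (XT.nd (nat_lit 78) (nat_lit 532) (nat_lit 0) (XT.lf (nat_lit 0) (nat_lit 13689438390) (nat_lit 380) (nat_lit 775137446) (nat_lit 456) (nat_lit 2906212155) (nat_lit 150) (nat_lit 5) (nat_lit 155) (nat_lit 5) (nat_lit 156) (nat_lit 5) (nat_lit 486) (nat_lit 407) (nat_lit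 247)) (XT.nd (nat_lit 78) (nat_lit 0) (nat_lit 0) (XT.lf (nat_lit 0) (nat_lit 617008086) (nat_lit 532) (nat_lit 11615852761) (nat_lit 76) (nat_lit 5354844415) (nat_lit 143) (nat_lit 5) (nat_lit 150) (nat_lit 5) (nat_lit 144) (nat_lit 5) (nat_lit 487) (nat_lit 407) (nat_lit 246)) (XT.lf (nat_lit 0) (nat_lit 4191750251) (nat_lit 532) (nat_lit 1979609767) (nat_lit 76) (nat_lit 11636819869) (nat_lit 143) (nat_lit 5) (nat_lit 150) (nat_lit 5) (nat_lit 144) (nat_lit 5) (nat_lit 488) (nat_lit 407) (nat_lit 245))))) (XT.nd (nat_lit 234) (nat_lit 836) (nat_lit 0) (XT.nd (nat_lit 78) (nat_lit 380) (nat_lit 0) (XT.lf (nat_lit 0) (nat_lit 7880051609) (nat_lit 456) (nat_lit 10093471004) (nat_lit 76) (nat_lit 58702698) (nat_lit 138) (nat_lit 5) (nat_lit 144) (nat_lit 5) (nat_lit 139) (nat_lit 5) (nat_lit 489) (nat_lit 407) (nat_lit 244)) (XT.nd (nat_lit 78) (nat_lit 380) (nat_lit 0) (XT.lf (nat_lit 0) (nat_lit 11686565066) (nat_lit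 456) (nat_lit 233531832) (nat_lit 76) (nat_lit 6339768367) (nat_lit 138) (nat_lit 5) (nat_lit 144) (nat_lit 5) (nat_lit 139) (nat_lit 5) (nat_lit 490) (nat_lit 407) (nat_lit 243)) (XT.lf (nat_lit 0) (nat_lit 9939843707) (nat_lit 380) (nat_lit 5684297162) (nat_lit 456) (nat_lit 2866820999) (nat_lit 133) (nat_lit 5) (nat_lit 138) (nat_lit 5) (nat_lit 139) (nat_lit 5) (nat_lit 491) (nat_lit 407) (nat_lit 242)))) (XT.nd (nat_lit 78) (nat_lit 380) (nat_lit 0) (XT.lf (nat_lit 0) (nat_lit 908636913) (nat_lit 456) (nat_lit 17136992281) (nat_lit 76) (nat_lit 680798273) (nat_lit 127) (nat_lit 5) (nat_lit 133) (nat_lit 5) (nat_lit 128) (nat_lit 5) (nat_lit 492) (nat_lit 407) (nat_lit 241)) (XT.nd (nat_lit 78) (nat_lit 380) (nat_lit 0) (XT.lf (nat_lit 0) (nat_lit 4807154386) (nat_lit 456) (nat_lit 6987983210) (nat_lit 76) (nat_lit 7169369395) (nat_lit 127) (nat_lit 5) (nat_lit 133) (nat_lit 5) (nat_lit 128) (nat_lit 5) (nat_lit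 493) (nat_lit 407) (nat_lit 240)) (XT.lf (nat_lit 0) (nat_lit 3394574734) (nat_lit 380) (nat_lit 5401788070) (nat_lit 456) (nat_lit 10410733192) (nat_lit 122) (nat_lit 5) (nat_lit 127) (nat_lit 5) (nat_lit 128) (nat_lit 5) (nat_lit 494) (nat_lit 407) (nat_lit 239))))))) (XT.nd (nat_lit 52806) (nat_lit 0) (nat_lit 29412) (XT.nd (nat_lit 390) (nat_lit 684) (nat_lit 0) (XT.nd (nat_lit 156) (nat_lit 456) (nat_lit 0) (XT.nd (nat_lit 78) (nat_lit 304) (nat_lit 0) (XT.lf (nat_lit 0) (nat_lit 12910570481) (nat_lit 456) (nat_lit 5395686436) (nat_lit 76) (nat_lit 1147377818) (nat_lit 122) (nat_lit 5) (nat_lit 128) (nat_lit 5) (nat_lit 123) (nat_lit 5) (nat_lit 495) (nat_lit 407) (nat_lit 238)) (XT.lf (nat_lit 0) (nat_lit 5248808881) (nat_lit 304) (nat_lit 11919030533) (nat_lit 380) (nat_lit 2536051507) (nat_lit 118) (nat_lit 5) (nat_lit 122) (nat_lit 5) (nat_lit 123) (nat_lit 5) (nat_lit 496) (nat_lit 407) (nat_lit 237))) (XT.nd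 (nat_lit 78) (nat_lit 380) (nat_lit 0) (XT.lf (nat_lit 0) (nat_lit 1558158787) (nat_lit 380) (nat_lit 3803178386) (nat_lit 76) (nat_lit 14597067763) (nat_lit 117) (nat_lit 5) (nat_lit 122) (nat_lit 5) (nat_lit 118) (nat_lit 5) (nat_lit 497) (nat_lit 407) (nat_lit 236)) (XT.nd (nat_lit 78) (nat_lit 0) (nat_lit 0) (XT.lf (nat_lit 0) (nat_lit 5746723492) (nat_lit 456) (nat_lit 13101025162) (nat_lit 76) (nat_lit 1368998840) (nat_lit 112) (nat_lit 5) (nat_lit 118) (nat_lit 5) (nat_lit 113) (nat_lit 5) (nat_lit 498) (nat_lit 407) (nat_lit 235)) (XT.lf (nat_lit 0) (nat_lit 10071442113) (nat_lit 456) (nat_lit 2224429408) (nat_lit 76) (nat_lit 8183339771) (nat_lit 112) (nat_lit 5) (nat_lit 118) (nat_lit 5) (nat_lit 113) (nat_lit 5) (nat_lit 499) (nat_lit 407) (nat_lit 234))))) (XT.nd (nat_lit 52182) (nat_lit 0) (nat_lit 30704) (XT.nd (nat_lit 78) (nat_lit 380) (nat_lit 0) (XT.lf (nat_lit 0) (nat_lit 8974098586) (nat_lit 304)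 (nat_lit 5558181866) (nat_lit 380) (nat_lit 6213653413) (nat_lit 108) (nat_lit 5) (nat_lit 112) (nat_lit 5) (nat_lit 113) (nat_lit 5) (nat_lit 500) (nat_lit 407) (nat_lit 233)) (XT.nd (nat_lit 78) (nat_lit 380) (nat_lit 0) (XT.lf (nat_lit 0) (nat_lit 19097307560) (nat_lit 380) (nat_lit 612926402) (nat_lit 76) (nat_lit 1307459452) (nat_lit 108) (nat_lit 5) (nat_lit 113) (nat_lit 5) (nat_lit 109) (nat_lit 5) (nat_lit 501) (nat_lit 407) (nat_lit 232)) (XT.lf (nat_lit 0) (nat_lit 2526065265) (nat_lit 380) (nat_lit 10447816056) (nat_lit 76) (nat_lit 8318698144) (nat_lit 103) (nat_lit 5) (nat_lit 108) (nat_lit 5) (nat_lit 104) (nat_lit 5) (nat_lit 502) (nat_lit 407) (nat_lit 231)))) (XT.nd (nat_lit 78) (nat_lit 1368) (nat_lit 0) (XT.lf (nat_lit 0) (nat_lit 1637493704) (nat_lit 0) (nat_lit 1637493704) (nat_lit 1292) (nat_lit 700656657) (nat_lit 525) (nat_lit 5) (nat_lit 525) (nat_lit 3) (nat_lit 542) (nat_lit 3) (nat_lit 408)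 (nat_lit 408) (nat_lit 324)) (XT.nd (nat_lit 78) (nat_lit 1368) (nat_lit 0) (XT.lf (nat_lit 0) (nat_lit 7124834735) (nat_lit 0) (nat_lit 690573155) (nat_lit 1292) (nat_lit 190783254) (nat_lit 525) (nat_lit 5) (nat_lit 525) (nat_lit 3) (nat_lit 542) (nat_lit 3) (nat_lit 409) (nat_lit 408) (nat_lit 323)) (XT.lf (nat_lit 0) (nat_lit 1030990046) (nat_lit 1368) (nat_lit 5069264535) (nat_lit 1444) (nat_lit 1961803306) (nat_lit 507) (nat_lit 5) (nat_lit 525) (nat_lit 5) (nat_lit 526) (nat_lit 5) (nat_lit 410) (nat_lit 408) (nat_lit 322)))))) (XT.nd (nat_lit 390) (nat_lit 1292) (nat_lit 0) (XT.nd (nat_lit 156) (nat_lit 0) (nat_lit 76) (XT.nd (nat_lit 78) (nat_lit 0) (nat_lit 0) (XT.lf (nat_lit 0) (nat_lit 2254089886) (nat_lit 1368) (nat_lit 1185231600) (nat_lit 1444) (nat_lit 4680121755) (nat_lit 507) (nat_lit 5) (nat_lit 525) (nat_lit 5) (nat_lit 526) (nat_lit 5) (nat_lit 411) (nat_lit 408) (nat_lit 321)) (XT.lf (nat_lit 76)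 (nat_lit 2796685454) (nat_lit 0) (nat_lit 692650095) (nat_lit 1444) (nat_lit 4688902183) (nat_lit 508) (nat_lit 5) (nat_lit 507) (nat_lit 5) (nat_lit 526) (nat_lit 5) (nat_lit 412) (nat_lit 408) (nat_lit 320))) (XT.nd (nat_lit 78) (nat_lit 0) (nat_lit 0) (XT.lf (nat_lit 0) (nat_lit 4741090615) (nat_lit 1368) (nat_lit 1394557523) (nat_lit 1444) (nat_lit 2102738696) (nat_lit 508) (nat_lit 5) (nat_lit 526) (nat_lit 5) (nat_lit 527) (nat_lit 5) (nat_lit 413) (nat_lit 408) (nat_lit 319)) (XT.nd (nat_lit 78) (nat_lit 0) (nat_lit 0) (XT.lf (nat_lit 76) (nat_lit 2686083159) (nat_lit 0) (nat_lit 3324516265) (nat_lit 1444) (nat_lit 2289299642) (nat_lit 509) (nat_lit 5) (nat_lit 508) (nat_lit 5) (nat_lit 527) (nat_lit 5) (nat_lit 414) (nat_lit 408) (nat_lit 318)) (XT.lf (nat_lit 76) (nat_lit 6850615008) (nat_lit 0) (nat_lit 435400068) (nat_lit 1444) (nat_lit 1077030369) (nat_lit 509) (nat_lit 5) (nat_lit 508) (nat_lit 5) (nat_lit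 527) (nat_lit 5) (nat_lit 415) (nat_lit 408) (nat_lit 317))))) (XT.nd (nat_lit 234) (nat_lit 0) (nat_lit 76) (XT.nd (nat_lit 78) (nat_lit 0) (nat_lit 0) (XT.lf (nat_lit 0) (nat_lit 162876486) (nat_lit 1444) (nat_lit 5755657198) (nat_lit 1520) (nat_lit 2508804365) (nat_lit 490) (nat_lit 5) (nat_lit 509) (nat_lit 5) (nat_lit 510) (nat_lit 5) (nat_lit 416) (nat_lit 408) (nat_lit 316)) (XT.nd (nat_lit 78) (nat_lit 0) (nat_lit 76) (XT.lf (nat_lit 0) (nat_lit 1398321347) (nat_lit 1444) (nat_lit 1560050892) (nat_lit 1520) (nat_lit 5534712071) (nat_lit 490) (nat_lit 5) (nat_lit 509) (nat_lit 5) (nat_lit 510) (nat_lit 5) (nat_lit 417) (nat_lit 408) (nat_lit 315)) (XT.lf (nat_lit 0) (nat_lit 2649433252) (nat_lit 1444) (nat_lit 5822441766) (nat_lit 1520) (nat_lit 88464467) (nat_lit 491) (nat_lit 5) (nat_lit 510) (nat_lit 5) (nat_lit 511) (nat_lit 5) (nat_lit 418) (nat_lit 408) (nat_lit 314)))) (XT.nd (nat_lit 78) (nat_lit 0) (nat_lit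 0) (XT.lf (nat_lit 0) (nat_lit 3928787970) (nat_lit 1444) (nat_lit 1522838831) (nat_lit 1520) (nat_lit 3177261445) (nat_lit 491) (nat_lit 5) (nat_lit 510) (nat_lit 5) (nat_lit 511) (nat_lit 5) (nat_lit 419) (nat_lit 408) (nat_lit 313)) (XT.nd (nat_lit 78) (nat_lit 0) (nat_lit 76) (XT.lf (nat_lit 76) (nat_lit 2883515705) (nat_lit 0) (nat_lit 2342554020) (nat_lit 1520) (nat_lit 3472904099) (nat_lit 492) (nat_lit 5) (nat_lit 491) (nat_lit 5) (nat_lit 511) (nat_lit 5) (nat_lit 420) (nat_lit 408) (nat_lit 312)) (XT.lf (nat_lit 0) (nat_lit 6539048444) (nat_lit 1444) (nat_lit 1394601625) (nat_lit 1520) (nat_lit 837028411) (nat_lit 492) (nat_lit 5) (nat_lit 511) (nat_lit 5) (nat_lit 512) (nat_lit 5) (nat_lit 421) (nat_lit 408) (nat_lit 311))))))))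
noncomputable def xc167 : XT := (XT.nd (nat_lit 1638) (nat_lit 9804) (nat_lit 0) (XT.nd (nat_lit 780) (nat_lit 6992) (nat_lit 0) (XT.nd (nat_lit 390) (nat_lit 1368) (nat_lit 0) (XT.nd (nat_lit 156) (nat_lit 0) (nat_lit 76) (XT.nd (nat_lit 78) (nat_lit 1520) (nat_lit 0) (XT.lf (nat_lit 76) (nat_lit 3122923392) (nat_lit 0) (nat_lit 4765745322) (nat_lit 1520) (nat_lit 954953027) (nat_lit 493) (nat_lit 5) (nat_lit 492) (nat_lit 5) (nat_lit 512) (nat_lit 5) (nat_lit 422) (nat_lit 408) (nat_lit 310)) (XT.lf (nat_lit 0) (nat_lit 326925794) (nat_lit 1520) (nat_lit 1187876338) (nat_lit 1596) (nat_lit 7403503869) (nat_lit 472) (nat_lit 5) (nat_lit 492) (nat_lit 5) (nat_lit 493) (nat_lit 5) (nat_lit 423) (nat_lit 408) (nat_lit 309))) (XT.nd (nat_lit 78) (nat_lit 0) (nat_lit 0) (XT.lf (nat_lit 0) (nat_lit 1631346514) (nat_lit 1520) (nat_lit 5548808632) (nat_lit 1596) (nat_lit 1814020181) (nat_lit 473) (nat_lit 5) (nat_lit 493) (nat_lit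 5) (nat_lit 494) (nat_lit 5) (nat_lit 424) (nat_lit 408) (nat_lit 308)) (XT.nd (nat_lit 78) (nat_lit 0) (nat_lit 0) (XT.lf (nat_lit 0) (nat_lit 2955629686) (nat_lit 1520) (nat_lit 911628279) (nat_lit 1596) (nat_lit 5204439819) (nat_lit 473) (nat_lit 5) (nat_lit 493) (nat_lit 5) (nat_lit 494) (nat_lit 5) (nat_lit 425) (nat_lit 408) (nat_lit 307)) (XT.lf (nat_lit 76) (nat_lit 3851636426) (nat_lit 0) (nat_lit 455963756) (nat_lit 1596) (nat_lit 4843157480) (nat_lit 474) (nat_lit 5) (nat_lit 473) (nat_lit 5) (nat_lit 494) (nat_lit 5) (nat_lit 426) (nat_lit 408) (nat_lit 306))))) (XT.nd (nat_lit 156) (nat_lit 1520) (nat_lit 0) (XT.nd (nat_lit 78) (nat_lit 0) (nat_lit 0) (XT.lf (nat_lit 0) (nat_lit 5688990811) (nat_lit 1520) (nat_lit 546006477) (nat_lit 1596) (nat_lit 2996364624) (nat_lit 474) (nat_lit 5) (nat_lit 494) (nat_lit 5) (nat_lit 495) (nat_lit 5) (nat_lit 427) (nat_lit 408) (nat_lit 305)) (XT.lf (nat_lit 76) (nat_lit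 4338817645) (nat_lit 0) (nat_lit 2767432470) (nat_lit 1596) (nat_lit 2207173893) (nat_lit 475) (nat_lit 5) (nat_lit 474) (nat_lit 5) (nat_lit 495) (nat_lit 5) (nat_lit 428) (nat_lit 408) (nat_lit 304))) (XT.nd (nat_lit 78) (nat_lit 1596) (nat_lit 0) (XT.lf (nat_lit 0) (nat_lit 8537964036) (nat_lit 1520) (nat_lit 90957288) (nat_lit 1596) (nat_lit 768494203) (nat_lit 475) (nat_lit 5) (nat_lit 495) (nat_lit 5) (nat_lit 496) (nat_lit 5) (nat_lit 429) (nat_lit 408) (nat_lit 303)) (XT.nd (nat_lit 78) (nat_lit 0) (nat_lit 0) (XT.lf (nat_lit 0) (nat_lit 536778772) (nat_lit 1596) (nat_lit 4566788115) (nat_lit 1672) (nat_lit 4378896840) (nat_lit 454) (nat_lit 5) (nat_lit 475) (nat_lit 5) (nat_lit 476) (nat_lit 5) (nat_lit 430) (nat_lit 408) (nat_lit 302)) (XT.lf (nat_lit 76) (nat_lit 437044654) (nat_lit 0) (nat_lit 1493879764) (nat_lit 1672) (nat_lit 7638554647) (nat_lit 455) (nat_lit 5) (nat_lit 454) (nat_lit 5) (nat_lit 476)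 (nat_lit 5) (nat_lit 431) (nat_lit 408) (nat_lit 301)))))) (XT.nd (nat_lit 390) (nat_lit 3800) (nat_lit 0) (XT.nd (nat_lit 156) (nat_lit 1672) (nat_lit 0) (XT.nd (nat_lit 78) (nat_lit 1596) (nat_lit 0) (XT.lf (nat_lit 0) (nat_lit 3376389422) (nat_lit 1596) (nat_lit 4086993030) (nat_lit 76) (nat_lit 2194393110) (nat_lit 455) (nat_lit 5) (nat_lit 476) (nat_lit 5) (nat_lit 456) (nat_lit 5) (nat_lit 432) (nat_lit 408) (nat_lit 300)) (XT.lf (nat_lit 0) (nat_lit 1045707579) (nat_lit 1596) (nat_lit 3800544686) (nat_lit 1672) (nat_lit 4901685347) (nat_lit 434) (nat_lit 5) (nat_lit 455) (nat_lit 5) (nat_lit 456) (nat_lit 5) (nat_lit 433) (nat_lit 408) (nat_lit 299))) (XT.nd (nat_lit 78) (nat_lit 1672) (nat_lit 0) (XT.lf (nat_lit 0) (nat_lit 6319106410) (nat_lit 1596) (nat_lit 32940583) (nat_lit 1672) (nat_lit 3487734425) (nat_lit 434) (nat_lit 5) (nat_lit 455) (nat_lit 5) (nat_lit 456) (nat_lit 5) (nat_lit 434) (nat_lit 408)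 (nat_lit 298)) (XT.nd (nat_lit 78) (nat_lit 0) (nat_lit 0) (XT.lf (nat_lit 0) (nat_lit 1745205750) (nat_lit 1672) (nat_lit 6158360936) (nat_lit 1748) (nat_lit 2029592261) (nat_lit 412) (nat_lit 5) (nat_lit 434) (nat_lit 5) (nat_lit 435) (nat_lit 5) (nat_lit 435) (nat_lit 408) (nat_lit 297)) (XT.lf (nat_lit 0) (nat_lit 7146564694) (nat_lit 1672) (nat_lit 2343223827) (nat_lit 1748) (nat_lit 538550921) (nat_lit 412) (nat_lit 5) (nat_lit 434) (nat_lit 5) (nat_lit 435) (nat_lit 5) (nat_lit 436) (nat_lit 408) (nat_lit 296))))) (XT.nd (nat_lit 234) (nat_lit 912) (nat_lit 0) (XT.nd (nat_lit 78) (nat_lit 1064) (nat_lit 0) (XT.lf (nat_lit 0) (nat_lit 976226720) (nat_lit 1824) (nat_lit 7595404265) (nat_lit 76) (nat_lit 1553537540) (nat_lit 388) (nat_lit 5) (nat_lit 412) (nat_lit 5) (nat_lit 389) (nat_lit 5) (nat_lit 437) (nat_lit 408) (nat_lit 295)) (XT.nd (nat_lit 78) (nat_lit 1064) (nat_lit 0) (XT.lf (nat_lit 0) (nat_lit 2529460339)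 (nat_lit 1824) (nat_lit 2171741468) (nat_lit 76) (nat_lit 5522362093) (nat_lit 388) (nat_lit 5) (nat_lit 412) (nat_lit 5) (nat_lit 389) (nat_lit 5) (nat_lit 438) (nat_lit 408) (nat_lit 294)) (XT.lf (nat_lit 0) (nat_lit 3387589468) (nat_lit 1064) (nat_lit 728928883) (nat_lit 1140) (nat_lit 6207361814) (nat_lit 374) (nat_lit 5) (nat_lit 388) (nat_lit 5) (nat_lit 389) (nat_lit 5) (nat_lit 439) (nat_lit 408) (nat_lit 293)))) (XT.nd (nat_lit 78) (nat_lit 912) (nat_lit 0) (XT.lf (nat_lit 0) (nat_lit 5752604558) (nat_lit 1140) (nat_lit 1377555971) (nat_lit 76) (nat_lit 3295704503) (nat_lit 374) (nat_lit 5) (nat_lit 389) (nat_lit 5) (nat_lit 375) (nat_lit 5) (nat_lit 440) (nat_lit 408) (nat_lit 292)) (XT.nd (nat_lit 78) (nat_lit 0) (nat_lit 0) (XT.lf (nat_lit 0) (nat_lit 4327100363) (nat_lit 912) (nat_lit 3108648812) (nat_lit 988) (nat_lit 3093861546) (nat_lit 362) (nat_lit 5) (nat_lit 374) (nat_lit 5) (nat_lit 375) (nat_lit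 5) (nat_lit 441) (nat_lit 408) (nat_lit 291)) (XT.lf (nat_lit 0) (nat_lit 9149987946) (nat_lit 988) (nat_lit 494679825) (nat_lit 76) (nat_lit 990822633) (nat_lit 362) (nat_lit 5) (nat_lit 375) (nat_lit 5) (nat_lit 363) (nat_lit 5) (nat_lit 442) (nat_lit 408) (nat_lit 290))))))) (XT.nd (nat_lit 858) (nat_lit 4788) (nat_lit 0) (XT.nd (nat_lit 390) (nat_lit 2432) (nat_lit 0) (XT.nd (nat_lit 156) (nat_lit 836) (nat_lit 0) (XT.nd (nat_lit 78) (nat_lit 836) (nat_lit 0) (XT.lf (nat_lit 0) (nat_lit 190654287) (nat_lit 912) (nat_lit 5384088545) (nat_lit 76) (nat_lit 5167978852) (nat_lit 350) (nat_lit 5) (nat_lit 362) (nat_lit 5) (nat_lit 351) (nat_lit 5) (nat_lit 443) (nat_lit 408) (nat_lit 289)) (XT.lf (nat_lit 0) (nat_lit 462658952) (nat_lit 836) (nat_lit 1406301683) (nat_lit 912) (nat_lit 8983177484) (nat_lit 339) (nat_lit 5) (nat_lit 350) (nat_lit 5) (nat_lit 351) (nat_lit 5) (nat_lit 444) (nat_lit 408) (nat_lit 288))) (XT.nd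 (nat_lit 78) (nat_lit 836) (nat_lit 0) (XT.lf (nat_lit 0) (nat_lit 3618072612) (nat_lit 912) (nat_lit 4499895214) (nat_lit 76) (nat_lit 2845037387) (nat_lit 339) (nat_lit 5) (nat_lit 351) (nat_lit 5) (nat_lit 340) (nat_lit 5) (nat_lit 445) (nat_lit 408) (nat_lit 287)) (XT.nd (nat_lit 78) (nat_lit 0) (nat_lit 0) (XT.lf (nat_lit 0) (nat_lit 1500707178) (nat_lit 836) (nat_lit 3903256917) (nat_lit 912) (nat_lit 5672096585) (nat_lit 328) (nat_lit 5) (nat_lit 339) (nat_lit 5) (nat_lit 340) (nat_lit 5) (nat_lit 446) (nat_lit 408) (nat_lit 286)) (XT.lf (nat_lit 0) (nat_lit 7241507810) (nat_lit 912) (nat_lit 3528600625) (nat_lit 76) (nat_lit 420956976) (nat_lit 328) (nat_lit 5) (nat_lit 340) (nat_lit 5) (nat_lit 329) (nat_lit 5) (nat_lit 447) (nat_lit 408) (nat_lit 285))))) (XT.nd (nat_lit 234) (nat_lit 760) (nat_lit 0) (XT.nd (nat_lit 78) (nat_lit 836) (nat_lit 0) (XT.lf (nat_lit 0) (nat_lit 2630704058) (nat_lit 836) (nat_lit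 6511330255) (nat_lit 912) (nat_lit 2165817994) (nat_lit 317) (nat_lit 5) (nat_lit 328) (nat_lit 5) (nat_lit 329) (nat_lit 5) (nat_lit 448) (nat_lit 408) (nat_lit 284)) (XT.nd (nat_lit 78) (nat_lit 836) (nat_lit 0) (XT.lf (nat_lit 0) (nat_lit 8944102001) (nat_lit 836) (nat_lit 2143667891) (nat_lit 912) (nat_lit 339067653) (nat_lit 317) (nat_lit 5) (nat_lit 328) (nat_lit 5) (nat_lit 329) (nat_lit 5) (nat_lit 449) (nat_lit 408) (nat_lit 283)) (XT.lf (nat_lit 0) (nat_lit 1528249871) (nat_lit 836) (nat_lit 7703597683) (nat_lit 76) (nat_lit 2315682880) (nat_lit 306) (nat_lit 5) (nat_lit 317) (nat_lit 5) (nat_lit 307) (nat_lit 5) (nat_lit 450) (nat_lit 408) (nat_lit 282)))) (XT.nd (nat_lit 78) (nat_lit 760) (nat_lit 0) (XT.lf (nat_lit 0) (nat_lit 3443281097) (nat_lit 836) (nat_lit 1373094953) (nat_lit 76) (nat_lit 6853924353) (nat_lit 306) (nat_lit 5) (nat_lit 317) (nat_lit 5) (nat_lit 307) (nat_lit 5) (nat_lit 451) (nat_lit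 408) (nat_lit 281)) (XT.nd (nat_lit 78) (nat_lit 0) (nat_lit 0) (XT.lf (nat_lit 0) (nat_lit 5134666534) (nat_lit 760) (nat_lit 279535005) (nat_lit 836) (nat_lit 6380978536) (nat_lit 296) (nat_lit 5) (nat_lit 306) (nat_lit 5) (nat_lit 307) (nat_lit 5) (nat_lit 452) (nat_lit 408) (nat_lit 280)) (XT.lf (nat_lit 0) (nat_lit 7446491322) (nat_lit 836) (nat_lit 176362280) (nat_lit 76) (nat_lit 4299270677) (nat_lit 296) (nat_lit 5) (nat_lit 307) (nat_lit 5) (nat_lit 297) (nat_lit 5) (nat_lit 453) (nat_lit 408) (nat_lit 279)))))) (XT.nd (nat_lit 390) (nat_lit 2584) (nat_lit 0) (XT.nd (nat_lit 156) (nat_lit 760) (nat_lit 0) (XT.nd (nat_lit 78) (nat_lit 760) (nat_lit 0) (XT.lf (nat_lit 0) (nat_lit 6504364199) (nat_lit 684) (nat_lit 3043894906) (nat_lit 760) (nat_lit 2502777456) (nat_lit 287) (nat_lit 5) (nat_lit 296) (nat_lit 5) (nat_lit 297) (nat_lit 5) (nat_lit 454) (nat_lit 408) (nat_lit 278)) (XT.lf (nat_lit 0) (nat_lit 1126040228)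 (nat_lit 760) (nat_lit 10570019040) (nat_lit 836) (nat_lit 486393606) (nat_lit 277) (nat_lit 5) (nat_lit 287) (nat_lit 5) (nat_lit 288) (nat_lit 5) (nat_lit 455) (nat_lit 408) (nat_lit 277))) (XT.nd (nat_lit 78) (nat_lit 684) (nat_lit 0) (XT.lf (nat_lit 0) (nat_lit 1592365507) (nat_lit 836) (nat_lit 4355805456) (nat_lit 76) (nat_lit 6367275290) (nat_lit 276) (nat_lit 5) (nat_lit 287) (nat_lit 5) (nat_lit 277) (nat_lit 5) (nat_lit 456) (nat_lit 408) (nat_lit 276)) (XT.nd (nat_lit 78) (nat_lit 0) (nat_lit 0) (XT.lf (nat_lit 0) (nat_lit 2491757128) (nat_lit 684) (nat_lit 1215924639) (nat_lit 760) (nat_lit 8743328931) (nat_lit 267) (nat_lit 5) (nat_lit 276) (nat_lit 5) (nat_lit 277) (nat_lit 5) (nat_lit 457) (nat_lit 408) (nat_lit 275)) (XT.lf (nat_lit 0) (nat_lit 5903652187) (nat_lit 760) (nat_lit 3093715056) (nat_lit 76) (nat_lit 3591157522) (nat_lit 267) (nat_lit 5) (nat_lit 277) (nat_lit 5) (nat_lit 268) (nat_lit 5)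 (nat_lit 458) (nat_lit 408) (nat_lit 274))))) (XT.nd (nat_lit 234) (nat_lit 1292) (nat_lit 0) (XT.nd (nat_lit 78) (nat_lit 608) (nat_lit 0) (XT.lf (nat_lit 0) (nat_lit 3936344965) (nat_lit 684) (nat_lit 4226571326) (nat_lit 760) (nat_lit 4565490521) (nat_lit 258) (nat_lit 5) (nat_lit 267) (nat_lit 5) (nat_lit 268) (nat_lit 5) (nat_lit 459) (nat_lit 408) (nat_lit 273)) (XT.nd (nat_lit 78) (nat_lit 608) (nat_lit 0) (XT.lf (nat_lit 0) (nat_lit 10478340377) (nat_lit 760) (nat_lit 1742546530) (nat_lit 76) (nat_lit 649985183) (nat_lit 258) (nat_lit 5) (nat_lit 268) (nat_lit 5) (nat_lit 259) (nat_lit 5) (nat_lit 460) (nat_lit 408) (nat_lit 272)) (XT.lf (nat_lit 0) (nat_lit 5475578725) (nat_lit 608) (nat_lit 7414235635) (nat_lit 684) (nat_lit 125382469) (nat_lit 250) (nat_lit 5) (nat_lit 258) (nat_lit 5) (nat_lit 259) (nat_lit 5) (nat_lit 461) (nat_lit 408) (nat_lit 271)))) (XT.nd (nat_lit 78) (nat_lit 1216) (nat_lit 0) (XT.lf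 (nat_lit 0) (nat_lit 2156467025) (nat_lit 684) (nat_lit 331048315) (nat_lit 76) (nat_lit 10674652678) (nat_lit 249) (nat_lit 5) (nat_lit 258) (nat_lit 5) (nat_lit 250) (nat_lit 5) (nat_lit 462) (nat_lit 408) (nat_lit 270)) (XT.nd (nat_lit 78) (nat_lit 608) (nat_lit 0) (XT.lf (nat_lit 0) (nat_lit 4531672148) (nat_lit 684) (nat_lit 6230195806) (nat_lit 76) (nat_lit 2549210849) (nat_lit 241) (nat_lit 5) (nat_lit 250) (nat_lit 5) (nat_lit 242) (nat_lit 5) (nat_lit 463) (nat_lit 408) (nat_lit 269)) (XT.lf (nat_lit 0) (nat_lit 1165298464) (nat_lit 608) (nat_lit 5802042920) (nat_lit 684) (nat_lit 6495371821) (nat_lit 233) (nat_lit 5) (nat_lit 241) (nat_lit 5) (nat_lit 242) (nat_lit 5) (nat_lit 464) (nat_lit 408) (nat_lit 268))))))))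
noncomputable def xc168 : XT := (XT.nd (nat_lit 1638) (nat_lit 3876) (nat_lit 0) (XT.nd (nat_lit 780) (nat_lit 2964) (nat_lit 0) (XT.nd (nat_lit 390) (nat_lit 1748) (nat_lit 0) (XT.nd (nat_lit 156) (nat_lit 608) (nat_lit 0) (XT.nd (nat_lit 78) (nat_lit 608) (nat_lit 0) (XT.lf (nat_lit 0) (nat_lit 8777147251) (nat_lit 608) (nat_lit 703226100) (nat_lit 684) (nat_lit 4136438474) (nat_lit 233) (nat_lit 5) (nat_lit 241) (nat_lit 5) (nat_lit 242) (nat_lit 5) (nat_lit 465) (nat_lit 408) (nat_lit 267)) (XT.lf (nat_lit 0) (nat_lit 2758276958) (nat_lit 608) (nat_lit 9319580081) (nat_lit 684) (nat_lit 1695455982) (nat_lit 225) (nat_lit 5) (nat_lit 233) (nat_lit 5) (nat_lit 234) (nat_lit 5) (nat_lit 466) (nat_lit 408) (nat_lit 266))) (XT.nd (nat_lit 78) (nat_lit 532) (nat_lit 0) (XT.lf (nat_lit 0) (nat_lit 808420066) (nat_lit 684) (nat_lit 3384552094) (nat_lit 76) (nat_lit 9739383348) (nat_lit 224) (nat_lit 5) (nat_lit 233) (nat_lit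 5) (nat_lit 225) (nat_lit 5) (nat_lit 467) (nat_lit 408) (nat_lit 265)) (XT.nd (nat_lit 78) (nat_lit 0) (nat_lit 0) (XT.lf (nat_lit 0) (nat_lit 3362820711) (nat_lit 608) (nat_lit 9671291835) (nat_lit 76) (nat_lit 1059783345) (nat_lit 217) (nat_lit 5) (nat_lit 225) (nat_lit 5) (nat_lit 218) (nat_lit 5) (nat_lit 468) (nat_lit 408) (nat_lit 264)) (XT.lf (nat_lit 0) (nat_lit 6006460625) (nat_lit 608) (nat_lit 1870173264) (nat_lit 76) (nat_lit 6381274255) (nat_lit 217) (nat_lit 5) (nat_lit 225) (nat_lit 5) (nat_lit 218) (nat_lit 5) (nat_lit 469) (nat_lit 408) (nat_lit 263))))) (XT.nd (nat_lit 156) (nat_lit 1140) (nat_lit 0) (XT.nd (nat_lit 78) (nat_lit 0) (nat_lit 0) (XT.lf (nat_lit 0) (nat_lit 6152140567) (nat_lit 608) (nat_lit 2578541931) (nat_lit 684) (nat_lit 5693967970) (nat_lit 209) (nat_lit 5) (nat_lit 217) (nat_lit 5) (nat_lit 218) (nat_lit 5) (nat_lit 470) (nat_lit 408) (nat_lit 262)) (XT.lf (nat_lit 0) (nat_lit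 11528250548) (nat_lit 684) (nat_lit 268289254) (nat_lit 76) (nat_lit 2797814532) (nat_lit 209) (nat_lit 5) (nat_lit 218) (nat_lit 5) (nat_lit 210) (nat_lit 5) (nat_lit 471) (nat_lit 408) (nat_lit 261))) (XT.nd (nat_lit 78) (nat_lit 608) (nat_lit 0) (XT.lf (nat_lit 0) (nat_lit 7968113425) (nat_lit 532) (nat_lit 6470588505) (nat_lit 608) (nat_lit 327615561) (nat_lit 202) (nat_lit 5) (nat_lit 209) (nat_lit 5) (nat_lit 210) (nat_lit 5) (nat_lit 472) (nat_lit 408) (nat_lit 260)) (XT.nd (nat_lit 78) (nat_lit 0) (nat_lit 0) (XT.lf (nat_lit 0) (nat_lit 1418389711) (nat_lit 532) (nat_lit 1014110579) (nat_lit 608) (nat_lit 12508919248) (nat_lit 194) (nat_lit 5) (nat_lit 201) (nat_lit 5) (nat_lit 202) (nat_lit 5) (nat_lit 473) (nat_lit 408) (nat_lit 259)) (XT.lf (nat_lit 0) (nat_lit 5307191853) (nat_lit 608) (nat_lit 5275169641) (nat_lit 76) (nat_lit 4536347248) (nat_lit 194) (nat_lit 5) (nat_lit 202) (nat_lit 5) (nat_lit 195)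 (nat_lit 5) (nat_lit 474) (nat_lit 408) (nat_lit 258)))))) (XT.nd (nat_lit 390) (nat_lit 1444) (nat_lit 0) (XT.nd (nat_lit 156) (nat_lit 1064) (nat_lit 0) (XT.nd (nat_lit 78) (nat_lit 0) (nat_lit 0) (XT.lf (nat_lit 0) (nat_lit 3157140085) (nat_lit 456) (nat_lit 5097964201) (nat_lit 532) (nat_lit 7044128464) (nat_lit 188) (nat_lit 5) (nat_lit 194) (nat_lit 5) (nat_lit 195) (nat_lit 5) (nat_lit 475) (nat_lit 408) (nat_lit 257)) (XT.lf (nat_lit 0) (nat_lit 11289445480) (nat_lit 532) (nat_lit 3671817103) (nat_lit 76) (nat_lit 521558734) (nat_lit 188) (nat_lit 5) (nat_lit 195) (nat_lit 5) (nat_lit 189) (nat_lit 5) (nat_lit 476) (nat_lit 408) (nat_lit 256))) (XT.nd (nat_lit 78) (nat_lit 532) (nat_lit 0) (XT.lf (nat_lit 0) (nat_lit 4984470344) (nat_lit 532) (nat_lit 9454965980) (nat_lit 608) (nat_lit 1229549495) (nat_lit 181) (nat_lit 5) (nat_lit 188) (nat_lit 5) (nat_lit 189) (nat_lit 5) (nat_lit 477) (nat_lit 408) (nat_lit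 255)) (XT.nd (nat_lit 78) (nat_lit 456) (nat_lit 0) (XT.lf (nat_lit 0) (nat_lit 1783718239) (nat_lit 608) (nat_lit 2021589735) (nat_lit 76) (nat_lit 12053062274) (nat_lit 180) (nat_lit 5) (nat_lit 188) (nat_lit 5) (nat_lit 181) (nat_lit 5) (nat_lit 478) (nat_lit 408) (nat_lit 254)) (XT.lf (nat_lit 0) (nat_lit 4887620925) (nat_lit 532) (nat_lit 9181791921) (nat_lit 76) (nat_lit 1981033533) (nat_lit 174) (nat_lit 5) (nat_lit 181) (nat_lit 5) (nat_lit 175) (nat_lit 5) (nat_lit 479) (nat_lit 408) (nat_lit 253))))) (XT.nd (nat_lit 234) (nat_lit 532) (nat_lit 0) (XT.nd (nat_lit 78) (nat_lit 912) (nat_lit 0) (XT.lf (nat_lit 0) (nat_lit 8081653973) (nat_lit 532) (nat_lit 322134508) (nat_lit 76) (nat_lit 7842017665) (nat_lit 174) (nat_lit 5) (nat_lit 181) (nat_lit 5) (nat_lit 175) (nat_lit 5) (nat_lit 480) (nat_lit 408) (nat_lit 252)) (XT.nd (nat_lit 78) (nat_lit 456) (nat_lit 0) (XT.lf (nat_lit 0) (nat_lit 8815769835) (nat_lit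 456) (nat_lit 2570443341) (nat_lit 532) (nat_lit 5057930121) (nat_lit 168) (nat_lit 5) (nat_lit 174) (nat_lit 5) (nat_lit 175) (nat_lit 5) (nat_lit 481) (nat_lit 408) (nat_lit 251)) (XT.lf (nat_lit 0) (nat_lit 1477153865) (nat_lit 456) (nat_lit 13302914259) (nat_lit 532) (nat_lit 1865918015) (nat_lit 162) (nat_lit 5) (nat_lit 168) (nat_lit 5) (nat_lit 169) (nat_lit 5) (nat_lit 482) (nat_lit 408) (nat_lit 250)))) (XT.nd (nat_lit 78) (nat_lit 456) (nat_lit 0) (XT.lf (nat_lit 0) (nat_lit 1429792459) (nat_lit 532) (nat_lit 6023734910) (nat_lit 76) (nat_lit 9396999152) (nat_lit 161) (nat_lit 5) (nat_lit 168) (nat_lit 5) (nat_lit 162) (nat_lit 5) (nat_lit 483) (nat_lit 408) (nat_lit 249)) (XT.nd (nat_lit 78) (nat_lit 0) (nat_lit 0) (XT.lf (nat_lit 0) (nat_lit 3321048731) (nat_lit 456) (nat_lit 1456709919) (nat_lit 532) (nat_lit 12280928727) (nat_lit 155) (nat_lit 5) (nat_lit 161) (nat_lit 5) (nat_lit 162) (nat_lit 5) (nat_lit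 484) (nat_lit 408) (nat_lit 248)) (XT.lf (nat_lit 0) (nat_lit 8253451867) (nat_lit 532) (nat_lit 4380844124) (nat_lit 76) (nat_lit 4635502912) (nat_lit 155) (nat_lit 5) (nat_lit 162) (nat_lit 5) (nat_lit 156) (nat_lit 5) (nat_lit 485) (nat_lit 408) (nat_lit 247))))))) (XT.nd (nat_lit 780) (nat_lit 1368) (nat_lit 0) (XT.nd (nat_lit 390) (nat_lit 1216) (nat_lit 0) (XT.nd (nat_lit 156) (nat_lit 912) (nat_lit 0) (XT.nd (nat_lit 78) (nat_lit 0) (nat_lit 0) (XT.lf (nat_lit 0) (nat_lit 5207522399) (nat_lit 380) (nat_lit 6624615377) (nat_lit 456) (nat_lit 5652328058) (nat_lit 150) (nat_lit 5) (nat_lit 155) (nat_lit 5) (nat_lit 156) (nat_lit 5) (nat_lit 486) (nat_lit 408) (nat_lit 246)) (XT.lf (nat_lit 0) (nat_lit 15032918868) (nat_lit 380) (nat_lit 469001344) (nat_lit 456) (nat_lit 2201118134) (nat_lit 150) (nat_lit 5) (nat_lit 155) (nat_lit 5) (nat_lit 156) (nat_lit 5) (nat_lit 487) (nat_lit 408) (nat_lit 245))) (XT.nd (nat_lit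 78) (nat_lit 380) (nat_lit 0) (XT.lf (nat_lit 0) (nat_lit 1376878930) (nat_lit 532) (nat_lit 10762393772) (nat_lit 76) (nat_lit 5785039639) (nat_lit 143) (nat_lit 5) (nat_lit 150) (nat_lit 5) (nat_lit 144) (nat_lit 5) (nat_lit 488) (nat_lit 408) (nat_lit 244)) (XT.nd (nat_lit 78) (nat_lit 380) (nat_lit 0) (XT.lf (nat_lit 0) (nat_lit 5008458474) (nat_lit 532) (nat_lit 954715644) (nat_lit 76) (nat_lit 12186319341) (nat_lit 143) (nat_lit 5) (nat_lit 150) (nat_lit 5) (nat_lit 144) (nat_lit 5) (nat_lit 489) (nat_lit 408) (nat_lit 243)) (XT.lf (nat_lit 0) (nat_lit 8765177983) (nat_lit 456) (nat_lit 9225317444) (nat_lit 76) (nat_lit 387635098) (nat_lit 138) (nat_lit 5) (nat_lit 144) (nat_lit 5) (nat_lit 139) (nat_lit 5) (nat_lit 490) (nat_lit 408) (nat_lit 242))))) (XT.nd (nat_lit 156) (nat_lit 836) (nat_lit 0) (XT.nd (nat_lit 78) (nat_lit 0) (nat_lit 0) (XT.lf (nat_lit 0) (nat_lit 821615301) (nat_lit 380) (nat_lit 11817275677)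 (nat_lit 456) (nat_lit 5971614617) (nat_lit 133) (nat_lit 5) (nat_lit 138) (nat_lit 5) (nat_lit 139) (nat_lit 5) (nat_lit 491) (nat_lit 408) (nat_lit 241)) (XT.lf (nat_lit 0) (nat_lit 11180781125) (nat_lit 380) (nat_lit 5461883474) (nat_lit 456) (nat_lit 2203814232) (nat_lit 133) (nat_lit 5) (nat_lit 138) (nat_lit 5) (nat_lit 139) (nat_lit 5) (nat_lit 492) (nat_lit 408) (nat_lit 240))) (XT.nd (nat_lit 78) (nat_lit 380) (nat_lit 0) (XT.lf (nat_lit 0) (nat_lit 1632764797) (nat_lit 456) (nat_lit 16422851235) (nat_lit 76) (nat_lit 1031046474) (nat_lit 127) (nat_lit 5) (nat_lit 133) (nat_lit 5) (nat_lit 128) (nat_lit 5) (nat_lit 493) (nat_lit 408) (nat_lit 239)) (XT.nd (nat_lit 78) (nat_lit 380) (nat_lit 0) (XT.lf (nat_lit 0) (nat_lit 5595410361) (nat_lit 456) (nat_lit 6091585136) (nat_lit 76) (nat_lit 7642788386) (nat_lit 127) (nat_lit 5) (nat_lit 133) (nat_lit 5) (nat_lit 128) (nat_lit 5) (nat_lit 494) (nat_lit 408) (nat_lit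 238)) (XT.lf (nat_lit 0) (nat_lit 4491807138) (nat_lit 380) (nat_lit 5165708132) (nat_lit 456) (nat_lit 9919850505) (nat_lit 122) (nat_lit 5) (nat_lit 127) (nat_lit 5) (nat_lit 128) (nat_lit 5) (nat_lit 495) (nat_lit 408) (nat_lit 237)))))) (XT.nd (nat_lit 390) (nat_lit 608) (nat_lit 0) (XT.nd (nat_lit 156) (nat_lit 456) (nat_lit 0) (XT.nd (nat_lit 78) (nat_lit 304) (nat_lit 0) (XT.lf (nat_lit 0) (nat_lit 13842761731) (nat_lit 456) (nat_lit 4483032691) (nat_lit 76) (nat_lit 1503269061) (nat_lit 122) (nat_lit 5) (nat_lit 128) (nat_lit 5) (nat_lit 123) (nat_lit 5) (nat_lit 496) (nat_lit 408) (nat_lit 236)) (XT.lf (nat_lit 0) (nat_lit 6367638273) (nat_lit 304) (nat_lit 11810905087) (nat_lit 380) (nat_lit 1905917309) (nat_lit 118) (nat_lit 5) (nat_lit 122) (nat_lit 5) (nat_lit 123) (nat_lit 5) (nat_lit 497) (nat_lit 408) (nat_lit 235))) (XT.nd (nat_lit 78) (nat_lit 380) (nat_lit 0) (XT.lf (nat_lit 0) (nat_lit 2248072638)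 (nat_lit 380) (nat_lit 2876358894) (nat_lit 76) (nat_lit 15219811619) (nat_lit 117) (nat_lit 5) (nat_lit 122) (nat_lit 5) (nat_lit 118) (nat_lit 5) (nat_lit 498) (nat_lit 408) (nat_lit 234)) (XT.nd (nat_lit 78) (nat_lit 0) (nat_lit 0) (XT.lf (nat_lit 0) (nat_lit 6516193864) (nat_lit 456) (nat_lit 12355796000) (nat_lit 76) (nat_lit 1735850028) (nat_lit 112) (nat_lit 5) (nat_lit 118) (nat_lit 5) (nat_lit 113) (nat_lit 5) (nat_lit 499) (nat_lit 408) (nat_lit 233)) (XT.lf (nat_lit 0) (nat_lit 10914572821) (nat_lit 456) (nat_lit 1281418324) (nat_lit 76) (nat_lit 8679821480) (nat_lit 112) (nat_lit 5) (nat_lit 118) (nat_lit 5) (nat_lit 113) (nat_lit 5) (nat_lit 500) (nat_lit 408) (nat_lit 232))))) (XT.nd (nat_lit 52260) (nat_lit 0) (nat_lit 30552) (XT.nd (nat_lit 78) (nat_lit 304) (nat_lit 0) (XT.lf (nat_lit 0) (nat_lit 10134583521) (nat_lit 304) (nat_lit 5323831337) (nat_lit 380) (nat_lit 5689581971) (nat_lit 108) (nat_lit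 5) (nat_lit 112) (nat_lit 5) (nat_lit 113) (nat_lit 5) (nat_lit 501) (nat_lit 408) (nat_lit 231)) (XT.nd (nat_lit 52104) (nat_lit 0) (nat_lit 30552) (XT.lf (nat_lit 0) (nat_lit 351598274) (nat_lit 304) (nat_lit 19755165799) (nat_lit 380) (nat_lit 1318589926) (nat_lit 104) (nat_lit 5) (nat_lit 108) (nat_lit 5) (nat_lit 109) (nat_lit 5) (nat_lit 502) (nat_lit 408) (nat_lit 230)) (XT.lf (nat_lit 0) (nat_lit 495340047) (nat_lit 1444) (nat_lit 1767650819) (nat_lit 1444) (nat_lit 1767650819) (nat_lit 506) (nat_lit 3) (nat_lit 525) (nat_lit 3) (nat_lit 525) (nat_lit 5) (nat_lit 409) (nat_lit 409) (nat_lit 322)))) (XT.nd (nat_lit 78) (nat_lit 0) (nat_lit 76) (XT.lf (nat_lit 76) (nat_lit 307533757) (nat_lit 0) (nat_lit 1856606071) (nat_lit 1444) (nat_lit 5953909371) (nat_lit 507) (nat_lit 5) (nat_lit 506) (nat_lit 3) (nat_lit 525) (nat_lit 5) (nat_lit 410) (nat_lit 409) (nat_lit 321)) (XT.nd (nat_lit 78) (nat_lit 0) (nat_lit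 0) (XT.lf (nat_lit 0) (nat_lit 3360099156) (nat_lit 1368) (nat_lit 3922584413) (nat_lit 1444) (nat_lit 893301272) (nat_lit 507) (nat_lit 5) (nat_lit 525) (nat_lit 5) (nat_lit 526) (nat_lit 5) (nat_lit 411) (nat_lit 409) (nat_lit 320)) (XT.lf (nat_lit 76) (nat_lit 14852098) (nat_lit 0) (nat_lit 4547640828) (nat_lit 1444) (nat_lit 3672950776) (nat_lit 508) (nat_lit 5) (nat_lit 507) (nat_lit 5) (nat_lit 526) (nat_lit 5) (nat_lit 412) (nat_lit 409) (nat_lit 319))))))))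
noncomputable def xc169 : XT := (XT.nd (nat_lit 1638) (nat_lit 12692) (nat_lit 0) (XT.nd (nat_lit 780) (nat_lit 2660) (nat_lit 0) (XT.nd (nat_lit 390) (nat_lit 0) (nat_lit 76) (XT.nd (nat_lit 156) (nat_lit 1368) (nat_lit 0) (XT.nd (nat_lit 78) (nat_lit 0) (nat_lit 76) (XT.lf (nat_lit 76) (nat_lit 4068162748) (nat_lit 0) (nat_lit 1717699483) (nat_lit 1444) (nat_lit 2510305477) (nat_lit 508) (nat_lit 5) (nat_lit 507) (nat_lit 5) (nat_lit 526) (nat_lit 5) (nat_lit 413) (nat_lit 409) (nat_lit 318)) (XT.lf (nat_lit 0) (nat_lit 7012554205) (nat_lit 1368) (nat_lit 179562673) (nat_lit 1444) (nat_lit 1166426446) (nat_lit 508) (nat_lit 5) (nat_lit 526) (nat_lit 5) (nat_lit 527) (nat_lit 5) (nat_lit 414) (nat_lit 409) (nat_lit 317))) (XT.nd (nat_lit 78) (nat_lit 1444) (nat_lit 0) (XT.lf (nat_lit 76) (nat_lit 3974513942) (nat_lit 0) (nat_lit 4298276548) (nat_lit 1444) (nat_lit 149209710) (nat_lit 509) (nat_lit 5) (nat_lit 508) (nat_lit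 5) (nat_lit 527) (nat_lit 5) (nat_lit 415) (nat_lit 409) (nat_lit 316)) (XT.nd (nat_lit 78) (nat_lit 0) (nat_lit 76) (XT.lf (nat_lit 0) (nat_lit 1030746556) (nat_lit 1444) (nat_lit 295925013) (nat_lit 1520) (nat_lit 7160463036) (nat_lit 489) (nat_lit 5) (nat_lit 508) (nat_lit 5) (nat_lit 509) (nat_lit 5) (nat_lit 416) (nat_lit 409) (nat_lit 315)) (XT.lf (nat_lit 0) (nat_lit 2242051701) (nat_lit 1444) (nat_lit 4591160782) (nat_lit 1520) (nat_lit 1720157688) (nat_lit 490) (nat_lit 5) (nat_lit 509) (nat_lit 5) (nat_lit 510) (nat_lit 5) (nat_lit 417) (nat_lit 409) (nat_lit 314))))) (XT.nd (nat_lit 156) (nat_lit 0) (nat_lit 76) (XT.nd (nat_lit 78) (nat_lit 0) (nat_lit 0) (XT.lf (nat_lit 0) (nat_lit 3461501191) (nat_lit 1444) (nat_lit 336732733) (nat_lit 1520) (nat_lit 4823031053) (nat_lit 490) (nat_lit 5) (nat_lit 509) (nat_lit 5) (nat_lit 510) (nat_lit 5) (nat_lit 418) (nat_lit 409) (nat_lit 313)) (XT.lf (nat_lit 76) (nat_lit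 4039526950) (nat_lit 0) (nat_lit 665700179) (nat_lit 1520) (nat_lit 3985305443) (nat_lit 491) (nat_lit 5) (nat_lit 490) (nat_lit 5) (nat_lit 510) (nat_lit 5) (nat_lit 419) (nat_lit 409) (nat_lit 312))) (XT.nd (nat_lit 78) (nat_lit 0) (nat_lit 0) (XT.lf (nat_lit 0) (nat_lit 5966660833) (nat_lit 1444) (nat_lit 286425857) (nat_lit 1520) (nat_lit 2508254558) (nat_lit 491) (nat_lit 5) (nat_lit 510) (nat_lit 5) (nat_lit 511) (nat_lit 5) (nat_lit 420) (nat_lit 409) (nat_lit 311)) (XT.nd (nat_lit 78) (nat_lit 0) (nat_lit 76) (XT.lf (nat_lit 76) (nat_lit 4199721101) (nat_lit 0) (nat_lit 3059920776) (nat_lit 1520) (nat_lit 1573809995) (nat_lit 492) (nat_lit 5) (nat_lit 491) (nat_lit 5) (nat_lit 511) (nat_lit 5) (nat_lit 421) (nat_lit 409) (nat_lit 310)) (XT.lf (nat_lit 0) (nat_lit 8556787575) (nat_lit 1444) (nat_lit 145640773) (nat_lit 1520) (nat_lit 205022173) (nat_lit 492) (nat_lit 5) (nat_lit 511) (nat_lit 5) (nat_lit 512)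 (nat_lit 5) (nat_lit 422) (nat_lit 409) (nat_lit 309)))))) (XT.nd (nat_lit 390) (nat_lit 1368) (nat_lit 0) (XT.nd (nat_lit 156) (nat_lit 0) (nat_lit 76) (XT.nd (nat_lit 78) (nat_lit 0) (nat_lit 0) (XT.lf (nat_lit 0) (nat_lit 910096392) (nat_lit 1520) (nat_lit 4534598691) (nat_lit 1596) (nat_lit 3537630779) (nat_lit 472) (nat_lit 5) (nat_lit 492) (nat_lit 5) (nat_lit 493) (nat_lit 5) (nat_lit 423) (nat_lit 409) (nat_lit 308)) (XT.lf (nat_lit 76) (nat_lit 57939188) (nat_lit 0) (nat_lit 2110581313) (nat_lit 1596) (nat_lit 6890600176) (nat_lit 473) (nat_lit 5) (nat_lit 472) (nat_lit 5) (nat_lit 493) (nat_lit 5) (nat_lit 424) (nat_lit 409) (nat_lit 307))) (XT.nd (nat_lit 78) (nat_lit 0) (nat_lit 0) (XT.lf (nat_lit 0) (nat_lit 3467315372) (nat_lit 1520) (nat_lit 4358799902) (nat_lit 1596) (nat_lit 1311043075) (nat_lit 473) (nat_lit 5) (nat_lit 493) (nat_lit 5) (nat_lit 494) (nat_lit 5) (nat_lit 425) (nat_lit 409) (nat_lit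 306)) (XT.nd (nat_lit 78) (nat_lit 0) (nat_lit 0) (XT.lf (nat_lit 76) (nat_lit 350207584) (nat_lit 0) (nat_lit 4434790757) (nat_lit 1596) (nat_lit 4431910978) (nat_lit 474) (nat_lit 5) (nat_lit 473) (nat_lit 5) (nat_lit 494) (nat_lit 5) (nat_lit 426) (nat_lit 409) (nat_lit 305)) (XT.lf (nat_lit 76) (nat_lit 5195753264) (nat_lit 0) (nat_lit 939541635) (nat_lit 1596) (nat_lit 3162845787) (nat_lit 474) (nat_lit 5) (nat_lit 473) (nat_lit 5) (nat_lit 494) (nat_lit 5) (nat_lit 427) (nat_lit 409) (nat_lit 304))))) (XT.nd (nat_lit 234) (nat_lit 0) (nat_lit 0) (XT.nd (nat_lit 78) (nat_lit 1520) (nat_lit 0) (XT.lf (nat_lit 76) (nat_lit 732878101) (nat_lit 0) (nat_lit 6779025575) (nat_lit 1596) (nat_lit 1869117250) (nat_lit 475) (nat_lit 5) (nat_lit 474) (nat_lit 5) (nat_lit 495) (nat_lit 5) (nat_lit 428) (nat_lit 409) (nat_lit 303)) (XT.nd (nat_lit 78) (nat_lit 1520) (nat_lit 0) (XT.lf (nat_lit 76) (nat_lit 5697364557) (nat_lit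 0) (nat_lit 3230223345) (nat_lit 1596) (nat_lit 537750171) (nat_lit 475) (nat_lit 5) (nat_lit 474) (nat_lit 5) (nat_lit 495) (nat_lit 5) (nat_lit 429) (nat_lit 409) (nat_lit 302)) (XT.lf (nat_lit 0) (nat_lit 798063840) (nat_lit 1596) (nat_lit 8350678061) (nat_lit 1672) (nat_lit 402731375) (nat_lit 454) (nat_lit 5) (nat_lit 475) (nat_lit 5) (nat_lit 476) (nat_lit 5) (nat_lit 430) (nat_lit 409) (nat_lit 301)))) (XT.nd (nat_lit 78) (nat_lit 0) (nat_lit 0) (XT.lf (nat_lit 0) (nat_lit 2178711875) (nat_lit 1596) (nat_lit 3361053685) (nat_lit 1672) (nat_lit 4098997750) (nat_lit 454) (nat_lit 5) (nat_lit 475) (nat_lit 5) (nat_lit 476) (nat_lit 5) (nat_lit 431) (nat_lit 409) (nat_lit 300)) (XT.nd (nat_lit 78) (nat_lit 0) (nat_lit 76) (XT.lf (nat_lit 76) (nat_lit 1734322382) (nat_lit 0) (nat_lit 1842799822) (nat_lit 1672) (nat_lit 6150883347) (nat_lit 455) (nat_lit 5) (nat_lit 454) (nat_lit 5) (nat_lit 476) (nat_lit 5) (nat_lit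 432) (nat_lit 409) (nat_lit 299)) (XT.lf (nat_lit 0) (nat_lit 5017944527) (nat_lit 1596) (nat_lit 2871211944) (nat_lit 76) (nat_lit 1929596499) (nat_lit 455) (nat_lit 5) (nat_lit 476) (nat_lit 5) (nat_lit 456) (nat_lit 5) (nat_lit 433) (nat_lit 409) (nat_lit 298))))))) (XT.nd (nat_lit 858) (nat_lit 4788) (nat_lit 0) (XT.nd (nat_lit 390) (nat_lit 2888) (nat_lit 0) (XT.nd (nat_lit 156) (nat_lit 3496) (nat_lit 0) (XT.nd (nat_lit 78) (nat_lit 0) (nat_lit 0) (XT.lf (nat_lit 0) (nat_lit 2355606356) (nat_lit 1596) (nat_lit 4139103934) (nat_lit 1672) (nat_lit 3416471535) (nat_lit 434) (nat_lit 5) (nat_lit 455) (nat_lit 5) (nat_lit 456) (nat_lit 5) (nat_lit 434) (nat_lit 409) (nat_lit 297)) (XT.lf (nat_lit 0) (nat_lit 7709198955) (nat_lit 1596) (nat_lit 290999741) (nat_lit 1672) (nat_lit 2005285663) (nat_lit 434) (nat_lit 5) (nat_lit 455) (nat_lit 5) (nat_lit 456) (nat_lit 5) (nat_lit 435) (nat_lit 409) (nat_lit 296))) (XT.nd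 (nat_lit 78) (nat_lit 1824) (nat_lit 0) (XT.lf (nat_lit 0) (nat_lit 3068054746) (nat_lit 1672) (nat_lit 6491592084) (nat_lit 1748) (nat_lit 541557795) (nat_lit 412) (nat_lit 5) (nat_lit 434) (nat_lit 5) (nat_lit 435) (nat_lit 5) (nat_lit 436) (nat_lit 409) (nat_lit 295)) (XT.nd (nat_lit 78) (nat_lit 1748) (nat_lit 0) (XT.lf (nat_lit 0) (nat_lit 936880655) (nat_lit 1748) (nat_lit 1652865714) (nat_lit 76) (nat_lit 7609019430) (nat_lit 411) (nat_lit 5) (nat_lit 434) (nat_lit 5) (nat_lit 412) (nat_lit 5) (nat_lit 437) (nat_lit 409) (nat_lit 294)) (XT.lf (nat_lit 0) (nat_lit 2452831635) (nat_lit 1824) (nat_lit 6441797214) (nat_lit 76) (nat_lit 1403282026) (nat_lit 388) (nat_lit 5) (nat_lit 412) (nat_lit 5) (nat_lit 389) (nat_lit 5) (nat_lit 438) (nat_lit 409) (nat_lit 293))))) (XT.nd (nat_lit 234) (nat_lit 1824) (nat_lit 0) (XT.nd (nat_lit 78) (nat_lit 1064) (nat_lit 0) (XT.lf (nat_lit 0) (nat_lit 4008559723) (nat_lit 1824)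 (nat_lit 935259498) (nat_lit 76) (nat_lit 5455038487) (nat_lit 388) (nat_lit 5) (nat_lit 412) (nat_lit 5) (nat_lit 389) (nat_lit 5) (nat_lit 439) (nat_lit 409) (nat_lit 292)) (XT.nd (nat_lit 78) (nat_lit 0) (nat_lit 0) (XT.lf (nat_lit 0) (nat_lit 4726837552) (nat_lit 1064) (nat_lit 880766737) (nat_lit 1140) (nat_lit 4893983008) (nat_lit 374) (nat_lit 5) (nat_lit 388) (nat_lit 5) (nat_lit 389) (nat_lit 5) (nat_lit 440) (nat_lit 409) (nat_lit 291)) (XT.lf (nat_lit 0) (nat_lit 7247915858) (nat_lit 1140) (nat_lit 129462048) (nat_lit 76) (nat_lit 3228815557) (nat_lit 374) (nat_lit 5) (nat_lit 389) (nat_lit 5) (nat_lit 375) (nat_lit 5) (nat_lit 441) (nat_lit 409) (nat_lit 290)))) (XT.nd (nat_lit 78) (nat_lit 912) (nat_lit 0) (XT.lf (nat_lit 0) (nat_lit 5680895012) (nat_lit 912) (nat_lit 3264992295) (nat_lit 988) (nat_lit 1766514925) (nat_lit 362) (nat_lit 5) (nat_lit 374) (nat_lit 5) (nat_lit 375) (nat_lit 5) (nat_lit 442)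 (nat_lit 409) (nat_lit 289)) (XT.nd (nat_lit 78) (nat_lit 76) (nat_lit 0) (XT.lf (nat_lit 0) (nat_lit 775861714) (nat_lit 836) (nat_lit 9896292547) (nat_lit 912) (nat_lit 148701600) (nat_lit 351) (nat_lit 5) (nat_lit 362) (nat_lit 5) (nat_lit 363) (nat_lit 5) (nat_lit 443) (nat_lit 409) (nat_lit 288)) (XT.lf (nat_lit 0) (nat_lit 1519889351) (nat_lit 912) (nat_lit 4211714320) (nat_lit 76) (nat_lit 5198924772) (nat_lit 350) (nat_lit 5) (nat_lit 362) (nat_lit 5) (nat_lit 351) (nat_lit 5) (nat_lit 444) (nat_lit 409) (nat_lit 287)))))) (XT.nd (nat_lit 390) (nat_lit 2280) (nat_lit 0) (XT.nd (nat_lit 156) (nat_lit 1672) (nat_lit 0) (XT.nd (nat_lit 78) (nat_lit 0) (nat_lit 0) (XT.lf (nat_lit 0) (nat_lit 1743546706) (nat_lit 836) (nat_lit 1470482748) (nat_lit 912) (nat_lit 7828468973) (nat_lit 339) (nat_lit 5) (nat_lit 350) (nat_lit 5) (nat_lit 351) (nat_lit 5) (nat_lit 445) (nat_lit 409) (nat_lit 286)) (XT.lf (nat_lit 0) (nat_lit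 4972253195) (nat_lit 912) (nat_lit 3316803782) (nat_lit 76) (nat_lit 2867053660) (nat_lit 339) (nat_lit 5) (nat_lit 351) (nat_lit 5) (nat_lit 340) (nat_lit 5) (nat_lit 446) (nat_lit 409) (nat_lit 285))) (XT.nd (nat_lit 78) (nat_lit 836) (nat_lit 0) (XT.lf (nat_lit 0) (nat_lit 2795435069) (nat_lit 836) (nat_lit 3981505090) (nat_lit 912) (nat_lit 4494835665) (nat_lit 328) (nat_lit 5) (nat_lit 339) (nat_lit 5) (nat_lit 340) (nat_lit 5) (nat_lit 447) (nat_lit 409) (nat_lit 284)) (XT.nd (nat_lit 78) (nat_lit 836) (nat_lit 0) (XT.lf (nat_lit 0) (nat_lit 8626431687) (nat_lit 912) (nat_lit 2333955966) (nat_lit 76) (nat_lit 429199023) (nat_lit 328) (nat_lit 5) (nat_lit 340) (nat_lit 5) (nat_lit 329) (nat_lit 5) (nat_lit 448) (nat_lit 409) (nat_lit 283)) (XT.lf (nat_lit 0) (nat_lit 3940211017) (nat_lit 836) (nat_lit 6608602721) (nat_lit 912) (nat_lit 960228438) (nat_lit 317) (nat_lit 5) (nat_lit 328) (nat_lit 5) (nat_lit 329)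 (nat_lit 5) (nat_lit 449) (nat_lit 409) (nat_lit 282))))) (XT.nd (nat_lit 234) (nat_lit 1444) (nat_lit 0) (XT.nd (nat_lit 78) (nat_lit 760) (nat_lit 0) (XT.lf (nat_lit 0) (nat_lit 867045973) (nat_lit 912) (nat_lit 1281368962) (nat_lit 76) (nat_lit 9482367652) (nat_lit 316) (nat_lit 5) (nat_lit 328) (nat_lit 5) (nat_lit 317) (nat_lit 5) (nat_lit 450) (nat_lit 409) (nat_lit 281)) (XT.nd (nat_lit 78) (nat_lit 0) (nat_lit 0) (XT.lf (nat_lit 0) (nat_lit 2751845808) (nat_lit 836) (nat_lit 6593105423) (nat_lit 76) (nat_lit 2409208960) (nat_lit 306) (nat_lit 5) (nat_lit 317) (nat_lit 5) (nat_lit 307) (nat_lit 5) (nat_lit 451) (nat_lit 409) (nat_lit 280)) (XT.lf (nat_lit 0) (nat_lit 4681784895) (nat_lit 836) (nat_lit 160788016) (nat_lit 76) (nat_lit 7037289529) (nat_lit 306) (nat_lit 5) (nat_lit 317) (nat_lit 5) (nat_lit 307) (nat_lit 5) (nat_lit 452) (nat_lit 409) (nat_lit 279)))) (XT.nd (nat_lit 78) (nat_lit 684) (nat_lit 0)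 (XT.lf (nat_lit 0) (nat_lit 6468972327) (nat_lit 760) (nat_lit 208213782) (nat_lit 836) (nat_lit 5330361196) (nat_lit 296) (nat_lit 5) (nat_lit 306) (nat_lit 5) (nat_lit 307) (nat_lit 5) (nat_lit 453) (nat_lit 409) (nat_lit 278)) (XT.nd (nat_lit 78) (nat_lit 0) (nat_lit 0) (XT.lf (nat_lit 0) (nat_lit 1064115035) (nat_lit 684) (nat_lit 7670763978) (nat_lit 760) (nat_lit 3402464907) (nat_lit 287) (nat_lit 5) (nat_lit 296) (nat_lit 5) (nat_lit 297) (nat_lit 5) (nat_lit 454) (nat_lit 409) (nat_lit 277)) (XT.lf (nat_lit 0) (nat_lit 7856407560) (nat_lit 684) (nat_lit 3001092559) (nat_lit 760) (nat_lit 1411766473) (nat_lit 287) (nat_lit 5) (nat_lit 296) (nat_lit 5) (nat_lit 297) (nat_lit 5) (nat_lit 455) (nat_lit 409) (nat_lit 276))))))))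
noncomputable def xc170 : XT := (XT.nd (nat_lit 1638) (nat_lit 5016) (nat_lit 0) (XT.nd (nat_lit 780) (nat_lit 3420) (nat_lit 0) (XT.nd (nat_lit 390) (nat_lit 1900) (nat_lit 0) (XT.nd (nat_lit 156) (nat_lit 1368) (nat_lit 0) (XT.nd (nat_lit 78) (nat_lit 0) (nat_lit 0) (XT.lf (nat_lit 0) (nat_lit 623147750) (nat_lit 836) (nat_lit 10023234128) (nat_lit 76) (nat_lit 1757120554) (nat_lit 276) (nat_lit 5) (nat_lit 287) (nat_lit 5) (nat_lit 277) (nat_lit 5) (nat_lit 456) (nat_lit 409) (nat_lit 275)) (XT.lf (nat_lit 0) (nat_lit 2715156451) (nat_lit 836) (nat_lit 3216367034) (nat_lit 76) (nat_lit 6608012161) (nat_lit 276) (nat_lit 5) (nat_lit 287) (nat_lit 5) (nat_lit 277) (nat_lit 5) (nat_lit 457) (nat_lit 409) (nat_lit 274))) (XT.nd (nat_lit 78) (nat_lit 684) (nat_lit 0) (XT.lf (nat_lit 0) (nat_lit 3760077364) (nat_lit 684) (nat_lit 1099221834) (nat_lit 760) (nat_lit 7818789635) (nat_lit 267) (nat_lit 5) (nat_lit 276) (nat_lit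 5) (nat_lit 277) (nat_lit 5) (nat_lit 458) (nat_lit 409) (nat_lit 273)) (XT.nd (nat_lit 78) (nat_lit 684) (nat_lit 0) (XT.lf (nat_lit 0) (nat_lit 7078959935) (nat_lit 760) (nat_lit 1940381936) (nat_lit 76) (nat_lit 3799423592) (nat_lit 267) (nat_lit 5) (nat_lit 277) (nat_lit 5) (nat_lit 268) (nat_lit 5) (nat_lit 459) (nat_lit 409) (nat_lit 272)) (XT.lf (nat_lit 0) (nat_lit 5222284499) (nat_lit 684) (nat_lit 4148232755) (nat_lit 760) (nat_lit 3591193290) (nat_lit 258) (nat_lit 5) (nat_lit 267) (nat_lit 5) (nat_lit 268) (nat_lit 5) (nat_lit 460) (nat_lit 409) (nat_lit 271))))) (XT.nd (nat_lit 156) (nat_lit 1216) (nat_lit 0) (XT.nd (nat_lit 78) (nat_lit 684) (nat_lit 0) (XT.lf (nat_lit 0) (nat_lit 11712809241) (nat_lit 760) (nat_lit 574044933) (nat_lit 76) (nat_lit 820567169) (nat_lit 258) (nat_lit 5) (nat_lit 268) (nat_lit 5) (nat_lit 259) (nat_lit 5) (nat_lit 461) (nat_lit 409) (nat_lit 270)) (XT.lf (nat_lit 0) (nat_lit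 893418558) (nat_lit 684) (nat_lit 6480238246) (nat_lit 76) (nat_lit 5881112167) (nat_lit 249) (nat_lit 5) (nat_lit 258) (nat_lit 5) (nat_lit 250) (nat_lit 5) (nat_lit 462) (nat_lit 409) (nat_lit 269))) (XT.nd (nat_lit 78) (nat_lit 608) (nat_lit 0) (XT.lf (nat_lit 0) (nat_lit 859228948) (nat_lit 608) (nat_lit 2345584705) (nat_lit 684) (nat_lit 10200144582) (nat_lit 241) (nat_lit 5) (nat_lit 249) (nat_lit 5) (nat_lit 250) (nat_lit 5) (nat_lit 463) (nat_lit 409) (nat_lit 268)) (XT.nd (nat_lit 78) (nat_lit 608) (nat_lit 0) (XT.lf (nat_lit 0) (nat_lit 5611225226) (nat_lit 684) (nat_lit 5158109506) (nat_lit 76) (nat_lit 2787845294) (nat_lit 241) (nat_lit 5) (nat_lit 250) (nat_lit 5) (nat_lit 242) (nat_lit 5) (nat_lit 464) (nat_lit 409) (nat_lit 267)) (XT.lf (nat_lit 0) (nat_lit 2377421687) (nat_lit 608) (nat_lit 5706514169) (nat_lit 684) (nat_lit 5628151407) (nat_lit 233) (nat_lit 5) (nat_lit 241) (nat_lit 5) (nat_lit 242)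 (nat_lit 5) (nat_lit 465) (nat_lit 409) (nat_lit 266)))))) (XT.nd (nat_lit 390) (nat_lit 2204) (nat_lit 0) (XT.nd (nat_lit 156) (nat_lit 608) (nat_lit 0) (XT.nd (nat_lit 78) (nat_lit 608) (nat_lit 0) (XT.lf (nat_lit 0) (nat_lit 10118197307) (nat_lit 608) (nat_lit 509869437) (nat_lit 684) (nat_lit 3241590919) (nat_lit 233) (nat_lit 5) (nat_lit 241) (nat_lit 5) (nat_lit 242) (nat_lit 5) (nat_lit 466) (nat_lit 409) (nat_lit 265)) (XT.lf (nat_lit 0) (nat_lit 3989306115) (nat_lit 608) (nat_lit 9278362787) (nat_lit 684) (nat_lit 761823048) (nat_lit 225) (nat_lit 5) (nat_lit 233) (nat_lit 5) (nat_lit 234) (nat_lit 5) (nat_lit 467) (nat_lit 409) (nat_lit 264))) (XT.nd (nat_lit 78) (nat_lit 532) (nat_lit 0) (XT.lf (nat_lit 0) (nat_lit 1760718433) (nat_lit 684) (nat_lit 2286685269) (nat_lit 76) (nat_lit 10144566592) (nat_lit 224) (nat_lit 5) (nat_lit 233) (nat_lit 5) (nat_lit 225) (nat_lit 5) (nat_lit 468) (nat_lit 409) (nat_lit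 263)) (XT.nd (nat_lit 78) (nat_lit 0) (nat_lit 0) (XT.lf (nat_lit 0) (nat_lit 4356879566) (nat_lit 608) (nat_lit 8689528630) (nat_lit 76) (nat_lit 1310525912) (nat_lit 217) (nat_lit 5) (nat_lit 225) (nat_lit 5) (nat_lit 218) (nat_lit 5) (nat_lit 469) (nat_lit 409) (nat_lit 262)) (XT.lf (nat_lit 0) (nat_lit 7035219682) (nat_lit 608) (nat_lit 755430611) (nat_lit 76) (nat_lit 6733945721) (nat_lit 217) (nat_lit 5) (nat_lit 225) (nat_lit 5) (nat_lit 218) (nat_lit 5) (nat_lit 470) (nat_lit 409) (nat_lit 261))))) (XT.nd (nat_lit 234) (nat_lit 988) (nat_lit 0) (XT.nd (nat_lit 78) (nat_lit 608) (nat_lit 0) (XT.lf (nat_lit 0) (nat_lit 7419749588) (nat_lit 608) (nat_lit 2383791417) (nat_lit 684) (nat_lit 4891345717) (nat_lit 209) (nat_lit 5) (nat_lit 217) (nat_lit 5) (nat_lit 218) (nat_lit 5) (nat_lit 471) (nat_lit 409) (nat_lit 260)) (XT.nd (nat_lit 78) (nat_lit 76) (nat_lit 0) (XT.lf (nat_lit 0) (nat_lit 876292283) (nat_lit 532)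 (nat_lit 11770412882) (nat_lit 608) (nat_lit 2221492328) (nat_lit 202) (nat_lit 5) (nat_lit 209) (nat_lit 5) (nat_lit 210) (nat_lit 5) (nat_lit 472) (nat_lit 409) (nat_lit 259)) (XT.lf (nat_lit 0) (nat_lit 548513169) (nat_lit 608) (nat_lit 5789086600) (nat_lit 76) (nat_lit 8706246471) (nat_lit 201) (nat_lit 5) (nat_lit 209) (nat_lit 5) (nat_lit 202) (nat_lit 5) (nat_lit 473) (nat_lit 409) (nat_lit 258)))) (XT.nd (nat_lit 78) (nat_lit 456) (nat_lit 0) (XT.lf (nat_lit 0) (nat_lit 2582150256) (nat_lit 532) (nat_lit 767448597) (nat_lit 608) (nat_lit 11873010472) (nat_lit 194) (nat_lit 5) (nat_lit 201) (nat_lit 5) (nat_lit 202) (nat_lit 5) (nat_lit 474) (nat_lit 409) (nat_lit 257)) (XT.nd (nat_lit 78) (nat_lit 456) (nat_lit 0) (XT.lf (nat_lit 0) (nat_lit 6266455039) (nat_lit 608) (nat_lit 4251949333) (nat_lit 76) (nat_lit 4885351813) (nat_lit 194) (nat_lit 5) (nat_lit 202) (nat_lit 5) (nat_lit 195) (nat_lit 5) (nat_lit 475)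 (nat_lit 409) (nat_lit 256)) (XT.lf (nat_lit 0) (nat_lit 4341580774) (nat_lit 456) (nat_lit 4922297326) (nat_lit 532) (nat_lit 6324206708) (nat_lit 188) (nat_lit 5) (nat_lit 194) (nat_lit 5) (nat_lit 195) (nat_lit 5) (nat_lit 476) (nat_lit 409) (nat_lit 255))))))) (XT.nd (nat_lit 780) (nat_lit 2508) (nat_lit 0) (XT.nd (nat_lit 390) (nat_lit 988) (nat_lit 0) (XT.nd (nat_lit 156) (nat_lit 988) (nat_lit 0) (XT.nd (nat_lit 78) (nat_lit 532) (nat_lit 0) (XT.lf (nat_lit 0) (nat_lit 12344130724) (nat_lit 532) (nat_lit 2630912316) (nat_lit 76) (nat_lit 800602696) (nat_lit 188) (nat_lit 5) (nat_lit 195) (nat_lit 5) (nat_lit 189) (nat_lit 5) (nat_lit 477) (nat_lit 409) (nat_lit 254)) (XT.lf (nat_lit 0) (nat_lit 6191169688) (nat_lit 532) (nat_lit 9356886271) (nat_lit 608) (nat_lit 417663860) (nat_lit 181) (nat_lit 5) (nat_lit 188) (nat_lit 5) (nat_lit 189) (nat_lit 5) (nat_lit 478) (nat_lit 409) (nat_lit 253))) (XT.nd (nat_lit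 78) (nat_lit 912) (nat_lit 0) (XT.lf (nat_lit 0) (nat_lit 2628712294) (nat_lit 608) (nat_lit 965722811) (nat_lit 76) (nat_lit 12564676729) (nat_lit 180) (nat_lit 5) (nat_lit 188) (nat_lit 5) (nat_lit 181) (nat_lit 5) (nat_lit 479) (nat_lit 409) (nat_lit 252)) (XT.nd (nat_lit 78) (nat_lit 456) (nat_lit 0) (XT.lf (nat_lit 0) (nat_lit 5787768642) (nat_lit 532) (nat_lit 8261969918) (nat_lit 76) (nat_lit 2305434110) (nat_lit 174) (nat_lit 5) (nat_lit 181) (nat_lit 5) (nat_lit 175) (nat_lit 5) (nat_lit 480) (nat_lit 409) (nat_lit 251)) (XT.lf (nat_lit 0) (nat_lit 763254433) (nat_lit 456) (nat_lit 8271650230) (nat_lit 532) (nat_lit 7519755125) (nat_lit 168) (nat_lit 5) (nat_lit 174) (nat_lit 5) (nat_lit 175) (nat_lit 5) (nat_lit 481) (nat_lit 409) (nat_lit 250))))) (XT.nd (nat_lit 156) (nat_lit 532) (nat_lit 0) (XT.nd (nat_lit 78) (nat_lit 456) (nat_lit 0) (XT.lf (nat_lit 0) (nat_lit 10066789399) (nat_lit 456) (nat_lit 2325363044)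 (nat_lit 532) (nat_lit 4365083804) (nat_lit 168) (nat_lit 5) (nat_lit 174) (nat_lit 5) (nat_lit 175) (nat_lit 5) (nat_lit 482) (nat_lit 409) (nat_lit 249)) (XT.lf (nat_lit 0) (nat_lit 2588104382) (nat_lit 456) (nat_lit 13259429463) (nat_lit 532) (nat_lit 1115713536) (nat_lit 162) (nat_lit 5) (nat_lit 168) (nat_lit 5) (nat_lit 169) (nat_lit 5) (nat_lit 483) (nat_lit 409) (nat_lit 248))) (XT.nd (nat_lit 78) (nat_lit 456) (nat_lit 0) (XT.lf (nat_lit 0) (nat_lit 2220343539) (nat_lit 532) (nat_lit 5073667648) (nat_lit 76) (nat_lit 9878074157) (nat_lit 161) (nat_lit 5) (nat_lit 168) (nat_lit 5) (nat_lit 162) (nat_lit 5) (nat_lit 484) (nat_lit 409) (nat_lit 247)) (XT.nd (nat_lit 78) (nat_lit 0) (nat_lit 0) (XT.lf (nat_lit 0) (nat_lit 4450968627) (nat_lit 456) (nat_lit 1176265069) (nat_lit 532) (nat_lit 11757340597) (nat_lit 155) (nat_lit 5) (nat_lit 161) (nat_lit 5) (nat_lit 162) (nat_lit 5) (nat_lit 485) (nat_lit 409) (nat_lit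 246)) (XT.lf (nat_lit 0) (nat_lit 9159628615) (nat_lit 532) (nat_lit 3412798496) (nat_lit 76) (nat_lit 5027741269) (nat_lit 155) (nat_lit 5) (nat_lit 162) (nat_lit 5) (nat_lit 156) (nat_lit 5) (nat_lit 486) (nat_lit 409) (nat_lit 245)))))) (XT.nd (nat_lit 390) (nat_lit 1216) (nat_lit 0) (XT.nd (nat_lit 156) (nat_lit 912) (nat_lit 0) (XT.nd (nat_lit 78) (nat_lit 0) (nat_lit 0) (XT.lf (nat_lit 0) (nat_lit 6360390210) (nat_lit 380) (nat_lit 6441775478) (nat_lit 456) (nat_lit 5017121420) (nat_lit 150) (nat_lit 5) (nat_lit 155) (nat_lit 5) (nat_lit 156) (nat_lit 5) (nat_lit 487) (nat_lit 409) (nat_lit 244)) (XT.lf (nat_lit 0) (nat_lit 16361731522) (nat_lit 380) (nat_lit 169232148) (nat_lit 456) (nat_lit 1511558929) (nat_lit 150) (nat_lit 5) (nat_lit 155) (nat_lit 5) (nat_lit 156) (nat_lit 5) (nat_lit 488) (nat_lit 409) (nat_lit 243))) (XT.nd (nat_lit 78) (nat_lit 380) (nat_lit 0) (XT.lf (nat_lit 0) (nat_lit 2122919663) (nat_lit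 532) (nat_lit 9934027610) (nat_lit 76) (nat_lit 6211292466) (nat_lit 143) (nat_lit 5) (nat_lit 150) (nat_lit 5) (nat_lit 144) (nat_lit 5) (nat_lit 489) (nat_lit 409) (nat_lit 242)) (XT.nd (nat_lit 78) (nat_lit 0) (nat_lit 0) (XT.lf (nat_lit 0) (nat_lit 49996776) (nat_lit 380) (nat_lit 5763370337) (nat_lit 456) (nat_lit 12684836342) (nat_lit 138) (nat_lit 5) (nat_lit 143) (nat_lit 5) (nat_lit 144) (nat_lit 5) (nat_lit 490) (nat_lit 409) (nat_lit 241)) (XT.lf (nat_lit 0) (nat_lit 9639756189) (nat_lit 456) (nat_lit 8381351109) (nat_lit 76) (nat_lit 710418891) (nat_lit 138) (nat_lit 5) (nat_lit 144) (nat_lit 5) (nat_lit 139) (nat_lit 5) (nat_lit 491) (nat_lit 409) (nat_lit 240))))) (XT.nd (nat_lit 234) (nat_lit 380) (nat_lit 0) (XT.nd (nat_lit 78) (nat_lit 456) (nat_lit 0) (XT.lf (nat_lit 0) (nat_lit 1859754023) (nat_lit 380) (nat_lit 11724111748) (nat_lit 456) (nat_lit 5384828099) (nat_lit 133) (nat_lit 5) (nat_lit 138)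 (nat_lit 5) (nat_lit 139) (nat_lit 5) (nat_lit 492) (nat_lit 409) (nat_lit 239)) (XT.nd (nat_lit 78) (nat_lit 456) (nat_lit 0) (XT.lf (nat_lit 0) (nat_lit 12406069705) (nat_lit 380) (nat_lit 5248072671) (nat_lit 456) (nat_lit 1555519134) (nat_lit 133) (nat_lit 5) (nat_lit 138) (nat_lit 5) (nat_lit 139) (nat_lit 5) (nat_lit 493) (nat_lit 409) (nat_lit 238)) (XT.lf (nat_lit 0) (nat_lit 2343962139) (nat_lit 456) (nat_lit 15735467340) (nat_lit 76) (nat_lit 1375227799) (nat_lit 127) (nat_lit 5) (nat_lit 133) (nat_lit 5) (nat_lit 128) (nat_lit 5) (nat_lit 494) (nat_lit 409) (nat_lit 237)))) (XT.nd (nat_lit 78) (nat_lit 380) (nat_lit 0) (XT.lf (nat_lit 0) (nat_lit 6372555869) (nat_lit 456) (nat_lit 5217494370) (nat_lit 76) (nat_lit 8112860228) (nat_lit 127) (nat_lit 5) (nat_lit 133) (nat_lit 5) (nat_lit 128) (nat_lit 5) (nat_lit 495) (nat_lit 409) (nat_lit 236)) (XT.nd (nat_lit 78) (nat_lit 0) (nat_lit 0) (XT.lf (nat_lit 0)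 (nat_lit 5571013629) (nat_lit 380) (nat_lit 4938269027) (nat_lit 456) (nat_lit 9446296966) (nat_lit 122) (nat_lit 5) (nat_lit 127) (nat_lit 5) (nat_lit 128) (nat_lit 5) (nat_lit 496) (nat_lit 409) (nat_lit 235)) (XT.lf (nat_lit 0) (nat_lit 14767425348) (nat_lit 456) (nat_lit 3591755750) (nat_lit 76) (nat_lit 1853349520) (nat_lit 122) (nat_lit 5) (nat_lit 128) (nat_lit 5) (nat_lit 123) (nat_lit 5) (nat_lit 497) (nat_lit 409) (nat_lit 234))))))))
noncomputable def xc171 : XT := (XT.nd (nat_lit 53742) (nat_lit 0) (nat_lit 17556) (XT.nd (nat_lit 52884) (nat_lit 0) (nat_lit 27588) (XT.nd (nat_lit 52494) (nat_lit 0) (nat_lit 30248) (XT.nd (nat_lit 156) (nat_lit 684) (nat_lit 0) (XT.nd (nat_lit 78) (nat_lit 76) (nat_lit 0) (XT.lf (nat_lit 0) (nat_lit 7469475097) (nat_lit 304) (nat_lit 11714072385) (nat_lit 380) (nat_lit 1289618866) (nat_lit 118) (nat_lit 5) (nat_lit 122) (nat_lit 5) (nat_lit 123) (nat_lit 5) (nat_lit 498) (nat_lit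 409) (nat_lit 233)) (XT.lf (nat_lit 0) (nat_lit 2926204675) (nat_lit 380) (nat_lit 1969946184) (nat_lit 76) (nat_lit 15842164888) (nat_lit 117) (nat_lit 5) (nat_lit 122) (nat_lit 5) (nat_lit 118) (nat_lit 5) (nat_lit 499) (nat_lit 409) (nat_lit 232))) (XT.nd (nat_lit 78) (nat_lit 304) (nat_lit 0) (XT.lf (nat_lit 0) (nat_lit 7275637217) (nat_lit 456) (nat_lit 11634774986) (nat_lit 76) (nat_lit 2096856159) (nat_lit 112) (nat_lit 5) (nat_lit 118) (nat_lit 5) (nat_lit 113) (nat_lit 5) (nat_lit 500) (nat_lit 409) (nat_lit 231)) (XT.nd (nat_lit 78) (nat_lit 304) (nat_lit 0) (XT.lf (nat_lit 0) (nat_lit 11749648077) (nat_lit 456) (nat_lit 357892835) (nat_lit 76) (nat_lit 9173309214) (nat_lit 112) (nat_lit 5) (nat_lit 118) (nat_lit 5) (nat_lit 113) (nat_lit 5) (nat_lit 501) (nat_lit 409) (nat_lit 230)) (XT.lf (nat_lit 0) (nat_lit 11280184615) (nat_lit 304) (nat_lit 5098210534) (nat_lit 380) (nat_lit 5180205107) (nat_lit 108)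 (nat_lit 5) (nat_lit 112) (nat_lit 5) (nat_lit 113) (nat_lit 5) (nat_lit 502) (nat_lit 409) (nat_lit 229))))) (XT.nd (nat_lit 156) (nat_lit 0) (nat_lit 0) (XT.nd (nat_lit 78) (nat_lit 0) (nat_lit 0) (XT.lf (nat_lit 0) (nat_lit 1659261473) (nat_lit 1444) (nat_lit 1214170272) (nat_lit 1444) (nat_lit 1214170272) (nat_lit 506) (nat_lit 3) (nat_lit 525) (nat_lit 3) (nat_lit 525) (nat_lit 5) (nat_lit 410) (nat_lit 410) (nat_lit 320)) (XT.lf (nat_lit 76) (nat_lit 1483603748) (nat_lit 0) (nat_lit 2994188542) (nat_lit 1444) (nat_lit 3756088520) (nat_lit 507) (nat_lit 5) (nat_lit 506) (nat_lit 3) (nat_lit 525) (nat_lit 5) (nat_lit 411) (nat_lit 410) (nat_lit 319))) (XT.nd (nat_lit 78) (nat_lit 0) (nat_lit 76) (XT.lf (nat_lit 76) (nat_lit 5491562571) (nat_lit 0) (nat_lit 155596660) (nat_lit 1444) (nat_lit 2646848165) (nat_lit 507) (nat_lit 5) (nat_lit 506) (nat_lit 3) (nat_lit 525) (nat_lit 5) (nat_lit 412) (nat_lit 410) (nat_lit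 318)) (XT.nd (nat_lit 78) (nat_lit 0) (nat_lit 0) (XT.lf (nat_lit 76) (nat_lit 1206858537) (nat_lit 0) (nat_lit 5629962651) (nat_lit 1444) (nat_lit 1518591409) (nat_lit 508) (nat_lit 5) (nat_lit 507) (nat_lit 5) (nat_lit 526) (nat_lit 5) (nat_lit 413) (nat_lit 410) (nat_lit 317)) (XT.lf (nat_lit 76) (nat_lit 5317868549) (nat_lit 0) (nat_lit 2723983871) (nat_lit 1444) (nat_lit 376375918) (nat_lit 508) (nat_lit 5) (nat_lit 507) (nat_lit 5) (nat_lit 526) (nat_lit 5) (nat_lit 414) (nat_lit 410) (nat_lit 316)))))) (XT.nd (nat_lit 390) (nat_lit 1368) (nat_lit 0) (XT.nd (nat_lit 156) (nat_lit 0) (nat_lit 0) (XT.nd (nat_lit 78) (nat_lit 0) (nat_lit 0) (XT.lf (nat_lit 0) (nat_lit 758793682) (nat_lit 1444) (nat_lit 7462783039) (nat_lit 1520) (nat_lit 261025602) (nat_lit 489) (nat_lit 5) (nat_lit 508) (nat_lit 5) (nat_lit 509) (nat_lit 5) (nat_lit 415) (nat_lit 410) (nat_lit 315)) (XT.lf (nat_lit 0) (nat_lit 1923242908) (nat_lit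 1444) (nat_lit 3320132759) (nat_lit 1520) (nat_lit 3304619200) (nat_lit 489) (nat_lit 5) (nat_lit 508) (nat_lit 5) (nat_lit 509) (nat_lit 5) (nat_lit 416) (nat_lit 410) (nat_lit 314))) (XT.nd (nat_lit 78) (nat_lit 0) (nat_lit 76) (XT.lf (nat_lit 76) (nat_lit 901464731) (nat_lit 0) (nat_lit 2188534723) (nat_lit 1520) (nat_lit 5525128333) (nat_lit 490) (nat_lit 5) (nat_lit 489) (nat_lit 5) (nat_lit 509) (nat_lit 5) (nat_lit 417) (nat_lit 410) (nat_lit 313)) (XT.nd (nat_lit 78) (nat_lit 0) (nat_lit 0) (XT.lf (nat_lit 0) (nat_lit 4282200007) (nat_lit 1444) (nat_lit 3453063237) (nat_lit 1520) (nat_lit 948310588) (nat_lit 490) (nat_lit 5) (nat_lit 509) (nat_lit 5) (nat_lit 510) (nat_lit 5) (nat_lit 418) (nat_lit 410) (nat_lit 312)) (XT.lf (nat_lit 76) (nat_lit 873797287) (nat_lit 0) (nat_lit 4618790799) (nat_lit 1520) (nat_lit 3260926232) (nat_lit 491) (nat_lit 5) (nat_lit 490) (nat_lit 5) (nat_lit 510) (nat_lit 5) (nat_lit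 419) (nat_lit 410) (nat_lit 311))))) (XT.nd (nat_lit 234) (nat_lit 0) (nat_lit 0) (XT.nd (nat_lit 78) (nat_lit 1444) (nat_lit 0) (XT.lf (nat_lit 76) (nat_lit 5318189232) (nat_lit 0) (nat_lit 1406746877) (nat_lit 1520) (nat_lit 2099974613) (nat_lit 491) (nat_lit 5) (nat_lit 490) (nat_lit 5) (nat_lit 510) (nat_lit 5) (nat_lit 420) (nat_lit 410) (nat_lit 310)) (XT.nd (nat_lit 78) (nat_lit 1520) (nat_lit 0) (XT.lf (nat_lit 76) (nat_lit 937820970) (nat_lit 0) (nat_lit 7037477243) (nat_lit 1520) (nat_lit 922581409) (nat_lit 492) (nat_lit 5) (nat_lit 491) (nat_lit 5) (nat_lit 511) (nat_lit 5) (nat_lit 421) (nat_lit 410) (nat_lit 309)) (XT.lf (nat_lit 0) (nat_lit 283062952) (nat_lit 1520) (nat_lit 3480635473) (nat_lit 1596) (nat_lit 5208417699) (nat_lit 471) (nat_lit 5) (nat_lit 491) (nat_lit 5) (nat_lit 492) (nat_lit 5) (nat_lit 422) (nat_lit 410) (nat_lit 308)))) (XT.nd (nat_lit 78) (nat_lit 0) (nat_lit 76) (XT.lf (nat_lit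 76) (nat_lit 1080448714) (nat_lit 0) (nat_lit 402878032) (nat_lit 1596) (nat_lit 7564742673) (nat_lit 472) (nat_lit 5) (nat_lit 471) (nat_lit 5) (nat_lit 492) (nat_lit 5) (nat_lit 423) (nat_lit 410) (nat_lit 307)) (XT.nd (nat_lit 78) (nat_lit 0) (nat_lit 0) (XT.lf (nat_lit 0) (nat_lit 2727004214) (nat_lit 1520) (nat_lit 3381356184) (nat_lit 1596) (nat_lit 3016804216) (nat_lit 472) (nat_lit 5) (nat_lit 492) (nat_lit 5) (nat_lit 493) (nat_lit 5) (nat_lit 424) (nat_lit 410) (nat_lit 306)) (XT.lf (nat_lit 76) (nat_lit 1294848673) (nat_lit 0) (nat_lit 2688502703) (nat_lit 1596) (nat_lit 5220705205) (nat_lit 473) (nat_lit 5) (nat_lit 472) (nat_lit 5) (nat_lit 493) (nat_lit 5) (nat_lit 425) (nat_lit 410) (nat_lit 305))))))) (XT.nd (nat_lit 858) (nat_lit 7220) (nat_lit 0) (XT.nd (nat_lit 390) (nat_lit 1444) (nat_lit 0) (XT.nd (nat_lit 156) (nat_lit 1520) (nat_lit 0) (XT.nd (nat_lit 78) (nat_lit 0) (nat_lit 0) (XT.lf (nat_lit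 0) (nat_lit 5269977641) (nat_lit 1520) (nat_lit 3195509827) (nat_lit 1596) (nat_lit 818946453) (nat_lit 473) (nat_lit 5) (nat_lit 493) (nat_lit 5) (nat_lit 494) (nat_lit 5) (nat_lit 426) (nat_lit 410) (nat_lit 304)) (XT.lf (nat_lit 76) (nat_lit 1599451058) (nat_lit 0) (nat_lit 4988642065) (nat_lit 1596) (nat_lit 2778220921) (nat_lit 474) (nat_lit 5) (nat_lit 473) (nat_lit 5) (nat_lit 494) (nat_lit 5) (nat_lit 427) (nat_lit 410) (nat_lit 303))) (XT.nd (nat_lit 78) (nat_lit 1520) (nat_lit 0) (XT.lf (nat_lit 76) (nat_lit 6517550018) (nat_lit 0) (nat_lit 1414367266) (nat_lit 1596) (nat_lit 1517937726) (nat_lit 474) (nat_lit 5) (nat_lit 473) (nat_lit 5) (nat_lit 494) (nat_lit 5) (nat_lit 428) (nat_lit 410) (nat_lit 302)) (XT.nd (nat_lit 78) (nat_lit 1596) (nat_lit 0) (XT.lf (nat_lit 76) (nat_lit 1994369544) (nat_lit 0) (nat_lit 7314059248) (nat_lit 1596) (nat_lit 226531751) (nat_lit 475) (nat_lit 5) (nat_lit 474) (nat_lit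 5) (nat_lit 495) (nat_lit 5) (nat_lit 429) (nat_lit 410) (nat_lit 301)) (XT.lf (nat_lit 0) (nat_lit 1084114807) (nat_lit 1596) (nat_lit 2595058769) (nat_lit 1672) (nat_lit 5942308217) (nat_lit 453) (nat_lit 5) (nat_lit 474) (nat_lit 5) (nat_lit 475) (nat_lit 5) (nat_lit 430) (nat_lit 410) (nat_lit 300))))) (XT.nd (nat_lit 234) (nat_lit 1520) (nat_lit 0) (XT.nd (nat_lit 78) (nat_lit 0) (nat_lit 0) (XT.lf (nat_lit 0) (nat_lit 2413238379) (nat_lit 1596) (nat_lit 7246054179) (nat_lit 1672) (nat_lit 50514409) (nat_lit 454) (nat_lit 5) (nat_lit 475) (nat_lit 5) (nat_lit 476) (nat_lit 5) (nat_lit 431) (nat_lit 410) (nat_lit 299)) (XT.nd (nat_lit 78) (nat_lit 0) (nat_lit 0) (XT.lf (nat_lit 0) (nat_lit 3790142252) (nat_lit 1596) (nat_lit 2181571384) (nat_lit 1672) (nat_lit 3827770260) (nat_lit 454) (nat_lit 5) (nat_lit 475) (nat_lit 5) (nat_lit 476) (nat_lit 5) (nat_lit 432) (nat_lit 410) (nat_lit 298)) (XT.lf (nat_lit 76) (nat_lit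 3007510210) (nat_lit 0) (nat_lit 2186309474) (nat_lit 1672) (nat_lit 4697158998) (nat_lit 455) (nat_lit 5) (nat_lit 454) (nat_lit 5) (nat_lit 476) (nat_lit 5) (nat_lit 433) (nat_lit 410) (nat_lit 297)))) (XT.nd (nat_lit 78) (nat_lit 1596) (nat_lit 0) (XT.lf (nat_lit 0) (nat_lit 6631209335) (nat_lit 1596) (nat_lit 1681499555) (nat_lit 76) (nat_lit 1671490549) (nat_lit 455) (nat_lit 5) (nat_lit 476) (nat_lit 5) (nat_lit 456) (nat_lit 5) (nat_lit 434) (nat_lit 410) (nat_lit 296)) (XT.nd (nat_lit 78) (nat_lit 0) (nat_lit 0) (XT.lf (nat_lit 0) (nat_lit 3641650264) (nat_lit 1596) (nat_lit 4474239293) (nat_lit 1672) (nat_lit 1963032877) (nat_lit 434) (nat_lit 5) (nat_lit 455) (nat_lit 5) (nat_lit 456) (nat_lit 5) (nat_lit 435) (nat_lit 410) (nat_lit 295)) (XT.lf (nat_lit 0) (nat_lit 9078021936) (nat_lit 1596) (nat_lit 544224914) (nat_lit 1672) (nat_lit 553461878) (nat_lit 434) (nat_lit 5) (nat_lit 455) (nat_lit 5) (nat_lit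 456) (nat_lit 5) (nat_lit 436) (nat_lit 410) (nat_lit 294)))))) (XT.nd (nat_lit 390) (nat_lit 2660) (nat_lit 0) (XT.nd (nat_lit 156) (nat_lit 2812) (nat_lit 0) (XT.nd (nat_lit 78) (nat_lit 0) (nat_lit 0) (XT.lf (nat_lit 0) (nat_lit 904853904) (nat_lit 1748) (nat_lit 5912404866) (nat_lit 76) (nat_lit 3456422301) (nat_lit 411) (nat_lit 5) (nat_lit 434) (nat_lit 5) (nat_lit 412) (nat_lit 5) (nat_lit 437) (nat_lit 410) (nat_lit 293)) (XT.lf (nat_lit 0) (nat_lit 2377185107) (nat_lit 1748) (nat_lit 452764660) (nat_lit 76) (nat_lit 7543752745) (nat_lit 411) (nat_lit 5) (nat_lit 434) (nat_lit 5) (nat_lit 412) (nat_lit 5) (nat_lit 438) (nat_lit 410) (nat_lit 292))) (XT.nd (nat_lit 78) (nat_lit 1064) (nat_lit 0) (XT.lf (nat_lit 0) (nat_lit 3902388442) (nat_lit 1824) (nat_lit 5315812766) (nat_lit 76) (nat_lit 1257062521) (nat_lit 388) (nat_lit 5) (nat_lit 412) (nat_lit 5) (nat_lit 389) (nat_lit 5) (nat_lit 439) (nat_lit 410) (nat_lit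 291)) (XT.nd (nat_lit 78) (nat_lit 0) (nat_lit 0) (XT.lf (nat_lit 0) (nat_lit 279922618) (nat_lit 1064) (nat_lit 5183665129) (nat_lit 1140) (nat_lit 5115166293) (nat_lit 374) (nat_lit 5) (nat_lit 388) (nat_lit 5) (nat_lit 389) (nat_lit 5) (nat_lit 440) (nat_lit 410) (nat_lit 290)) (XT.lf (nat_lit 0) (nat_lit 6043496848) (nat_lit 1064) (nat_lit 1030311404) (nat_lit 1140) (nat_lit 3610157514) (nat_lit 374) (nat_lit 5) (nat_lit 388) (nat_lit 5) (nat_lit 389) (nat_lit 5) (nat_lit 441) (nat_lit 410) (nat_lit 289))))) (XT.nd (nat_lit 234) (nat_lit 836) (nat_lit 0) (XT.nd (nat_lit 78) (nat_lit 912) (nat_lit 0) (XT.lf (nat_lit 0) (nat_lit 1108598369) (nat_lit 912) (nat_lit 7618135624) (nat_lit 988) (nat_lit 2064345123) (nat_lit 362) (nat_lit 5) (nat_lit 374) (nat_lit 5) (nat_lit 375) (nat_lit 5) (nat_lit 442) (nat_lit 410) (nat_lit 288)) (XT.nd (nat_lit 78) (nat_lit 912) (nat_lit 0) (XT.lf (nat_lit 0) (nat_lit 7012556589) (nat_lit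 912) (nat_lit 3420805891) (nat_lit 988) (nat_lit 466566628) (nat_lit 362) (nat_lit 5) (nat_lit 374) (nat_lit 5) (nat_lit 375) (nat_lit 5) (nat_lit 443) (nat_lit 410) (nat_lit 287)) (XT.lf (nat_lit 0) (nat_lit 1149746932) (nat_lit 912) (nat_lit 8989952392) (nat_lit 76) (nat_lit 871076021) (nat_lit 350) (nat_lit 5) (nat_lit 362) (nat_lit 5) (nat_lit 351) (nat_lit 5) (nat_lit 444) (nat_lit 410) (nat_lit 286)))) (XT.nd (nat_lit 78) (nat_lit 836) (nat_lit 0) (XT.lf (nat_lit 0) (nat_lit 2824241365) (nat_lit 912) (nat_lit 3065598745) (nat_lit 76) (nat_lit 5233301521) (nat_lit 350) (nat_lit 5) (nat_lit 362) (nat_lit 5) (nat_lit 351) (nat_lit 5) (nat_lit 445) (nat_lit 410) (nat_lit 285)) (XT.nd (nat_lit 78) (nat_lit 0) (nat_lit 0) (XT.lf (nat_lit 0) (nat_lit 3000673095) (nat_lit 836) (nat_lit 1534547374) (nat_lit 912) (nat_lit 6702481585) (nat_lit 339) (nat_lit 5) (nat_lit 350) (nat_lit 5) (nat_lit 351) (nat_lit 5) (nat_lit 446)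 (nat_lit 410) (nat_lit 284)) (XT.lf (nat_lit 0) (nat_lit 6303742791) (nat_lit 912) (nat_lit 2159486133) (nat_lit 76) (nat_lit 2890864866) (nat_lit 339) (nat_lit 5) (nat_lit 351) (nat_lit 5) (nat_lit 340) (nat_lit 5) (nat_lit 447) (nat_lit 410) (nat_lit 283))))))))
noncomputable def xc172 : XT := (XT.nd (nat_lit 1638) (nat_lit 5624) (nat_lit 0) (XT.nd (nat_lit 780) (nat_lit 3952) (nat_lit 0) (XT.nd (nat_lit 390) (nat_lit 2280) (nat_lit 0) (XT.nd (nat_lit 156) (nat_lit 1672) (nat_lit 0) (XT.nd (nat_lit 78) (nat_lit 0) (nat_lit 0) (XT.lf (nat_lit 0) (nat_lit 4066947142) (nat_lit 836) (nat_lit 4061311120) (nat_lit 912) (nat_lit 3344149091) (nat_lit 328) (nat_lit 5) (nat_lit 339) (nat_lit 5) (nat_lit 340) (nat_lit 5) (nat_lit 448) (nat_lit 410) (nat_lit 282)) (XT.lf (nat_lit 0) (nat_lit 9990899690) (nat_lit 912) (nat_lit 1164548319) (nat_lit 76) (nat_lit 437612787) (nat_lit 328) (nat_lit 5) (nat_lit 340) (nat_lit 5) (nat_lit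 329) (nat_lit 5) (nat_lit 449) (nat_lit 410) (nat_lit 281))) (XT.nd (nat_lit 78) (nat_lit 760) (nat_lit 0) (XT.lf (nat_lit 0) (nat_lit 218078225) (nat_lit 912) (nat_lit 6489558641) (nat_lit 76) (nat_lit 5007559788) (nat_lit 316) (nat_lit 5) (nat_lit 328) (nat_lit 5) (nat_lit 317) (nat_lit 5) (nat_lit 450) (nat_lit 410) (nat_lit 280)) (XT.nd (nat_lit 78) (nat_lit 760) (nat_lit 0) (XT.lf (nat_lit 0) (nat_lit 2045823943) (nat_lit 912) (nat_lit 106712015) (nat_lit 76) (nat_lit 9687182331) (nat_lit 316) (nat_lit 5) (nat_lit 328) (nat_lit 5) (nat_lit 317) (nat_lit 5) (nat_lit 451) (nat_lit 410) (nat_lit 279)) (XT.lf (nat_lit 0) (nat_lit 3953586819) (nat_lit 836) (nat_lit 5509507888) (nat_lit 76) (nat_lit 2502772246) (nat_lit 306) (nat_lit 5) (nat_lit 317) (nat_lit 5) (nat_lit 307) (nat_lit 5) (nat_lit 452) (nat_lit 410) (nat_lit 278))))) (XT.nd (nat_lit 156) (nat_lit 1520) (nat_lit 0) (XT.nd (nat_lit 78) (nat_lit 0) (nat_lit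 0) (XT.lf (nat_lit 0) (nat_lit 1041279898) (nat_lit 760) (nat_lit 4865121075) (nat_lit 836) (nat_lit 6188005421) (nat_lit 296) (nat_lit 5) (nat_lit 306) (nat_lit 5) (nat_lit 307) (nat_lit 5) (nat_lit 453) (nat_lit 410) (nat_lit 277)) (XT.lf (nat_lit 0) (nat_lit 7782139223) (nat_lit 760) (nat_lit 138452719) (nat_lit 836) (nat_lit 4304483884) (nat_lit 296) (nat_lit 5) (nat_lit 306) (nat_lit 5) (nat_lit 307) (nat_lit 5) (nat_lit 454) (nat_lit 410) (nat_lit 276))) (XT.nd (nat_lit 78) (nat_lit 836) (nat_lit 0) (XT.lf (nat_lit 0) (nat_lit 2283393489) (nat_lit 684) (nat_lit 7722531959) (nat_lit 760) (nat_lit 2351821527) (nat_lit 287) (nat_lit 5) (nat_lit 296) (nat_lit 5) (nat_lit 297) (nat_lit 5) (nat_lit 455) (nat_lit 410) (nat_lit 275)) (XT.nd (nat_lit 78) (nat_lit 836) (nat_lit 0) (XT.lf (nat_lit 0) (nat_lit 9188041744) (nat_lit 684) (nat_lit 2961460196) (nat_lit 760) (nat_lit 343244274) (nat_lit 287) (nat_lit 5) (nat_lit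 296) (nat_lit 5) (nat_lit 297) (nat_lit 5) (nat_lit 456) (nat_lit 410) (nat_lit 274)) (XT.lf (nat_lit 0) (nat_lit 1705163286) (nat_lit 836) (nat_lit 9021194368) (nat_lit 76) (nat_lit 1903430970) (nat_lit 276) (nat_lit 5) (nat_lit 287) (nat_lit 5) (nat_lit 277) (nat_lit 5) (nat_lit 457) (nat_lit 410) (nat_lit 273)))))) (XT.nd (nat_lit 390) (nat_lit 1976) (nat_lit 0) (XT.nd (nat_lit 156) (nat_lit 1292) (nat_lit 0) (XT.nd (nat_lit 78) (nat_lit 684) (nat_lit 0) (XT.lf (nat_lit 0) (nat_lit 3818040542) (nat_lit 836) (nat_lit 2101768451) (nat_lit 76) (nat_lit 6849160644) (nat_lit 276) (nat_lit 5) (nat_lit 287) (nat_lit 5) (nat_lit 277) (nat_lit 5) (nat_lit 458) (nat_lit 410) (nat_lit 272)) (XT.lf (nat_lit 0) (nat_lit 5006448743) (nat_lit 684) (nat_lit 985661001) (nat_lit 760) (nat_lit 6918450823) (nat_lit 267) (nat_lit 5) (nat_lit 276) (nat_lit 5) (nat_lit 277) (nat_lit 5) (nat_lit 459) (nat_lit 410) (nat_lit 271))) (XT.nd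 (nat_lit 78) (nat_lit 1292) (nat_lit 0) (XT.lf (nat_lit 0) (nat_lit 8236720127) (nat_lit 760) (nat_lit 811170140) (nat_lit 76) (nat_lit 4006556739) (nat_lit 267) (nat_lit 5) (nat_lit 277) (nat_lit 5) (nat_lit 268) (nat_lit 5) (nat_lit 460) (nat_lit 410) (nat_lit 270)) (XT.nd (nat_lit 78) (nat_lit 608) (nat_lit 0) (XT.lf (nat_lit 0) (nat_lit 6487065286) (nat_lit 684) (nat_lit 4074651854) (nat_lit 760) (nat_lit 2638788935) (nat_lit 258) (nat_lit 5) (nat_lit 267) (nat_lit 5) (nat_lit 268) (nat_lit 5) (nat_lit 461) (nat_lit 410) (nat_lit 269)) (XT.lf (nat_lit 0) (nat_lit 578688656) (nat_lit 608) (nat_lit 12357237861) (nat_lit 684) (nat_lit 413510257) (nat_lit 250) (nat_lit 5) (nat_lit 258) (nat_lit 5) (nat_lit 259) (nat_lit 5) (nat_lit 462) (nat_lit 410) (nat_lit 268))))) (XT.nd (nat_lit 234) (nat_lit 1292) (nat_lit 0) (XT.nd (nat_lit 78) (nat_lit 608) (nat_lit 0) (XT.lf (nat_lit 0) (nat_lit 1891324775) (nat_lit 684) (nat_lit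 5447461356) (nat_lit 76) (nat_lit 6161135503) (nat_lit 249) (nat_lit 5) (nat_lit 258) (nat_lit 5) (nat_lit 250) (nat_lit 5) (nat_lit 463) (nat_lit 410) (nat_lit 267)) (XT.nd (nat_lit 78) (nat_lit 0) (nat_lit 0) (XT.lf (nat_lit 0) (nat_lit 2031147934) (nat_lit 608) (nat_lit 2206080712) (nat_lit 684) (nat_lit 9416127126) (nat_lit 241) (nat_lit 5) (nat_lit 249) (nat_lit 5) (nat_lit 250) (nat_lit 5) (nat_lit 464) (nat_lit 410) (nat_lit 266)) (XT.lf (nat_lit 0) (nat_lit 6673968411) (nat_lit 684) (nat_lit 4111050421) (nat_lit 76) (nat_lit 3023965742) (nat_lit 241) (nat_lit 5) (nat_lit 250) (nat_lit 5) (nat_lit 242) (nat_lit 5) (nat_lit 465) (nat_lit 410) (nat_lit 265)))) (XT.nd (nat_lit 78) (nat_lit 684) (nat_lit 0) (XT.lf (nat_lit 0) (nat_lit 3567624151) (nat_lit 608) (nat_lit 5617290349) (nat_lit 684) (nat_lit 4782306274) (nat_lit 233) (nat_lit 5) (nat_lit 241) (nat_lit 5) (nat_lit 242) (nat_lit 5) (nat_lit 466) (nat_lit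 410) (nat_lit 264)) (XT.nd (nat_lit 78) (nat_lit 684) (nat_lit 0) (XT.lf (nat_lit 0) (nat_lit 11440810303) (nat_lit 608) (nat_lit 320700057) (nat_lit 684) (nat_lit 2366806893) (nat_lit 233) (nat_lit 5) (nat_lit 241) (nat_lit 5) (nat_lit 242) (nat_lit 5) (nat_lit 467) (nat_lit 410) (nat_lit 263)) (XT.lf (nat_lit 0) (nat_lit 150906242) (nat_lit 684) (nat_lit 9093240576) (nat_lit 76) (nat_lit 5047376736) (nat_lit 224) (nat_lit 5) (nat_lit 233) (nat_lit 5) (nat_lit 225) (nat_lit 5) (nat_lit 468) (nat_lit 410) (nat_lit 262))))))) (XT.nd (nat_lit 780) (nat_lit 2888) (nat_lit 0) (XT.nd (nat_lit 390) (nat_lit 1064) (nat_lit 0) (XT.nd (nat_lit 156) (nat_lit 1140) (nat_lit 0) (XT.nd (nat_lit 78) (nat_lit 532) (nat_lit 0) (XT.lf (nat_lit 0) (nat_lit 2695711701) (nat_lit 684) (nat_lit 1212121141) (nat_lit 76) (nat_lit 10549683585) (nat_lit 224) (nat_lit 5) (nat_lit 233) (nat_lit 5) (nat_lit 225) (nat_lit 5) (nat_lit 469) (nat_lit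 410) (nat_lit 261)) (XT.lf (nat_lit 0) (nat_lit 5334830731) (nat_lit 608) (nat_lit 7733764185) (nat_lit 76) (nat_lit 1557369745) (nat_lit 217) (nat_lit 5) (nat_lit 225) (nat_lit 5) (nat_lit 218) (nat_lit 5) (nat_lit 470) (nat_lit 410) (nat_lit 260))) (XT.nd (nat_lit 78) (nat_lit 532) (nat_lit 0) (XT.lf (nat_lit 0) (nat_lit 341344450) (nat_lit 608) (nat_lit 7710142500) (nat_lit 684) (nat_lit 6745803590) (nat_lit 209) (nat_lit 5) (nat_lit 217) (nat_lit 5) (nat_lit 218) (nat_lit 5) (nat_lit 471) (nat_lit 410) (nat_lit 259)) (XT.nd (nat_lit 78) (nat_lit 532) (nat_lit 0) (XT.lf (nat_lit 0) (nat_lit 8668265888) (nat_lit 608) (nat_lit 2194710850) (nat_lit 684) (nat_lit 4108259894) (nat_lit 209) (nat_lit 5) (nat_lit 217) (nat_lit 5) (nat_lit 218) (nat_lit 5) (nat_lit 472) (nat_lit 410) (nat_lit 258)) (XT.lf (nat_lit 0) (nat_lit 2002607109) (nat_lit 532) (nat_lit 11752174382) (nat_lit 608) (nat_lit 1393402083) (nat_lit 202) (nat_lit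 5) (nat_lit 209) (nat_lit 5) (nat_lit 210) (nat_lit 5) (nat_lit 473) (nat_lit 410) (nat_lit 257))))) (XT.nd (nat_lit 156) (nat_lit 456) (nat_lit 0) (XT.nd (nat_lit 78) (nat_lit 532) (nat_lit 0) (XT.lf (nat_lit 0) (nat_lit 1403676407) (nat_lit 608) (nat_lit 4806337087) (nat_lit 76) (nat_lit 9117561467) (nat_lit 201) (nat_lit 5) (nat_lit 209) (nat_lit 5) (nat_lit 202) (nat_lit 5) (nat_lit 474) (nat_lit 410) (nat_lit 256)) (XT.lf (nat_lit 0) (nat_lit 3725097327) (nat_lit 532) (nat_lit 526219144) (nat_lit 608) (nat_lit 11258791365) (nat_lit 194) (nat_lit 5) (nat_lit 201) (nat_lit 5) (nat_lit 202) (nat_lit 5) (nat_lit 475) (nat_lit 410) (nat_lit 255))) (XT.nd (nat_lit 78) (nat_lit 456) (nat_lit 0) (XT.lf (nat_lit 0) (nat_lit 7211775825) (nat_lit 608) (nat_lit 3252094335) (nat_lit 76) (nat_lit 5231307235) (nat_lit 194) (nat_lit 5) (nat_lit 202) (nat_lit 5) (nat_lit 195) (nat_lit 5) (nat_lit 476) (nat_lit 410) (nat_lit 254))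 (XT.nd (nat_lit 78) (nat_lit 0) (nat_lit 0) (XT.lf (nat_lit 0) (nat_lit 5506168914) (nat_lit 456) (nat_lit 4753897675) (nat_lit 532) (nat_lit 5623312598) (nat_lit 188) (nat_lit 5) (nat_lit 194) (nat_lit 5) (nat_lit 195) (nat_lit 5) (nat_lit 477) (nat_lit 410) (nat_lit 253)) (XT.lf (nat_lit 0) (nat_lit 13387722618) (nat_lit 532) (nat_lit 1612460658) (nat_lit 76) (nat_lit 1074796975) (nat_lit 188) (nat_lit 5) (nat_lit 195) (nat_lit 5) (nat_lit 189) (nat_lit 5) (nat_lit 478) (nat_lit 410) (nat_lit 252)))))) (XT.nd (nat_lit 390) (nat_lit 1368) (nat_lit 0) (XT.nd (nat_lit 156) (nat_lit 456) (nat_lit 0) (XT.nd (nat_lit 78) (nat_lit 456) (nat_lit 0) (XT.lf (nat_lit 0) (nat_lit 373020829) (nat_lit 608) (nat_lit 8892472483) (nat_lit 76) (nat_lit 7003492478) (nat_lit 180) (nat_lit 5) (nat_lit 188) (nat_lit 5) (nat_lit 181) (nat_lit 5) (nat_lit 479) (nat_lit 410) (nat_lit 251)) (XT.lf (nat_lit 0) (nat_lit 69603700) (nat_lit 456)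 (nat_lit 3390027572) (nat_lit 532) (nat_lit 13006865775) (nat_lit 174) (nat_lit 5) (nat_lit 180) (nat_lit 5) (nat_lit 181) (nat_lit 5) (nat_lit 480) (nat_lit 410) (nat_lit 250))) (XT.nd (nat_lit 78) (nat_lit 456) (nat_lit 0) (XT.lf (nat_lit 0) (nat_lit 6674761325) (nat_lit 532) (nat_lit 7366600088) (nat_lit 76) (nat_lit 2625264347) (nat_lit 174) (nat_lit 5) (nat_lit 181) (nat_lit 5) (nat_lit 175) (nat_lit 5) (nat_lit 481) (nat_lit 410) (nat_lit 249)) (XT.nd (nat_lit 78) (nat_lit 0) (nat_lit 0) (XT.lf (nat_lit 0) (nat_lit 1832151058) (nat_lit 456) (nat_lit 8146407584) (nat_lit 532) (nat_lit 6891714031) (nat_lit 168) (nat_lit 5) (nat_lit 174) (nat_lit 5) (nat_lit 175) (nat_lit 5) (nat_lit 482) (nat_lit 410) (nat_lit 248)) (XT.lf (nat_lit 0) (nat_lit 11301097281) (nat_lit 456) (nat_lit 2086894177) (nat_lit 532) (nat_lit 3689212739) (nat_lit 168) (nat_lit 5) (nat_lit 174) (nat_lit 5) (nat_lit 175) (nat_lit 5) (nat_lit 483)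 (nat_lit 410) (nat_lit 247))))) (XT.nd (nat_lit 234) (nat_lit 380) (nat_lit 0) (XT.nd (nat_lit 78) (nat_lit 532) (nat_lit 0) (XT.lf (nat_lit 0) (nat_lit 3679281541) (nat_lit 456) (nat_lit 13227094906) (nat_lit 532) (nat_lit 381085440) (nat_lit 162) (nat_lit 5) (nat_lit 168) (nat_lit 5) (nat_lit 169) (nat_lit 5) (nat_lit 484) (nat_lit 410) (nat_lit 246)) (XT.nd (nat_lit 78) (nat_lit 456) (nat_lit 0) (XT.lf (nat_lit 0) (nat_lit 2997117990) (nat_lit 532) (nat_lit 4146169490) (nat_lit 76) (nat_lit 10357387872) (nat_lit 161) (nat_lit 5) (nat_lit 168) (nat_lit 5) (nat_lit 162) (nat_lit 5) (nat_lit 485) (nat_lit 410) (nat_lit 245)) (XT.lf (nat_lit 0) (nat_lit 5562189961) (nat_lit 456) (nat_lit 902232653) (nat_lit 532) (nat_lit 11253149939) (nat_lit 155) (nat_lit 5) (nat_lit 161) (nat_lit 5) (nat_lit 162) (nat_lit 5) (nat_lit 486) (nat_lit 410) (nat_lit 244)))) (XT.nd (nat_lit 78) (nat_lit 380) (nat_lit 0) (XT.lf (nat_lit 0)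 (nat_lit 10055150782) (nat_lit 532) (nat_lit 2466384617) (nat_lit 76) (nat_lit 5416193343) (nat_lit 155) (nat_lit 5) (nat_lit 162) (nat_lit 5) (nat_lit 156) (nat_lit 5) (nat_lit 487) (nat_lit 410) (nat_lit 243)) (XT.nd (nat_lit 78) (nat_lit 0) (nat_lit 0) (XT.lf (nat_lit 0) (nat_lit 7495592403) (nat_lit 380) (nat_lit 6267523514) (nat_lit 456) (nat_lit 4398266232) (nat_lit 150) (nat_lit 5) (nat_lit 155) (nat_lit 5) (nat_lit 156) (nat_lit 5) (nat_lit 488) (nat_lit 410) (nat_lit 242)) (XT.lf (nat_lit 0) (nat_lit 17553476673) (nat_lit 456) (nat_lit 712975133) (nat_lit 76) (nat_lit 122894585) (nat_lit 150) (nat_lit 5) (nat_lit 156) (nat_lit 5) (nat_lit 151) (nat_lit 5) (nat_lit 489) (nat_lit 410) (nat_lit 241))))))))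
noncomputable def xc173 : XT := (XT.nd (nat_lit 53820) (nat_lit 0) (nat_lit 21280) (XT.nd (nat_lit 780) (nat_lit 760) (nat_lit 0) (XT.nd (nat_lit 390) (nat_lit 1140) (nat_lit 0) (XT.nd (nat_lit 156) (nat_lit 380) (nat_lit 0) (XT.nd (nat_lit 78) (nat_lit 380) (nat_lit 0) (XT.lf (nat_lit 0) (nat_lit 2855980858) (nat_lit 532) (nat_lit 9129618929) (nat_lit 76) (nat_lit 6634011235) (nat_lit 143) (nat_lit 5) (nat_lit 150) (nat_lit 5) (nat_lit 144) (nat_lit 5) (nat_lit 490) (nat_lit 410) (nat_lit 240)) (XT.lf (nat_lit 0) (nat_lit 1047486673) (nat_lit 380) (nat_lit 5565679227) (nat_lit 456) (nat_lit 12241153099) (nat_lit 138) (nat_lit 5) (nat_lit 143) (nat_lit 5) (nat_lit 144) (nat_lit 5) (nat_lit 491) (nat_lit 410) (nat_lit 239))) (XT.nd (nat_lit 78) (nat_lit 380) (nat_lit 0) (XT.lf (nat_lit 0) (nat_lit 10504672271) (nat_lit 456) (nat_lit 7560442295) (nat_lit 76) (nat_lit 1027425318) (nat_lit 138) (nat_lit 5) (nat_lit 144)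 (nat_lit 5) (nat_lit 139) (nat_lit 5) (nat_lit 492) (nat_lit 410) (nat_lit 238)) (XT.nd (nat_lit 78) (nat_lit 0) (nat_lit 0) (XT.lf (nat_lit 0) (nat_lit 2878981414) (nat_lit 380) (nat_lit 11641879794) (nat_lit 456) (nat_lit 4813729187) (nat_lit 133) (nat_lit 5) (nat_lit 138) (nat_lit 5) (nat_lit 139) (nat_lit 5) (nat_lit 493) (nat_lit 410) (nat_lit 237)) (XT.lf (nat_lit 0) (nat_lit 13616967875) (nat_lit 380) (nat_lit 5042530017) (nat_lit 456) (nat_lit 921143759) (nat_lit 133) (nat_lit 5) (nat_lit 138) (nat_lit 5) (nat_lit 139) (nat_lit 5) (nat_lit 494) (nat_lit 410) (nat_lit 236))))) (XT.nd (nat_lit 156) (nat_lit 684) (nat_lit 0) (XT.nd (nat_lit 78) (nat_lit 0) (nat_lit 0) (XT.lf (nat_lit 0) (nat_lit 3043034814) (nat_lit 456) (nat_lit 15073782109) (nat_lit 76) (nat_lit 1713728505) (nat_lit 127) (nat_lit 5) (nat_lit 133) (nat_lit 5) (nat_lit 128) (nat_lit 5) (nat_lit 495) (nat_lit 410) (nat_lit 235)) (XT.lf (nat_lit 0)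 (nat_lit 7139412312) (nat_lit 456) (nat_lit 4364594671) (nat_lit 76) (nat_lit 8580015619) (nat_lit 127) (nat_lit 5) (nat_lit 133) (nat_lit 5) (nat_lit 128) (nat_lit 5) (nat_lit 496) (nat_lit 410) (nat_lit 234))) (XT.nd (nat_lit 78) (nat_lit 304) (nat_lit 0) (XT.lf (nat_lit 0) (nat_lit 6633385794) (nat_lit 380) (nat_lit 4719124692) (nat_lit 456) (nat_lit 8989365015) (nat_lit 122) (nat_lit 5) (nat_lit 127) (nat_lit 5) (nat_lit 128) (nat_lit 5) (nat_lit 497) (nat_lit 410) (nat_lit 233)) (XT.nd (nat_lit 78) (nat_lit 304) (nat_lit 0) (XT.lf (nat_lit 0) (nat_lit 15685427049) (nat_lit 456) (nat_lit 2720744272) (nat_lit 76) (nat_lit 2198005013) (nat_lit 122) (nat_lit 5) (nat_lit 128) (nat_lit 5) (nat_lit 123) (nat_lit 5) (nat_lit 498) (nat_lit 410) (nat_lit 232)) (XT.lf (nat_lit 0) (nat_lit 8555508253) (nat_lit 304) (nat_lit 11628235797) (nat_lit 380) (nat_lit 686406256) (nat_lit 118) (nat_lit 5) (nat_lit 122) (nat_lit 5) (nat_lit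 123) (nat_lit 5) (nat_lit 499) (nat_lit 410) (nat_lit 231)))))) (XT.nd (nat_lit 52572) (nat_lit 0) (nat_lit 28880) (XT.nd (nat_lit 156) (nat_lit 304) (nat_lit 0) (XT.nd (nat_lit 78) (nat_lit 380) (nat_lit 0) (XT.lf (nat_lit 0) (nat_lit 3593312566) (nat_lit 380) (nat_lit 1082836181) (nat_lit 76) (nat_lit 16464618563) (nat_lit 117) (nat_lit 5) (nat_lit 122) (nat_lit 5) (nat_lit 118) (nat_lit 5) (nat_lit 500) (nat_lit 410) (nat_lit 230)) (XT.lf (nat_lit 0) (nat_lit 8025839961) (nat_lit 456) (nat_lit 10936927490) (nat_lit 76) (nat_lit 2452412208) (nat_lit 112) (nat_lit 5) (nat_lit 118) (nat_lit 5) (nat_lit 113) (nat_lit 5) (nat_lit 501) (nat_lit 410) (nat_lit 229))) (XT.nd (nat_lit 52260) (nat_lit 0) (nat_lit 30248) (XT.lf (nat_lit 0) (nat_lit 554518979) (nat_lit 304) (nat_lit 12026555697) (nat_lit 380) (nat_lit 9113326259) (nat_lit 108) (nat_lit 5) (nat_lit 112) (nat_lit 5) (nat_lit 113) (nat_lit 5) (nat_lit 502) (nat_lit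 410) (nat_lit 228)) (XT.nd (nat_lit 78) (nat_lit 0) (nat_lit 0) (XT.lf (nat_lit 0) (nat_lit 2801649534) (nat_lit 1444) (nat_lit 672485239) (nat_lit 1444) (nat_lit 672485239) (nat_lit 506) (nat_lit 3) (nat_lit 525) (nat_lit 3) (nat_lit 525) (nat_lit 5) (nat_lit 411) (nat_lit 411) (nat_lit 318)) (XT.lf (nat_lit 76) (nat_lit 2637765747) (nat_lit 0) (nat_lit 4111790835) (nat_lit 1444) (nat_lit 1604279265) (nat_lit 507) (nat_lit 5) (nat_lit 506) (nat_lit 3) (nat_lit 525) (nat_lit 5) (nat_lit 412) (nat_lit 411) (nat_lit 317))))) (XT.nd (nat_lit 234) (nat_lit 0) (nat_lit 0) (XT.nd (nat_lit 78) (nat_lit 1368) (nat_lit 0) (XT.lf (nat_lit 76) (nat_lit 6703834925) (nat_lit 0) (nat_lit 1195687537) (nat_lit 1444) (nat_lit 516519417) (nat_lit 507) (nat_lit 5) (nat_lit 506) (nat_lit 3) (nat_lit 525) (nat_lit 5) (nat_lit 413) (nat_lit 411) (nat_lit 316)) (XT.nd (nat_lit 78) (nat_lit 0) (nat_lit 0) (XT.lf (nat_lit 0) (nat_lit 584577513)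 (nat_lit 1444) (nat_lit 6106934507) (nat_lit 1520) (nat_lit 1787929239) (nat_lit 488) (nat_lit 5) (nat_lit 507) (nat_lit 5) (nat_lit 508) (nat_lit 5) (nat_lit 414) (nat_lit 411) (nat_lit 315)) (XT.lf (nat_lit 0) (nat_lit 1692921546) (nat_lit 1444) (nat_lit 2008370764) (nat_lit 1520) (nat_lit 4842918360) (nat_lit 488) (nat_lit 5) (nat_lit 507) (nat_lit 5) (nat_lit 508) (nat_lit 5) (nat_lit 415) (nat_lit 411) (nat_lit 314)))) (XT.nd (nat_lit 78) (nat_lit 0) (nat_lit 76) (XT.lf (nat_lit 76) (nat_lit 2185930306) (nat_lit 0) (nat_lit 624881456) (nat_lit 1520) (nat_lit 5799729015) (nat_lit 489) (nat_lit 5) (nat_lit 488) (nat_lit 5) (nat_lit 508) (nat_lit 5) (nat_lit 416) (nat_lit 411) (nat_lit 313)) (XT.nd (nat_lit 78) (nat_lit 0) (nat_lit 0) (XT.lf (nat_lit 0) (nat_lit 3954634297) (nat_lit 1444) (nat_lit 2218412499) (nat_lit 1520) (nat_lit 2505091840) (nat_lit 489) (nat_lit 5) (nat_lit 508) (nat_lit 5) (nat_lit 509) (nat_lit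 5) (nat_lit 417) (nat_lit 411) (nat_lit 312)) (XT.lf (nat_lit 76) (nat_lit 2079931922) (nat_lit 0) (nat_lit 3033251394) (nat_lit 1520) (nat_lit 3634080528) (nat_lit 490) (nat_lit 5) (nat_lit 489) (nat_lit 5) (nat_lit 509) (nat_lit 5) (nat_lit 418) (nat_lit 411) (nat_lit 311))))))) (XT.nd (nat_lit 858) (nat_lit 4864) (nat_lit 0) (XT.nd (nat_lit 390) (nat_lit 1444) (nat_lit 0) (XT.nd (nat_lit 156) (nat_lit 1444) (nat_lit 0) (XT.nd (nat_lit 78) (nat_lit 0) (nat_lit 0) (XT.lf (nat_lit 0) (nat_lit 6285671066) (nat_lit 1444) (nat_lit 2339963062) (nat_lit 1520) (nat_lit 192334225) (nat_lit 490) (nat_lit 5) (nat_lit 509) (nat_lit 5) (nat_lit 510) (nat_lit 5) (nat_lit 419) (nat_lit 411) (nat_lit 310)) (XT.lf (nat_lit 76) (nat_lit 2065657294) (nat_lit 0) (nat_lit 5424630040) (nat_lit 1520) (nat_lit 1399637954) (nat_lit 491) (nat_lit 5) (nat_lit 490) (nat_lit 5) (nat_lit 510) (nat_lit 5) (nat_lit 420) (nat_lit 411) (nat_lit 309)))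 (XT.nd (nat_lit 78) (nat_lit 1444) (nat_lit 0) (XT.lf (nat_lit 76) (nat_lit 6575909939) (nat_lit 0) (nat_lit 2134355761) (nat_lit 1520) (nat_lit 253241945) (nat_lit 491) (nat_lit 5) (nat_lit 490) (nat_lit 5) (nat_lit 510) (nat_lit 5) (nat_lit 421) (nat_lit 411) (nat_lit 308)) (XT.nd (nat_lit 78) (nat_lit 0) (nat_lit 0) (XT.lf (nat_lit 0) (nat_lit 901990672) (nat_lit 1520) (nat_lit 6902025180) (nat_lit 1596) (nat_lit 1234479601) (nat_lit 471) (nat_lit 5) (nat_lit 491) (nat_lit 5) (nat_lit 492) (nat_lit 5) (nat_lit 422) (nat_lit 411) (nat_lit 307)) (XT.lf (nat_lit 0) (nat_lit 2083510381) (nat_lit 1520) (nat_lit 2362870893) (nat_lit 1596) (nat_lit 4668447803) (nat_lit 471) (nat_lit 5) (nat_lit 491) (nat_lit 5) (nat_lit 492) (nat_lit 5) (nat_lit 423) (nat_lit 411) (nat_lit 306))))) (XT.nd (nat_lit 234) (nat_lit 1444) (nat_lit 0) (XT.nd (nat_lit 78) (nat_lit 0) (nat_lit 76) (XT.lf (nat_lit 76) (nat_lit 2281623285) (nat_lit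 0) (nat_lit 998622802) (nat_lit 1596) (nat_lit 5912622363) (nat_lit 472) (nat_lit 5) (nat_lit 471) (nat_lit 5) (nat_lit 492) (nat_lit 5) (nat_lit 424) (nat_lit 411) (nat_lit 305)) (XT.nd (nat_lit 78) (nat_lit 0) (nat_lit 0) (XT.lf (nat_lit 0) (nat_lit 4510404250) (nat_lit 1520) (nat_lit 2253352319) (nat_lit 1596) (nat_lit 2508532863) (nat_lit 472) (nat_lit 5) (nat_lit 492) (nat_lit 5) (nat_lit 493) (nat_lit 5) (nat_lit 425) (nat_lit 411) (nat_lit 304)) (XT.lf (nat_lit 76) (nat_lit 2508510642) (nat_lit 0) (nat_lit 3257180257) (nat_lit 1596) (nat_lit 3587607800) (nat_lit 473) (nat_lit 5) (nat_lit 472) (nat_lit 5) (nat_lit 493) (nat_lit 5) (nat_lit 426) (nat_lit 411) (nat_lit 303)))) (XT.nd (nat_lit 78) (nat_lit 1596) (nat_lit 0) (XT.lf (nat_lit 0) (nat_lit 7041386384) (nat_lit 1520) (nat_lit 2057511072) (nat_lit 1596) (nat_lit 337134798) (nat_lit 473) (nat_lit 5) (nat_lit 493) (nat_lit 5) (nat_lit 494) (nat_lit 5) (nat_lit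 427) (nat_lit 411) (nat_lit 302)) (XT.nd (nat_lit 78) (nat_lit 1596) (nat_lit 0) (XT.lf (nat_lit 76) (nat_lit 2825441735) (nat_lit 0) (nat_lit 5535507846) (nat_lit 1596) (nat_lit 1159113793) (nat_lit 474) (nat_lit 5) (nat_lit 473) (nat_lit 5) (nat_lit 494) (nat_lit 5) (nat_lit 428) (nat_lit 411) (nat_lit 301)) (XT.lf (nat_lit 0) (nat_lit 92311595) (nat_lit 1596) (nat_lit 1788049967) (nat_lit 1672) (nat_lit 7725559822) (nat_lit 452) (nat_lit 5) (nat_lit 473) (nat_lit 5) (nat_lit 474) (nat_lit 5) (nat_lit 429) (nat_lit 411) (nat_lit 300)))))) (XT.nd (nat_lit 390) (nat_lit 4940) (nat_lit 0) (XT.nd (nat_lit 156) (nat_lit 0) (nat_lit 0) (XT.nd (nat_lit 78) (nat_lit 0) (nat_lit 0) (XT.lf (nat_lit 0) (nat_lit 1365523173) (nat_lit 1596) (nat_lit 6469595789) (nat_lit 1672) (nat_lit 1857988185) (nat_lit 453) (nat_lit 5) (nat_lit 474) (nat_lit 5) (nat_lit 475) (nat_lit 5) (nat_lit 430) (nat_lit 411) (nat_lit 299)) (XT.lf (nat_lit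 0) (nat_lit 2668106060) (nat_lit 1596) (nat_lit 1450580709) (nat_lit 1672) (nat_lit 5663280924) (nat_lit 453) (nat_lit 5) (nat_lit 474) (nat_lit 5) (nat_lit 475) (nat_lit 5) (nat_lit 431) (nat_lit 411) (nat_lit 298))) (XT.nd (nat_lit 78) (nat_lit 0) (nat_lit 76) (XT.lf (nat_lit 76) (nat_lit 3701881922) (nat_lit 0) (nat_lit 298674278) (nat_lit 1672) (nat_lit 5871981965) (nat_lit 454) (nat_lit 5) (nat_lit 453) (nat_lit 5) (nat_lit 475) (nat_lit 5) (nat_lit 432) (nat_lit 411) (nat_lit 297)) (XT.nd (nat_lit 78) (nat_lit 0) (nat_lit 0) (XT.lf (nat_lit 0) (nat_lit 5372919472) (nat_lit 1596) (nat_lit 1026910447) (nat_lit 1672) (nat_lit 3564833696) (nat_lit 454) (nat_lit 5) (nat_lit 475) (nat_lit 5) (nat_lit 476) (nat_lit 5) (nat_lit 433) (nat_lit 411) (nat_lit 296)) (XT.lf (nat_lit 76) (nat_lit 4258069275) (nat_lit 0) (nat_lit 2524781583) (nat_lit 1672) (nat_lit 3275586976) (nat_lit 455) (nat_lit 5) (nat_lit 454) (nat_lit 5)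 (nat_lit 476) (nat_lit 5) (nat_lit 434) (nat_lit 411) (nat_lit 295))))) (XT.nd (nat_lit 234) (nat_lit 1748) (nat_lit 0) (XT.nd (nat_lit 78) (nat_lit 3344) (nat_lit 0) (XT.lf (nat_lit 0) (nat_lit 8217991458) (nat_lit 1596) (nat_lit 516420754) (nat_lit 76) (nat_lit 1419743621) (nat_lit 455) (nat_lit 5) (nat_lit 476) (nat_lit 5) (nat_lit 456) (nat_lit 5) (nat_lit 435) (nat_lit 411) (nat_lit 294)) (XT.nd (nat_lit 78) (nat_lit 1748) (nat_lit 0) (XT.lf (nat_lit 0) (nat_lit 4905305819) (nat_lit 1596) (nat_lit 4806278175) (nat_lit 1672) (nat_lit 539617556) (nat_lit 434) (nat_lit 5) (nat_lit 455) (nat_lit 5) (nat_lit 456) (nat_lit 5) (nat_lit 436) (nat_lit 411) (nat_lit 293)) (XT.lf (nat_lit 0) (nat_lit 71854638) (nat_lit 1672) (nat_lit 786673641) (nat_lit 1748) (nat_lit 9491847553) (nat_lit 411) (nat_lit 5) (nat_lit 433) (nat_lit 5) (nat_lit 434) (nat_lit 5) (nat_lit 437) (nat_lit 411) (nat_lit 292)))) (XT.nd (nat_lit 78) (nat_lit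 1748) (nat_lit 0) (XT.lf (nat_lit 0) (nat_lit 2316643961) (nat_lit 1748) (nat_lit 4821674171) (nat_lit 76) (nat_lit 3312367342) (nat_lit 411) (nat_lit 5) (nat_lit 434) (nat_lit 5) (nat_lit 412) (nat_lit 5) (nat_lit 438) (nat_lit 411) (nat_lit 291)) (XT.nd (nat_lit 78) (nat_lit 0) (nat_lit 0) (XT.lf (nat_lit 0) (nat_lit 733067686) (nat_lit 1748) (nat_lit 3062786350) (nat_lit 1824) (nat_lit 6757316336) (nat_lit 388) (nat_lit 5) (nat_lit 411) (nat_lit 5) (nat_lit 412) (nat_lit 5) (nat_lit 439) (nat_lit 411) (nat_lit 290)) (XT.lf (nat_lit 0) (nat_lit 5326553257) (nat_lit 1824) (nat_lit 4216034835) (nat_lit 76) (nat_lit 1114686332) (nat_lit 388) (nat_lit 5) (nat_lit 412) (nat_lit 5) (nat_lit 389) (nat_lit 5) (nat_lit 440) (nat_lit 411) (nat_lit 289))))))))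
noncomputable def xc174 : XT := (XT.nd (nat_lit 1638) (nat_lit 6840) (nat_lit 0) (XT.nd (nat_lit 780) (nat_lit 5320) (nat_lit 0) (XT.nd (nat_lit 390) (nat_lit 1672) (nat_lit 0) (XT.nd (nat_lit 156) (nat_lit 1824) (nat_lit 0) (XT.nd (nat_lit 78) (nat_lit 0) (nat_lit 0) (XT.lf (nat_lit 0) (nat_lit 1483680427) (nat_lit 1064) (nat_lit 5416680914) (nat_lit 1140) (nat_lit 3862856723) (nat_lit 374) (nat_lit 5) (nat_lit 388) (nat_lit 5) (nat_lit 389) (nat_lit 5) (nat_lit 441) (nat_lit 411) (nat_lit 288)) (XT.lf (nat_lit 0) (nat_lit 7339032821) (nat_lit 1064) (nat_lit 1177723987) (nat_lit 1140) (nat_lit 2354308805) (nat_lit 374) (nat_lit 5) (nat_lit 388) (nat_lit 5) (nat_lit 389) (nat_lit 5) (nat_lit 442) (nat_lit 411) (nat_lit 287))) (XT.nd (nat_lit 78) (nat_lit 912) (nat_lit 0) (XT.lf (nat_lit 0) (nat_lit 2324930804) (nat_lit 912) (nat_lit 7859237308) (nat_lit 988) (nat_lit 796535362) (nat_lit 362) (nat_lit 5) (nat_lit 374)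 (nat_lit 5) (nat_lit 375) (nat_lit 5) (nat_lit 443) (nat_lit 411) (nat_lit 286)) (XT.nd (nat_lit 78) (nat_lit 836) (nat_lit 0) (XT.lf (nat_lit 0) (nat_lit 796939237) (nat_lit 988) (nat_lit 2773933882) (nat_lit 76) (nat_lit 7521266158) (nat_lit 361) (nat_lit 5) (nat_lit 374) (nat_lit 5) (nat_lit 362) (nat_lit 5) (nat_lit 444) (nat_lit 411) (nat_lit 285)) (XT.lf (nat_lit 0) (nat_lit 2421716603) (nat_lit 912) (nat_lit 7963526086) (nat_lit 76) (nat_lit 820260536) (nat_lit 350) (nat_lit 5) (nat_lit 362) (nat_lit 5) (nat_lit 351) (nat_lit 5) (nat_lit 445) (nat_lit 411) (nat_lit 284))))) (XT.nd (nat_lit 156) (nat_lit 836) (nat_lit 0) (XT.nd (nat_lit 78) (nat_lit 836) (nat_lit 0) (XT.lf (nat_lit 0) (nat_lit 4105211224) (nat_lit 912) (nat_lit 1944336843) (nat_lit 76) (nat_lit 5271068526) (nat_lit 350) (nat_lit 5) (nat_lit 362) (nat_lit 5) (nat_lit 351) (nat_lit 5) (nat_lit 446) (nat_lit 411) (nat_lit 283)) (XT.lf (nat_lit 0)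 (nat_lit 4235480343) (nat_lit 836) (nat_lit 1598547598) (nat_lit 912) (nat_lit 5603777692) (nat_lit 339) (nat_lit 5) (nat_lit 350) (nat_lit 5) (nat_lit 351) (nat_lit 5) (nat_lit 447) (nat_lit 411) (nat_lit 282))) (XT.nd (nat_lit 78) (nat_lit 836) (nat_lit 0) (XT.lf (nat_lit 0) (nat_lit 7614020387) (nat_lit 912) (nat_lit 1026538096) (nat_lit 76) (nat_lit 2916454302) (nat_lit 339) (nat_lit 5) (nat_lit 351) (nat_lit 5) (nat_lit 340) (nat_lit 5) (nat_lit 448) (nat_lit 411) (nat_lit 281)) (XT.nd (nat_lit 78) (nat_lit 0) (nat_lit 0) (XT.lf (nat_lit 0) (nat_lit 5316686096) (nat_lit 836) (nat_lit 4142706438) (nat_lit 912) (nat_lit 2218622147) (nat_lit 328) (nat_lit 5) (nat_lit 339) (nat_lit 5) (nat_lit 340) (nat_lit 5) (nat_lit 449) (nat_lit 411) (nat_lit 280)) (XT.lf (nat_lit 0) (nat_lit 11336372595) (nat_lit 912) (nat_lit 18974650) (nat_lit 76) (nat_lit 446201437) (nat_lit 328) (nat_lit 5) (nat_lit 340) (nat_lit 5) (nat_lit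 329) (nat_lit 5) (nat_lit 450) (nat_lit 411) (nat_lit 279)))))) (XT.nd (nat_lit 390) (nat_lit 2888) (nat_lit 0) (XT.nd (nat_lit 156) (nat_lit 760) (nat_lit 0) (XT.nd (nat_lit 78) (nat_lit 760) (nat_lit 0) (XT.lf (nat_lit 0) (nat_lit 1361103565) (nat_lit 912) (nat_lit 5442600475) (nat_lit 76) (nat_lit 5122580911) (nat_lit 316) (nat_lit 5) (nat_lit 328) (nat_lit 5) (nat_lit 317) (nat_lit 5) (nat_lit 451) (nat_lit 411) (nat_lit 278)) (XT.lf (nat_lit 0) (nat_lit 1058714802) (nat_lit 760) (nat_lit 2151236534) (nat_lit 836) (nat_lit 8843663415) (nat_lit 306) (nat_lit 5) (nat_lit 316) (nat_lit 5) (nat_lit 317) (nat_lit 5) (nat_lit 452) (nat_lit 411) (nat_lit 277))) (XT.nd (nat_lit 78) (nat_lit 760) (nat_lit 0) (XT.lf (nat_lit 0) (nat_lit 5134834732) (nat_lit 836) (nat_lit 4451436181) (nat_lit 76) (nat_lit 2596444671) (nat_lit 306) (nat_lit 5) (nat_lit 317) (nat_lit 5) (nat_lit 307) (nat_lit 5) (nat_lit 453) (nat_lit 411) (nat_lit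 276)) (XT.nd (nat_lit 78) (nat_lit 0) (nat_lit 0) (XT.lf (nat_lit 0) (nat_lit 2222681427) (nat_lit 760) (nat_lit 4889947674) (nat_lit 836) (nat_lit 5201486573) (nat_lit 296) (nat_lit 5) (nat_lit 306) (nat_lit 5) (nat_lit 307) (nat_lit 5) (nat_lit 454) (nat_lit 411) (nat_lit 275)) (XT.lf (nat_lit 0) (nat_lit 9075601548) (nat_lit 760) (nat_lit 70167045) (nat_lit 836) (nat_lit 3302064780) (nat_lit 296) (nat_lit 5) (nat_lit 306) (nat_lit 5) (nat_lit 307) (nat_lit 5) (nat_lit 455) (nat_lit 411) (nat_lit 274))))) (XT.nd (nat_lit 234) (nat_lit 1368) (nat_lit 0) (XT.nd (nat_lit 78) (nat_lit 836) (nat_lit 0) (XT.lf (nat_lit 0) (nat_lit 3480537861) (nat_lit 684) (nat_lit 7779282388) (nat_lit 760) (nat_lit 1323605479) (nat_lit 287) (nat_lit 5) (nat_lit 296) (nat_lit 5) (nat_lit 297) (nat_lit 5) (nat_lit 456) (nat_lit 411) (nat_lit 273)) (XT.nd (nat_lit 78) (nat_lit 760) (nat_lit 0) (XT.lf (nat_lit 0) (nat_lit 694826063) (nat_lit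 760) (nat_lit 2225416169) (nat_lit 76) (nat_lit 9801212399) (nat_lit 286) (nat_lit 5) (nat_lit 296) (nat_lit 5) (nat_lit 287) (nat_lit 5) (nat_lit 457) (nat_lit 411) (nat_lit 272)) (XT.lf (nat_lit 0) (nat_lit 2767287104) (nat_lit 836) (nat_lit 8045808526) (nat_lit 76) (nat_lit 2048350805) (nat_lit 276) (nat_lit 5) (nat_lit 287) (nat_lit 5) (nat_lit 277) (nat_lit 5) (nat_lit 458) (nat_lit 411) (nat_lit 271)))) (XT.nd (nat_lit 78) (nat_lit 1368) (nat_lit 0) (XT.lf (nat_lit 0) (nat_lit 4902264639) (nat_lit 836) (nat_lit 1010657027) (nat_lit 76) (nat_lit 7090899951) (nat_lit 276) (nat_lit 5) (nat_lit 287) (nat_lit 5) (nat_lit 277) (nat_lit 5) (nat_lit 459) (nat_lit 411) (nat_lit 270)) (XT.nd (nat_lit 78) (nat_lit 684) (nat_lit 0) (XT.lf (nat_lit 0) (nat_lit 6232269598) (nat_lit 684) (nat_lit 875092340) (nat_lit 760) (nat_lit 6041138751) (nat_lit 267) (nat_lit 5) (nat_lit 276) (nat_lit 5) (nat_lit 277) (nat_lit 5) (nat_lit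 460) (nat_lit 411) (nat_lit 269)) (XT.lf (nat_lit 0) (nat_lit 299194261) (nat_lit 684) (nat_lit 9080924282) (nat_lit 760) (nat_lit 3915488348) (nat_lit 258) (nat_lit 5) (nat_lit 267) (nat_lit 5) (nat_lit 268) (nat_lit 5) (nat_lit 461) (nat_lit 411) (nat_lit 268))))))) (XT.nd (nat_lit 858) (nat_lit 3116) (nat_lit 0) (XT.nd (nat_lit 390) (nat_lit 2432) (nat_lit 0) (XT.nd (nat_lit 156) (nat_lit 608) (nat_lit 0) (XT.nd (nat_lit 78) (nat_lit 684) (nat_lit 0) (XT.lf (nat_lit 0) (nat_lit 7732084463) (nat_lit 684) (nat_lit 4005678189) (nat_lit 760) (nat_lit 1707108523) (nat_lit 258) (nat_lit 5) (nat_lit 267) (nat_lit 5) (nat_lit 268) (nat_lit 5) (nat_lit 462) (nat_lit 411) (nat_lit 267)) (XT.lf (nat_lit 0) (nat_lit 544572682) (nat_lit 684) (nat_lit 11883834744) (nat_lit 76) (nat_lit 1168521171) (nat_lit 249) (nat_lit 5) (nat_lit 258) (nat_lit 5) (nat_lit 250) (nat_lit 5) (nat_lit 463) (nat_lit 411) (nat_lit 266))) (XT.nd (nat_lit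 78) (nat_lit 608) (nat_lit 0) (XT.lf (nat_lit 0) (nat_lit 2871133053) (nat_lit 684) (nat_lit 4439165624) (nat_lit 76) (nat_lit 6440453073) (nat_lit 249) (nat_lit 5) (nat_lit 258) (nat_lit 5) (nat_lit 250) (nat_lit 5) (nat_lit 464) (nat_lit 411) (nat_lit 265)) (XT.nd (nat_lit 78) (nat_lit 0) (nat_lit 0) (XT.lf (nat_lit 0) (nat_lit 3181665555) (nat_lit 608) (nat_lit 2071025387) (nat_lit 684) (nat_lit 8654795354) (nat_lit 241) (nat_lit 5) (nat_lit 249) (nat_lit 5) (nat_lit 250) (nat_lit 5) (nat_lit 465) (nat_lit 411) (nat_lit 264)) (XT.lf (nat_lit 0) (nat_lit 7721056660) (nat_lit 684) (nat_lit 3087714647) (nat_lit 76) (nat_lit 3257804862) (nat_lit 241) (nat_lit 5) (nat_lit 250) (nat_lit 5) (nat_lit 242) (nat_lit 5) (nat_lit 466) (nat_lit 411) (nat_lit 263))))) (XT.nd (nat_lit 234) (nat_lit 1140) (nat_lit 0) (XT.nd (nat_lit 78) (nat_lit 684) (nat_lit 0) (XT.lf (nat_lit 0) (nat_lit 4737260016) (nat_lit 608) (nat_lit 5534178540)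 (nat_lit 684) (nat_lit 3956760395) (nat_lit 233) (nat_lit 5) (nat_lit 241) (nat_lit 5) (nat_lit 242) (nat_lit 5) (nat_lit 467) (nat_lit 411) (nat_lit 262)) (XT.nd (nat_lit 78) (nat_lit 684) (nat_lit 0) (XT.lf (nat_lit 0) (nat_lit 12746374923) (nat_lit 608) (nat_lit 135488945) (nat_lit 684) (nat_lit 1511013614) (nat_lit 233) (nat_lit 5) (nat_lit 241) (nat_lit 5) (nat_lit 242) (nat_lit 5) (nat_lit 468) (nat_lit 411) (nat_lit 261)) (XT.lf (nat_lit 0) (nat_lit 1036060542) (nat_lit 684) (nat_lit 8176774178) (nat_lit 76) (nat_lit 5346584722) (nat_lit 224) (nat_lit 5) (nat_lit 233) (nat_lit 5) (nat_lit 225) (nat_lit 5) (nat_lit 469) (nat_lit 411) (nat_lit 260)))) (XT.nd (nat_lit 78) (nat_lit 1140) (nat_lit 0) (XT.lf (nat_lit 0) (nat_lit 3614465322) (nat_lit 684) (nat_lit 159568260) (nat_lit 76) (nat_lit 10955050249) (nat_lit 224) (nat_lit 5) (nat_lit 233) (nat_lit 5) (nat_lit 225) (nat_lit 5) (nat_lit 470) (nat_lit 411) (nat_lit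 259)) (XT.nd (nat_lit 78) (nat_lit 608) (nat_lit 0) (XT.lf (nat_lit 0) (nat_lit 6297749542) (nat_lit 608) (nat_lit 6802746449) (nat_lit 76) (nat_lit 1800582993) (nat_lit 217) (nat_lit 5) (nat_lit 225) (nat_lit 5) (nat_lit 218) (nat_lit 5) (nat_lit 471) (nat_lit 411) (nat_lit 258)) (XT.lf (nat_lit 0) (nat_lit 1426721642) (nat_lit 608) (nat_lit 7632231238) (nat_lit 684) (nat_lit 6017079723) (nat_lit 209) (nat_lit 5) (nat_lit 217) (nat_lit 5) (nat_lit 218) (nat_lit 5) (nat_lit 472) (nat_lit 411) (nat_lit 257)))))) (XT.nd (nat_lit 390) (nat_lit 1976) (nat_lit 0) (XT.nd (nat_lit 156) (nat_lit 608) (nat_lit 0) (XT.nd (nat_lit 78) (nat_lit 532) (nat_lit 0) (XT.lf (nat_lit 0) (nat_lit 9899033464) (nat_lit 608) (nat_lit 2011042211) (nat_lit 684) (nat_lit 3343719269) (nat_lit 209) (nat_lit 5) (nat_lit 217) (nat_lit 5) (nat_lit 218) (nat_lit 5) (nat_lit 473) (nat_lit 411) (nat_lit 256)) (XT.lf (nat_lit 0) (nat_lit 3108392603) (nat_lit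 532) (nat_lit 11743420525) (nat_lit 608) (nat_lit 582631051) (nat_lit 202) (nat_lit 5) (nat_lit 209) (nat_lit 5) (nat_lit 210) (nat_lit 5) (nat_lit 474) (nat_lit 411) (nat_lit 255))) (XT.nd (nat_lit 78) (nat_lit 532) (nat_lit 0) (XT.lf (nat_lit 0) (nat_lit 2243161868) (nat_lit 608) (nat_lit 3846589890) (nat_lit 76) (nat_lit 9527892382) (nat_lit 201) (nat_lit 5) (nat_lit 209) (nat_lit 5) (nat_lit 202) (nat_lit 5) (nat_lit 475) (nat_lit 411) (nat_lit 254)) (XT.nd (nat_lit 78) (nat_lit 0) (nat_lit 0) (XT.lf (nat_lit 0) (nat_lit 4848526673) (nat_lit 532) (nat_lit 290128355) (nat_lit 608) (nat_lit 10665359622) (nat_lit 194) (nat_lit 5) (nat_lit 201) (nat_lit 5) (nat_lit 202) (nat_lit 5) (nat_lit 476) (nat_lit 411) (nat_lit 253)) (XT.lf (nat_lit 0) (nat_lit 8144161749) (nat_lit 608) (nat_lit 2274369993) (nat_lit 76) (nat_lit 5574541977) (nat_lit 194) (nat_lit 5) (nat_lit 202) (nat_lit 5) (nat_lit 195) (nat_lit 5) (nat_lit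 477) (nat_lit 411) (nat_lit 252))))) (XT.nd (nat_lit 234) (nat_lit 912) (nat_lit 0) (XT.nd (nat_lit 78) (nat_lit 608) (nat_lit 0) (XT.lf (nat_lit 0) (nat_lit 6652198217) (nat_lit 456) (nat_lit 4592491970) (nat_lit 532) (nat_lit 4940528712) (nat_lit 188) (nat_lit 5) (nat_lit 194) (nat_lit 5) (nat_lit 195) (nat_lit 5) (nat_lit 478) (nat_lit 411) (nat_lit 251)) (XT.nd (nat_lit 78) (nat_lit 608) (nat_lit 0) (XT.lf (nat_lit 0) (nat_lit 14421249157) (nat_lit 532) (nat_lit 615230916) (nat_lit 76) (nat_lit 1344449609) (nat_lit 188) (nat_lit 5) (nat_lit 195) (nat_lit 5) (nat_lit 189) (nat_lit 5) (nat_lit 479) (nat_lit 411) (nat_lit 250)) (XT.lf (nat_lit 0) (nat_lit 1143121265) (nat_lit 608) (nat_lit 8037255165) (nat_lit 76) (nat_lit 7398510659) (nat_lit 180) (nat_lit 5) (nat_lit 188) (nat_lit 5) (nat_lit 181) (nat_lit 5) (nat_lit 480) (nat_lit 411) (nat_lit 249)))) (XT.nd (nat_lit 78) (nat_lit 456) (nat_lit 0) (XT.lf (nat_lit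 0) (nat_lit 1097266050) (nat_lit 456) (nat_lit 3185907369) (nat_lit 532) (nat_lit 12497345387) (nat_lit 174) (nat_lit 5) (nat_lit 180) (nat_lit 5) (nat_lit 181) (nat_lit 5) (nat_lit 481) (nat_lit 411) (nat_lit 248)) (XT.nd (nat_lit 78) (nat_lit 456) (nat_lit 0) (XT.lf (nat_lit 0) (nat_lit 7549545778) (nat_lit 532) (nat_lit 6494507610) (nat_lit 76) (nat_lit 2940862247) (nat_lit 174) (nat_lit 5) (nat_lit 181) (nat_lit 5) (nat_lit 175) (nat_lit 5) (nat_lit 482) (nat_lit 411) (nat_lit 247)) (XT.lf (nat_lit 0) (nat_lit 2881511819) (nat_lit 456) (nat_lit 8029947375) (nat_lit 532) (nat_lit 6281339742) (nat_lit 168) (nat_lit 5) (nat_lit 174) (nat_lit 5) (nat_lit 175) (nat_lit 5) (nat_lit 483) (nat_lit 411) (nat_lit 246))))))))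
noncomputable def xc175 : XT := (XT.nd (nat_lit 53898) (nat_lit 0) (nat_lit 25840) (XT.nd (nat_lit 780) (nat_lit 1976) (nat_lit 0) (XT.nd (nat_lit 390) (nat_lit 1292) (nat_lit 0) (XT.nd (nat_lit 156) (nat_lit 456) (nat_lit 0) (XT.nd (nat_lit 78) (nat_lit 532) (nat_lit 0) (XT.lf (nat_lit 0) (nat_lit 12519979755) (nat_lit 456) (nat_lit 1854721903) (nat_lit 532) (nat_lit 3029459180) (nat_lit 168) (nat_lit 5) (nat_lit 174) (nat_lit 5) (nat_lit 175) (nat_lit 5) (nat_lit 484) (nat_lit 411) (nat_lit 245)) (XT.lf (nat_lit 0) (nat_lit 334398246) (nat_lit 532) (nat_lit 12869024609) (nat_lit 76) (nat_lit 4415278255) (nat_lit 161) (nat_lit 5) (nat_lit 168) (nat_lit 5) (nat_lit 162) (nat_lit 5) (nat_lit 485) (nat_lit 411) (nat_lit 244))) (XT.nd (nat_lit 78) (nat_lit 456) (nat_lit 0) (XT.lf (nat_lit 0) (nat_lit 3760989204) (nat_lit 532) (nat_lit 3240077586) (nat_lit 76) (nat_lit 10835347078) (nat_lit 161) (nat_lit 5) (nat_lit 168)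 (nat_lit 5) (nat_lit 162) (nat_lit 5) (nat_lit 486) (nat_lit 411) (nat_lit 243)) (XT.nd (nat_lit 78) (nat_lit 0) (nat_lit 0) (XT.lf (nat_lit 0) (nat_lit 6655942374) (nat_lit 456) (nat_lit 634274118) (nat_lit 532) (nat_lit 10767584842) (nat_lit 155) (nat_lit 5) (nat_lit 161) (nat_lit 5) (nat_lit 162) (nat_lit 5) (nat_lit 487) (nat_lit 411) (nat_lit 242)) (XT.lf (nat_lit 0) (nat_lit 10940922767) (nat_lit 532) (nat_lit 1540443328) (nat_lit 76) (nat_lit 5801235058) (nat_lit 155) (nat_lit 5) (nat_lit 162) (nat_lit 5) (nat_lit 156) (nat_lit 5) (nat_lit 488) (nat_lit 411) (nat_lit 241))))) (XT.nd (nat_lit 156) (nat_lit 456) (nat_lit 0) (XT.nd (nat_lit 78) (nat_lit 456) (nat_lit 0) (XT.lf (nat_lit 0) (nat_lit 8614356990) (nat_lit 380) (nat_lit 6101555768) (nat_lit 456) (nat_lit 3794961261) (nat_lit 150) (nat_lit 5) (nat_lit 155) (nat_lit 5) (nat_lit 156) (nat_lit 5) (nat_lit 489) (nat_lit 411) (nat_lit 240)) (XT.lf (nat_lit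 0) (nat_lit 237345925) (nat_lit 456) (nat_lit 18334845163) (nat_lit 532) (nat_lit 171407877) (nat_lit 144) (nat_lit 5) (nat_lit 150) (nat_lit 5) (nat_lit 151) (nat_lit 5) (nat_lit 490) (nat_lit 411) (nat_lit 239))) (XT.nd (nat_lit 78) (nat_lit 380) (nat_lit 0) (XT.lf (nat_lit 0) (nat_lit 3576886328) (nat_lit 532) (nat_lit 8348073253) (nat_lit 76) (nat_lit 7053593536) (nat_lit 143) (nat_lit 5) (nat_lit 150) (nat_lit 5) (nat_lit 144) (nat_lit 5) (nat_lit 491) (nat_lit 411) (nat_lit 238)) (XT.nd (nat_lit 78) (nat_lit 0) (nat_lit 0) (XT.lf (nat_lit 0) (nat_lit 2026231448) (nat_lit 380) (nat_lit 5376186854) (nat_lit 456) (nat_lit 11815676305) (nat_lit 138) (nat_lit 5) (nat_lit 143) (nat_lit 5) (nat_lit 144) (nat_lit 5) (nat_lit 492) (nat_lit 411) (nat_lit 237)) (XT.lf (nat_lit 0) (nat_lit 11360787400) (nat_lit 456) (nat_lit 6761501356) (nat_lit 76) (nat_lit 1339013856) (nat_lit 138) (nat_lit 5) (nat_lit 144) (nat_lit 5) (nat_lit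 139) (nat_lit 5) (nat_lit 493) (nat_lit 411) (nat_lit 236)))))) (XT.nd (nat_lit 390) (nat_lit 760) (nat_lit 0) (XT.nd (nat_lit 156) (nat_lit 836) (nat_lit 0) (XT.nd (nat_lit 78) (nat_lit 0) (nat_lit 0) (XT.lf (nat_lit 0) (nat_lit 3880459842) (nat_lit 380) (nat_lit 11570301598) (nat_lit 456) (nat_lit 4257566753) (nat_lit 133) (nat_lit 5) (nat_lit 138) (nat_lit 5) (nat_lit 139) (nat_lit 5) (nat_lit 494) (nat_lit 411) (nat_lit 235)) (XT.lf (nat_lit 0) (nat_lit 14814698212) (nat_lit 380) (nat_lit 4844933764) (nat_lit 456) (nat_lit 299922499) (nat_lit 133) (nat_lit 5) (nat_lit 138) (nat_lit 5) (nat_lit 139) (nat_lit 5) (nat_lit 495) (nat_lit 411) (nat_lit 234))) (XT.nd (nat_lit 78) (nat_lit 380) (nat_lit 0) (XT.lf (nat_lit 0) (nat_lit 3730763476) (nat_lit 456) (nat_lit 14436777765) (nat_lit 76) (nat_lit 2046922867) (nat_lit 127) (nat_lit 5) (nat_lit 133) (nat_lit 5) (nat_lit 128) (nat_lit 5) (nat_lit 496) (nat_lit 411) (nat_lit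 233)) (XT.nd (nat_lit 78) (nat_lit 380) (nat_lit 0) (XT.lf (nat_lit 0) (nat_lit 7896776995) (nat_lit 456) (nat_lit 3531808146) (nat_lit 76) (nat_lit 9044674551) (nat_lit 127) (nat_lit 5) (nat_lit 133) (nat_lit 5) (nat_lit 128) (nat_lit 5) (nat_lit 497) (nat_lit 411) (nat_lit 232)) (XT.lf (nat_lit 0) (nat_lit 7680078780) (nat_lit 380) (nat_lit 4507942292) (nat_lit 456) (nat_lit 8548373875) (nat_lit 122) (nat_lit 5) (nat_lit 127) (nat_lit 5) (nat_lit 128) (nat_lit 5) (nat_lit 498) (nat_lit 411) (nat_lit 231))))) (XT.nd (nat_lit 234) (nat_lit 380) (nat_lit 0) (XT.nd (nat_lit 78) (nat_lit 380) (nat_lit 0) (XT.lf (nat_lit 0) (nat_lit 16597610401) (nat_lit 456) (nat_lit 1868924448) (nat_lit 76) (nat_lit 2537609579) (nat_lit 122) (nat_lit 5) (nat_lit 128) (nat_lit 5) (nat_lit 123) (nat_lit 5) (nat_lit 499) (nat_lit 411) (nat_lit 230)) (XT.nd (nat_lit 78) (nat_lit 76) (nat_lit 0) (XT.lf (nat_lit 0) (nat_lit 9626891058) (nat_lit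 304) (nat_lit 11553113051) (nat_lit 380) (nat_lit 95554424) (nat_lit 118) (nat_lit 5) (nat_lit 122) (nat_lit 5) (nat_lit 123) (nat_lit 5) (nat_lit 500) (nat_lit 411) (nat_lit 229)) (XT.lf (nat_lit 0) (nat_lit 4250130565) (nat_lit 380) (nat_lit 213961448) (nat_lit 76) (nat_lit 17087654087) (nat_lit 117) (nat_lit 5) (nat_lit 122) (nat_lit 5) (nat_lit 118) (nat_lit 5) (nat_lit 501) (nat_lit 411) (nat_lit 228)))) (XT.nd (nat_lit 52338) (nat_lit 0) (nat_lit 28500) (XT.lf (nat_lit 0) (nat_lit 8767565910) (nat_lit 456) (nat_lit 10261257162) (nat_lit 76) (nat_lit 2802901173) (nat_lit 112) (nat_lit 5) (nat_lit 118) (nat_lit 5) (nat_lit 113) (nat_lit 5) (nat_lit 502) (nat_lit 411) (nat_lit 227)) (XT.nd (nat_lit 78) (nat_lit 1444) (nat_lit 0) (XT.lf (nat_lit 0) (nat_lit 3923813657) (nat_lit 1444) (nat_lit 141943750) (nat_lit 1444) (nat_lit 141943750) (nat_lit 506) (nat_lit 3) (nat_lit 525) (nat_lit 3) (nat_lit 525) (nat_lit 5)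 (nat_lit 412) (nat_lit 412) (nat_lit 316)) (XT.lf (nat_lit 0) (nat_lit 497480475) (nat_lit 1444) (nat_lit 4709853843) (nat_lit 1520) (nat_lit 3270526840) (nat_lit 487) (nat_lit 5) (nat_lit 506) (nat_lit 3) (nat_lit 507) (nat_lit 5) (nat_lit 413) (nat_lit 412) (nat_lit 315))))))) (XT.nd (nat_lit 858) (nat_lit 1368) (nat_lit 0) (XT.nd (nat_lit 390) (nat_lit 1292) (nat_lit 0) (XT.nd (nat_lit 156) (nat_lit 0) (nat_lit 76) (XT.nd (nat_lit 78) (nat_lit 0) (nat_lit 76) (XT.lf (nat_lit 0) (nat_lit 1551024734) (nat_lit 1444) (nat_lit 654880147) (nat_lit 1520) (nat_lit 6336110666) (nat_lit 487) (nat_lit 5) (nat_lit 506) (nat_lit 3) (nat_lit 507) (nat_lit 5) (nat_lit 414) (nat_lit 412) (nat_lit 314)) (XT.lf (nat_lit 0) (nat_lit 2627435750) (nat_lit 1444) (nat_lit 5100148035) (nat_lit 1520) (nat_lit 879846216) (nat_lit 488) (nat_lit 5) (nat_lit 507) (nat_lit 5) (nat_lit 508) (nat_lit 5) (nat_lit 415) (nat_lit 412) (nat_lit 313)))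 (XT.nd (nat_lit 78) (nat_lit 0) (nat_lit 0) (XT.lf (nat_lit 0) (nat_lit 3718119865) (nat_lit 1444) (nat_lit 941748805) (nat_lit 1520) (nat_lit 4014441817) (nat_lit 488) (nat_lit 5) (nat_lit 507) (nat_lit 5) (nat_lit 508) (nat_lit 5) (nat_lit 416) (nat_lit 412) (nat_lit 312)) (XT.nd (nat_lit 78) (nat_lit 0) (nat_lit 76) (XT.lf (nat_lit 76) (nat_lit 3329156777) (nat_lit 0) (nat_lit 1497303963) (nat_lit 1520) (nat_lit 3916163376) (nat_lit 489) (nat_lit 5) (nat_lit 488) (nat_lit 5) (nat_lit 508) (nat_lit 5) (nat_lit 417) (nat_lit 412) (nat_lit 311)) (XT.lf (nat_lit 0) (nat_lit 5949265747) (nat_lit 1444) (nat_lit 1140017470) (nat_lit 1520) (nat_lit 1723187002) (nat_lit 489) (nat_lit 5) (nat_lit 508) (nat_lit 5) (nat_lit 509) (nat_lit 5) (nat_lit 418) (nat_lit 412) (nat_lit 310))))) (XT.nd (nat_lit 234) (nat_lit 0) (nat_lit 0) (XT.nd (nat_lit 78) (nat_lit 1444) (nat_lit 0) (XT.lf (nat_lit 76) (nat_lit 3236907239) (nat_lit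 0) (nat_lit 3863760690) (nat_lit 1520) (nat_lit 1782934408) (nat_lit 490) (nat_lit 5) (nat_lit 489) (nat_lit 5) (nat_lit 509) (nat_lit 5) (nat_lit 419) (nat_lit 412) (nat_lit 309)) (XT.nd (nat_lit 78) (nat_lit 1444) (nat_lit 0) (XT.lf (nat_lit 76) (nat_lit 7702388422) (nat_lit 0) (nat_lit 555961231) (nat_lit 1520) (nat_lit 698154092) (nat_lit 490) (nat_lit 5) (nat_lit 489) (nat_lit 5) (nat_lit 509) (nat_lit 5) (nat_lit 420) (nat_lit 412) (nat_lit 308)) (XT.lf (nat_lit 0) (nat_lit 418505760) (nat_lit 1520) (nat_lit 5797567258) (nat_lit 1596) (nat_lit 2814437582) (nat_lit 470) (nat_lit 5) (nat_lit 490) (nat_lit 5) (nat_lit 491) (nat_lit 5) (nat_lit 421) (nat_lit 412) (nat_lit 307)))) (XT.nd (nat_lit 78) (nat_lit 0) (nat_lit 76) (XT.lf (nat_lit 0) (nat_lit 1536662171) (nat_lit 1520) (nat_lit 1302381414) (nat_lit 1596) (nat_lit 6267102485) (nat_lit 470) (nat_lit 5) (nat_lit 490) (nat_lit 5) (nat_lit 491) (nat_lit 5) (nat_lit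 422) (nat_lit 412) (nat_lit 306)) (XT.nd (nat_lit 78) (nat_lit 0) (nat_lit 0) (XT.lf (nat_lit 0) (nat_lit 2679624770) (nat_lit 1520) (nat_lit 5875970302) (nat_lit 1596) (nat_lit 627661104) (nat_lit 471) (nat_lit 5) (nat_lit 491) (nat_lit 5) (nat_lit 492) (nat_lit 5) (nat_lit 423) (nat_lit 412) (nat_lit 305)) (XT.lf (nat_lit 0) (nat_lit 3850273024) (nat_lit 1520) (nat_lit 1268858329) (nat_lit 1596) (nat_lit 4142691181) (nat_lit 471) (nat_lit 5) (nat_lit 491) (nat_lit 5) (nat_lit 492) (nat_lit 5) (nat_lit 424) (nat_lit 412) (nat_lit 304)))))) (XT.nd (nat_lit 390) (nat_lit 0) (nat_lit 0) (XT.nd (nat_lit 156) (nat_lit 1444) (nat_lit 0) (XT.nd (nat_lit 78) (nat_lit 0) (nat_lit 76) (XT.lf (nat_lit 76) (nat_lit 3461017377) (nat_lit 0) (nat_lit 1583461857) (nat_lit 1596) (nat_lit 4297488456) (nat_lit 472) (nat_lit 5) (nat_lit 471) (nat_lit 5) (nat_lit 492) (nat_lit 5) (nat_lit 425) (nat_lit 412) (nat_lit 303)) (XT.lf (nat_lit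 0) (nat_lit 6262338548) (nat_lit 1520) (nat_lit 1149216185) (nat_lit 1596) (nat_lit 2012175803) (nat_lit 472) (nat_lit 5) (nat_lit 492) (nat_lit 5) (nat_lit 493) (nat_lit 5) (nat_lit 426) (nat_lit 412) (nat_lit 302))) (XT.nd (nat_lit 78) (nat_lit 1520) (nat_lit 0) (XT.lf (nat_lit 76) (nat_lit 3700323487) (nat_lit 0) (nat_lit 3817236877) (nat_lit 1596) (nat_lit 1989318136) (nat_lit 473) (nat_lit 5) (nat_lit 472) (nat_lit 5) (nat_lit 493) (nat_lit 5) (nat_lit 427) (nat_lit 412) (nat_lit 301)) (XT.nd (nat_lit 78) (nat_lit 1520) (nat_lit 0) (XT.lf (nat_lit 76) (nat_lit 8647656689) (nat_lit 0) (nat_lit 136761392) (nat_lit 1596) (nat_lit 807550486) (nat_lit 473) (nat_lit 5) (nat_lit 472) (nat_lit 5) (nat_lit 493) (nat_lit 5) (nat_lit 428) (nat_lit 412) (nat_lit 300)) (XT.lf (nat_lit 0) (nat_lit 421741220) (nat_lit 1596) (nat_lit 5651378452) (nat_lit 1672) (nat_lit 3605016360) (nat_lit 452) (nat_lit 5) (nat_lit 473) (nat_lit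 5) (nat_lit 474) (nat_lit 5) (nat_lit 429) (nat_lit 412) (nat_lit 299))))) (XT.nd (nat_lit 234) (nat_lit 0) (nat_lit 76) (XT.nd (nat_lit 78) (nat_lit 0) (nat_lit 76) (XT.lf (nat_lit 0) (nat_lit 1651541419) (nat_lit 1596) (nat_lit 677282172) (nat_lit 1672) (nat_lit 7437370990) (nat_lit 452) (nat_lit 5) (nat_lit 473) (nat_lit 5) (nat_lit 474) (nat_lit 5) (nat_lit 430) (nat_lit 412) (nat_lit 298)) (XT.nd (nat_lit 78) (nat_lit 0) (nat_lit 0) (XT.lf (nat_lit 0) (nat_lit 2924509084) (nat_lit 1596) (nat_lit 5426066885) (nat_lit 1672) (nat_lit 1505075931) (nat_lit 453) (nat_lit 5) (nat_lit 474) (nat_lit 5) (nat_lit 475) (nat_lit 5) (nat_lit 431) (nat_lit 412) (nat_lit 297)) (XT.lf (nat_lit 0) (nat_lit 4223110777) (nat_lit 1596) (nat_lit 329669951) (nat_lit 1672) (nat_lit 5394122996) (nat_lit 453) (nat_lit 5) (nat_lit 474) (nat_lit 5) (nat_lit 475) (nat_lit 5) (nat_lit 432) (nat_lit 412) (nat_lit 296)))) (XT.nd (nat_lit 78) (nat_lit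 0) (nat_lit 76) (XT.lf (nat_lit 76) (nat_lit 4918276654) (nat_lit 0) (nat_lit 641906233) (nat_lit 1672) (nat_lit 4479556405) (nat_lit 454) (nat_lit 5) (nat_lit 453) (nat_lit 5) (nat_lit 475) (nat_lit 5) (nat_lit 433) (nat_lit 412) (nat_lit 295)) (XT.nd (nat_lit 78) (nat_lit 0) (nat_lit 0) (XT.lf (nat_lit 76) (nat_lit 105698813) (nat_lit 0) (nat_lit 6823822038) (nat_lit 1672) (nat_lit 3204808741) (nat_lit 455) (nat_lit 5) (nat_lit 454) (nat_lit 5) (nat_lit 476) (nat_lit 5) (nat_lit 434) (nat_lit 412) (nat_lit 294)) (XT.lf (nat_lit 76) (nat_lit 5487414495) (nat_lit 0) (nat_lit 2858577792) (nat_lit 1672) (nat_lit 1884432816) (nat_lit 455) (nat_lit 5) (nat_lit 454) (nat_lit 5) (nat_lit 476) (nat_lit 5) (nat_lit 435) (nat_lit 412) (nat_lit 293))))))))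
noncomputable def xc176 : XT := (XT.nd (nat_lit 1638) (nat_lit 7752) (nat_lit 0) (XT.nd (nat_lit 780) (nat_lit 4940) (nat_lit 0) (XT.nd (nat_lit 390) (nat_lit 2052) (nat_lit 0) (XT.nd (nat_lit 156) (nat_lit 3420) (nat_lit 0) (XT.nd (nat_lit 78) (nat_lit 76) (nat_lit 0) (XT.lf (nat_lit 0) (nat_lit 633723698) (nat_lit 1596) (nat_lit 9150433355) (nat_lit 1672) (nat_lit 544426370) (nat_lit 434) (nat_lit 5) (nat_lit 455) (nat_lit 5) (nat_lit 456) (nat_lit 5) (nat_lit 436) (nat_lit 412) (nat_lit 292)) (XT.lf (nat_lit 0) (nat_lit 844248956) (nat_lit 1672) (nat_lit 4285624852) (nat_lit 76) (nat_lit 5298079084) (nat_lit 433) (nat_lit 5) (nat_lit 455) (nat_lit 5) (nat_lit 434) (nat_lit 5) (nat_lit 437) (nat_lit 412) (nat_lit 291))) (XT.nd (nat_lit 78) (nat_lit 1748) (nat_lit 0) (XT.lf (nat_lit 0) (nat_lit 1229251536) (nat_lit 1672) (nat_lit 1014187997) (nat_lit 1748) (nat_lit 8286005317) (nat_lit 411) (nat_lit 5) (nat_lit 433)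 (nat_lit 5) (nat_lit 434) (nat_lit 5) (nat_lit 438) (nat_lit 412) (nat_lit 290)) (XT.nd (nat_lit 78) (nat_lit 1748) (nat_lit 0) (XT.lf (nat_lit 0) (nat_lit 3702551023) (nat_lit 1748) (nat_lit 3756074982) (nat_lit 76) (nat_lit 3173709455) (nat_lit 411) (nat_lit 5) (nat_lit 434) (nat_lit 5) (nat_lit 412) (nat_lit 5) (nat_lit 439) (nat_lit 412) (nat_lit 289)) (XT.lf (nat_lit 0) (nat_lit 1902116761) (nat_lit 1748) (nat_lit 3290457428) (nat_lit 1824) (nat_lit 5544682509) (nat_lit 388) (nat_lit 5) (nat_lit 411) (nat_lit 5) (nat_lit 412) (nat_lit 5) (nat_lit 440) (nat_lit 412) (nat_lit 288))))) (XT.nd (nat_lit 156) (nat_lit 988) (nat_lit 0) (XT.nd (nat_lit 78) (nat_lit 1064) (nat_lit 0) (XT.lf (nat_lit 0) (nat_lit 6726930002) (nat_lit 1824) (nat_lit 3141095451) (nat_lit 76) (nat_lit 975967524) (nat_lit 388) (nat_lit 5) (nat_lit 412) (nat_lit 5) (nat_lit 389) (nat_lit 5) (nat_lit 441) (nat_lit 412) (nat_lit 287)) (XT.lf (nat_lit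 0) (nat_lit 2664987404) (nat_lit 1064) (nat_lit 5649334488) (nat_lit 1140) (nat_lit 2638102230) (nat_lit 374) (nat_lit 5) (nat_lit 388) (nat_lit 5) (nat_lit 389) (nat_lit 5) (nat_lit 442) (nat_lit 412) (nat_lit 286))) (XT.nd (nat_lit 78) (nat_lit 988) (nat_lit 0) (XT.lf (nat_lit 0) (nat_lit 8614865800) (nat_lit 1064) (nat_lit 1323160776) (nat_lit 1140) (nat_lit 1124912995) (nat_lit 374) (nat_lit 5) (nat_lit 388) (nat_lit 5) (nat_lit 389) (nat_lit 5) (nat_lit 443) (nat_lit 412) (nat_lit 285)) (XT.nd (nat_lit 78) (nat_lit 0) (nat_lit 0) (XT.lf (nat_lit 0) (nat_lit 439950069) (nat_lit 988) (nat_lit 7658812817) (nat_lit 76) (nat_lit 3076316815) (nat_lit 361) (nat_lit 5) (nat_lit 374) (nat_lit 5) (nat_lit 362) (nat_lit 5) (nat_lit 444) (nat_lit 412) (nat_lit 284)) (XT.lf (nat_lit 0) (nat_lit 2030290277) (nat_lit 988) (nat_lit 1687451542) (nat_lit 76) (nat_lit 7571393829) (nat_lit 361) (nat_lit 5) (nat_lit 374) (nat_lit 5)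 (nat_lit 362) (nat_lit 5) (nat_lit 445) (nat_lit 412) (nat_lit 283)))))) (XT.nd (nat_lit 390) (nat_lit 2432) (nat_lit 0) (XT.nd (nat_lit 156) (nat_lit 1672) (nat_lit 0) (XT.nd (nat_lit 78) (nat_lit 0) (nat_lit 0) (XT.lf (nat_lit 0) (nat_lit 3670626456) (nat_lit 912) (nat_lit 6963410453) (nat_lit 76) (nat_lit 771078466) (nat_lit 350) (nat_lit 5) (nat_lit 362) (nat_lit 5) (nat_lit 351) (nat_lit 5) (nat_lit 446) (nat_lit 412) (nat_lit 282)) (XT.lf (nat_lit 0) (nat_lit 5364252234) (nat_lit 912) (nat_lit 846570488) (nat_lit 76) (nat_lit 5312188642) (nat_lit 350) (nat_lit 5) (nat_lit 362) (nat_lit 5) (nat_lit 351) (nat_lit 5) (nat_lit 447) (nat_lit 412) (nat_lit 281))) (XT.nd (nat_lit 78) (nat_lit 836) (nat_lit 0) (XT.lf (nat_lit 0) (nat_lit 5449365061) (nat_lit 836) (nat_lit 1662534386) (nat_lit 912) (nat_lit 4530969043) (nat_lit 339) (nat_lit 5) (nat_lit 350) (nat_lit 5) (nat_lit 351) (nat_lit 5) (nat_lit 448) (nat_lit 412)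 (nat_lit 280)) (XT.nd (nat_lit 78) (nat_lit 0) (nat_lit 0) (XT.lf (nat_lit 0) (nat_lit 84506354) (nat_lit 836) (nat_lit 8820561817) (nat_lit 912) (nat_lit 2859849290) (nat_lit 328) (nat_lit 5) (nat_lit 339) (nat_lit 5) (nat_lit 340) (nat_lit 5) (nat_lit 449) (nat_lit 412) (nat_lit 279)) (XT.lf (nat_lit 0) (nat_lit 6546049433) (nat_lit 836) (nat_lit 4225723097) (nat_lit 912) (nat_lit 1116887394) (nat_lit 328) (nat_lit 5) (nat_lit 339) (nat_lit 5) (nat_lit 340) (nat_lit 5) (nat_lit 450) (nat_lit 412) (nat_lit 278))))) (XT.nd (nat_lit 234) (nat_lit 760) (nat_lit 0) (XT.nd (nat_lit 78) (nat_lit 760) (nat_lit 0) (XT.lf (nat_lit 0) (nat_lit 647952138) (nat_lit 912) (nat_lit 10900436250) (nat_lit 76) (nat_lit 466495016) (nat_lit 316) (nat_lit 5) (nat_lit 328) (nat_lit 5) (nat_lit 317) (nat_lit 5) (nat_lit 451) (nat_lit 412) (nat_lit 277)) (XT.nd (nat_lit 78) (nat_lit 760) (nat_lit 0) (XT.lf (nat_lit 0) (nat_lit 2482773710)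 (nat_lit 912) (nat_lit 4420397756) (nat_lit 76) (nat_lit 5239325040) (nat_lit 316) (nat_lit 5) (nat_lit 328) (nat_lit 5) (nat_lit 317) (nat_lit 5) (nat_lit 452) (nat_lit 412) (nat_lit 276)) (XT.lf (nat_lit 0) (nat_lit 2203502677) (nat_lit 760) (nat_lit 2150931238) (nat_lit 836) (nat_lit 7918230613) (nat_lit 306) (nat_lit 5) (nat_lit 316) (nat_lit 5) (nat_lit 317) (nat_lit 5) (nat_lit 453) (nat_lit 412) (nat_lit 275)))) (XT.nd (nat_lit 78) (nat_lit 760) (nat_lit 0) (XT.lf (nat_lit 0) (nat_lit 6296908759) (nat_lit 836) (nat_lit 3417568073) (nat_lit 76) (nat_lit 2690296845) (nat_lit 306) (nat_lit 5) (nat_lit 317) (nat_lit 5) (nat_lit 307) (nat_lit 5) (nat_lit 454) (nat_lit 412) (nat_lit 274)) (XT.nd (nat_lit 78) (nat_lit 0) (nat_lit 0) (XT.lf (nat_lit 0) (nat_lit 3382644409) (nat_lit 760) (nat_lit 4918085129) (nat_lit 836) (nat_lit 4238350832) (nat_lit 296) (nat_lit 5) (nat_lit 306) (nat_lit 5) (nat_lit 307) (nat_lit 5)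 (nat_lit 455) (nat_lit 412) (nat_lit 273)) (XT.lf (nat_lit 0) (nat_lit 10350750200) (nat_lit 760) (nat_lit 3274799) (nat_lit 836) (nat_lit 2321865417) (nat_lit 296) (nat_lit 5) (nat_lit 306) (nat_lit 5) (nat_lit 307) (nat_lit 5) (nat_lit 456) (nat_lit 412) (nat_lit 272))))))) (XT.nd (nat_lit 780) (nat_lit 3572) (nat_lit 0) (XT.nd (nat_lit 390) (nat_lit 1976) (nat_lit 0) (XT.nd (nat_lit 156) (nat_lit 1444) (nat_lit 0) (XT.nd (nat_lit 78) (nat_lit 76) (nat_lit 0) (XT.lf (nat_lit 0) (nat_lit 4656911886) (nat_lit 684) (nat_lit 7840961644) (nat_lit 760) (nat_lit 316578475) (nat_lit 287) (nat_lit 5) (nat_lit 296) (nat_lit 5) (nat_lit 297) (nat_lit 5) (nat_lit 457) (nat_lit 412) (nat_lit 271)) (XT.lf (nat_lit 0) (nat_lit 1708668258) (nat_lit 760) (nat_lit 1171203566) (nat_lit 76) (nat_lit 10075642838) (nat_lit 286) (nat_lit 5) (nat_lit 296) (nat_lit 5) (nat_lit 287) (nat_lit 5) (nat_lit 458) (nat_lit 412) (nat_lit 270))) (XT.nd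 (nat_lit 78) (nat_lit 684) (nat_lit 0) (XT.lf (nat_lit 0) (nat_lit 3810734106) (nat_lit 836) (nat_lit 7095796468) (nat_lit 76) (nat_lit 2192019875) (nat_lit 276) (nat_lit 5) (nat_lit 287) (nat_lit 5) (nat_lit 277) (nat_lit 5) (nat_lit 459) (nat_lit 412) (nat_lit 269)) (XT.nd (nat_lit 78) (nat_lit 0) (nat_lit 0) (XT.lf (nat_lit 0) (nat_lit 59049600) (nat_lit 684) (nat_lit 5910370447) (nat_lit 760) (nat_lit 7274740026) (nat_lit 267) (nat_lit 5) (nat_lit 276) (nat_lit 5) (nat_lit 277) (nat_lit 5) (nat_lit 460) (nat_lit 412) (nat_lit 268)) (XT.lf (nat_lit 0) (nat_lit 7438894883) (nat_lit 684) (nat_lit 767371309) (nat_lit 760) (nat_lit 5185720572) (nat_lit 267) (nat_lit 5) (nat_lit 276) (nat_lit 5) (nat_lit 277) (nat_lit 5) (nat_lit 461) (nat_lit 412) (nat_lit 267))))) (XT.nd (nat_lit 156) (nat_lit 1292) (nat_lit 0) (XT.nd (nat_lit 78) (nat_lit 0) (nat_lit 0) (XT.lf (nat_lit 0) (nat_lit 1398587824) (nat_lit 684) (nat_lit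 9115026393) (nat_lit 760) (nat_lit 3028644987) (nat_lit 258) (nat_lit 5) (nat_lit 267) (nat_lit 5) (nat_lit 268) (nat_lit 5) (nat_lit 462) (nat_lit 412) (nat_lit 266)) (XT.lf (nat_lit 0) (nat_lit 8958696425) (nat_lit 684) (nat_lit 3941167856) (nat_lit 760) (nat_lit 795022136) (nat_lit 258) (nat_lit 5) (nat_lit 267) (nat_lit 5) (nat_lit 268) (nat_lit 5) (nat_lit 463) (nat_lit 412) (nat_lit 265))) (XT.nd (nat_lit 78) (nat_lit 608) (nat_lit 0) (XT.lf (nat_lit 0) (nat_lit 1478975686) (nat_lit 684) (nat_lit 11026173244) (nat_lit 76) (nat_lit 1344925771) (nat_lit 249) (nat_lit 5) (nat_lit 258) (nat_lit 5) (nat_lit 250) (nat_lit 5) (nat_lit 464) (nat_lit 412) (nat_lit 264)) (XT.nd (nat_lit 78) (nat_lit 608) (nat_lit 0) (XT.lf (nat_lit 0) (nat_lit 3833959196) (nat_lit 684) (nat_lit 3454087962) (nat_lit 76) (nat_lit 6719295641) (nat_lit 249) (nat_lit 5) (nat_lit 258) (nat_lit 5) (nat_lit 250) (nat_lit 5) (nat_lit 465) (nat_lit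 412) (nat_lit 263)) (XT.lf (nat_lit 0) (nat_lit 4312094967) (nat_lit 608) (nat_lit 1940226614) (nat_lit 684) (nat_lit 7915113182) (nat_lit 241) (nat_lit 5) (nat_lit 249) (nat_lit 5) (nat_lit 250) (nat_lit 5) (nat_lit 466) (nat_lit 412) (nat_lit 262)))))) (XT.nd (nat_lit 390) (nat_lit 1748) (nat_lit 0) (XT.nd (nat_lit 156) (nat_lit 1216) (nat_lit 0) (XT.nd (nat_lit 78) (nat_lit 608) (nat_lit 0) (XT.lf (nat_lit 0) (nat_lit 8753610129) (nat_lit 684) (nat_lit 2086842276) (nat_lit 76) (nat_lit 3489588992) (nat_lit 241) (nat_lit 5) (nat_lit 250) (nat_lit 5) (nat_lit 242) (nat_lit 5) (nat_lit 467) (nat_lit 412) (nat_lit 261)) (XT.lf (nat_lit 0) (nat_lit 5887640916) (nat_lit 608) (nat_lit 5456994353) (nat_lit 684) (nat_lit 3150474606) (nat_lit 233) (nat_lit 5) (nat_lit 241) (nat_lit 5) (nat_lit 242) (nat_lit 5) (nat_lit 468) (nat_lit 412) (nat_lit 260))) (XT.nd (nat_lit 78) (nat_lit 1216) (nat_lit 0) (XT.lf (nat_lit 0) (nat_lit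 13990552596) (nat_lit 684) (nat_lit 627487301) (nat_lit 76) (nat_lit 45382246) (nat_lit 233) (nat_lit 5) (nat_lit 242) (nat_lit 5) (nat_lit 234) (nat_lit 5) (nat_lit 469) (nat_lit 412) (nat_lit 259)) (XT.nd (nat_lit 78) (nat_lit 532) (nat_lit 0) (XT.lf (nat_lit 0) (nat_lit 1904663505) (nat_lit 684) (nat_lit 7284627992) (nat_lit 76) (nat_lit 5644078174) (nat_lit 224) (nat_lit 5) (nat_lit 233) (nat_lit 5) (nat_lit 225) (nat_lit 5) (nat_lit 470) (nat_lit 412) (nat_lit 258)) (XT.lf (nat_lit 0) (nat_lit 883813780) (nat_lit 532) (nat_lit 3639935773) (nat_lit 608) (nat_lit 10482901031) (nat_lit 217) (nat_lit 5) (nat_lit 224) (nat_lit 5) (nat_lit 225) (nat_lit 5) (nat_lit 471) (nat_lit 412) (nat_lit 257))))) (XT.nd (nat_lit 234) (nat_lit 1140) (nat_lit 0) (XT.nd (nat_lit 78) (nat_lit 608) (nat_lit 0) (XT.lf (nat_lit 0) (nat_lit 7246678579) (nat_lit 608) (nat_lit 5895267141) (nat_lit 76) (nat_lit 2040425731) (nat_lit 217) (nat_lit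 5) (nat_lit 225) (nat_lit 5) (nat_lit 218) (nat_lit 5) (nat_lit 472) (nat_lit 412) (nat_lit 256)) (XT.nd (nat_lit 78) (nat_lit 0) (nat_lit 0) (XT.lf (nat_lit 0) (nat_lit 2491924955) (nat_lit 608) (nat_lit 7561775024) (nat_lit 684) (nat_lit 5307317570) (nat_lit 209) (nat_lit 5) (nat_lit 217) (nat_lit 5) (nat_lit 218) (nat_lit 5) (nat_lit 473) (nat_lit 412) (nat_lit 255)) (XT.lf (nat_lit 0) (nat_lit 11113356172) (nat_lit 608) (nat_lit 1832536743) (nat_lit 684) (nat_lit 2596766451) (nat_lit 209) (nat_lit 5) (nat_lit 217) (nat_lit 5) (nat_lit 218) (nat_lit 5) (nat_lit 474) (nat_lit 412) (nat_lit 254)))) (XT.nd (nat_lit 78) (nat_lit 532) (nat_lit 0) (XT.lf (nat_lit 0) (nat_lit 209012359) (nat_lit 608) (nat_lit 11533543596) (nat_lit 76) (nat_lit 3984495140) (nat_lit 201) (nat_lit 5) (nat_lit 209) (nat_lit 5) (nat_lit 202) (nat_lit 5) (nat_lit 475) (nat_lit 412) (nat_lit 253)) (XT.nd (nat_lit 78) (nat_lit 532) (nat_lit 0) (XT.lf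 (nat_lit 0) (nat_lit 3067928924) (nat_lit 608) (nat_lit 2908648622) (nat_lit 76) (nat_lit 9937577187) (nat_lit 201) (nat_lit 5) (nat_lit 209) (nat_lit 5) (nat_lit 202) (nat_lit 5) (nat_lit 476) (nat_lit 412) (nat_lit 252)) (XT.lf (nat_lit 0) (nat_lit 5953693476) (nat_lit 532) (nat_lit 58892117) (nat_lit 608) (nat_lit 10091846774) (nat_lit 194) (nat_lit 5) (nat_lit 201) (nat_lit 5) (nat_lit 202) (nat_lit 5) (nat_lit 477) (nat_lit 412) (nat_lit 251))))))))
noncomputable def xc177 : XT := (XT.nd (nat_lit 1638) (nat_lit 1140) (nat_lit 0) (XT.nd (nat_lit 780) (nat_lit 2584) (nat_lit 0) (XT.nd (nat_lit 390) (nat_lit 988) (nat_lit 0) (XT.nd (nat_lit 156) (nat_lit 1064) (nat_lit 0) (XT.nd (nat_lit 78) (nat_lit 456) (nat_lit 0) (XT.lf (nat_lit 0) (nat_lit 9064590551) (nat_lit 608) (nat_lit 1317583047) (nat_lit 76) (nat_lit 5915375952) (nat_lit 194) (nat_lit 5) (nat_lit 202) (nat_lit 5) (nat_lit 195) (nat_lit 5) (nat_lit 478)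 (nat_lit 412) (nat_lit 250)) (XT.lf (nat_lit 0) (nat_lit 7780922616) (nat_lit 456) (nat_lit 4437817725) (nat_lit 532) (nat_lit 4274969680) (nat_lit 188) (nat_lit 5) (nat_lit 194) (nat_lit 5) (nat_lit 195) (nat_lit 5) (nat_lit 479) (nat_lit 412) (nat_lit 249))) (XT.nd (nat_lit 78) (nat_lit 532) (nat_lit 0) (XT.lf (nat_lit 0) (nat_lit 366777854) (nat_lit 532) (nat_lit 15081313874) (nat_lit 608) (nat_lit 1245462579) (nat_lit 181) (nat_lit 5) (nat_lit 188) (nat_lit 5) (nat_lit 189) (nat_lit 5) (nat_lit 480) (nat_lit 412) (nat_lit 248)) (XT.nd (nat_lit 78) (nat_lit 456) (nat_lit 0) (XT.lf (nat_lit 0) (nat_lit 1899009469) (nat_lit 608) (nat_lit 7205048742) (nat_lit 76) (nat_lit 7791529249) (nat_lit 180) (nat_lit 5) (nat_lit 188) (nat_lit 5) (nat_lit 181) (nat_lit 5) (nat_lit 481) (nat_lit 412) (nat_lit 247)) (XT.lf (nat_lit 0) (nat_lit 2105630321) (nat_lit 456) (nat_lit 2988263776) (nat_lit 532) (nat_lit 12007521337) (nat_lit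 174) (nat_lit 5) (nat_lit 180) (nat_lit 5) (nat_lit 181) (nat_lit 5) (nat_lit 482) (nat_lit 412) (nat_lit 246))))) (XT.nd (nat_lit 156) (nat_lit 532) (nat_lit 0) (XT.nd (nat_lit 78) (nat_lit 456) (nat_lit 0) (XT.lf (nat_lit 0) (nat_lit 8413040756) (nat_lit 532) (nat_lit 5644558778) (nat_lit 76) (nat_lit 3252555898) (nat_lit 174) (nat_lit 5) (nat_lit 181) (nat_lit 5) (nat_lit 175) (nat_lit 5) (nat_lit 483) (nat_lit 412) (nat_lit 245)) (XT.lf (nat_lit 0) (nat_lit 3912534730) (nat_lit 456) (nat_lit 7922006952) (nat_lit 532) (nat_lit 5687811818) (nat_lit 168) (nat_lit 5) (nat_lit 174) (nat_lit 5) (nat_lit 175) (nat_lit 5) (nat_lit 484) (nat_lit 412) (nat_lit 244))) (XT.nd (nat_lit 78) (nat_lit 532) (nat_lit 0) (XT.lf (nat_lit 0) (nat_lit 13724685895) (nat_lit 456) (nat_lit 1628542449) (nat_lit 532) (nat_lit 2384994718) (nat_lit 168) (nat_lit 5) (nat_lit 174) (nat_lit 5) (nat_lit 175) (nat_lit 5) (nat_lit 485) (nat_lit 412)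 (nat_lit 243)) (XT.nd (nat_lit 78) (nat_lit 0) (nat_lit 0) (XT.lf (nat_lit 0) (nat_lit 1031212539) (nat_lit 532) (nat_lit 12156782265) (nat_lit 76) (nat_lit 4769085240) (nat_lit 161) (nat_lit 5) (nat_lit 168) (nat_lit 5) (nat_lit 162) (nat_lit 5) (nat_lit 486) (nat_lit 412) (nat_lit 242)) (XT.lf (nat_lit 0) (nat_lit 4512803427) (nat_lit 532) (nat_lit 2354268514) (nat_lit 76) (nat_lit 11312349530) (nat_lit 161) (nat_lit 5) (nat_lit 168) (nat_lit 5) (nat_lit 162) (nat_lit 5) (nat_lit 487) (nat_lit 412) (nat_lit 241)))))) (XT.nd (nat_lit 390) (nat_lit 1216) (nat_lit 0) (XT.nd (nat_lit 156) (nat_lit 912) (nat_lit 0) (XT.nd (nat_lit 78) (nat_lit 0) (nat_lit 0) (XT.lf (nat_lit 0) (nat_lit 7733417828) (nat_lit 456) (nat_lit 372062265) (nat_lit 532) (nat_lit 10299902998) (nat_lit 155) (nat_lit 5) (nat_lit 161) (nat_lit 5) (nat_lit 162) (nat_lit 5) (nat_lit 488) (nat_lit 412) (nat_lit 240)) (XT.lf (nat_lit 0) (nat_lit 11817823660)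 (nat_lit 532) (nat_lit 633854096) (nat_lit 76) (nat_lit 6183232316) (nat_lit 155) (nat_lit 5) (nat_lit 162) (nat_lit 5) (nat_lit 156) (nat_lit 5) (nat_lit 489) (nat_lit 412) (nat_lit 239))) (XT.nd (nat_lit 78) (nat_lit 532) (nat_lit 0) (XT.lf (nat_lit 0) (nat_lit 9717875135) (nat_lit 380) (nat_lit 5943580908) (nat_lit 456) (nat_lit 3206433058) (nat_lit 150) (nat_lit 5) (nat_lit 155) (nat_lit 5) (nat_lit 156) (nat_lit 5) (nat_lit 490) (nat_lit 412) (nat_lit 238)) (XT.nd (nat_lit 78) (nat_lit 0) (nat_lit 0) (XT.lf (nat_lit 0) (nat_lit 478227414) (nat_lit 532) (nat_lit 17930009563) (nat_lit 76) (nat_lit 697070273) (nat_lit 143) (nat_lit 5) (nat_lit 150) (nat_lit 5) (nat_lit 144) (nat_lit 5) (nat_lit 491) (nat_lit 412) (nat_lit 237)) (XT.lf (nat_lit 0) (nat_lit 4286434294) (nat_lit 532) (nat_lit 7588335318) (nat_lit 76) (nat_lit 7470426726) (nat_lit 143) (nat_lit 5) (nat_lit 150) (nat_lit 5) (nat_lit 144) (nat_lit 5) (nat_lit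 492) (nat_lit 412) (nat_lit 236))))) (XT.nd (nat_lit 234) (nat_lit 456) (nat_lit 0) (XT.nd (nat_lit 78) (nat_lit 380) (nat_lit 0) (XT.lf (nat_lit 0) (nat_lit 2987358770) (nat_lit 380) (nat_lit 5194585297) (nat_lit 456) (nat_lit 11407718536) (nat_lit 138) (nat_lit 5) (nat_lit 143) (nat_lit 5) (nat_lit 144) (nat_lit 5) (nat_lit 493) (nat_lit 412) (nat_lit 235)) (XT.nd (nat_lit 78) (nat_lit 380) (nat_lit 0) (XT.lf (nat_lit 0) (nat_lit 12208939022) (nat_lit 456) (nat_lit 5983477072) (nat_lit 76) (nat_lit 1645532726) (nat_lit 138) (nat_lit 5) (nat_lit 144) (nat_lit 5) (nat_lit 139) (nat_lit 5) (nat_lit 494) (nat_lit 412) (nat_lit 234)) (XT.lf (nat_lit 0) (nat_lit 4865315098) (nat_lit 380) (nat_lit 11509112675) (nat_lit 456) (nat_lit 3715615995) (nat_lit 133) (nat_lit 5) (nat_lit 138) (nat_lit 5) (nat_lit 139) (nat_lit 5) (nat_lit 495) (nat_lit 412) (nat_lit 233)))) (XT.nd (nat_lit 78) (nat_lit 380) (nat_lit 0) (XT.lf (nat_lit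 0) (nat_lit 304833941) (nat_lit 456) (nat_lit 4348095102) (nat_lit 76) (nat_lit 15693569559) (nat_lit 132) (nat_lit 5) (nat_lit 138) (nat_lit 5) (nat_lit 133) (nat_lit 5) (nat_lit 496) (nat_lit 412) (nat_lit 232)) (XT.nd (nat_lit 78) (nat_lit 0) (nat_lit 0) (XT.lf (nat_lit 0) (nat_lit 4407904664) (nat_lit 456) (nat_lit 13823475655) (nat_lit 76) (nat_lit 2375173696) (nat_lit 127) (nat_lit 5) (nat_lit 133) (nat_lit 5) (nat_lit 128) (nat_lit 5) (nat_lit 497) (nat_lit 412) (nat_lit 231)) (XT.lf (nat_lit 0) (nat_lit 8645424220) (nat_lit 456) (nat_lit 2718093657) (nat_lit 76) (nat_lit 9507246837) (nat_lit 127) (nat_lit 5) (nat_lit 133) (nat_lit 5) (nat_lit 128) (nat_lit 5) (nat_lit 498) (nat_lit 412) (nat_lit 230))))))) (XT.nd (nat_lit 53196) (nat_lit 0) (nat_lit 25764) (XT.nd (nat_lit 52728) (nat_lit 0) (nat_lit 28500) (XT.nd (nat_lit 156) (nat_lit 760) (nat_lit 0) (XT.nd (nat_lit 78) (nat_lit 0) (nat_lit 0) (XT.lf (nat_lit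 0) (nat_lit 8712212911) (nat_lit 380) (nat_lit 4304401702) (nat_lit 456) (nat_lit 8122668495) (nat_lit 122) (nat_lit 5) (nat_lit 127) (nat_lit 5) (nat_lit 128) (nat_lit 5) (nat_lit 499) (nat_lit 412) (nat_lit 229)) (XT.lf (nat_lit 0) (nat_lit 17504797913) (nat_lit 456) (nat_lit 1035258424) (nat_lit 76) (nat_lit 2872526001) (nat_lit 122) (nat_lit 5) (nat_lit 128) (nat_lit 5) (nat_lit 123) (nat_lit 5) (nat_lit 500) (nat_lit 412) (nat_lit 228))) (XT.nd (nat_lit 78) (nat_lit 380) (nat_lit 0) (XT.lf (nat_lit 0) (nat_lit 477294870) (nat_lit 380) (nat_lit 11007937959) (nat_lit 76) (nat_lit 10204245065) (nat_lit 117) (nat_lit 5) (nat_lit 122) (nat_lit 5) (nat_lit 118) (nat_lit 5) (nat_lit 501) (nat_lit 412) (nat_lit 227)) (XT.nd (nat_lit 52416) (nat_lit 0) (nat_lit 28500) (XT.lf (nat_lit 0) (nat_lit 646185191) (nat_lit 380) (nat_lit 4255380806) (nat_lit 456) (nat_lit 17069754189) (nat_lit 112) (nat_lit 5) (nat_lit 117) (nat_lit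 5) (nat_lit 118) (nat_lit 5) (nat_lit 502) (nat_lit 412) (nat_lit 226)) (XT.lf (nat_lit 0) (nat_lit 375597328) (nat_lit 0) (nat_lit 375597328) (nat_lit 1444) (nat_lit 3519460738) (nat_lit 487) (nat_lit 5) (nat_lit 487) (nat_lit 3) (nat_lit 506) (nat_lit 3) (nat_lit 413) (nat_lit 413) (nat_lit 314))))) (XT.nd (nat_lit 234) (nat_lit 0) (nat_lit 76) (XT.nd (nat_lit 78) (nat_lit 0) (nat_lit 0) (XT.lf (nat_lit 0) (nat_lit 2537787742) (nat_lit 1444) (nat_lit 3737236912) (nat_lit 1520) (nat_lit 2330809824) (nat_lit 487) (nat_lit 5) (nat_lit 506) (nat_lit 3) (nat_lit 507) (nat_lit 5) (nat_lit 414) (nat_lit 413) (nat_lit 313)) (XT.nd (nat_lit 78) (nat_lit 0) (nat_lit 0) (XT.lf (nat_lit 76) (nat_lit 382940670) (nat_lit 0) (nat_lit 3192137586) (nat_lit 1520) (nat_lit 5096959344) (nat_lit 488) (nat_lit 5) (nat_lit 487) (nat_lit 5) (nat_lit 507) (nat_lit 5) (nat_lit 415) (nat_lit 413) (nat_lit 312)) (XT.lf (nat_lit 76) (nat_lit 4622465112)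 (nat_lit 0) (nat_lit 9877492) (nat_lit 1520) (nat_lit 4107250013) (nat_lit 488) (nat_lit 5) (nat_lit 487) (nat_lit 5) (nat_lit 507) (nat_lit 5) (nat_lit 416) (nat_lit 413) (nat_lit 311)))) (XT.nd (nat_lit 78) (nat_lit 0) (nat_lit 0) (XT.lf (nat_lit 76) (nat_lit 104599452) (nat_lit 0) (nat_lit 5602575672) (nat_lit 1520) (nat_lit 3101407302) (nat_lit 489) (nat_lit 5) (nat_lit 488) (nat_lit 5) (nat_lit 508) (nat_lit 5) (nat_lit 417) (nat_lit 413) (nat_lit 310)) (XT.nd (nat_lit 78) (nat_lit 0) (nat_lit 76) (XT.lf (nat_lit 76) (nat_lit 4452552547) (nat_lit 0) (nat_lit 2353782988) (nat_lit 1520) (nat_lit 2072571784) (nat_lit 489) (nat_lit 5) (nat_lit 488) (nat_lit 5) (nat_lit 508) (nat_lit 5) (nat_lit 418) (nat_lit 413) (nat_lit 309)) (XT.lf (nat_lit 0) (nat_lit 7909407122) (nat_lit 1444) (nat_lit 83652807) (nat_lit 1520) (nat_lit 957951901) (nat_lit 489) (nat_lit 5) (nat_lit 508) (nat_lit 5) (nat_lit 509) (nat_lit 5) (nat_lit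 419) (nat_lit 413) (nat_lit 308)))))) (XT.nd (nat_lit 390) (nat_lit 1368) (nat_lit 0) (XT.nd (nat_lit 156) (nat_lit 0) (nat_lit 76) (XT.nd (nat_lit 78) (nat_lit 0) (nat_lit 0) (XT.lf (nat_lit 0) (nat_lit 30129652) (nat_lit 1520) (nat_lit 4650654342) (nat_lit 1596) (nat_lit 4343378788) (nat_lit 469) (nat_lit 5) (nat_lit 489) (nat_lit 5) (nat_lit 490) (nat_lit 5) (nat_lit 420) (nat_lit 413) (nat_lit 307)) (XT.lf (nat_lit 0) (nat_lit 1086312147) (nat_lit 1520) (nat_lit 198920029) (nat_lit 1596) (nat_lit 7813878672) (nat_lit 469) (nat_lit 5) (nat_lit 489) (nat_lit 5) (nat_lit 490) (nat_lit 5) (nat_lit 421) (nat_lit 413) (nat_lit 306))) (XT.nd (nat_lit 78) (nat_lit 0) (nat_lit 0) (XT.lf (nat_lit 0) (nat_lit 2183328048) (nat_lit 1520) (nat_lit 4804409634) (nat_lit 1596) (nat_lit 2187436786) (nat_lit 470) (nat_lit 5) (nat_lit 490) (nat_lit 5) (nat_lit 491) (nat_lit 5) (nat_lit 422) (nat_lit 413) (nat_lit 305)) (XT.nd (nat_lit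 78) (nat_lit 0) (nat_lit 76) (XT.lf (nat_lit 0) (nat_lit 3289407349) (nat_lit 1520) (nat_lit 241067308) (nat_lit 1596) (nat_lit 5722552820) (nat_lit 470) (nat_lit 5) (nat_lit 490) (nat_lit 5) (nat_lit 491) (nat_lit 5) (nat_lit 423) (nat_lit 413) (nat_lit 304)) (XT.lf (nat_lit 0) (nat_lit 4424484359) (nat_lit 1520) (nat_lit 4874597569) (nat_lit 1596) (nat_lit 33228466) (nat_lit 471) (nat_lit 5) (nat_lit 491) (nat_lit 5) (nat_lit 492) (nat_lit 5) (nat_lit 424) (nat_lit 413) (nat_lit 303))))) (XT.nd (nat_lit 234) (nat_lit 1520) (nat_lit 0) (XT.nd (nat_lit 78) (nat_lit 0) (nat_lit 0) (XT.lf (nat_lit 0) (nat_lit 5585383478) (nat_lit 1520) (nat_lit 197282418) (nat_lit 1596) (nat_lit 3630460828) (nat_lit 471) (nat_lit 5) (nat_lit 491) (nat_lit 5) (nat_lit 492) (nat_lit 5) (nat_lit 425) (nat_lit 413) (nat_lit 302)) (XT.nd (nat_lit 78) (nat_lit 0) (nat_lit 76) (XT.lf (nat_lit 76) (nat_lit 4619974006) (nat_lit 0) (nat_lit 2158063235)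 (nat_lit 1596) (nat_lit 2717361375) (nat_lit 472) (nat_lit 5) (nat_lit 471) (nat_lit 5) (nat_lit 492) (nat_lit 5) (nat_lit 426) (nat_lit 413) (nat_lit 301)) (XT.lf (nat_lit 0) (nat_lit 7984784678) (nat_lit 1520) (nat_lit 67622289) (nat_lit 1596) (nat_lit 1527113938) (nat_lit 472) (nat_lit 5) (nat_lit 492) (nat_lit 5) (nat_lit 493) (nat_lit 5) (nat_lit 427) (nat_lit 413) (nat_lit 300)))) (XT.nd (nat_lit 78) (nat_lit 1596) (nat_lit 0) (XT.lf (nat_lit 76) (nat_lit 4871641215) (nat_lit 0) (nat_lit 4369276553) (nat_lit 1596) (nat_lit 423912438) (nat_lit 473) (nat_lit 5) (nat_lit 472) (nat_lit 5) (nat_lit 493) (nat_lit 5) (nat_lit 428) (nat_lit 413) (nat_lit 299)) (XT.nd (nat_lit 78) (nat_lit 0) (nat_lit 76) (XT.lf (nat_lit 76) (nat_lit 141133390) (nat_lit 0) (nat_lit 599962553) (nat_lit 1672) (nat_lit 9011041507) (nat_lit 452) (nat_lit 5) (nat_lit 451) (nat_lit 5) (nat_lit 473) (nat_lit 5) (nat_lit 429) (nat_lit 413) (nat_lit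 298)) (XT.lf (nat_lit 0) (nat_lit 1957022703) (nat_lit 1596) (nat_lit 4640358184) (nat_lit 1672) (nat_lit 3243097051) (nat_lit 452) (nat_lit 5) (nat_lit 473) (nat_lit 5) (nat_lit 474) (nat_lit 5) (nat_lit 430) (nat_lit 413) (nat_lit 297))))))))
noncomputable def xc178 : XT := (XT.nd (nat_lit 1638) (nat_lit 8436) (nat_lit 0) (XT.nd (nat_lit 780) (nat_lit 6308) (nat_lit 0) (XT.nd (nat_lit 390) (nat_lit 3116) (nat_lit 0) (XT.nd (nat_lit 156) (nat_lit 0) (nat_lit 76) (XT.nd (nat_lit 78) (nat_lit 0) (nat_lit 76) (XT.lf (nat_lit 76) (nat_lit 416644231) (nat_lit 0) (nat_lit 2767541636) (nat_lit 1672) (nat_lit 6746669862) (nat_lit 453) (nat_lit 5) (nat_lit 452) (nat_lit 5) (nat_lit 474) (nat_lit 5) (nat_lit 431) (nat_lit 413) (nat_lit 296)) (XT.lf (nat_lit 0) (nat_lit 4455197889) (nat_lit 1596) (nat_lit 4407213348) (nat_lit 1672) (nat_lit 1160252404) (nat_lit 453) (nat_lit 5) (nat_lit 474) (nat_lit 5) (nat_lit 475) (nat_lit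 5) (nat_lit 432) (nat_lit 413) (nat_lit 295))) (XT.nd (nat_lit 78) (nat_lit 0) (nat_lit 0) (XT.lf (nat_lit 76) (nat_lit 779225821) (nat_lit 0) (nat_lit 4976738405) (nat_lit 1672) (nat_lit 4360265311) (nat_lit 454) (nat_lit 5) (nat_lit 453) (nat_lit 5) (nat_lit 475) (nat_lit 5) (nat_lit 433) (nat_lit 413) (nat_lit 294)) (XT.nd (nat_lit 78) (nat_lit 0) (nat_lit 76) (XT.lf (nat_lit 76) (nat_lit 6114640162) (nat_lit 0) (nat_lit 978906670) (nat_lit 1672) (nat_lit 3117912240) (nat_lit 454) (nat_lit 5) (nat_lit 453) (nat_lit 5) (nat_lit 475) (nat_lit 5) (nat_lit 434) (nat_lit 413) (nat_lit 293)) (XT.lf (nat_lit 76) (nat_lit 1229561646) (nat_lit 0) (nat_lit 7238044142) (nat_lit 1672) (nat_lit 1840801093) (nat_lit 455) (nat_lit 5) (nat_lit 454) (nat_lit 5) (nat_lit 476) (nat_lit 5) (nat_lit 435) (nat_lit 413) (nat_lit 292))))) (XT.nd (nat_lit 156) (nat_lit 1672) (nat_lit 0) (XT.nd (nat_lit 78) (nat_lit 1596) (nat_lit 0) (XT.lf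 (nat_lit 76) (nat_lit 6696916567) (nat_lit 0) (nat_lit 3188049017) (nat_lit 1672) (nat_lit 522019685) (nat_lit 455) (nat_lit 5) (nat_lit 454) (nat_lit 5) (nat_lit 476) (nat_lit 5) (nat_lit 436) (nat_lit 413) (nat_lit 291)) (XT.lf (nat_lit 0) (nat_lit 812203587) (nat_lit 1672) (nat_lit 8744352263) (nat_lit 76) (nat_lit 950882957) (nat_lit 433) (nat_lit 5) (nat_lit 455) (nat_lit 5) (nat_lit 434) (nat_lit 5) (nat_lit 437) (nat_lit 413) (nat_lit 290))) (XT.nd (nat_lit 78) (nat_lit 1672) (nat_lit 0) (XT.lf (nat_lit 0) (nat_lit 2194698082) (nat_lit 1672) (nat_lit 3252906777) (nat_lit 76) (nat_lit 5161663567) (nat_lit 433) (nat_lit 5) (nat_lit 455) (nat_lit 5) (nat_lit 434) (nat_lit 5) (nat_lit 438) (nat_lit 413) (nat_lit 289)) (XT.nd (nat_lit 78) (nat_lit 0) (nat_lit 0) (XT.lf (nat_lit 0) (nat_lit 2364909043) (nat_lit 1672) (nat_lit 1238028930) (nat_lit 1748) (nat_lit 7110242160) (nat_lit 411) (nat_lit 5) (nat_lit 433) (nat_lit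 5) (nat_lit 434) (nat_lit 5) (nat_lit 439) (nat_lit 413) (nat_lit 288)) (XT.lf (nat_lit 0) (nat_lit 5064158927) (nat_lit 1748) (nat_lit 2714286954) (nat_lit 76) (nat_lit 3040235130) (nat_lit 411) (nat_lit 5) (nat_lit 434) (nat_lit 5) (nat_lit 412) (nat_lit 5) (nat_lit 440) (nat_lit 413) (nat_lit 287)))))) (XT.nd (nat_lit 390) (nat_lit 2508) (nat_lit 0) (XT.nd (nat_lit 156) (nat_lit 2052) (nat_lit 0) (XT.nd (nat_lit 78) (nat_lit 0) (nat_lit 0) (XT.lf (nat_lit 0) (nat_lit 3049720535) (nat_lit 1748) (nat_lit 3516219818) (nat_lit 1824) (nat_lit 4360131950) (nat_lit 388) (nat_lit 5) (nat_lit 411) (nat_lit 5) (nat_lit 412) (nat_lit 5) (nat_lit 441) (nat_lit 413) (nat_lit 286)) (XT.lf (nat_lit 0) (nat_lit 8105072678) (nat_lit 1824) (nat_lit 2089672762) (nat_lit 76) (nat_lit 840726654) (nat_lit 388) (nat_lit 5) (nat_lit 412) (nat_lit 5) (nat_lit 389) (nat_lit 5) (nat_lit 442) (nat_lit 413) (nat_lit 285))) (XT.nd (nat_lit 78)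 (nat_lit 988) (nat_lit 0) (XT.lf (nat_lit 0) (nat_lit 3825201194) (nat_lit 1064) (nat_lit 5881813638) (nat_lit 1140) (nat_lit 1439411347) (nat_lit 374) (nat_lit 5) (nat_lit 388) (nat_lit 5) (nat_lit 389) (nat_lit 5) (nat_lit 443) (nat_lit 413) (nat_lit 284)) (XT.nd (nat_lit 78) (nat_lit 912) (nat_lit 0) (XT.lf (nat_lit 0) (nat_lit 78460679) (nat_lit 1140) (nat_lit 1387786271) (nat_lit 76) (nat_lit 9793385768) (nat_lit 373) (nat_lit 5) (nat_lit 388) (nat_lit 5) (nat_lit 374) (nat_lit 5) (nat_lit 444) (nat_lit 413) (nat_lit 283)) (XT.lf (nat_lit 0) (nat_lit 1642290497) (nat_lit 988) (nat_lit 6692419448) (nat_lit 76) (nat_lit 3039512119) (nat_lit 361) (nat_lit 5) (nat_lit 374) (nat_lit 5) (nat_lit 362) (nat_lit 5) (nat_lit 445) (nat_lit 413) (nat_lit 282))))) (XT.nd (nat_lit 234) (nat_lit 836) (nat_lit 0) (XT.nd (nat_lit 78) (nat_lit 1672) (nat_lit 0) (XT.lf (nat_lit 0) (nat_lit 3241034736) (nat_lit 988) (nat_lit 623583293)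 (nat_lit 76) (nat_lit 7626418732) (nat_lit 361) (nat_lit 5) (nat_lit 374) (nat_lit 5) (nat_lit 362) (nat_lit 5) (nat_lit 446) (nat_lit 413) (nat_lit 281)) (XT.nd (nat_lit 78) (nat_lit 836) (nat_lit 0) (XT.lf (nat_lit 0) (nat_lit 4897898579) (nat_lit 912) (nat_lit 5988312886) (nat_lit 76) (nat_lit 723459590) (nat_lit 350) (nat_lit 5) (nat_lit 362) (nat_lit 5) (nat_lit 351) (nat_lit 5) (nat_lit 447) (nat_lit 413) (nat_lit 280)) (XT.lf (nat_lit 0) (nat_lit 232057039) (nat_lit 836) (nat_lit 6372221803) (nat_lit 912) (nat_lit 5126077685) (nat_lit 339) (nat_lit 5) (nat_lit 350) (nat_lit 5) (nat_lit 351) (nat_lit 5) (nat_lit 448) (nat_lit 413) (nat_lit 279)))) (XT.nd (nat_lit 78) (nat_lit 836) (nat_lit 0) (XT.lf (nat_lit 0) (nat_lit 6643680227) (nat_lit 836) (nat_lit 1726557696) (nat_lit 912) (nat_lit 3482714718) (nat_lit 339) (nat_lit 5) (nat_lit 350) (nat_lit 5) (nat_lit 351) (nat_lit 5) (nat_lit 449) (nat_lit 413) (nat_lit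 278)) (XT.nd (nat_lit 78) (nat_lit 0) (nat_lit 0) (XT.lf (nat_lit 0) (nat_lit 1187205908) (nat_lit 836) (nat_lit 8997132397) (nat_lit 912) (nat_lit 1793411770) (nat_lit 328) (nat_lit 5) (nat_lit 339) (nat_lit 5) (nat_lit 340) (nat_lit 5) (nat_lit 450) (nat_lit 413) (nat_lit 277)) (XT.lf (nat_lit 0) (nat_lit 7756391428) (nat_lit 836) (nat_lit 4310393778) (nat_lit 912) (nat_lit 37622686) (nat_lit 328) (nat_lit 5) (nat_lit 339) (nat_lit 5) (nat_lit 340) (nat_lit 5) (nat_lit 451) (nat_lit 413) (nat_lit 276))))))) (XT.nd (nat_lit 780) (nat_lit 3800) (nat_lit 0) (XT.nd (nat_lit 390) (nat_lit 2204) (nat_lit 0) (XT.nd (nat_lit 156) (nat_lit 1520) (nat_lit 0) (XT.nd (nat_lit 78) (nat_lit 0) (nat_lit 0) (XT.lf (nat_lit 0) (nat_lit 1733899488) (nat_lit 912) (nat_lit 10009567790) (nat_lit 76) (nat_lit 489837181) (nat_lit 316) (nat_lit 5) (nat_lit 328) (nat_lit 5) (nat_lit 317) (nat_lit 5) (nat_lit 452) (nat_lit 413) (nat_lit 275))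 (XT.lf (nat_lit 0) (nat_lit 3584378505) (nat_lit 912) (nat_lit 3421671216) (nat_lit 76) (nat_lit 5357849055) (nat_lit 316) (nat_lit 5) (nat_lit 328) (nat_lit 5) (nat_lit 317) (nat_lit 5) (nat_lit 453) (nat_lit 413) (nat_lit 274))) (XT.nd (nat_lit 78) (nat_lit 760) (nat_lit 0) (XT.lf (nat_lit 0) (nat_lit 3327555024) (nat_lit 760) (nat_lit 2152302394) (nat_lit 836) (nat_lit 7017093044) (nat_lit 306) (nat_lit 5) (nat_lit 316) (nat_lit 5) (nat_lit 317) (nat_lit 5) (nat_lit 454) (nat_lit 413) (nat_lit 273)) (XT.nd (nat_lit 78) (nat_lit 760) (nat_lit 0) (XT.lf (nat_lit 0) (nat_lit 7441087354) (nat_lit 836) (nat_lit 2406626054) (nat_lit 76) (nat_lit 2784398130) (nat_lit 306) (nat_lit 5) (nat_lit 317) (nat_lit 5) (nat_lit 307) (nat_lit 5) (nat_lit 455) (nat_lit 413) (nat_lit 272)) (XT.lf (nat_lit 0) (nat_lit 4522490062) (nat_lit 760) (nat_lit 4949490374) (nat_lit 836) (nat_lit 3297391713) (nat_lit 296) (nat_lit 5) (nat_lit 306)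 (nat_lit 5) (nat_lit 307) (nat_lit 5) (nat_lit 456) (nat_lit 413) (nat_lit 271))))) (XT.nd (nat_lit 156) (nat_lit 1444) (nat_lit 0) (XT.nd (nat_lit 78) (nat_lit 760) (nat_lit 0) (XT.lf (nat_lit 0) (nat_lit 11547035805) (nat_lit 836) (nat_lit 1300790091) (nat_lit 76) (nat_lit 61486171) (nat_lit 296) (nat_lit 5) (nat_lit 307) (nat_lit 5) (nat_lit 297) (nat_lit 5) (nat_lit 457) (nat_lit 413) (nat_lit 270)) (XT.lf (nat_lit 0) (nat_lit 661663874) (nat_lit 760) (nat_lit 7241416997) (nat_lit 76) (nat_lit 5147732436) (nat_lit 286) (nat_lit 5) (nat_lit 296) (nat_lit 5) (nat_lit 287) (nat_lit 5) (nat_lit 458) (nat_lit 413) (nat_lit 269))) (XT.nd (nat_lit 78) (nat_lit 1444) (nat_lit 0) (XT.lf (nat_lit 0) (nat_lit 2703958188) (nat_lit 760) (nat_lit 138571384) (nat_lit 76) (nat_lit 10352517278) (nat_lit 286) (nat_lit 5) (nat_lit 296) (nat_lit 5) (nat_lit 287) (nat_lit 5) (nat_lit 459) (nat_lit 413) (nat_lit 268)) (XT.nd (nat_lit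 78) (nat_lit 684) (nat_lit 0) (XT.lf (nat_lit 0) (nat_lit 4836680873) (nat_lit 836) (nat_lit 6169922866) (nat_lit 76) (nat_lit 2334574279) (nat_lit 276) (nat_lit 5) (nat_lit 287) (nat_lit 5) (nat_lit 277) (nat_lit 5) (nat_lit 460) (nat_lit 413) (nat_lit 267)) (XT.lf (nat_lit 0) (nat_lit 1120995193) (nat_lit 684) (nat_lit 5905810329) (nat_lit 760) (nat_lit 6463135852) (nat_lit 267) (nat_lit 5) (nat_lit 276) (nat_lit 5) (nat_lit 277) (nat_lit 5) (nat_lit 461) (nat_lit 413) (nat_lit 266)))))) (XT.nd (nat_lit 390) (nat_lit 2432) (nat_lit 0) (XT.nd (nat_lit 156) (nat_lit 684) (nat_lit 0) (XT.nd (nat_lit 78) (nat_lit 684) (nat_lit 0) (XT.lf (nat_lit 0) (nat_lit 8627638075) (nat_lit 684) (nat_lit 662358415) (nat_lit 760) (nat_lit 4351102655) (nat_lit 267) (nat_lit 5) (nat_lit 276) (nat_lit 5) (nat_lit 277) (nat_lit 5) (nat_lit 462) (nat_lit 413) (nat_lit 265)) (XT.lf (nat_lit 0) (nat_lit 2477510827) (nat_lit 684) (nat_lit 9155538787)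 (nat_lit 760) (nat_lit 2161542831) (nat_lit 258) (nat_lit 5) (nat_lit 267) (nat_lit 5) (nat_lit 268) (nat_lit 5) (nat_lit 463) (nat_lit 413) (nat_lit 264))) (XT.nd (nat_lit 78) (nat_lit 608) (nat_lit 0) (XT.lf (nat_lit 0) (nat_lit 97270101) (nat_lit 760) (nat_lit 3783060403) (nat_lit 76) (nat_lit 10070291878) (nat_lit 257) (nat_lit 5) (nat_lit 267) (nat_lit 5) (nat_lit 258) (nat_lit 5) (nat_lit 464) (nat_lit 413) (nat_lit 263)) (XT.nd (nat_lit 78) (nat_lit 0) (nat_lit 0) (XT.lf (nat_lit 0) (nat_lit 2396205672) (nat_lit 684) (nat_lit 10193891832) (nat_lit 76) (nat_lit 1518915959) (nat_lit 249) (nat_lit 5) (nat_lit 258) (nat_lit 5) (nat_lit 250) (nat_lit 5) (nat_lit 465) (nat_lit 413) (nat_lit 262)) (XT.lf (nat_lit 0) (nat_lit 4780883941) (nat_lit 684) (nat_lit 2491008076) (nat_lit 76) (nat_lit 6997889077) (nat_lit 249) (nat_lit 5) (nat_lit 258) (nat_lit 5) (nat_lit 250) (nat_lit 5) (nat_lit 466) (nat_lit 413) (nat_lit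 261))))) (XT.nd (nat_lit 234) (nat_lit 1216) (nat_lit 0) (XT.nd (nat_lit 78) (nat_lit 608) (nat_lit 0) (XT.lf (nat_lit 0) (nat_lit 5423707974) (nat_lit 608) (nat_lit 1813499351) (nat_lit 684) (nat_lit 7196081651) (nat_lit 241) (nat_lit 5) (nat_lit 249) (nat_lit 5) (nat_lit 250) (nat_lit 5) (nat_lit 467) (nat_lit 413) (nat_lit 260)) (XT.nd (nat_lit 78) (nat_lit 608) (nat_lit 0) (XT.lf (nat_lit 0) (nat_lit 9772715718) (nat_lit 684) (nat_lit 1107215545) (nat_lit 76) (nat_lit 3719538435) (nat_lit 241) (nat_lit 5) (nat_lit 250) (nat_lit 5) (nat_lit 242) (nat_lit 5) (nat_lit 468) (nat_lit 413) (nat_lit 259)) (XT.lf (nat_lit 0) (nat_lit 7020037814) (nat_lit 608) (nat_lit 5385561615) (nat_lit 684) (nat_lit 2362445079) (nat_lit 233) (nat_lit 5) (nat_lit 241) (nat_lit 5) (nat_lit 242) (nat_lit 5) (nat_lit 469) (nat_lit 413) (nat_lit 258)))) (XT.nd (nat_lit 78) (nat_lit 532) (nat_lit 0) (XT.lf (nat_lit 0) (nat_lit 149692326) (nat_lit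 684) (nat_lit 14565851601) (nat_lit 76) (nat_lit 224420397) (nat_lit 224) (nat_lit 5) (nat_lit 233) (nat_lit 5) (nat_lit 225) (nat_lit 5) (nat_lit 470) (nat_lit 413) (nat_lit 257)) (XT.nd (nat_lit 78) (nat_lit 532) (nat_lit 0) (XT.lf (nat_lit 0) (nat_lit 2757714246) (nat_lit 684) (nat_lit 6415632287) (nat_lit 76) (nat_lit 5940121749) (nat_lit 224) (nat_lit 5) (nat_lit 233) (nat_lit 5) (nat_lit 225) (nat_lit 5) (nat_lit 471) (nat_lit 413) (nat_lit 256)) (XT.lf (nat_lit 0) (nat_lit 1909502739) (nat_lit 532) (nat_lit 3510244405) (nat_lit 608) (nat_lit 9870661655) (nat_lit 217) (nat_lit 5) (nat_lit 224) (nat_lit 5) (nat_lit 225) (nat_lit 5) (nat_lit 472) (nat_lit 413) (nat_lit 255))))))))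
noncomputable def xc179 : XT := (XT.nd (nat_lit 1638) (nat_lit 1976) (nat_lit 0) (XT.nd (nat_lit 780) (nat_lit 2812) (nat_lit 0) (XT.nd (nat_lit 390) (nat_lit 1596) (nat_lit 0) (XT.nd (nat_lit 156) (nat_lit 608) (nat_lit 0) (XT.nd (nat_lit 78) (nat_lit 608) (nat_lit 0) (XT.lf (nat_lit 0) (nat_lit 8182629110) (nat_lit 608) (nat_lit 5010159953) (nat_lit 76) (nat_lit 2277150315) (nat_lit 217) (nat_lit 5) (nat_lit 225) (nat_lit 5) (nat_lit 218) (nat_lit 5) (nat_lit 473) (nat_lit 413) (nat_lit 254)) (XT.lf (nat_lit 0) (nat_lit 3538177218) (nat_lit 608) (nat_lit 7498572963) (nat_lit 684) (nat_lit 4615594114) (nat_lit 209) (nat_lit 5) (nat_lit 217) (nat_lit 5) (nat_lit 218) (nat_lit 5) (nat_lit 474) (nat_lit 413) (nat_lit 253))) (XT.nd (nat_lit 78) (nat_lit 608) (nat_lit 0) (XT.lf (nat_lit 0) (nat_lit 12312499535) (nat_lit 608) (nat_lit 1658954575) (nat_lit 684) (nat_lit 1866476479) (nat_lit 209) (nat_lit 5) (nat_lit 217) (nat_lit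 5) (nat_lit 218) (nat_lit 5) (nat_lit 475) (nat_lit 413) (nat_lit 252)) (XT.nd (nat_lit 78) (nat_lit 0) (nat_lit 0) (XT.lf (nat_lit 0) (nat_lit 977804193) (nat_lit 608) (nat_lit 10769240873) (nat_lit 76) (nat_lit 4279015394) (nat_lit 201) (nat_lit 5) (nat_lit 209) (nat_lit 5) (nat_lit 202) (nat_lit 5) (nat_lit 476) (nat_lit 413) (nat_lit 251)) (XT.lf (nat_lit 0) (nat_lit 3878906704) (nat_lit 608) (nat_lit 1991357286) (nat_lit 76) (nat_lit 10346946722) (nat_lit 201) (nat_lit 5) (nat_lit 209) (nat_lit 5) (nat_lit 202) (nat_lit 5) (nat_lit 477) (nat_lit 413) (nat_lit 250))))) (XT.nd (nat_lit 156) (nat_lit 1064) (nat_lit 0) (XT.nd (nat_lit 78) (nat_lit 0) (nat_lit 0) (XT.lf (nat_lit 0) (nat_lit 6875139025) (nat_lit 608) (nat_lit 9370741749) (nat_lit 76) (nat_lit 165564079) (nat_lit 194) (nat_lit 5) (nat_lit 202) (nat_lit 5) (nat_lit 195) (nat_lit 5) (nat_lit 478) (nat_lit 413) (nat_lit 249)) (XT.lf (nat_lit 0) (nat_lit 9974011512)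 (nat_lit 608) (nat_lit 380579898) (nat_lit 76) (nat_lit 6254120933) (nat_lit 194) (nat_lit 5) (nat_lit 202) (nat_lit 5) (nat_lit 195) (nat_lit 5) (nat_lit 479) (nat_lit 413) (nat_lit 248))) (XT.nd (nat_lit 78) (nat_lit 608) (nat_lit 0) (XT.lf (nat_lit 0) (nat_lit 8893558018) (nat_lit 456) (nat_lit 4289622826) (nat_lit 532) (nat_lit 3625780871) (nat_lit 188) (nat_lit 5) (nat_lit 194) (nat_lit 5) (nat_lit 195) (nat_lit 5) (nat_lit 480) (nat_lit 413) (nat_lit 247)) (XT.nd (nat_lit 78) (nat_lit 76) (nat_lit 0) (XT.lf (nat_lit 0) (nat_lit 1337832180) (nat_lit 532) (nat_lit 15132933525) (nat_lit 608) (nat_lit 542168590) (nat_lit 181) (nat_lit 5) (nat_lit 188) (nat_lit 5) (nat_lit 189) (nat_lit 5) (nat_lit 481) (nat_lit 413) (nat_lit 246)) (XT.lf (nat_lit 0) (nat_lit 2641551152) (nat_lit 608) (nat_lit 6394755708) (nat_lit 76) (nat_lit 8182892684) (nat_lit 180) (nat_lit 5) (nat_lit 188) (nat_lit 5) (nat_lit 181) (nat_lit 5)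 (nat_lit 482) (nat_lit 413) (nat_lit 245)))))) (XT.nd (nat_lit 390) (nat_lit 1368) (nat_lit 0) (XT.nd (nat_lit 156) (nat_lit 988) (nat_lit 0) (XT.nd (nat_lit 78) (nat_lit 0) (nat_lit 0) (XT.lf (nat_lit 0) (nat_lit 3095858028) (nat_lit 456) (nat_lit 2796816305) (nat_lit 532) (nat_lit 11536627015) (nat_lit 174) (nat_lit 5) (nat_lit 180) (nat_lit 5) (nat_lit 181) (nat_lit 5) (nat_lit 483) (nat_lit 413) (nat_lit 244)) (XT.lf (nat_lit 0) (nat_lit 9266138232) (nat_lit 532) (nat_lit 4815659311) (nat_lit 76) (nat_lit 3560663923) (nat_lit 174) (nat_lit 5) (nat_lit 181) (nat_lit 5) (nat_lit 175) (nat_lit 5) (nat_lit 484) (nat_lit 413) (nat_lit 243))) (XT.nd (nat_lit 78) (nat_lit 532) (nat_lit 0) (XT.lf (nat_lit 0) (nat_lit 4926380076) (nat_lit 456) (nat_lit 7822335432) (nat_lit 532) (nat_lit 5110338990) (nat_lit 168) (nat_lit 5) (nat_lit 174) (nat_lit 5) (nat_lit 175) (nat_lit 5) (nat_lit 485) (nat_lit 413) (nat_lit 242)) (XT.nd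 (nat_lit 78) (nat_lit 532) (nat_lit 0) (XT.lf (nat_lit 0) (nat_lit 14916429271) (nat_lit 456) (nat_lit 1408062652) (nat_lit 532) (nat_lit 1755019058) (nat_lit 168) (nat_lit 5) (nat_lit 174) (nat_lit 5) (nat_lit 175) (nat_lit 5) (nat_lit 486) (nat_lit 413) (nat_lit 241)) (XT.lf (nat_lit 0) (nat_lit 1715164672) (nat_lit 532) (nat_lit 11467946710) (nat_lit 76) (nat_lit 5119658622) (nat_lit 161) (nat_lit 5) (nat_lit 168) (nat_lit 5) (nat_lit 162) (nat_lit 5) (nat_lit 487) (nat_lit 413) (nat_lit 240))))) (XT.nd (nat_lit 234) (nat_lit 532) (nat_lit 0) (XT.nd (nat_lit 78) (nat_lit 836) (nat_lit 0) (XT.lf (nat_lit 0) (nat_lit 5253380949) (nat_lit 532) (nat_lit 1487656629) (nat_lit 76) (nat_lit 11788784439) (nat_lit 161) (nat_lit 5) (nat_lit 168) (nat_lit 5) (nat_lit 162) (nat_lit 5) (nat_lit 488) (nat_lit 413) (nat_lit 239)) (XT.nd (nat_lit 78) (nat_lit 380) (nat_lit 0) (XT.lf (nat_lit 0) (nat_lit 8795772274) (nat_lit 456) (nat_lit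 115280773) (nat_lit 532) (nat_lit 9849390542) (nat_lit 155) (nat_lit 5) (nat_lit 161) (nat_lit 5) (nat_lit 162) (nat_lit 5) (nat_lit 489) (nat_lit 413) (nat_lit 238)) (XT.lf (nat_lit 0) (nat_lit 257848337) (nat_lit 380) (nat_lit 12430534214) (nat_lit 456) (nat_lit 6306367265) (nat_lit 150) (nat_lit 5) (nat_lit 155) (nat_lit 5) (nat_lit 156) (nat_lit 5) (nat_lit 490) (nat_lit 413) (nat_lit 237)))) (XT.nd (nat_lit 78) (nat_lit 532) (nat_lit 0) (XT.lf (nat_lit 0) (nat_lit 10807302809) (nat_lit 380) (nat_lit 5793319524) (nat_lit 456) (nat_lit 2631934818) (nat_lit 150) (nat_lit 5) (nat_lit 155) (nat_lit 5) (nat_lit 156) (nat_lit 5) (nat_lit 491) (nat_lit 413) (nat_lit 236)) (XT.nd (nat_lit 78) (nat_lit 0) (nat_lit 0) (XT.lf (nat_lit 0) (nat_lit 1113292197) (nat_lit 532) (nat_lit 17380080931) (nat_lit 76) (nat_lit 981365913) (nat_lit 143) (nat_lit 5) (nat_lit 150) (nat_lit 5) (nat_lit 144) (nat_lit 5) (nat_lit 492) (nat_lit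 413) (nat_lit 235)) (XT.lf (nat_lit 0) (nat_lit 4985398504) (nat_lit 532) (nat_lit 6849387492) (nat_lit 76) (nat_lit 7884888431) (nat_lit 143) (nat_lit 5) (nat_lit 150) (nat_lit 5) (nat_lit 144) (nat_lit 5) (nat_lit 493) (nat_lit 413) (nat_lit 234))))))) (XT.nd (nat_lit 53274) (nat_lit 0) (nat_lit 26752) (XT.nd (nat_lit 390) (nat_lit 760) (nat_lit 0) (XT.nd (nat_lit 156) (nat_lit 836) (nat_lit 0) (XT.nd (nat_lit 78) (nat_lit 0) (nat_lit 0) (XT.lf (nat_lit 0) (nat_lit 3931960513) (nat_lit 380) (nat_lit 5020578795) (nat_lit 456) (nat_lit 11016619451) (nat_lit 138) (nat_lit 5) (nat_lit 143) (nat_lit 5) (nat_lit 144) (nat_lit 5) (nat_lit 494) (nat_lit 413) (nat_lit 233)) (XT.lf (nat_lit 0) (nat_lit 13049941979) (nat_lit 456) (nat_lit 5225355081) (nat_lit 76) (nat_lit 1947319383) (nat_lit 138) (nat_lit 5) (nat_lit 144) (nat_lit 5) (nat_lit 139) (nat_lit 5) (nat_lit 495) (nat_lit 413) (nat_lit 232))) (XT.nd (nat_lit 78) (nat_lit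 456) (nat_lit 0) (XT.lf (nat_lit 0) (nat_lit 5834637988) (nat_lit 380) (nat_lit 11458061792) (nat_lit 456) (nat_lit 3187177360) (nat_lit 133) (nat_lit 5) (nat_lit 138) (nat_lit 5) (nat_lit 139) (nat_lit 5) (nat_lit 496) (nat_lit 413) (nat_lit 231)) (XT.nd (nat_lit 78) (nat_lit 380) (nat_lit 0) (XT.lf (nat_lit 0) (nat_lit 894112745) (nat_lit 456) (nat_lit 3572242659) (nat_lit 76) (nat_lit 16275263590) (nat_lit 132) (nat_lit 5) (nat_lit 138) (nat_lit 5) (nat_lit 133) (nat_lit 5) (nat_lit 497) (nat_lit 413) (nat_lit 230)) (XT.lf (nat_lit 0) (nat_lit 5075191861) (nat_lit 456) (nat_lit 13232934725) (nat_lit 76) (nat_lit 2698832851) (nat_lit 127) (nat_lit 5) (nat_lit 133) (nat_lit 5) (nat_lit 128) (nat_lit 5) (nat_lit 498) (nat_lit 413) (nat_lit 229))))) (XT.nd (nat_lit 234) (nat_lit 380) (nat_lit 0) (XT.nd (nat_lit 78) (nat_lit 380) (nat_lit 0) (XT.lf (nat_lit 0) (nat_lit 9386106335) (nat_lit 456) (nat_lit 1922445292) (nat_lit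 76) (nat_lit 9968132639) (nat_lit 127) (nat_lit 5) (nat_lit 133) (nat_lit 5) (nat_lit 128) (nat_lit 5) (nat_lit 499) (nat_lit 413) (nat_lit 228)) (XT.nd (nat_lit 78) (nat_lit 0) (nat_lit 0) (XT.lf (nat_lit 0) (nat_lit 9730875235) (nat_lit 380) (nat_lit 4108195007) (nat_lit 456) (nat_lit 7711618541) (nat_lit 122) (nat_lit 5) (nat_lit 127) (nat_lit 5) (nat_lit 128) (nat_lit 5) (nat_lit 500) (nat_lit 413) (nat_lit 227)) (XT.lf (nat_lit 0) (nat_lit 18407792088) (nat_lit 456) (nat_lit 218742801) (nat_lit 76) (nat_lit 3203106309) (nat_lit 122) (nat_lit 5) (nat_lit 128) (nat_lit 5) (nat_lit 123) (nat_lit 5) (nat_lit 501) (nat_lit 413) (nat_lit 226)))) (XT.nd (nat_lit 52494) (nat_lit 0) (nat_lit 28120) (XT.lf (nat_lit 0) (nat_lit 1038053864) (nat_lit 380) (nat_lit 10388929037) (nat_lit 76) (nat_lit 10685130701) (nat_lit 117) (nat_lit 5) (nat_lit 122) (nat_lit 5) (nat_lit 118) (nat_lit 5) (nat_lit 502) (nat_lit 413) (nat_lit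 225)) (XT.nd (nat_lit 78) (nat_lit 0) (nat_lit 0) (XT.lf (nat_lit 0) (nat_lit 882366711) (nat_lit 0) (nat_lit 882366711) (nat_lit 1444) (nat_lit 2570885984) (nat_lit 487) (nat_lit 5) (nat_lit 487) (nat_lit 3) (nat_lit 506) (nat_lit 3) (nat_lit 414) (nat_lit 414) (nat_lit 312)) (XT.lf (nat_lit 0) (nat_lit 4540059892) (nat_lit 1444) (nat_lit 2786593331) (nat_lit 1520) (nat_lit 1411328795) (nat_lit 487) (nat_lit 5) (nat_lit 506) (nat_lit 3) (nat_lit 507) (nat_lit 5) (nat_lit 415) (nat_lit 414) (nat_lit 311)))))) (XT.nd (nat_lit 390) (nat_lit 0) (nat_lit 0) (XT.nd (nat_lit 156) (nat_lit 1368) (nat_lit 0) (XT.nd (nat_lit 78) (nat_lit 0) (nat_lit 0) (XT.lf (nat_lit 76) (nat_lit 1409241827) (nat_lit 0) (nat_lit 4157203063) (nat_lit 1520) (nat_lit 3239715747) (nat_lit 488) (nat_lit 5) (nat_lit 487) (nat_lit 5) (nat_lit 507) (nat_lit 5) (nat_lit 416) (nat_lit 414) (nat_lit 310)) (XT.lf (nat_lit 76) (nat_lit 5713583378) (nat_lit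 0) (nat_lit 893626734) (nat_lit 1520) (nat_lit 2268627578) (nat_lit 488) (nat_lit 5) (nat_lit 487) (nat_lit 5) (nat_lit 507) (nat_lit 5) (nat_lit 417) (nat_lit 414) (nat_lit 309))) (XT.nd (nat_lit 78) (nat_lit 1444) (nat_lit 0) (XT.lf (nat_lit 76) (nat_lit 1142782259) (nat_lit 0) (nat_lit 6524953604) (nat_lit 1520) (nat_lit 1279205195) (nat_lit 489) (nat_lit 5) (nat_lit 488) (nat_lit 5) (nat_lit 508) (nat_lit 5) (nat_lit 418) (nat_lit 414) (nat_lit 308)) (XT.nd (nat_lit 78) (nat_lit 1444) (nat_lit 0) (XT.lf (nat_lit 76) (nat_lit 5557378910) (nat_lit 0) (nat_lit 3195296313) (nat_lit 1520) (nat_lit 266738658) (nat_lit 489) (nat_lit 5) (nat_lit 488) (nat_lit 5) (nat_lit 508) (nat_lit 5) (nat_lit 419) (nat_lit 414) (nat_lit 307)) (XT.lf (nat_lit 0) (nat_lit 740021951) (nat_lit 1520) (nat_lit 8133947269) (nat_lit 1596) (nat_lit 219596666) (nat_lit 469) (nat_lit 5) (nat_lit 489) (nat_lit 5) (nat_lit 490) (nat_lit 5) (nat_lit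 420) (nat_lit 414) (nat_lit 306))))) (XT.nd (nat_lit 234) (nat_lit 0) (nat_lit 76) (XT.nd (nat_lit 78) (nat_lit 0) (nat_lit 0) (XT.lf (nat_lit 0) (nat_lit 1784741831) (nat_lit 1520) (nat_lit 3689104622) (nat_lit 1596) (nat_lit 3694902093) (nat_lit 469) (nat_lit 5) (nat_lit 489) (nat_lit 5) (nat_lit 490) (nat_lit 5) (nat_lit 421) (nat_lit 414) (nat_lit 305)) (XT.nd (nat_lit 78) (nat_lit 0) (nat_lit 76) (XT.lf (nat_lit 76) (nat_lit 842030051) (nat_lit 0) (nat_lit 1991092598) (nat_lit 1596) (nat_lit 6412667456) (nat_lit 470) (nat_lit 5) (nat_lit 469) (nat_lit 5) (nat_lit 490) (nat_lit 5) (nat_lit 422) (nat_lit 414) (nat_lit 304)) (XT.lf (nat_lit 0) (nat_lit 3915241604) (nat_lit 1520) (nat_lit 3834456911) (nat_lit 1596) (nat_lit 1574428939) (nat_lit 470) (nat_lit 5) (nat_lit 490) (nat_lit 5) (nat_lit 491) (nat_lit 5) (nat_lit 423) (nat_lit 414) (nat_lit 303)))) (XT.nd (nat_lit 78) (nat_lit 0) (nat_lit 0) (XT.lf (nat_lit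 76) (nat_lit 809871103) (nat_lit 0) (nat_lit 4205726725) (nat_lit 1596) (nat_lit 4388511992) (nat_lit 471) (nat_lit 5) (nat_lit 470) (nat_lit 5) (nat_lit 491) (nat_lit 5) (nat_lit 424) (nat_lit 414) (nat_lit 302)) (XT.nd (nat_lit 78) (nat_lit 0) (nat_lit 76) (XT.lf (nat_lit 76) (nat_lit 5585356766) (nat_lit 0) (nat_lit 556825692) (nat_lit 1596) (nat_lit 3343434916) (nat_lit 471) (nat_lit 5) (nat_lit 470) (nat_lit 5) (nat_lit 491) (nat_lit 5) (nat_lit 425) (nat_lit 414) (nat_lit 301)) (XT.lf (nat_lit 76) (nat_lit 864466620) (nat_lit 0) (nat_lit 6431955973) (nat_lit 1596) (nat_lit 2272239782) (nat_lit 472) (nat_lit 5) (nat_lit 471) (nat_lit 5) (nat_lit 492) (nat_lit 5) (nat_lit 426) (nat_lit 414) (nat_lit 300))))))))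
noncomputable def xc180 : XT := (XT.nd (nat_lit 1638) (nat_lit 8284) (nat_lit 0) (XT.nd (nat_lit 780) (nat_lit 7676) (nat_lit 0) (XT.nd (nat_lit 390) (nat_lit 0) (nat_lit 76) (XT.nd (nat_lit 156) (nat_lit 1520) (nat_lit 0) (XT.nd (nat_lit 78) (nat_lit 0) (nat_lit 76) (XT.lf (nat_lit 76) (nat_lit 5759793979) (nat_lit 0) (nat_lit 2723073924) (nat_lit 1596) (nat_lit 1170327548) (nat_lit 472) (nat_lit 5) (nat_lit 471) (nat_lit 5) (nat_lit 492) (nat_lit 5) (nat_lit 427) (nat_lit 414) (nat_lit 299)) (XT.lf (nat_lit 76) (nat_lit 1005903978) (nat_lit 0) (nat_lit 8680285551) (nat_lit 1596) (nat_lit 53376102) (nat_lit 473) (nat_lit 5) (nat_lit 472) (nat_lit 5) (nat_lit 493) (nat_lit 5) (nat_lit 428) (nat_lit 414) (nat_lit 298))) (XT.nd (nat_lit 78) (nat_lit 0) (nat_lit 0) (XT.lf (nat_lit 0) (nat_lit 1095905797) (nat_lit 1596) (nat_lit 3810625306) (nat_lit 1672) (nat_lit 4920515462) (nat_lit 451) (nat_lit 5) (nat_lit 472) (nat_lit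 5) (nat_lit 473) (nat_lit 5) (nat_lit 429) (nat_lit 414) (nat_lit 297)) (XT.nd (nat_lit 78) (nat_lit 0) (nat_lit 76) (XT.lf (nat_lit 76) (nat_lit 1212499708) (nat_lit 0) (nat_lit 1043126048) (nat_lit 1672) (nat_lit 7660889814) (nat_lit 452) (nat_lit 5) (nat_lit 451) (nat_lit 5) (nat_lit 473) (nat_lit 5) (nat_lit 430) (nat_lit 414) (nat_lit 296)) (XT.lf (nat_lit 0) (nat_lit 3463720500) (nat_lit 1596) (nat_lit 3652765658) (nat_lit 1672) (nat_lit 2890792868) (nat_lit 452) (nat_lit 5) (nat_lit 473) (nat_lit 5) (nat_lit 474) (nat_lit 5) (nat_lit 431) (nat_lit 414) (nat_lit 295))))) (XT.nd (nat_lit 156) (nat_lit 0) (nat_lit 76) (XT.nd (nat_lit 78) (nat_lit 0) (nat_lit 76) (XT.lf (nat_lit 76) (nat_lit 1498268913) (nat_lit 0) (nat_lit 3195350903) (nat_lit 1672) (nat_lit 5406293588) (nat_lit 453) (nat_lit 5) (nat_lit 452) (nat_lit 5) (nat_lit 474) (nat_lit 5) (nat_lit 432) (nat_lit 414) (nat_lit 294)) (XT.lf (nat_lit 0) (nat_lit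 5959333203) (nat_lit 1596) (nat_lit 3411760081) (nat_lit 1672) (nat_lit 823091203) (nat_lit 453) (nat_lit 5) (nat_lit 474) (nat_lit 5) (nat_lit 475) (nat_lit 5) (nat_lit 433) (nat_lit 414) (nat_lit 293))) (XT.nd (nat_lit 78) (nat_lit 0) (nat_lit 0) (XT.lf (nat_lit 76) (nat_lit 1871278941) (nat_lit 0) (nat_lit 5394079362) (nat_lit 1672) (nat_lit 3024690917) (nat_lit 454) (nat_lit 5) (nat_lit 453) (nat_lit 5) (nat_lit 475) (nat_lit 5) (nat_lit 434) (nat_lit 414) (nat_lit 292)) (XT.nd (nat_lit 78) (nat_lit 0) (nat_lit 76) (XT.lf (nat_lit 76) (nat_lit 7292294341) (nat_lit 0) (nat_lit 1310059498) (nat_lit 1672) (nat_lit 1785388426) (nat_lit 454) (nat_lit 5) (nat_lit 453) (nat_lit 5) (nat_lit 475) (nat_lit 5) (nat_lit 435) (nat_lit 414) (nat_lit 291)) (XT.lf (nat_lit 76) (nat_lit 2332342861) (nat_lit 0) (nat_lit 7649765485) (nat_lit 1672) (nat_lit 504968304) (nat_lit 455) (nat_lit 5) (nat_lit 454) (nat_lit 5) (nat_lit 476)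 (nat_lit 5) (nat_lit 436) (nat_lit 414) (nat_lit 290)))))) (XT.nd (nat_lit 390) (nat_lit 4636) (nat_lit 0) (XT.nd (nat_lit 156) (nat_lit 1596) (nat_lit 0) (XT.nd (nat_lit 78) (nat_lit 0) (nat_lit 76) (XT.lf (nat_lit 0) (nat_lit 802607814) (nat_lit 1672) (nat_lit 2705542205) (nat_lit 1748) (nat_lit 7079910166) (nat_lit 432) (nat_lit 5) (nat_lit 454) (nat_lit 5) (nat_lit 455) (nat_lit 5) (nat_lit 437) (nat_lit 414) (nat_lit 289)) (XT.lf (nat_lit 0) (nat_lit 2135863489) (nat_lit 1672) (nat_lit 7822738747) (nat_lit 76) (nat_lit 732276010) (nat_lit 433) (nat_lit 5) (nat_lit 455) (nat_lit 5) (nat_lit 434) (nat_lit 5) (nat_lit 438) (nat_lit 414) (nat_lit 288))) (XT.nd (nat_lit 78) (nat_lit 1672) (nat_lit 0) (XT.lf (nat_lit 0) (nat_lit 3520372269) (nat_lit 1672) (nat_lit 2242964362) (nat_lit 76) (nat_lit 5031931539) (nat_lit 433) (nat_lit 5) (nat_lit 455) (nat_lit 5) (nat_lit 434) (nat_lit 5) (nat_lit 439) (nat_lit 414) (nat_lit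 287)) (XT.nd (nat_lit 78) (nat_lit 0) (nat_lit 0) (XT.lf (nat_lit 0) (nat_lit 3480135402) (nat_lit 1672) (nat_lit 1458442309) (nat_lit 1748) (nat_lit 5963055170) (nat_lit 411) (nat_lit 5) (nat_lit 433) (nat_lit 5) (nat_lit 434) (nat_lit 5) (nat_lit 440) (nat_lit 414) (nat_lit 286)) (XT.lf (nat_lit 0) (nat_lit 6403001587) (nat_lit 1748) (nat_lit 1695034123) (nat_lit 76) (nat_lit 2911739069) (nat_lit 411) (nat_lit 5) (nat_lit 434) (nat_lit 5) (nat_lit 412) (nat_lit 5) (nat_lit 441) (nat_lit 414) (nat_lit 285))))) (XT.nd (nat_lit 234) (nat_lit 1824) (nat_lit 0) (XT.nd (nat_lit 78) (nat_lit 1064) (nat_lit 0) (XT.lf (nat_lit 0) (nat_lit 4177190761) (nat_lit 1748) (nat_lit 3740286276) (nat_lit 1824) (nat_lit 3202194058) (nat_lit 388) (nat_lit 5) (nat_lit 411) (nat_lit 5) (nat_lit 412) (nat_lit 5) (nat_lit 442) (nat_lit 414) (nat_lit 284)) (XT.nd (nat_lit 78) (nat_lit 1064) (nat_lit 0) (XT.lf (nat_lit 0) (nat_lit 9462487545)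 (nat_lit 1824) (nat_lit 1060489095) (nat_lit 76) (nat_lit 708790494) (nat_lit 388) (nat_lit 5) (nat_lit 412) (nat_lit 5) (nat_lit 389) (nat_lit 5) (nat_lit 443) (nat_lit 414) (nat_lit 283)) (XT.lf (nat_lit 0) (nat_lit 4965636438) (nat_lit 1064) (nat_lit 6114302334) (nat_lit 1140) (nat_lit 265342088) (nat_lit 374) (nat_lit 5) (nat_lit 388) (nat_lit 5) (nat_lit 389) (nat_lit 5) (nat_lit 444) (nat_lit 414) (nat_lit 282)))) (XT.nd (nat_lit 78) (nat_lit 1748) (nat_lit 0) (XT.lf (nat_lit 0) (nat_lit 1243835572) (nat_lit 1140) (nat_lit 356526983) (nat_lit 76) (nat_lit 9860707879) (nat_lit 373) (nat_lit 5) (nat_lit 388) (nat_lit 5) (nat_lit 374) (nat_lit 5) (nat_lit 445) (nat_lit 414) (nat_lit 281)) (XT.nd (nat_lit 78) (nat_lit 836) (nat_lit 0) (XT.lf (nat_lit 0) (nat_lit 2822331066) (nat_lit 988) (nat_lit 5750172465) (nat_lit 76) (nat_lit 3005789643) (nat_lit 361) (nat_lit 5) (nat_lit 374) (nat_lit 5) (nat_lit 362) (nat_lit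 5) (nat_lit 446) (nat_lit 414) (nat_lit 280)) (XT.lf (nat_lit 0) (nat_lit 424508002) (nat_lit 836) (nat_lit 4008804360) (nat_lit 912) (nat_lit 7264535764) (nat_lit 350) (nat_lit 5) (nat_lit 361) (nat_lit 5) (nat_lit 362) (nat_lit 5) (nat_lit 447) (nat_lit 414) (nat_lit 279))))))) (XT.nd (nat_lit 780) (nat_lit 4180) (nat_lit 0) (XT.nd (nat_lit 390) (nat_lit 2356) (nat_lit 0) (XT.nd (nat_lit 156) (nat_lit 912) (nat_lit 0) (XT.nd (nat_lit 78) (nat_lit 836) (nat_lit 0) (XT.lf (nat_lit 0) (nat_lit 6104910370) (nat_lit 912) (nat_lit 5036985549) (nat_lit 76) (nat_lit 677336273) (nat_lit 350) (nat_lit 5) (nat_lit 362) (nat_lit 5) (nat_lit 351) (nat_lit 5) (nat_lit 448) (nat_lit 414) (nat_lit 278)) (XT.lf (nat_lit 0) (nat_lit 1300745106) (nat_lit 836) (nat_lit 6529835477) (nat_lit 912) (nat_lit 4112056391) (nat_lit 339) (nat_lit 5) (nat_lit 350) (nat_lit 5) (nat_lit 351) (nat_lit 5) (nat_lit 449) (nat_lit 414) (nat_lit 277)))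 (XT.nd (nat_lit 78) (nat_lit 912) (nat_lit 0) (XT.lf (nat_lit 0) (nat_lit 7819737094) (nat_lit 836) (nat_lit 1790666534) (nat_lit 912) (nat_lit 2457719161) (nat_lit 339) (nat_lit 5) (nat_lit 350) (nat_lit 5) (nat_lit 351) (nat_lit 5) (nat_lit 450) (nat_lit 414) (nat_lit 276)) (XT.nd (nat_lit 78) (nat_lit 76) (nat_lit 0) (XT.lf (nat_lit 0) (nat_lit 2269205914) (nat_lit 836) (nat_lit 9177228200) (nat_lit 912) (nat_lit 749277598) (nat_lit 328) (nat_lit 5) (nat_lit 339) (nat_lit 5) (nat_lit 340) (nat_lit 5) (nat_lit 451) (nat_lit 414) (nat_lit 275)) (XT.lf (nat_lit 0) (nat_lit 1007067355) (nat_lit 912) (nat_lit 3382926498) (nat_lit 76) (nat_lit 7935199722) (nat_lit 327) (nat_lit 5) (nat_lit 339) (nat_lit 5) (nat_lit 328) (nat_lit 5) (nat_lit 452) (nat_lit 414) (nat_lit 274))))) (XT.nd (nat_lit 156) (nat_lit 1520) (nat_lit 0) (XT.nd (nat_lit 78) (nat_lit 0) (nat_lit 0) (XT.lf (nat_lit 0) (nat_lit 2799900342) (nat_lit 912)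 (nat_lit 9143941014) (nat_lit 76) (nat_lit 513102076) (nat_lit 316) (nat_lit 5) (nat_lit 328) (nat_lit 5) (nat_lit 317) (nat_lit 5) (nat_lit 453) (nat_lit 414) (nat_lit 273)) (XT.lf (nat_lit 0) (nat_lit 4667166922) (nat_lit 912) (nat_lit 2445184903) (nat_lit 76) (nat_lit 5478210106) (nat_lit 316) (nat_lit 5) (nat_lit 328) (nat_lit 5) (nat_lit 317) (nat_lit 5) (nat_lit 454) (nat_lit 414) (nat_lit 272))) (XT.nd (nat_lit 78) (nat_lit 760) (nat_lit 0) (XT.lf (nat_lit 0) (nat_lit 4432151390) (nat_lit 760) (nat_lit 2155318195) (nat_lit 836) (nat_lit 6139074485) (nat_lit 306) (nat_lit 5) (nat_lit 316) (nat_lit 5) (nat_lit 317) (nat_lit 5) (nat_lit 455) (nat_lit 414) (nat_lit 271)) (XT.nd (nat_lit 78) (nat_lit 760) (nat_lit 0) (XT.lf (nat_lit 0) (nat_lit 8568610005) (nat_lit 836) (nat_lit 1417375473) (nat_lit 76) (nat_lit 2878816723) (nat_lit 306) (nat_lit 5) (nat_lit 317) (nat_lit 5) (nat_lit 307) (nat_lit 5) (nat_lit 456)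 (nat_lit 414) (nat_lit 270)) (XT.lf (nat_lit 0) (nat_lit 5643498077) (nat_lit 760) (nat_lit 4984123725) (nat_lit 836) (nat_lit 2377443608) (nat_lit 296) (nat_lit 5) (nat_lit 306) (nat_lit 5) (nat_lit 307) (nat_lit 5) (nat_lit 457) (nat_lit 414) (nat_lit 269)))))) (XT.nd (nat_lit 390) (nat_lit 1976) (nat_lit 0) (XT.nd (nat_lit 156) (nat_lit 1444) (nat_lit 0) (XT.nd (nat_lit 78) (nat_lit 760) (nat_lit 0) (XT.lf (nat_lit 0) (nat_lit 12725642798) (nat_lit 836) (nat_lit 297556332) (nat_lit 76) (nat_lit 124982963) (nat_lit 296) (nat_lit 5) (nat_lit 307) (nat_lit 5) (nat_lit 297) (nat_lit 5) (nat_lit 458) (nat_lit 414) (nat_lit 268)) (XT.lf (nat_lit 0) (nat_lit 1617168294) (nat_lit 760) (nat_lit 6350896069) (nat_lit 76) (nat_lit 5324570989) (nat_lit 286) (nat_lit 5) (nat_lit 296) (nat_lit 5) (nat_lit 287) (nat_lit 5) (nat_lit 459) (nat_lit 414) (nat_lit 267))) (XT.nd (nat_lit 78) (nat_lit 684) (nat_lit 0) (XT.lf (nat_lit 0)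 (nat_lit 885316575) (nat_lit 760) (nat_lit 2802264076) (nat_lit 836) (nat_lit 9752434311) (nat_lit 276) (nat_lit 5) (nat_lit 286) (nat_lit 5) (nat_lit 287) (nat_lit 5) (nat_lit 460) (nat_lit 414) (nat_lit 266)) (XT.nd (nat_lit 78) (nat_lit 684) (nat_lit 0) (XT.lf (nat_lit 0) (nat_lit 5846267320) (nat_lit 836) (nat_lit 5266995360) (nat_lit 76) (nat_lit 2476146587) (nat_lit 276) (nat_lit 5) (nat_lit 287) (nat_lit 5) (nat_lit 277) (nat_lit 5) (nat_lit 461) (nat_lit 414) (nat_lit 265)) (XT.lf (nat_lit 0) (nat_lit 2162988915) (nat_lit 684) (nat_lit 5905926222) (nat_lit 760) (nat_lit 5672464914) (nat_lit 267) (nat_lit 5) (nat_lit 276) (nat_lit 5) (nat_lit 277) (nat_lit 5) (nat_lit 462) (nat_lit 414) (nat_lit 264))))) (XT.nd (nat_lit 234) (nat_lit 1216) (nat_lit 0) (XT.nd (nat_lit 78) (nat_lit 760) (nat_lit 0) (XT.lf (nat_lit 0) (nat_lit 9799773012) (nat_lit 684) (nat_lit 559919001) (nat_lit 760) (nat_lit 3536228968) (nat_lit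 267) (nat_lit 5) (nat_lit 276) (nat_lit 5) (nat_lit 277) (nat_lit 5) (nat_lit 463) (nat_lit 414) (nat_lit 263)) (XT.nd (nat_lit 78) (nat_lit 76) (nat_lit 0) (XT.lf (nat_lit 0) (nat_lit 3537202573) (nat_lit 684) (nat_lit 9202367235) (nat_lit 760) (nat_lit 1313121384) (nat_lit 258) (nat_lit 5) (nat_lit 267) (nat_lit 5) (nat_lit 268) (nat_lit 5) (nat_lit 464) (nat_lit 414) (nat_lit 262)) (XT.lf (nat_lit 0) (nat_lit 961919545) (nat_lit 760) (nat_lit 2856618246) (nat_lit 76) (nat_lit 10393539309) (nat_lit 257) (nat_lit 5) (nat_lit 267) (nat_lit 5) (nat_lit 258) (nat_lit 5) (nat_lit 465) (nat_lit 414) (nat_lit 261)))) (XT.nd (nat_lit 78) (nat_lit 608) (nat_lit 0) (XT.lf (nat_lit 0) (nat_lit 3297311708) (nat_lit 684) (nat_lit 9385846487) (nat_lit 76) (nat_lit 1690674202) (nat_lit 249) (nat_lit 5) (nat_lit 258) (nat_lit 5) (nat_lit 250) (nat_lit 5) (nat_lit 466) (nat_lit 414) (nat_lit 260)) (XT.nd (nat_lit 78) (nat_lit 608)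 (nat_lit 0) (XT.lf (nat_lit 0) (nat_lit 5712954485) (nat_lit 684) (nat_lit 1548746688) (nat_lit 76) (nat_lit 7276454627) (nat_lit 249) (nat_lit 5) (nat_lit 258) (nat_lit 5) (nat_lit 250) (nat_lit 5) (nat_lit 467) (nat_lit 414) (nat_lit 259)) (XT.lf (nat_lit 0) (nat_lit 6517736831) (nat_lit 608) (nat_lit 1690665343) (nat_lit 684) (nat_lit 6496737431) (nat_lit 241) (nat_lit 5) (nat_lit 249) (nat_lit 5) (nat_lit 250) (nat_lit 5) (nat_lit 468) (nat_lit 414) (nat_lit 258))))))))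
noncomputable def xc181 : XT := (XT.nd (nat_lit 1638) (nat_lit 3268) (nat_lit 0) (XT.nd (nat_lit 780) (nat_lit 3040) (nat_lit 0) (XT.nd (nat_lit 390) (nat_lit 1216) (nat_lit 0) (XT.nd (nat_lit 156) (nat_lit 1216) (nat_lit 0) (XT.nd (nat_lit 78) (nat_lit 608) (nat_lit 0) (XT.lf (nat_lit 0) (nat_lit 10779428573) (nat_lit 684) (nat_lit 147657072) (nat_lit 76) (nat_lit 3947867749) (nat_lit 241) (nat_lit 5) (nat_lit 250) (nat_lit 5) (nat_lit 242) (nat_lit 5) (nat_lit 469) (nat_lit 414) (nat_lit 257)) (XT.lf (nat_lit 0) (nat_lit 8135682783) (nat_lit 608) (nat_lit 5319712078) (nat_lit 684) (nat_lit 1591701843) (nat_lit 233) (nat_lit 5) (nat_lit 241) (nat_lit 5) (nat_lit 242) (nat_lit 5) (nat_lit 470) (nat_lit 414) (nat_lit 256))) (XT.nd (nat_lit 78) (nat_lit 532) (nat_lit 0) (XT.lf (nat_lit 0) (nat_lit 951664084) (nat_lit 684) (nat_lit 13862376217) (nat_lit 76) (nat_lit 408479405) (nat_lit 224) (nat_lit 5) (nat_lit 233) (nat_lit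 5) (nat_lit 225) (nat_lit 5) (nat_lit 471) (nat_lit 414) (nat_lit 255)) (XT.nd (nat_lit 78) (nat_lit 532) (nat_lit 0) (XT.lf (nat_lit 0) (nat_lit 3596180210) (nat_lit 684) (nat_lit 5568658251) (nat_lit 76) (nat_lit 6234973792) (nat_lit 224) (nat_lit 5) (nat_lit 233) (nat_lit 5) (nat_lit 225) (nat_lit 5) (nat_lit 472) (nat_lit 414) (nat_lit 254)) (XT.lf (nat_lit 0) (nat_lit 2916563117) (nat_lit 532) (nat_lit 3385822145) (nat_lit 608) (nat_lit 9278092768) (nat_lit 217) (nat_lit 5) (nat_lit 224) (nat_lit 5) (nat_lit 225) (nat_lit 5) (nat_lit 473) (nat_lit 414) (nat_lit 253))))) (XT.nd (nat_lit 156) (nat_lit 608) (nat_lit 0) (XT.nd (nat_lit 78) (nat_lit 608) (nat_lit 0) (XT.lf (nat_lit 0) (nat_lit 9106582500) (nat_lit 608) (nat_lit 4146298820) (nat_lit 76) (nat_lit 2511001731) (nat_lit 217) (nat_lit 5) (nat_lit 225) (nat_lit 5) (nat_lit 218) (nat_lit 5) (nat_lit 474) (nat_lit 414) (nat_lit 252)) (XT.lf (nat_lit 0) (nat_lit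 4566662565) (nat_lit 608) (nat_lit 7442433732) (nat_lit 684) (nat_lit 3941018446) (nat_lit 209) (nat_lit 5) (nat_lit 217) (nat_lit 5) (nat_lit 218) (nat_lit 5) (nat_lit 475) (nat_lit 414) (nat_lit 251))) (XT.nd (nat_lit 78) (nat_lit 608) (nat_lit 0) (XT.lf (nat_lit 0) (nat_lit 13497692470) (nat_lit 608) (nat_lit 1490064363) (nat_lit 684) (nat_lit 1151955469) (nat_lit 209) (nat_lit 5) (nat_lit 217) (nat_lit 5) (nat_lit 218) (nat_lit 5) (nat_lit 476) (nat_lit 414) (nat_lit 250)) (XT.nd (nat_lit 78) (nat_lit 0) (nat_lit 0) (XT.lf (nat_lit 0) (nat_lit 1732281063) (nat_lit 608) (nat_lit 10028288134) (nat_lit 76) (nat_lit 4571083928) (nat_lit 201) (nat_lit 5) (nat_lit 209) (nat_lit 5) (nat_lit 202) (nat_lit 5) (nat_lit 477) (nat_lit 414) (nat_lit 249)) (XT.lf (nat_lit 0) (nat_lit 4676995414) (nat_lit 608) (nat_lit 1093598591) (nat_lit 76) (nat_lit 10756325093) (nat_lit 201) (nat_lit 5) (nat_lit 209) (nat_lit 5) (nat_lit 202)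 (nat_lit 5) (nat_lit 478) (nat_lit 414) (nat_lit 248)))))) (XT.nd (nat_lit 390) (nat_lit 1444) (nat_lit 0) (XT.nd (nat_lit 156) (nat_lit 608) (nat_lit 0) (XT.nd (nat_lit 78) (nat_lit 456) (nat_lit 0) (XT.lf (nat_lit 0) (nat_lit 7726493912) (nat_lit 608) (nat_lit 8613691083) (nat_lit 76) (nat_lit 384990519) (nat_lit 194) (nat_lit 5) (nat_lit 202) (nat_lit 5) (nat_lit 195) (nat_lit 5) (nat_lit 479) (nat_lit 414) (nat_lit 247)) (XT.lf (nat_lit 0) (nat_lit 544901555) (nat_lit 456) (nat_lit 10331983057) (nat_lit 532) (nat_lit 6049717265) (nat_lit 188) (nat_lit 5) (nat_lit 194) (nat_lit 5) (nat_lit 195) (nat_lit 5) (nat_lit 480) (nat_lit 414) (nat_lit 246))) (XT.nd (nat_lit 78) (nat_lit 608) (nat_lit 0) (XT.lf (nat_lit 0) (nat_lit 9991283995) (nat_lit 456) (nat_lit 4147665134) (nat_lit 532) (nat_lit 2992137124) (nat_lit 188) (nat_lit 5) (nat_lit 194) (nat_lit 5) (nat_lit 195) (nat_lit 5) (nat_lit 481) (nat_lit 414) (nat_lit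 245)) (XT.nd (nat_lit 78) (nat_lit 0) (nat_lit 0) (XT.lf (nat_lit 0) (nat_lit 144987451) (nat_lit 608) (nat_lit 15049333237) (nat_lit 76) (nat_lit 2144924825) (nat_lit 180) (nat_lit 5) (nat_lit 188) (nat_lit 5) (nat_lit 181) (nat_lit 5) (nat_lit 482) (nat_lit 414) (nat_lit 244)) (XT.lf (nat_lit 0) (nat_lit 3371584687) (nat_lit 608) (nat_lit 5605317097) (nat_lit 76) (nat_lit 8572937360) (nat_lit 180) (nat_lit 5) (nat_lit 188) (nat_lit 5) (nat_lit 181) (nat_lit 5) (nat_lit 483) (nat_lit 414) (nat_lit 243))))) (XT.nd (nat_lit 234) (nat_lit 532) (nat_lit 0) (XT.nd (nat_lit 78) (nat_lit 456) (nat_lit 0) (XT.lf (nat_lit 0) (nat_lit 4069073824) (nat_lit 456) (nat_lit 2611294783) (nat_lit 532) (nat_lit 11083925540) (nat_lit 174) (nat_lit 5) (nat_lit 180) (nat_lit 5) (nat_lit 181) (nat_lit 5) (nat_lit 484) (nat_lit 414) (nat_lit 242)) (XT.nd (nat_lit 78) (nat_lit 456) (nat_lit 0) (XT.lf (nat_lit 0) (nat_lit 10109704615) (nat_lit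 532) (nat_lit 4006752733) (nat_lit 76) (nat_lit 3865495913) (nat_lit 174) (nat_lit 5) (nat_lit 181) (nat_lit 5) (nat_lit 175) (nat_lit 5) (nat_lit 485) (nat_lit 414) (nat_lit 241)) (XT.lf (nat_lit 0) (nat_lit 5924172049) (nat_lit 456) (nat_lit 7730693272) (nat_lit 532) (nat_lit 4548157972) (nat_lit 168) (nat_lit 5) (nat_lit 174) (nat_lit 5) (nat_lit 175) (nat_lit 5) (nat_lit 486) (nat_lit 414) (nat_lit 240)))) (XT.nd (nat_lit 78) (nat_lit 532) (nat_lit 0) (XT.lf (nat_lit 0) (nat_lit 16096389593) (nat_lit 456) (nat_lit 1192999523) (nat_lit 532) (nat_lit 1138758854) (nat_lit 168) (nat_lit 5) (nat_lit 174) (nat_lit 5) (nat_lit 175) (nat_lit 5) (nat_lit 487) (nat_lit 414) (nat_lit 239)) (XT.nd (nat_lit 78) (nat_lit 0) (nat_lit 0) (XT.lf (nat_lit 0) (nat_lit 2387038017) (nat_lit 532) (nat_lit 10801524022) (nat_lit 76) (nat_lit 5467334067) (nat_lit 161) (nat_lit 5) (nat_lit 168) (nat_lit 5) (nat_lit 162) (nat_lit 5) (nat_lit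 488) (nat_lit 414) (nat_lit 238)) (XT.lf (nat_lit 0) (nat_lit 5983517245) (nat_lit 532) (nat_lit 639192485) (nat_lit 76) (nat_lit 12265032945) (nat_lit 161) (nat_lit 5) (nat_lit 168) (nat_lit 5) (nat_lit 162) (nat_lit 5) (nat_lit 489) (nat_lit 414) (nat_lit 237))))))) (XT.nd (nat_lit 858) (nat_lit 684) (nat_lit 0) (XT.nd (nat_lit 390) (nat_lit 1216) (nat_lit 0) (XT.nd (nat_lit 156) (nat_lit 532) (nat_lit 0) (XT.nd (nat_lit 78) (nat_lit 380) (nat_lit 0) (XT.lf (nat_lit 0) (nat_lit 9708636439) (nat_lit 532) (nat_lit 9279870129) (nat_lit 76) (nat_lit 134587658) (nat_lit 155) (nat_lit 5) (nat_lit 162) (nat_lit 5) (nat_lit 156) (nat_lit 5) (nat_lit 490) (nat_lit 414) (nat_lit 236)) (XT.lf (nat_lit 0) (nat_lit 1140525079) (nat_lit 380) (nat_lit 12415289014) (nat_lit 456) (nat_lit 5806389806) (nat_lit 150) (nat_lit 5) (nat_lit 155) (nat_lit 5) (nat_lit 156) (nat_lit 5) (nat_lit 491) (nat_lit 414) (nat_lit 235))) (XT.nd (nat_lit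 78) (nat_lit 532) (nat_lit 0) (XT.lf (nat_lit 0) (nat_lit 11883762370) (nat_lit 380) (nat_lit 5650503674) (nat_lit 456) (nat_lit 2070745274) (nat_lit 150) (nat_lit 5) (nat_lit 155) (nat_lit 5) (nat_lit 156) (nat_lit 5) (nat_lit 492) (nat_lit 414) (nat_lit 234)) (XT.nd (nat_lit 78) (nat_lit 0) (nat_lit 0) (XT.lf (nat_lit 0) (nat_lit 1736769340) (nat_lit 532) (nat_lit 16854433008) (nat_lit 76) (nat_lit 1260849281) (nat_lit 143) (nat_lit 5) (nat_lit 150) (nat_lit 5) (nat_lit 144) (nat_lit 5) (nat_lit 493) (nat_lit 414) (nat_lit 233)) (XT.lf (nat_lit 0) (nat_lit 5674529316) (nat_lit 532) (nat_lit 6130248241) (nat_lit 76) (nat_lit 8297347033) (nat_lit 143) (nat_lit 5) (nat_lit 150) (nat_lit 5) (nat_lit 144) (nat_lit 5) (nat_lit 494) (nat_lit 414) (nat_lit 232))))) (XT.nd (nat_lit 234) (nat_lit 456) (nat_lit 0) (XT.nd (nat_lit 78) (nat_lit 380) (nat_lit 0) (XT.lf (nat_lit 0) (nat_lit 4861094311) (nat_lit 380) (nat_lit 4853883290)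 (nat_lit 456) (nat_lit 10641744751) (nat_lit 138) (nat_lit 5) (nat_lit 143) (nat_lit 5) (nat_lit 144) (nat_lit 5) (nat_lit 495) (nat_lit 414) (nat_lit 231)) (XT.nd (nat_lit 78) (nat_lit 380) (nat_lit 0) (XT.lf (nat_lit 0) (nat_lit 13884589586) (nat_lit 456) (nat_lit 4486156365) (nat_lit 76) (nat_lit 2244700990) (nat_lit 138) (nat_lit 5) (nat_lit 144) (nat_lit 5) (nat_lit 139) (nat_lit 5) (nat_lit 496) (nat_lit 414) (nat_lit 230)) (XT.lf (nat_lit 0) (nat_lit 6789485870) (nat_lit 380) (nat_lit 11416910517) (nat_lit 456) (nat_lit 2671575507) (nat_lit 133) (nat_lit 5) (nat_lit 138) (nat_lit 5) (nat_lit 139) (nat_lit 5) (nat_lit 497) (nat_lit 414) (nat_lit 229)))) (XT.nd (nat_lit 78) (nat_lit 380) (nat_lit 0) (XT.lf (nat_lit 0) (nat_lit 1472531452) (nat_lit 456) (nat_lit 2814377299) (nat_lit 76) (nat_lit 16858191622) (nat_lit 132) (nat_lit 5) (nat_lit 138) (nat_lit 5) (nat_lit 133) (nat_lit 5) (nat_lit 498) (nat_lit 414)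 (nat_lit 228)) (XT.nd (nat_lit 78) (nat_lit 0) (nat_lit 0) (XT.lf (nat_lit 0) (nat_lit 5733336512) (nat_lit 456) (nat_lit 12664250049) (nat_lit 76) (nat_lit 3018241729) (nat_lit 127) (nat_lit 5) (nat_lit 133) (nat_lit 5) (nat_lit 128) (nat_lit 5) (nat_lit 499) (nat_lit 414) (nat_lit 227)) (XT.lf (nat_lit 0) (nat_lit 10119554750) (nat_lit 456) (nat_lit 1143890893) (nat_lit 76) (nat_lit 10427722958) (nat_lit 127) (nat_lit 5) (nat_lit 133) (nat_lit 5) (nat_lit 128) (nat_lit 5) (nat_lit 500) (nat_lit 414) (nat_lit 226)))))) (XT.nd (nat_lit 52884) (nat_lit 0) (nat_lit 26600) (XT.nd (nat_lit 52650) (nat_lit 0) (nat_lit 28044) (XT.nd (nat_lit 78) (nat_lit 304) (nat_lit 0) (XT.lf (nat_lit 0) (nat_lit 10737121023) (nat_lit 380) (nat_lit 3919026026) (nat_lit 456) (nat_lit 7314617422) (nat_lit 122) (nat_lit 5) (nat_lit 127) (nat_lit 5) (nat_lit 128) (nat_lit 5) (nat_lit 501) (nat_lit 414) (nat_lit 225)) (XT.lf (nat_lit 0) (nat_lit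 589321893) (nat_lit 304) (nat_lit 18721880810) (nat_lit 380) (nat_lit 2944196635) (nat_lit 118) (nat_lit 5) (nat_lit 122) (nat_lit 5) (nat_lit 123) (nat_lit 5) (nat_lit 502) (nat_lit 414) (nat_lit 224))) (XT.nd (nat_lit 78) (nat_lit 0) (nat_lit 0) (XT.lf (nat_lit 0) (nat_lit 1379884706) (nat_lit 0) (nat_lit 1379884706) (nat_lit 1444) (nat_lit 1642907348) (nat_lit 487) (nat_lit 5) (nat_lit 487) (nat_lit 3) (nat_lit 506) (nat_lit 3) (nat_lit 415) (nat_lit 415) (nat_lit 310)) (XT.nd (nat_lit 78) (nat_lit 0) (nat_lit 0) (XT.lf (nat_lit 0) (nat_lit 6506597724) (nat_lit 1444) (nat_lit 1856753957) (nat_lit 1520) (nat_lit 510972879) (nat_lit 487) (nat_lit 5) (nat_lit 506) (nat_lit 3) (nat_lit 507) (nat_lit 5) (nat_lit 416) (nat_lit 415) (nat_lit 309)) (XT.lf (nat_lit 76) (nat_lit 2416513884) (nat_lit 0) (nat_lit 5106574273) (nat_lit 1520) (nat_lit 1421404733) (nat_lit 488) (nat_lit 5) (nat_lit 487) (nat_lit 5) (nat_lit 507)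 (nat_lit 5) (nat_lit 417) (nat_lit 415) (nat_lit 308))))) (XT.nd (nat_lit 234) (nat_lit 0) (nat_lit 0) (XT.nd (nat_lit 78) (nat_lit 1444) (nat_lit 0) (XT.lf (nat_lit 76) (nat_lit 6787744477) (nat_lit 0) (nat_lit 1760741572) (nat_lit 1520) (nat_lit 467818434) (nat_lit 488) (nat_lit 5) (nat_lit 487) (nat_lit 5) (nat_lit 507) (nat_lit 5) (nat_lit 418) (nat_lit 415) (nat_lit 307)) (XT.nd (nat_lit 78) (nat_lit 0) (nat_lit 0) (XT.lf (nat_lit 0) (nat_lit 499634123) (nat_lit 1520) (nat_lit 6931326200) (nat_lit 1596) (nat_lit 1658509123) (nat_lit 468) (nat_lit 5) (nat_lit 488) (nat_lit 5) (nat_lit 489) (nat_lit 5) (nat_lit 419) (nat_lit 415) (nat_lit 306)) (XT.lf (nat_lit 0) (nat_lit 1483760425) (nat_lit 1520) (nat_lit 2529073682) (nat_lit 1596) (nat_lit 5151140769) (nat_lit 468) (nat_lit 5) (nat_lit 488) (nat_lit 5) (nat_lit 489) (nat_lit 5) (nat_lit 420) (nat_lit 415) (nat_lit 305)))) (XT.nd (nat_lit 78) (nat_lit 0) (nat_lit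 76) (XT.lf (nat_lit 76) (nat_lit 1974167766) (nat_lit 0) (nat_lit 503541188) (nat_lit 1596) (nat_lit 6762469244) (nat_lit 469) (nat_lit 5) (nat_lit 468) (nat_lit 5) (nat_lit 489) (nat_lit 5) (nat_lit 421) (nat_lit 415) (nat_lit 304)) (XT.nd (nat_lit 78) (nat_lit 0) (nat_lit 0) (XT.lf (nat_lit 0) (nat_lit 3506335923) (nat_lit 1520) (nat_lit 2749273866) (nat_lit 1596) (nat_lit 3062010179) (nat_lit 469) (nat_lit 5) (nat_lit 489) (nat_lit 5) (nat_lit 490) (nat_lit 5) (nat_lit 422) (nat_lit 415) (nat_lit 303)) (XT.lf (nat_lit 76) (nat_lit 1865814995) (nat_lit 0) (nat_lit 2683350265) (nat_lit 1596) (nat_lit 4847582883) (nat_lit 470) (nat_lit 5) (nat_lit 469) (nat_lit 5) (nat_lit 490) (nat_lit 5) (nat_lit 423) (nat_lit 415) (nat_lit 302))))))))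
noncomputable def xc182 : XT := (XT.nd (nat_lit 1638) (nat_lit 9956) (nat_lit 0) (XT.nd (nat_lit 780) (nat_lit 4712) (nat_lit 0) (XT.nd (nat_lit 390) (nat_lit 0) (nat_lit 76) (XT.nd (nat_lit 156) (nat_lit 1520) (nat_lit 0) (XT.nd (nat_lit 78) (nat_lit 0) (nat_lit 0) (XT.lf (nat_lit 0) (nat_lit 5616236742) (nat_lit 1520) (nat_lit 2886500801) (nat_lit 1596) (nat_lit 974663594) (nat_lit 470) (nat_lit 5) (nat_lit 490) (nat_lit 5) (nat_lit 491) (nat_lit 5) (nat_lit 424) (nat_lit 415) (nat_lit 301)) (XT.lf (nat_lit 76) (nat_lit 1843972686) (nat_lit 0) (nat_lit 4869418857) (nat_lit 1596) (nat_lit 2846110584) (nat_lit 471) (nat_lit 5) (nat_lit 470) (nat_lit 5) (nat_lit 491) (nat_lit 5) (nat_lit 425) (nat_lit 415) (nat_lit 300))) (XT.nd (nat_lit 78) (nat_lit 1520) (nat_lit 0) (XT.lf (nat_lit 76) (nat_lit 6695009157) (nat_lit 0) (nat_lit 1136175537) (nat_lit 1596) (nat_lit 1812096117) (nat_lit 471) (nat_lit 5) (nat_lit 470) (nat_lit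 5) (nat_lit 491) (nat_lit 5) (nat_lit 426) (nat_lit 415) (nat_lit 299)) (XT.nd (nat_lit 78) (nat_lit 1596) (nat_lit 0) (XT.lf (nat_lit 76) (nat_lit 1908638789) (nat_lit 0) (nat_lit 7072212175) (nat_lit 1596) (nat_lit 747703151) (nat_lit 472) (nat_lit 5) (nat_lit 471) (nat_lit 5) (nat_lit 492) (nat_lit 5) (nat_lit 427) (nat_lit 415) (nat_lit 298)) (XT.lf (nat_lit 0) (nat_lit 340932563) (nat_lit 1596) (nat_lit 2935900377) (nat_lit 1672) (nat_lit 6538517337) (nat_lit 450) (nat_lit 5) (nat_lit 471) (nat_lit 5) (nat_lit 472) (nat_lit 5) (nat_lit 428) (nat_lit 415) (nat_lit 297))))) (XT.nd (nat_lit 156) (nat_lit 0) (nat_lit 0) (XT.nd (nat_lit 78) (nat_lit 0) (nat_lit 0) (XT.lf (nat_lit 0) (nat_lit 1439040612) (nat_lit 1596) (nat_lit 7853451895) (nat_lit 1672) (nat_lit 611345631) (nat_lit 451) (nat_lit 5) (nat_lit 472) (nat_lit 5) (nat_lit 473) (nat_lit 5) (nat_lit 429) (nat_lit 415) (nat_lit 296)) (XT.lf (nat_lit 0) (nat_lit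 2581324109) (nat_lit 1596) (nat_lit 2852985353) (nat_lit 1672) (nat_lit 4559350706) (nat_lit 451) (nat_lit 5) (nat_lit 472) (nat_lit 5) (nat_lit 473) (nat_lit 5) (nat_lit 430) (nat_lit 415) (nat_lit 295))) (XT.nd (nat_lit 78) (nat_lit 0) (nat_lit 76) (XT.lf (nat_lit 76) (nat_lit 2263800501) (nat_lit 0) (nat_lit 1478410180) (nat_lit 1672) (nat_lit 6343161318) (nat_lit 452) (nat_lit 5) (nat_lit 451) (nat_lit 5) (nat_lit 473) (nat_lit 5) (nat_lit 431) (nat_lit 415) (nat_lit 294)) (XT.nd (nat_lit 78) (nat_lit 0) (nat_lit 0) (XT.lf (nat_lit 0) (nat_lit 4943565213) (nat_lit 1596) (nat_lit 2687374518) (nat_lit 1672) (nat_lit 2547641670) (nat_lit 452) (nat_lit 5) (nat_lit 473) (nat_lit 5) (nat_lit 474) (nat_lit 5) (nat_lit 432) (nat_lit 415) (nat_lit 293)) (XT.lf (nat_lit 76) (nat_lit 2559848860) (nat_lit 0) (nat_lit 3617253339) (nat_lit 1672) (nat_lit 4096397861) (nat_lit 453) (nat_lit 5) (nat_lit 452) (nat_lit 5) (nat_lit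 474) (nat_lit 5) (nat_lit 433) (nat_lit 415) (nat_lit 292)))))) (XT.nd (nat_lit 390) (nat_lit 3344) (nat_lit 0) (XT.nd (nat_lit 156) (nat_lit 1596) (nat_lit 0) (XT.nd (nat_lit 78) (nat_lit 0) (nat_lit 0) (XT.lf (nat_lit 0) (nat_lit 7438603832) (nat_lit 1596) (nat_lit 2438475161) (nat_lit 1672) (nat_lit 493180238) (nat_lit 453) (nat_lit 5) (nat_lit 474) (nat_lit 5) (nat_lit 475) (nat_lit 5) (nat_lit 434) (nat_lit 415) (nat_lit 291)) (XT.lf (nat_lit 76) (nat_lit 2943372535) (nat_lit 0) (nat_lit 5807426336) (nat_lit 1672) (nat_lit 1717653306) (nat_lit 454) (nat_lit 5) (nat_lit 453) (nat_lit 5) (nat_lit 475) (nat_lit 5) (nat_lit 435) (nat_lit 415) (nat_lit 290))) (XT.nd (nat_lit 78) (nat_lit 1596) (nat_lit 0) (XT.lf (nat_lit 76) (nat_lit 8452520635) (nat_lit 0) (nat_lit 1635736557) (nat_lit 1672) (nat_lit 480379107) (nat_lit 454) (nat_lit 5) (nat_lit 453) (nat_lit 5) (nat_lit 475) (nat_lit 5) (nat_lit 436) (nat_lit 415)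 (nat_lit 289)) (XT.nd (nat_lit 78) (nat_lit 0) (nat_lit 0) (XT.lf (nat_lit 0) (nat_lit 793731243) (nat_lit 1672) (nat_lit 7260297257) (nat_lit 1748) (nat_lit 2616254671) (nat_lit 432) (nat_lit 5) (nat_lit 454) (nat_lit 5) (nat_lit 455) (nat_lit 5) (nat_lit 437) (nat_lit 415) (nat_lit 288)) (XT.lf (nat_lit 0) (nat_lit 2095173410) (nat_lit 1672) (nat_lit 1726136336) (nat_lit 1748) (nat_lit 6952431353) (nat_lit 432) (nat_lit 5) (nat_lit 454) (nat_lit 5) (nat_lit 455) (nat_lit 5) (nat_lit 438) (nat_lit 415) (nat_lit 287))))) (XT.nd (nat_lit 234) (nat_lit 1748) (nat_lit 0) (XT.nd (nat_lit 78) (nat_lit 1672) (nat_lit 0) (XT.lf (nat_lit 0) (nat_lit 3435228039) (nat_lit 1672) (nat_lit 6925271414) (nat_lit 76) (nat_lit 518524177) (nat_lit 433) (nat_lit 5) (nat_lit 455) (nat_lit 5) (nat_lit 434) (nat_lit 5) (nat_lit 439) (nat_lit 415) (nat_lit 286)) (XT.nd (nat_lit 78) (nat_lit 1672) (nat_lit 0) (XT.lf (nat_lit 0) (nat_lit 4822786852)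 (nat_lit 1672) (nat_lit 1254566681) (nat_lit 76) (nat_lit 4908651196) (nat_lit 433) (nat_lit 5) (nat_lit 455) (nat_lit 5) (nat_lit 434) (nat_lit 5) (nat_lit 440) (nat_lit 415) (nat_lit 285)) (XT.lf (nat_lit 0) (nat_lit 4576197336) (nat_lit 1672) (nat_lit 1675666519) (nat_lit 1748) (nat_lit 4842993097) (nat_lit 411) (nat_lit 5) (nat_lit 433) (nat_lit 5) (nat_lit 434) (nat_lit 5) (nat_lit 441) (nat_lit 415) (nat_lit 284)))) (XT.nd (nat_lit 78) (nat_lit 1748) (nat_lit 0) (XT.lf (nat_lit 0) (nat_lit 7720565157) (nat_lit 1748) (nat_lit 697083048) (nat_lit 76) (nat_lit 2788023866) (nat_lit 411) (nat_lit 5) (nat_lit 434) (nat_lit 5) (nat_lit 412) (nat_lit 5) (nat_lit 442) (nat_lit 415) (nat_lit 283)) (XT.nd (nat_lit 78) (nat_lit 0) (nat_lit 0) (XT.lf (nat_lit 0) (nat_lit 5285797836) (nat_lit 1748) (nat_lit 3962864071) (nat_lit 1824) (nat_lit 2069447733) (nat_lit 388) (nat_lit 5) (nat_lit 411) (nat_lit 5) (nat_lit 412) (nat_lit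 5) (nat_lit 443) (nat_lit 415) (nat_lit 282)) (XT.lf (nat_lit 0) (nat_lit 10800635233) (nat_lit 1824) (nat_lit 52309102) (nat_lit 76) (nat_lit 579991782) (nat_lit 388) (nat_lit 5) (nat_lit 412) (nat_lit 5) (nat_lit 389) (nat_lit 5) (nat_lit 444) (nat_lit 415) (nat_lit 281))))))) (XT.nd (nat_lit 858) (nat_lit 4484) (nat_lit 0) (XT.nd (nat_lit 390) (nat_lit 2584) (nat_lit 0) (XT.nd (nat_lit 156) (nat_lit 836) (nat_lit 0) (XT.nd (nat_lit 78) (nat_lit 912) (nat_lit 0) (XT.lf (nat_lit 0) (nat_lit 873886639) (nat_lit 1140) (nat_lit 5467230065) (nat_lit 76) (nat_lit 5207815762) (nat_lit 373) (nat_lit 5) (nat_lit 388) (nat_lit 5) (nat_lit 374) (nat_lit 5) (nat_lit 445) (nat_lit 415) (nat_lit 280)) (XT.lf (nat_lit 0) (nat_lit 662929081) (nat_lit 912) (nat_lit 1728701064) (nat_lit 988) (nat_lit 9275743108) (nat_lit 361) (nat_lit 5) (nat_lit 373) (nat_lit 5) (nat_lit 374) (nat_lit 5) (nat_lit 446) (nat_lit 415) (nat_lit 279)))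 (XT.nd (nat_lit 78) (nat_lit 836) (nat_lit 0) (XT.lf (nat_lit 0) (nat_lit 3981425475) (nat_lit 988) (nat_lit 4830866637) (nat_lit 76) (nat_lit 2975062762) (nat_lit 361) (nat_lit 5) (nat_lit 374) (nat_lit 5) (nat_lit 362) (nat_lit 5) (nat_lit 447) (nat_lit 415) (nat_lit 278)) (XT.nd (nat_lit 78) (nat_lit 0) (nat_lit 0) (XT.lf (nat_lit 0) (nat_lit 1460502773) (nat_lit 836) (nat_lit 4149174321) (nat_lit 912) (nat_lit 6299931664) (nat_lit 350) (nat_lit 5) (nat_lit 361) (nat_lit 5) (nat_lit 362) (nat_lit 5) (nat_lit 448) (nat_lit 415) (nat_lit 277)) (XT.lf (nat_lit 0) (nat_lit 7292996486) (nat_lit 912) (nat_lit 4108223534) (nat_lit 76) (nat_lit 632643371) (nat_lit 350) (nat_lit 5) (nat_lit 362) (nat_lit 5) (nat_lit 351) (nat_lit 5) (nat_lit 449) (nat_lit 415) (nat_lit 276))))) (XT.nd (nat_lit 234) (nat_lit 836) (nat_lit 0) (XT.nd (nat_lit 78) (nat_lit 912) (nat_lit 0) (XT.lf (nat_lit 0) (nat_lit 2349488696) (nat_lit 836)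 (nat_lit 6689429916) (nat_lit 912) (nat_lit 3121111390) (nat_lit 339) (nat_lit 5) (nat_lit 350) (nat_lit 5) (nat_lit 351) (nat_lit 5) (nat_lit 450) (nat_lit 415) (nat_lit 275)) (XT.nd (nat_lit 78) (nat_lit 912) (nat_lit 0) (XT.lf (nat_lit 0) (nat_lit 8978807020) (nat_lit 836) (nat_lit 1854909011) (nat_lit 912) (nat_lit 1454730280) (nat_lit 339) (nat_lit 5) (nat_lit 350) (nat_lit 5) (nat_lit 351) (nat_lit 5) (nat_lit 451) (nat_lit 415) (nat_lit 274)) (XT.lf (nat_lit 0) (nat_lit 270210493) (nat_lit 912) (nat_lit 9088896225) (nat_lit 76) (nat_lit 3059728807) (nat_lit 327) (nat_lit 5) (nat_lit 339) (nat_lit 5) (nat_lit 328) (nat_lit 5) (nat_lit 452) (nat_lit 415) (nat_lit 273)))) (XT.nd (nat_lit 78) (nat_lit 836) (nat_lit 0) (XT.lf (nat_lit 0) (nat_lit 2031571638) (nat_lit 912) (nat_lit 2439626611) (nat_lit 76) (nat_lit 8080019136) (nat_lit 327) (nat_lit 5) (nat_lit 339) (nat_lit 5) (nat_lit 328) (nat_lit 5) (nat_lit 453)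 (nat_lit 415) (nat_lit 272)) (XT.nd (nat_lit 78) (nat_lit 0) (nat_lit 0) (XT.lf (nat_lit 0) (nat_lit 3847173689) (nat_lit 912) (nat_lit 8302388719) (nat_lit 76) (nat_lit 536309284) (nat_lit 316) (nat_lit 5) (nat_lit 328) (nat_lit 5) (nat_lit 317) (nat_lit 5) (nat_lit 454) (nat_lit 415) (nat_lit 271)) (XT.lf (nat_lit 0) (nat_lit 5732348829) (nat_lit 912) (nat_lit 1489744371) (nat_lit 76) (nat_lit 5600465648) (nat_lit 316) (nat_lit 5) (nat_lit 328) (nat_lit 5) (nat_lit 317) (nat_lit 5) (nat_lit 455) (nat_lit 415) (nat_lit 270)))))) (XT.nd (nat_lit 390) (nat_lit 2204) (nat_lit 0) (XT.nd (nat_lit 156) (nat_lit 1520) (nat_lit 0) (XT.nd (nat_lit 78) (nat_lit 0) (nat_lit 0) (XT.lf (nat_lit 0) (nat_lit 5518531121) (nat_lit 760) (nat_lit 2159948735) (nat_lit 836) (nat_lit 5283039730) (nat_lit 306) (nat_lit 5) (nat_lit 316) (nat_lit 5) (nat_lit 317) (nat_lit 5) (nat_lit 456) (nat_lit 415) (nat_lit 269)) (XT.lf (nat_lit 0) (nat_lit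 9680678959) (nat_lit 836) (nat_lit 448622730) (nat_lit 76) (nat_lit 2973619730) (nat_lit 306) (nat_lit 5) (nat_lit 317) (nat_lit 5) (nat_lit 307) (nat_lit 5) (nat_lit 457) (nat_lit 415) (nat_lit 268))) (XT.nd (nat_lit 78) (nat_lit 760) (nat_lit 0) (XT.lf (nat_lit 0) (nat_lit 6746908421) (nat_lit 760) (nat_lit 5021948782) (nat_lit 836) (nat_lit 1477380081) (nat_lit 296) (nat_lit 5) (nat_lit 306) (nat_lit 5) (nat_lit 307) (nat_lit 5) (nat_lit 458) (nat_lit 415) (nat_lit 267)) (XT.nd (nat_lit 78) (nat_lit 0) (nat_lit 0) (XT.lf (nat_lit 0) (nat_lit 496447683) (nat_lit 760) (nat_lit 12700866787) (nat_lit 76) (nat_lit 195109566) (nat_lit 286) (nat_lit 5) (nat_lit 296) (nat_lit 5) (nat_lit 287) (nat_lit 5) (nat_lit 459) (nat_lit 415) (nat_lit 266)) (XT.lf (nat_lit 0) (nat_lit 2555193264) (nat_lit 760) (nat_lit 5482768596) (nat_lit 76) (nat_lit 5502077312) (nat_lit 286) (nat_lit 5) (nat_lit 296) (nat_lit 5) (nat_lit 287) (nat_lit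 5) (nat_lit 460) (nat_lit 415) (nat_lit 265))))) (XT.nd (nat_lit 234) (nat_lit 760) (nat_lit 0) (XT.nd (nat_lit 78) (nat_lit 684) (nat_lit 0) (XT.lf (nat_lit 0) (nat_lit 1891621291) (nat_lit 760) (nat_lit 2764052751) (nat_lit 836) (nat_lit 9034925703) (nat_lit 276) (nat_lit 5) (nat_lit 286) (nat_lit 5) (nat_lit 287) (nat_lit 5) (nat_lit 461) (nat_lit 415) (nat_lit 264)) (XT.nd (nat_lit 78) (nat_lit 684) (nat_lit 0) (XT.lf (nat_lit 0) (nat_lit 6840598309) (nat_lit 836) (nat_lit 4385862793) (nat_lit 76) (nat_lit 2616866003) (nat_lit 276) (nat_lit 5) (nat_lit 287) (nat_lit 5) (nat_lit 277) (nat_lit 5) (nat_lit 462) (nat_lit 415) (nat_lit 263)) (XT.lf (nat_lit 0) (nat_lit 3186231218) (nat_lit 684) (nat_lit 5910626528) (nat_lit 760) (nat_lit 4901702702) (nat_lit 267) (nat_lit 5) (nat_lit 276) (nat_lit 5) (nat_lit 277) (nat_lit 5) (nat_lit 463) (nat_lit 415) (nat_lit 262)))) (XT.nd (nat_lit 78) (nat_lit 760) (nat_lit 0) (XT.lf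 (nat_lit 0) (nat_lit 10956535653) (nat_lit 684) (nat_lit 459923050) (nat_lit 760) (nat_lit 2740079518) (nat_lit 267) (nat_lit 5) (nat_lit 276) (nat_lit 5) (nat_lit 277) (nat_lit 5) (nat_lit 464) (nat_lit 415) (nat_lit 261)) (XT.nd (nat_lit 78) (nat_lit 76) (nat_lit 0) (XT.lf (nat_lit 0) (nat_lit 4578863128) (nat_lit 684) (nat_lit 9255424261) (nat_lit 760) (nat_lit 482355454) (nat_lit 258) (nat_lit 5) (nat_lit 267) (nat_lit 5) (nat_lit 268) (nat_lit 5) (nat_lit 465) (nat_lit 415) (nat_lit 260)) (XT.lf (nat_lit 0) (nat_lit 1810362129) (nat_lit 760) (nat_lit 1950560140) (nat_lit 76) (nat_lit 10718520430) (nat_lit 257) (nat_lit 5) (nat_lit 267) (nat_lit 5) (nat_lit 258) (nat_lit 5) (nat_lit 466) (nat_lit 415) (nat_lit 259))))))))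
noncomputable def xc183 : XT := (XT.nd (nat_lit 1638) (nat_lit 3116) (nat_lit 0) (XT.nd (nat_lit 780) (nat_lit 3116) (nat_lit 0) (XT.nd (nat_lit 390) (nat_lit 1824) (nat_lit 0) (XT.nd (nat_lit 156) (nat_lit 1216) (nat_lit 0) (XT.nd (nat_lit 78) (nat_lit 0) (nat_lit 0) (XT.lf (nat_lit 0) (nat_lit 4183309771) (nat_lit 684) (nat_lit 8600934446) (nat_lit 76) (nat_lit 1860377656) (nat_lit 249) (nat_lit 5) (nat_lit 258) (nat_lit 5) (nat_lit 250) (nat_lit 5) (nat_lit 467) (nat_lit 415) (nat_lit 258)) (XT.lf (nat_lit 0) (nat_lit 6631185956) (nat_lit 684) (nat_lit 626163807) (nat_lit 76) (nat_lit 7555209179) (nat_lit 249) (nat_lit 5) (nat_lit 258) (nat_lit 5) (nat_lit 250) (nat_lit 5) (nat_lit 468) (nat_lit 415) (nat_lit 257))) (XT.nd (nat_lit 78) (nat_lit 608) (nat_lit 0) (XT.lf (nat_lit 0) (nat_lit 7595375975) (nat_lit 608) (nat_lit 1571552858) (nat_lit 684) (nat_lit 5816151366) (nat_lit 241) (nat_lit 5) (nat_lit 249) (nat_lit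 5) (nat_lit 250) (nat_lit 5) (nat_lit 469) (nat_lit 415) (nat_lit 256)) (XT.nd (nat_lit 78) (nat_lit 0) (nat_lit 0) (XT.lf (nat_lit 0) (nat_lit 803510032) (nat_lit 608) (nat_lit 10976480416) (nat_lit 684) (nat_lit 3376492916) (nat_lit 233) (nat_lit 5) (nat_lit 241) (nat_lit 5) (nat_lit 242) (nat_lit 5) (nat_lit 470) (nat_lit 415) (nat_lit 255)) (XT.lf (nat_lit 0) (nat_lit 9235770730) (nat_lit 608) (nat_lit 5259285126) (nat_lit 684) (nat_lit 837307374) (nat_lit 233) (nat_lit 5) (nat_lit 241) (nat_lit 5) (nat_lit 242) (nat_lit 5) (nat_lit 471) (nat_lit 415) (nat_lit 254))))) (XT.nd (nat_lit 156) (nat_lit 1140) (nat_lit 0) (XT.nd (nat_lit 78) (nat_lit 0) (nat_lit 0) (XT.lf (nat_lit 0) (nat_lit 1738649992) (nat_lit 684) (nat_lit 13183460327) (nat_lit 76) (nat_lit 589246648) (nat_lit 224) (nat_lit 5) (nat_lit 233) (nat_lit 5) (nat_lit 225) (nat_lit 5) (nat_lit 472) (nat_lit 415) (nat_lit 253)) (XT.lf (nat_lit 0) (nat_lit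 4420998545) (nat_lit 684) (nat_lit 4742616304) (nat_lit 76) (nat_lit 6528886654) (nat_lit 224) (nat_lit 5) (nat_lit 233) (nat_lit 5) (nat_lit 225) (nat_lit 5) (nat_lit 473) (nat_lit 415) (nat_lit 252))) (XT.nd (nat_lit 78) (nat_lit 608) (nat_lit 0) (XT.lf (nat_lit 0) (nat_lit 3906142286) (nat_lit 532) (nat_lit 3266469050) (nat_lit 608) (nat_lit 8704348473) (nat_lit 217) (nat_lit 5) (nat_lit 224) (nat_lit 5) (nat_lit 225) (nat_lit 5) (nat_lit 474) (nat_lit 415) (nat_lit 251)) (XT.nd (nat_lit 78) (nat_lit 608) (nat_lit 0) (XT.lf (nat_lit 0) (nat_lit 10019491550) (nat_lit 608) (nat_lit 3302596258) (nat_lit 76) (nat_lit 2742217930) (nat_lit 217) (nat_lit 5) (nat_lit 225) (nat_lit 5) (nat_lit 218) (nat_lit 5) (nat_lit 475) (nat_lit 415) (nat_lit 250)) (XT.lf (nat_lit 0) (nat_lit 5578528115) (nat_lit 608) (nat_lit 7393175247) (nat_lit 684) (nat_lit 3282730442) (nat_lit 209) (nat_lit 5) (nat_lit 217) (nat_lit 5) (nat_lit 218)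 (nat_lit 5) (nat_lit 476) (nat_lit 415) (nat_lit 249)))))) (XT.nd (nat_lit 390) (nat_lit 1520) (nat_lit 0) (XT.nd (nat_lit 156) (nat_lit 988) (nat_lit 0) (XT.nd (nat_lit 78) (nat_lit 608) (nat_lit 0) (XT.lf (nat_lit 0) (nat_lit 14670128965) (nat_lit 608) (nat_lit 1325642944) (nat_lit 684) (nat_lit 452339311) (nat_lit 209) (nat_lit 5) (nat_lit 217) (nat_lit 5) (nat_lit 218) (nat_lit 5) (nat_lit 477) (nat_lit 415) (nat_lit 248)) (XT.lf (nat_lit 0) (nat_lit 2473309601) (nat_lit 608) (nat_lit 9309652092) (nat_lit 76) (nat_lit 4860975643) (nat_lit 201) (nat_lit 5) (nat_lit 209) (nat_lit 5) (nat_lit 202) (nat_lit 5) (nat_lit 478) (nat_lit 415) (nat_lit 247))) (XT.nd (nat_lit 78) (nat_lit 988) (nat_lit 0) (XT.lf (nat_lit 0) (nat_lit 5463067594) (nat_lit 608) (nat_lit 214292323) (nat_lit 76) (nat_lit 11166030062) (nat_lit 201) (nat_lit 5) (nat_lit 209) (nat_lit 5) (nat_lit 202) (nat_lit 5) (nat_lit 479) (nat_lit 415) (nat_lit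 246)) (XT.nd (nat_lit 78) (nat_lit 456) (nat_lit 0) (XT.lf (nat_lit 0) (nat_lit 8567156151) (nat_lit 608) (nat_lit 7878174150) (nat_lit 76) (nat_lit 600413473) (nat_lit 194) (nat_lit 5) (nat_lit 202) (nat_lit 5) (nat_lit 195) (nat_lit 5) (nat_lit 480) (nat_lit 415) (nat_lit 245)) (XT.lf (nat_lit 0) (nat_lit 1457618033) (nat_lit 456) (nat_lit 10315338259) (nat_lit 532) (nat_lit 5478398508) (nat_lit 188) (nat_lit 5) (nat_lit 194) (nat_lit 5) (nat_lit 195) (nat_lit 5) (nat_lit 481) (nat_lit 415) (nat_lit 244))))) (XT.nd (nat_lit 234) (nat_lit 912) (nat_lit 0) (XT.nd (nat_lit 78) (nat_lit 608) (nat_lit 0) (XT.lf (nat_lit 0) (nat_lit 11075245407) (nat_lit 456) (nat_lit 4011712105) (nat_lit 532) (nat_lit 2373241531) (nat_lit 188) (nat_lit 5) (nat_lit 194) (nat_lit 5) (nat_lit 195) (nat_lit 5) (nat_lit 482) (nat_lit 415) (nat_lit 243)) (XT.nd (nat_lit 78) (nat_lit 0) (nat_lit 0) (XT.lf (nat_lit 0) (nat_lit 811811231) (nat_lit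 608) (nat_lit 14450973112) (nat_lit 76) (nat_lit 2409771186) (nat_lit 180) (nat_lit 5) (nat_lit 188) (nat_lit 5) (nat_lit 181) (nat_lit 5) (nat_lit 483) (nat_lit 415) (nat_lit 242)) (XT.lf (nat_lit 0) (nat_lit 4089922294) (nat_lit 608) (nat_lit 4835710900) (nat_lit 76) (nat_lit 8961992054) (nat_lit 180) (nat_lit 5) (nat_lit 188) (nat_lit 5) (nat_lit 181) (nat_lit 5) (nat_lit 484) (nat_lit 415) (nat_lit 241)))) (XT.nd (nat_lit 78) (nat_lit 456) (nat_lit 0) (XT.lf (nat_lit 0) (nat_lit 5026367099) (nat_lit 456) (nat_lit 2431438932) (nat_lit 532) (nat_lit 10648708611) (nat_lit 174) (nat_lit 5) (nat_lit 180) (nat_lit 5) (nat_lit 181) (nat_lit 5) (nat_lit 485) (nat_lit 415) (nat_lit 240)) (XT.nd (nat_lit 78) (nat_lit 456) (nat_lit 0) (XT.lf (nat_lit 0) (nat_lit 10944581925) (nat_lit 532) (nat_lit 3216818811) (nat_lit 76) (nat_lit 4167352844) (nat_lit 174) (nat_lit 5) (nat_lit 181) (nat_lit 5) (nat_lit 175) (nat_lit 5) (nat_lit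 486) (nat_lit 415) (nat_lit 239)) (XT.lf (nat_lit 0) (nat_lit 6907000329) (nat_lit 456) (nat_lit 7646851862) (nat_lit 532) (nat_lit 4000532321) (nat_lit 168) (nat_lit 5) (nat_lit 174) (nat_lit 5) (nat_lit 175) (nat_lit 5) (nat_lit 487) (nat_lit 415) (nat_lit 238))))))) (XT.nd (nat_lit 858) (nat_lit 456) (nat_lit 0) (XT.nd (nat_lit 390) (nat_lit 1292) (nat_lit 0) (XT.nd (nat_lit 156) (nat_lit 836) (nat_lit 0) (XT.nd (nat_lit 78) (nat_lit 532) (nat_lit 0) (XT.lf (nat_lit 0) (nat_lit 17265714286) (nat_lit 456) (nat_lit 983079832) (nat_lit 532) (nat_lit 535466570) (nat_lit 168) (nat_lit 5) (nat_lit 174) (nat_lit 5) (nat_lit 175) (nat_lit 5) (nat_lit 488) (nat_lit 415) (nat_lit 237)) (XT.lf (nat_lit 0) (nat_lit 3047591206) (nat_lit 532) (nat_lit 10156557172) (nat_lit 76) (nat_lit 5812438412) (nat_lit 161) (nat_lit 5) (nat_lit 168) (nat_lit 5) (nat_lit 162) (nat_lit 5) (nat_lit 489) (nat_lit 415) (nat_lit 236))) (XT.nd (nat_lit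 78) (nat_lit 380) (nat_lit 0) (XT.lf (nat_lit 0) (nat_lit 194692116) (nat_lit 456) (nat_lit 6510556043) (nat_lit 532) (nat_lit 12548040521) (nat_lit 155) (nat_lit 5) (nat_lit 161) (nat_lit 5) (nat_lit 162) (nat_lit 5) (nat_lit 490) (nat_lit 415) (nat_lit 235)) (XT.nd (nat_lit 78) (nat_lit 380) (nat_lit 0) (XT.lf (nat_lit 0) (nat_lit 10498854707) (nat_lit 532) (nat_lit 8616437192) (nat_lit 76) (nat_lit 378178950) (nat_lit 155) (nat_lit 5) (nat_lit 162) (nat_lit 5) (nat_lit 156) (nat_lit 5) (nat_lit 491) (nat_lit 415) (nat_lit 234)) (XT.lf (nat_lit 0) (nat_lit 2006780193) (nat_lit 380) (nat_lit 12409984755) (nat_lit 456) (nat_lit 5320725210) (nat_lit 150) (nat_lit 5) (nat_lit 155) (nat_lit 5) (nat_lit 156) (nat_lit 5) (nat_lit 492) (nat_lit 415) (nat_lit 233))))) (XT.nd (nat_lit 234) (nat_lit 760) (nat_lit 0) (XT.nd (nat_lit 78) (nat_lit 532) (nat_lit 0) (XT.lf (nat_lit 0) (nat_lit 12948344101) (nat_lit 380) (nat_lit 5514876455)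 (nat_lit 456) (nat_lit 1522167638) (nat_lit 150) (nat_lit 5) (nat_lit 155) (nat_lit 5) (nat_lit 156) (nat_lit 5) (nat_lit 493) (nat_lit 415) (nat_lit 232)) (XT.nd (nat_lit 78) (nat_lit 0) (nat_lit 0) (XT.lf (nat_lit 0) (nat_lit 2349370257) (nat_lit 532) (nat_lit 16352181471) (nat_lit 76) (nat_lit 1535831789) (nat_lit 143) (nat_lit 5) (nat_lit 150) (nat_lit 5) (nat_lit 144) (nat_lit 5) (nat_lit 494) (nat_lit 415) (nat_lit 231)) (XT.lf (nat_lit 0) (nat_lit 6354554736) (nat_lit 532) (nat_lit 5429970659) (nat_lit 76) (nat_lit 8708162133) (nat_lit 143) (nat_lit 5) (nat_lit 150) (nat_lit 5) (nat_lit 144) (nat_lit 5) (nat_lit 495) (nat_lit 415) (nat_lit 230)))) (XT.nd (nat_lit 78) (nat_lit 380) (nat_lit 0) (XT.lf (nat_lit 0) (nat_lit 5775785043) (nat_lit 380) (nat_lit 4694225968) (nat_lit 456) (nat_lit 10282485173) (nat_lit 138) (nat_lit 5) (nat_lit 143) (nat_lit 5) (nat_lit 144) (nat_lit 5) (nat_lit 496) (nat_lit 415) (nat_lit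 229)) (XT.nd (nat_lit 78) (nat_lit 380) (nat_lit 0) (XT.lf (nat_lit 0) (nat_lit 14713654663) (nat_lit 456) (nat_lit 3764935799) (nat_lit 76) (nat_lit 2537994874) (nat_lit 138) (nat_lit 5) (nat_lit 144) (nat_lit 5) (nat_lit 139) (nat_lit 5) (nat_lit 497) (nat_lit 415) (nat_lit 228)) (XT.lf (nat_lit 0) (nat_lit 7730884124) (nat_lit 380) (nat_lit 11385432781) (nat_lit 456) (nat_lit 2168158305) (nat_lit 133) (nat_lit 5) (nat_lit 138) (nat_lit 5) (nat_lit 139) (nat_lit 5) (nat_lit 498) (nat_lit 415) (nat_lit 227)))))) (XT.nd (nat_lit 53040) (nat_lit 0) (nat_lit 25840) (XT.nd (nat_lit 156) (nat_lit 0) (nat_lit 0) (XT.nd (nat_lit 78) (nat_lit 380) (nat_lit 0) (XT.lf (nat_lit 0) (nat_lit 2040752220) (nat_lit 456) (nat_lit 2073557759) (nat_lit 76) (nat_lit 17442782176) (nat_lit 132) (nat_lit 5) (nat_lit 138) (nat_lit 5) (nat_lit 133) (nat_lit 5) (nat_lit 499) (nat_lit 415) (nat_lit 226)) (XT.lf (nat_lit 0) (nat_lit 6383029015)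 (nat_lit 456) (nat_lit 12116551418) (nat_lit 76) (nat_lit 3333731727) (nat_lit 127) (nat_lit 5) (nat_lit 133) (nat_lit 5) (nat_lit 128) (nat_lit 5) (nat_lit 500) (nat_lit 415) (nat_lit 225))) (XT.nd (nat_lit 52728) (nat_lit 0) (nat_lit 27360) (XT.lf (nat_lit 0) (nat_lit 10846480917) (nat_lit 456) (nat_lit 381490640) (nat_lit 76) (nat_lit 10886400127) (nat_lit 127) (nat_lit 5) (nat_lit 133) (nat_lit 5) (nat_lit 128) (nat_lit 5) (nat_lit 501) (nat_lit 415) (nat_lit 224)) (XT.nd (nat_lit 78) (nat_lit 0) (nat_lit 0) (XT.lf (nat_lit 0) (nat_lit 1868719099) (nat_lit 0) (nat_lit 1868719099) (nat_lit 1444) (nat_lit 734400294) (nat_lit 487) (nat_lit 5) (nat_lit 487) (nat_lit 3) (nat_lit 506) (nat_lit 3) (nat_lit 416) (nat_lit 416) (nat_lit 308)) (XT.lf (nat_lit 0) (nat_lit 8065805174) (nat_lit 0) (nat_lit 376266974) (nat_lit 1444) (nat_lit 572764727) (nat_lit 487) (nat_lit 5) (nat_lit 487) (nat_lit 3) (nat_lit 506) (nat_lit 3)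 (nat_lit 417) (nat_lit 416) (nat_lit 307))))) (XT.nd (nat_lit 234) (nat_lit 0) (nat_lit 76) (XT.nd (nat_lit 78) (nat_lit 0) (nat_lit 0) (XT.lf (nat_lit 0) (nat_lit 355425804) (nat_lit 1520) (nat_lit 5683485354) (nat_lit 1596) (nat_lit 3048101333) (nat_lit 467) (nat_lit 5) (nat_lit 487) (nat_lit 5) (nat_lit 488) (nat_lit 5) (nat_lit 418) (nat_lit 416) (nat_lit 306)) (XT.nd (nat_lit 78) (nat_lit 0) (nat_lit 76) (XT.lf (nat_lit 0) (nat_lit 1280302854) (nat_lit 1520) (nat_lit 1323327231) (nat_lit 1596) (nat_lit 6557220760) (nat_lit 467) (nat_lit 5) (nat_lit 487) (nat_lit 5) (nat_lit 488) (nat_lit 5) (nat_lit 419) (nat_lit 416) (nat_lit 305)) (XT.lf (nat_lit 0) (nat_lit 2227534221) (nat_lit 1520) (nat_lit 6089133600) (nat_lit 1596) (nat_lit 919431590) (nat_lit 468) (nat_lit 5) (nat_lit 488) (nat_lit 5) (nat_lit 489) (nat_lit 5) (nat_lit 420) (nat_lit 416) (nat_lit 304)))) (XT.nd (nat_lit 78) (nat_lit 0) (nat_lit 0) (XT.lf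 (nat_lit 0) (nat_lit 3197658590) (nat_lit 1520) (nat_lit 1618067779) (nat_lit 1596) (nat_lit 4497057981) (nat_lit 468) (nat_lit 5) (nat_lit 488) (nat_lit 5) (nat_lit 489) (nat_lit 5) (nat_lit 421) (nat_lit 416) (nat_lit 303)) (XT.nd (nat_lit 78) (nat_lit 0) (nat_lit 76) (XT.lf (nat_lit 76) (nat_lit 2968912266) (nat_lit 0) (nat_lit 1215752034) (nat_lit 1596) (nat_lit 5206399278) (nat_lit 469) (nat_lit 5) (nat_lit 468) (nat_lit 5) (nat_lit 489) (nat_lit 5) (nat_lit 422) (nat_lit 416) (nat_lit 302)) (XT.lf (nat_lit 0) (nat_lit 5196896374) (nat_lit 1520) (nat_lit 1830006317) (nat_lit 1596) (nat_lit 2443905941) (nat_lit 469) (nat_lit 5) (nat_lit 489) (nat_lit 5) (nat_lit 490) (nat_lit 5) (nat_lit 423) (nat_lit 416) (nat_lit 301))))))))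
noncomputable def xc184 : XT := (XT.nd (nat_lit 1638) (nat_lit 9196) (nat_lit 0) (XT.nd (nat_lit 780) (nat_lit 4712) (nat_lit 0) (XT.nd (nat_lit 390) (nat_lit 0) (nat_lit 0) (XT.nd (nat_lit 156) (nat_lit 1444) (nat_lit 0) (XT.nd (nat_lit 78) (nat_lit 0) (nat_lit 76) (XT.lf (nat_lit 76) (nat_lit 2870974761) (nat_lit 0) (nat_lit 3364118208) (nat_lit 1596) (nat_lit 3316950994) (nat_lit 470) (nat_lit 5) (nat_lit 469) (nat_lit 5) (nat_lit 490) (nat_lit 5) (nat_lit 424) (nat_lit 416) (nat_lit 300)) (XT.lf (nat_lit 0) (nat_lit 7288240740) (nat_lit 1520) (nat_lit 1959373793) (nat_lit 1596) (nat_lit 387415302) (nat_lit 470) (nat_lit 5) (nat_lit 490) (nat_lit 5) (nat_lit 491) (nat_lit 5) (nat_lit 425) (nat_lit 416) (nat_lit 299))) (XT.nd (nat_lit 78) (nat_lit 1520) (nat_lit 0) (XT.lf (nat_lit 76) (nat_lit 2859229841) (nat_lit 0) (nat_lit 5523879127) (nat_lit 1596) (nat_lit 1336162700) (nat_lit 471) (nat_lit 5) (nat_lit 470) (nat_lit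 5) (nat_lit 491) (nat_lit 5) (nat_lit 426) (nat_lit 416) (nat_lit 298)) (XT.nd (nat_lit 78) (nat_lit 1520) (nat_lit 0) (XT.lf (nat_lit 76) (nat_lit 7788103165) (nat_lit 0) (nat_lit 1705047962) (nat_lit 1596) (nat_lit 312190886) (nat_lit 471) (nat_lit 5) (nat_lit 470) (nat_lit 5) (nat_lit 491) (nat_lit 5) (nat_lit 427) (nat_lit 416) (nat_lit 297)) (XT.lf (nat_lit 0) (nat_lit 736571275) (nat_lit 1596) (nat_lit 6963892730) (nat_lit 1672) (nat_lit 2192305233) (nat_lit 450) (nat_lit 5) (nat_lit 471) (nat_lit 5) (nat_lit 472) (nat_lit 5) (nat_lit 428) (nat_lit 416) (nat_lit 296))))) (XT.nd (nat_lit 156) (nat_lit 0) (nat_lit 76) (XT.nd (nat_lit 78) (nat_lit 0) (nat_lit 76) (XT.lf (nat_lit 0) (nat_lit 1807776806) (nat_lit 1596) (nat_lit 2006903456) (nat_lit 1672) (nat_lit 6167119184) (nat_lit 450) (nat_lit 5) (nat_lit 471) (nat_lit 5) (nat_lit 472) (nat_lit 5) (nat_lit 429) (nat_lit 416) (nat_lit 295)) (XT.lf (nat_lit 0) (nat_lit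 2902625538) (nat_lit 1596) (nat_lit 6996940090) (nat_lit 1672) (nat_lit 173008754) (nat_lit 451) (nat_lit 5) (nat_lit 472) (nat_lit 5) (nat_lit 473) (nat_lit 5) (nat_lit 430) (nat_lit 416) (nat_lit 294))) (XT.nd (nat_lit 78) (nat_lit 0) (nat_lit 0) (XT.lf (nat_lit 0) (nat_lit 4039621291) (nat_lit 1596) (nat_lit 1916338353) (nat_lit 1672) (nat_lit 4208808514) (nat_lit 451) (nat_lit 5) (nat_lit 472) (nat_lit 5) (nat_lit 473) (nat_lit 5) (nat_lit 431) (nat_lit 416) (nat_lit 293)) (XT.nd (nat_lit 78) (nat_lit 0) (nat_lit 76) (XT.lf (nat_lit 76) (nat_lit 3296245674) (nat_lit 0) (nat_lit 1906307497) (nat_lit 1672) (nat_lit 5056196889) (nat_lit 452) (nat_lit 5) (nat_lit 451) (nat_lit 5) (nat_lit 473) (nat_lit 5) (nat_lit 432) (nat_lit 416) (nat_lit 292)) (XT.lf (nat_lit 0) (nat_lit 6398232655) (nat_lit 1596) (nat_lit 1742999696) (nat_lit 1672) (nat_lit 2213197487) (nat_lit 452) (nat_lit 5) (nat_lit 473) (nat_lit 5) (nat_lit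 474) (nat_lit 5) (nat_lit 433) (nat_lit 416) (nat_lit 291)))))) (XT.nd (nat_lit 390) (nat_lit 3268) (nat_lit 0) (XT.nd (nat_lit 156) (nat_lit 1596) (nat_lit 0) (XT.nd (nat_lit 78) (nat_lit 0) (nat_lit 76) (XT.lf (nat_lit 76) (nat_lit 3602601554) (nat_lit 0) (nat_lit 4033692426) (nat_lit 1672) (nat_lit 2815367726) (nat_lit 453) (nat_lit 5) (nat_lit 452) (nat_lit 5) (nat_lit 474) (nat_lit 5) (nat_lit 434) (nat_lit 416) (nat_lit 290)) (XT.lf (nat_lit 0) (nat_lit 8894646155) (nat_lit 1596) (nat_lit 1486168039) (nat_lit 1672) (nat_lit 170121132) (nat_lit 453) (nat_lit 5) (nat_lit 474) (nat_lit 5) (nat_lit 475) (nat_lit 5) (nat_lit 435) (nat_lit 416) (nat_lit 289))) (XT.nd (nat_lit 78) (nat_lit 1672) (nat_lit 0) (XT.lf (nat_lit 76) (nat_lit 3996730581) (nat_lit 0) (nat_lit 6217178656) (nat_lit 1672) (nat_lit 437577855) (nat_lit 454) (nat_lit 5) (nat_lit 453) (nat_lit 5) (nat_lit 475) (nat_lit 5) (nat_lit 436) (nat_lit 416)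 (nat_lit 288)) (XT.nd (nat_lit 78) (nat_lit 0) (nat_lit 76) (XT.lf (nat_lit 0) (nat_lit 788194035) (nat_lit 1672) (nat_lit 1162814913) (nat_lit 1748) (nat_lit 8803078595) (nat_lit 431) (nat_lit 5) (nat_lit 453) (nat_lit 5) (nat_lit 454) (nat_lit 5) (nat_lit 437) (nat_lit 416) (nat_lit 287)) (XT.lf (nat_lit 0) (nat_lit 2061089633) (nat_lit 1672) (nat_lit 6392251523) (nat_lit 1748) (nat_lit 2404778768) (nat_lit 432) (nat_lit 5) (nat_lit 454) (nat_lit 5) (nat_lit 455) (nat_lit 5) (nat_lit 438) (nat_lit 416) (nat_lit 286))))) (XT.nd (nat_lit 234) (nat_lit 3344) (nat_lit 0) (XT.nd (nat_lit 78) (nat_lit 0) (nat_lit 76) (XT.lf (nat_lit 0) (nat_lit 3364021746) (nat_lit 1672) (nat_lit 767275063) (nat_lit 1748) (nat_lit 6832851552) (nat_lit 432) (nat_lit 5) (nat_lit 454) (nat_lit 5) (nat_lit 455) (nat_lit 5) (nat_lit 439) (nat_lit 416) (nat_lit 285)) (XT.nd (nat_lit 78) (nat_lit 0) (nat_lit 0) (XT.lf (nat_lit 0) (nat_lit 4711782735)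 (nat_lit 1672) (nat_lit 6050779814) (nat_lit 76) (nat_lit 309366255) (nat_lit 433) (nat_lit 5) (nat_lit 455) (nat_lit 5) (nat_lit 434) (nat_lit 5) (nat_lit 440) (nat_lit 416) (nat_lit 284)) (XT.lf (nat_lit 0) (nat_lit 6103409388) (nat_lit 1672) (nat_lit 286523673) (nat_lit 76) (nat_lit 4791600293) (nat_lit 433) (nat_lit 5) (nat_lit 455) (nat_lit 5) (nat_lit 434) (nat_lit 5) (nat_lit 441) (nat_lit 416) (nat_lit 283)))) (XT.nd (nat_lit 78) (nat_lit 1748) (nat_lit 0) (XT.lf (nat_lit 0) (nat_lit 5654321846) (nat_lit 1672) (nat_lit 1889932794) (nat_lit 1748) (nat_lit 3748654211) (nat_lit 411) (nat_lit 5) (nat_lit 433) (nat_lit 5) (nat_lit 434) (nat_lit 5) (nat_lit 442) (nat_lit 416) (nat_lit 282)) (XT.nd (nat_lit 78) (nat_lit 0) (nat_lit 0) (XT.lf (nat_lit 0) (nat_lit 284490127) (nat_lit 1748) (nat_lit 8735647098) (nat_lit 1824) (nat_lit 2386256671) (nat_lit 388) (nat_lit 5) (nat_lit 411) (nat_lit 5) (nat_lit 412) (nat_lit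 5) (nat_lit 443) (nat_lit 416) (nat_lit 281)) (XT.lf (nat_lit 0) (nat_lit 6376772597) (nat_lit 1748) (nat_lit 4184155253) (nat_lit 1824) (nat_lit 960519303) (nat_lit 388) (nat_lit 5) (nat_lit 411) (nat_lit 5) (nat_lit 412) (nat_lit 5) (nat_lit 444) (nat_lit 416) (nat_lit 280))))))) (XT.nd (nat_lit 780) (nat_lit 4560) (nat_lit 0) (XT.nd (nat_lit 390) (nat_lit 1748) (nat_lit 0) (XT.nd (nat_lit 156) (nat_lit 1748) (nat_lit 0) (XT.nd (nat_lit 78) (nat_lit 0) (nat_lit 0) (XT.lf (nat_lit 0) (nat_lit 481772033) (nat_lit 1140) (nat_lit 10693584290) (nat_lit 76) (nat_lit 463496826) (nat_lit 373) (nat_lit 5) (nat_lit 388) (nat_lit 5) (nat_lit 374) (nat_lit 5) (nat_lit 445) (nat_lit 416) (nat_lit 279)) (XT.lf (nat_lit 0) (nat_lit 1988044457) (nat_lit 1140) (nat_lit 4578641165) (nat_lit 76) (nat_lit 5190840683) (nat_lit 373) (nat_lit 5) (nat_lit 388) (nat_lit 5) (nat_lit 374) (nat_lit 5) (nat_lit 446) (nat_lit 416) (nat_lit 278)))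 (XT.nd (nat_lit 78) (nat_lit 836) (nat_lit 0) (XT.lf (nat_lit 0) (nat_lit 1667555812) (nat_lit 912) (nat_lit 1853520111) (nat_lit 988) (nat_lit 8357570172) (nat_lit 361) (nat_lit 5) (nat_lit 373) (nat_lit 5) (nat_lit 374) (nat_lit 5) (nat_lit 447) (nat_lit 416) (nat_lit 277)) (XT.nd (nat_lit 78) (nat_lit 836) (nat_lit 0) (XT.lf (nat_lit 0) (nat_lit 5120884615) (nat_lit 988) (nat_lit 3933338182) (nat_lit 76) (nat_lit 2947248874) (nat_lit 361) (nat_lit 5) (nat_lit 374) (nat_lit 5) (nat_lit 362) (nat_lit 5) (nat_lit 448) (nat_lit 416) (nat_lit 276)) (XT.lf (nat_lit 0) (nat_lit 2477318183) (nat_lit 836) (nat_lit 4290014279) (nat_lit 912) (nat_lit 5359134051) (nat_lit 350) (nat_lit 5) (nat_lit 361) (nat_lit 5) (nat_lit 362) (nat_lit 5) (nat_lit 449) (nat_lit 416) (nat_lit 275))))) (XT.nd (nat_lit 156) (nat_lit 912) (nat_lit 0) (XT.nd (nat_lit 78) (nat_lit 836) (nat_lit 0) (XT.lf (nat_lit 0) (nat_lit 8463450714) (nat_lit 912)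 (nat_lit 3200863086) (nat_lit 76) (nat_lit 589318127) (nat_lit 350) (nat_lit 5) (nat_lit 362) (nat_lit 5) (nat_lit 351) (nat_lit 5) (nat_lit 450) (nat_lit 416) (nat_lit 274)) (XT.lf (nat_lit 0) (nat_lit 3379493357) (nat_lit 836) (nat_lit 6851090227) (nat_lit 912) (nat_lit 2152020614) (nat_lit 339) (nat_lit 5) (nat_lit 350) (nat_lit 5) (nat_lit 351) (nat_lit 5) (nat_lit 451) (nat_lit 416) (nat_lit 273))) (XT.nd (nat_lit 78) (nat_lit 912) (nat_lit 0) (XT.lf (nat_lit 0) (nat_lit 10122123245) (nat_lit 836) (nat_lit 1919332399) (nat_lit 912) (nat_lit 472537627) (nat_lit 339) (nat_lit 5) (nat_lit 350) (nat_lit 5) (nat_lit 351) (nat_lit 5) (nat_lit 452) (nat_lit 416) (nat_lit 272)) (XT.nd (nat_lit 78) (nat_lit 0) (nat_lit 0) (XT.lf (nat_lit 0) (nat_lit 1260284247) (nat_lit 912) (nat_lit 8279538446) (nat_lit 76) (nat_lit 3107311050) (nat_lit 327) (nat_lit 5) (nat_lit 339) (nat_lit 5) (nat_lit 328) (nat_lit 5) (nat_lit 453) (nat_lit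 416) (nat_lit 271)) (XT.lf (nat_lit 0) (nat_lit 3037565369) (nat_lit 912) (nat_lit 1516717473) (nat_lit 76) (nat_lit 8228274093) (nat_lit 327) (nat_lit 5) (nat_lit 339) (nat_lit 5) (nat_lit 328) (nat_lit 5) (nat_lit 454) (nat_lit 416) (nat_lit 270)))))) (XT.nd (nat_lit 390) (nat_lit 2204) (nat_lit 0) (XT.nd (nat_lit 156) (nat_lit 1520) (nat_lit 0) (XT.nd (nat_lit 78) (nat_lit 0) (nat_lit 0) (XT.lf (nat_lit 0) (nat_lit 4876900073) (nat_lit 912) (nat_lit 7483785287) (nat_lit 76) (nat_lit 559477960) (nat_lit 316) (nat_lit 5) (nat_lit 328) (nat_lit 5) (nat_lit 317) (nat_lit 5) (nat_lit 455) (nat_lit 416) (nat_lit 269)) (XT.lf (nat_lit 0) (nat_lit 6781096698) (nat_lit 912) (nat_lit 554194938) (nat_lit 76) (nat_lit 5724673480) (nat_lit 316) (nat_lit 5) (nat_lit 328) (nat_lit 5) (nat_lit 317) (nat_lit 5) (nat_lit 456) (nat_lit 416) (nat_lit 268))) (XT.nd (nat_lit 78) (nat_lit 760) (nat_lit 0) (XT.lf (nat_lit 0) (nat_lit 6587895114)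 (nat_lit 760) (nat_lit 2166165949) (nat_lit 836) (nat_lit 4447892908) (nat_lit 306) (nat_lit 5) (nat_lit 316) (nat_lit 5) (nat_lit 317) (nat_lit 5) (nat_lit 457) (nat_lit 416) (nat_lit 267)) (XT.nd (nat_lit 78) (nat_lit 0) (nat_lit 0) (XT.lf (nat_lit 0) (nat_lit 507441637) (nat_lit 760) (nat_lit 10274313902) (nat_lit 836) (nat_lit 2564726251) (nat_lit 296) (nat_lit 5) (nat_lit 306) (nat_lit 5) (nat_lit 307) (nat_lit 5) (nat_lit 458) (nat_lit 416) (nat_lit 266)) (XT.lf (nat_lit 0) (nat_lit 7833923081) (nat_lit 760) (nat_lit 5062932340) (nat_lit 836) (nat_lit 596112228) (nat_lit 296) (nat_lit 5) (nat_lit 306) (nat_lit 5) (nat_lit 307) (nat_lit 5) (nat_lit 459) (nat_lit 416) (nat_lit 265))))) (XT.nd (nat_lit 234) (nat_lit 684) (nat_lit 0) (XT.nd (nat_lit 78) (nat_lit 760) (nat_lit 0) (XT.lf (nat_lit 0) (nat_lit 1394299779) (nat_lit 760) (nat_lit 11979251383) (nat_lit 76) (nat_lit 268634211) (nat_lit 286) (nat_lit 5) (nat_lit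 296) (nat_lit 5) (nat_lit 287) (nat_lit 5) (nat_lit 460) (nat_lit 416) (nat_lit 264)) (XT.nd (nat_lit 78) (nat_lit 760) (nat_lit 0) (XT.lf (nat_lit 0) (nat_lit 3476810014) (nat_lit 760) (nat_lit 4635921283) (nat_lit 76) (nat_lit 5680376165) (nat_lit 286) (nat_lit 5) (nat_lit 296) (nat_lit 5) (nat_lit 287) (nat_lit 5) (nat_lit 461) (nat_lit 416) (nat_lit 263)) (XT.lf (nat_lit 0) (nat_lit 2879663621) (nat_lit 760) (nat_lit 2728737299) (nat_lit 836) (nat_lit 8338502634) (nat_lit 276) (nat_lit 5) (nat_lit 286) (nat_lit 5) (nat_lit 287) (nat_lit 5) (nat_lit 462) (nat_lit 416) (nat_lit 262)))) (XT.nd (nat_lit 78) (nat_lit 684) (nat_lit 0) (XT.lf (nat_lit 0) (nat_lit 7820745187) (nat_lit 836) (nat_lit 3525413502) (nat_lit 76) (nat_lit 2756858536) (nat_lit 276) (nat_lit 5) (nat_lit 287) (nat_lit 5) (nat_lit 277) (nat_lit 5) (nat_lit 463) (nat_lit 416) (nat_lit 261)) (XT.nd (nat_lit 78) (nat_lit 0) (nat_lit 0) (XT.lf (nat_lit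 0) (nat_lit 4191884451) (nat_lit 684) (nat_lit 5919825008) (nat_lit 760) (nat_lit 4149860257) (nat_lit 267) (nat_lit 5) (nat_lit 276) (nat_lit 5) (nat_lit 277) (nat_lit 5) (nat_lit 464) (nat_lit 416) (nat_lit 260)) (XT.lf (nat_lit 0) (nat_lit 12099125786) (nat_lit 684) (nat_lit 362244991) (nat_lit 760) (nat_lit 1961668853) (nat_lit 267) (nat_lit 5) (nat_lit 276) (nat_lit 5) (nat_lit 277) (nat_lit 5) (nat_lit 465) (nat_lit 416) (nat_lit 259))))))))
noncomputable def xc185 : XT := (XT.nd (nat_lit 1638) (nat_lit 3572) (nat_lit 0) (XT.nd (nat_lit 780) (nat_lit 3268) (nat_lit 0) (XT.nd (nat_lit 390) (nat_lit 1824) (nat_lit 0) (XT.nd (nat_lit 156) (nat_lit 1216) (nat_lit 0) (XT.nd (nat_lit 78) (nat_lit 0) (nat_lit 0) (XT.lf (nat_lit 0) (nat_lit 327395425) (nat_lit 760) (nat_lit 8985036520) (nat_lit 76) (nat_lit 5274062601) (nat_lit 257) (nat_lit 5) (nat_lit 267) (nat_lit 5) (nat_lit 258) (nat_lit 5) (nat_lit 466) (nat_lit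 416) (nat_lit 258)) (XT.lf (nat_lit 0) (nat_lit 2643574554) (nat_lit 760) (nat_lit 1063782732) (nat_lit 76) (nat_lit 11045453637) (nat_lit 257) (nat_lit 5) (nat_lit 267) (nat_lit 5) (nat_lit 258) (nat_lit 5) (nat_lit 467) (nat_lit 416) (nat_lit 257))) (XT.nd (nat_lit 78) (nat_lit 608) (nat_lit 0) (XT.lf (nat_lit 0) (nat_lit 5055184183) (nat_lit 684) (nat_lit 7838092533) (nat_lit 76) (nat_lit 2028198405) (nat_lit 249) (nat_lit 5) (nat_lit 258) (nat_lit 5) (nat_lit 250) (nat_lit 5) (nat_lit 468) (nat_lit 416) (nat_lit 256)) (XT.nd (nat_lit 78) (nat_lit 0) (nat_lit 0) (XT.lf (nat_lit 0) (nat_lit 281535304) (nat_lit 608) (nat_lit 7256855438) (nat_lit 684) (nat_lit 7554658125) (nat_lit 241) (nat_lit 5) (nat_lit 249) (nat_lit 5) (nat_lit 250) (nat_lit 5) (nat_lit 469) (nat_lit 416) (nat_lit 255)) (XT.lf (nat_lit 0) (nat_lit 8657783694) (nat_lit 608) (nat_lit 1455996418) (nat_lit 684) (nat_lit 5153427092) (nat_lit 241) (nat_lit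 5) (nat_lit 249) (nat_lit 5) (nat_lit 250) (nat_lit 5) (nat_lit 470) (nat_lit 416) (nat_lit 254))))) (XT.nd (nat_lit 156) (nat_lit 1216) (nat_lit 0) (XT.nd (nat_lit 78) (nat_lit 0) (nat_lit 0) (XT.lf (nat_lit 0) (nat_lit 1738574636) (nat_lit 608) (nat_lit 11032459835) (nat_lit 684) (nat_lit 2673210514) (nat_lit 233) (nat_lit 5) (nat_lit 241) (nat_lit 5) (nat_lit 242) (nat_lit 5) (nat_lit 471) (nat_lit 416) (nat_lit 253)) (XT.lf (nat_lit 0) (nat_lit 10321461050) (nat_lit 608) (nat_lit 5204127506) (nat_lit 684) (nat_lit 98355227) (nat_lit 233) (nat_lit 5) (nat_lit 241) (nat_lit 5) (nat_lit 242) (nat_lit 5) (nat_lit 472) (nat_lit 416) (nat_lit 252))) (XT.nd (nat_lit 78) (nat_lit 532) (nat_lit 0) (XT.lf (nat_lit 0) (nat_lit 2511555082) (nat_lit 684) (nat_lit 12528095110) (nat_lit 76) (nat_lit 766927058) (nat_lit 224) (nat_lit 5) (nat_lit 233) (nat_lit 5) (nat_lit 225) (nat_lit 5) (nat_lit 473) (nat_lit 416) (nat_lit 251))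 (XT.nd (nat_lit 78) (nat_lit 532) (nat_lit 0) (XT.lf (nat_lit 0) (nat_lit 5233077428) (nat_lit 684) (nat_lit 3936454489) (nat_lit 76) (nat_lit 6822107012) (nat_lit 224) (nat_lit 5) (nat_lit 233) (nat_lit 5) (nat_lit 225) (nat_lit 5) (nat_lit 474) (nat_lit 416) (nat_lit 250)) (XT.lf (nat_lit 0) (nat_lit 4879351548) (nat_lit 532) (nat_lit 3151993031) (nat_lit 608) (nat_lit 8148614075) (nat_lit 217) (nat_lit 5) (nat_lit 224) (nat_lit 5) (nat_lit 225) (nat_lit 5) (nat_lit 475) (nat_lit 416) (nat_lit 249)))))) (XT.nd (nat_lit 390) (nat_lit 1520) (nat_lit 0) (XT.nd (nat_lit 156) (nat_lit 1140) (nat_lit 0) (XT.nd (nat_lit 78) (nat_lit 608) (nat_lit 0) (XT.lf (nat_lit 0) (nat_lit 10922281805) (nat_lit 608) (nat_lit 2478001760) (nat_lit 76) (nat_lit 2971030151) (nat_lit 217) (nat_lit 5) (nat_lit 225) (nat_lit 5) (nat_lit 218) (nat_lit 5) (nat_lit 476) (nat_lit 416) (nat_lit 248)) (XT.lf (nat_lit 0) (nat_lit 6574885584) (nat_lit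 608) (nat_lit 7350624334) (nat_lit 684) (nat_lit 2639899496) (nat_lit 209) (nat_lit 5) (nat_lit 217) (nat_lit 5) (nat_lit 218) (nat_lit 5) (nat_lit 477) (nat_lit 416) (nat_lit 247))) (XT.nd (nat_lit 78) (nat_lit 1064) (nat_lit 0) (XT.lf (nat_lit 0) (nat_lit 230149024) (nat_lit 684) (nat_lit 933781555) (nat_lit 76) (nat_lit 15599276243) (nat_lit 208) (nat_lit 5) (nat_lit 217) (nat_lit 5) (nat_lit 209) (nat_lit 5) (nat_lit 478) (nat_lit 416) (nat_lit 246)) (XT.nd (nat_lit 78) (nat_lit 532) (nat_lit 0) (XT.lf (nat_lit 0) (nat_lit 3201729001) (nat_lit 608) (nat_lit 8612337056) (nat_lit 76) (nat_lit 5148958359) (nat_lit 201) (nat_lit 5) (nat_lit 209) (nat_lit 5) (nat_lit 202) (nat_lit 5) (nat_lit 479) (nat_lit 416) (nat_lit 245)) (XT.lf (nat_lit 0) (nat_lit 656212565) (nat_lit 532) (nat_lit 5586017346) (nat_lit 608) (nat_lit 10924421413) (nat_lit 194) (nat_lit 5) (nat_lit 201) (nat_lit 5) (nat_lit 202) (nat_lit 5) (nat_lit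 480) (nat_lit 416) (nat_lit 244))))) (XT.nd (nat_lit 234) (nat_lit 1064) (nat_lit 0) (XT.nd (nat_lit 78) (nat_lit 456) (nat_lit 0) (XT.lf (nat_lit 0) (nat_lit 9397988278) (nat_lit 608) (nat_lit 7163197500) (nat_lit 76) (nat_lit 812078743) (nat_lit 194) (nat_lit 5) (nat_lit 202) (nat_lit 5) (nat_lit 195) (nat_lit 5) (nat_lit 481) (nat_lit 416) (nat_lit 243)) (XT.nd (nat_lit 78) (nat_lit 0) (nat_lit 0) (XT.lf (nat_lit 0) (nat_lit 2353570131) (nat_lit 456) (nat_lit 10307030973) (nat_lit 532) (nat_lit 4922536738) (nat_lit 188) (nat_lit 5) (nat_lit 194) (nat_lit 5) (nat_lit 195) (nat_lit 5) (nat_lit 482) (nat_lit 416) (nat_lit 242)) (XT.lf (nat_lit 0) (nat_lit 12146553979) (nat_lit 456) (nat_lit 3881540414) (nat_lit 532) (nat_lit 1768324263) (nat_lit 188) (nat_lit 5) (nat_lit 194) (nat_lit 5) (nat_lit 195) (nat_lit 5) (nat_lit 483) (nat_lit 416) (nat_lit 241)))) (XT.nd (nat_lit 78) (nat_lit 456) (nat_lit 0) (XT.lf (nat_lit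 0) (nat_lit 1466190508) (nat_lit 608) (nat_lit 13875568516) (nat_lit 76) (nat_lit 2671295969) (nat_lit 180) (nat_lit 5) (nat_lit 188) (nat_lit 5) (nat_lit 181) (nat_lit 5) (nat_lit 484) (nat_lit 416) (nat_lit 240)) (XT.nd (nat_lit 78) (nat_lit 456) (nat_lit 0) (XT.lf (nat_lit 0) (nat_lit 4797351183) (nat_lit 608) (nat_lit 4084950551) (nat_lit 76) (nat_lit 9350378325) (nat_lit 180) (nat_lit 5) (nat_lit 188) (nat_lit 5) (nat_lit 181) (nat_lit 5) (nat_lit 485) (nat_lit 416) (nat_lit 239)) (XT.lf (nat_lit 0) (nat_lit 5968793517) (nat_lit 456) (nat_lit 2256997982) (nat_lit 532) (nat_lit 10230295395) (nat_lit 174) (nat_lit 5) (nat_lit 180) (nat_lit 5) (nat_lit 181) (nat_lit 5) (nat_lit 486) (nat_lit 416) (nat_lit 238))))))) (XT.nd (nat_lit 858) (nat_lit 836) (nat_lit 0) (XT.nd (nat_lit 390) (nat_lit 1292) (nat_lit 0) (XT.nd (nat_lit 156) (nat_lit 988) (nat_lit 0) (XT.nd (nat_lit 78) (nat_lit 456) (nat_lit 0) (XT.lf (nat_lit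 0) (nat_lit 11771588920) (nat_lit 532) (nat_lit 2444872048) (nat_lit 76) (nat_lit 4466527478) (nat_lit 174) (nat_lit 5) (nat_lit 181) (nat_lit 5) (nat_lit 175) (nat_lit 5) (nat_lit 487) (nat_lit 416) (nat_lit 237)) (XT.lf (nat_lit 0) (nat_lit 7875921612) (nat_lit 456) (nat_lit 7570593132) (nat_lit 532) (nat_lit 3466751340) (nat_lit 168) (nat_lit 5) (nat_lit 174) (nat_lit 5) (nat_lit 175) (nat_lit 5) (nat_lit 488) (nat_lit 416) (nat_lit 236))) (XT.nd (nat_lit 78) (nat_lit 912) (nat_lit 0) (XT.lf (nat_lit 0) (nat_lit 54851646) (nat_lit 532) (nat_lit 722819966) (nat_lit 76) (nat_lit 18370300289) (nat_lit 167) (nat_lit 5) (nat_lit 174) (nat_lit 5) (nat_lit 168) (nat_lit 5) (nat_lit 489) (nat_lit 416) (nat_lit 235)) (XT.nd (nat_lit 78) (nat_lit 456) (nat_lit 0) (XT.lf (nat_lit 0) (nat_lit 3697559206) (nat_lit 532) (nat_lit 9532124560) (nat_lit 76) (nat_lit 6155290087) (nat_lit 161) (nat_lit 5) (nat_lit 168) (nat_lit 5) (nat_lit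 162) (nat_lit 5) (nat_lit 490) (nat_lit 416) (nat_lit 234)) (XT.lf (nat_lit 0) (nat_lit 1020705215) (nat_lit 456) (nat_lit 6401452490) (nat_lit 532) (nat_lit 12204379531) (nat_lit 155) (nat_lit 5) (nat_lit 161) (nat_lit 5) (nat_lit 162) (nat_lit 5) (nat_lit 491) (nat_lit 416) (nat_lit 233))))) (XT.nd (nat_lit 234) (nat_lit 912) (nat_lit 0) (XT.nd (nat_lit 78) (nat_lit 380) (nat_lit 0) (XT.lf (nat_lit 0) (nat_lit 11281732166) (nat_lit 532) (nat_lit 7972704480) (nat_lit 76) (nat_lit 617287646) (nat_lit 155) (nat_lit 5) (nat_lit 162) (nat_lit 5) (nat_lit 156) (nat_lit 5) (nat_lit 492) (nat_lit 416) (nat_lit 232)) (XT.nd (nat_lit 78) (nat_lit 0) (nat_lit 0) (XT.lf (nat_lit 0) (nat_lit 2857608428) (nat_lit 380) (nat_lit 12414422398) (nat_lit 456) (nat_lit 4848715653) (nat_lit 150) (nat_lit 5) (nat_lit 155) (nat_lit 5) (nat_lit 156) (nat_lit 5) (nat_lit 493) (nat_lit 416) (nat_lit 231)) (XT.lf (nat_lit 0) (nat_lit 14002107680)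 (nat_lit 380) (nat_lit 5386191580) (nat_lit 456) (nat_lit 985528579) (nat_lit 150) (nat_lit 5) (nat_lit 155) (nat_lit 5) (nat_lit 156) (nat_lit 5) (nat_lit 494) (nat_lit 416) (nat_lit 230)))) (XT.nd (nat_lit 78) (nat_lit 380) (nat_lit 0) (XT.lf (nat_lit 0) (nat_lit 2951783970) (nat_lit 532) (nat_lit 15872477506) (nat_lit 76) (nat_lit 1806615248) (nat_lit 143) (nat_lit 5) (nat_lit 150) (nat_lit 5) (nat_lit 144) (nat_lit 5) (nat_lit 495) (nat_lit 416) (nat_lit 229)) (XT.nd (nat_lit 78) (nat_lit 380) (nat_lit 0) (XT.lf (nat_lit 0) (nat_lit 7026181427) (nat_lit 532) (nat_lit 4747641058) (nat_lit 76) (nat_lit 9117685006) (nat_lit 143) (nat_lit 5) (nat_lit 150) (nat_lit 5) (nat_lit 144) (nat_lit 5) (nat_lit 496) (nat_lit 416) (nat_lit 228)) (XT.lf (nat_lit 0) (nat_lit 6677026278) (nat_lit 380) (nat_lit 4541344832) (nat_lit 456) (nat_lit 9938255530) (nat_lit 138) (nat_lit 5) (nat_lit 143) (nat_lit 5) (nat_lit 144) (nat_lit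 5) (nat_lit 497) (nat_lit 416) (nat_lit 227)))))) (XT.nd (nat_lit 53118) (nat_lit 0) (nat_lit 25764) (XT.nd (nat_lit 156) (nat_lit 456) (nat_lit 0) (XT.nd (nat_lit 78) (nat_lit 380) (nat_lit 0) (XT.lf (nat_lit 0) (nat_lit 15537890546) (nat_lit 456) (nat_lit 3060780754) (nat_lit 76) (nat_lit 2827508967) (nat_lit 138) (nat_lit 5) (nat_lit 144) (nat_lit 5) (nat_lit 139) (nat_lit 5) (nat_lit 498) (nat_lit 416) (nat_lit 226)) (XT.lf (nat_lit 0) (nat_lit 8659827582) (nat_lit 380) (nat_lit 11363414460) (nat_lit 456) (nat_lit 1676295872) (nat_lit 133) (nat_lit 5) (nat_lit 138) (nat_lit 5) (nat_lit 139) (nat_lit 5) (nat_lit 499) (nat_lit 416) (nat_lit 225))) (XT.nd (nat_lit 78) (nat_lit 380) (nat_lit 0) (XT.lf (nat_lit 0) (nat_lit 2599416302) (nat_lit 456) (nat_lit 1348874468) (nat_lit 76) (nat_lit 18029456659) (nat_lit 132) (nat_lit 5) (nat_lit 138) (nat_lit 5) (nat_lit 133) (nat_lit 5) (nat_lit 500) (nat_lit 416) (nat_lit 224))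 (XT.nd (nat_lit 52806) (nat_lit 0) (nat_lit 25764) (XT.lf (nat_lit 0) (nat_lit 7024939666) (nat_lit 456) (nat_lit 11589001985) (nat_lit 76) (nat_lit 3645624704) (nat_lit 127) (nat_lit 5) (nat_lit 133) (nat_lit 5) (nat_lit 128) (nat_lit 5) (nat_lit 501) (nat_lit 416) (nat_lit 223)) (XT.lf (nat_lit 0) (nat_lit 153680214) (nat_lit 1596) (nat_lit 2194708307) (nat_lit 1596) (nat_lit 2194708307) (nat_lit 466) (nat_lit 3) (nat_lit 487) (nat_lit 3) (nat_lit 487) (nat_lit 5) (nat_lit 417) (nat_lit 417) (nat_lit 306))))) (XT.nd (nat_lit 234) (nat_lit 0) (nat_lit 152) (XT.nd (nat_lit 78) (nat_lit 0) (nat_lit 76) (XT.lf (nat_lit 0) (nat_lit 1174312886) (nat_lit 1596) (nat_lit 70866455) (nat_lit 1596) (nat_lit 7914195419) (nat_lit 466) (nat_lit 3) (nat_lit 487) (nat_lit 3) (nat_lit 487) (nat_lit 5) (nat_lit 418) (nat_lit 417) (nat_lit 305)) (XT.nd (nat_lit 78) (nat_lit 0) (nat_lit 0) (XT.lf (nat_lit 0) (nat_lit 2079416109) (nat_lit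 1520) (nat_lit 4869012080) (nat_lit 1596) (nat_lit 2285185639) (nat_lit 467) (nat_lit 5) (nat_lit 487) (nat_lit 5) (nat_lit 488) (nat_lit 5) (nat_lit 419) (nat_lit 417) (nat_lit 304)) (XT.lf (nat_lit 0) (nat_lit 2989126352) (nat_lit 1520) (nat_lit 439849678) (nat_lit 1596) (nat_lit 5880641920) (nat_lit 467) (nat_lit 5) (nat_lit 487) (nat_lit 5) (nat_lit 488) (nat_lit 5) (nat_lit 420) (nat_lit 417) (nat_lit 303)))) (XT.nd (nat_lit 78) (nat_lit 0) (nat_lit 0) (XT.lf (nat_lit 0) (nat_lit 3923283883) (nat_lit 1520) (nat_lit 5268183550) (nat_lit 1596) (nat_lit 195559826) (nat_lit 468) (nat_lit 5) (nat_lit 488) (nat_lit 5) (nat_lit 489) (nat_lit 5) (nat_lit 421) (nat_lit 417) (nat_lit 302)) (XT.nd (nat_lit 78) (nat_lit 0) (nat_lit 0) (XT.lf (nat_lit 0) (nat_lit 4880434289) (nat_lit 1520) (nat_lit 726181368) (nat_lit 1596) (nat_lit 3859292870) (nat_lit 468) (nat_lit 5) (nat_lit 488) (nat_lit 5) (nat_lit 489) (nat_lit 5) (nat_lit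 422) (nat_lit 417) (nat_lit 301)) (XT.lf (nat_lit 76) (nat_lit 3946457700) (nat_lit 0) (nat_lit 1914942145) (nat_lit 1596) (nat_lit 3684883905) (nat_lit 469) (nat_lit 5) (nat_lit 468) (nat_lit 5) (nat_lit 489) (nat_lit 5) (nat_lit 423) (nat_lit 417) (nat_lit 300))))))))
noncomputable def xc186 : XT := (XT.nd (nat_lit 1638) (nat_lit 9196) (nat_lit 0) (XT.nd (nat_lit 780) (nat_lit 4636) (nat_lit 0) (XT.nd (nat_lit 390) (nat_lit 0) (nat_lit 76) (XT.nd (nat_lit 156) (nat_lit 1520) (nat_lit 0) (XT.nd (nat_lit 78) (nat_lit 0) (nat_lit 0) (XT.lf (nat_lit 0) (nat_lit 6858344618) (nat_lit 1520) (nat_lit 930184849) (nat_lit 1596) (nat_lit 1839819392) (nat_lit 469) (nat_lit 5) (nat_lit 489) (nat_lit 5) (nat_lit 490) (nat_lit 5) (nat_lit 424) (nat_lit 417) (nat_lit 299)) (XT.lf (nat_lit 76) (nat_lit 3858655182) (nat_lit 0) (nat_lit 4034150416) (nat_lit 1596) (nat_lit 1818907520) (nat_lit 470) (nat_lit 5) (nat_lit 469) (nat_lit 5)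 (nat_lit 490) (nat_lit 5) (nat_lit 425) (nat_lit 417) (nat_lit 298))) (XT.nd (nat_lit 78) (nat_lit 1520) (nat_lit 0) (XT.lf (nat_lit 76) (nat_lit 8743841434) (nat_lit 0) (nat_lit 190516094) (nat_lit 1596) (nat_lit 862668305) (nat_lit 470) (nat_lit 5) (nat_lit 469) (nat_lit 5) (nat_lit 490) (nat_lit 5) (nat_lit 426) (nat_lit 417) (nat_lit 297)) (XT.nd (nat_lit 78) (nat_lit 0) (nat_lit 0) (XT.lf (nat_lit 0) (nat_lit 141263350) (nat_lit 1596) (nat_lit 6027585520) (nat_lit 1672) (nat_lit 3714589239) (nat_lit 449) (nat_lit 5) (nat_lit 470) (nat_lit 5) (nat_lit 471) (nat_lit 5) (nat_lit 427) (nat_lit 417) (nat_lit 296)) (XT.lf (nat_lit 0) (nat_lit 1142873790) (nat_lit 1596) (nat_lit 1113547132) (nat_lit 1672) (nat_lit 7715269313) (nat_lit 449) (nat_lit 5) (nat_lit 470) (nat_lit 5) (nat_lit 471) (nat_lit 5) (nat_lit 428) (nat_lit 417) (nat_lit 295))))) (XT.nd (nat_lit 156) (nat_lit 0) (nat_lit 0) (XT.nd (nat_lit 78) (nat_lit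 0) (nat_lit 0) (XT.lf (nat_lit 0) (nat_lit 2182700339) (nat_lit 1596) (nat_lit 6134822616) (nat_lit 1672) (nat_lit 1743829279) (nat_lit 450) (nat_lit 5) (nat_lit 471) (nat_lit 5) (nat_lit 472) (nat_lit 5) (nat_lit 429) (nat_lit 417) (nat_lit 294)) (XT.lf (nat_lit 0) (nat_lit 3247263360) (nat_lit 1596) (nat_lit 1097680772) (nat_lit 1672) (nat_lit 5807792882) (nat_lit 450) (nat_lit 5) (nat_lit 471) (nat_lit 5) (nat_lit 472) (nat_lit 5) (nat_lit 430) (nat_lit 417) (nat_lit 293))) (XT.nd (nat_lit 78) (nat_lit 0) (nat_lit 76) (XT.lf (nat_lit 76) (nat_lit 4081446137) (nat_lit 0) (nat_lit 260008983) (nat_lit 1672) (nat_lit 5904335797) (nat_lit 451) (nat_lit 5) (nat_lit 450) (nat_lit 5) (nat_lit 472) (nat_lit 5) (nat_lit 431) (nat_lit 417) (nat_lit 292)) (XT.nd (nat_lit 78) (nat_lit 0) (nat_lit 0) (XT.lf (nat_lit 0) (nat_lit 5472461678) (nat_lit 1596) (nat_lit 999545254) (nat_lit 1672) (nat_lit 3868408362) (nat_lit 451) (nat_lit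 5) (nat_lit 472) (nat_lit 5) (nat_lit 473) (nat_lit 5) (nat_lit 432) (nat_lit 417) (nat_lit 291)) (XT.lf (nat_lit 76) (nat_lit 4311006770) (nat_lit 0) (nat_lit 2327295157) (nat_lit 1672) (nat_lit 3798393822) (nat_lit 452) (nat_lit 5) (nat_lit 451) (nat_lit 5) (nat_lit 473) (nat_lit 5) (nat_lit 433) (nat_lit 417) (nat_lit 290)))))) (XT.nd (nat_lit 390) (nat_lit 3268) (nat_lit 0) (XT.nd (nat_lit 156) (nat_lit 1596) (nat_lit 0) (XT.nd (nat_lit 78) (nat_lit 0) (nat_lit 0) (XT.lf (nat_lit 0) (nat_lit 7829346230) (nat_lit 1596) (nat_lit 818495684) (nat_lit 1672) (nat_lit 1887029857) (nat_lit 452) (nat_lit 5) (nat_lit 473) (nat_lit 5) (nat_lit 474) (nat_lit 5) (nat_lit 434) (nat_lit 417) (nat_lit 289)) (XT.lf (nat_lit 76) (nat_lit 4627705986) (nat_lit 0) (nat_lit 4445098705) (nat_lit 1672) (nat_lit 1561642312) (nat_lit 453) (nat_lit 5) (nat_lit 452) (nat_lit 5) (nat_lit 474) (nat_lit 5) (nat_lit 435) (nat_lit 417) (nat_lit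 288))) (XT.nd (nat_lit 78) (nat_lit 1596) (nat_lit 0) (XT.lf (nat_lit 76) (nat_lit 10181592166) (nat_lit 0) (nat_lit 148417888) (nat_lit 1672) (nat_lit 406233538) (nat_lit 453) (nat_lit 5) (nat_lit 452) (nat_lit 5) (nat_lit 474) (nat_lit 5) (nat_lit 436) (nat_lit 417) (nat_lit 287)) (XT.nd (nat_lit 78) (nat_lit 0) (nat_lit 0) (XT.lf (nat_lit 0) (nat_lit 806342378) (nat_lit 1672) (nat_lit 5811971670) (nat_lit 1748) (nat_lit 4220785146) (nat_lit 431) (nat_lit 5) (nat_lit 453) (nat_lit 5) (nat_lit 454) (nat_lit 5) (nat_lit 437) (nat_lit 417) (nat_lit 286)) (XT.lf (nat_lit 0) (nat_lit 2026328602) (nat_lit 1672) (nat_lit 232167186) (nat_lit 1748) (nat_lit 8685697430) (nat_lit 431) (nat_lit 5) (nat_lit 453) (nat_lit 5) (nat_lit 454) (nat_lit 5) (nat_lit 438) (nat_lit 417) (nat_lit 285))))) (XT.nd (nat_lit 234) (nat_lit 3344) (nat_lit 0) (XT.nd (nat_lit 78) (nat_lit 0) (nat_lit 0) (XT.lf (nat_lit 0) (nat_lit 3305198551) (nat_lit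 1672) (nat_lit 5546190672) (nat_lit 1748) (nat_lit 2199317062) (nat_lit 432) (nat_lit 5) (nat_lit 454) (nat_lit 5) (nat_lit 455) (nat_lit 5) (nat_lit 439) (nat_lit 417) (nat_lit 284)) (XT.nd (nat_lit 78) (nat_lit 0) (nat_lit 76) (XT.lf (nat_lit 76) (nat_lit 174477425) (nat_lit 0) (nat_lit 4437258682) (nat_lit 1748) (nat_lit 6547578410) (nat_lit 433) (nat_lit 5) (nat_lit 432) (nat_lit 5) (nat_lit 455) (nat_lit 5) (nat_lit 440) (nat_lit 417) (nat_lit 283)) (XT.lf (nat_lit 0) (nat_lit 5966966232) (nat_lit 1672) (nat_lit 5198134291) (nat_lit 76) (nat_lit 104549730) (nat_lit 433) (nat_lit 5) (nat_lit 455) (nat_lit 5) (nat_lit 434) (nat_lit 5) (nat_lit 441) (nat_lit 417) (nat_lit 282)))) (XT.nd (nat_lit 78) (nat_lit 1748) (nat_lit 0) (XT.lf (nat_lit 0) (nat_lit 671117402) (nat_lit 1672) (nat_lit 6696901672) (nat_lit 1748) (nat_lit 4013805715) (nat_lit 411) (nat_lit 5) (nat_lit 433) (nat_lit 5) (nat_lit 434) (nat_lit 5) (nat_lit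 442) (nat_lit 417) (nat_lit 281)) (XT.nd (nat_lit 78) (nat_lit 1748) (nat_lit 0) (XT.lf (nat_lit 0) (nat_lit 6715697943) (nat_lit 1672) (nat_lit 2101465537) (nat_lit 1748) (nat_lit 2678684247) (nat_lit 411) (nat_lit 5) (nat_lit 433) (nat_lit 5) (nat_lit 434) (nat_lit 5) (nat_lit 443) (nat_lit 417) (nat_lit 280)) (XT.lf (nat_lit 0) (nat_lit 1256119933) (nat_lit 1748) (nat_lit 9049608961) (nat_lit 1824) (nat_lit 1306219663) (nat_lit 388) (nat_lit 5) (nat_lit 411) (nat_lit 5) (nat_lit 412) (nat_lit 5) (nat_lit 444) (nat_lit 417) (nat_lit 279))))))) (XT.nd (nat_lit 858) (nat_lit 4560) (nat_lit 0) (XT.nd (nat_lit 390) (nat_lit 2584) (nat_lit 0) (XT.nd (nat_lit 156) (nat_lit 912) (nat_lit 0) (XT.nd (nat_lit 78) (nat_lit 1064) (nat_lit 0) (XT.lf (nat_lit 0) (nat_lit 124268011) (nat_lit 1824) (nat_lit 4279254994) (nat_lit 76) (nat_lit 7326206138) (nat_lit 387) (nat_lit 5) (nat_lit 411) (nat_lit 5) (nat_lit 388) (nat_lit 5) (nat_lit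 445) (nat_lit 417) (nat_lit 278)) (XT.lf (nat_lit 0) (nat_lit 1566584027) (nat_lit 1140) (nat_lit 9929089798) (nat_lit 76) (nat_lit 354010493) (nat_lit 373) (nat_lit 5) (nat_lit 388) (nat_lit 5) (nat_lit 374) (nat_lit 5) (nat_lit 446) (nat_lit 417) (nat_lit 277))) (XT.nd (nat_lit 78) (nat_lit 912) (nat_lit 0) (XT.lf (nat_lit 0) (nat_lit 3081900007) (nat_lit 1140) (nat_lit 3711031462) (nat_lit 76) (nat_lit 5178229782) (nat_lit 373) (nat_lit 5) (nat_lit 388) (nat_lit 5) (nat_lit 374) (nat_lit 5) (nat_lit 447) (nat_lit 417) (nat_lit 276)) (XT.nd (nat_lit 78) (nat_lit 0) (nat_lit 0) (XT.lf (nat_lit 0) (nat_lit 2653779043) (nat_lit 912) (nat_lit 1977331214) (nat_lit 988) (nat_lit 7463891320) (nat_lit 361) (nat_lit 5) (nat_lit 373) (nat_lit 5) (nat_lit 374) (nat_lit 5) (nat_lit 448) (nat_lit 417) (nat_lit 275)) (XT.lf (nat_lit 0) (nat_lit 6241978423) (nat_lit 988) (nat_lit 3056463051) (nat_lit 76) (nat_lit 2922269263) (nat_lit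 361) (nat_lit 5) (nat_lit 374) (nat_lit 5) (nat_lit 362) (nat_lit 5) (nat_lit 449) (nat_lit 417) (nat_lit 274))))) (XT.nd (nat_lit 234) (nat_lit 912) (nat_lit 0) (XT.nd (nat_lit 78) (nat_lit 836) (nat_lit 0) (XT.lf (nat_lit 0) (nat_lit 3476119982) (nat_lit 836) (nat_lit 4431424400) (nat_lit 912) (nat_lit 4440945484) (nat_lit 350) (nat_lit 5) (nat_lit 361) (nat_lit 5) (nat_lit 362) (nat_lit 5) (nat_lit 450) (nat_lit 417) (nat_lit 273)) (XT.nd (nat_lit 78) (nat_lit 836) (nat_lit 0) (XT.lf (nat_lit 0) (nat_lit 9617527781) (nat_lit 912) (nat_lit 2313779887) (nat_lit 76) (nat_lit 547300076) (nat_lit 350) (nat_lit 5) (nat_lit 362) (nat_lit 5) (nat_lit 351) (nat_lit 5) (nat_lit 451) (nat_lit 417) (nat_lit 272)) (XT.lf (nat_lit 0) (nat_lit 4391926444) (nat_lit 836) (nat_lit 7014901451) (nat_lit 912) (nat_lit 1203602930) (nat_lit 339) (nat_lit 5) (nat_lit 350) (nat_lit 5) (nat_lit 351) (nat_lit 5) (nat_lit 452) (nat_lit 417)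 (nat_lit 271)))) (XT.nd (nat_lit 78) (nat_lit 836) (nat_lit 0) (XT.lf (nat_lit 0) (nat_lit 483602537) (nat_lit 912) (nat_lit 1497135419) (nat_lit 76) (nat_lit 10764034827) (nat_lit 338) (nat_lit 5) (nat_lit 350) (nat_lit 5) (nat_lit 339) (nat_lit 5) (nat_lit 453) (nat_lit 417) (nat_lit 270)) (XT.nd (nat_lit 78) (nat_lit 0) (nat_lit 0) (XT.lf (nat_lit 0) (nat_lit 2231923559) (nat_lit 912) (nat_lit 7492480518) (nat_lit 76) (nat_lit 3156373520) (nat_lit 327) (nat_lit 5) (nat_lit 339) (nat_lit 5) (nat_lit 328) (nat_lit 5) (nat_lit 454) (nat_lit 417) (nat_lit 269)) (XT.lf (nat_lit 0) (nat_lit 4026192781) (nat_lit 912) (nat_lit 613082512) (nat_lit 76) (nat_lit 8380012369) (nat_lit 327) (nat_lit 5) (nat_lit 339) (nat_lit 5) (nat_lit 328) (nat_lit 5) (nat_lit 455) (nat_lit 417) (nat_lit 268)))))) (XT.nd (nat_lit 390) (nat_lit 2128) (nat_lit 0) (XT.nd (nat_lit 156) (nat_lit 836) (nat_lit 0) (XT.nd (nat_lit 78) (nat_lit 760) (nat_lit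 0) (XT.lf (nat_lit 0) (nat_lit 5890223263) (nat_lit 912) (nat_lit 6687044993) (nat_lit 76) (nat_lit 582626852) (nat_lit 316) (nat_lit 5) (nat_lit 328) (nat_lit 5) (nat_lit 317) (nat_lit 5) (nat_lit 456) (nat_lit 417) (nat_lit 267)) (XT.lf (nat_lit 0) (nat_lit 367398483) (nat_lit 760) (nat_lit 7449534160) (nat_lit 836) (nat_lit 5485878697) (nat_lit 306) (nat_lit 5) (nat_lit 316) (nat_lit 5) (nat_lit 317) (nat_lit 5) (nat_lit 457) (nat_lit 417) (nat_lit 266))) (XT.nd (nat_lit 78) (nat_lit 836) (nat_lit 0) (XT.lf (nat_lit 0) (nat_lit 7641407505) (nat_lit 760) (nat_lit 2173943554) (nat_lit 836) (nat_lit 3632575856) (nat_lit 306) (nat_lit 5) (nat_lit 316) (nat_lit 5) (nat_lit 317) (nat_lit 5) (nat_lit 458) (nat_lit 417) (nat_lit 265)) (XT.nd (nat_lit 78) (nat_lit 76) (nat_lit 0) (XT.lf (nat_lit 0) (nat_lit 1450998795) (nat_lit 760) (nat_lit 10421510554) (nat_lit 836) (nat_lit 1723064448) (nat_lit 296) (nat_lit 5) (nat_lit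 306) (nat_lit 5) (nat_lit 307) (nat_lit 5) (nat_lit 459) (nat_lit 417) (nat_lit 264)) (XT.lf (nat_lit 0) (nat_lit 263905738) (nat_lit 836) (nat_lit 4841367609) (nat_lit 76) (nat_lit 8640031059) (nat_lit 295) (nat_lit 5) (nat_lit 306) (nat_lit 5) (nat_lit 296) (nat_lit 5) (nat_lit 460) (nat_lit 417) (nat_lit 263))))) (XT.nd (nat_lit 234) (nat_lit 684) (nat_lit 0) (XT.nd (nat_lit 78) (nat_lit 760) (nat_lit 0) (XT.lf (nat_lit 0) (nat_lit 2275629779) (nat_lit 760) (nat_lit 11281088680) (nat_lit 76) (nat_lit 340925824) (nat_lit 286) (nat_lit 5) (nat_lit 296) (nat_lit 5) (nat_lit 287) (nat_lit 5) (nat_lit 461) (nat_lit 417) (nat_lit 262)) (XT.nd (nat_lit 78) (nat_lit 760) (nat_lit 0) (XT.lf (nat_lit 0) (nat_lit 4383056023) (nat_lit 760) (nat_lit 3809279188) (nat_lit 76) (nat_lit 5859590482) (nat_lit 286) (nat_lit 5) (nat_lit 296) (nat_lit 5) (nat_lit 287) (nat_lit 5) (nat_lit 462) (nat_lit 417) (nat_lit 261)) (XT.lf (nat_lit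 0) (nat_lit 3850568989) (nat_lit 760) (nat_lit 2696233511) (nat_lit 836) (nat_lit 7662210804) (nat_lit 276) (nat_lit 5) (nat_lit 286) (nat_lit 5) (nat_lit 287) (nat_lit 5) (nat_lit 463) (nat_lit 417) (nat_lit 260)))) (XT.nd (nat_lit 78) (nat_lit 684) (nat_lit 0) (XT.lf (nat_lit 0) (nat_lit 8787747280) (nat_lit 836) (nat_lit 2684573688) (nat_lit 76) (nat_lit 2896247162) (nat_lit 276) (nat_lit 5) (nat_lit 287) (nat_lit 5) (nat_lit 277) (nat_lit 5) (nat_lit 464) (nat_lit 417) (nat_lit 259)) (XT.nd (nat_lit 78) (nat_lit 0) (nat_lit 0) (XT.lf (nat_lit 0) (nat_lit 5181074512) (nat_lit 684) (nat_lit 5933440607) (nat_lit 760) (nat_lit 3415982703) (nat_lit 267) (nat_lit 5) (nat_lit 276) (nat_lit 5) (nat_lit 277) (nat_lit 5) (nat_lit 465) (nat_lit 417) (nat_lit 258)) (XT.lf (nat_lit 0) (nat_lit 13228708667) (nat_lit 684) (nat_lit 266763517) (nat_lit 760) (nat_lit 1200044623) (nat_lit 267) (nat_lit 5) (nat_lit 276) (nat_lit 5)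 (nat_lit 277) (nat_lit 5) (nat_lit 466) (nat_lit 417) (nat_lit 257))))))))
noncomputable def xc187 : XT := (XT.nd (nat_lit 1638) (nat_lit 3192) (nat_lit 0) (XT.nd (nat_lit 780) (nat_lit 3268) (nat_lit 0) (XT.nd (nat_lit 390) (nat_lit 1824) (nat_lit 0) (XT.nd (nat_lit 156) (nat_lit 1216) (nat_lit 0) (XT.nd (nat_lit 78) (nat_lit 0) (nat_lit 0) (XT.lf (nat_lit 0) (nat_lit 1115320964) (nat_lit 760) (nat_lit 8257101358) (nat_lit 76) (nat_lit 5489899538) (nat_lit 257) (nat_lit 5) (nat_lit 267) (nat_lit 5) (nat_lit 258) (nat_lit 5) (nat_lit 467) (nat_lit 417) (nat_lit 256)) (XT.lf (nat_lit 0) (nat_lit 3462502546) (nat_lit 760) (nat_lit 195219277) (nat_lit 76) (nat_lit 11374554557) (nat_lit 257) (nat_lit 5) (nat_lit 267) (nat_lit 5) (nat_lit 258) (nat_lit 5) (nat_lit 468) (nat_lit 417) (nat_lit 255))) (XT.nd (nat_lit 78) (nat_lit 608) (nat_lit 0) (XT.lf (nat_lit 0) (nat_lit 5913888998) (nat_lit 684) (nat_lit 7096295558) (nat_lit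 76) (nat_lit 2194303699) (nat_lit 249) (nat_lit 5) (nat_lit 258) (nat_lit 5) (nat_lit 250) (nat_lit 5) (nat_lit 469) (nat_lit 417) (nat_lit 254)) (XT.nd (nat_lit 78) (nat_lit 0) (nat_lit 0) (XT.lf (nat_lit 0) (nat_lit 1179813265) (nat_lit 608) (nat_lit 7257887157) (nat_lit 684) (nat_lit 6941979423) (nat_lit 241) (nat_lit 5) (nat_lit 249) (nat_lit 5) (nat_lit 250) (nat_lit 5) (nat_lit 470) (nat_lit 417) (nat_lit 253)) (XT.lf (nat_lit 0) (nat_lit 9706083735) (nat_lit 608) (nat_lit 1343836552) (nat_lit 684) (nat_lit 4507699688) (nat_lit 241) (nat_lit 5) (nat_lit 249) (nat_lit 5) (nat_lit 250) (nat_lit 5) (nat_lit 471) (nat_lit 417) (nat_lit 252))))) (XT.nd (nat_lit 156) (nat_lit 1140) (nat_lit 0) (XT.nd (nat_lit 78) (nat_lit 76) (nat_lit 0) (XT.lf (nat_lit 0) (nat_lit 2656654860) (nat_lit 608) (nat_lit 11095909695) (nat_lit 684) (nat_lit 1985794043) (nat_lit 233) (nat_lit 5) (nat_lit 241) (nat_lit 5) (nat_lit 242) (nat_lit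 5) (nat_lit 472) (nat_lit 417) (nat_lit 251)) (XT.lf (nat_lit 0) (nat_lit 617820764) (nat_lit 684) (nat_lit 4532126393) (nat_lit 76) (nat_lit 10771912555) (nat_lit 232) (nat_lit 5) (nat_lit 241) (nat_lit 5) (nat_lit 233) (nat_lit 5) (nat_lit 473) (nat_lit 417) (nat_lit 250))) (XT.nd (nat_lit 78) (nat_lit 532) (nat_lit 0) (XT.lf (nat_lit 0) (nat_lit 3271255705) (nat_lit 684) (nat_lit 11895309816) (nat_lit 76) (nat_lit 941719153) (nat_lit 224) (nat_lit 5) (nat_lit 233) (nat_lit 5) (nat_lit 225) (nat_lit 5) (nat_lit 474) (nat_lit 417) (nat_lit 249)) (XT.nd (nat_lit 78) (nat_lit 532) (nat_lit 0) (XT.lf (nat_lit 0) (nat_lit 6033297331) (nat_lit 684) (nat_lit 3149156916) (nat_lit 76) (nat_lit 7114876166) (nat_lit 224) (nat_lit 5) (nat_lit 233) (nat_lit 5) (nat_lit 225) (nat_lit 5) (nat_lit 475) (nat_lit 417) (nat_lit 248)) (XT.lf (nat_lit 0) (nat_lit 5837267698) (nat_lit 532) (nat_lit 3042209554) (nat_lit 608) (nat_lit 7610104842)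 (nat_lit 217) (nat_lit 5) (nat_lit 224) (nat_lit 5) (nat_lit 225) (nat_lit 5) (nat_lit 476) (nat_lit 417) (nat_lit 247)))))) (XT.nd (nat_lit 390) (nat_lit 1520) (nat_lit 0) (XT.nd (nat_lit 156) (nat_lit 1140) (nat_lit 0) (XT.nd (nat_lit 78) (nat_lit 608) (nat_lit 0) (XT.lf (nat_lit 0) (nat_lit 11815852799) (nat_lit 608) (nat_lit 1671500258) (nat_lit 76) (nat_lit 3197663232) (nat_lit 217) (nat_lit 5) (nat_lit 225) (nat_lit 5) (nat_lit 218) (nat_lit 5) (nat_lit 477) (nat_lit 417) (nat_lit 246)) (XT.lf (nat_lit 0) (nat_lit 7556812849) (nat_lit 608) (nat_lit 7314616427) (nat_lit 684) (nat_lit 2011723287) (nat_lit 209) (nat_lit 5) (nat_lit 217) (nat_lit 5) (nat_lit 218) (nat_lit 5) (nat_lit 478) (nat_lit 417) (nat_lit 245))) (XT.nd (nat_lit 78) (nat_lit 1064) (nat_lit 0) (XT.lf (nat_lit 0) (nat_lit 893617788) (nat_lit 684) (nat_lit 109738308) (nat_lit 76) (nat_lit 16081729112) (nat_lit 208) (nat_lit 5) (nat_lit 217) (nat_lit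 5) (nat_lit 209) (nat_lit 5) (nat_lit 479) (nat_lit 417) (nat_lit 244)) (XT.nd (nat_lit 78) (nat_lit 532) (nat_lit 0) (XT.lf (nat_lit 0) (nat_lit 3918352207) (nat_lit 608) (nat_lit 7935383414) (nat_lit 76) (nat_lit 5435293161) (nat_lit 201) (nat_lit 5) (nat_lit 209) (nat_lit 5) (nat_lit 202) (nat_lit 5) (nat_lit 480) (nat_lit 417) (nat_lit 243)) (XT.lf (nat_lit 0) (nat_lit 1512950355) (nat_lit 532) (nat_lit 5499394225) (nat_lit 608) (nat_lit 10484534029) (nat_lit 194) (nat_lit 5) (nat_lit 201) (nat_lit 5) (nat_lit 202) (nat_lit 5) (nat_lit 481) (nat_lit 417) (nat_lit 242))))) (XT.nd (nat_lit 234) (nat_lit 1064) (nat_lit 0) (XT.nd (nat_lit 78) (nat_lit 456) (nat_lit 0) (XT.lf (nat_lit 0) (nat_lit 10219828286) (nat_lit 608) (nat_lit 6467803114) (nat_lit 76) (nat_lit 1020224394) (nat_lit 194) (nat_lit 5) (nat_lit 202) (nat_lit 5) (nat_lit 195) (nat_lit 5) (nat_lit 482) (nat_lit 417) (nat_lit 241)) (XT.nd (nat_lit 78) (nat_lit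 0) (nat_lit 0) (XT.lf (nat_lit 0) (nat_lit 3233782380) (nat_lit 456) (nat_lit 10306891266) (nat_lit 532) (nat_lit 4381397179) (nat_lit 188) (nat_lit 5) (nat_lit 194) (nat_lit 5) (nat_lit 195) (nat_lit 5) (nat_lit 483) (nat_lit 417) (nat_lit 240)) (XT.lf (nat_lit 0) (nat_lit 13206289810) (nat_lit 456) (nat_lit 3756935609) (nat_lit 532) (nat_lit 1176641441) (nat_lit 188) (nat_lit 5) (nat_lit 194) (nat_lit 5) (nat_lit 195) (nat_lit 5) (nat_lit 484) (nat_lit 417) (nat_lit 239)))) (XT.nd (nat_lit 78) (nat_lit 456) (nat_lit 0) (XT.lf (nat_lit 0) (nat_lit 2108877498) (nat_lit 608) (nat_lit 13322222469) (nat_lit 76) (nat_lit 2929767408) (nat_lit 180) (nat_lit 5) (nat_lit 188) (nat_lit 5) (nat_lit 181) (nat_lit 5) (nat_lit 485) (nat_lit 417) (nat_lit 238)) (XT.nd (nat_lit 78) (nat_lit 456) (nat_lit 0) (XT.lf (nat_lit 0) (nat_lit 5494634657) (nat_lit 608) (nat_lit 3352083466) (nat_lit 76) (nat_lit 9738410911) (nat_lit 180) (nat_lit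 5) (nat_lit 188) (nat_lit 5) (nat_lit 181) (nat_lit 5) (nat_lit 486) (nat_lit 417) (nat_lit 237)) (XT.lf (nat_lit 0) (nat_lit 6897376496) (nat_lit 456) (nat_lit 2087730282) (nat_lit 532) (nat_lit 9828031456) (nat_lit 174) (nat_lit 5) (nat_lit 180) (nat_lit 5) (nat_lit 181) (nat_lit 5) (nat_lit 487) (nat_lit 417) (nat_lit 236))))))) (XT.nd (nat_lit 858) (nat_lit 456) (nat_lit 0) (XT.nd (nat_lit 390) (nat_lit 1292) (nat_lit 0) (XT.nd (nat_lit 156) (nat_lit 988) (nat_lit 0) (XT.nd (nat_lit 78) (nat_lit 456) (nat_lit 0) (XT.lf (nat_lit 0) (nat_lit 12591522194) (nat_lit 532) (nat_lit 1689960244) (nat_lit 76) (nat_lit 4763304758) (nat_lit 174) (nat_lit 5) (nat_lit 181) (nat_lit 5) (nat_lit 175) (nat_lit 5) (nat_lit 488) (nat_lit 417) (nat_lit 235)) (XT.lf (nat_lit 0) (nat_lit 8831961070) (nat_lit 456) (nat_lit 7501709179) (nat_lit 532) (nat_lit 2946129015) (nat_lit 168) (nat_lit 5) (nat_lit 174) (nat_lit 5) (nat_lit 175) (nat_lit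 5) (nat_lit 489) (nat_lit 417) (nat_lit 234))) (XT.nd (nat_lit 78) (nat_lit 456) (nat_lit 0) (XT.lf (nat_lit 0) (nat_lit 54042978) (nat_lit 456) (nat_lit 573060460) (nat_lit 532) (nat_lit 18892243679) (nat_lit 161) (nat_lit 5) (nat_lit 167) (nat_lit 5) (nat_lit 168) (nat_lit 5) (nat_lit 490) (nat_lit 417) (nat_lit 233)) (XT.nd (nat_lit 78) (nat_lit 456) (nat_lit 0) (XT.lf (nat_lit 0) (nat_lit 4337654351) (nat_lit 532) (nat_lit 8927338606) (nat_lit 76) (nat_lit 6496199527) (nat_lit 161) (nat_lit 5) (nat_lit 168) (nat_lit 5) (nat_lit 162) (nat_lit 5) (nat_lit 491) (nat_lit 417) (nat_lit 232)) (XT.lf (nat_lit 0) (nat_lit 1831314683) (nat_lit 456) (nat_lit 6299459747) (nat_lit 532) (nat_lit 11876935209) (nat_lit 155) (nat_lit 5) (nat_lit 161) (nat_lit 5) (nat_lit 162) (nat_lit 5) (nat_lit 492) (nat_lit 417) (nat_lit 231))))) (XT.nd (nat_lit 234) (nat_lit 912) (nat_lit 0) (XT.nd (nat_lit 78) (nat_lit 380) (nat_lit 0) (XT.lf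 (nat_lit 0) (nat_lit 12058020755) (nat_lit 532) (nat_lit 7347785775) (nat_lit 76) (nat_lit 852187336) (nat_lit 155) (nat_lit 5) (nat_lit 162) (nat_lit 5) (nat_lit 156) (nat_lit 5) (nat_lit 493) (nat_lit 417) (nat_lit 230)) (XT.nd (nat_lit 78) (nat_lit 0) (nat_lit 0) (XT.lf (nat_lit 0) (nat_lit 3693973044) (nat_lit 380) (nat_lit 12428414371) (nat_lit 456) (nat_lit 4389726817) (nat_lit 150) (nat_lit 5) (nat_lit 155) (nat_lit 5) (nat_lit 156) (nat_lit 5) (nat_lit 494) (nat_lit 417) (nat_lit 229)) (XT.lf (nat_lit 0) (nat_lit 15046083606) (nat_lit 380) (nat_lit 5264212986) (nat_lit 456) (nat_lit 460177240) (nat_lit 150) (nat_lit 5) (nat_lit 155) (nat_lit 5) (nat_lit 156) (nat_lit 5) (nat_lit 495) (nat_lit 417) (nat_lit 228)))) (XT.nd (nat_lit 78) (nat_lit 380) (nat_lit 0) (XT.lf (nat_lit 0) (nat_lit 3544678077) (nat_lit 532) (nat_lit 15414506453) (nat_lit 76) (nat_lit 2073492289) (nat_lit 143) (nat_lit 5) (nat_lit 150) (nat_lit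 5) (nat_lit 144) (nat_lit 5) (nat_lit 496) (nat_lit 417) (nat_lit 227)) (XT.nd (nat_lit 78) (nat_lit 380) (nat_lit 0) (XT.lf (nat_lit 0) (nat_lit 7690095671) (nat_lit 532) (nat_lit 4082377602) (nat_lit 76) (nat_lit 9526259036) (nat_lit 143) (nat_lit 5) (nat_lit 150) (nat_lit 5) (nat_lit 144) (nat_lit 5) (nat_lit 497) (nat_lit 417) (nat_lit 226)) (XT.lf (nat_lit 0) (nat_lit 7565781657) (nat_lit 380) (nat_lit 4394988285) (nat_lit 456) (nat_lit 9608493779) (nat_lit 138) (nat_lit 5) (nat_lit 143) (nat_lit 5) (nat_lit 144) (nat_lit 5) (nat_lit 498) (nat_lit 417) (nat_lit 225)))))) (XT.nd (nat_lit 53196) (nat_lit 0) (nat_lit 25460) (XT.nd (nat_lit 156) (nat_lit 76) (nat_lit 0) (XT.nd (nat_lit 78) (nat_lit 380) (nat_lit 0) (XT.lf (nat_lit 0) (nat_lit 16358032045) (nat_lit 456) (nat_lit 2372809748) (nat_lit 76) (nat_lit 3113542226) (nat_lit 138) (nat_lit 5) (nat_lit 144) (nat_lit 5) (nat_lit 139) (nat_lit 5) (nat_lit 499) (nat_lit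 417) (nat_lit 224)) (XT.lf (nat_lit 0) (nat_lit 9577281895) (nat_lit 380) (nat_lit 11350652975) (nat_lit 456) (nat_lit 1195379654) (nat_lit 133) (nat_lit 5) (nat_lit 138) (nat_lit 5) (nat_lit 139) (nat_lit 5) (nat_lit 500) (nat_lit 417) (nat_lit 223))) (XT.nd (nat_lit 52884) (nat_lit 0) (nat_lit 25384) (XT.lf (nat_lit 0) (nat_lit 3149144957) (nat_lit 456) (nat_lit 639448221) (nat_lit 76) (nat_lit 18618629837) (nat_lit 132) (nat_lit 5) (nat_lit 138) (nat_lit 5) (nat_lit 133) (nat_lit 5) (nat_lit 501) (nat_lit 417) (nat_lit 222)) (XT.nd (nat_lit 78) (nat_lit 0) (nat_lit 0) (XT.lf (nat_lit 0) (nat_lit 1015023797) (nat_lit 1596) (nat_lit 1800684465) (nat_lit 1596) (nat_lit 1800684465) (nat_lit 466) (nat_lit 3) (nat_lit 487) (nat_lit 3) (nat_lit 487) (nat_lit 5) (nat_lit 418) (nat_lit 418) (nat_lit 304)) (XT.lf (nat_lit 76) (nat_lit 796829538) (nat_lit 0) (nat_lit 2089025463) (nat_lit 1596) (nat_lit 6422160573) (nat_lit 467)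 (nat_lit 5) (nat_lit 466) (nat_lit 3) (nat_lit 487) (nat_lit 5) (nat_lit 419) (nat_lit 418) (nat_lit 303))))) (XT.nd (nat_lit 234) (nat_lit 0) (nat_lit 76) (XT.nd (nat_lit 78) (nat_lit 0) (nat_lit 0) (XT.lf (nat_lit 0) (nat_lit 3771217608) (nat_lit 1520) (nat_lit 4074290265) (nat_lit 1596) (nat_lit 1539003808) (nat_lit 467) (nat_lit 5) (nat_lit 487) (nat_lit 5) (nat_lit 488) (nat_lit 5) (nat_lit 420) (nat_lit 418) (nat_lit 302)) (XT.nd (nat_lit 78) (nat_lit 0) (nat_lit 0) (XT.lf (nat_lit 76) (nat_lit 431624014) (nat_lit 0) (nat_lit 4237943310) (nat_lit 1596) (nat_lit 4793074757) (nat_lit 468) (nat_lit 5) (nat_lit 467) (nat_lit 5) (nat_lit 488) (nat_lit 5) (nat_lit 421) (nat_lit 418) (nat_lit 301)) (XT.lf (nat_lit 76) (nat_lit 5071414987) (nat_lit 0) (nat_lit 520796840) (nat_lit 1596) (nat_lit 3950006477) (nat_lit 468) (nat_lit 5) (nat_lit 467) (nat_lit 5) (nat_lit 488) (nat_lit 5) (nat_lit 422) (nat_lit 418) (nat_lit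 300)))) (XT.nd (nat_lit 78) (nat_lit 0) (nat_lit 0) (XT.lf (nat_lit 76) (nat_lit 149615335) (nat_lit 0) (nat_lit 6385360716) (nat_lit 1596) (nat_lit 3088386245) (nat_lit 469) (nat_lit 5) (nat_lit 468) (nat_lit 5) (nat_lit 489) (nat_lit 5) (nat_lit 423) (nat_lit 418) (nat_lit 299)) (XT.nd (nat_lit 78) (nat_lit 0) (nat_lit 76) (XT.lf (nat_lit 76) (nat_lit 4907900493) (nat_lit 0) (nat_lit 2601909836) (nat_lit 1596) (nat_lit 2196063937) (nat_lit 469) (nat_lit 5) (nat_lit 468) (nat_lit 5) (nat_lit 489) (nat_lit 5) (nat_lit 424) (nat_lit 418) (nat_lit 298)) (XT.lf (nat_lit 0) (nat_lit 8492541803) (nat_lit 1520) (nat_lit 48729344) (nat_lit 1596) (nat_lit 1249006525) (nat_lit 469) (nat_lit 5) (nat_lit 489) (nat_lit 5) (nat_lit 490) (nat_lit 5) (nat_lit 425) (nat_lit 418) (nat_lit 297))))))))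
noncomputable def xc188 : XT := (XT.nd (nat_lit 1638) (nat_lit 9120) (nat_lit 0) (XT.nd (nat_lit 780) (nat_lit 4636) (nat_lit 0) (XT.nd (nat_lit 390) (nat_lit 0) (nat_lit 152) (XT.nd (nat_lit 156) (nat_lit 0) (nat_lit 76) (XT.nd (nat_lit 78) (nat_lit 1596) (nat_lit 0) (XT.lf (nat_lit 76) (nat_lit 4829966046) (nat_lit 0) (nat_lit 4694177757) (nat_lit 1596) (nat_lit 351650055) (nat_lit 470) (nat_lit 5) (nat_lit 469) (nat_lit 5) (nat_lit 490) (nat_lit 5) (nat_lit 426) (nat_lit 418) (nat_lit 296)) (XT.lf (nat_lit 0) (nat_lit 586437446) (nat_lit 1596) (nat_lit 171938305) (nat_lit 1672) (nat_lit 9204951159) (nat_lit 448) (nat_lit 5) (nat_lit 469) (nat_lit 5) (nat_lit 470) (nat_lit 5) (nat_lit 427) (nat_lit 418) (nat_lit 295))) (XT.nd (nat_lit 78) (nat_lit 0) (nat_lit 0) (XT.lf (nat_lit 0) (nat_lit 1572649565) (nat_lit 1596) (nat_lit 5224638206) (nat_lit 1672) (nat_lit 3254603445) (nat_lit 449) (nat_lit 5) (nat_lit 470) (nat_lit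 5) (nat_lit 471) (nat_lit 5) (nat_lit 428) (nat_lit 418) (nat_lit 294)) (XT.nd (nat_lit 78) (nat_lit 0) (nat_lit 76) (XT.lf (nat_lit 0) (nat_lit 2566281215) (nat_lit 1596) (nat_lit 230426875) (nat_lit 1672) (nat_lit 7345773151) (nat_lit 449) (nat_lit 5) (nat_lit 470) (nat_lit 5) (nat_lit 471) (nat_lit 5) (nat_lit 429) (nat_lit 418) (nat_lit 293)) (XT.lf (nat_lit 0) (nat_lit 3602169069) (nat_lit 1596) (nat_lit 5326773232) (nat_lit 1672) (nat_lit 1305501271) (nat_lit 450) (nat_lit 5) (nat_lit 471) (nat_lit 5) (nat_lit 472) (nat_lit 5) (nat_lit 430) (nat_lit 418) (nat_lit 292))))) (XT.nd (nat_lit 156) (nat_lit 0) (nat_lit 76) (XT.nd (nat_lit 78) (nat_lit 0) (nat_lit 0) (XT.lf (nat_lit 0) (nat_lit 4661046592) (nat_lit 1596) (nat_lit 207138468) (nat_lit 1672) (nat_lit 5460022668) (nat_lit 450) (nat_lit 5) (nat_lit 471) (nat_lit 5) (nat_lit 472) (nat_lit 5) (nat_lit 431) (nat_lit 418) (nat_lit 291)) (XT.lf (nat_lit 76) (nat_lit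 5069567715) (nat_lit 0) (nat_lit 686992220) (nat_lit 1672) (nat_lit 4666985926) (nat_lit 451) (nat_lit 5) (nat_lit 450) (nat_lit 5) (nat_lit 472) (nat_lit 5) (nat_lit 432) (nat_lit 418) (nat_lit 290))) (XT.nd (nat_lit 78) (nat_lit 0) (nat_lit 0) (XT.lf (nat_lit 0) (nat_lit 6881457203) (nat_lit 1596) (nat_lit 101504762) (nat_lit 1672) (nat_lit 3537687023) (nat_lit 451) (nat_lit 5) (nat_lit 472) (nat_lit 5) (nat_lit 473) (nat_lit 5) (nat_lit 433) (nat_lit 418) (nat_lit 289)) (XT.nd (nat_lit 78) (nat_lit 0) (nat_lit 76) (XT.lf (nat_lit 76) (nat_lit 5309218622) (nat_lit 0) (nat_lit 2741835590) (nat_lit 1672) (nat_lit 2568203486) (nat_lit 452) (nat_lit 5) (nat_lit 451) (nat_lit 5) (nat_lit 473) (nat_lit 5) (nat_lit 434) (nat_lit 418) (nat_lit 288)) (XT.lf (nat_lit 76) (nat_lit 88404575) (nat_lit 0) (nat_lit 9150648622) (nat_lit 1672) (nat_lit 1480892589) (nat_lit 453) (nat_lit 5) (nat_lit 452) (nat_lit 5) (nat_lit 474) (nat_lit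 5) (nat_lit 435) (nat_lit 418) (nat_lit 287)))))) (XT.nd (nat_lit 390) (nat_lit 3268) (nat_lit 0) (XT.nd (nat_lit 156) (nat_lit 0) (nat_lit 76) (XT.nd (nat_lit 78) (nat_lit 1672) (nat_lit 0) (XT.lf (nat_lit 76) (nat_lit 5636304320) (nat_lit 0) (nat_lit 4851890366) (nat_lit 1672) (nat_lit 333712559) (nat_lit 453) (nat_lit 5) (nat_lit 452) (nat_lit 5) (nat_lit 474) (nat_lit 5) (nat_lit 436) (nat_lit 418) (nat_lit 286)) (XT.lf (nat_lit 76) (nat_lit 356421933) (nat_lit 0) (nat_lit 455251167) (nat_lit 1748) (nat_lit 10114408569) (nat_lit 431) (nat_lit 5) (nat_lit 430) (nat_lit 5) (nat_lit 453) (nat_lit 5) (nat_lit 437) (nat_lit 418) (nat_lit 285))) (XT.nd (nat_lit 78) (nat_lit 0) (nat_lit 0) (XT.lf (nat_lit 0) (nat_lit 2020871859) (nat_lit 1672) (nat_lit 4993011080) (nat_lit 1748) (nat_lit 4017511891) (nat_lit 431) (nat_lit 5) (nat_lit 453) (nat_lit 5) (nat_lit 454) (nat_lit 5) (nat_lit 438) (nat_lit 418) (nat_lit 284)) (XT.nd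 (nat_lit 78) (nat_lit 0) (nat_lit 76) (XT.lf (nat_lit 76) (nat_lit 689089774) (nat_lit 0) (nat_lit 2557143970) (nat_lit 1748) (nat_lit 7892747634) (nat_lit 432) (nat_lit 5) (nat_lit 431) (nat_lit 5) (nat_lit 454) (nat_lit 5) (nat_lit 439) (nat_lit 418) (nat_lit 283)) (XT.lf (nat_lit 0) (nat_lit 4527480074) (nat_lit 1672) (nat_lit 4721026556) (nat_lit 1748) (nat_lit 1999592059) (nat_lit 432) (nat_lit 5) (nat_lit 454) (nat_lit 5) (nat_lit 455) (nat_lit 5) (nat_lit 440) (nat_lit 418) (nat_lit 282))))) (XT.nd (nat_lit 234) (nat_lit 1824) (nat_lit 0) (XT.nd (nat_lit 78) (nat_lit 1596) (nat_lit 0) (XT.lf (nat_lit 76) (nat_lit 1107896430) (nat_lit 0) (nat_lit 4735619522) (nat_lit 1748) (nat_lit 5515705551) (nat_lit 433) (nat_lit 5) (nat_lit 432) (nat_lit 5) (nat_lit 455) (nat_lit 5) (nat_lit 441) (nat_lit 418) (nat_lit 281)) (XT.nd (nat_lit 78) (nat_lit 1596) (nat_lit 0) (XT.lf (nat_lit 76) (nat_lit 7105357442) (nat_lit 0)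 (nat_lit 97447631) (nat_lit 1748) (nat_lit 4269429369) (nat_lit 433) (nat_lit 5) (nat_lit 432) (nat_lit 5) (nat_lit 455) (nat_lit 5) (nat_lit 442) (nat_lit 418) (nat_lit 280)) (XT.lf (nat_lit 0) (nat_lit 1614235496) (nat_lit 1672) (nat_lit 7001167242) (nat_lit 1748) (nat_lit 2971588645) (nat_lit 411) (nat_lit 5) (nat_lit 433) (nat_lit 5) (nat_lit 434) (nat_lit 5) (nat_lit 443) (nat_lit 418) (nat_lit 279)))) (XT.nd (nat_lit 78) (nat_lit 1824) (nat_lit 0) (XT.lf (nat_lit 0) (nat_lit 7761478319) (nat_lit 1672) (nat_lit 2310482629) (nat_lit 1748) (nat_lit 1631774417) (nat_lit 411) (nat_lit 5) (nat_lit 433) (nat_lit 5) (nat_lit 434) (nat_lit 5) (nat_lit 444) (nat_lit 418) (nat_lit 278)) (XT.nd (nat_lit 78) (nat_lit 76) (nat_lit 0) (XT.lf (nat_lit 0) (nat_lit 2209673709) (nat_lit 1748) (nat_lit 9364442857) (nat_lit 1824) (nat_lit 248374293) (nat_lit 388) (nat_lit 5) (nat_lit 411) (nat_lit 5) (nat_lit 412) (nat_lit 5) (nat_lit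 445) (nat_lit 418) (nat_lit 277)) (XT.lf (nat_lit 0) (nat_lit 1175531121) (nat_lit 1824) (nat_lit 3440241862) (nat_lit 76) (nat_lit 7327141500) (nat_lit 387) (nat_lit 5) (nat_lit 411) (nat_lit 5) (nat_lit 388) (nat_lit 5) (nat_lit 446) (nat_lit 418) (nat_lit 276))))))) (XT.nd (nat_lit 780) (nat_lit 3724) (nat_lit 0) (XT.nd (nat_lit 390) (nat_lit 2584) (nat_lit 0) (XT.nd (nat_lit 156) (nat_lit 1748) (nat_lit 0) (XT.nd (nat_lit 78) (nat_lit 0) (nat_lit 0) (XT.lf (nat_lit 0) (nat_lit 2631341846) (nat_lit 1140) (nat_lit 9187296569) (nat_lit 76) (nat_lit 246945885) (nat_lit 373) (nat_lit 5) (nat_lit 388) (nat_lit 5) (nat_lit 374) (nat_lit 5) (nat_lit 447) (nat_lit 418) (nat_lit 275)) (XT.lf (nat_lit 0) (nat_lit 4156700888) (nat_lit 1140) (nat_lit 2863315792) (nat_lit 76) (nat_lit 5169887693) (nat_lit 373) (nat_lit 5) (nat_lit 388) (nat_lit 5) (nat_lit 374) (nat_lit 5) (nat_lit 448) (nat_lit 418) (nat_lit 274))) (XT.nd (nat_lit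 78) (nat_lit 836) (nat_lit 0) (XT.lf (nat_lit 0) (nat_lit 3622725553) (nat_lit 912) (nat_lit 2100250292) (nat_lit 988) (nat_lit 6593532222) (nat_lit 361) (nat_lit 5) (nat_lit 373) (nat_lit 5) (nat_lit 374) (nat_lit 5) (nat_lit 449) (nat_lit 418) (nat_lit 273)) (XT.nd (nat_lit 78) (nat_lit 836) (nat_lit 0) (XT.lf (nat_lit 0) (nat_lit 7345937672) (nat_lit 988) (nat_lit 2199155273) (nat_lit 76) (nat_lit 2900048953) (nat_lit 361) (nat_lit 5) (nat_lit 374) (nat_lit 5) (nat_lit 362) (nat_lit 5) (nat_lit 450) (nat_lit 418) (nat_lit 272)) (XT.lf (nat_lit 0) (nat_lit 4458037072) (nat_lit 836) (nat_lit 4573503325) (nat_lit 912) (nat_lit 3544209560) (nat_lit 350) (nat_lit 5) (nat_lit 361) (nat_lit 5) (nat_lit 362) (nat_lit 5) (nat_lit 451) (nat_lit 418) (nat_lit 271))))) (XT.nd (nat_lit 156) (nat_lit 1748) (nat_lit 0) (XT.nd (nat_lit 78) (nat_lit 836) (nat_lit 0) (XT.lf (nat_lit 0) (nat_lit 10756445093) (nat_lit 912) (nat_lit 1445887415)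 (nat_lit 76) (nat_lit 506530955) (nat_lit 350) (nat_lit 5) (nat_lit 362) (nat_lit 5) (nat_lit 351) (nat_lit 5) (nat_lit 452) (nat_lit 418) (nat_lit 270)) (XT.lf (nat_lit 0) (nat_lit 5387918780) (nat_lit 836) (nat_lit 7180948634) (nat_lit 912) (nat_lit 274716418) (nat_lit 339) (nat_lit 5) (nat_lit 350) (nat_lit 5) (nat_lit 351) (nat_lit 5) (nat_lit 453) (nat_lit 418) (nat_lit 269))) (XT.nd (nat_lit 78) (nat_lit 1672) (nat_lit 0) (XT.lf (nat_lit 0) (nat_lit 1415294536) (nat_lit 912) (nat_lit 624115208) (nat_lit 76) (nat_lit 10941455205) (nat_lit 338) (nat_lit 5) (nat_lit 350) (nat_lit 5) (nat_lit 339) (nat_lit 5) (nat_lit 454) (nat_lit 418) (nat_lit 268)) (XT.nd (nat_lit 78) (nat_lit 836) (nat_lit 0) (XT.lf (nat_lit 0) (nat_lit 3186244485) (nat_lit 912) (nat_lit 6726673942) (nat_lit 76) (nat_lit 3206925298) (nat_lit 327) (nat_lit 5) (nat_lit 339) (nat_lit 5) (nat_lit 328) (nat_lit 5) (nat_lit 455) (nat_lit 418) (nat_lit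 267)) (XT.lf (nat_lit 0) (nat_lit 275977475) (nat_lit 836) (nat_lit 4724376535) (nat_lit 912) (nat_lit 8261097860) (nat_lit 316) (nat_lit 5) (nat_lit 327) (nat_lit 5) (nat_lit 328) (nat_lit 5) (nat_lit 456) (nat_lit 418) (nat_lit 266)))))) (XT.nd (nat_lit 390) (nat_lit 2128) (nat_lit 0) (XT.nd (nat_lit 156) (nat_lit 836) (nat_lit 0) (XT.nd (nat_lit 78) (nat_lit 760) (nat_lit 0) (XT.lf (nat_lit 0) (nat_lit 6888251862) (nat_lit 912) (nat_lit 5911120379) (nat_lit 76) (nat_lit 605774326) (nat_lit 316) (nat_lit 5) (nat_lit 328) (nat_lit 5) (nat_lit 317) (nat_lit 5) (nat_lit 457) (nat_lit 418) (nat_lit 265)) (XT.lf (nat_lit 0) (nat_lit 1278427324) (nat_lit 760) (nat_lit 7563676105) (nat_lit 836) (nat_lit 4709052242) (nat_lit 306) (nat_lit 5) (nat_lit 316) (nat_lit 5) (nat_lit 317) (nat_lit 5) (nat_lit 458) (nat_lit 418) (nat_lit 264))) (XT.nd (nat_lit 78) (nat_lit 836) (nat_lit 0) (XT.lf (nat_lit 0) (nat_lit 8680197294) (nat_lit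 760) (nat_lit 2183256995) (nat_lit 836) (nat_lit 2836066560) (nat_lit 306) (nat_lit 5) (nat_lit 316) (nat_lit 5) (nat_lit 317) (nat_lit 5) (nat_lit 459) (nat_lit 418) (nat_lit 263)) (XT.nd (nat_lit 78) (nat_lit 76) (nat_lit 0) (XT.lf (nat_lit 0) (nat_lit 2377181713) (nat_lit 760) (nat_lit 10573914597) (nat_lit 836) (nat_lit 899243992) (nat_lit 296) (nat_lit 5) (nat_lit 306) (nat_lit 5) (nat_lit 307) (nat_lit 5) (nat_lit 460) (nat_lit 418) (nat_lit 262)) (XT.lf (nat_lit 0) (nat_lit 1099600741) (nat_lit 836) (nat_lit 4047277923) (nat_lit 76) (nat_lit 8856413770) (nat_lit 295) (nat_lit 5) (nat_lit 306) (nat_lit 5) (nat_lit 296) (nat_lit 5) (nat_lit 461) (nat_lit 418) (nat_lit 261))))) (XT.nd (nat_lit 234) (nat_lit 684) (nat_lit 0) (XT.nd (nat_lit 78) (nat_lit 760) (nat_lit 0) (XT.lf (nat_lit 0) (nat_lit 3141446108) (nat_lit 760) (nat_lit 10605376611) (nat_lit 76) (nat_lit 412064726) (nat_lit 286) (nat_lit 5) (nat_lit 296)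 (nat_lit 5) (nat_lit 287) (nat_lit 5) (nat_lit 462) (nat_lit 418) (nat_lit 260)) (XT.nd (nat_lit 78) (nat_lit 760) (nat_lit 0) (XT.lf (nat_lit 0) (nat_lit 5274936490) (nat_lit 760) (nat_lit 3001804141) (nat_lit 76) (nat_lit 6039841493) (nat_lit 286) (nat_lit 5) (nat_lit 296) (nat_lit 5) (nat_lit 287) (nat_lit 5) (nat_lit 463) (nat_lit 418) (nat_lit 259)) (XT.lf (nat_lit 0) (nat_lit 4805427443) (nat_lit 760) (nat_lit 2666461012) (nat_lit 836) (nat_lit 7005130258) (nat_lit 276) (nat_lit 5) (nat_lit 286) (nat_lit 5) (nat_lit 287) (nat_lit 5) (nat_lit 464) (nat_lit 418) (nat_lit 258)))) (XT.nd (nat_lit 78) (nat_lit 684) (nat_lit 0) (XT.lf (nat_lit 0) (nat_lit 9742613326) (nat_lit 836) (nat_lit 1862305835) (nat_lit 76) (nat_lit 3035151973) (nat_lit 276) (nat_lit 5) (nat_lit 287) (nat_lit 5) (nat_lit 277) (nat_lit 5) (nat_lit 465) (nat_lit 418) (nat_lit 257)) (XT.nd (nat_lit 78) (nat_lit 0) (nat_lit 0) (XT.lf (nat_lit 0) (nat_lit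 6154892439) (nat_lit 684) (nat_lit 5951397287) (nat_lit 760) (nat_lit 2699147840) (nat_lit 267) (nat_lit 5) (nat_lit 276) (nat_lit 5) (nat_lit 277) (nat_lit 5) (nat_lit 466) (nat_lit 418) (nat_lit 256)) (XT.lf (nat_lit 0) (nat_lit 14346416602) (nat_lit 684) (nat_lit 173361403) (nat_lit 760) (nat_lit 454286186) (nat_lit 267) (nat_lit 5) (nat_lit 276) (nat_lit 5) (nat_lit 277) (nat_lit 5) (nat_lit 467) (nat_lit 418) (nat_lit 255))))))))
noncomputable def xc189 : XT := (XT.nd (nat_lit 1638) (nat_lit 3116) (nat_lit 0) (XT.nd (nat_lit 780) (nat_lit 3268) (nat_lit 0) (XT.nd (nat_lit 390) (nat_lit 1824) (nat_lit 0) (XT.nd (nat_lit 156) (nat_lit 608) (nat_lit 0) (XT.nd (nat_lit 78) (nat_lit 608) (nat_lit 0) (XT.lf (nat_lit 0) (nat_lit 1888663168) (nat_lit 760) (nat_lit 7549852100) (nat_lit 76) (nat_lit 5705767967) (nat_lit 257) (nat_lit 5) (nat_lit 267) (nat_lit 5) (nat_lit 258) (nat_lit 5) (nat_lit 468) (nat_lit 418) (nat_lit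 254)) (XT.lf (nat_lit 0) (nat_lit 664881957) (nat_lit 608) (nat_lit 3607497087) (nat_lit 684) (nat_lit 11045471172) (nat_lit 249) (nat_lit 5) (nat_lit 257) (nat_lit 5) (nat_lit 258) (nat_lit 5) (nat_lit 469) (nat_lit 418) (nat_lit 253))) (XT.nd (nat_lit 78) (nat_lit 608) (nat_lit 0) (XT.lf (nat_lit 0) (nat_lit 6760349334) (nat_lit 684) (nat_lit 6374554778) (nat_lit 76) (nat_lit 2358856177) (nat_lit 249) (nat_lit 5) (nat_lit 258) (nat_lit 5) (nat_lit 250) (nat_lit 5) (nat_lit 470) (nat_lit 418) (nat_lit 252)) (XT.nd (nat_lit 78) (nat_lit 0) (nat_lit 0) (XT.lf (nat_lit 0) (nat_lit 2061394204) (nat_lit 608) (nat_lit 7264535298) (nat_lit 684) (nat_lit 6346705339) (nat_lit 241) (nat_lit 5) (nat_lit 249) (nat_lit 5) (nat_lit 250) (nat_lit 5) (nat_lit 471) (nat_lit 418) (nat_lit 251)) (XT.lf (nat_lit 0) (nat_lit 10741366855) (nat_lit 608) (nat_lit 1234919556) (nat_lit 684) (nat_lit 3878134395) (nat_lit 241) (nat_lit 5) (nat_lit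 249) (nat_lit 5) (nat_lit 250) (nat_lit 5) (nat_lit 472) (nat_lit 418) (nat_lit 250))))) (XT.nd (nat_lit 156) (nat_lit 1140) (nat_lit 0) (XT.nd (nat_lit 78) (nat_lit 76) (nat_lit 0) (XT.lf (nat_lit 0) (nat_lit 3558796733) (nat_lit 608) (nat_lit 11166732795) (nat_lit 684) (nat_lit 1313398543) (nat_lit 233) (nat_lit 5) (nat_lit 241) (nat_lit 5) (nat_lit 242) (nat_lit 5) (nat_lit 473) (nat_lit 418) (nat_lit 249)) (XT.lf (nat_lit 0) (nat_lit 1319169250) (nat_lit 684) (nat_lit 3781020905) (nat_lit 76) (nat_lit 11126096781) (nat_lit 232) (nat_lit 5) (nat_lit 241) (nat_lit 5) (nat_lit 233) (nat_lit 5) (nat_lit 474) (nat_lit 418) (nat_lit 248))) (XT.nd (nat_lit 78) (nat_lit 532) (nat_lit 0) (XT.lf (nat_lit 0) (nat_lit 4018600774) (nat_lit 684) (nat_lit 11284170264) (nat_lit 76) (nat_lit 1113815314) (nat_lit 224) (nat_lit 5) (nat_lit 233) (nat_lit 5) (nat_lit 225) (nat_lit 5) (nat_lit 475) (nat_lit 418) (nat_lit 247)) (XT.nd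 (nat_lit 78) (nat_lit 532) (nat_lit 0) (XT.lf (nat_lit 0) (nat_lit 6822512253) (nat_lit 684) (nat_lit 2379742262) (nat_lit 76) (nat_lit 7407430334) (nat_lit 224) (nat_lit 5) (nat_lit 233) (nat_lit 5) (nat_lit 225) (nat_lit 5) (nat_lit 476) (nat_lit 418) (nat_lit 246)) (XT.lf (nat_lit 0) (nat_lit 6780934543) (nat_lit 532) (nat_lit 2936941349) (nat_lit 608) (nat_lit 7088064807) (nat_lit 217) (nat_lit 5) (nat_lit 224) (nat_lit 5) (nat_lit 225) (nat_lit 5) (nat_lit 477) (nat_lit 418) (nat_lit 245)))))) (XT.nd (nat_lit 390) (nat_lit 1520) (nat_lit 0) (XT.nd (nat_lit 156) (nat_lit 1140) (nat_lit 0) (XT.nd (nat_lit 78) (nat_lit 608) (nat_lit 0) (XT.lf (nat_lit 0) (nat_lit 12701079274) (nat_lit 608) (nat_lit 882110639) (nat_lit 76) (nat_lit 3422335911) (nat_lit 217) (nat_lit 5) (nat_lit 225) (nat_lit 5) (nat_lit 218) (nat_lit 5) (nat_lit 478) (nat_lit 418) (nat_lit 244)) (XT.lf (nat_lit 0) (nat_lit 8525355444) (nat_lit 608)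 (nat_lit 7284995267) (nat_lit 684) (nat_lit 1397426613) (nat_lit 209) (nat_lit 5) (nat_lit 217) (nat_lit 5) (nat_lit 218) (nat_lit 5) (nat_lit 479) (nat_lit 418) (nat_lit 243))) (XT.nd (nat_lit 78) (nat_lit 532) (nat_lit 0) (XT.lf (nat_lit 0) (nat_lit 707338878) (nat_lit 532) (nat_lit 842025000) (nat_lit 608) (nat_lit 15864465218) (nat_lit 201) (nat_lit 5) (nat_lit 208) (nat_lit 5) (nat_lit 209) (nat_lit 5) (nat_lit 480) (nat_lit 418) (nat_lit 242)) (XT.nd (nat_lit 78) (nat_lit 532) (nat_lit 0) (XT.lf (nat_lit 0) (nat_lit 4623967067) (nat_lit 608) (nat_lit 7277866186) (nat_lit 76) (nat_lit 5720234737) (nat_lit 201) (nat_lit 5) (nat_lit 209) (nat_lit 5) (nat_lit 202) (nat_lit 5) (nat_lit 481) (nat_lit 418) (nat_lit 241)) (XT.lf (nat_lit 0) (nat_lit 2354064358) (nat_lit 532) (nat_lit 5418740560) (nat_lit 608) (nat_lit 10061414433) (nat_lit 194) (nat_lit 5) (nat_lit 201) (nat_lit 5) (nat_lit 202) (nat_lit 5) (nat_lit 482)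 (nat_lit 418) (nat_lit 240))))) (XT.nd (nat_lit 234) (nat_lit 1064) (nat_lit 0) (XT.nd (nat_lit 78) (nat_lit 456) (nat_lit 0) (XT.lf (nat_lit 0) (nat_lit 11033490752) (nat_lit 608) (nat_lit 5791066966) (nat_lit 76) (nat_lit 1225081089) (nat_lit 194) (nat_lit 5) (nat_lit 202) (nat_lit 5) (nat_lit 195) (nat_lit 5) (nat_lit 483) (nat_lit 418) (nat_lit 239)) (XT.nd (nat_lit 78) (nat_lit 0) (nat_lit 0) (XT.lf (nat_lit 0) (nat_lit 4099247001) (nat_lit 456) (nat_lit 10314758882) (nat_lit 532) (nat_lit 3854270900) (nat_lit 188) (nat_lit 5) (nat_lit 194) (nat_lit 5) (nat_lit 195) (nat_lit 5) (nat_lit 484) (nat_lit 418) (nat_lit 238)) (XT.lf (nat_lit 0) (nat_lit 14255502835) (nat_lit 456) (nat_lit 3637691763) (nat_lit 532) (nat_lit 597474052) (nat_lit 188) (nat_lit 5) (nat_lit 194) (nat_lit 5) (nat_lit 195) (nat_lit 5) (nat_lit 485) (nat_lit 418) (nat_lit 237)))) (XT.nd (nat_lit 78) (nat_lit 456) (nat_lit 0) (XT.lf (nat_lit 0)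 (nat_lit 2740600588) (nat_lit 608) (nat_lit 12790072706) (nat_lit 76) (nat_lit 3185446109) (nat_lit 180) (nat_lit 5) (nat_lit 188) (nat_lit 5) (nat_lit 181) (nat_lit 5) (nat_lit 486) (nat_lit 418) (nat_lit 236)) (XT.nd (nat_lit 78) (nat_lit 456) (nat_lit 0) (XT.lf (nat_lit 0) (nat_lit 6182513174) (nat_lit 608) (nat_lit 2636189633) (nat_lit 76) (nat_lit 10126398103) (nat_lit 180) (nat_lit 5) (nat_lit 188) (nat_lit 5) (nat_lit 181) (nat_lit 5) (nat_lit 487) (nat_lit 418) (nat_lit 235)) (XT.lf (nat_lit 0) (nat_lit 7813108637) (nat_lit 456) (nat_lit 1923402938) (nat_lit 532) (nat_lit 9441287734) (nat_lit 174) (nat_lit 5) (nat_lit 180) (nat_lit 5) (nat_lit 181) (nat_lit 5) (nat_lit 488) (nat_lit 418) (nat_lit 234))))))) (XT.nd (nat_lit 858) (nat_lit 380) (nat_lit 0) (XT.nd (nat_lit 390) (nat_lit 1292) (nat_lit 0) (XT.nd (nat_lit 156) (nat_lit 988) (nat_lit 0) (XT.nd (nat_lit 78) (nat_lit 456) (nat_lit 0) (XT.lf (nat_lit 0)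 (nat_lit 13405157228) (nat_lit 532) (nat_lit 951163097) (nat_lit 76) (nat_lit 5057962174) (nat_lit 174) (nat_lit 5) (nat_lit 181) (nat_lit 5) (nat_lit 175) (nat_lit 5) (nat_lit 489) (nat_lit 418) (nat_lit 233)) (XT.lf (nat_lit 0) (nat_lit 9776113773) (nat_lit 456) (nat_lit 7440001902) (nat_lit 532) (nat_lit 2438003008) (nat_lit 168) (nat_lit 5) (nat_lit 174) (nat_lit 5) (nat_lit 175) (nat_lit 5) (nat_lit 490) (nat_lit 418) (nat_lit 232))) (XT.nd (nat_lit 78) (nat_lit 456) (nat_lit 0) (XT.lf (nat_lit 0) (nat_lit 825132834) (nat_lit 456) (nat_lit 368150949) (nat_lit 532) (nat_lit 18705222641) (nat_lit 161) (nat_lit 5) (nat_lit 167) (nat_lit 5) (nat_lit 168) (nat_lit 5) (nat_lit 491) (nat_lit 418) (nat_lit 231)) (XT.nd (nat_lit 78) (nat_lit 456) (nat_lit 0) (XT.lf (nat_lit 0) (nat_lit 4968567337) (nat_lit 532) (nat_lit 8341344389) (nat_lit 76) (nat_lit 6835469576) (nat_lit 161) (nat_lit 5) (nat_lit 168) (nat_lit 5) (nat_lit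 162) (nat_lit 5) (nat_lit 492) (nat_lit 418) (nat_lit 230)) (XT.lf (nat_lit 0) (nat_lit 2627452092) (nat_lit 456) (nat_lit 6204359175) (nat_lit 532) (nat_lit 11565135282) (nat_lit 155) (nat_lit 5) (nat_lit 161) (nat_lit 5) (nat_lit 162) (nat_lit 5) (nat_lit 493) (nat_lit 418) (nat_lit 229))))) (XT.nd (nat_lit 234) (nat_lit 836) (nat_lit 0) (XT.nd (nat_lit 78) (nat_lit 456) (nat_lit 0) (XT.lf (nat_lit 0) (nat_lit 12828452552) (nat_lit 532) (nat_lit 6740826846) (nat_lit 76) (nat_lit 1083142979) (nat_lit 155) (nat_lit 5) (nat_lit 162) (nat_lit 5) (nat_lit 156) (nat_lit 5) (nat_lit 494) (nat_lit 418) (nat_lit 228)) (XT.nd (nat_lit 78) (nat_lit 76) (nat_lit 0) (XT.lf (nat_lit 0) (nat_lit 4516807184) (nat_lit 380) (nat_lit 12451784202) (nat_lit 456) (nat_lit 3943146931) (nat_lit 150) (nat_lit 5) (nat_lit 155) (nat_lit 5) (nat_lit 156) (nat_lit 5) (nat_lit 495) (nat_lit 418) (nat_lit 227)) (XT.lf (nat_lit 0) (nat_lit 53800724)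 (nat_lit 456) (nat_lit 5094552689) (nat_lit 76) (nat_lit 16027112815) (nat_lit 149) (nat_lit 5) (nat_lit 155) (nat_lit 5) (nat_lit 150) (nat_lit 5) (nat_lit 496) (nat_lit 418) (nat_lit 226)))) (XT.nd (nat_lit 78) (nat_lit 380) (nat_lit 0) (XT.lf (nat_lit 0) (nat_lit 4128699693) (nat_lit 532) (nat_lit 14977486507) (nat_lit 76) (nat_lit 2336746771) (nat_lit 143) (nat_lit 5) (nat_lit 150) (nat_lit 5) (nat_lit 144) (nat_lit 5) (nat_lit 497) (nat_lit 418) (nat_lit 225)) (XT.nd (nat_lit 78) (nat_lit 380) (nat_lit 0) (XT.lf (nat_lit 0) (nat_lit 8346964304) (nat_lit 532) (nat_lit 3433329002) (nat_lit 76) (nat_lit 9934220134) (nat_lit 143) (nat_lit 5) (nat_lit 150) (nat_lit 5) (nat_lit 144) (nat_lit 5) (nat_lit 498) (nat_lit 418) (nat_lit 224)) (XT.lf (nat_lit 0) (nat_lit 8442986231) (nat_lit 380) (nat_lit 4254914729) (nat_lit 456) (nat_lit 9292660135) (nat_lit 138) (nat_lit 5) (nat_lit 143) (nat_lit 5) (nat_lit 144) (nat_lit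 5) (nat_lit 499) (nat_lit 418) (nat_lit 223)))))) (XT.nd (nat_lit 53274) (nat_lit 0) (nat_lit 23940) (XT.nd (nat_lit 53040) (nat_lit 0) (nat_lit 25308) (XT.nd (nat_lit 78) (nat_lit 380) (nat_lit 0) (XT.lf (nat_lit 0) (nat_lit 17174796385) (nat_lit 456) (nat_lit 1700171152) (nat_lit 76) (nat_lit 3396385041) (nat_lit 138) (nat_lit 5) (nat_lit 144) (nat_lit 5) (nat_lit 139) (nat_lit 5) (nat_lit 500) (nat_lit 418) (nat_lit 222)) (XT.lf (nat_lit 0) (nat_lit 10484184859) (nat_lit 380) (nat_lit 11346956910) (nat_lit 456) (nat_lit 724821526) (nat_lit 133) (nat_lit 5) (nat_lit 138) (nat_lit 5) (nat_lit 139) (nat_lit 5) (nat_lit 501) (nat_lit 418) (nat_lit 221))) (XT.nd (nat_lit 78) (nat_lit 0) (nat_lit 0) (XT.lf (nat_lit 0) (nat_lit 1860266583) (nat_lit 1596) (nat_lit 1415785036) (nat_lit 1596) (nat_lit 1415785036) (nat_lit 466) (nat_lit 3) (nat_lit 487) (nat_lit 3) (nat_lit 487) (nat_lit 5) (nat_lit 419) (nat_lit 419) (nat_lit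 302)) (XT.nd (nat_lit 78) (nat_lit 0) (nat_lit 76) (XT.lf (nat_lit 76) (nat_lit 1649054035) (nat_lit 0) (nat_lit 2917481743) (nat_lit 1596) (nat_lit 4894425775) (nat_lit 467) (nat_lit 5) (nat_lit 466) (nat_lit 3) (nat_lit 487) (nat_lit 5) (nat_lit 420) (nat_lit 419) (nat_lit 301)) (XT.lf (nat_lit 0) (nat_lit 5432775349) (nat_lit 1520) (nat_lit 3298315423) (nat_lit 1596) (nat_lit 808648221) (nat_lit 467) (nat_lit 5) (nat_lit 487) (nat_lit 5) (nat_lit 488) (nat_lit 5) (nat_lit 421) (nat_lit 419) (nat_lit 300))))) (XT.nd (nat_lit 234) (nat_lit 1444) (nat_lit 0) (XT.nd (nat_lit 78) (nat_lit 0) (nat_lit 0) (XT.lf (nat_lit 76) (nat_lit 1292075953) (nat_lit 0) (nat_lit 5031446028) (nat_lit 1596) (nat_lit 3296435936) (nat_lit 468) (nat_lit 5) (nat_lit 467) (nat_lit 5) (nat_lit 488) (nat_lit 5) (nat_lit 422) (nat_lit 419) (nat_lit 299)) (XT.nd (nat_lit 78) (nat_lit 0) (nat_lit 76) (XT.lf (nat_lit 76) (nat_lit 6007960403) (nat_lit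 0) (nat_lit 1226059691) (nat_lit 1596) (nat_lit 2467731787) (nat_lit 468) (nat_lit 5) (nat_lit 467) (nat_lit 5) (nat_lit 488) (nat_lit 5) (nat_lit 423) (nat_lit 419) (nat_lit 298)) (XT.lf (nat_lit 76) (nat_lit 1017817092) (nat_lit 0) (nat_lit 7149017782) (nat_lit 1596) (nat_lit 1618273925) (nat_lit 469) (nat_lit 5) (nat_lit 468) (nat_lit 5) (nat_lit 489) (nat_lit 5) (nat_lit 424) (nat_lit 419) (nat_lit 297)))) (XT.nd (nat_lit 78) (nat_lit 1520) (nat_lit 0) (XT.lf (nat_lit 76) (nat_lit 5854303061) (nat_lit 0) (nat_lit 3277428279) (nat_lit 1596) (nat_lit 738142035) (nat_lit 469) (nat_lit 5) (nat_lit 468) (nat_lit 5) (nat_lit 489) (nat_lit 5) (nat_lit 425) (nat_lit 419) (nat_lit 296)) (XT.nd (nat_lit 78) (nat_lit 0) (nat_lit 0) (XT.lf (nat_lit 0) (nat_lit 148159475) (nat_lit 1596) (nat_lit 9131261047) (nat_lit 1672) (nat_lit 677087473) (nat_lit 448) (nat_lit 5) (nat_lit 469) (nat_lit 5) (nat_lit 470) (nat_lit 5) (nat_lit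 426) (nat_lit 419) (nat_lit 295)) (XT.lf (nat_lit 0) (nat_lit 1072314065) (nat_lit 1596) (nat_lit 4265399140) (nat_lit 1672) (nat_lit 4706472810) (nat_lit 448) (nat_lit 5) (nat_lit 469) (nat_lit 5) (nat_lit 470) (nat_lit 5) (nat_lit 427) (nat_lit 419) (nat_lit 294))))))))
noncomputable def xc190 : XT := (XT.nd (nat_lit 1638) (nat_lit 9424) (nat_lit 0) (XT.nd (nat_lit 780) (nat_lit 4332) (nat_lit 0) (XT.nd (nat_lit 390) (nat_lit 1368) (nat_lit 0) (XT.nd (nat_lit 156) (nat_lit 0) (nat_lit 76) (XT.nd (nat_lit 78) (nat_lit 0) (nat_lit 76) (XT.lf (nat_lit 76) (nat_lit 695525675) (nat_lit 0) (nat_lit 1305482735) (nat_lit 1672) (nat_lit 8132896395) (nat_lit 449) (nat_lit 5) (nat_lit 448) (nat_lit 5) (nat_lit 470) (nat_lit 5) (nat_lit 428) (nat_lit 419) (nat_lit 293)) (XT.lf (nat_lit 0) (nat_lit 2977190742) (nat_lit 1596) (nat_lit 4441492539) (nat_lit 1672) (nat_lit 2806164584) (nat_lit 449) (nat_lit 5) (nat_lit 470) (nat_lit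 5) (nat_lit 471) (nat_lit 5) (nat_lit 429) (nat_lit 419) (nat_lit 292))) (XT.nd (nat_lit 78) (nat_lit 0) (nat_lit 76) (XT.lf (nat_lit 76) (nat_lit 643639794) (nat_lit 0) (nat_lit 3324310869) (nat_lit 1672) (nat_lit 6349766060) (nat_lit 450) (nat_lit 5) (nat_lit 449) (nat_lit 5) (nat_lit 471) (nat_lit 5) (nat_lit 430) (nat_lit 419) (nat_lit 291)) (XT.nd (nat_lit 78) (nat_lit 0) (nat_lit 0) (XT.lf (nat_lit 0) (nat_lit 4996602612) (nat_lit 1596) (nat_lit 4538704855) (nat_lit 1672) (nat_lit 876781815) (nat_lit 450) (nat_lit 5) (nat_lit 471) (nat_lit 5) (nat_lit 472) (nat_lit 5) (nat_lit 431) (nat_lit 419) (nat_lit 290)) (XT.lf (nat_lit 76) (nat_lit 674629235) (nat_lit 0) (nat_lit 5380479371) (nat_lit 1672) (nat_lit 4453062770) (nat_lit 451) (nat_lit 5) (nat_lit 450) (nat_lit 5) (nat_lit 472) (nat_lit 5) (nat_lit 432) (nat_lit 419) (nat_lit 289))))) (XT.nd (nat_lit 156) (nat_lit 1520) (nat_lit 0) (XT.nd (nat_lit 78) (nat_lit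 0) (nat_lit 76) (XT.lf (nat_lit 76) (nat_lit 6042251511) (nat_lit 0) (nat_lit 1106136771) (nat_lit 1672) (nat_lit 3457522313) (nat_lit 451) (nat_lit 5) (nat_lit 450) (nat_lit 5) (nat_lit 472) (nat_lit 5) (nat_lit 433) (nat_lit 419) (nat_lit 288)) (XT.lf (nat_lit 76) (nat_lit 789198744) (nat_lit 0) (nat_lit 7484094930) (nat_lit 1672) (nat_lit 2432123128) (nat_lit 452) (nat_lit 5) (nat_lit 451) (nat_lit 5) (nat_lit 473) (nat_lit 5) (nat_lit 434) (nat_lit 419) (nat_lit 287))) (XT.nd (nat_lit 78) (nat_lit 1596) (nat_lit 0) (XT.lf (nat_lit 76) (nat_lit 6291980961) (nat_lit 0) (nat_lit 3150377156) (nat_lit 1672) (nat_lit 1364129058) (nat_lit 452) (nat_lit 5) (nat_lit 451) (nat_lit 5) (nat_lit 473) (nat_lit 5) (nat_lit 435) (nat_lit 419) (nat_lit 286)) (XT.nd (nat_lit 78) (nat_lit 1672) (nat_lit 0) (XT.lf (nat_lit 76) (nat_lit 988255230) (nat_lit 0) (nat_lit 9645318150) (nat_lit 1672) (nat_lit 276037304) (nat_lit 453) (nat_lit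 5) (nat_lit 452) (nat_lit 5) (nat_lit 474) (nat_lit 5) (nat_lit 436) (nat_lit 419) (nat_lit 285)) (XT.lf (nat_lit 0) (nat_lit 858472324) (nat_lit 1672) (nat_lit 4390240691) (nat_lit 1748) (nat_lit 5765270382) (nat_lit 430) (nat_lit 5) (nat_lit 452) (nat_lit 5) (nat_lit 453) (nat_lit 5) (nat_lit 437) (nat_lit 419) (nat_lit 284)))))) (XT.nd (nat_lit 390) (nat_lit 4332) (nat_lit 0) (XT.nd (nat_lit 156) (nat_lit 0) (nat_lit 76) (XT.nd (nat_lit 78) (nat_lit 0) (nat_lit 76) (XT.lf (nat_lit 76) (nat_lit 1254514225) (nat_lit 0) (nat_lit 750152458) (nat_lit 1748) (nat_lit 9115893283) (nat_lit 431) (nat_lit 5) (nat_lit 430) (nat_lit 5) (nat_lit 453) (nat_lit 5) (nat_lit 438) (nat_lit 419) (nat_lit 283)) (XT.lf (nat_lit 0) (nat_lit 3213156494) (nat_lit 1672) (nat_lit 4193986234) (nat_lit 1748) (nat_lit 3821344484) (nat_lit 431) (nat_lit 5) (nat_lit 453) (nat_lit 5) (nat_lit 454) (nat_lit 5) (nat_lit 439) (nat_lit 419) (nat_lit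 282))) (XT.nd (nat_lit 78) (nat_lit 0) (nat_lit 76) (XT.lf (nat_lit 76) (nat_lit 1595842919) (nat_lit 0) (nat_lit 2850394829) (nat_lit 1748) (nat_lit 6892333268) (nat_lit 432) (nat_lit 5) (nat_lit 431) (nat_lit 5) (nat_lit 454) (nat_lit 5) (nat_lit 440) (nat_lit 419) (nat_lit 281)) (XT.nd (nat_lit 78) (nat_lit 0) (nat_lit 0) (XT.lf (nat_lit 0) (nat_lit 5729311445) (nat_lit 1672) (nat_lit 3915708593) (nat_lit 1748) (nat_lit 1805336165) (nat_lit 432) (nat_lit 5) (nat_lit 454) (nat_lit 5) (nat_lit 455) (nat_lit 5) (nat_lit 441) (nat_lit 419) (nat_lit 280)) (XT.lf (nat_lit 76) (nat_lit 2023873520) (nat_lit 0) (nat_lit 5031807948) (nat_lit 1748) (nat_lit 4508349124) (nat_lit 433) (nat_lit 5) (nat_lit 432) (nat_lit 5) (nat_lit 455) (nat_lit 5) (nat_lit 442) (nat_lit 419) (nat_lit 279))))) (XT.nd (nat_lit 234) (nat_lit 2888) (nat_lit 0) (XT.nd (nat_lit 78) (nat_lit 1596) (nat_lit 0) (XT.lf (nat_lit 76) (nat_lit 8123757887)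 (nat_lit 0) (nat_lit 296922108) (nat_lit 1748) (nat_lit 3259062528) (nat_lit 433) (nat_lit 5) (nat_lit 432) (nat_lit 5) (nat_lit 455) (nat_lit 5) (nat_lit 443) (nat_lit 419) (nat_lit 278)) (XT.nd (nat_lit 78) (nat_lit 0) (nat_lit 0) (XT.lf (nat_lit 0) (nat_lit 2540114733) (nat_lit 1672) (nat_lit 7304904097) (nat_lit 1748) (nat_lit 1952115011) (nat_lit 411) (nat_lit 5) (nat_lit 433) (nat_lit 5) (nat_lit 434) (nat_lit 5) (nat_lit 444) (nat_lit 419) (nat_lit 277)) (XT.lf (nat_lit 0) (nat_lit 8792780951) (nat_lit 1672) (nat_lit 2517195723) (nat_lit 1748) (nat_lit 606659507) (nat_lit 411) (nat_lit 5) (nat_lit 433) (nat_lit 5) (nat_lit 434) (nat_lit 5) (nat_lit 445) (nat_lit 419) (nat_lit 276)))) (XT.nd (nat_lit 78) (nat_lit 1064) (nat_lit 0) (XT.lf (nat_lit 0) (nat_lit 778194323) (nat_lit 1824) (nat_lit 8896959777) (nat_lit 76) (nat_lit 2362830020) (nat_lit 387) (nat_lit 5) (nat_lit 411) (nat_lit 5) (nat_lit 388) (nat_lit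 5) (nat_lit 446) (nat_lit 419) (nat_lit 275)) (XT.nd (nat_lit 78) (nat_lit 1064) (nat_lit 0) (XT.lf (nat_lit 0) (nat_lit 2207094175) (nat_lit 1824) (nat_lit 2620351745) (nat_lit 76) (nat_lit 7333748958) (nat_lit 387) (nat_lit 5) (nat_lit 411) (nat_lit 5) (nat_lit 388) (nat_lit 5) (nat_lit 447) (nat_lit 419) (nat_lit 274)) (XT.lf (nat_lit 0) (nat_lit 3677265625) (nat_lit 1140) (nat_lit 8467183382) (nat_lit 76) (nat_lit 142172367) (nat_lit 373) (nat_lit 5) (nat_lit 388) (nat_lit 5) (nat_lit 374) (nat_lit 5) (nat_lit 448) (nat_lit 419) (nat_lit 273))))))) (XT.nd (nat_lit 858) (nat_lit 4332) (nat_lit 0) (XT.nd (nat_lit 390) (nat_lit 3344) (nat_lit 0) (XT.nd (nat_lit 156) (nat_lit 836) (nat_lit 0) (XT.nd (nat_lit 78) (nat_lit 912) (nat_lit 0) (XT.lf (nat_lit 0) (nat_lit 5213655437) (nat_lit 1140) (nat_lit 2034445718) (nat_lit 76) (nat_lit 5165724235) (nat_lit 373) (nat_lit 5) (nat_lit 388) (nat_lit 5) (nat_lit 374) (nat_lit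 5) (nat_lit 449) (nat_lit 419) (nat_lit 272)) (XT.lf (nat_lit 0) (nat_lit 4575486609) (nat_lit 912) (nat_lit 2222390297) (nat_lit 988) (nat_lit 5745359687) (nat_lit 361) (nat_lit 5) (nat_lit 373) (nat_lit 5) (nat_lit 374) (nat_lit 5) (nat_lit 450) (nat_lit 419) (nat_lit 271))) (XT.nd (nat_lit 78) (nat_lit 836) (nat_lit 0) (XT.lf (nat_lit 0) (nat_lit 8433955695) (nat_lit 988) (nat_lit 1360365370) (nat_lit 76) (nat_lit 2880516584) (nat_lit 361) (nat_lit 5) (nat_lit 374) (nat_lit 5) (nat_lit 362) (nat_lit 5) (nat_lit 451) (nat_lit 419) (nat_lit 270)) (XT.nd (nat_lit 78) (nat_lit 0) (nat_lit 0) (XT.lf (nat_lit 0) (nat_lit 5424163105) (nat_lit 836) (nat_lit 4716348283) (nat_lit 912) (nat_lit 2667809214) (nat_lit 350) (nat_lit 5) (nat_lit 361) (nat_lit 5) (nat_lit 362) (nat_lit 5) (nat_lit 452) (nat_lit 419) (nat_lit 269)) (XT.lf (nat_lit 0) (nat_lit 11881384410) (nat_lit 912) (nat_lit 596135353) (nat_lit 76) (nat_lit 466954613)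 (nat_lit 350) (nat_lit 5) (nat_lit 362) (nat_lit 5) (nat_lit 351) (nat_lit 5) (nat_lit 453) (nat_lit 419) (nat_lit 268))))) (XT.nd (nat_lit 234) (nat_lit 1596) (nat_lit 0) (XT.nd (nat_lit 78) (nat_lit 836) (nat_lit 0) (XT.lf (nat_lit 0) (nat_lit 627405393) (nat_lit 912) (nat_lit 6717701275) (nat_lit 76) (nat_lit 5736950629) (nat_lit 338) (nat_lit 5) (nat_lit 350) (nat_lit 5) (nat_lit 339) (nat_lit 5) (nat_lit 454) (nat_lit 419) (nat_lit 267)) (XT.nd (nat_lit 78) (nat_lit 0) (nat_lit 0) (XT.lf (nat_lit 0) (nat_lit 234376140) (nat_lit 836) (nat_lit 2096962802) (nat_lit 912) (nat_lit 10891039738) (nat_lit 327) (nat_lit 5) (nat_lit 338) (nat_lit 5) (nat_lit 339) (nat_lit 5) (nat_lit 455) (nat_lit 419) (nat_lit 266)) (XT.lf (nat_lit 0) (nat_lit 4124327751) (nat_lit 912) (nat_lit 5981107280) (nat_lit 76) (nat_lit 3258976442) (nat_lit 327) (nat_lit 5) (nat_lit 339) (nat_lit 5) (nat_lit 328) (nat_lit 5) (nat_lit 456) (nat_lit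 419) (nat_lit 265)))) (XT.nd (nat_lit 78) (nat_lit 760) (nat_lit 0) (XT.lf (nat_lit 0) (nat_lit 1155807032) (nat_lit 836) (nat_lit 4807444752) (nat_lit 912) (nat_lit 7545836054) (nat_lit 316) (nat_lit 5) (nat_lit 327) (nat_lit 5) (nat_lit 328) (nat_lit 5) (nat_lit 457) (nat_lit 419) (nat_lit 264)) (XT.nd (nat_lit 78) (nat_lit 760) (nat_lit 0) (XT.lf (nat_lit 0) (nat_lit 7872060858) (nat_lit 912) (nat_lit 5155000694) (nat_lit 76) (nat_lit 628938388) (nat_lit 316) (nat_lit 5) (nat_lit 328) (nat_lit 5) (nat_lit 317) (nat_lit 5) (nat_lit 458) (nat_lit 419) (nat_lit 263)) (XT.lf (nat_lit 0) (nat_lit 2172585713) (nat_lit 760) (nat_lit 7681454107) (nat_lit 836) (nat_lit 3951114842) (nat_lit 306) (nat_lit 5) (nat_lit 316) (nat_lit 5) (nat_lit 317) (nat_lit 5) (nat_lit 459) (nat_lit 419) (nat_lit 262)))))) (XT.nd (nat_lit 390) (nat_lit 2812) (nat_lit 0) (XT.nd (nat_lit 156) (nat_lit 760) (nat_lit 0) (XT.nd (nat_lit 78) (nat_lit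 760) (nat_lit 0) (XT.lf (nat_lit 0) (nat_lit 9705359908) (nat_lit 760) (nat_lit 2194083390) (nat_lit 836) (nat_lit 2057377652) (nat_lit 306) (nat_lit 5) (nat_lit 316) (nat_lit 5) (nat_lit 317) (nat_lit 5) (nat_lit 460) (nat_lit 419) (nat_lit 261)) (XT.lf (nat_lit 0) (nat_lit 3287050360) (nat_lit 760) (nat_lit 10731542285) (nat_lit 836) (nat_lit 92275252) (nat_lit 296) (nat_lit 5) (nat_lit 306) (nat_lit 5) (nat_lit 307) (nat_lit 5) (nat_lit 461) (nat_lit 419) (nat_lit 260))) (XT.nd (nat_lit 78) (nat_lit 684) (nat_lit 0) (XT.lf (nat_lit 0) (nat_lit 1919763545) (nat_lit 836) (nat_lit 3271901837) (nat_lit 76) (nat_lit 9075431789) (nat_lit 295) (nat_lit 5) (nat_lit 306) (nat_lit 5) (nat_lit 296) (nat_lit 5) (nat_lit 462) (nat_lit 419) (nat_lit 259)) (XT.nd (nat_lit 78) (nat_lit 0) (nat_lit 0) (XT.lf (nat_lit 0) (nat_lit 3992725370) (nat_lit 760) (nat_lit 9951150191) (nat_lit 76) (nat_lit 482128767) (nat_lit 286) (nat_lit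 5) (nat_lit 296) (nat_lit 5) (nat_lit 287) (nat_lit 5) (nat_lit 463) (nat_lit 419) (nat_lit 258)) (XT.lf (nat_lit 0) (nat_lit 6153425749) (nat_lit 760) (nat_lit 2212493213) (nat_lit 76) (nat_lit 6221248858) (nat_lit 286) (nat_lit 5) (nat_lit 296) (nat_lit 5) (nat_lit 287) (nat_lit 5) (nat_lit 464) (nat_lit 419) (nat_lit 257))))) (XT.nd (nat_lit 234) (nat_lit 1368) (nat_lit 0) (XT.nd (nat_lit 78) (nat_lit 684) (nat_lit 0) (XT.lf (nat_lit 0) (nat_lit 5745295194) (nat_lit 760) (nat_lit 2639343127) (nat_lit 836) (nat_lit 6366373999) (nat_lit 276) (nat_lit 5) (nat_lit 286) (nat_lit 5) (nat_lit 287) (nat_lit 5) (nat_lit 465) (nat_lit 419) (nat_lit 256)) (XT.nd (nat_lit 78) (nat_lit 684) (nat_lit 0) (XT.lf (nat_lit 0) (nat_lit 10686322860) (nat_lit 836) (nat_lit 1057607193) (nat_lit 76) (nat_lit 3173690334) (nat_lit 276) (nat_lit 5) (nat_lit 287) (nat_lit 5) (nat_lit 277) (nat_lit 5) (nat_lit 466) (nat_lit 419) (nat_lit 255))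 (XT.lf (nat_lit 0) (nat_lit 7114395937) (nat_lit 684) (nat_lit 5973623876) (nat_lit 760) (nat_lit 1998464787) (nat_lit 267) (nat_lit 5) (nat_lit 276) (nat_lit 5) (nat_lit 277) (nat_lit 5) (nat_lit 467) (nat_lit 419) (nat_lit 254)))) (XT.nd (nat_lit 78) (nat_lit 608) (nat_lit 0) (XT.lf (nat_lit 0) (nat_lit 195338080) (nat_lit 684) (nat_lit 78800606) (nat_lit 760) (nat_lit 14984579129) (nat_lit 257) (nat_lit 5) (nat_lit 266) (nat_lit 5) (nat_lit 267) (nat_lit 5) (nat_lit 468) (nat_lit 419) (nat_lit 253)) (XT.nd (nat_lit 78) (nat_lit 608) (nat_lit 0) (XT.lf (nat_lit 0) (nat_lit 2648308581) (nat_lit 760) (nat_lit 6862333874) (nat_lit 76) (nat_lit 5921834921) (nat_lit 257) (nat_lit 5) (nat_lit 267) (nat_lit 5) (nat_lit 258) (nat_lit 5) (nat_lit 469) (nat_lit 419) (nat_lit 252)) (XT.lf (nat_lit 0) (nat_lit 1511178316) (nat_lit 608) (nat_lit 3559774483) (nat_lit 684) (nat_lit 10538742798) (nat_lit 249) (nat_lit 5) (nat_lit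 257) (nat_lit 5) (nat_lit 258) (nat_lit 5) (nat_lit 470) (nat_lit 419) (nat_lit 251))))))))
noncomputable def xc191 : XT := (XT.nd (nat_lit 1638) (nat_lit 2280) (nat_lit 0) (XT.nd (nat_lit 780) (nat_lit 3116) (nat_lit 0) (XT.nd (nat_lit 390) (nat_lit 1748) (nat_lit 0) (XT.nd (nat_lit 156) (nat_lit 684) (nat_lit 0) (XT.nd (nat_lit 78) (nat_lit 608) (nat_lit 0) (XT.lf (nat_lit 0) (nat_lit 7595462660) (nat_lit 684) (nat_lit 5671916412) (nat_lit 76) (nat_lit 2522014081) (nat_lit 249) (nat_lit 5) (nat_lit 258) (nat_lit 5) (nat_lit 250) (nat_lit 5) (nat_lit 471) (nat_lit 419) (nat_lit 250)) (XT.lf (nat_lit 0) (nat_lit 2927290171) (nat_lit 608) (nat_lit 7276694899) (nat_lit 684) (nat_lit 5768032303) (nat_lit 241) (nat_lit 5) (nat_lit 249) (nat_lit 5) (nat_lit 250) (nat_lit 5) (nat_lit 472) (nat_lit 419) (nat_lit 249))) (XT.nd (nat_lit 78) (nat_lit 684) (nat_lit 0) (XT.lf (nat_lit 0) (nat_lit 11764692313) (nat_lit 608) (nat_lit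 1129097256) (nat_lit 684) (nat_lit 3263925374) (nat_lit 241) (nat_lit 5) (nat_lit 249) (nat_lit 5) (nat_lit 250) (nat_lit 5) (nat_lit 473) (nat_lit 419) (nat_lit 248)) (XT.nd (nat_lit 78) (nat_lit 76) (nat_lit 0) (XT.lf (nat_lit 0) (nat_lit 4446013398) (nat_lit 608) (nat_lit 11244839563) (nat_lit 684) (nat_lit 655207285) (nat_lit 233) (nat_lit 5) (nat_lit 241) (nat_lit 5) (nat_lit 242) (nat_lit 5) (nat_lit 474) (nat_lit 419) (nat_lit 247)) (XT.lf (nat_lit 0) (nat_lit 2007790304) (nat_lit 684) (nat_lit 3047579409) (nat_lit 76) (nat_lit 11481977016) (nat_lit 232) (nat_lit 5) (nat_lit 241) (nat_lit 5) (nat_lit 233) (nat_lit 5) (nat_lit 475) (nat_lit 419) (nat_lit 246))))) (XT.nd (nat_lit 156) (nat_lit 1140) (nat_lit 0) (XT.nd (nat_lit 78) (nat_lit 0) (nat_lit 0) (XT.lf (nat_lit 0) (nat_lit 4754412962) (nat_lit 684) (nat_lit 10693777402) (nat_lit 76) (nat_lit 1283402056) (nat_lit 224) (nat_lit 5) (nat_lit 233) (nat_lit 5)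 (nat_lit 225) (nat_lit 5) (nat_lit 476) (nat_lit 419) (nat_lit 245)) (XT.lf (nat_lit 0) (nat_lit 7601550902) (nat_lit 684) (nat_lit 1627262335) (nat_lit 76) (nat_lit 7700000937) (nat_lit 224) (nat_lit 5) (nat_lit 233) (nat_lit 5) (nat_lit 225) (nat_lit 5) (nat_lit 477) (nat_lit 419) (nat_lit 244))) (XT.nd (nat_lit 78) (nat_lit 608) (nat_lit 0) (XT.lf (nat_lit 0) (nat_lit 7711364356) (nat_lit 532) (nat_lit 2836018126) (nat_lit 608) (nat_lit 6581765614) (nat_lit 217) (nat_lit 5) (nat_lit 224) (nat_lit 5) (nat_lit 225) (nat_lit 5) (nat_lit 478) (nat_lit 419) (nat_lit 243)) (XT.nd (nat_lit 78) (nat_lit 608) (nat_lit 0) (XT.lf (nat_lit 0) (nat_lit 13578812334) (nat_lit 608) (nat_lit 108884316) (nat_lit 76) (nat_lit 3645261113) (nat_lit 217) (nat_lit 5) (nat_lit 225) (nat_lit 5) (nat_lit 218) (nat_lit 5) (nat_lit 479) (nat_lit 419) (nat_lit 242)) (XT.lf (nat_lit 0) (nat_lit 9481528006) (nat_lit 608) (nat_lit 7261612618) (nat_lit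 684) (nat_lit 796260247) (nat_lit 209) (nat_lit 5) (nat_lit 217) (nat_lit 5) (nat_lit 218) (nat_lit 5) (nat_lit 480) (nat_lit 419) (nat_lit 241)))))) (XT.nd (nat_lit 390) (nat_lit 1520) (nat_lit 0) (XT.nd (nat_lit 156) (nat_lit 988) (nat_lit 0) (XT.nd (nat_lit 78) (nat_lit 0) (nat_lit 0) (XT.lf (nat_lit 0) (nat_lit 1510374050) (nat_lit 532) (nat_lit 683789233) (nat_lit 608) (nat_lit 15555473591) (nat_lit 201) (nat_lit 5) (nat_lit 208) (nat_lit 5) (nat_lit 209) (nat_lit 5) (nat_lit 481) (nat_lit 419) (nat_lit 240)) (XT.lf (nat_lit 0) (nat_lit 5319337426) (nat_lit 608) (nat_lit 6638893620) (nat_lit 76) (nat_lit 6004031697) (nat_lit 201) (nat_lit 5) (nat_lit 209) (nat_lit 5) (nat_lit 202) (nat_lit 5) (nat_lit 482) (nat_lit 419) (nat_lit 239))) (XT.nd (nat_lit 78) (nat_lit 456) (nat_lit 0) (XT.lf (nat_lit 0) (nat_lit 3180514153) (nat_lit 532) (nat_lit 5343876666) (nat_lit 608) (nat_lit 9654405239) (nat_lit 194) (nat_lit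 5) (nat_lit 201) (nat_lit 5) (nat_lit 202) (nat_lit 5) (nat_lit 483) (nat_lit 419) (nat_lit 238)) (XT.nd (nat_lit 78) (nat_lit 456) (nat_lit 0) (XT.lf (nat_lit 0) (nat_lit 11839767930) (nat_lit 608) (nat_lit 5132097637) (nat_lit 76) (nat_lit 1426872414) (nat_lit 194) (nat_lit 5) (nat_lit 202) (nat_lit 5) (nat_lit 195) (nat_lit 5) (nat_lit 484) (nat_lit 419) (nat_lit 237)) (XT.lf (nat_lit 0) (nat_lit 4950925302) (nat_lit 456) (nat_lit 10330482924) (nat_lit 532) (nat_lit 3340473752) (nat_lit 188) (nat_lit 5) (nat_lit 194) (nat_lit 5) (nat_lit 195) (nat_lit 5) (nat_lit 485) (nat_lit 419) (nat_lit 236))))) (XT.nd (nat_lit 234) (nat_lit 912) (nat_lit 0) (XT.nd (nat_lit 78) (nat_lit 608) (nat_lit 0) (XT.lf (nat_lit 0) (nat_lit 15295214226) (nat_lit 456) (nat_lit 3523611151) (nat_lit 532) (nat_lit 30126899) (nat_lit 188) (nat_lit 5) (nat_lit 194) (nat_lit 5) (nat_lit 195) (nat_lit 5) (nat_lit 486) (nat_lit 419) (nat_lit 235))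 (XT.nd (nat_lit 78) (nat_lit 0) (nat_lit 0) (XT.lf (nat_lit 0) (nat_lit 3362065367) (nat_lit 608) (nat_lit 12278290334) (nat_lit 76) (nat_lit 3438585397) (nat_lit 180) (nat_lit 5) (nat_lit 188) (nat_lit 5) (nat_lit 181) (nat_lit 5) (nat_lit 487) (nat_lit 419) (nat_lit 234)) (XT.lf (nat_lit 0) (nat_lit 6861705367) (nat_lit 608) (nat_lit 1936380263) (nat_lit 76) (nat_lit 10514642110) (nat_lit 180) (nat_lit 5) (nat_lit 188) (nat_lit 5) (nat_lit 181) (nat_lit 5) (nat_lit 488) (nat_lit 419) (nat_lit 233)))) (XT.nd (nat_lit 78) (nat_lit 456) (nat_lit 0) (XT.lf (nat_lit 0) (nat_lit 8716953096) (nat_lit 456) (nat_lit 1763791461) (nat_lit 532) (nat_lit 9069459556) (nat_lit 174) (nat_lit 5) (nat_lit 180) (nat_lit 5) (nat_lit 181) (nat_lit 5) (nat_lit 489) (nat_lit 419) (nat_lit 232)) (XT.nd (nat_lit 78) (nat_lit 456) (nat_lit 0) (XT.lf (nat_lit 0) (nat_lit 14213249407) (nat_lit 532) (nat_lit 227590864) (nat_lit 76) (nat_lit 5350770130)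 (nat_lit 174) (nat_lit 5) (nat_lit 181) (nat_lit 5) (nat_lit 175) (nat_lit 5) (nat_lit 490) (nat_lit 419) (nat_lit 231)) (XT.lf (nat_lit 0) (nat_lit 10709346046) (nat_lit 456) (nat_lit 7385282658) (nat_lit 532) (nat_lit 1941733668) (nat_lit 168) (nat_lit 5) (nat_lit 174) (nat_lit 5) (nat_lit 175) (nat_lit 5) (nat_lit 491) (nat_lit 419) (nat_lit 230))))))) (XT.nd (nat_lit 53820) (nat_lit 0) (nat_lit 23484) (XT.nd (nat_lit 390) (nat_lit 912) (nat_lit 0) (XT.nd (nat_lit 156) (nat_lit 836) (nat_lit 0) (XT.nd (nat_lit 78) (nat_lit 0) (nat_lit 0) (XT.lf (nat_lit 0) (nat_lit 1581744099) (nat_lit 456) (nat_lit 167545186) (nat_lit 532) (nat_lit 18536395614) (nat_lit 161) (nat_lit 5) (nat_lit 167) (nat_lit 5) (nat_lit 168) (nat_lit 5) (nat_lit 492) (nat_lit 419) (nat_lit 229)) (XT.lf (nat_lit 0) (nat_lit 5590968192) (nat_lit 532) (nat_lit 7773318345) (nat_lit 76) (nat_lit 7173395863) (nat_lit 161) (nat_lit 5) (nat_lit 168) (nat_lit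 5) (nat_lit 162) (nat_lit 5) (nat_lit 493) (nat_lit 419) (nat_lit 228))) (XT.nd (nat_lit 78) (nat_lit 380) (nat_lit 0) (XT.lf (nat_lit 0) (nat_lit 3410019506) (nat_lit 456) (nat_lit 6115941777) (nat_lit 532) (nat_lit 11268430846) (nat_lit 155) (nat_lit 5) (nat_lit 161) (nat_lit 5) (nat_lit 162) (nat_lit 5) (nat_lit 494) (nat_lit 419) (nat_lit 227)) (XT.nd (nat_lit 78) (nat_lit 380) (nat_lit 0) (XT.lf (nat_lit 0) (nat_lit 13593740732) (nat_lit 532) (nat_lit 6151004164) (nat_lit 76) (nat_lit 1310411276) (nat_lit 155) (nat_lit 5) (nat_lit 162) (nat_lit 5) (nat_lit 156) (nat_lit 5) (nat_lit 495) (nat_lit 419) (nat_lit 226)) (XT.lf (nat_lit 0) (nat_lit 5327015184) (nat_lit 380) (nat_lit 12484366160) (nat_lit 456) (nat_lit 3508385858) (nat_lit 150) (nat_lit 5) (nat_lit 155) (nat_lit 5) (nat_lit 156) (nat_lit 5) (nat_lit 496) (nat_lit 419) (nat_lit 225))))) (XT.nd (nat_lit 234) (nat_lit 380) (nat_lit 0) (XT.nd (nat_lit 78)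 (nat_lit 456) (nat_lit 0) (XT.lf (nat_lit 0) (nat_lit 551825504) (nat_lit 456) (nat_lit 4483950654) (nat_lit 76) (nat_lit 16553128240) (nat_lit 149) (nat_lit 5) (nat_lit 155) (nat_lit 5) (nat_lit 150) (nat_lit 5) (nat_lit 497) (nat_lit 419) (nat_lit 224)) (XT.nd (nat_lit 78) (nat_lit 0) (nat_lit 0) (XT.lf (nat_lit 0) (nat_lit 4704476353) (nat_lit 532) (nat_lit 14560667461) (nat_lit 76) (nat_lit 2596654175) (nat_lit 143) (nat_lit 5) (nat_lit 150) (nat_lit 5) (nat_lit 144) (nat_lit 5) (nat_lit 498) (nat_lit 419) (nat_lit 223)) (XT.lf (nat_lit 0) (nat_lit 8997435616) (nat_lit 532) (nat_lit 2799673252) (nat_lit 76) (nat_lit 10341897154) (nat_lit 143) (nat_lit 5) (nat_lit 150) (nat_lit 5) (nat_lit 144) (nat_lit 5) (nat_lit 499) (nat_lit 419) (nat_lit 222)))) (XT.nd (nat_lit 78) (nat_lit 0) (nat_lit 0) (XT.lf (nat_lit 0) (nat_lit 9309547744) (nat_lit 380) (nat_lit 4120892183) (nat_lit 456) (nat_lit 8990236214) (nat_lit 138)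 (nat_lit 5) (nat_lit 143) (nat_lit 5) (nat_lit 144) (nat_lit 5) (nat_lit 500) (nat_lit 419) (nat_lit 221)) (XT.nd (nat_lit 53040) (nat_lit 0) (nat_lit 24928) (XT.lf (nat_lit 0) (nat_lit 17988884103) (nat_lit 456) (nat_lit 1042041942) (nat_lit 76) (nat_lit 3676319635) (nat_lit 138) (nat_lit 5) (nat_lit 144) (nat_lit 5) (nat_lit 139) (nat_lit 5) (nat_lit 501) (nat_lit 419) (nat_lit 220)) (XT.lf (nat_lit 0) (nat_lit 2690380709) (nat_lit 1596) (nat_lit 1039532188) (nat_lit 1596) (nat_lit 1039532188) (nat_lit 466) (nat_lit 3) (nat_lit 487) (nat_lit 3) (nat_lit 487) (nat_lit 5) (nat_lit 420) (nat_lit 420) (nat_lit 300)))))) (XT.nd (nat_lit 390) (nat_lit 1444) (nat_lit 0) (XT.nd (nat_lit 156) (nat_lit 0) (nat_lit 76) (XT.nd (nat_lit 78) (nat_lit 0) (nat_lit 76) (XT.lf (nat_lit 76) (nat_lit 2485848943) (nat_lit 0) (nat_lit 3731959569) (nat_lit 1596) (nat_lit 3400447691) (nat_lit 467) (nat_lit 5) (nat_lit 466) (nat_lit 3) (nat_lit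 487) (nat_lit 5) (nat_lit 421) (nat_lit 420) (nat_lit 299)) (XT.lf (nat_lit 0) (nat_lit 7065972751) (nat_lit 1520) (nat_lit 2540117326) (nat_lit 1596) (nat_lit 93241347) (nat_lit 467) (nat_lit 5) (nat_lit 487) (nat_lit 5) (nat_lit 488) (nat_lit 5) (nat_lit 422) (nat_lit 420) (nat_lit 298))) (XT.nd (nat_lit 78) (nat_lit 0) (nat_lit 0) (XT.lf (nat_lit 76) (nat_lit 2136659743) (nat_lit 0) (nat_lit 5813297413) (nat_lit 1596) (nat_lit 1831703066) (nat_lit 468) (nat_lit 5) (nat_lit 467) (nat_lit 5) (nat_lit 488) (nat_lit 5) (nat_lit 423) (nat_lit 420) (nat_lit 297)) (XT.nd (nat_lit 78) (nat_lit 0) (nat_lit 76) (XT.lf (nat_lit 76) (nat_lit 6930808112) (nat_lit 0) (nat_lit 1918446045) (nat_lit 1596) (nat_lit 1016437807) (nat_lit 468) (nat_lit 5) (nat_lit 467) (nat_lit 5) (nat_lit 488) (nat_lit 5) (nat_lit 424) (nat_lit 420) (nat_lit 296)) (XT.lf (nat_lit 76) (nat_lit 1869785745) (nat_lit 0) (nat_lit 7903253281) (nat_lit 1596)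 (nat_lit 178244128) (nat_lit 469) (nat_lit 5) (nat_lit 468) (nat_lit 5) (nat_lit 489) (nat_lit 5) (nat_lit 425) (nat_lit 420) (nat_lit 295))))) (XT.nd (nat_lit 234) (nat_lit 0) (nat_lit 76) (XT.nd (nat_lit 78) (nat_lit 0) (nat_lit 76) (XT.lf (nat_lit 0) (nat_lit 681562300) (nat_lit 1596) (nat_lit 3256110651) (nat_lit 1672) (nat_lit 6100559369) (nat_lit 447) (nat_lit 5) (nat_lit 468) (nat_lit 5) (nat_lit 469) (nat_lit 5) (nat_lit 426) (nat_lit 420) (nat_lit 294)) (XT.nd (nat_lit 78) (nat_lit 0) (nat_lit 0) (XT.lf (nat_lit 0) (nat_lit 1549449065) (nat_lit 1596) (nat_lit 8452105464) (nat_lit 1672) (nat_lit 125485296) (nat_lit 448) (nat_lit 5) (nat_lit 469) (nat_lit 5) (nat_lit 470) (nat_lit 5) (nat_lit 427) (nat_lit 420) (nat_lit 293)) (XT.lf (nat_lit 0) (nat_lit 2464668583) (nat_lit 1596) (nat_lit 3505823983) (nat_lit 1672) (nat_lit 4246539594) (nat_lit 448) (nat_lit 5) (nat_lit 469) (nat_lit 5) (nat_lit 470) (nat_lit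 5) (nat_lit 428) (nat_lit 420) (nat_lit 292)))) (XT.nd (nat_lit 78) (nat_lit 0) (nat_lit 76) (XT.lf (nat_lit 76) (nat_lit 1548760887) (nat_lit 0) (nat_lit 1841744826) (nat_lit 1672) (nat_lit 6918480378) (nat_lit 449) (nat_lit 5) (nat_lit 448) (nat_lit 5) (nat_lit 470) (nat_lit 5) (nat_lit 429) (nat_lit 420) (nat_lit 291)) (XT.nd (nat_lit 78) (nat_lit 0) (nat_lit 0) (XT.lf (nat_lit 0) (nat_lit 4356504054) (nat_lit 1596) (nat_lit 3677152041) (nat_lit 1672) (nat_lit 2368697978) (nat_lit 449) (nat_lit 5) (nat_lit 470) (nat_lit 5) (nat_lit 471) (nat_lit 5) (nat_lit 430) (nat_lit 420) (nat_lit 290)) (XT.lf (nat_lit 76) (nat_lit 1504069976) (nat_lit 0) (nat_lit 3842634269) (nat_lit 1672) (nat_lit 5150795235) (nat_lit 450) (nat_lit 5) (nat_lit 449) (nat_lit 5) (nat_lit 471) (nat_lit 5) (nat_lit 431) (nat_lit 420) (nat_lit 289))))))))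
noncomputable def xc192 : XT := (XT.nd (nat_lit 1638) (nat_lit 9120) (nat_lit 0) (XT.nd (nat_lit 780) (nat_lit 5244) (nat_lit 0) (XT.nd (nat_lit 390) (nat_lit 1520) (nat_lit 0) (XT.nd (nat_lit 156) (nat_lit 0) (nat_lit 0) (XT.nd (nat_lit 78) (nat_lit 0) (nat_lit 0) (XT.lf (nat_lit 0) (nat_lit 6367574804) (nat_lit 1596) (nat_lit 3769613667) (nat_lit 1672) (nat_lit 457149552) (nat_lit 450) (nat_lit 5) (nat_lit 471) (nat_lit 5) (nat_lit 472) (nat_lit 5) (nat_lit 432) (nat_lit 420) (nat_lit 288)) (XT.lf (nat_lit 76) (nat_lit 1542330095) (nat_lit 0) (nat_lit 5885544554) (nat_lit 1672) (nat_lit 3264865857) (nat_lit 451) (nat_lit 5) (nat_lit 450) (nat_lit 5) (nat_lit 472) (nat_lit 5) (nat_lit 433) (nat_lit 420) (nat_lit 287))) (XT.nd (nat_lit 78) (nat_lit 0) (nat_lit 76) (XT.lf (nat_lit 76) (nat_lit 7000555635) (nat_lit 0) (nat_lit 1517921854) (nat_lit 1672) (nat_lit 2274458869) (nat_lit 451) (nat_lit 5) (nat_lit 450) (nat_lit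 5) (nat_lit 472) (nat_lit 5) (nat_lit 434) (nat_lit 420) (nat_lit 286)) (XT.nd (nat_lit 78) (nat_lit 0) (nat_lit 0) (XT.lf (nat_lit 76) (nat_lit 1664372882) (nat_lit 0) (nat_lit 7980546294) (nat_lit 1672) (nat_lit 1249943534) (nat_lit 452) (nat_lit 5) (nat_lit 451) (nat_lit 5) (nat_lit 473) (nat_lit 5) (nat_lit 435) (nat_lit 420) (nat_lit 285)) (XT.lf (nat_lit 76) (nat_lit 7260359956) (nat_lit 0) (nat_lit 3553354763) (nat_lit 1672) (nat_lit 184723349) (nat_lit 452) (nat_lit 5) (nat_lit 451) (nat_lit 5) (nat_lit 473) (nat_lit 5) (nat_lit 436) (nat_lit 420) (nat_lit 284))))) (XT.nd (nat_lit 156) (nat_lit 0) (nat_lit 0) (XT.nd (nat_lit 78) (nat_lit 0) (nat_lit 0) (XT.lf (nat_lit 0) (nat_lit 893110026) (nat_lit 1672) (nat_lit 9238675799) (nat_lit 1748) (nat_lit 972125992) (nat_lit 430) (nat_lit 5) (nat_lit 452) (nat_lit 5) (nat_lit 453) (nat_lit 5) (nat_lit 437) (nat_lit 420) (nat_lit 283)) (XT.lf (nat_lit 0) (nat_lit 2023656862)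 (nat_lit 1672) (nat_lit 3616007561) (nat_lit 1748) (nat_lit 5571140171) (nat_lit 430) (nat_lit 5) (nat_lit 452) (nat_lit 5) (nat_lit 453) (nat_lit 5) (nat_lit 438) (nat_lit 420) (nat_lit 282))) (XT.nd (nat_lit 78) (nat_lit 0) (nat_lit 76) (XT.lf (nat_lit 76) (nat_lit 2135971151) (nat_lit 0) (nat_lit 1039853957) (nat_lit 1748) (nat_lit 8144036353) (nat_lit 431) (nat_lit 5) (nat_lit 430) (nat_lit 5) (nat_lit 453) (nat_lit 5) (nat_lit 439) (nat_lit 420) (nat_lit 281)) (XT.nd (nat_lit 78) (nat_lit 0) (nat_lit 0) (XT.lf (nat_lit 0) (nat_lit 4384558416) (nat_lit 1672) (nat_lit 3413885694) (nat_lit 1748) (nat_lit 3631991245) (nat_lit 431) (nat_lit 5) (nat_lit 453) (nat_lit 5) (nat_lit 454) (nat_lit 5) (nat_lit 440) (nat_lit 420) (nat_lit 280)) (XT.lf (nat_lit 76) (nat_lit 2486055962) (nat_lit 0) (nat_lit 3140109358) (nat_lit 1748) (nat_lit 5916887625) (nat_lit 432) (nat_lit 5) (nat_lit 431) (nat_lit 5) (nat_lit 454) (nat_lit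 5) (nat_lit 441) (nat_lit 420) (nat_lit 279)))))) (XT.nd (nat_lit 390) (nat_lit 3724) (nat_lit 0) (XT.nd (nat_lit 156) (nat_lit 1672) (nat_lit 0) (XT.nd (nat_lit 78) (nat_lit 0) (nat_lit 0) (XT.lf (nat_lit 0) (nat_lit 6912027017) (nat_lit 1672) (nat_lit 3129222213) (nat_lit 1748) (nat_lit 1616291278) (nat_lit 432) (nat_lit 5) (nat_lit 454) (nat_lit 5) (nat_lit 455) (nat_lit 5) (nat_lit 442) (nat_lit 420) (nat_lit 278)) (XT.lf (nat_lit 76) (nat_lit 2923462065) (nat_lit 0) (nat_lit 5326096582) (nat_lit 1748) (nat_lit 3524246078) (nat_lit 433) (nat_lit 5) (nat_lit 432) (nat_lit 5) (nat_lit 455) (nat_lit 5) (nat_lit 443) (nat_lit 420) (nat_lit 277))) (XT.nd (nat_lit 78) (nat_lit 1672) (nat_lit 0) (XT.lf (nat_lit 76) (nat_lit 9128498804) (nat_lit 0) (nat_lit 492715918) (nat_lit 1748) (nat_lit 2271037868) (nat_lit 433) (nat_lit 5) (nat_lit 432) (nat_lit 5) (nat_lit 455) (nat_lit 5) (nat_lit 444) (nat_lit 420) (nat_lit 276))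 (XT.nd (nat_lit 78) (nat_lit 76) (nat_lit 0) (XT.lf (nat_lit 0) (nat_lit 3449812190) (nat_lit 1672) (nat_lit 7608358495) (nat_lit 1748) (nat_lit 954147117) (nat_lit 411) (nat_lit 5) (nat_lit 433) (nat_lit 5) (nat_lit 434) (nat_lit 5) (nat_lit 445) (nat_lit 420) (nat_lit 275)) (XT.lf (nat_lit 0) (nat_lit 392665643) (nat_lit 1748) (nat_lit 2326509899) (nat_lit 76) (nat_lit 9415390014) (nat_lit 410) (nat_lit 5) (nat_lit 433) (nat_lit 5) (nat_lit 411) (nat_lit 5) (nat_lit 446) (nat_lit 420) (nat_lit 274))))) (XT.nd (nat_lit 234) (nat_lit 912) (nat_lit 0) (XT.nd (nat_lit 78) (nat_lit 1064) (nat_lit 0) (XT.lf (nat_lit 0) (nat_lit 1782044907) (nat_lit 1824) (nat_lit 8203629409) (nat_lit 76) (nat_lit 2272895080) (nat_lit 387) (nat_lit 5) (nat_lit 411) (nat_lit 5) (nat_lit 388) (nat_lit 5) (nat_lit 447) (nat_lit 420) (nat_lit 273)) (XT.nd (nat_lit 78) (nat_lit 1064) (nat_lit 0) (XT.lf (nat_lit 0) (nat_lit 3220144586) (nat_lit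 1824) (nat_lit 1818572933) (nat_lit 76) (nat_lit 7345922427) (nat_lit 387) (nat_lit 5) (nat_lit 411) (nat_lit 5) (nat_lit 388) (nat_lit 5) (nat_lit 448) (nat_lit 420) (nat_lit 272)) (XT.lf (nat_lit 0) (nat_lit 4705536948) (nat_lit 1140) (nat_lit 7767765884) (nat_lit 76) (nat_lit 39563646) (nat_lit 373) (nat_lit 5) (nat_lit 388) (nat_lit 5) (nat_lit 374) (nat_lit 5) (nat_lit 449) (nat_lit 420) (nat_lit 271)))) (XT.nd (nat_lit 78) (nat_lit 912) (nat_lit 0) (XT.lf (nat_lit 0) (nat_lit 6253934439) (nat_lit 1140) (nat_lit 1223407998) (nat_lit 76) (nat_lit 5165654241) (nat_lit 373) (nat_lit 5) (nat_lit 388) (nat_lit 5) (nat_lit 374) (nat_lit 5) (nat_lit 450) (nat_lit 420) (nat_lit 270)) (XT.nd (nat_lit 78) (nat_lit 0) (nat_lit 0) (XT.lf (nat_lit 0) (nat_lit 5513119511) (nat_lit 912) (nat_lit 2343861363) (nat_lit 988) (nat_lit 4918279973) (nat_lit 361) (nat_lit 5) (nat_lit 373) (nat_lit 5) (nat_lit 374) (nat_lit 5) (nat_lit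 451) (nat_lit 420) (nat_lit 269)) (XT.lf (nat_lit 0) (nat_lit 9507190047) (nat_lit 988) (nat_lit 539078820) (nat_lit 76) (nat_lit 2863604282) (nat_lit 361) (nat_lit 5) (nat_lit 374) (nat_lit 5) (nat_lit 362) (nat_lit 5) (nat_lit 452) (nat_lit 420) (nat_lit 268))))))) (XT.nd (nat_lit 780) (nat_lit 4104) (nat_lit 0) (XT.nd (nat_lit 390) (nat_lit 2432) (nat_lit 0) (XT.nd (nat_lit 156) (nat_lit 912) (nat_lit 0) (XT.nd (nat_lit 78) (nat_lit 836) (nat_lit 0) (XT.lf (nat_lit 0) (nat_lit 6375558028) (nat_lit 836) (nat_lit 4860055190) (nat_lit 912) (nat_lit 1810665073) (nat_lit 350) (nat_lit 5) (nat_lit 361) (nat_lit 5) (nat_lit 362) (nat_lit 5) (nat_lit 453) (nat_lit 420) (nat_lit 267)) (XT.lf (nat_lit 0) (nat_lit 239634782) (nat_lit 836) (nat_lit 12755414551) (nat_lit 912) (nat_lit 190438011) (nat_lit 339) (nat_lit 5) (nat_lit 350) (nat_lit 5) (nat_lit 351) (nat_lit 5) (nat_lit 454) (nat_lit 420) (nat_lit 266))) (XT.nd (nat_lit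 78) (nat_lit 836) (nat_lit 0) (XT.lf (nat_lit 0) (nat_lit 1508793491) (nat_lit 912) (nat_lit 6001173175) (nat_lit 76) (nat_lit 5816013018) (nat_lit 338) (nat_lit 5) (nat_lit 350) (nat_lit 5) (nat_lit 339) (nat_lit 5) (nat_lit 455) (nat_lit 420) (nat_lit 265)) (XT.nd (nat_lit 78) (nat_lit 0) (nat_lit 0) (XT.lf (nat_lit 0) (nat_lit 1084347880) (nat_lit 836) (nat_lit 2150909899) (nat_lit 912) (nat_lit 10234087380) (nat_lit 327) (nat_lit 5) (nat_lit 338) (nat_lit 5) (nat_lit 339) (nat_lit 5) (nat_lit 456) (nat_lit 420) (nat_lit 264)) (XT.lf (nat_lit 0) (nat_lit 5047220282) (nat_lit 912) (nat_lit 5254804646) (nat_lit 76) (nat_lit 3312537975) (nat_lit 327) (nat_lit 5) (nat_lit 339) (nat_lit 5) (nat_lit 328) (nat_lit 5) (nat_lit 457) (nat_lit 420) (nat_lit 263))))) (XT.nd (nat_lit 156) (nat_lit 1596) (nat_lit 0) (XT.nd (nat_lit 78) (nat_lit 0) (nat_lit 0) (XT.lf (nat_lit 0) (nat_lit 2019282658) (nat_lit 836) (nat_lit 4892617760)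 (nat_lit 912) (nat_lit 6850459269) (nat_lit 316) (nat_lit 5) (nat_lit 327) (nat_lit 5) (nat_lit 328) (nat_lit 5) (nat_lit 458) (nat_lit 420) (nat_lit 262)) (XT.lf (nat_lit 0) (nat_lit 8842693115) (nat_lit 912) (nat_lit 4417710384) (nat_lit 76) (nat_lit 652136701) (nat_lit 316) (nat_lit 5) (nat_lit 328) (nat_lit 5) (nat_lit 317) (nat_lit 5) (nat_lit 459) (nat_lit 420) (nat_lit 261))) (XT.nd (nat_lit 78) (nat_lit 836) (nat_lit 0) (XT.lf (nat_lit 0) (nat_lit 3050898867) (nat_lit 760) (nat_lit 7802888341) (nat_lit 836) (nat_lit 3211107493) (nat_lit 306) (nat_lit 5) (nat_lit 316) (nat_lit 5) (nat_lit 317) (nat_lit 5) (nat_lit 460) (nat_lit 420) (nat_lit 260)) (XT.nd (nat_lit 78) (nat_lit 836) (nat_lit 0) (XT.lf (nat_lit 0) (nat_lit 10717958714) (nat_lit 760) (nat_lit 2206401481) (nat_lit 836) (nat_lit 1295554963) (nat_lit 306) (nat_lit 5) (nat_lit 316) (nat_lit 5) (nat_lit 317) (nat_lit 5) (nat_lit 461) (nat_lit 420) (nat_lit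 259)) (XT.lf (nat_lit 0) (nat_lit 689634033) (nat_lit 836) (nat_lit 10200151770) (nat_lit 76) (nat_lit 3487369407) (nat_lit 295) (nat_lit 5) (nat_lit 306) (nat_lit 5) (nat_lit 296) (nat_lit 5) (nat_lit 462) (nat_lit 420) (nat_lit 258)))))) (XT.nd (nat_lit 390) (nat_lit 2660) (nat_lit 0) (XT.nd (nat_lit 156) (nat_lit 760) (nat_lit 0) (XT.nd (nat_lit 78) (nat_lit 684) (nat_lit 0) (XT.lf (nat_lit 0) (nat_lit 2725335659) (nat_lit 836) (nat_lit 2514270243) (nat_lit 76) (nat_lit 9297203539) (nat_lit 295) (nat_lit 5) (nat_lit 306) (nat_lit 5) (nat_lit 296) (nat_lit 5) (nat_lit 463) (nat_lit 420) (nat_lit 257)) (XT.lf (nat_lit 0) (nat_lit 4830413730) (nat_lit 760) (nat_lit 9317480046) (nat_lit 76) (nat_lit 551193436) (nat_lit 286) (nat_lit 5) (nat_lit 296) (nat_lit 5) (nat_lit 287) (nat_lit 5) (nat_lit 464) (nat_lit 420) (nat_lit 256))) (XT.nd (nat_lit 78) (nat_lit 760) (nat_lit 0) (XT.lf (nat_lit 0) (nat_lit 7019468628) (nat_lit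 760) (nat_lit 1440377245) (nat_lit 76) (nat_lit 6403930790) (nat_lit 286) (nat_lit 5) (nat_lit 296) (nat_lit 5) (nat_lit 287) (nat_lit 5) (nat_lit 465) (nat_lit 420) (nat_lit 255)) (XT.nd (nat_lit 78) (nat_lit 0) (nat_lit 0) (XT.lf (nat_lit 0) (nat_lit 6671196102) (nat_lit 760) (nat_lit 2614806743) (nat_lit 836) (nat_lit 5745086654) (nat_lit 276) (nat_lit 5) (nat_lit 286) (nat_lit 5) (nat_lit 287) (nat_lit 5) (nat_lit 466) (nat_lit 420) (nat_lit 254)) (XT.lf (nat_lit 0) (nat_lit 11619827544) (nat_lit 836) (nat_lit 269508319) (nat_lit 76) (nat_lit 3311977021) (nat_lit 276) (nat_lit 5) (nat_lit 287) (nat_lit 5) (nat_lit 277) (nat_lit 5) (nat_lit 467) (nat_lit 420) (nat_lit 253))))) (XT.nd (nat_lit 234) (nat_lit 1216) (nat_lit 0) (XT.nd (nat_lit 78) (nat_lit 760) (nat_lit 0) (XT.lf (nat_lit 0) (nat_lit 8060610853) (nat_lit 684) (nat_lit 6000053911) (nat_lit 760) (nat_lit 1313072674) (nat_lit 267) (nat_lit 5) (nat_lit 276)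 (nat_lit 5) (nat_lit 277) (nat_lit 5) (nat_lit 468) (nat_lit 420) (nat_lit 252)) (XT.nd (nat_lit 78) (nat_lit 0) (nat_lit 0) (XT.lf (nat_lit 0) (nat_lit 986817396) (nat_lit 760) (nat_lit 14542051680) (nat_lit 76) (nat_lit 20630078) (nat_lit 257) (nat_lit 5) (nat_lit 267) (nat_lit 5) (nat_lit 258) (nat_lit 5) (nat_lit 469) (nat_lit 420) (nat_lit 251)) (XT.lf (nat_lit 0) (nat_lit 3395115727) (nat_lit 760) (nat_lit 6193625853) (nat_lit 76) (nat_lit 6138264309) (nat_lit 257) (nat_lit 5) (nat_lit 267) (nat_lit 5) (nat_lit 258) (nat_lit 5) (nat_lit 470) (nat_lit 420) (nat_lit 250)))) (XT.nd (nat_lit 78) (nat_lit 608) (nat_lit 0) (XT.lf (nat_lit 0) (nat_lit 2342054247) (nat_lit 608) (nat_lit 3515752224) (nat_lit 684) (nat_lit 10050134920) (nat_lit 249) (nat_lit 5) (nat_lit 257) (nat_lit 5) (nat_lit 258) (nat_lit 5) (nat_lit 471) (nat_lit 420) (nat_lit 249)) (XT.nd (nat_lit 78) (nat_lit 608) (nat_lit 0) (XT.lf (nat_lit 0) (nat_lit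 8420100037) (nat_lit 684) (nat_lit 4987460218) (nat_lit 76) (nat_lit 2683931468) (nat_lit 249) (nat_lit 5) (nat_lit 258) (nat_lit 5) (nat_lit 250) (nat_lit 5) (nat_lit 472) (nat_lit 420) (nat_lit 248)) (XT.lf (nat_lit 0) (nat_lit 3778481191) (nat_lit 608) (nat_lit 7294267335) (nat_lit 684) (nat_lit 5205185390) (nat_lit 241) (nat_lit 5) (nat_lit 249) (nat_lit 5) (nat_lit 250) (nat_lit 5) (nat_lit 473) (nat_lit 420) (nat_lit 247))))))))
noncomputable def xc193 : XT := (XT.nd (nat_lit 1638) (nat_lit 1748) (nat_lit 0) (XT.nd (nat_lit 780) (nat_lit 3040) (nat_lit 0) (XT.nd (nat_lit 390) (nat_lit 1748) (nat_lit 0) (XT.nd (nat_lit 156) (nat_lit 684) (nat_lit 0) (XT.nd (nat_lit 78) (nat_lit 608) (nat_lit 0) (XT.lf (nat_lit 0) (nat_lit 12777089312) (nat_lit 608) (nat_lit 1026226787) (nat_lit 684) (nat_lit 2664294511) (nat_lit 241) (nat_lit 5) (nat_lit 249) (nat_lit 5) (nat_lit 250) (nat_lit 5) (nat_lit 474) (nat_lit 420) (nat_lit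 246)) (XT.lf (nat_lit 0) (nat_lit 5319286540) (nat_lit 608) (nat_lit 11330147842) (nat_lit 684) (nat_lit 10430589) (nat_lit 233) (nat_lit 5) (nat_lit 241) (nat_lit 5) (nat_lit 242) (nat_lit 5) (nat_lit 475) (nat_lit 420) (nat_lit 245))) (XT.nd (nat_lit 78) (nat_lit 608) (nat_lit 0) (XT.lf (nat_lit 0) (nat_lit 2684468284) (nat_lit 684) (nat_lit 2330885943) (nat_lit 76) (nat_lit 11839796391) (nat_lit 232) (nat_lit 5) (nat_lit 241) (nat_lit 5) (nat_lit 233) (nat_lit 5) (nat_lit 476) (nat_lit 420) (nat_lit 244)) (XT.nd (nat_lit 78) (nat_lit 0) (nat_lit 0) (XT.lf (nat_lit 0) (nat_lit 5479489852) (nat_lit 684) (nat_lit 10123265919) (nat_lit 76) (nat_lit 1450660290) (nat_lit 224) (nat_lit 5) (nat_lit 233) (nat_lit 5) (nat_lit 225) (nat_lit 5) (nat_lit 477) (nat_lit 420) (nat_lit 243)) (XT.lf (nat_lit 0) (nat_lit 8371217833) (nat_lit 684) (nat_lit 890800689) (nat_lit 76) (nat_lit 7992814870) (nat_lit 224) (nat_lit 5) (nat_lit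 233) (nat_lit 5) (nat_lit 225) (nat_lit 5) (nat_lit 478) (nat_lit 420) (nat_lit 242))))) (XT.nd (nat_lit 156) (nat_lit 608) (nat_lit 0) (XT.nd (nat_lit 78) (nat_lit 608) (nat_lit 0) (XT.lf (nat_lit 0) (nat_lit 8629539281) (nat_lit 532) (nat_lit 2739276311) (nat_lit 608) (nat_lit 6090505417) (nat_lit 217) (nat_lit 5) (nat_lit 224) (nat_lit 5) (nat_lit 225) (nat_lit 5) (nat_lit 479) (nat_lit 420) (nat_lit 241)) (XT.lf (nat_lit 0) (nat_lit 657722289) (nat_lit 608) (nat_lit 13796428659) (nat_lit 684) (nat_lit 3213194311) (nat_lit 209) (nat_lit 5) (nat_lit 217) (nat_lit 5) (nat_lit 218) (nat_lit 5) (nat_lit 480) (nat_lit 420) (nat_lit 240))) (XT.nd (nat_lit 78) (nat_lit 608) (nat_lit 0) (XT.lf (nat_lit 0) (nat_lit 10426315672) (nat_lit 608) (nat_lit 7244327998) (nat_lit 684) (nat_lit 207499852) (nat_lit 209) (nat_lit 5) (nat_lit 217) (nat_lit 5) (nat_lit 218) (nat_lit 5) (nat_lit 481) (nat_lit 420) (nat_lit 239)) (XT.nd (nat_lit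 78) (nat_lit 0) (nat_lit 0) (XT.lf (nat_lit 0) (nat_lit 2298836428) (nat_lit 532) (nat_lit 529187175) (nat_lit 608) (nat_lit 15264621384) (nat_lit 201) (nat_lit 5) (nat_lit 208) (nat_lit 5) (nat_lit 209) (nat_lit 5) (nat_lit 482) (nat_lit 420) (nat_lit 238)) (XT.lf (nat_lit 0) (nat_lit 6005204199) (nat_lit 608) (nat_lit 6017605855) (nat_lit 76) (nat_lit 6286926888) (nat_lit 201) (nat_lit 5) (nat_lit 209) (nat_lit 5) (nat_lit 202) (nat_lit 5) (nat_lit 483) (nat_lit 420) (nat_lit 237)))))) (XT.nd (nat_lit 390) (nat_lit 1444) (nat_lit 0) (XT.nd (nat_lit 156) (nat_lit 1064) (nat_lit 0) (XT.nd (nat_lit 78) (nat_lit 0) (nat_lit 0) (XT.lf (nat_lit 0) (nat_lit 3993229116) (nat_lit 532) (nat_lit 5274630876) (nat_lit 608) (nat_lit 9262874463) (nat_lit 194) (nat_lit 5) (nat_lit 201) (nat_lit 5) (nat_lit 202) (nat_lit 5) (nat_lit 484) (nat_lit 420) (nat_lit 236)) (XT.lf (nat_lit 0) (nat_lit 12639430803) (nat_lit 608) (nat_lit 4490034988)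 (nat_lit 76) (nat_lit 1625815190) (nat_lit 194) (nat_lit 5) (nat_lit 202) (nat_lit 5) (nat_lit 195) (nat_lit 5) (nat_lit 485) (nat_lit 420) (nat_lit 235))) (XT.nd (nat_lit 78) (nat_lit 608) (nat_lit 0) (XT.lf (nat_lit 0) (nat_lit 5789749037) (nat_lit 456) (nat_lit 10353921557) (nat_lit 532) (nat_lit 2839345350) (nat_lit 188) (nat_lit 5) (nat_lit 194) (nat_lit 5) (nat_lit 195) (nat_lit 5) (nat_lit 486) (nat_lit 420) (nat_lit 234)) (XT.nd (nat_lit 78) (nat_lit 532) (nat_lit 0) (XT.lf (nat_lit 0) (nat_lit 519172868) (nat_lit 532) (nat_lit 2891847145) (nat_lit 76) (nat_lit 15803760963) (nat_lit 187) (nat_lit 5) (nat_lit 194) (nat_lit 5) (nat_lit 188) (nat_lit 5) (nat_lit 487) (nat_lit 420) (nat_lit 233)) (XT.lf (nat_lit 0) (nat_lit 3973955625) (nat_lit 608) (nat_lit 11786078531) (nat_lit 76) (nat_lit 3689431659) (nat_lit 180) (nat_lit 5) (nat_lit 188) (nat_lit 5) (nat_lit 181) (nat_lit 5) (nat_lit 488) (nat_lit 420) (nat_lit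 232))))) (XT.nd (nat_lit 234) (nat_lit 532) (nat_lit 0) (XT.nd (nat_lit 78) (nat_lit 912) (nat_lit 0) (XT.lf (nat_lit 0) (nat_lit 7532909033) (nat_lit 608) (nat_lit 1251796486) (nat_lit 76) (nat_lit 10903439416) (nat_lit 180) (nat_lit 5) (nat_lit 188) (nat_lit 5) (nat_lit 181) (nat_lit 5) (nat_lit 489) (nat_lit 420) (nat_lit 231)) (XT.nd (nat_lit 78) (nat_lit 456) (nat_lit 0) (XT.lf (nat_lit 0) (nat_lit 9609844912) (nat_lit 456) (nat_lit 1608679425) (nat_lit 532) (nat_lit 8711965690) (nat_lit 174) (nat_lit 5) (nat_lit 180) (nat_lit 5) (nat_lit 181) (nat_lit 5) (nat_lit 490) (nat_lit 420) (nat_lit 230)) (XT.lf (nat_lit 0) (nat_lit 488017359) (nat_lit 456) (nat_lit 14531686169) (nat_lit 532) (nat_lit 5157143465) (nat_lit 168) (nat_lit 5) (nat_lit 174) (nat_lit 5) (nat_lit 175) (nat_lit 5) (nat_lit 491) (nat_lit 420) (nat_lit 229)))) (XT.nd (nat_lit 78) (nat_lit 532) (nat_lit 0) (XT.lf (nat_lit 0) (nat_lit 11632596787)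 (nat_lit 456) (nat_lit 7337371931) (nat_lit 532) (nat_lit 1456703096) (nat_lit 168) (nat_lit 5) (nat_lit 174) (nat_lit 5) (nat_lit 175) (nat_lit 5) (nat_lit 492) (nat_lit 420) (nat_lit 228)) (XT.nd (nat_lit 78) (nat_lit 0) (nat_lit 0) (XT.lf (nat_lit 0) (nat_lit 2295939528) (nat_lit 532) (nat_lit 18356465997) (nat_lit 76) (nat_lit 28616708) (nat_lit 161) (nat_lit 5) (nat_lit 168) (nat_lit 5) (nat_lit 162) (nat_lit 5) (nat_lit 493) (nat_lit 420) (nat_lit 227)) (XT.lf (nat_lit 0) (nat_lit 6205507190) (nat_lit 532) (nat_lit 7222467016) (nat_lit 76) (nat_lit 7510267179) (nat_lit 161) (nat_lit 5) (nat_lit 168) (nat_lit 5) (nat_lit 162) (nat_lit 5) (nat_lit 494) (nat_lit 420) (nat_lit 226))))))) (XT.nd (nat_lit 53898) (nat_lit 0) (nat_lit 23408) (XT.nd (nat_lit 390) (nat_lit 380) (nat_lit 0) (XT.nd (nat_lit 156) (nat_lit 912) (nat_lit 0) (XT.nd (nat_lit 78) (nat_lit 0) (nat_lit 0) (XT.lf (nat_lit 0) (nat_lit 4179890765) (nat_lit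 456) (nat_lit 6034007843) (nat_lit 532) (nat_lit 10986295481) (nat_lit 155) (nat_lit 5) (nat_lit 161) (nat_lit 5) (nat_lit 162) (nat_lit 5) (nat_lit 495) (nat_lit 420) (nat_lit 225)) (XT.lf (nat_lit 0) (nat_lit 14354580492) (nat_lit 532) (nat_lit 5577523652) (nat_lit 76) (nat_lit 1534241029) (nat_lit 155) (nat_lit 5) (nat_lit 162) (nat_lit 5) (nat_lit 156) (nat_lit 5) (nat_lit 496) (nat_lit 420) (nat_lit 224))) (XT.nd (nat_lit 78) (nat_lit 532) (nat_lit 0) (XT.lf (nat_lit 0) (nat_lit 6125473842) (nat_lit 380) (nat_lit 12526004919) (nat_lit 456) (nat_lit 3084874209) (nat_lit 150) (nat_lit 5) (nat_lit 155) (nat_lit 5) (nat_lit 156) (nat_lit 5) (nat_lit 497) (nat_lit 420) (nat_lit 223)) (XT.nd (nat_lit 78) (nat_lit 456) (nat_lit 0) (XT.lf (nat_lit 0) (nat_lit 1040513654) (nat_lit 456) (nat_lit 3888803553) (nat_lit 76) (nat_lit 17081685199) (nat_lit 149) (nat_lit 5) (nat_lit 155) (nat_lit 5) (nat_lit 150) (nat_lit 5) (nat_lit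 498) (nat_lit 420) (nat_lit 222)) (XT.lf (nat_lit 0) (nat_lit 5272616886) (nat_lit 532) (nat_lit 14163329506) (nat_lit 76) (nat_lit 2853481980) (nat_lit 143) (nat_lit 5) (nat_lit 150) (nat_lit 5) (nat_lit 144) (nat_lit 5) (nat_lit 499) (nat_lit 420) (nat_lit 221))))) (XT.nd (nat_lit 53274) (nat_lit 0) (nat_lit 24928) (XT.nd (nat_lit 78) (nat_lit 380) (nat_lit 0) (XT.lf (nat_lit 0) (nat_lit 9642140216) (nat_lit 532) (nat_lit 2180616419) (nat_lit 76) (nat_lit 10749612275) (nat_lit 143) (nat_lit 5) (nat_lit 150) (nat_lit 5) (nat_lit 144) (nat_lit 5) (nat_lit 500) (nat_lit 420) (nat_lit 220)) (XT.nd (nat_lit 53118) (nat_lit 0) (nat_lit 24928) (XT.lf (nat_lit 0) (nat_lit 10166347877) (nat_lit 380) (nat_lit 3992697916) (nat_lit 456) (nat_lit 8700724210) (nat_lit 138) (nat_lit 5) (nat_lit 143) (nat_lit 5) (nat_lit 144) (nat_lit 5) (nat_lit 501) (nat_lit 420) (nat_lit 219)) (XT.lf (nat_lit 0) (nat_lit 3506307503) (nat_lit 1596)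 (nat_lit 671464172) (nat_lit 1596) (nat_lit 671464172) (nat_lit 466) (nat_lit 3) (nat_lit 487) (nat_lit 3) (nat_lit 487) (nat_lit 5) (nat_lit 421) (nat_lit 421) (nat_lit 298)))) (XT.nd (nat_lit 78) (nat_lit 0) (nat_lit 0) (XT.lf (nat_lit 76) (nat_lit 3308166679) (nat_lit 0) (nat_lit 4533365573) (nat_lit 1596) (nat_lit 1938404165) (nat_lit 467) (nat_lit 5) (nat_lit 466) (nat_lit 3) (nat_lit 487) (nat_lit 5) (nat_lit 422) (nat_lit 421) (nat_lit 297)) (XT.nd (nat_lit 78) (nat_lit 0) (nat_lit 76) (XT.lf (nat_lit 76) (nat_lit 8060488316) (nat_lit 0) (nat_lit 616146397) (nat_lit 1596) (nat_lit 1186612610) (nat_lit 467) (nat_lit 5) (nat_lit 466) (nat_lit 3) (nat_lit 487) (nat_lit 5) (nat_lit 423) (nat_lit 421) (nat_lit 296)) (XT.lf (nat_lit 76) (nat_lit 2966342448) (nat_lit 0) (nat_lit 6584333127) (nat_lit 1596) (nat_lit 397112994) (nat_lit 468) (nat_lit 5) (nat_lit 467) (nat_lit 5) (nat_lit 488) (nat_lit 5) (nat_lit 424) (nat_lit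 421) (nat_lit 295)))))) (XT.nd (nat_lit 390) (nat_lit 0) (nat_lit 152) (XT.nd (nat_lit 156) (nat_lit 0) (nat_lit 76) (XT.nd (nat_lit 78) (nat_lit 0) (nat_lit 76) (XT.lf (nat_lit 0) (nat_lit 400290389) (nat_lit 1596) (nat_lit 2195769561) (nat_lit 1672) (nat_lit 7437966854) (nat_lit 446) (nat_lit 5) (nat_lit 467) (nat_lit 5) (nat_lit 468) (nat_lit 5) (nat_lit 425) (nat_lit 421) (nat_lit 294)) (XT.lf (nat_lit 0) (nat_lit 1217234950) (nat_lit 1596) (nat_lit 7423434470) (nat_lit 1672) (nat_lit 1481098016) (nat_lit 447) (nat_lit 5) (nat_lit 468) (nat_lit 5) (nat_lit 469) (nat_lit 5) (nat_lit 426) (nat_lit 421) (nat_lit 293))) (XT.nd (nat_lit 78) (nat_lit 0) (nat_lit 0) (XT.lf (nat_lit 0) (nat_lit 2064467568) (nat_lit 1596) (nat_lit 2518769665) (nat_lit 1672) (nat_lit 5627754839) (nat_lit 447) (nat_lit 5) (nat_lit 468) (nat_lit 5) (nat_lit 469) (nat_lit 5) (nat_lit 427) (nat_lit 421) (nat_lit 292)) (XT.nd (nat_lit 78) (nat_lit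 0) (nat_lit 76) (XT.lf (nat_lit 76) (nat_lit 2506475798) (nat_lit 0) (nat_lit 420721534) (nat_lit 1672) (nat_lit 7374840838) (nat_lit 448) (nat_lit 5) (nat_lit 447) (nat_lit 5) (nat_lit 469) (nat_lit 5) (nat_lit 428) (nat_lit 421) (nat_lit 291)) (XT.lf (nat_lit 0) (nat_lit 3831636154) (nat_lit 1596) (nat_lit 2763865164) (nat_lit 1672) (nat_lit 3798922642) (nat_lit 448) (nat_lit 5) (nat_lit 469) (nat_lit 5) (nat_lit 470) (nat_lit 5) (nat_lit 429) (nat_lit 421) (nat_lit 290))))) (XT.nd (nat_lit 234) (nat_lit 0) (nat_lit 152) (XT.nd (nat_lit 78) (nat_lit 0) (nat_lit 76) (XT.lf (nat_lit 76) (nat_lit 2386468803) (nat_lit 0) (nat_lit 2368922319) (nat_lit 1672) (nat_lit 5733249500) (nat_lit 449) (nat_lit 5) (nat_lit 448) (nat_lit 5) (nat_lit 470) (nat_lit 5) (nat_lit 430) (nat_lit 421) (nat_lit 289)) (XT.nd (nat_lit 78) (nat_lit 0) (nat_lit 0) (XT.lf (nat_lit 0) (nat_lit 5712155375) (nat_lit 1596) (nat_lit 2930654377) (nat_lit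 1672) (nat_lit 1941648737) (nat_lit 449) (nat_lit 5) (nat_lit 470) (nat_lit 5) (nat_lit 471) (nat_lit 5) (nat_lit 431) (nat_lit 421) (nat_lit 288)) (XT.lf (nat_lit 76) (nat_lit 2348797076) (nat_lit 0) (nat_lit 4353778749) (nat_lit 1672) (nat_lit 3979333875) (nat_lit 450) (nat_lit 5) (nat_lit 449) (nat_lit 5) (nat_lit 471) (nat_lit 5) (nat_lit 432) (nat_lit 421) (nat_lit 287)))) (XT.nd (nat_lit 78) (nat_lit 0) (nat_lit 0) (XT.lf (nat_lit 0) (nat_lit 7716610402) (nat_lit 1596) (nat_lit 3018530273) (nat_lit 1672) (nat_lit 46100407) (nat_lit 450) (nat_lit 5) (nat_lit 471) (nat_lit 5) (nat_lit 472) (nat_lit 5) (nat_lit 433) (nat_lit 421) (nat_lit 286)) (XT.nd (nat_lit 78) (nat_lit 0) (nat_lit 0) (XT.lf (nat_lit 76) (nat_lit 2394215025) (nat_lit 0) (nat_lit 6385277354) (nat_lit 1672) (nat_lit 2102502497) (nat_lit 451) (nat_lit 5) (nat_lit 450) (nat_lit 5) (nat_lit 472) (nat_lit 5) (nat_lit 434) (nat_lit 421) (nat_lit 285))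 (XT.lf (nat_lit 76) (nat_lit 7945506285) (nat_lit 0) (nat_lit 1922811575) (nat_lit 1672) (nat_lit 1116359147) (nat_lit 451) (nat_lit 5) (nat_lit 450) (nat_lit 5) (nat_lit 472) (nat_lit 5) (nat_lit 435) (nat_lit 421) (nat_lit 284))))))))
noncomputable def xc194 : XT := (XT.nd (nat_lit 1638) (nat_lit 8056) (nat_lit 0) (XT.nd (nat_lit 780) (nat_lit 6916) (nat_lit 0) (XT.nd (nat_lit 390) (nat_lit 0) (nat_lit 152) (XT.nd (nat_lit 156) (nat_lit 0) (nat_lit 76) (XT.nd (nat_lit 78) (nat_lit 1672) (nat_lit 0) (XT.lf (nat_lit 76) (nat_lit 2523679336) (nat_lit 0) (nat_lit 8473461204) (nat_lit 1672) (nat_lit 91914669) (nat_lit 452) (nat_lit 5) (nat_lit 451) (nat_lit 5) (nat_lit 473) (nat_lit 5) (nat_lit 436) (nat_lit 421) (nat_lit 283)) (XT.lf (nat_lit 0) (nat_lit 958673037) (nat_lit 1672) (nat_lit 2986084232) (nat_lit 1748) (nat_lit 7250283463) (nat_lit 429) (nat_lit 5) (nat_lit 451) (nat_lit 5) (nat_lit 452) (nat_lit 5) (nat_lit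 437) (nat_lit 421) (nat_lit 282))) (XT.nd (nat_lit 78) (nat_lit 0) (nat_lit 0) (XT.lf (nat_lit 0) (nat_lit 2036477219) (nat_lit 1672) (nat_lit 8578314076) (nat_lit 1748) (nat_lit 688200257) (nat_lit 430) (nat_lit 5) (nat_lit 452) (nat_lit 5) (nat_lit 453) (nat_lit 5) (nat_lit 438) (nat_lit 421) (nat_lit 281)) (XT.nd (nat_lit 78) (nat_lit 0) (nat_lit 0) (XT.lf (nat_lit 0) (nat_lit 3167566265) (nat_lit 1672) (nat_lit 2859763752) (nat_lit 1748) (nat_lit 5385143117) (nat_lit 430) (nat_lit 5) (nat_lit 452) (nat_lit 5) (nat_lit 453) (nat_lit 5) (nat_lit 439) (nat_lit 421) (nat_lit 280)) (XT.lf (nat_lit 76) (nat_lit 3001803455) (nat_lit 0) (nat_lit 1324682611) (nat_lit 1748) (nat_lit 7197560298) (nat_lit 431) (nat_lit 5) (nat_lit 430) (nat_lit 5) (nat_lit 453) (nat_lit 5) (nat_lit 440) (nat_lit 421) (nat_lit 279))))) (XT.nd (nat_lit 156) (nat_lit 0) (nat_lit 76) (XT.nd (nat_lit 78) (nat_lit 0) (nat_lit 0) (XT.lf (nat_lit 0)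 (nat_lit 5536396827) (nat_lit 1672) (nat_lit 2651732550) (nat_lit 1748) (nat_lit 3449171508) (nat_lit 431) (nat_lit 5) (nat_lit 453) (nat_lit 5) (nat_lit 454) (nat_lit 5) (nat_lit 441) (nat_lit 421) (nat_lit 278)) (XT.lf (nat_lit 76) (nat_lit 3360744578) (nat_lit 0) (nat_lit 3426581895) (nat_lit 1748) (nat_lit 4965163565) (nat_lit 432) (nat_lit 5) (nat_lit 431) (nat_lit 5) (nat_lit 454) (nat_lit 5) (nat_lit 442) (nat_lit 421) (nat_lit 277))) (XT.nd (nat_lit 78) (nat_lit 0) (nat_lit 0) (XT.lf (nat_lit 0) (nat_lit 8076920136) (nat_lit 1672) (nat_lit 2360587365) (nat_lit 1748) (nat_lit 1432208404) (nat_lit 432) (nat_lit 5) (nat_lit 454) (nat_lit 5) (nat_lit 455) (nat_lit 5) (nat_lit 443) (nat_lit 421) (nat_lit 276)) (XT.nd (nat_lit 78) (nat_lit 0) (nat_lit 0) (XT.lf (nat_lit 76) (nat_lit 3807682051) (nat_lit 0) (nat_lit 5618751227) (nat_lit 1748) (nat_lit 2562176186) (nat_lit 433) (nat_lit 5) (nat_lit 432) (nat_lit 5) (nat_lit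 455) (nat_lit 5) (nat_lit 444) (nat_lit 421) (nat_lit 275)) (XT.lf (nat_lit 76) (nat_lit 10120628334) (nat_lit 0) (nat_lit 685053288) (nat_lit 1748) (nat_lit 1304149984) (nat_lit 433) (nat_lit 5) (nat_lit 432) (nat_lit 5) (nat_lit 455) (nat_lit 5) (nat_lit 445) (nat_lit 421) (nat_lit 274)))))) (XT.nd (nat_lit 390) (nat_lit 2660) (nat_lit 0) (XT.nd (nat_lit 156) (nat_lit 2812) (nat_lit 0) (XT.nd (nat_lit 78) (nat_lit 0) (nat_lit 0) (XT.lf (nat_lit 0) (nat_lit 23203403) (nat_lit 1748) (nat_lit 7888412532) (nat_lit 76) (nat_lit 4320992539) (nat_lit 410) (nat_lit 5) (nat_lit 433) (nat_lit 5) (nat_lit 411) (nat_lit 5) (nat_lit 446) (nat_lit 421) (nat_lit 273)) (XT.lf (nat_lit 0) (nat_lit 1364900697) (nat_lit 1748) (nat_lit 1550467217) (nat_lit 76) (nat_lit 9442200658) (nat_lit 410) (nat_lit 5) (nat_lit 433) (nat_lit 5) (nat_lit 411) (nat_lit 5) (nat_lit 447) (nat_lit 421) (nat_lit 272))) (XT.nd (nat_lit 78) (nat_lit 1064)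 (nat_lit 0) (XT.lf (nat_lit 0) (nat_lit 2767596126) (nat_lit 1824) (nat_lit 7530264892) (nat_lit 76) (nat_lit 2186488756) (nat_lit 387) (nat_lit 5) (nat_lit 411) (nat_lit 5) (nat_lit 388) (nat_lit 5) (nat_lit 448) (nat_lit 421) (nat_lit 271)) (XT.nd (nat_lit 78) (nat_lit 1064) (nat_lit 0) (XT.lf (nat_lit 0) (nat_lit 4215832105) (nat_lit 1824) (nat_lit 1033927622) (nat_lit 76) (nat_lit 7363562223) (nat_lit 387) (nat_lit 5) (nat_lit 411) (nat_lit 5) (nat_lit 388) (nat_lit 5) (nat_lit 449) (nat_lit 421) (nat_lit 270)) (XT.lf (nat_lit 0) (nat_lit 5655888752) (nat_lit 1064) (nat_lit 61813103) (nat_lit 1140) (nat_lit 7026683318) (nat_lit 373) (nat_lit 5) (nat_lit 387) (nat_lit 5) (nat_lit 388) (nat_lit 5) (nat_lit 450) (nat_lit 421) (nat_lit 269))))) (XT.nd (nat_lit 234) (nat_lit 912) (nat_lit 0) (XT.nd (nat_lit 78) (nat_lit 1748) (nat_lit 0) (XT.lf (nat_lit 0) (nat_lit 7278672771) (nat_lit 1140) (nat_lit 429223108) (nat_lit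 76) (nat_lit 5169597392) (nat_lit 373) (nat_lit 5) (nat_lit 388) (nat_lit 5) (nat_lit 374) (nat_lit 5) (nat_lit 451) (nat_lit 421) (nat_lit 268)) (XT.nd (nat_lit 78) (nat_lit 836) (nat_lit 0) (XT.lf (nat_lit 0) (nat_lit 6436649076) (nat_lit 912) (nat_lit 2464770944) (nat_lit 988) (nat_lit 4111237164) (nat_lit 361) (nat_lit 5) (nat_lit 373) (nat_lit 5) (nat_lit 374) (nat_lit 5) (nat_lit 452) (nat_lit 421) (nat_lit 267)) (XT.lf (nat_lit 0) (nat_lit 269216229) (nat_lit 836) (nat_lit 10299295805) (nat_lit 912) (nat_lit 2581779240) (nat_lit 350) (nat_lit 5) (nat_lit 361) (nat_lit 5) (nat_lit 362) (nat_lit 5) (nat_lit 453) (nat_lit 421) (nat_lit 266)))) (XT.nd (nat_lit 78) (nat_lit 912) (nat_lit 0) (XT.lf (nat_lit 0) (nat_lit 7313249562) (nat_lit 836) (nat_lit 5004718753) (nat_lit 912) (nat_lit 971733888) (nat_lit 350) (nat_lit 5) (nat_lit 361) (nat_lit 5) (nat_lit 362) (nat_lit 5) (nat_lit 454) (nat_lit 421) (nat_lit 265))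 (XT.nd (nat_lit 78) (nat_lit 0) (nat_lit 0) (XT.lf (nat_lit 0) (nat_lit 660104721) (nat_lit 912) (nat_lit 12369310272) (nat_lit 76) (nat_lit 402435989) (nat_lit 338) (nat_lit 5) (nat_lit 350) (nat_lit 5) (nat_lit 339) (nat_lit 5) (nat_lit 455) (nat_lit 421) (nat_lit 264)) (XT.lf (nat_lit 0) (nat_lit 2374071235) (nat_lit 912) (nat_lit 5303355303) (nat_lit 76) (nat_lit 5898042022) (nat_lit 338) (nat_lit 5) (nat_lit 350) (nat_lit 5) (nat_lit 339) (nat_lit 5) (nat_lit 456) (nat_lit 421) (nat_lit 263))))))) (XT.nd (nat_lit 780) (nat_lit 4104) (nat_lit 0) (XT.nd (nat_lit 390) (nat_lit 1520) (nat_lit 0) (XT.nd (nat_lit 156) (nat_lit 1596) (nat_lit 0) (XT.nd (nat_lit 78) (nat_lit 0) (nat_lit 0) (XT.lf (nat_lit 0) (nat_lit 1918495638) (nat_lit 836) (nat_lit 2205469658) (nat_lit 912) (nat_lit 9597964482) (nat_lit 327) (nat_lit 5) (nat_lit 338) (nat_lit 5) (nat_lit 339) (nat_lit 5) (nat_lit 457) (nat_lit 421) (nat_lit 262)) (XT.lf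 (nat_lit 0) (nat_lit 5955936674) (nat_lit 912) (nat_lit 4546824250) (nat_lit 76) (nat_lit 3367621879) (nat_lit 327) (nat_lit 5) (nat_lit 339) (nat_lit 5) (nat_lit 328) (nat_lit 5) (nat_lit 458) (nat_lit 421) (nat_lit 261))) (XT.nd (nat_lit 78) (nat_lit 760) (nat_lit 0) (XT.lf (nat_lit 0) (nat_lit 2867395613) (nat_lit 836) (nat_lit 4979920436) (nat_lit 912) (nat_lit 6174037557) (nat_lit 316) (nat_lit 5) (nat_lit 327) (nat_lit 5) (nat_lit 328) (nat_lit 5) (nat_lit 459) (nat_lit 421) (nat_lit 260)) (XT.nd (nat_lit 78) (nat_lit 760) (nat_lit 0) (XT.lf (nat_lit 0) (nat_lit 9801160818) (nat_lit 912) (nat_lit 3698307649) (nat_lit 76) (nat_lit 675386611) (nat_lit 316) (nat_lit 5) (nat_lit 328) (nat_lit 5) (nat_lit 317) (nat_lit 5) (nat_lit 460) (nat_lit 421) (nat_lit 259)) (XT.lf (nat_lit 0) (nat_lit 3914359597) (nat_lit 760) (nat_lit 7928001425) (nat_lit 836) (nat_lit 2488103915) (nat_lit 306) (nat_lit 5) (nat_lit 316) (nat_lit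 5) (nat_lit 317) (nat_lit 5) (nat_lit 461) (nat_lit 421) (nat_lit 258))))) (XT.nd (nat_lit 156) (nat_lit 684) (nat_lit 0) (XT.nd (nat_lit 78) (nat_lit 836) (nat_lit 0) (XT.lf (nat_lit 0) (nat_lit 11719026470) (nat_lit 760) (nat_lit 2220191586) (nat_lit 836) (nat_lit 549676134) (nat_lit 306) (nat_lit 5) (nat_lit 316) (nat_lit 5) (nat_lit 317) (nat_lit 5) (nat_lit 462) (nat_lit 421) (nat_lit 257)) (XT.lf (nat_lit 0) (nat_lit 1455560874) (nat_lit 836) (nat_lit 9597223795) (nat_lit 76) (nat_lit 3596590436) (nat_lit 295) (nat_lit 5) (nat_lit 306) (nat_lit 5) (nat_lit 296) (nat_lit 5) (nat_lit 463) (nat_lit 421) (nat_lit 256))) (XT.nd (nat_lit 78) (nat_lit 684) (nat_lit 0) (XT.lf (nat_lit 0) (nat_lit 3517228805) (nat_lit 836) (nat_lit 1773446813) (nat_lit 76) (nat_lit 9521847259) (nat_lit 295) (nat_lit 5) (nat_lit 306) (nat_lit 5) (nat_lit 296) (nat_lit 5) (nat_lit 464) (nat_lit 421) (nat_lit 255)) (XT.nd (nat_lit 78) (nat_lit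 0) (nat_lit 0) (XT.lf (nat_lit 0) (nat_lit 5655428244) (nat_lit 760) (nat_lit 8703470988) (nat_lit 76) (nat_lit 619331966) (nat_lit 286) (nat_lit 5) (nat_lit 296) (nat_lit 5) (nat_lit 287) (nat_lit 5) (nat_lit 465) (nat_lit 421) (nat_lit 254)) (XT.lf (nat_lit 0) (nat_lit 7873981766) (nat_lit 760) (nat_lit 684519438) (nat_lit 76) (nat_lit 6588004172) (nat_lit 286) (nat_lit 5) (nat_lit 296) (nat_lit 5) (nat_lit 287) (nat_lit 5) (nat_lit 466) (nat_lit 421) (nat_lit 253)))))) (XT.nd (nat_lit 390) (nat_lit 1900) (nat_lit 0) (XT.nd (nat_lit 156) (nat_lit 760) (nat_lit 0) (XT.nd (nat_lit 78) (nat_lit 684) (nat_lit 0) (XT.lf (nat_lit 0) (nat_lit 7584123104) (nat_lit 760) (nat_lit 2592782187) (nat_lit 836) (nat_lit 5140443187) (nat_lit 276) (nat_lit 5) (nat_lit 286) (nat_lit 5) (nat_lit 287) (nat_lit 5) (nat_lit 467) (nat_lit 421) (nat_lit 252)) (XT.lf (nat_lit 0) (nat_lit 509611980) (nat_lit 684) (nat_lit 12037749214) (nat_lit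 760) (nat_lit 2943821125) (nat_lit 267) (nat_lit 5) (nat_lit 276) (nat_lit 5) (nat_lit 277) (nat_lit 5) (nat_lit 468) (nat_lit 421) (nat_lit 251))) (XT.nd (nat_lit 78) (nat_lit 760) (nat_lit 0) (XT.lf (nat_lit 0) (nat_lit 8994532603) (nat_lit 684) (nat_lit 6030625499) (nat_lit 760) (nat_lit 642139386) (nat_lit 267) (nat_lit 5) (nat_lit 276) (nat_lit 5) (nat_lit 277) (nat_lit 5) (nat_lit 469) (nat_lit 421) (nat_lit 250)) (XT.nd (nat_lit 78) (nat_lit 0) (nat_lit 0) (XT.lf (nat_lit 0) (nat_lit 1686789994) (nat_lit 760) (nat_lit 14042741048) (nat_lit 76) (nat_lit 117113944) (nat_lit 257) (nat_lit 5) (nat_lit 267) (nat_lit 5) (nat_lit 258) (nat_lit 5) (nat_lit 470) (nat_lit 421) (nat_lit 249)) (XT.lf (nat_lit 0) (nat_lit 4129916326) (nat_lit 760) (nat_lit 5542839875) (nat_lit 76) (nat_lit 6355217109) (nat_lit 257) (nat_lit 5) (nat_lit 267) (nat_lit 5) (nat_lit 258) (nat_lit 5) (nat_lit 471) (nat_lit 421) (nat_lit 248)))))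 (XT.nd (nat_lit 234) (nat_lit 684) (nat_lit 0) (XT.nd (nat_lit 78) (nat_lit 608) (nat_lit 0) (XT.lf (nat_lit 0) (nat_lit 3158457390) (nat_lit 608) (nat_lit 3475323565) (nat_lit 684) (nat_lit 9578912769) (nat_lit 249) (nat_lit 5) (nat_lit 257) (nat_lit 5) (nat_lit 258) (nat_lit 5) (nat_lit 472) (nat_lit 421) (nat_lit 247)) (XT.nd (nat_lit 78) (nat_lit 608) (nat_lit 0) (XT.lf (nat_lit 0) (nat_lit 9235107308) (nat_lit 684) (nat_lit 4320298116) (nat_lit 76) (nat_lit 2844758411) (nat_lit 249) (nat_lit 5) (nat_lit 258) (nat_lit 5) (nat_lit 250) (nat_lit 5) (nat_lit 473) (nat_lit 421) (nat_lit 246)) (XT.lf (nat_lit 0) (nat_lit 4615916652) (nat_lit 608) (nat_lit 7317160119) (nat_lit 684) (nat_lit 4657417166) (nat_lit 241) (nat_lit 5) (nat_lit 249) (nat_lit 5) (nat_lit 250) (nat_lit 5) (nat_lit 474) (nat_lit 421) (nat_lit 245)))) (XT.nd (nat_lit 78) (nat_lit 684) (nat_lit 0) (XT.lf (nat_lit 0) (nat_lit 13779558390) (nat_lit 608)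 (nat_lit 926170380) (nat_lit 684) (nat_lit 2078490271) (nat_lit 241) (nat_lit 5) (nat_lit 249) (nat_lit 5) (nat_lit 250) (nat_lit 5) (nat_lit 475) (nat_lit 421) (nat_lit 244)) (XT.nd (nat_lit 78) (nat_lit 0) (nat_lit 0) (XT.lf (nat_lit 0) (nat_lit 613541680) (nat_lit 684) (nat_lit 10804923811) (nat_lit 76) (nat_lit 5561908899) (nat_lit 232) (nat_lit 5) (nat_lit 241) (nat_lit 5) (nat_lit 233) (nat_lit 5) (nat_lit 476) (nat_lit 421) (nat_lit 243)) (XT.lf (nat_lit 0) (nat_lit 3349962891) (nat_lit 684) (nat_lit 1630055512) (nat_lit 76) (nat_lit 12199794774) (nat_lit 232) (nat_lit 5) (nat_lit 241) (nat_lit 5) (nat_lit 233) (nat_lit 5) (nat_lit 477) (nat_lit 421) (nat_lit 242))))))))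
noncomputable def xc195 : XT := (XT.nd (nat_lit 1638) (nat_lit 532) (nat_lit 0) (XT.nd (nat_lit 780) (nat_lit 2888) (nat_lit 0) (XT.nd (nat_lit 390) (nat_lit 1520) (nat_lit 0) (XT.nd (nat_lit 156) (nat_lit 1216) (nat_lit 0) (XT.nd (nat_lit 78) (nat_lit 0) (nat_lit 0) (XT.lf (nat_lit 0) (nat_lit 6194605054) (nat_lit 684) (nat_lit 9571802911) (nat_lit 76) (nat_lit 1615765568) (nat_lit 224) (nat_lit 5) (nat_lit 233) (nat_lit 5) (nat_lit 225) (nat_lit 5) (nat_lit 478) (nat_lit 421) (nat_lit 241)) (XT.lf (nat_lit 0) (nat_lit 9132294547) (nat_lit 684) (nat_lit 169471284) (nat_lit 76) (nat_lit 8286094768) (nat_lit 224) (nat_lit 5) (nat_lit 233) (nat_lit 5) (nat_lit 225) (nat_lit 5) (nat_lit 479) (nat_lit 421) (nat_lit 240))) (XT.nd (nat_lit 78) (nat_lit 684) (nat_lit 0) (XT.lf (nat_lit 0) (nat_lit 9536412686) (nat_lit 532) (nat_lit 2646558783) (nat_lit 608) (nat_lit 5613607807) (nat_lit 217) (nat_lit 5) (nat_lit 224) (nat_lit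 5) (nat_lit 225) (nat_lit 5) (nat_lit 480) (nat_lit 421) (nat_lit 239)) (XT.nd (nat_lit 78) (nat_lit 76) (nat_lit 0) (XT.lf (nat_lit 0) (nat_lit 1411226838) (nat_lit 608) (nat_lit 13913026965) (nat_lit 684) (nat_lit 2684629178) (nat_lit 209) (nat_lit 5) (nat_lit 217) (nat_lit 5) (nat_lit 218) (nat_lit 5) (nat_lit 481) (nat_lit 421) (nat_lit 238)) (XT.lf (nat_lit 0) (nat_lit 364708290) (nat_lit 684) (nat_lit 6865852740) (nat_lit 76) (nat_lit 10993519745) (nat_lit 208) (nat_lit 5) (nat_lit 217) (nat_lit 5) (nat_lit 209) (nat_lit 5) (nat_lit 482) (nat_lit 421) (nat_lit 237))))) (XT.nd (nat_lit 156) (nat_lit 988) (nat_lit 0) (XT.nd (nat_lit 78) (nat_lit 0) (nat_lit 0) (XT.lf (nat_lit 0) (nat_lit 3073624091) (nat_lit 532) (nat_lit 378027510) (nat_lit 608) (nat_lit 14991327038) (nat_lit 201) (nat_lit 5) (nat_lit 208) (nat_lit 5) (nat_lit 209) (nat_lit 5) (nat_lit 483) (nat_lit 421) (nat_lit 236)) (XT.lf (nat_lit 0) (nat_lit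 6682286393) (nat_lit 608) (nat_lit 5413173623) (nat_lit 76) (nat_lit 6569157695) (nat_lit 201) (nat_lit 5) (nat_lit 209) (nat_lit 5) (nat_lit 202) (nat_lit 5) (nat_lit 484) (nat_lit 421) (nat_lit 235))) (XT.nd (nat_lit 78) (nat_lit 456) (nat_lit 0) (XT.lf (nat_lit 0) (nat_lit 4793109730) (nat_lit 532) (nat_lit 5210839253) (nat_lit 608) (nat_lit 8886214536) (nat_lit 194) (nat_lit 5) (nat_lit 201) (nat_lit 5) (nat_lit 202) (nat_lit 5) (nat_lit 485) (nat_lit 421) (nat_lit 234)) (XT.nd (nat_lit 78) (nat_lit 456) (nat_lit 0) (XT.lf (nat_lit 0) (nat_lit 13433230103) (nat_lit 608) (nat_lit 3864048873) (nat_lit 76) (nat_lit 1822119775) (nat_lit 194) (nat_lit 5) (nat_lit 202) (nat_lit 5) (nat_lit 195) (nat_lit 5) (nat_lit 486) (nat_lit 421) (nat_lit 233)) (XT.lf (nat_lit 0) (nat_lit 6616621709) (nat_lit 456) (nat_lit 10384941716) (nat_lit 532) (nat_lit 2350248101) (nat_lit 188) (nat_lit 5) (nat_lit 194) (nat_lit 5) (nat_lit 195)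 (nat_lit 5) (nat_lit 487) (nat_lit 421) (nat_lit 232)))))) (XT.nd (nat_lit 390) (nat_lit 1368) (nat_lit 0) (XT.nd (nat_lit 156) (nat_lit 912) (nat_lit 0) (XT.nd (nat_lit 78) (nat_lit 532) (nat_lit 0) (XT.lf (nat_lit 0) (nat_lit 1057717882) (nat_lit 532) (nat_lit 2245372141) (nat_lit 76) (nat_lit 16285265375) (nat_lit 187) (nat_lit 5) (nat_lit 194) (nat_lit 5) (nat_lit 188) (nat_lit 5) (nat_lit 488) (nat_lit 421) (nat_lit 231)) (XT.lf (nat_lit 0) (nat_lit 4576934306) (nat_lit 608) (nat_lit 11312671295) (nat_lit 76) (nat_lit 3938224669) (nat_lit 180) (nat_lit 5) (nat_lit 188) (nat_lit 5) (nat_lit 181) (nat_lit 5) (nat_lit 489) (nat_lit 421) (nat_lit 230))) (XT.nd (nat_lit 78) (nat_lit 912) (nat_lit 0) (XT.lf (nat_lit 0) (nat_lit 8196802085) (nat_lit 608) (nat_lit 581608096) (nat_lit 76) (nat_lit 11293081123) (nat_lit 180) (nat_lit 5) (nat_lit 188) (nat_lit 5) (nat_lit 181) (nat_lit 5) (nat_lit 490) (nat_lit 421) (nat_lit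 229)) (XT.nd (nat_lit 78) (nat_lit 456) (nat_lit 0) (XT.lf (nat_lit 0) (nat_lit 10492692286) (nat_lit 456) (nat_lit 1457858140) (nat_lit 532) (nat_lit 8368247433) (nat_lit 174) (nat_lit 5) (nat_lit 180) (nat_lit 5) (nat_lit 181) (nat_lit 5) (nat_lit 491) (nat_lit 421) (nat_lit 228)) (XT.lf (nat_lit 0) (nat_lit 1192938314) (nat_lit 456) (nat_lit 14630539127) (nat_lit 532) (nat_lit 4746692957) (nat_lit 168) (nat_lit 5) (nat_lit 174) (nat_lit 5) (nat_lit 175) (nat_lit 5) (nat_lit 492) (nat_lit 421) (nat_lit 227))))) (XT.nd (nat_lit 234) (nat_lit 836) (nat_lit 0) (XT.nd (nat_lit 78) (nat_lit 532) (nat_lit 0) (XT.lf (nat_lit 0) (nat_lit 12546778730) (nat_lit 456) (nat_lit 7296099012) (nat_lit 532) (nat_lit 982314240) (nat_lit 168) (nat_lit 5) (nat_lit 174) (nat_lit 5) (nat_lit 175) (nat_lit 5) (nat_lit 493) (nat_lit 421) (nat_lit 226)) (XT.nd (nat_lit 78) (nat_lit 0) (nat_lit 0) (XT.lf (nat_lit 0) (nat_lit 2834720705) (nat_lit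 532) (nat_lit 18031126987) (nat_lit 76) (nat_lit 218800217) (nat_lit 161) (nat_lit 5) (nat_lit 168) (nat_lit 5) (nat_lit 162) (nat_lit 5) (nat_lit 494) (nat_lit 421) (nat_lit 225)) (XT.lf (nat_lit 0) (nat_lit 6812815753) (nat_lit 532) (nat_lit 6688025837) (nat_lit 76) (nat_lit 7846365831) (nat_lit 161) (nat_lit 5) (nat_lit 168) (nat_lit 5) (nat_lit 162) (nat_lit 5) (nat_lit 495) (nat_lit 421) (nat_lit 224)))) (XT.nd (nat_lit 78) (nat_lit 380) (nat_lit 0) (XT.lf (nat_lit 0) (nat_lit 4937912715) (nat_lit 456) (nat_lit 5958366614) (nat_lit 532) (nat_lit 10718224407) (nat_lit 155) (nat_lit 5) (nat_lit 161) (nat_lit 5) (nat_lit 162) (nat_lit 5) (nat_lit 496) (nat_lit 421) (nat_lit 223)) (XT.nd (nat_lit 78) (nat_lit 380) (nat_lit 0) (XT.lf (nat_lit 0) (nat_lit 15111649942) (nat_lit 532) (nat_lit 5019619497) (nat_lit 76) (nat_lit 1754873492) (nat_lit 155) (nat_lit 5) (nat_lit 162) (nat_lit 5) (nat_lit 156) (nat_lit 5) (nat_lit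 497) (nat_lit 421) (nat_lit 222)) (XT.lf (nat_lit 0) (nat_lit 6913033640) (nat_lit 380) (nat_lit 12576555232) (nat_lit 456) (nat_lit 2672062498) (nat_lit 150) (nat_lit 5) (nat_lit 155) (nat_lit 5) (nat_lit 156) (nat_lit 5) (nat_lit 498) (nat_lit 421) (nat_lit 221))))))) (XT.nd (nat_lit 53976) (nat_lit 0) (nat_lit 21660) (XT.nd (nat_lit 53508) (nat_lit 0) (nat_lit 22952) (XT.nd (nat_lit 156) (nat_lit 0) (nat_lit 0) (XT.nd (nat_lit 78) (nat_lit 456) (nat_lit 0) (XT.lf (nat_lit 0) (nat_lit 1520427771) (nat_lit 456) (nat_lit 3308346142) (nat_lit 76) (nat_lit 17613144349) (nat_lit 149) (nat_lit 5) (nat_lit 155) (nat_lit 5) (nat_lit 150) (nat_lit 5) (nat_lit 499) (nat_lit 421) (nat_lit 220)) (XT.lf (nat_lit 0) (nat_lit 5833712251) (nat_lit 532) (nat_lit 13784782078) (nat_lit 76) (nat_lit 3107490030) (nat_lit 143) (nat_lit 5) (nat_lit 150) (nat_lit 5) (nat_lit 144) (nat_lit 5) (nat_lit 500) (nat_lit 421) (nat_lit 219))) (XT.nd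 (nat_lit 53196) (nat_lit 0) (nat_lit 24548) (XT.lf (nat_lit 0) (nat_lit 10281691871) (nat_lit 532) (nat_lit 1575391475) (nat_lit 76) (nat_lit 11157681393) (nat_lit 143) (nat_lit 5) (nat_lit 150) (nat_lit 5) (nat_lit 144) (nat_lit 5) (nat_lit 501) (nat_lit 421) (nat_lit 218)) (XT.nd (nat_lit 78) (nat_lit 0) (nat_lit 0) (XT.lf (nat_lit 0) (nat_lit 4308958816) (nat_lit 1596) (nat_lit 311134653) (nat_lit 1596) (nat_lit 311134653) (nat_lit 466) (nat_lit 3) (nat_lit 487) (nat_lit 3) (nat_lit 487) (nat_lit 5) (nat_lit 422) (nat_lit 422) (nat_lit 296)) (XT.lf (nat_lit 76) (nat_lit 4116929740) (nat_lit 0) (nat_lit 5322578457) (nat_lit 1596) (nat_lit 506533572) (nat_lit 467) (nat_lit 5) (nat_lit 466) (nat_lit 3) (nat_lit 487) (nat_lit 5) (nat_lit 423) (nat_lit 422) (nat_lit 295))))) (XT.nd (nat_lit 234) (nat_lit 0) (nat_lit 152) (XT.nd (nat_lit 78) (nat_lit 0) (nat_lit 76) (XT.lf (nat_lit 0) (nat_lit 228422151) (nat_lit 1596)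 (nat_lit 1083362940) (nat_lit 1672) (nat_lit 8719782047) (nat_lit 445) (nat_lit 5) (nat_lit 466) (nat_lit 3) (nat_lit 467) (nat_lit 5) (nat_lit 424) (nat_lit 422) (nat_lit 294)) (XT.nd (nat_lit 78) (nat_lit 0) (nat_lit 0) (XT.lf (nat_lit 0) (nat_lit 995805718) (nat_lit 1596) (nat_lit 6342875948) (nat_lit 1672) (nat_lit 2779572501) (nat_lit 446) (nat_lit 5) (nat_lit 467) (nat_lit 5) (nat_lit 468) (nat_lit 5) (nat_lit 425) (nat_lit 422) (nat_lit 293)) (XT.lf (nat_lit 0) (nat_lit 1776481099) (nat_lit 1596) (nat_lit 1479322983) (nat_lit 1672) (nat_lit 6950920148) (nat_lit 446) (nat_lit 5) (nat_lit 467) (nat_lit 5) (nat_lit 468) (nat_lit 5) (nat_lit 426) (nat_lit 422) (nat_lit 292)))) (XT.nd (nat_lit 78) (nat_lit 0) (nat_lit 0) (XT.lf (nat_lit 0) (nat_lit 2584005161) (nat_lit 1596) (nat_lit 6785174534) (nat_lit 1672) (nat_lit 927567313) (nat_lit 447) (nat_lit 5) (nat_lit 468) (nat_lit 5) (nat_lit 469) (nat_lit 5) (nat_lit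 427) (nat_lit 422) (nat_lit 291)) (XT.nd (nat_lit 78) (nat_lit 0) (nat_lit 0) (XT.lf (nat_lit 0) (nat_lit 3421860363) (nat_lit 1596) (nat_lit 1797842484) (nat_lit 1672) (nat_lit 5168591639) (nat_lit 447) (nat_lit 5) (nat_lit 468) (nat_lit 5) (nat_lit 469) (nat_lit 5) (nat_lit 428) (nat_lit 422) (nat_lit 290)) (XT.lf (nat_lit 76) (nat_lit 3322833529) (nat_lit 0) (nat_lit 958180105) (nat_lit 1672) (nat_lit 6200576166) (nat_lit 448) (nat_lit 5) (nat_lit 447) (nat_lit 5) (nat_lit 469) (nat_lit 5) (nat_lit 429) (nat_lit 422) (nat_lit 289)))))) (XT.nd (nat_lit 390) (nat_lit 1520) (nat_lit 0) (XT.nd (nat_lit 156) (nat_lit 0) (nat_lit 76) (XT.nd (nat_lit 78) (nat_lit 0) (nat_lit 0) (XT.lf (nat_lit 0) (nat_lit 5174776181) (nat_lit 1596) (nat_lit 2038601042) (nat_lit 1672) (nat_lit 3363032829) (nat_lit 448) (nat_lit 5) (nat_lit 469) (nat_lit 5) (nat_lit 470) (nat_lit 5) (nat_lit 430) (nat_lit 422) (nat_lit 288)) (XT.lf (nat_lit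 76) (nat_lit 3209604463) (nat_lit 0) (nat_lit 2887602761) (nat_lit 1672) (nat_lit 4575711025) (nat_lit 449) (nat_lit 5) (nat_lit 448) (nat_lit 5) (nat_lit 470) (nat_lit 5) (nat_lit 431) (nat_lit 422) (nat_lit 287))) (XT.nd (nat_lit 78) (nat_lit 0) (nat_lit 0) (XT.lf (nat_lit 0) (nat_lit 7045661496) (nat_lit 1596) (nat_lit 2201069940) (nat_lit 1672) (nat_lit 1524480942) (nat_lit 449) (nat_lit 5) (nat_lit 470) (nat_lit 5) (nat_lit 471) (nat_lit 5) (nat_lit 432) (nat_lit 422) (nat_lit 286)) (XT.nd (nat_lit 78) (nat_lit 0) (nat_lit 0) (XT.lf (nat_lit 76) (nat_lit 3178785032) (nat_lit 0) (nat_lit 4858282039) (nat_lit 1672) (nat_lit 2833932793) (nat_lit 450) (nat_lit 5) (nat_lit 449) (nat_lit 5) (nat_lit 471) (nat_lit 5) (nat_lit 433) (nat_lit 422) (nat_lit 285)) (XT.lf (nat_lit 76) (nat_lit 8685939408) (nat_lit 0) (nat_lit 361595539) (nat_lit 1672) (nat_lit 1925270448) (nat_lit 450) (nat_lit 5) (nat_lit 449) (nat_lit 5) (nat_lit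 471) (nat_lit 5) (nat_lit 434) (nat_lit 422) (nat_lit 284))))) (XT.nd (nat_lit 234) (nat_lit 0) (nat_lit 76) (XT.nd (nat_lit 78) (nat_lit 1672) (nat_lit 0) (XT.lf (nat_lit 76) (nat_lit 3231255734) (nat_lit 0) (nat_lit 6880170435) (nat_lit 1672) (nat_lit 964563430) (nat_lit 451) (nat_lit 5) (nat_lit 450) (nat_lit 5) (nat_lit 472) (nat_lit 5) (nat_lit 435) (nat_lit 422) (nat_lit 283)) (XT.nd (nat_lit 78) (nat_lit 0) (nat_lit 76) (XT.lf (nat_lit 0) (nat_lit 17927497) (nat_lit 1672) (nat_lit 2303207784) (nat_lit 1748) (nat_lit 8860051363) (nat_lit 428) (nat_lit 5) (nat_lit 450) (nat_lit 5) (nat_lit 451) (nat_lit 5) (nat_lit 436) (nat_lit 422) (nat_lit 282)) (XT.lf (nat_lit 0) (nat_lit 1029652819) (nat_lit 1672) (nat_lit 7926729480) (nat_lit 1748) (nat_lit 2331534263) (nat_lit 429) (nat_lit 5) (nat_lit 451) (nat_lit 5) (nat_lit 452) (nat_lit 5) (nat_lit 437) (nat_lit 422) (nat_lit 281)))) (XT.nd (nat_lit 78) (nat_lit 0) (nat_lit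 76) (XT.lf (nat_lit 0) (nat_lit 2078019238) (nat_lit 1672) (nat_lit 2252330226) (nat_lit 1748) (nat_lit 7066109802) (nat_lit 429) (nat_lit 5) (nat_lit 451) (nat_lit 5) (nat_lit 452) (nat_lit 5) (nat_lit 438) (nat_lit 422) (nat_lit 280)) (XT.nd (nat_lit 78) (nat_lit 0) (nat_lit 0) (XT.lf (nat_lit 0) (nat_lit 3159007024) (nat_lit 1672) (nat_lit 7937562750) (nat_lit 1748) (nat_lit 410376167) (nat_lit 430) (nat_lit 5) (nat_lit 452) (nat_lit 5) (nat_lit 453) (nat_lit 5) (nat_lit 439) (nat_lit 422) (nat_lit 279)) (XT.lf (nat_lit 0) (nat_lit 4291506082) (nat_lit 1672) (nat_lit 2120569215) (nat_lit 1748) (nat_lit 5206975297) (nat_lit 430) (nat_lit 5) (nat_lit 452) (nat_lit 5) (nat_lit 453) (nat_lit 5) (nat_lit 440) (nat_lit 422) (nat_lit 278))))))))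
noncomputable def xc196 : XT := (XT.nd (nat_lit 1638) (nat_lit 8132) (nat_lit 0) (XT.nd (nat_lit 780) (nat_lit 5396) (nat_lit 0) (XT.nd (nat_lit 390) (nat_lit 3268) (nat_lit 0) (XT.nd (nat_lit 156) (nat_lit 0) (nat_lit 76) (XT.nd (nat_lit 78) (nat_lit 0) (nat_lit 76) (XT.lf (nat_lit 76) (nat_lit 3852989929) (nat_lit 0) (nat_lit 1604955170) (nat_lit 1748) (nat_lit 6275232399) (nat_lit 431) (nat_lit 5) (nat_lit 430) (nat_lit 5) (nat_lit 453) (nat_lit 5) (nat_lit 441) (nat_lit 422) (nat_lit 277)) (XT.lf (nat_lit 0) (nat_lit 6669949872) (nat_lit 1672) (nat_lit 1906582985) (nat_lit 1748) (nat_lit 3272615183) (nat_lit 431) (nat_lit 5) (nat_lit 453) (nat_lit 5) (nat_lit 454) (nat_lit 5) (nat_lit 442) (nat_lit 422) (nat_lit 276))) (XT.nd (nat_lit 78) (nat_lit 0) (nat_lit 76) (XT.lf (nat_lit 76) (nat_lit 4220892473) (nat_lit 0) (nat_lit 3710098490) (nat_lit 1748) (nat_lit 4035956829) (nat_lit 432) (nat_lit 5) (nat_lit 431) (nat_lit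 5) (nat_lit 454) (nat_lit 5) (nat_lit 443) (nat_lit 422) (nat_lit 275)) (XT.nd (nat_lit 78) (nat_lit 0) (nat_lit 0) (XT.lf (nat_lit 0) (nat_lit 9225244947) (nat_lit 1672) (nat_lit 1608857078) (nat_lit 1748) (nat_lit 1252847287) (nat_lit 432) (nat_lit 5) (nat_lit 454) (nat_lit 5) (nat_lit 455) (nat_lit 5) (nat_lit 444) (nat_lit 422) (nat_lit 274)) (XT.lf (nat_lit 76) (nat_lit 4677521529) (nat_lit 0) (nat_lit 5910031205) (nat_lit 1748) (nat_lit 1620960257) (nat_lit 433) (nat_lit 5) (nat_lit 432) (nat_lit 5) (nat_lit 455) (nat_lit 5) (nat_lit 445) (nat_lit 422) (nat_lit 273))))) (XT.nd (nat_lit 156) (nat_lit 1748) (nat_lit 0) (XT.nd (nat_lit 78) (nat_lit 1672) (nat_lit 0) (XT.lf (nat_lit 76) (nat_lit 11101164270) (nat_lit 0) (nat_lit 874151367) (nat_lit 1748) (nat_lit 357233521) (nat_lit 433) (nat_lit 5) (nat_lit 432) (nat_lit 5) (nat_lit 455) (nat_lit 5) (nat_lit 446) (nat_lit 422) (nat_lit 272)) (XT.lf (nat_lit 0) (nat_lit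 969139767) (nat_lit 1748) (nat_lit 7239736783) (nat_lit 76) (nat_lit 4249081844) (nat_lit 410) (nat_lit 5) (nat_lit 433) (nat_lit 5) (nat_lit 411) (nat_lit 5) (nat_lit 447) (nat_lit 422) (nat_lit 271))) (XT.nd (nat_lit 78) (nat_lit 1748) (nat_lit 0) (XT.lf (nat_lit 0) (nat_lit 2319132335) (nat_lit 1748) (nat_lit 790845189) (nat_lit 76) (nat_lit 9475818646) (nat_lit 410) (nat_lit 5) (nat_lit 433) (nat_lit 5) (nat_lit 411) (nat_lit 5) (nat_lit 448) (nat_lit 422) (nat_lit 270)) (XT.nd (nat_lit 78) (nat_lit 0) (nat_lit 0) (XT.lf (nat_lit 0) (nat_lit 3735972194) (nat_lit 1824) (nat_lit 6875951789) (nat_lit 76) (nat_lit 2103474753) (nat_lit 387) (nat_lit 5) (nat_lit 411) (nat_lit 5) (nat_lit 388) (nat_lit 5) (nat_lit 449) (nat_lit 422) (nat_lit 269)) (XT.lf (nat_lit 0) (nat_lit 5195270458) (nat_lit 1824) (nat_lit 265470487) (nat_lit 76) (nat_lit 7386574862) (nat_lit 387) (nat_lit 5) (nat_lit 411) (nat_lit 5) (nat_lit 388)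 (nat_lit 5) (nat_lit 450) (nat_lit 422) (nat_lit 268)))))) (XT.nd (nat_lit 390) (nat_lit 2584) (nat_lit 0) (XT.nd (nat_lit 156) (nat_lit 836) (nat_lit 0) (XT.nd (nat_lit 78) (nat_lit 912) (nat_lit 0) (XT.lf (nat_lit 0) (nat_lit 6552950532) (nat_lit 1064) (nat_lit 161765549) (nat_lit 1140) (nat_lit 6266540702) (nat_lit 373) (nat_lit 5) (nat_lit 387) (nat_lit 5) (nat_lit 388) (nat_lit 5) (nat_lit 451) (nat_lit 422) (nat_lit 267)) (XT.lf (nat_lit 0) (nat_lit 353694957) (nat_lit 912) (nat_lit 7937572454) (nat_lit 988) (nat_lit 4826079527) (nat_lit 361) (nat_lit 5) (nat_lit 373) (nat_lit 5) (nat_lit 374) (nat_lit 5) (nat_lit 452) (nat_lit 422) (nat_lit 266))) (XT.nd (nat_lit 78) (nat_lit 836) (nat_lit 0) (XT.lf (nat_lit 0) (nat_lit 7347069077) (nat_lit 912) (nat_lit 2585223949) (nat_lit 988) (nat_lit 3323211610) (nat_lit 361) (nat_lit 5) (nat_lit 373) (nat_lit 5) (nat_lit 374) (nat_lit 5) (nat_lit 453) (nat_lit 422) (nat_lit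 265)) (XT.nd (nat_lit 78) (nat_lit 0) (nat_lit 0) (XT.lf (nat_lit 0) (nat_lit 1068895037) (nat_lit 836) (nat_lit 10551813544) (nat_lit 912) (nat_lit 1775430033) (nat_lit 350) (nat_lit 5) (nat_lit 361) (nat_lit 5) (nat_lit 362) (nat_lit 5) (nat_lit 454) (nat_lit 422) (nat_lit 264)) (XT.lf (nat_lit 0) (nat_lit 8238234636) (nat_lit 836) (nat_lit 5150432561) (nat_lit 912) (nat_lit 150007005) (nat_lit 350) (nat_lit 5) (nat_lit 361) (nat_lit 5) (nat_lit 362) (nat_lit 5) (nat_lit 455) (nat_lit 422) (nat_lit 263))))) (XT.nd (nat_lit 234) (nat_lit 836) (nat_lit 0) (XT.nd (nat_lit 78) (nat_lit 836) (nat_lit 0) (XT.lf (nat_lit 0) (nat_lit 1492034144) (nat_lit 912) (nat_lit 11814891246) (nat_lit 76) (nat_lit 376865829) (nat_lit 338) (nat_lit 5) (nat_lit 350) (nat_lit 5) (nat_lit 339) (nat_lit 5) (nat_lit 456) (nat_lit 422) (nat_lit 262)) (XT.nd (nat_lit 78) (nat_lit 836) (nat_lit 0) (XT.lf (nat_lit 0) (nat_lit 3224226511) (nat_lit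 912) (nat_lit 4623338849) (nat_lit 76) (nat_lit 5983043177) (nat_lit 338) (nat_lit 5) (nat_lit 350) (nat_lit 5) (nat_lit 339) (nat_lit 5) (nat_lit 457) (nat_lit 422) (nat_lit 261)) (XT.lf (nat_lit 0) (nat_lit 2737777509) (nat_lit 836) (nat_lit 2260672440) (nat_lit 912) (nat_lit 8981768596) (nat_lit 327) (nat_lit 5) (nat_lit 338) (nat_lit 5) (nat_lit 339) (nat_lit 5) (nat_lit 458) (nat_lit 422) (nat_lit 260)))) (XT.nd (nat_lit 78) (nat_lit 836) (nat_lit 0) (XT.lf (nat_lit 0) (nat_lit 6851460624) (nat_lit 912) (nat_lit 3856256996) (nat_lit 76) (nat_lit 3424241085) (nat_lit 327) (nat_lit 5) (nat_lit 339) (nat_lit 5) (nat_lit 328) (nat_lit 5) (nat_lit 459) (nat_lit 422) (nat_lit 259)) (XT.nd (nat_lit 78) (nat_lit 0) (nat_lit 0) (XT.lf (nat_lit 0) (nat_lit 3701105792) (nat_lit 836) (nat_lit 5069378821) (nat_lit 912) (nat_lit 5515673924) (nat_lit 316) (nat_lit 5) (nat_lit 327) (nat_lit 5) (nat_lit 328) (nat_lit 5) (nat_lit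 460) (nat_lit 422) (nat_lit 258)) (XT.lf (nat_lit 0) (nat_lit 10748446857) (nat_lit 912) (nat_lit 2995883045) (nat_lit 76) (nat_lit 698705161) (nat_lit 316) (nat_lit 5) (nat_lit 328) (nat_lit 5) (nat_lit 317) (nat_lit 5) (nat_lit 461) (nat_lit 422) (nat_lit 257))))))) (XT.nd (nat_lit 780) (nat_lit 3648) (nat_lit 0) (XT.nd (nat_lit 390) (nat_lit 2204) (nat_lit 0) (XT.nd (nat_lit 156) (nat_lit 1444) (nat_lit 0) (XT.nd (nat_lit 78) (nat_lit 76) (nat_lit 0) (XT.lf (nat_lit 0) (nat_lit 4763929711) (nat_lit 760) (nat_lit 8056818390) (nat_lit 836) (nat_lit 1781209201) (nat_lit 306) (nat_lit 5) (nat_lit 316) (nat_lit 5) (nat_lit 317) (nat_lit 5) (nat_lit 462) (nat_lit 422) (nat_lit 256)) (XT.lf (nat_lit 0) (nat_lit 178774903) (nat_lit 836) (nat_lit 2055460975) (nat_lit 76) (nat_lit 12529592150) (nat_lit 305) (nat_lit 5) (nat_lit 316) (nat_lit 5) (nat_lit 306) (nat_lit 5) (nat_lit 463) (nat_lit 422) (nat_lit 255))) (XT.nd (nat_lit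 78) (nat_lit 684) (nat_lit 0) (XT.lf (nat_lit 0) (nat_lit 2207599967) (nat_lit 836) (nat_lit 9013571374) (nat_lit 76) (nat_lit 3706463077) (nat_lit 295) (nat_lit 5) (nat_lit 306) (nat_lit 5) (nat_lit 296) (nat_lit 5) (nat_lit 464) (nat_lit 422) (nat_lit 254)) (XT.nd (nat_lit 78) (nat_lit 684) (nat_lit 0) (XT.lf (nat_lit 0) (nat_lit 4296326199) (nat_lit 836) (nat_lit 1048526635) (nat_lit 76) (nat_lit 9749481098) (nat_lit 295) (nat_lit 5) (nat_lit 306) (nat_lit 5) (nat_lit 296) (nat_lit 5) (nat_lit 465) (nat_lit 422) (nat_lit 253)) (XT.lf (nat_lit 0) (nat_lit 6468658147) (nat_lit 760) (nat_lit 8108260652) (nat_lit 76) (nat_lit 686615435) (nat_lit 286) (nat_lit 5) (nat_lit 296) (nat_lit 5) (nat_lit 287) (nat_lit 5) (nat_lit 466) (nat_lit 422) (nat_lit 252))))) (XT.nd (nat_lit 156) (nat_lit 1444) (nat_lit 0) (XT.nd (nat_lit 78) (nat_lit 0) (nat_lit 0) (XT.lf (nat_lit 0) (nat_lit 56730037) (nat_lit 760) (nat_lit 8661493162)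 (nat_lit 836) (nat_lit 6717222968) (nat_lit 276) (nat_lit 5) (nat_lit 286) (nat_lit 5) (nat_lit 287) (nat_lit 5) (nat_lit 467) (nat_lit 422) (nat_lit 251)) (XT.lf (nat_lit 0) (nat_lit 8485039591) (nat_lit 760) (nat_lit 2573203103) (nat_lit 836) (nat_lit 4551647669) (nat_lit 276) (nat_lit 5) (nat_lit 286) (nat_lit 5) (nat_lit 287) (nat_lit 5) (nat_lit 468) (nat_lit 422) (nat_lit 250))) (XT.nd (nat_lit 78) (nat_lit 760) (nat_lit 0) (XT.lf (nat_lit 0) (nat_lit 1277362585) (nat_lit 684) (nat_lit 12190828227) (nat_lit 760) (nat_lit 2319173291) (nat_lit 267) (nat_lit 5) (nat_lit 276) (nat_lit 5) (nat_lit 277) (nat_lit 5) (nat_lit 469) (nat_lit 422) (nat_lit 249)) (XT.nd (nat_lit 78) (nat_lit 684) (nat_lit 0) (XT.lf (nat_lit 0) (nat_lit 14941087) (nat_lit 760) (nat_lit 6050239825) (nat_lit 76) (nat_lit 9902086185) (nat_lit 266) (nat_lit 5) (nat_lit 276) (nat_lit 5) (nat_lit 267) (nat_lit 5) (nat_lit 470) (nat_lit 422) (nat_lit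 248)) (XT.lf (nat_lit 0) (nat_lit 2374347641) (nat_lit 760) (nat_lit 13564126757) (nat_lit 76) (nat_lit 211796923) (nat_lit 257) (nat_lit 5) (nat_lit 267) (nat_lit 5) (nat_lit 258) (nat_lit 5) (nat_lit 471) (nat_lit 422) (nat_lit 247)))))) (XT.nd (nat_lit 390) (nat_lit 2432) (nat_lit 0) (XT.nd (nat_lit 156) (nat_lit 608) (nat_lit 0) (XT.nd (nat_lit 78) (nat_lit 608) (nat_lit 0) (XT.lf (nat_lit 0) (nat_lit 4853516463) (nat_lit 760) (nat_lit 4909119111) (nat_lit 76) (nat_lit 6572851549) (nat_lit 257) (nat_lit 5) (nat_lit 267) (nat_lit 5) (nat_lit 258) (nat_lit 5) (nat_lit 472) (nat_lit 422) (nat_lit 246)) (XT.lf (nat_lit 0) (nat_lit 3961305563) (nat_lit 608) (nat_lit 3438386646) (nat_lit 684) (nat_lit 9124369484) (nat_lit 249) (nat_lit 5) (nat_lit 257) (nat_lit 5) (nat_lit 258) (nat_lit 5) (nat_lit 473) (nat_lit 422) (nat_lit 245))) (XT.nd (nat_lit 78) (nat_lit 608) (nat_lit 0) (XT.lf (nat_lit 0) (nat_lit 10041306254)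 (nat_lit 684) (nat_lit 3669572874) (nat_lit 76) (nat_lit 3004641193) (nat_lit 249) (nat_lit 5) (nat_lit 258) (nat_lit 5) (nat_lit 250) (nat_lit 5) (nat_lit 474) (nat_lit 422) (nat_lit 244)) (XT.nd (nat_lit 78) (nat_lit 0) (nat_lit 0) (XT.lf (nat_lit 0) (nat_lit 5440516642) (nat_lit 608) (nat_lit 7345286710) (nat_lit 684) (nat_lit 4124006559) (nat_lit 241) (nat_lit 5) (nat_lit 249) (nat_lit 5) (nat_lit 250) (nat_lit 5) (nat_lit 475) (nat_lit 422) (nat_lit 243)) (XT.lf (nat_lit 0) (nat_lit 14773072751) (nat_lit 608) (nat_lit 828795149) (nat_lit 684) (nat_lit 1505786596) (nat_lit 241) (nat_lit 5) (nat_lit 249) (nat_lit 5) (nat_lit 250) (nat_lit 5) (nat_lit 476) (nat_lit 422) (nat_lit 242))))) (XT.nd (nat_lit 234) (nat_lit 1140) (nat_lit 0) (XT.nd (nat_lit 78) (nat_lit 608) (nat_lit 0) (XT.lf (nat_lit 0) (nat_lit 1225621574) (nat_lit 684) (nat_lit 10288229984) (nat_lit 76) (nat_lit 5793933798) (nat_lit 232) (nat_lit 5) (nat_lit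 241) (nat_lit 5) (nat_lit 233) (nat_lit 5) (nat_lit 477) (nat_lit 422) (nat_lit 241)) (XT.nd (nat_lit 78) (nat_lit 608) (nat_lit 0) (XT.lf (nat_lit 0) (nat_lit 4005010247) (nat_lit 684) (nat_lit 944232796) (nat_lit 76) (nat_lit 12562209023) (nat_lit 232) (nat_lit 5) (nat_lit 241) (nat_lit 5) (nat_lit 233) (nat_lit 5) (nat_lit 478) (nat_lit 422) (nat_lit 240)) (XT.lf (nat_lit 0) (nat_lit 6900509271) (nat_lit 684) (nat_lit 9038586598) (nat_lit 76) (nat_lit 1778888331) (nat_lit 224) (nat_lit 5) (nat_lit 233) (nat_lit 5) (nat_lit 225) (nat_lit 5) (nat_lit 479) (nat_lit 422) (nat_lit 239)))) (XT.nd (nat_lit 78) (nat_lit 608) (nat_lit 0) (XT.lf (nat_lit 0) (nat_lit 544726982) (nat_lit 532) (nat_lit 9344350297) (nat_lit 608) (nat_lit 8038869009) (nat_lit 217) (nat_lit 5) (nat_lit 224) (nat_lit 5) (nat_lit 225) (nat_lit 5) (nat_lit 480) (nat_lit 422) (nat_lit 238)) (XT.nd (nat_lit 78) (nat_lit 608) (nat_lit 0) (XT.lf (nat_lit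 0) (nat_lit 10432910470) (nat_lit 532) (nat_lit 2557714628) (nat_lit 608) (nat_lit 5150420796) (nat_lit 217) (nat_lit 5) (nat_lit 224) (nat_lit 5) (nat_lit 225) (nat_lit 5) (nat_lit 481) (nat_lit 422) (nat_lit 237)) (XT.lf (nat_lit 0) (nat_lit 2151052782) (nat_lit 608) (nat_lit 14038144226) (nat_lit 684) (nat_lit 2168513015) (nat_lit 209) (nat_lit 5) (nat_lit 217) (nat_lit 5) (nat_lit 218) (nat_lit 5) (nat_lit 482) (nat_lit 422) (nat_lit 236))))))))
noncomputable def xc197 : XT := (XT.nd (nat_lit 54834) (nat_lit 0) (nat_lit 21660) (XT.nd (nat_lit 780) (nat_lit 2356) (nat_lit 0) (XT.nd (nat_lit 390) (nat_lit 1520) (nat_lit 0) (XT.nd (nat_lit 156) (nat_lit 532) (nat_lit 0) (XT.nd (nat_lit 78) (nat_lit 532) (nat_lit 0) (XT.lf (nat_lit 0) (nat_lit 923311869) (nat_lit 684) (nat_lit 6298020336) (nat_lit 76) (nat_lit 11356029589) (nat_lit 208) (nat_lit 5) (nat_lit 217) (nat_lit 5) (nat_lit 209) (nat_lit 5) (nat_lit 483) (nat_lit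 422) (nat_lit 235)) (XT.lf (nat_lit 0) (nat_lit 3835606891) (nat_lit 532) (nat_lit 230125345) (nat_lit 608) (nat_lit 14735034035) (nat_lit 201) (nat_lit 5) (nat_lit 208) (nat_lit 5) (nat_lit 209) (nat_lit 5) (nat_lit 484) (nat_lit 422) (nat_lit 234))) (XT.nd (nat_lit 78) (nat_lit 532) (nat_lit 0) (XT.lf (nat_lit 0) (nat_lit 7351282091) (nat_lit 608) (nat_lit 4824797005) (nat_lit 76) (nat_lit 6850956333) (nat_lit 201) (nat_lit 5) (nat_lit 209) (nat_lit 5) (nat_lit 202) (nat_lit 5) (nat_lit 485) (nat_lit 422) (nat_lit 233)) (XT.nd (nat_lit 78) (nat_lit 0) (nat_lit 0) (XT.lf (nat_lit 0) (nat_lit 5581028856) (nat_lit 532) (nat_lit 5152345312) (nat_lit 608) (nat_lit 8523841348) (nat_lit 194) (nat_lit 5) (nat_lit 201) (nat_lit 5) (nat_lit 202) (nat_lit 5) (nat_lit 486) (nat_lit 422) (nat_lit 232)) (XT.lf (nat_lit 0) (nat_lit 14221897284) (nat_lit 608) (nat_lit 3253337910) (nat_lit 76) (nat_lit 2015990353) (nat_lit 194) (nat_lit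 5) (nat_lit 202) (nat_lit 5) (nat_lit 195) (nat_lit 5) (nat_lit 487) (nat_lit 422) (nat_lit 231))))) (XT.nd (nat_lit 156) (nat_lit 988) (nat_lit 0) (XT.nd (nat_lit 78) (nat_lit 76) (nat_lit 0) (XT.lf (nat_lit 0) (nat_lit 7432419820) (nat_lit 456) (nat_lit 10423418835) (nat_lit 532) (nat_lit 1872566253) (nat_lit 188) (nat_lit 5) (nat_lit 194) (nat_lit 5) (nat_lit 195) (nat_lit 5) (nat_lit 488) (nat_lit 422) (nat_lit 230)) (XT.lf (nat_lit 0) (nat_lit 1586524639) (nat_lit 532) (nat_lit 1613316927) (nat_lit 76) (nat_lit 16769976058) (nat_lit 187) (nat_lit 5) (nat_lit 194) (nat_lit 5) (nat_lit 188) (nat_lit 5) (nat_lit 489) (nat_lit 422) (nat_lit 229))) (XT.nd (nat_lit 78) (nat_lit 456) (nat_lit 0) (XT.lf (nat_lit 0) (nat_lit 5171644434) (nat_lit 608) (nat_lit 10857332251) (nat_lit 76) (nat_lit 4185197906) (nat_lit 180) (nat_lit 5) (nat_lit 188) (nat_lit 5) (nat_lit 181) (nat_lit 5) (nat_lit 490) (nat_lit 422) (nat_lit 228))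 (XT.nd (nat_lit 78) (nat_lit 0) (nat_lit 0) (XT.lf (nat_lit 0) (nat_lit 75984200) (nat_lit 456) (nat_lit 8778552601) (nat_lit 532) (nat_lit 11608362418) (nat_lit 174) (nat_lit 5) (nat_lit 180) (nat_lit 5) (nat_lit 181) (nat_lit 5) (nat_lit 491) (nat_lit 422) (nat_lit 227)) (XT.lf (nat_lit 0) (nat_lit 11366377808) (nat_lit 456) (nat_lit 1311126344) (nat_lit 532) (nat_lit 8037767734) (nat_lit 174) (nat_lit 5) (nat_lit 180) (nat_lit 5) (nat_lit 181) (nat_lit 5) (nat_lit 492) (nat_lit 422) (nat_lit 226)))))) (XT.nd (nat_lit 390) (nat_lit 912) (nat_lit 0) (XT.nd (nat_lit 156) (nat_lit 988) (nat_lit 0) (XT.nd (nat_lit 78) (nat_lit 0) (nat_lit 0) (XT.lf (nat_lit 0) (nat_lit 1884963754) (nat_lit 456) (nat_lit 14738816226) (nat_lit 532) (nat_lit 4347976896) (nat_lit 168) (nat_lit 5) (nat_lit 174) (nat_lit 5) (nat_lit 175) (nat_lit 5) (nat_lit 493) (nat_lit 422) (nat_lit 225)) (XT.lf (nat_lit 0) (nat_lit 13452779671) (nat_lit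 456) (nat_lit 7261301694) (nat_lit 532) (nat_lit 517990015) (nat_lit 168) (nat_lit 5) (nat_lit 174) (nat_lit 5) (nat_lit 175) (nat_lit 5) (nat_lit 494) (nat_lit 422) (nat_lit 224))) (XT.nd (nat_lit 78) (nat_lit 456) (nat_lit 0) (XT.lf (nat_lit 0) (nat_lit 3365139059) (nat_lit 532) (nat_lit 17726170586) (nat_lit 76) (nat_lit 405424563) (nat_lit 161) (nat_lit 5) (nat_lit 168) (nat_lit 5) (nat_lit 162) (nat_lit 5) (nat_lit 495) (nat_lit 422) (nat_lit 223)) (XT.nd (nat_lit 78) (nat_lit 456) (nat_lit 0) (XT.lf (nat_lit 0) (nat_lit 7413507303) (nat_lit 532) (nat_lit 6169257981) (nat_lit 76) (nat_lit 8181967993) (nat_lit 161) (nat_lit 5) (nat_lit 168) (nat_lit 5) (nat_lit 162) (nat_lit 5) (nat_lit 496) (nat_lit 422) (nat_lit 222)) (XT.lf (nat_lit 0) (nat_lit 5684906392) (nat_lit 456) (nat_lit 5888835959) (nat_lit 532) (nat_lit 10463733663) (nat_lit 155) (nat_lit 5) (nat_lit 161) (nat_lit 5) (nat_lit 162) (nat_lit 5) (nat_lit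 497) (nat_lit 422) (nat_lit 221))))) (XT.nd (nat_lit 234) (nat_lit 456) (nat_lit 0) (XT.nd (nat_lit 78) (nat_lit 456) (nat_lit 0) (XT.lf (nat_lit 0) (nat_lit 15865610969) (nat_lit 532) (nat_lit 4476552998) (nat_lit 76) (nat_lit 1972542706) (nat_lit 155) (nat_lit 5) (nat_lit 162) (nat_lit 5) (nat_lit 156) (nat_lit 5) (nat_lit 498) (nat_lit 422) (nat_lit 220)) (XT.nd (nat_lit 78) (nat_lit 76) (nat_lit 0) (XT.lf (nat_lit 0) (nat_lit 7690519920) (nat_lit 380) (nat_lit 12635881622) (nat_lit 456) (nat_lit 2269420324) (nat_lit 150) (nat_lit 5) (nat_lit 155) (nat_lit 5) (nat_lit 156) (nat_lit 5) (nat_lit 499) (nat_lit 422) (nat_lit 219)) (XT.lf (nat_lit 0) (nat_lit 1992112609) (nat_lit 456) (nat_lit 2741839592) (nat_lit 76) (nat_lit 18147861529) (nat_lit 149) (nat_lit 5) (nat_lit 155) (nat_lit 5) (nat_lit 150) (nat_lit 5) (nat_lit 500) (nat_lit 422) (nat_lit 218)))) (XT.nd (nat_lit 53274) (nat_lit 0) (nat_lit 22952) (XT.lf (nat_lit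 0) (nat_lit 6388336350) (nat_lit 532) (nat_lit 13424362747) (nat_lit 76) (nat_lit 3358930882) (nat_lit 143) (nat_lit 5) (nat_lit 150) (nat_lit 5) (nat_lit 144) (nat_lit 5) (nat_lit 501) (nat_lit 422) (nat_lit 217)) (XT.nd (nat_lit 78) (nat_lit 0) (nat_lit 0) (XT.lf (nat_lit 0) (nat_lit 41612368) (nat_lit 0) (nat_lit 41612368) (nat_lit 1596) (nat_lit 4932195848) (nat_lit 445) (nat_lit 5) (nat_lit 445) (nat_lit 3) (nat_lit 466) (nat_lit 3) (nat_lit 423) (nat_lit 423) (nat_lit 294)) (XT.lf (nat_lit 0) (nat_lit 885105158) (nat_lit 1596) (nat_lit 5209405541) (nat_lit 1672) (nat_lit 4021987330) (nat_lit 445) (nat_lit 5) (nat_lit 466) (nat_lit 3) (nat_lit 467) (nat_lit 5) (nat_lit 424) (nat_lit 423) (nat_lit 293))))))) (XT.nd (nat_lit 858) (nat_lit 1292) (nat_lit 0) (XT.nd (nat_lit 390) (nat_lit 0) (nat_lit 152) (XT.nd (nat_lit 156) (nat_lit 0) (nat_lit 76) (XT.nd (nat_lit 78) (nat_lit 0) (nat_lit 76) (XT.lf (nat_lit 0) (nat_lit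 1600631043) (nat_lit 1596) (nat_lit 386467256) (nat_lit 1672) (nat_lit 8217127961) (nat_lit 445) (nat_lit 5) (nat_lit 466) (nat_lit 3) (nat_lit 467) (nat_lit 5) (nat_lit 425) (nat_lit 423) (nat_lit 292)) (XT.lf (nat_lit 0) (nat_lit 2357079580) (nat_lit 1596) (nat_lit 5724280556) (nat_lit 1672) (nat_lit 2211824693) (nat_lit 446) (nat_lit 5) (nat_lit 467) (nat_lit 5) (nat_lit 468) (nat_lit 5) (nat_lit 426) (nat_lit 423) (nat_lit 291))) (XT.nd (nat_lit 78) (nat_lit 0) (nat_lit 76) (XT.lf (nat_lit 0) (nat_lit 3127067336) (nat_lit 1596) (nat_lit 778073256) (nat_lit 1672) (nat_lit 6478821631) (nat_lit 446) (nat_lit 5) (nat_lit 467) (nat_lit 5) (nat_lit 468) (nat_lit 5) (nat_lit 427) (nat_lit 423) (nat_lit 290)) (XT.nd (nat_lit 78) (nat_lit 0) (nat_lit 0) (XT.lf (nat_lit 0) (nat_lit 3925982758) (nat_lit 1596) (nat_lit 6164699030) (nat_lit 1672) (nat_lit 385610524) (nat_lit 447) (nat_lit 5) (nat_lit 468) (nat_lit 5) (nat_lit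 469) (nat_lit 5) (nat_lit 428) (nat_lit 423) (nat_lit 289)) (XT.lf (nat_lit 0) (nat_lit 4755295113) (nat_lit 1596) (nat_lit 1092447379) (nat_lit 1672) (nat_lit 4722445693) (nat_lit 447) (nat_lit 5) (nat_lit 468) (nat_lit 5) (nat_lit 469) (nat_lit 5) (nat_lit 429) (nat_lit 423) (nat_lit 288))))) (XT.nd (nat_lit 234) (nat_lit 0) (nat_lit 152) (XT.nd (nat_lit 78) (nat_lit 0) (nat_lit 76) (XT.lf (nat_lit 76) (nat_lit 4125764840) (nat_lit 0) (nat_lit 1485844419) (nat_lit 1672) (nat_lit 5054151811) (nat_lit 448) (nat_lit 5) (nat_lit 447) (nat_lit 5) (nat_lit 469) (nat_lit 5) (nat_lit 430) (nat_lit 423) (nat_lit 287)) (XT.nd (nat_lit 78) (nat_lit 0) (nat_lit 0) (XT.lf (nat_lit 0) (nat_lit 6495598986) (nat_lit 1596) (nat_lit 1329141013) (nat_lit 1672) (nat_lit 2938301688) (nat_lit 448) (nat_lit 5) (nat_lit 469) (nat_lit 5) (nat_lit 470) (nat_lit 5) (nat_lit 431) (nat_lit 423) (nat_lit 286)) (XT.lf (nat_lit 76) (nat_lit 4019092865)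 (nat_lit 0) (nat_lit 3398355580) (nat_lit 1672) (nat_lit 3444422991) (nat_lit 449) (nat_lit 5) (nat_lit 448) (nat_lit 5) (nat_lit 470) (nat_lit 5) (nat_lit 432) (nat_lit 423) (nat_lit 285)))) (XT.nd (nat_lit 78) (nat_lit 0) (nat_lit 0) (XT.lf (nat_lit 0) (nat_lit 8358492271) (nat_lit 1596) (nat_lit 1487500485) (nat_lit 1672) (nat_lit 1116676857) (nat_lit 449) (nat_lit 5) (nat_lit 470) (nat_lit 5) (nat_lit 471) (nat_lit 5) (nat_lit 433) (nat_lit 423) (nat_lit 284)) (XT.nd (nat_lit 78) (nat_lit 0) (nat_lit 0) (XT.lf (nat_lit 76) (nat_lit 3994967436) (nat_lit 0) (nat_lit 5356666167) (nat_lit 1672) (nat_lit 1713191458) (nat_lit 450) (nat_lit 5) (nat_lit 449) (nat_lit 5) (nat_lit 471) (nat_lit 5) (nat_lit 434) (nat_lit 423) (nat_lit 283)) (XT.lf (nat_lit 76) (nat_lit 9597507906) (nat_lit 0) (nat_lit 762178908) (nat_lit 1672) (nat_lit 809442532) (nat_lit 450) (nat_lit 5) (nat_lit 449) (nat_lit 5) (nat_lit 471) (nat_lit 5)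 (nat_lit 435) (nat_lit 423) (nat_lit 282)))))) (XT.nd (nat_lit 390) (nat_lit 0) (nat_lit 152) (XT.nd (nat_lit 156) (nat_lit 0) (nat_lit 76) (XT.nd (nat_lit 78) (nat_lit 0) (nat_lit 0) (XT.lf (nat_lit 0) (nat_lit 148342607) (nat_lit 1672) (nat_lit 7221364973) (nat_lit 1748) (nat_lit 3905055287) (nat_lit 428) (nat_lit 5) (nat_lit 450) (nat_lit 5) (nat_lit 451) (nat_lit 5) (nat_lit 436) (nat_lit 423) (nat_lit 281)) (XT.lf (nat_lit 0) (nat_lit 1115632983) (nat_lit 1672) (nat_lit 1590570242) (nat_lit 1748) (nat_lit 8676181388) (nat_lit 428) (nat_lit 5) (nat_lit 450) (nat_lit 5) (nat_lit 451) (nat_lit 5) (nat_lit 437) (nat_lit 423) (nat_lit 280))) (XT.nd (nat_lit 78) (nat_lit 0) (nat_lit 0) (XT.lf (nat_lit 0) (nat_lit 2128846602) (nat_lit 1672) (nat_lit 7307346725) (nat_lit 1748) (nat_lit 2055440114) (nat_lit 429) (nat_lit 5) (nat_lit 451) (nat_lit 5) (nat_lit 452) (nat_lit 5) (nat_lit 438) (nat_lit 423) (nat_lit 279)) (XT.nd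 (nat_lit 78) (nat_lit 0) (nat_lit 76) (XT.lf (nat_lit 0) (nat_lit 3177031316) (nat_lit 1672) (nat_lit 1534712767) (nat_lit 1748) (nat_lit 6891035102) (nat_lit 429) (nat_lit 5) (nat_lit 451) (nat_lit 5) (nat_lit 452) (nat_lit 5) (nat_lit 439) (nat_lit 423) (nat_lit 278)) (XT.lf (nat_lit 0) (nat_lit 4261979803) (nat_lit 1672) (nat_lit 7315539680) (nat_lit 1748) (nat_lit 138318316) (nat_lit 430) (nat_lit 5) (nat_lit 452) (nat_lit 5) (nat_lit 453) (nat_lit 5) (nat_lit 440) (nat_lit 423) (nat_lit 277))))) (XT.nd (nat_lit 234) (nat_lit 0) (nat_lit 76) (XT.nd (nat_lit 78) (nat_lit 0) (nat_lit 0) (XT.lf (nat_lit 0) (nat_lit 5396740751) (nat_lit 1672) (nat_lit 1397515575) (nat_lit 1748) (nat_lit 5036344829) (nat_lit 430) (nat_lit 5) (nat_lit 452) (nat_lit 5) (nat_lit 453) (nat_lit 5) (nat_lit 441) (nat_lit 423) (nat_lit 276)) (XT.nd (nat_lit 78) (nat_lit 0) (nat_lit 76) (XT.lf (nat_lit 76) (nat_lit 4690478798) (nat_lit 0) (nat_lit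 1880978636) (nat_lit 1748) (nat_lit 5375862858) (nat_lit 431) (nat_lit 5) (nat_lit 430) (nat_lit 5) (nat_lit 453) (nat_lit 5) (nat_lit 442) (nat_lit 423) (nat_lit 275)) (XT.lf (nat_lit 0) (nat_lit 7786456433) (nat_lit 1672) (nat_lit 1177524895) (nat_lit 1748) (nat_lit 3102062339) (nat_lit 431) (nat_lit 5) (nat_lit 453) (nat_lit 5) (nat_lit 454) (nat_lit 5) (nat_lit 443) (nat_lit 423) (nat_lit 274)))) (XT.nd (nat_lit 78) (nat_lit 0) (nat_lit 76) (XT.lf (nat_lit 76) (nat_lit 5067452772) (nat_lit 0) (nat_lit 3990937289) (nat_lit 1748) (nat_lit 3128104256) (nat_lit 432) (nat_lit 5) (nat_lit 431) (nat_lit 5) (nat_lit 454) (nat_lit 5) (nat_lit 444) (nat_lit 423) (nat_lit 273)) (XT.nd (nat_lit 78) (nat_lit 0) (nat_lit 0) (XT.lf (nat_lit 0) (nat_lit 10358218135) (nat_lit 1672) (nat_lit 873116079) (nat_lit 1748) (nat_lit 1077976046) (nat_lit 432) (nat_lit 5) (nat_lit 454) (nat_lit 5) (nat_lit 455) (nat_lit 5) (nat_lit 445) (nat_lit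 423) (nat_lit 272)) (XT.lf (nat_lit 76) (nat_lit 5533938007) (nat_lit 0) (nat_lit 6200189685) (nat_lit 1748) (nat_lit 699458420) (nat_lit 433) (nat_lit 5) (nat_lit 432) (nat_lit 5) (nat_lit 455) (nat_lit 5) (nat_lit 446) (nat_lit 423) (nat_lit 271))))))))
noncomputable def xc198 : XT := (XT.nd (nat_lit 1638) (nat_lit 7448) (nat_lit 0) (XT.nd (nat_lit 780) (nat_lit 4788) (nat_lit 0) (XT.nd (nat_lit 390) (nat_lit 1824) (nat_lit 0) (XT.nd (nat_lit 156) (nat_lit 2736) (nat_lit 0) (XT.nd (nat_lit 78) (nat_lit 0) (nat_lit 76) (XT.lf (nat_lit 0) (nat_lit 563351866) (nat_lit 1748) (nat_lit 493088274) (nat_lit 1824) (nat_lit 11503963192) (nat_lit 409) (nat_lit 5) (nat_lit 432) (nat_lit 5) (nat_lit 433) (nat_lit 5) (nat_lit 447) (nat_lit 423) (nat_lit 270)) (XT.lf (nat_lit 0) (nat_lit 1897281016) (nat_lit 1748) (nat_lit 6609402722) (nat_lit 76) (nat_lit 4181881104) (nat_lit 410) (nat_lit 5) (nat_lit 433) (nat_lit 5) (nat_lit 411)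 (nat_lit 5) (nat_lit 448) (nat_lit 423) (nat_lit 269))) (XT.nd (nat_lit 78) (nat_lit 2812) (nat_lit 0) (XT.lf (nat_lit 0) (nat_lit 3256454642) (nat_lit 1748) (nat_lit 46731900) (nat_lit 76) (nat_lit 9516136610) (nat_lit 410) (nat_lit 5) (nat_lit 433) (nat_lit 5) (nat_lit 411) (nat_lit 5) (nat_lit 449) (nat_lit 423) (nat_lit 268)) (XT.nd (nat_lit 78) (nat_lit 1064) (nat_lit 0) (XT.lf (nat_lit 0) (nat_lit 4688261942) (nat_lit 1824) (nat_lit 6239808386) (nat_lit 76) (nat_lit 2023722087) (nat_lit 387) (nat_lit 5) (nat_lit 411) (nat_lit 5) (nat_lit 388) (nat_lit 5) (nat_lit 450) (nat_lit 423) (nat_lit 267)) (XT.lf (nat_lit 0) (nat_lit 494194134) (nat_lit 1064) (nat_lit 5668553413) (nat_lit 1140) (nat_lit 6923887369) (nat_lit 373) (nat_lit 5) (nat_lit 387) (nat_lit 5) (nat_lit 388) (nat_lit 5) (nat_lit 451) (nat_lit 423) (nat_lit 266))))) (XT.nd (nat_lit 156) (nat_lit 912) (nat_lit 0) (XT.nd (nat_lit 78) (nat_lit 912) (nat_lit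 0) (XT.lf (nat_lit 0) (nat_lit 7437512047) (nat_lit 1064) (nat_lit 259883774) (nat_lit 1140) (nat_lit 5526169591) (nat_lit 373) (nat_lit 5) (nat_lit 387) (nat_lit 5) (nat_lit 388) (nat_lit 5) (nat_lit 452) (nat_lit 423) (nat_lit 265)) (XT.lf (nat_lit 0) (nat_lit 1127128679) (nat_lit 912) (nat_lit 8166086243) (nat_lit 988) (nat_lit 4069414553) (nat_lit 361) (nat_lit 5) (nat_lit 373) (nat_lit 5) (nat_lit 374) (nat_lit 5) (nat_lit 453) (nat_lit 423) (nat_lit 264))) (XT.nd (nat_lit 78) (nat_lit 912) (nat_lit 0) (XT.lf (nat_lit 0) (nat_lit 8245343619) (nat_lit 912) (nat_lit 2705322879) (nat_lit 988) (nat_lit 2553218425) (nat_lit 361) (nat_lit 5) (nat_lit 373) (nat_lit 5) (nat_lit 374) (nat_lit 5) (nat_lit 454) (nat_lit 423) (nat_lit 263)) (XT.nd (nat_lit 78) (nat_lit 76) (nat_lit 0) (XT.lf (nat_lit 0) (nat_lit 1853723999) (nat_lit 836) (nat_lit 10807574749) (nat_lit 912) (nat_lit 986270438) (nat_lit 350) (nat_lit 5) (nat_lit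 361) (nat_lit 5) (nat_lit 362) (nat_lit 5) (nat_lit 455) (nat_lit 423) (nat_lit 262)) (XT.lf (nat_lit 0) (nat_lit 646894202) (nat_lit 912) (nat_lit 4646053984) (nat_lit 76) (nat_lit 8500245558) (nat_lit 349) (nat_lit 5) (nat_lit 361) (nat_lit 5) (nat_lit 350) (nat_lit 5) (nat_lit 456) (nat_lit 423) (nat_lit 261)))))) (XT.nd (nat_lit 390) (nat_lit 2280) (nat_lit 0) (XT.nd (nat_lit 156) (nat_lit 1672) (nat_lit 0) (XT.nd (nat_lit 78) (nat_lit 0) (nat_lit 0) (XT.lf (nat_lit 0) (nat_lit 2308809974) (nat_lit 912) (nat_lit 11280518914) (nat_lit 76) (nat_lit 352089729) (nat_lit 338) (nat_lit 5) (nat_lit 350) (nat_lit 5) (nat_lit 339) (nat_lit 5) (nat_lit 457) (nat_lit 423) (nat_lit 260)) (XT.lf (nat_lit 0) (nat_lit 4060216088) (nat_lit 912) (nat_lit 3960246649) (nat_lit 76) (nat_lit 6071024220) (nat_lit 338) (nat_lit 5) (nat_lit 350) (nat_lit 5) (nat_lit 339) (nat_lit 5) (nat_lit 458) (nat_lit 423) (nat_lit 259))) (XT.nd (nat_lit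 78) (nat_lit 836) (nat_lit 0) (XT.lf (nat_lit 0) (nat_lit 3543121253) (nat_lit 836) (nat_lit 2316548508) (nat_lit 912) (nat_lit 8384630442) (nat_lit 327) (nat_lit 5) (nat_lit 338) (nat_lit 5) (nat_lit 339) (nat_lit 5) (nat_lit 459) (nat_lit 423) (nat_lit 258)) (XT.nd (nat_lit 78) (nat_lit 836) (nat_lit 0) (XT.lf (nat_lit 0) (nat_lit 7734746292) (nat_lit 912) (nat_lit 3182225140) (nat_lit 76) (nat_lit 3482409459) (nat_lit 327) (nat_lit 5) (nat_lit 339) (nat_lit 5) (nat_lit 328) (nat_lit 5) (nat_lit 460) (nat_lit 423) (nat_lit 257)) (XT.lf (nat_lit 0) (nat_lit 4521343081) (nat_lit 836) (nat_lit 5161020124) (nat_lit 912) (nat_lit 4874502989) (nat_lit 316) (nat_lit 5) (nat_lit 327) (nat_lit 5) (nat_lit 328) (nat_lit 5) (nat_lit 461) (nat_lit 423) (nat_lit 256))))) (XT.nd (nat_lit 234) (nat_lit 1444) (nat_lit 0) (XT.nd (nat_lit 78) (nat_lit 836) (nat_lit 0) (XT.lf (nat_lit 0) (nat_lit 11685506166) (nat_lit 912) (nat_lit 2309558149)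 (nat_lit 76) (nat_lit 722109117) (nat_lit 316) (nat_lit 5) (nat_lit 328) (nat_lit 5) (nat_lit 317) (nat_lit 5) (nat_lit 462) (nat_lit 423) (nat_lit 255)) (XT.nd (nat_lit 78) (nat_lit 76) (nat_lit 0) (XT.lf (nat_lit 0) (nat_lit 5600541372) (nat_lit 760) (nat_lit 8189366654) (nat_lit 836) (nat_lit 1089558497) (nat_lit 306) (nat_lit 5) (nat_lit 316) (nat_lit 5) (nat_lit 317) (nat_lit 5) (nat_lit 463) (nat_lit 423) (nat_lit 254)) (XT.lf (nat_lit 0) (nat_lit 886013682) (nat_lit 836) (nat_lit 1360157410) (nat_lit 76) (nat_lit 12798595885) (nat_lit 305) (nat_lit 5) (nat_lit 316) (nat_lit 5) (nat_lit 306) (nat_lit 5) (nat_lit 464) (nat_lit 423) (nat_lit 253)))) (XT.nd (nat_lit 78) (nat_lit 684) (nat_lit 0) (XT.lf (nat_lit 0) (nat_lit 2946607670) (nat_lit 836) (nat_lit 8448363278) (nat_lit 76) (nat_lit 3817059882) (nat_lit 295) (nat_lit 5) (nat_lit 306) (nat_lit 5) (nat_lit 296) (nat_lit 5) (nat_lit 465) (nat_lit 423) (nat_lit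 252)) (XT.nd (nat_lit 78) (nat_lit 684) (nat_lit 0) (XT.lf (nat_lit 0) (nat_lit 5063483805) (nat_lit 836) (nat_lit 338634890) (nat_lit 76) (nat_lit 9980223213) (nat_lit 295) (nat_lit 5) (nat_lit 306) (nat_lit 5) (nat_lit 296) (nat_lit 5) (nat_lit 466) (nat_lit 423) (nat_lit 251)) (XT.lf (nat_lit 0) (nat_lit 7270966083) (nat_lit 760) (nat_lit 7531018179) (nat_lit 76) (nat_lit 753112862) (nat_lit 286) (nat_lit 5) (nat_lit 296) (nat_lit 5) (nat_lit 287) (nat_lit 5) (nat_lit 467) (nat_lit 423) (nat_lit 250))))))) (XT.nd (nat_lit 858) (nat_lit 3344) (nat_lit 0) (XT.nd (nat_lit 390) (nat_lit 1900) (nat_lit 0) (XT.nd (nat_lit 156) (nat_lit 1444) (nat_lit 0) (XT.nd (nat_lit 78) (nat_lit 0) (nat_lit 0) (XT.lf (nat_lit 0) (nat_lit 792407799) (nat_lit 760) (nat_lit 8764688978) (nat_lit 836) (nat_lit 6173523916) (nat_lit 276) (nat_lit 5) (nat_lit 286) (nat_lit 5) (nat_lit 287) (nat_lit 5) (nat_lit 468) (nat_lit 423) (nat_lit 249))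 (XT.lf (nat_lit 0) (nat_lit 9374880738) (nat_lit 760) (nat_lit 2556006335) (nat_lit 836) (nat_lit 3977932081) (nat_lit 276) (nat_lit 5) (nat_lit 286) (nat_lit 5) (nat_lit 287) (nat_lit 5) (nat_lit 469) (nat_lit 423) (nat_lit 248))) (XT.nd (nat_lit 78) (nat_lit 760) (nat_lit 0) (XT.lf (nat_lit 0) (nat_lit 2031051288) (nat_lit 684) (nat_lit 12350373385) (nat_lit 760) (nat_lit 1708574580) (nat_lit 267) (nat_lit 5) (nat_lit 276) (nat_lit 5) (nat_lit 277) (nat_lit 5) (nat_lit 470) (nat_lit 423) (nat_lit 247)) (XT.nd (nat_lit 78) (nat_lit 684) (nat_lit 0) (XT.lf (nat_lit 0) (nat_lit 650892592) (nat_lit 760) (nat_lit 5448707348) (nat_lit 76) (nat_lit 10174073829) (nat_lit 266) (nat_lit 5) (nat_lit 276) (nat_lit 5) (nat_lit 267) (nat_lit 5) (nat_lit 471) (nat_lit 423) (nat_lit 246)) (XT.lf (nat_lit 0) (nat_lit 3050267742) (nat_lit 760) (nat_lit 13105431290) (nat_lit 76) (nat_lit 304787859) (nat_lit 257) (nat_lit 5) (nat_lit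 267) (nat_lit 5) (nat_lit 258) (nat_lit 5) (nat_lit 472) (nat_lit 423) (nat_lit 245))))) (XT.nd (nat_lit 234) (nat_lit 1292) (nat_lit 0) (XT.nd (nat_lit 78) (nat_lit 608) (nat_lit 0) (XT.lf (nat_lit 0) (nat_lit 5566697722) (nat_lit 760) (nat_lit 4291636786) (nat_lit 76) (nat_lit 6791323284) (nat_lit 257) (nat_lit 5) (nat_lit 267) (nat_lit 5) (nat_lit 258) (nat_lit 5) (nat_lit 473) (nat_lit 423) (nat_lit 244)) (XT.nd (nat_lit 78) (nat_lit 0) (nat_lit 0) (XT.lf (nat_lit 0) (nat_lit 4751488061) (nat_lit 608) (nat_lit 3404844316) (nat_lit 684) (nat_lit 8685825020) (nat_lit 249) (nat_lit 5) (nat_lit 257) (nat_lit 5) (nat_lit 258) (nat_lit 5) (nat_lit 474) (nat_lit 423) (nat_lit 243)) (XT.lf (nat_lit 0) (nat_lit 10839495700) (nat_lit 684) (nat_lit 3034456829) (nat_lit 76) (nat_lit 3163722496) (nat_lit 249) (nat_lit 5) (nat_lit 258) (nat_lit 5) (nat_lit 250) (nat_lit 5) (nat_lit 475) (nat_lit 423) (nat_lit 242)))) (XT.nd (nat_lit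 78) (nat_lit 684) (nat_lit 0) (XT.lf (nat_lit 0) (nat_lit 6253173243) (nat_lit 608) (nat_lit 7378566328) (nat_lit 684) (nat_lit 3604257787) (nat_lit 241) (nat_lit 5) (nat_lit 249) (nat_lit 5) (nat_lit 250) (nat_lit 5) (nat_lit 476) (nat_lit 423) (nat_lit 241)) (XT.nd (nat_lit 78) (nat_lit 684) (nat_lit 0) (XT.lf (nat_lit 0) (nat_lit 15758579567) (nat_lit 608) (nat_lit 733972898) (nat_lit 684) (nat_lit 945481834) (nat_lit 241) (nat_lit 5) (nat_lit 249) (nat_lit 5) (nat_lit 250) (nat_lit 5) (nat_lit 477) (nat_lit 423) (nat_lit 240)) (XT.lf (nat_lit 0) (nat_lit 1826651749) (nat_lit 684) (nat_lit 9789657499) (nat_lit 76) (nat_lit 6025908899) (nat_lit 232) (nat_lit 5) (nat_lit 241) (nat_lit 5) (nat_lit 233) (nat_lit 5) (nat_lit 478) (nat_lit 423) (nat_lit 239)))))) (XT.nd (nat_lit 390) (nat_lit 1596) (nat_lit 0) (XT.nd (nat_lit 156) (nat_lit 1140) (nat_lit 0) (XT.nd (nat_lit 78) (nat_lit 608) (nat_lit 0) (XT.lf (nat_lit 0)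 (nat_lit 4650323926) (nat_lit 684) (nat_lit 272590898) (nat_lit 76) (nat_lit 12927273228) (nat_lit 232) (nat_lit 5) (nat_lit 241) (nat_lit 5) (nat_lit 233) (nat_lit 5) (nat_lit 479) (nat_lit 423) (nat_lit 238)) (XT.lf (nat_lit 0) (nat_lit 7597931332) (nat_lit 684) (nat_lit 8522845094) (nat_lit 76) (nat_lit 1940194137) (nat_lit 224) (nat_lit 5) (nat_lit 233) (nat_lit 5) (nat_lit 225) (nat_lit 5) (nat_lit 480) (nat_lit 423) (nat_lit 237))) (XT.nd (nat_lit 78) (nat_lit 608) (nat_lit 0) (XT.lf (nat_lit 0) (nat_lit 1247552434) (nat_lit 532) (nat_lit 9392241881) (nat_lit 608) (nat_lit 7635470735) (nat_lit 217) (nat_lit 5) (nat_lit 224) (nat_lit 5) (nat_lit 225) (nat_lit 5) (nat_lit 481) (nat_lit 423) (nat_lit 236)) (XT.nd (nat_lit 78) (nat_lit 608) (nat_lit 0) (XT.lf (nat_lit 0) (nat_lit 11319932319) (nat_lit 532) (nat_lit 2472598899) (nat_lit 608) (nat_lit 4700315825) (nat_lit 217) (nat_lit 5) (nat_lit 224) (nat_lit 5) (nat_lit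 225) (nat_lit 5) (nat_lit 482) (nat_lit 423) (nat_lit 235)) (XT.lf (nat_lit 0) (nat_lit 2878042895) (nat_lit 608) (nat_lit 14171710573) (nat_lit 684) (nat_lit 1664200897) (nat_lit 209) (nat_lit 5) (nat_lit 217) (nat_lit 5) (nat_lit 218) (nat_lit 5) (nat_lit 483) (nat_lit 423) (nat_lit 234))))) (XT.nd (nat_lit 234) (nat_lit 988) (nat_lit 0) (XT.nd (nat_lit 78) (nat_lit 532) (nat_lit 0) (XT.lf (nat_lit 0) (nat_lit 1471679504) (nat_lit 684) (nat_lit 5746213096) (nat_lit 76) (nat_lit 11720250765) (nat_lit 208) (nat_lit 5) (nat_lit 217) (nat_lit 5) (nat_lit 209) (nat_lit 5) (nat_lit 484) (nat_lit 423) (nat_lit 233)) (XT.nd (nat_lit 78) (nat_lit 0) (nat_lit 0) (XT.lf (nat_lit 0) (nat_lit 4585627677) (nat_lit 532) (nat_lit 85301944) (nat_lit 608) (nat_lit 14495209972) (nat_lit 201) (nat_lit 5) (nat_lit 208) (nat_lit 5) (nat_lit 209) (nat_lit 5) (nat_lit 485) (nat_lit 423) (nat_lit 232)) (XT.lf (nat_lit 0) (nat_lit 8012869412)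 (nat_lit 608) (nat_lit 4251704239) (nat_lit 76) (nat_lit 7132550127) (nat_lit 201) (nat_lit 5) (nat_lit 209) (nat_lit 5) (nat_lit 202) (nat_lit 5) (nat_lit 486) (nat_lit 423) (nat_lit 231)))) (XT.nd (nat_lit 78) (nat_lit 456) (nat_lit 0) (XT.lf (nat_lit 0) (nat_lit 6357832950) (nat_lit 532) (nat_lit 5098999747) (nat_lit 608) (nat_lit 8175193340) (nat_lit 194) (nat_lit 5) (nat_lit 201) (nat_lit 5) (nat_lit 202) (nat_lit 5) (nat_lit 487) (nat_lit 423) (nat_lit 230)) (XT.nd (nat_lit 78) (nat_lit 456) (nat_lit 0) (XT.lf (nat_lit 0) (nat_lit 15006145475) (nat_lit 608) (nat_lit 2657128294) (nat_lit 76) (nat_lit 2207625214) (nat_lit 194) (nat_lit 5) (nat_lit 202) (nat_lit 5) (nat_lit 195) (nat_lit 5) (nat_lit 488) (nat_lit 423) (nat_lit 229)) (XT.lf (nat_lit 0) (nat_lit 8237994089) (nat_lit 456) (nat_lit 10469236583) (nat_lit 532) (nat_lit 1405704997) (nat_lit 188) (nat_lit 5) (nat_lit 194) (nat_lit 5) (nat_lit 195) (nat_lit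 5) (nat_lit 489) (nat_lit 423) (nat_lit 228))))))))
noncomputable def xc199 : XT := (XT.nd (nat_lit 54912) (nat_lit 0) (nat_lit 16112) (XT.nd (nat_lit 780) (nat_lit 456) (nat_lit 0) (XT.nd (nat_lit 390) (nat_lit 988) (nat_lit 0) (XT.nd (nat_lit 156) (nat_lit 912) (nat_lit 0) (XT.nd (nat_lit 78) (nat_lit 532) (nat_lit 0) (XT.lf (nat_lit 0) (nat_lit 2106194770) (nat_lit 532) (nat_lit 994907895) (nat_lit 76) (nat_lit 17258206582) (nat_lit 187) (nat_lit 5) (nat_lit 194) (nat_lit 5) (nat_lit 188) (nat_lit 5) (nat_lit 490) (nat_lit 423) (nat_lit 227)) (XT.lf (nat_lit 0) (nat_lit 5758710004) (nat_lit 608) (nat_lit 10419353492) (nat_lit 76) (nat_lit 4430578858) (nat_lit 180) (nat_lit 5) (nat_lit 188) (nat_lit 5) (nat_lit 181) (nat_lit 5) (nat_lit 491) (nat_lit 423) (nat_lit 226))) (XT.nd (nat_lit 78) (nat_lit 456) (nat_lit 0) (XT.lf (nat_lit 0) (nat_lit 728319252) (nat_lit 456) (nat_lit 8781683497) (nat_lit 532) (nat_lit 11352446679)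 (nat_lit 174) (nat_lit 5) (nat_lit 180) (nat_lit 5) (nat_lit 181) (nat_lit 5) (nat_lit 492) (nat_lit 423) (nat_lit 225)) (XT.nd (nat_lit 78) (nat_lit 456) (nat_lit 0) (XT.lf (nat_lit 0) (nat_lit 12231759647) (nat_lit 456) (nat_lit 1168289894) (nat_lit 532) (nat_lit 7720010356) (nat_lit 174) (nat_lit 5) (nat_lit 180) (nat_lit 5) (nat_lit 181) (nat_lit 5) (nat_lit 493) (nat_lit 423) (nat_lit 224)) (XT.lf (nat_lit 0) (nat_lit 2564883976) (nat_lit 456) (nat_lit 14856416768) (nat_lit 532) (nat_lit 3960455542) (nat_lit 168) (nat_lit 5) (nat_lit 174) (nat_lit 5) (nat_lit 175) (nat_lit 5) (nat_lit 494) (nat_lit 423) (nat_lit 223))))) (XT.nd (nat_lit 156) (nat_lit 456) (nat_lit 0) (XT.nd (nat_lit 78) (nat_lit 532) (nat_lit 0) (XT.lf (nat_lit 0) (nat_lit 14351463644) (nat_lit 456) (nat_lit 7232825981) (nat_lit 532) (nat_lit 63172470) (nat_lit 168) (nat_lit 5) (nat_lit 174) (nat_lit 5) (nat_lit 175) (nat_lit 5) (nat_lit 495) (nat_lit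 423) (nat_lit 222)) (XT.lf (nat_lit 0) (nat_lit 3887770502) (nat_lit 532) (nat_lit 17440960299) (nat_lit 76) (nat_lit 588704471) (nat_lit 161) (nat_lit 5) (nat_lit 168) (nat_lit 5) (nat_lit 162) (nat_lit 5) (nat_lit 496) (nat_lit 423) (nat_lit 221))) (XT.nd (nat_lit 78) (nat_lit 456) (nat_lit 0) (XT.lf (nat_lit 0) (nat_lit 8008178098) (nat_lit 532) (nat_lit 5665453239) (nat_lit 76) (nat_lit 8517344036) (nat_lit 161) (nat_lit 5) (nat_lit 168) (nat_lit 5) (nat_lit 162) (nat_lit 5) (nat_lit 497) (nat_lit 423) (nat_lit 220)) (XT.nd (nat_lit 78) (nat_lit 0) (nat_lit 0) (XT.lf (nat_lit 0) (nat_lit 6421668172) (nat_lit 456) (nat_lit 5825242064) (nat_lit 532) (nat_lit 10222359324) (nat_lit 155) (nat_lit 5) (nat_lit 161) (nat_lit 5) (nat_lit 162) (nat_lit 5) (nat_lit 498) (nat_lit 423) (nat_lit 219)) (XT.lf (nat_lit 0) (nat_lit 16617110066) (nat_lit 532) (nat_lit 3947611462) (nat_lit 76) (nat_lit 2187475821) (nat_lit 155) (nat_lit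 5) (nat_lit 162) (nat_lit 5) (nat_lit 156) (nat_lit 5) (nat_lit 499) (nat_lit 423) (nat_lit 218)))))) (XT.nd (nat_lit 53664) (nat_lit 0) (nat_lit 22572) (XT.nd (nat_lit 53430) (nat_lit 0) (nat_lit 22496) (XT.nd (nat_lit 78) (nat_lit 76) (nat_lit 0) (XT.lf (nat_lit 0) (nat_lit 8458734015) (nat_lit 380) (nat_lit 12703858083) (nat_lit 456) (nat_lit 1876435582) (nat_lit 150) (nat_lit 5) (nat_lit 155) (nat_lit 5) (nat_lit 156) (nat_lit 5) (nat_lit 500) (nat_lit 423) (nat_lit 217)) (XT.lf (nat_lit 0) (nat_lit 2456095848) (nat_lit 456) (nat_lit 2188570393) (nat_lit 76) (nat_lit 18686188130) (nat_lit 149) (nat_lit 5) (nat_lit 155) (nat_lit 5) (nat_lit 150) (nat_lit 5) (nat_lit 501) (nat_lit 423) (nat_lit 216))) (XT.nd (nat_lit 78) (nat_lit 0) (nat_lit 0) (XT.lf (nat_lit 0) (nat_lit 385468297) (nat_lit 0) (nat_lit 385468297) (nat_lit 1596) (nat_lit 4330761750) (nat_lit 445) (nat_lit 5) (nat_lit 445) (nat_lit 3) (nat_lit 466)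 (nat_lit 3) (nat_lit 424) (nat_lit 424) (nat_lit 292)) (XT.nd (nat_lit 78) (nat_lit 0) (nat_lit 0) (XT.lf (nat_lit 0) (nat_lit 2243631231) (nat_lit 1596) (nat_lit 4609120179) (nat_lit 1672) (nat_lit 3438652834) (nat_lit 445) (nat_lit 5) (nat_lit 466) (nat_lit 3) (nat_lit 467) (nat_lit 5) (nat_lit 425) (nat_lit 424) (nat_lit 291)) (XT.lf (nat_lit 76) (nat_lit 300403512) (nat_lit 0) (nat_lit 2648723874) (nat_lit 1672) (nat_lit 7432258366) (nat_lit 446) (nat_lit 5) (nat_lit 445) (nat_lit 5) (nat_lit 467) (nat_lit 5) (nat_lit 426) (nat_lit 424) (nat_lit 290))))) (XT.nd (nat_lit 234) (nat_lit 0) (nat_lit 76) (XT.nd (nat_lit 78) (nat_lit 0) (nat_lit 0) (XT.lf (nat_lit 0) (nat_lit 3693492363) (nat_lit 1596) (nat_lit 5122260102) (nat_lit 1672) (nat_lit 1656926951) (nat_lit 446) (nat_lit 5) (nat_lit 467) (nat_lit 5) (nat_lit 468) (nat_lit 5) (nat_lit 427) (nat_lit 424) (nat_lit 289)) (XT.nd (nat_lit 78) (nat_lit 0) (nat_lit 0)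 (XT.lf (nat_lit 0) (nat_lit 4453600047) (nat_lit 1596) (nat_lit 91177793) (nat_lit 1672) (nat_lit 6021011559) (nat_lit 446) (nat_lit 5) (nat_lit 467) (nat_lit 5) (nat_lit 468) (nat_lit 5) (nat_lit 428) (nat_lit 424) (nat_lit 288)) (XT.lf (nat_lit 76) (nat_lit 5098300051) (nat_lit 0) (nat_lit 147352743) (nat_lit 1672) (nat_lit 5414781337) (nat_lit 447) (nat_lit 5) (nat_lit 446) (nat_lit 5) (nat_lit 468) (nat_lit 5) (nat_lit 429) (nat_lit 424) (nat_lit 287)))) (XT.nd (nat_lit 78) (nat_lit 0) (nat_lit 0) (XT.lf (nat_lit 0) (nat_lit 6066277162) (nat_lit 1596) (nat_lit 401731971) (nat_lit 1672) (nat_lit 4288715272) (nat_lit 447) (nat_lit 5) (nat_lit 468) (nat_lit 5) (nat_lit 469) (nat_lit 5) (nat_lit 430) (nat_lit 424) (nat_lit 286)) (XT.nd (nat_lit 78) (nat_lit 0) (nat_lit 76) (XT.lf (nat_lit 76) (nat_lit 4916156569) (nat_lit 0) (nat_lit 2004316316) (nat_lit 1672) (nat_lit 3934131542) (nat_lit 448) (nat_lit 5) (nat_lit 447)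 (nat_lit 5) (nat_lit 469) (nat_lit 5) (nat_lit 431) (nat_lit 424) (nat_lit 285)) (XT.lf (nat_lit 0) (nat_lit 7795567946) (nat_lit 1596) (nat_lit 634624208) (nat_lit 1672) (nat_lit 2524180566) (nat_lit 448) (nat_lit 5) (nat_lit 469) (nat_lit 5) (nat_lit 470) (nat_lit 5) (nat_lit 432) (nat_lit 424) (nat_lit 284))))))) (XT.nd (nat_lit 858) (nat_lit 5016) (nat_lit 0) (XT.nd (nat_lit 390) (nat_lit 0) (nat_lit 76) (XT.nd (nat_lit 156) (nat_lit 1596) (nat_lit 0) (XT.nd (nat_lit 78) (nat_lit 0) (nat_lit 76) (XT.lf (nat_lit 76) (nat_lit 4815830271) (nat_lit 0) (nat_lit 3901732884) (nat_lit 1672) (nat_lit 2337992099) (nat_lit 449) (nat_lit 5) (nat_lit 448) (nat_lit 5) (nat_lit 470) (nat_lit 5) (nat_lit 433) (nat_lit 424) (nat_lit 283)) (XT.lf (nat_lit 0) (nat_lit 9652072675) (nat_lit 1596) (nat_lit 789077817) (nat_lit 1672) (nat_lit 717736169) (nat_lit 449) (nat_lit 5) (nat_lit 470) (nat_lit 5) (nat_lit 471) (nat_lit 5) (nat_lit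 434) (nat_lit 424) (nat_lit 282))) (XT.nd (nat_lit 78) (nat_lit 1672) (nat_lit 0) (XT.lf (nat_lit 76) (nat_lit 4798248853) (nat_lit 0) (nat_lit 5849438176) (nat_lit 1672) (nat_lit 615755949) (nat_lit 450) (nat_lit 5) (nat_lit 449) (nat_lit 5) (nat_lit 471) (nat_lit 5) (nat_lit 435) (nat_lit 424) (nat_lit 281)) (XT.nd (nat_lit 78) (nat_lit 0) (nat_lit 76) (XT.lf (nat_lit 0) (nat_lit 280154663) (nat_lit 1672) (nat_lit 873464979) (nat_lit 1748) (nat_lit 10216621521) (nat_lit 427) (nat_lit 5) (nat_lit 449) (nat_lit 5) (nat_lit 450) (nat_lit 5) (nat_lit 436) (nat_lit 424) (nat_lit 280)) (XT.lf (nat_lit 0) (nat_lit 1227139788) (nat_lit 1672) (nat_lit 6621967079) (nat_lit 1748) (nat_lit 3629165214) (nat_lit 428) (nat_lit 5) (nat_lit 450) (nat_lit 5) (nat_lit 451) (nat_lit 5) (nat_lit 437) (nat_lit 424) (nat_lit 279))))) (XT.nd (nat_lit 234) (nat_lit 0) (nat_lit 76) (XT.nd (nat_lit 78) (nat_lit 0) (nat_lit 76) (XT.lf (nat_lit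 0) (nat_lit 2192681260) (nat_lit 1672) (nat_lit 893141260) (nat_lit 1748) (nat_lit 8502654840) (nat_lit 428) (nat_lit 5) (nat_lit 450) (nat_lit 5) (nat_lit 451) (nat_lit 5) (nat_lit 438) (nat_lit 424) (nat_lit 278)) (XT.nd (nat_lit 78) (nat_lit 0) (nat_lit 0) (XT.lf (nat_lit 0) (nat_lit 3208140880) (nat_lit 1672) (nat_lit 6705783794) (nat_lit 1748) (nat_lit 1786355881) (nat_lit 429) (nat_lit 5) (nat_lit 451) (nat_lit 5) (nat_lit 452) (nat_lit 5) (nat_lit 439) (nat_lit 424) (nat_lit 277)) (XT.lf (nat_lit 0) (nat_lit 4256961497) (nat_lit 1672) (nat_lit 832358135) (nat_lit 1748) (nat_lit 6724744986) (nat_lit 429) (nat_lit 5) (nat_lit 451) (nat_lit 5) (nat_lit 452) (nat_lit 5) (nat_lit 440) (nat_lit 424) (nat_lit 276)))) (XT.nd (nat_lit 78) (nat_lit 0) (nat_lit 76) (XT.lf (nat_lit 76) (nat_lit 5217477032) (nat_lit 0) (nat_lit 130002653) (nat_lit 1748) (nat_lit 6582235977) (nat_lit 430) (nat_lit 5) (nat_lit 429) (nat_lit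 5) (nat_lit 452) (nat_lit 5) (nat_lit 441) (nat_lit 424) (nat_lit 275)) (XT.nd (nat_lit 78) (nat_lit 0) (nat_lit 0) (XT.lf (nat_lit 0) (nat_lit 6484495393) (nat_lit 1672) (nat_lit 689724802) (nat_lit 1748) (nat_lit 4872971403) (nat_lit 430) (nat_lit 5) (nat_lit 452) (nat_lit 5) (nat_lit 453) (nat_lit 5) (nat_lit 442) (nat_lit 424) (nat_lit 274)) (XT.lf (nat_lit 76) (nat_lit 5515189057) (nat_lit 0) (nat_lit 2153050691) (nat_lit 1748) (nat_lit 4498303040) (nat_lit 431) (nat_lit 5) (nat_lit 430) (nat_lit 5) (nat_lit 453) (nat_lit 5) (nat_lit 443) (nat_lit 424) (nat_lit 273)))))) (XT.nd (nat_lit 390) (nat_lit 3648) (nat_lit 0) (XT.nd (nat_lit 156) (nat_lit 1672) (nat_lit 0) (XT.nd (nat_lit 78) (nat_lit 0) (nat_lit 0) (XT.lf (nat_lit 0) (nat_lit 8887117859) (nat_lit 1672) (nat_lit 463676556) (nat_lit 1748) (nat_lit 2937262805) (nat_lit 431) (nat_lit 5) (nat_lit 453) (nat_lit 5) (nat_lit 454) (nat_lit 5) (nat_lit 444) (nat_lit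 424) (nat_lit 272)) (XT.lf (nat_lit 76) (nat_lit 5901349356) (nat_lit 0) (nat_lit 4269368905) (nat_lit 1748) (nat_lit 2240482075) (nat_lit 432) (nat_lit 5) (nat_lit 431) (nat_lit 5) (nat_lit 454) (nat_lit 5) (nat_lit 445) (nat_lit 424) (nat_lit 271))) (XT.nd (nat_lit 78) (nat_lit 1748) (nat_lit 0) (XT.lf (nat_lit 0) (nat_lit 11477020608) (nat_lit 1672) (nat_lit 152479456) (nat_lit 1748) (nat_lit 907370836) (nat_lit 432) (nat_lit 5) (nat_lit 454) (nat_lit 5) (nat_lit 455) (nat_lit 5) (nat_lit 446) (nat_lit 424) (nat_lit 270)) (XT.nd (nat_lit 78) (nat_lit 0) (nat_lit 0) (XT.lf (nat_lit 0) (nat_lit 200763494) (nat_lit 1748) (nat_lit 6287363278) (nat_lit 1824) (nat_lit 6175749074) (nat_lit 409) (nat_lit 5) (nat_lit 432) (nat_lit 5) (nat_lit 433) (nat_lit 5) (nat_lit 447) (nat_lit 424) (nat_lit 269)) (XT.lf (nat_lit 76) (nat_lit 231106070) (nat_lit 0) (nat_lit 1232125180) (nat_lit 1824) (nat_lit 11330237754) (nat_lit 410)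 (nat_lit 5) (nat_lit 409) (nat_lit 5) (nat_lit 433) (nat_lit 5) (nat_lit 448) (nat_lit 424) (nat_lit 268))))) (XT.nd (nat_lit 234) (nat_lit 1976) (nat_lit 0) (XT.nd (nat_lit 78) (nat_lit 1748) (nat_lit 0) (XT.lf (nat_lit 0) (nat_lit 2808696893) (nat_lit 1748) (nat_lit 5996561176) (nat_lit 76) (nat_lit 4119245776) (nat_lit 410) (nat_lit 5) (nat_lit 433) (nat_lit 5) (nat_lit 411) (nat_lit 5) (nat_lit 449) (nat_lit 424) (nat_lit 267)) (XT.nd (nat_lit 78) (nat_lit 0) (nat_lit 0) (XT.lf (nat_lit 0) (nat_lit 691828088) (nat_lit 1748) (nat_lit 3490590842) (nat_lit 1824) (nat_lit 8875718208) (nat_lit 387) (nat_lit 5) (nat_lit 410) (nat_lit 5) (nat_lit 411) (nat_lit 5) (nat_lit 450) (nat_lit 424) (nat_lit 266)) (XT.lf (nat_lit 0) (nat_lit 5625520361) (nat_lit 1824) (nat_lit 5620984370) (nat_lit 76) (nat_lit 1947104869) (nat_lit 387) (nat_lit 5) (nat_lit 411) (nat_lit 5) (nat_lit 388) (nat_lit 5) (nat_lit 451) (nat_lit 424) (nat_lit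 265)))) (XT.nd (nat_lit 78) (nat_lit 912) (nat_lit 0) (XT.lf (nat_lit 0) (nat_lit 1242805962) (nat_lit 1064) (nat_lit 5874946946) (nat_lit 1140) (nat_lit 6213637738) (nat_lit 373) (nat_lit 5) (nat_lit 387) (nat_lit 5) (nat_lit 388) (nat_lit 5) (nat_lit 452) (nat_lit 424) (nat_lit 264)) (XT.nd (nat_lit 78) (nat_lit 912) (nat_lit 0) (XT.lf (nat_lit 0) (nat_lit 8310505372) (nat_lit 1064) (nat_lit 356279944) (nat_lit 1140) (nat_lit 4804607318) (nat_lit 373) (nat_lit 5) (nat_lit 387) (nat_lit 5) (nat_lit 388) (nat_lit 5) (nat_lit 453) (nat_lit 424) (nat_lit 263)) (XT.lf (nat_lit 0) (nat_lit 1886272390) (nat_lit 912) (nat_lit 8396461351) (nat_lit 988) (nat_lit 3330746552) (nat_lit 361) (nat_lit 5) (nat_lit 373) (nat_lit 5) (nat_lit 374) (nat_lit 5) (nat_lit 454) (nat_lit 424) (nat_lit 262))))))))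
noncomputable def xc200 : XT := (XT.nd (nat_lit 1638) (nat_lit 6232) (nat_lit 0) (XT.nd (nat_lit 780) (nat_lit 4332) (nat_lit 0) (XT.nd (nat_lit 390) (nat_lit 2432) (nat_lit 0) (XT.nd (nat_lit 156) (nat_lit 912) (nat_lit 0) (XT.nd (nat_lit 78) (nat_lit 836) (nat_lit 0) (XT.lf (nat_lit 0) (nat_lit 9132408469) (nat_lit 912) (nat_lit 2825167947) (nat_lit 988) (nat_lit 1800306038) (nat_lit 361) (nat_lit 5) (nat_lit 373) (nat_lit 5) (nat_lit 374) (nat_lit 5) (nat_lit 455) (nat_lit 424) (nat_lit 261)) (XT.lf (nat_lit 0) (nat_lit 2624603805) (nat_lit 836) (nat_lit 11066714455) (nat_lit 912) (nat_lit 213350521) (nat_lit 350) (nat_lit 5) (nat_lit 361) (nat_lit 5) (nat_lit 362) (nat_lit 5) (nat_lit 456) (nat_lit 424) (nat_lit 260))) (XT.nd (nat_lit 78) (nat_lit 836) (nat_lit 0) (XT.lf (nat_lit 0) (nat_lit 1426743497) (nat_lit 912) (nat_lit 4009062579) (nat_lit 76) (nat_lit 8617609665) (nat_lit 349) (nat_lit 5) (nat_lit 361) (nat_lit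 5) (nat_lit 350) (nat_lit 5) (nat_lit 457) (nat_lit 424) (nat_lit 259)) (XT.nd (nat_lit 78) (nat_lit 0) (nat_lit 0) (XT.lf (nat_lit 0) (nat_lit 3111363671) (nat_lit 912) (nat_lit 10765385197) (nat_lit 76) (nat_lit 328072876) (nat_lit 338) (nat_lit 5) (nat_lit 350) (nat_lit 5) (nat_lit 339) (nat_lit 5) (nat_lit 458) (nat_lit 424) (nat_lit 258)) (XT.lf (nat_lit 0) (nat_lit 4882966975) (nat_lit 912) (nat_lit 3313231880) (nat_lit 76) (nat_lit 6161995050) (nat_lit 338) (nat_lit 5) (nat_lit 350) (nat_lit 5) (nat_lit 339) (nat_lit 5) (nat_lit 459) (nat_lit 424) (nat_lit 257))))) (XT.nd (nat_lit 156) (nat_lit 1596) (nat_lit 0) (XT.nd (nat_lit 78) (nat_lit 0) (nat_lit 0) (XT.lf (nat_lit 0) (nat_lit 4335425619) (nat_lit 836) (nat_lit 2373128054) (nat_lit 912) (nat_lit 7805712588) (nat_lit 327) (nat_lit 5) (nat_lit 338) (nat_lit 5) (nat_lit 339) (nat_lit 5) (nat_lit 460) (nat_lit 424) (nat_lit 256)) (XT.lf (nat_lit 0) (nat_lit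 8606719626) (nat_lit 912) (nat_lit 2523880989) (nat_lit 76) (nat_lit 3542141800) (nat_lit 327) (nat_lit 5) (nat_lit 339) (nat_lit 5) (nat_lit 328) (nat_lit 5) (nat_lit 461) (nat_lit 424) (nat_lit 255))) (XT.nd (nat_lit 78) (nat_lit 760) (nat_lit 0) (XT.lf (nat_lit 0) (nat_lit 5329008672) (nat_lit 836) (nat_lit 5254872713) (nat_lit 912) (nat_lit 4249689690) (nat_lit 316) (nat_lit 5) (nat_lit 327) (nat_lit 5) (nat_lit 328) (nat_lit 5) (nat_lit 462) (nat_lit 424) (nat_lit 254)) (XT.nd (nat_lit 78) (nat_lit 760) (nat_lit 0) (XT.lf (nat_lit 0) (nat_lit 12613267011) (nat_lit 912) (nat_lit 1638484263) (nat_lit 76) (nat_lit 745614979) (nat_lit 316) (nat_lit 5) (nat_lit 328) (nat_lit 5) (nat_lit 317) (nat_lit 5) (nat_lit 463) (nat_lit 424) (nat_lit 253)) (XT.lf (nat_lit 0) (nat_lit 6425098400) (nat_lit 760) (nat_lit 8325675994) (nat_lit 836) (nat_lit 412315750) (nat_lit 306) (nat_lit 5) (nat_lit 316) (nat_lit 5) (nat_lit 317)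 (nat_lit 5) (nat_lit 464) (nat_lit 424) (nat_lit 252)))))) (XT.nd (nat_lit 390) (nat_lit 2052) (nat_lit 0) (XT.nd (nat_lit 156) (nat_lit 1444) (nat_lit 0) (XT.nd (nat_lit 78) (nat_lit 760) (nat_lit 0) (XT.lf (nat_lit 0) (nat_lit 1580073134) (nat_lit 836) (nat_lit 679543579) (nat_lit 76) (nat_lit 13072264739) (nat_lit 305) (nat_lit 5) (nat_lit 316) (nat_lit 5) (nat_lit 306) (nat_lit 5) (nat_lit 465) (nat_lit 424) (nat_lit 251)) (XT.lf (nat_lit 0) (nat_lit 3673413434) (nat_lit 836) (nat_lit 7900798899) (nat_lit 76) (nat_lit 3928452543) (nat_lit 295) (nat_lit 5) (nat_lit 306) (nat_lit 5) (nat_lit 296) (nat_lit 5) (nat_lit 466) (nat_lit 424) (nat_lit 250))) (XT.nd (nat_lit 78) (nat_lit 760) (nat_lit 0) (XT.lf (nat_lit 0) (nat_lit 361819747) (nat_lit 684) (nat_lit 5460060957) (nat_lit 760) (nat_lit 9854721284) (nat_lit 286) (nat_lit 5) (nat_lit 295) (nat_lit 5) (nat_lit 296) (nat_lit 5) (nat_lit 467) (nat_lit 424) (nat_lit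 249)) (XT.nd (nat_lit 78) (nat_lit 760) (nat_lit 0) (XT.lf (nat_lit 0) (nat_lit 8063189301) (nat_lit 760) (nat_lit 6970942958) (nat_lit 76) (nat_lit 818891304) (nat_lit 286) (nat_lit 5) (nat_lit 296) (nat_lit 5) (nat_lit 287) (nat_lit 5) (nat_lit 468) (nat_lit 424) (nat_lit 248)) (XT.lf (nat_lit 0) (nat_lit 1514275911) (nat_lit 760) (nat_lit 8872668218) (nat_lit 836) (nat_lit 5645280138) (nat_lit 276) (nat_lit 5) (nat_lit 286) (nat_lit 5) (nat_lit 287) (nat_lit 5) (nat_lit 469) (nat_lit 424) (nat_lit 247))))) (XT.nd (nat_lit 234) (nat_lit 1292) (nat_lit 0) (XT.nd (nat_lit 78) (nat_lit 760) (nat_lit 0) (XT.lf (nat_lit 0) (nat_lit 10254554780) (nat_lit 760) (nat_lit 2541131815) (nat_lit 836) (nat_lit 3418555178) (nat_lit 276) (nat_lit 5) (nat_lit 286) (nat_lit 5) (nat_lit 287) (nat_lit 5) (nat_lit 470) (nat_lit 424) (nat_lit 246)) (XT.nd (nat_lit 78) (nat_lit 76) (nat_lit 0) (XT.lf (nat_lit 0) (nat_lit 2771539144) (nat_lit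 684) (nat_lit 12516381807) (nat_lit 760) (nat_lit 1111275314) (nat_lit 267) (nat_lit 5) (nat_lit 276) (nat_lit 5) (nat_lit 277) (nat_lit 5) (nat_lit 471) (nat_lit 424) (nat_lit 245)) (XT.lf (nat_lit 0) (nat_lit 1274879958) (nat_lit 760) (nat_lit 4863201224) (nat_lit 76) (nat_lit 10448629815) (nat_lit 266) (nat_lit 5) (nat_lit 276) (nat_lit 5) (nat_lit 267) (nat_lit 5) (nat_lit 472) (nat_lit 424) (nat_lit 244)))) (XT.nd (nat_lit 78) (nat_lit 608) (nat_lit 0) (XT.lf (nat_lit 0) (nat_lit 3715303419) (nat_lit 760) (nat_lit 12665907850) (nat_lit 76) (nat_lit 396192150) (nat_lit 257) (nat_lit 5) (nat_lit 267) (nat_lit 5) (nat_lit 258) (nat_lit 5) (nat_lit 473) (nat_lit 424) (nat_lit 243)) (XT.nd (nat_lit 78) (nat_lit 608) (nat_lit 0) (XT.lf (nat_lit 0) (nat_lit 6270218267) (nat_lit 760) (nat_lit 3689594947) (nat_lit 76) (nat_lit 7010785567) (nat_lit 257) (nat_lit 5) (nat_lit 267) (nat_lit 5) (nat_lit 258) (nat_lit 5) (nat_lit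 474) (nat_lit 424) (nat_lit 242)) (XT.lf (nat_lit 0) (nat_lit 5529866906) (nat_lit 608) (nat_lit 3374603963) (nat_lit 684) (nat_lit 8262625092) (nat_lit 249) (nat_lit 5) (nat_lit 257) (nat_lit 5) (nat_lit 258) (nat_lit 5) (nat_lit 475) (nat_lit 424) (nat_lit 241))))))) (XT.nd (nat_lit 780) (nat_lit 3116) (nat_lit 0) (XT.nd (nat_lit 390) (nat_lit 1216) (nat_lit 0) (XT.nd (nat_lit 156) (nat_lit 1292) (nat_lit 0) (XT.nd (nat_lit 78) (nat_lit 608) (nat_lit 0) (XT.lf (nat_lit 0) (nat_lit 11630452590) (nat_lit 684) (nat_lit 2414150673) (nat_lit 76) (nat_lit 3322141582) (nat_lit 249) (nat_lit 5) (nat_lit 258) (nat_lit 5) (nat_lit 250) (nat_lit 5) (nat_lit 476) (nat_lit 424) (nat_lit 240)) (XT.lf (nat_lit 0) (nat_lit 7054751768) (nat_lit 608) (nat_lit 7416923779) (nat_lit 684) (nat_lit 3097499322) (nat_lit 241) (nat_lit 5) (nat_lit 249) (nat_lit 5) (nat_lit 250) (nat_lit 5) (nat_lit 477) (nat_lit 424) (nat_lit 239))) (XT.nd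 (nat_lit 78) (nat_lit 1292) (nat_lit 0) (XT.lf (nat_lit 0) (nat_lit 16737001218) (nat_lit 608) (nat_lit 641579929) (nat_lit 684) (nat_lit 396897725) (nat_lit 241) (nat_lit 5) (nat_lit 249) (nat_lit 5) (nat_lit 250) (nat_lit 5) (nat_lit 478) (nat_lit 424) (nat_lit 238)) (XT.nd (nat_lit 78) (nat_lit 608) (nat_lit 0) (XT.lf (nat_lit 0) (nat_lit 2417315641) (nat_lit 684) (nat_lit 9308463832) (nat_lit 76) (nat_lit 6258015336) (nat_lit 232) (nat_lit 5) (nat_lit 241) (nat_lit 5) (nat_lit 233) (nat_lit 5) (nat_lit 479) (nat_lit 424) (nat_lit 237)) (XT.lf (nat_lit 0) (nat_lit 390795198) (nat_lit 608) (nat_lit 4898338053) (nat_lit 684) (nat_lit 12906961049) (nat_lit 224) (nat_lit 5) (nat_lit 232) (nat_lit 5) (nat_lit 233) (nat_lit 5) (nat_lit 480) (nat_lit 424) (nat_lit 236))))) (XT.nd (nat_lit 156) (nat_lit 684) (nat_lit 0) (XT.nd (nat_lit 78) (nat_lit 532) (nat_lit 0) (XT.lf (nat_lit 0) (nat_lit 8287579189) (nat_lit 684) (nat_lit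 8023835217) (nat_lit 76) (nat_lit 2099843886) (nat_lit 224) (nat_lit 5) (nat_lit 233) (nat_lit 5) (nat_lit 225) (nat_lit 5) (nat_lit 481) (nat_lit 424) (nat_lit 235)) (XT.lf (nat_lit 0) (nat_lit 1937565875) (nat_lit 532) (nat_lit 9446488658) (nat_lit 608) (nat_lit 7245912123) (nat_lit 217) (nat_lit 5) (nat_lit 224) (nat_lit 5) (nat_lit 225) (nat_lit 5) (nat_lit 482) (nat_lit 424) (nat_lit 234))) (XT.nd (nat_lit 78) (nat_lit 684) (nat_lit 0) (XT.lf (nat_lit 0) (nat_lit 12198352918) (nat_lit 532) (nat_lit 2391072386) (nat_lit 608) (nat_lit 4262686821) (nat_lit 217) (nat_lit 5) (nat_lit 224) (nat_lit 5) (nat_lit 225) (nat_lit 5) (nat_lit 483) (nat_lit 424) (nat_lit 233)) (XT.nd (nat_lit 78) (nat_lit 76) (nat_lit 0) (XT.lf (nat_lit 0) (nat_lit 3593013458) (nat_lit 608) (nat_lit 14313664067) (nat_lit 684) (nat_lit 1171069711) (nat_lit 209) (nat_lit 5) (nat_lit 217) (nat_lit 5) (nat_lit 218) (nat_lit 5) (nat_lit 484) (nat_lit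 424) (nat_lit 232)) (XT.lf (nat_lit 0) (nat_lit 2010437774) (nat_lit 684) (nat_lit 5209688256) (nat_lit 76) (nat_lit 12086432582) (nat_lit 208) (nat_lit 5) (nat_lit 217) (nat_lit 5) (nat_lit 209) (nat_lit 5) (nat_lit 485) (nat_lit 424) (nat_lit 231)))))) (XT.nd (nat_lit 390) (nat_lit 1596) (nat_lit 0) (XT.nd (nat_lit 156) (nat_lit 988) (nat_lit 0) (XT.nd (nat_lit 78) (nat_lit 0) (nat_lit 0) (XT.lf (nat_lit 0) (nat_lit 5268255534) (nat_lit 608) (nat_lit 14215097725) (nat_lit 76) (nat_lit 55873011) (nat_lit 201) (nat_lit 5) (nat_lit 209) (nat_lit 5) (nat_lit 202) (nat_lit 5) (nat_lit 486) (nat_lit 424) (nat_lit 230)) (XT.lf (nat_lit 0) (nat_lit 8667707421) (nat_lit 608) (nat_lit 3693150563) (nat_lit 76) (nat_lit 7414161786) (nat_lit 201) (nat_lit 5) (nat_lit 209) (nat_lit 5) (nat_lit 202) (nat_lit 5) (nat_lit 487) (nat_lit 424) (nat_lit 229))) (XT.nd (nat_lit 78) (nat_lit 456) (nat_lit 0) (XT.lf (nat_lit 0) (nat_lit 7124343240)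 (nat_lit 532) (nat_lit 5050660182) (nat_lit 608) (nat_lit 7839730622) (nat_lit 194) (nat_lit 5) (nat_lit 201) (nat_lit 5) (nat_lit 202) (nat_lit 5) (nat_lit 488) (nat_lit 424) (nat_lit 228)) (XT.nd (nat_lit 78) (nat_lit 456) (nat_lit 0) (XT.lf (nat_lit 0) (nat_lit 15786670389) (nat_lit 608) (nat_lit 2074672652) (nat_lit 76) (nat_lit 2397217025) (nat_lit 194) (nat_lit 5) (nat_lit 202) (nat_lit 5) (nat_lit 195) (nat_lit 5) (nat_lit 489) (nat_lit 424) (nat_lit 227)) (XT.lf (nat_lit 0) (nat_lit 9034170611) (nat_lit 456) (nat_lit 10522286607) (nat_lit 532) (nat_lit 949089588) (nat_lit 188) (nat_lit 5) (nat_lit 194) (nat_lit 5) (nat_lit 195) (nat_lit 5) (nat_lit 490) (nat_lit 424) (nat_lit 226))))) (XT.nd (nat_lit 234) (nat_lit 532) (nat_lit 0) (XT.nd (nat_lit 78) (nat_lit 988) (nat_lit 0) (XT.lf (nat_lit 0) (nat_lit 2617311013) (nat_lit 532) (nat_lit 389397199) (nat_lit 76) (nat_lit 17750267102) (nat_lit 187) (nat_lit 5)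 (nat_lit 194) (nat_lit 5) (nat_lit 188) (nat_lit 5) (nat_lit 491) (nat_lit 424) (nat_lit 225)) (XT.nd (nat_lit 78) (nat_lit 456) (nat_lit 0) (XT.lf (nat_lit 0) (nat_lit 6338736839) (nat_lit 608) (nat_lit 9998054475) (nat_lit 76) (nat_lit 4674589313) (nat_lit 180) (nat_lit 5) (nat_lit 188) (nat_lit 5) (nat_lit 181) (nat_lit 5) (nat_lit 492) (nat_lit 424) (nat_lit 224)) (XT.lf (nat_lit 0) (nat_lit 1368429052) (nat_lit 456) (nat_lit 8791573072) (nat_lit 532) (nat_lit 11110365483) (nat_lit 174) (nat_lit 5) (nat_lit 180) (nat_lit 5) (nat_lit 181) (nat_lit 5) (nat_lit 493) (nat_lit 424) (nat_lit 223)))) (XT.nd (nat_lit 78) (nat_lit 532) (nat_lit 0) (XT.lf (nat_lit 0) (nat_lit 13089672698) (nat_lit 456) (nat_lit 1029161482) (nat_lit 532) (nat_lit 7414479063) (nat_lit 174) (nat_lit 5) (nat_lit 180) (nat_lit 5) (nat_lit 181) (nat_lit 5) (nat_lit 494) (nat_lit 424) (nat_lit 222)) (XT.nd (nat_lit 78) (nat_lit 76) (nat_lit 0) (XT.lf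 (nat_lit 0) (nat_lit 3233464381) (nat_lit 456) (nat_lit 14983249273) (nat_lit 532) (nat_lit 3583608432) (nat_lit 168) (nat_lit 5) (nat_lit 174) (nat_lit 5) (nat_lit 175) (nat_lit 5) (nat_lit 495) (nat_lit 424) (nat_lit 221)) (XT.lf (nat_lit 0) (nat_lit 377659131) (nat_lit 532) (nat_lit 6830332381) (nat_lit 76) (nat_lit 14863478637) (nat_lit 167) (nat_lit 5) (nat_lit 174) (nat_lit 5) (nat_lit 168) (nat_lit 5) (nat_lit 496) (nat_lit 424) (nat_lit 220))))))))
noncomputable def xc201 : XT := (XT.nd (nat_lit 55068) (nat_lit 0) (nat_lit 12236) (XT.nd (nat_lit 54210) (nat_lit 0) (nat_lit 20672) (XT.nd (nat_lit 53820) (nat_lit 0) (nat_lit 22040) (XT.nd (nat_lit 156) (nat_lit 456) (nat_lit 0) (XT.nd (nat_lit 78) (nat_lit 0) (nat_lit 0) (XT.lf (nat_lit 0) (nat_lit 4403173607) (nat_lit 532) (nat_lit 17174887445) (nat_lit 76) (nat_lit 768847858) (nat_lit 161) (nat_lit 5) (nat_lit 168) (nat_lit 5) (nat_lit 162) (nat_lit 5) (nat_lit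 497) (nat_lit 424) (nat_lit 219)) (XT.lf (nat_lit 0) (nat_lit 8597408027) (nat_lit 532) (nat_lit 5175926951) (nat_lit 76) (nat_lit 8852758855) (nat_lit 161) (nat_lit 5) (nat_lit 168) (nat_lit 5) (nat_lit 162) (nat_lit 5) (nat_lit 498) (nat_lit 424) (nat_lit 218))) (XT.nd (nat_lit 78) (nat_lit 0) (nat_lit 0) (XT.lf (nat_lit 0) (nat_lit 7148970866) (nat_lit 456) (nat_lit 5767419133) (nat_lit 532) (nat_lit 9993656749) (nat_lit 155) (nat_lit 5) (nat_lit 161) (nat_lit 5) (nat_lit 162) (nat_lit 5) (nat_lit 499) (nat_lit 424) (nat_lit 217)) (XT.nd (nat_lit 53508) (nat_lit 0) (nat_lit 22040) (XT.lf (nat_lit 0) (nat_lit 17366779140) (nat_lit 532) (nat_lit 3432107140) (nat_lit 76) (nat_lit 2399893408) (nat_lit 155) (nat_lit 5) (nat_lit 162) (nat_lit 5) (nat_lit 156) (nat_lit 5) (nat_lit 500) (nat_lit 424) (nat_lit 216)) (XT.lf (nat_lit 0) (nat_lit 722881316) (nat_lit 0) (nat_lit 722881316) (nat_lit 1596) (nat_lit 3744483853) (nat_lit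 445) (nat_lit 5) (nat_lit 445) (nat_lit 3) (nat_lit 466) (nat_lit 3) (nat_lit 425) (nat_lit 425) (nat_lit 290))))) (XT.nd (nat_lit 156) (nat_lit 0) (nat_lit 76) (XT.nd (nat_lit 78) (nat_lit 0) (nat_lit 0) (XT.lf (nat_lit 0) (nat_lit 3577261997) (nat_lit 1596) (nat_lit 4024184673) (nat_lit 1672) (nat_lit 2869426811) (nat_lit 445) (nat_lit 5) (nat_lit 466) (nat_lit 3) (nat_lit 467) (nat_lit 5) (nat_lit 426) (nat_lit 425) (nat_lit 289)) (XT.lf (nat_lit 76) (nat_lit 979074768) (nat_lit 0) (nat_lit 3296890914) (nat_lit 1672) (nat_lit 6287118428) (nat_lit 446) (nat_lit 5) (nat_lit 445) (nat_lit 5) (nat_lit 467) (nat_lit 5) (nat_lit 427) (nat_lit 425) (nat_lit 288))) (XT.nd (nat_lit 78) (nat_lit 0) (nat_lit 0) (XT.lf (nat_lit 0) (nat_lit 5006569430) (nat_lit 1596) (nat_lit 4536022042) (nat_lit 1672) (nat_lit 1114196368) (nat_lit 446) (nat_lit 5) (nat_lit 467) (nat_lit 5) (nat_lit 468) (nat_lit 5) (nat_lit 428) (nat_lit 425)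 (nat_lit 287)) (XT.nd (nat_lit 78) (nat_lit 0) (nat_lit 0) (XT.lf (nat_lit 76) (nat_lit 589915162) (nat_lit 0) (nat_lit 5171496045) (nat_lit 1672) (nat_lit 4990769177) (nat_lit 447) (nat_lit 5) (nat_lit 446) (nat_lit 5) (nat_lit 468) (nat_lit 5) (nat_lit 429) (nat_lit 425) (nat_lit 286)) (XT.lf (nat_lit 76) (nat_lit 5871003749) (nat_lit 0) (nat_lit 675004268) (nat_lit 1672) (nat_lit 4303186718) (nat_lit 447) (nat_lit 5) (nat_lit 446) (nat_lit 5) (nat_lit 468) (nat_lit 5) (nat_lit 430) (nat_lit 425) (nat_lit 285)))))) (XT.nd (nat_lit 390) (nat_lit 1520) (nat_lit 0) (XT.nd (nat_lit 156) (nat_lit 0) (nat_lit 76) (XT.nd (nat_lit 78) (nat_lit 0) (nat_lit 0) (XT.lf (nat_lit 76) (nat_lit 278784308) (nat_lit 0) (nat_lit 7079290643) (nat_lit 1672) (nat_lit 3589845835) (nat_lit 448) (nat_lit 5) (nat_lit 447) (nat_lit 5) (nat_lit 469) (nat_lit 5) (nat_lit 431) (nat_lit 425) (nat_lit 284)) (XT.lf (nat_lit 76) (nat_lit 5694868427)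 (nat_lit 0) (nat_lit 2514178699) (nat_lit 1672) (nat_lit 2839127798) (nat_lit 448) (nat_lit 5) (nat_lit 447) (nat_lit 5) (nat_lit 469) (nat_lit 5) (nat_lit 432) (nat_lit 425) (nat_lit 283))) (XT.nd (nat_lit 78) (nat_lit 0) (nat_lit 0) (XT.lf (nat_lit 76) (nat_lit 46390170) (nat_lit 0) (nat_lit 9030012571) (nat_lit 1672) (nat_lit 2074050831) (nat_lit 449) (nat_lit 5) (nat_lit 448) (nat_lit 5) (nat_lit 470) (nat_lit 5) (nat_lit 433) (nat_lit 425) (nat_lit 282)) (XT.nd (nat_lit 78) (nat_lit 0) (nat_lit 76) (XT.lf (nat_lit 76) (nat_lit 5600685467) (nat_lit 0) (nat_lit 4398270226) (nat_lit 1672) (nat_lit 1255071671) (nat_lit 449) (nat_lit 5) (nat_lit 448) (nat_lit 5) (nat_lit 470) (nat_lit 5) (nat_lit 434) (nat_lit 425) (nat_lit 281)) (XT.lf (nat_lit 0) (nat_lit 10927784792) (nat_lit 1596) (nat_lit 104962528) (nat_lit 1672) (nat_lit 327175259) (nat_lit 449) (nat_lit 5) (nat_lit 470) (nat_lit 5) (nat_lit 471) (nat_lit 5) (nat_lit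 435) (nat_lit 425) (nat_lit 280))))) (XT.nd (nat_lit 234) (nat_lit 0) (nat_lit 76) (XT.nd (nat_lit 78) (nat_lit 0) (nat_lit 0) (XT.lf (nat_lit 0) (nat_lit 453654180) (nat_lit 1672) (nat_lit 5880392365) (nat_lit 1748) (nat_lit 5132807653) (nat_lit 427) (nat_lit 5) (nat_lit 449) (nat_lit 5) (nat_lit 450) (nat_lit 5) (nat_lit 436) (nat_lit 425) (nat_lit 279)) (XT.nd (nat_lit 78) (nat_lit 0) (nat_lit 76) (XT.lf (nat_lit 0) (nat_lit 1338196956) (nat_lit 1672) (nat_lit 194828604) (nat_lit 1748) (nat_lit 10043111410) (nat_lit 427) (nat_lit 5) (nat_lit 449) (nat_lit 5) (nat_lit 450) (nat_lit 5) (nat_lit 437) (nat_lit 425) (nat_lit 278)) (XT.lf (nat_lit 0) (nat_lit 2285737111) (nat_lit 1672) (nat_lit 6039464865) (nat_lit 1748) (nat_lit 3361503249) (nat_lit 428) (nat_lit 5) (nat_lit 450) (nat_lit 5) (nat_lit 451) (nat_lit 5) (nat_lit 438) (nat_lit 425) (nat_lit 277)))) (XT.nd (nat_lit 78) (nat_lit 0) (nat_lit 76) (XT.lf (nat_lit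 0) (nat_lit 3250313833) (nat_lit 1672) (nat_lit 210080992) (nat_lit 1748) (nat_lit 8339134143) (nat_lit 428) (nat_lit 5) (nat_lit 450) (nat_lit 5) (nat_lit 451) (nat_lit 5) (nat_lit 439) (nat_lit 425) (nat_lit 276)) (XT.nd (nat_lit 78) (nat_lit 0) (nat_lit 0) (XT.lf (nat_lit 0) (nat_lit 4268764045) (nat_lit 1672) (nat_lit 6121224090) (nat_lit 1748) (nat_lit 1523935137) (nat_lit 429) (nat_lit 5) (nat_lit 451) (nat_lit 5) (nat_lit 452) (nat_lit 5) (nat_lit 440) (nat_lit 425) (nat_lit 275)) (XT.lf (nat_lit 0) (nat_lit 5319022636) (nat_lit 1672) (nat_lit 144421592) (nat_lit 1748) (nat_lit 6566938060) (nat_lit 429) (nat_lit 5) (nat_lit 451) (nat_lit 5) (nat_lit 452) (nat_lit 5) (nat_lit 441) (nat_lit 425) (nat_lit 274))))))) (XT.nd (nat_lit 858) (nat_lit 5396) (nat_lit 0) (XT.nd (nat_lit 390) (nat_lit 3192) (nat_lit 0) (XT.nd (nat_lit 156) (nat_lit 0) (nat_lit 76) (XT.nd (nat_lit 78) (nat_lit 0) (nat_lit 76) (XT.lf (nat_lit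 76) (nat_lit 6021774860) (nat_lit 0) (nat_lit 394965525) (nat_lit 1748) (nat_lit 5731906522) (nat_lit 430) (nat_lit 5) (nat_lit 429) (nat_lit 5) (nat_lit 452) (nat_lit 5) (nat_lit 442) (nat_lit 425) (nat_lit 273)) (XT.lf (nat_lit 76) (nat_lit 3700596) (nat_lit 0) (nat_lit 7552280959) (nat_lit 1748) (nat_lit 4712909277) (nat_lit 431) (nat_lit 5) (nat_lit 430) (nat_lit 5) (nat_lit 453) (nat_lit 5) (nat_lit 443) (nat_lit 425) (nat_lit 272))) (XT.nd (nat_lit 78) (nat_lit 0) (nat_lit 76) (XT.lf (nat_lit 76) (nat_lit 6328011757) (nat_lit 0) (nat_lit 2421460112) (nat_lit 1748) (nat_lit 3641443770) (nat_lit 431) (nat_lit 5) (nat_lit 430) (nat_lit 5) (nat_lit 453) (nat_lit 5) (nat_lit 444) (nat_lit 425) (nat_lit 271)) (XT.nd (nat_lit 78) (nat_lit 0) (nat_lit 0) (XT.lf (nat_lit 76) (nat_lit 238948506) (nat_lit 0) (nat_lit 9735702548) (nat_lit 1748) (nat_lit 2540578691) (nat_lit 432) (nat_lit 5) (nat_lit 431) (nat_lit 5) (nat_lit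 454) (nat_lit 5) (nat_lit 445) (nat_lit 425) (nat_lit 270)) (XT.lf (nat_lit 76) (nat_lit 6723478158) (nat_lit 0) (nat_lit 4545656773) (nat_lit 1748) (nat_lit 1372004263) (nat_lit 432) (nat_lit 5) (nat_lit 431) (nat_lit 5) (nat_lit 454) (nat_lit 5) (nat_lit 446) (nat_lit 425) (nat_lit 269))))) (XT.nd (nat_lit 234) (nat_lit 1672) (nat_lit 0) (XT.nd (nat_lit 78) (nat_lit 1748) (nat_lit 0) (XT.lf (nat_lit 76) (nat_lit 561269770) (nat_lit 0) (nat_lit 12025173475) (nat_lit 1748) (nat_lit 183189877) (nat_lit 433) (nat_lit 5) (nat_lit 432) (nat_lit 5) (nat_lit 455) (nat_lit 5) (nat_lit 447) (nat_lit 425) (nat_lit 268)) (XT.nd (nat_lit 78) (nat_lit 0) (nat_lit 0) (XT.lf (nat_lit 0) (nat_lit 1074496268) (nat_lit 1748) (nat_lit 5696419256) (nat_lit 1824) (nat_lit 6128480599) (nat_lit 409) (nat_lit 5) (nat_lit 432) (nat_lit 5) (nat_lit 433) (nat_lit 5) (nat_lit 448) (nat_lit 425) (nat_lit 267)) (XT.lf (nat_lit 76) (nat_lit 947704404)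 (nat_lit 0) (nat_lit 1402078312) (nat_lit 1824) (nat_lit 10682054156) (nat_lit 410) (nat_lit 5) (nat_lit 409) (nat_lit 5) (nat_lit 433) (nat_lit 5) (nat_lit 449) (nat_lit 425) (nat_lit 266)))) (XT.nd (nat_lit 78) (nat_lit 1748) (nat_lit 0) (XT.lf (nat_lit 0) (nat_lit 3704423172) (nat_lit 1748) (nat_lit 5400393207) (nat_lit 76) (nat_lit 4061037698) (nat_lit 410) (nat_lit 5) (nat_lit 433) (nat_lit 5) (nat_lit 411) (nat_lit 5) (nat_lit 450) (nat_lit 425) (nat_lit 265)) (XT.nd (nat_lit 78) (nat_lit 0) (nat_lit 0) (XT.lf (nat_lit 0) (nat_lit 1417052664) (nat_lit 1748) (nat_lit 3676723978) (nat_lit 1824) (nat_lit 8208627092) (nat_lit 387) (nat_lit 5) (nat_lit 410) (nat_lit 5) (nat_lit 411) (nat_lit 5) (nat_lit 451) (nat_lit 425) (nat_lit 264)) (XT.lf (nat_lit 0) (nat_lit 6548770081) (nat_lit 1824) (nat_lit 5018659552) (nat_lit 76) (nat_lit 1873502120) (nat_lit 387) (nat_lit 5) (nat_lit 411) (nat_lit 5) (nat_lit 388) (nat_lit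 5) (nat_lit 452) (nat_lit 425) (nat_lit 263)))))) (XT.nd (nat_lit 390) (nat_lit 2508) (nat_lit 0) (XT.nd (nat_lit 156) (nat_lit 1824) (nat_lit 0) (XT.nd (nat_lit 78) (nat_lit 0) (nat_lit 0) (XT.lf (nat_lit 0) (nat_lit 1977704320) (nat_lit 1064) (nat_lit 6081856174) (nat_lit 1140) (nat_lit 5522140234) (nat_lit 373) (nat_lit 5) (nat_lit 387) (nat_lit 5) (nat_lit 388) (nat_lit 5) (nat_lit 453) (nat_lit 425) (nat_lit 262)) (XT.lf (nat_lit 0) (nat_lit 9172835321) (nat_lit 1064) (nat_lit 451062689) (nat_lit 1140) (nat_lit 4100924701) (nat_lit 373) (nat_lit 5) (nat_lit 387) (nat_lit 5) (nat_lit 388) (nat_lit 5) (nat_lit 454) (nat_lit 425) (nat_lit 261))) (XT.nd (nat_lit 78) (nat_lit 912) (nat_lit 0) (XT.lf (nat_lit 0) (nat_lit 2631995855) (nat_lit 912) (nat_lit 8628840196) (nat_lit 988) (nat_lit 2609148978) (nat_lit 361) (nat_lit 5) (nat_lit 373) (nat_lit 5) (nat_lit 374) (nat_lit 5) (nat_lit 455) (nat_lit 425) (nat_lit 260))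 (XT.nd (nat_lit 78) (nat_lit 912) (nat_lit 0) (XT.lf (nat_lit 0) (nat_lit 10009172341) (nat_lit 912) (nat_lit 2944857207) (nat_lit 988) (nat_lit 1063554800) (nat_lit 361) (nat_lit 5) (nat_lit 373) (nat_lit 5) (nat_lit 374) (nat_lit 5) (nat_lit 456) (nat_lit 425) (nat_lit 259)) (XT.lf (nat_lit 0) (nat_lit 537110493) (nat_lit 912) (nat_lit 10788652883) (nat_lit 76) (nat_lit 2841691865) (nat_lit 349) (nat_lit 5) (nat_lit 361) (nat_lit 5) (nat_lit 350) (nat_lit 5) (nat_lit 457) (nat_lit 425) (nat_lit 258))))) (XT.nd (nat_lit 234) (nat_lit 1672) (nat_lit 0) (XT.nd (nat_lit 78) (nat_lit 836) (nat_lit 0) (XT.lf (nat_lit 0) (nat_lit 2192409673) (nat_lit 912) (nat_lit 3387674737) (nat_lit 76) (nat_lit 8739365161) (nat_lit 349) (nat_lit 5) (nat_lit 361) (nat_lit 5) (nat_lit 350) (nat_lit 5) (nat_lit 458) (nat_lit 425) (nat_lit 257)) (XT.nd (nat_lit 78) (nat_lit 0) (nat_lit 0) (XT.lf (nat_lit 0) (nat_lit 3900597381) (nat_lit 912)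 (nat_lit 10268712802) (nat_lit 76) (nat_lit 304781731) (nat_lit 338) (nat_lit 5) (nat_lit 350) (nat_lit 5) (nat_lit 339) (nat_lit 5) (nat_lit 459) (nat_lit 425) (nat_lit 256)) (XT.lf (nat_lit 0) (nat_lit 5693377724) (nat_lit 912) (nat_lit 2681476813) (nat_lit 76) (nat_lit 6255967693) (nat_lit 338) (nat_lit 5) (nat_lit 350) (nat_lit 5) (nat_lit 339) (nat_lit 5) (nat_lit 460) (nat_lit 425) (nat_lit 255)))) (XT.nd (nat_lit 78) (nat_lit 836) (nat_lit 0) (XT.lf (nat_lit 0) (nat_lit 5115561601) (nat_lit 836) (nat_lit 2430441227) (nat_lit 912) (nat_lit 7244208170) (nat_lit 327) (nat_lit 5) (nat_lit 338) (nat_lit 5) (nat_lit 339) (nat_lit 5) (nat_lit 461) (nat_lit 425) (nat_lit 254)) (XT.nd (nat_lit 78) (nat_lit 836) (nat_lit 0) (XT.lf (nat_lit 0) (nat_lit 9468279632) (nat_lit 912) (nat_lit 1880405654) (nat_lit 76) (nat_lit 3603453833) (nat_lit 327) (nat_lit 5) (nat_lit 339) (nat_lit 5) (nat_lit 328) (nat_lit 5) (nat_lit 462)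 (nat_lit 425) (nat_lit 253)) (XT.lf (nat_lit 0) (nat_lit 6124976320) (nat_lit 836) (nat_lit 5350966117) (nat_lit 912) (nat_lit 3640428045) (nat_lit 316) (nat_lit 5) (nat_lit 327) (nat_lit 5) (nat_lit 328) (nat_lit 5) (nat_lit 463) (nat_lit 425) (nat_lit 252))))))))
noncomputable def xc202 : XT := (XT.nd (nat_lit 1638) (nat_lit 4712) (nat_lit 0) (XT.nd (nat_lit 780) (nat_lit 3724) (nat_lit 0) (XT.nd (nat_lit 390) (nat_lit 1520) (nat_lit 0) (XT.nd (nat_lit 156) (nat_lit 1444) (nat_lit 0) (XT.nd (nat_lit 78) (nat_lit 836) (nat_lit 0) (XT.lf (nat_lit 0) (nat_lit 13532632239) (nat_lit 912) (nat_lit 981841175) (nat_lit 76) (nat_lit 769239005) (nat_lit 316) (nat_lit 5) (nat_lit 328) (nat_lit 5) (nat_lit 317) (nat_lit 5) (nat_lit 464) (nat_lit 425) (nat_lit 251)) (XT.lf (nat_lit 0) (nat_lit 248031307) (nat_lit 836) (nat_lit 8216082798) (nat_lit 76) (nat_lit 6988781803) (nat_lit 305) (nat_lit 5) (nat_lit 316) (nat_lit 5) (nat_lit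 306) (nat_lit 5) (nat_lit 465) (nat_lit 425) (nat_lit 250))) (XT.nd (nat_lit 78) (nat_lit 1444) (nat_lit 0) (XT.lf (nat_lit 0) (nat_lit 2261750700) (nat_lit 836) (nat_lit 12802868) (nat_lit 76) (nat_lit 13350719777) (nat_lit 305) (nat_lit 5) (nat_lit 316) (nat_lit 5) (nat_lit 306) (nat_lit 5) (nat_lit 466) (nat_lit 425) (nat_lit 249)) (XT.nd (nat_lit 78) (nat_lit 684) (nat_lit 0) (XT.lf (nat_lit 0) (nat_lit 4388820966) (nat_lit 836) (nat_lit 7370107029) (nat_lit 76) (nat_lit 4040711967) (nat_lit 295) (nat_lit 5) (nat_lit 306) (nat_lit 5) (nat_lit 296) (nat_lit 5) (nat_lit 467) (nat_lit 425) (nat_lit 248)) (XT.lf (nat_lit 0) (nat_lit 1053233017) (nat_lit 684) (nat_lit 5518879650) (nat_lit 760) (nat_lit 9405110741) (nat_lit 286) (nat_lit 5) (nat_lit 295) (nat_lit 5) (nat_lit 296) (nat_lit 5) (nat_lit 468) (nat_lit 425) (nat_lit 247))))) (XT.nd (nat_lit 156) (nat_lit 760) (nat_lit 0) (XT.nd (nat_lit 78) (nat_lit 760) (nat_lit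 0) (XT.lf (nat_lit 0) (nat_lit 8846140799) (nat_lit 760) (nat_lit 6427263408) (nat_lit 76) (nat_lit 884015944) (nat_lit 286) (nat_lit 5) (nat_lit 296) (nat_lit 5) (nat_lit 287) (nat_lit 5) (nat_lit 469) (nat_lit 425) (nat_lit 246)) (XT.lf (nat_lit 0) (nat_lit 2223165769) (nat_lit 760) (nat_lit 8985420949) (nat_lit 836) (nat_lit 5131778344) (nat_lit 276) (nat_lit 5) (nat_lit 286) (nat_lit 5) (nat_lit 287) (nat_lit 5) (nat_lit 470) (nat_lit 425) (nat_lit 245))) (XT.nd (nat_lit 78) (nat_lit 760) (nat_lit 0) (XT.lf (nat_lit 0) (nat_lit 11124944248) (nat_lit 760) (nat_lit 2528522458) (nat_lit 836) (nat_lit 2872801382) (nat_lit 276) (nat_lit 5) (nat_lit 286) (nat_lit 5) (nat_lit 287) (nat_lit 5) (nat_lit 471) (nat_lit 425) (nat_lit 244)) (XT.nd (nat_lit 78) (nat_lit 76) (nat_lit 0) (XT.lf (nat_lit 0) (nat_lit 3499660076) (nat_lit 684) (nat_lit 12688855690) (nat_lit 760) (nat_lit 526550842) (nat_lit 267) (nat_lit 5) (nat_lit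 276) (nat_lit 5) (nat_lit 277) (nat_lit 5) (nat_lit 472) (nat_lit 425) (nat_lit 243)) (XT.lf (nat_lit 0) (nat_lit 1887622382) (nat_lit 760) (nat_lit 4292952493) (nat_lit 76) (nat_lit 10725917011) (nat_lit 266) (nat_lit 5) (nat_lit 276) (nat_lit 5) (nat_lit 267) (nat_lit 5) (nat_lit 473) (nat_lit 425) (nat_lit 242)))))) (XT.nd (nat_lit 390) (nat_lit 1824) (nat_lit 0) (XT.nd (nat_lit 156) (nat_lit 1216) (nat_lit 0) (XT.nd (nat_lit 78) (nat_lit 0) (nat_lit 0) (XT.lf (nat_lit 0) (nat_lit 4370184577) (nat_lit 760) (nat_lit 12244839169) (nat_lit 76) (nat_lit 486111892) (nat_lit 257) (nat_lit 5) (nat_lit 267) (nat_lit 5) (nat_lit 258) (nat_lit 5) (nat_lit 474) (nat_lit 425) (nat_lit 241)) (XT.lf (nat_lit 0) (nat_lit 6964813897) (nat_lit 760) (nat_lit 3102223280) (nat_lit 76) (nat_lit 7231389415) (nat_lit 257) (nat_lit 5) (nat_lit 267) (nat_lit 5) (nat_lit 258) (nat_lit 5) (nat_lit 475) (nat_lit 425) (nat_lit 240))) (XT.nd (nat_lit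 78) (nat_lit 608) (nat_lit 0) (XT.lf (nat_lit 0) (nat_lit 6297278050) (nat_lit 608) (nat_lit 3347577358) (nat_lit 684) (nat_lit 7854140156) (nat_lit 249) (nat_lit 5) (nat_lit 257) (nat_lit 5) (nat_lit 258) (nat_lit 5) (nat_lit 476) (nat_lit 425) (nat_lit 239)) (XT.nd (nat_lit 78) (nat_lit 608) (nat_lit 0) (XT.lf (nat_lit 0) (nat_lit 12414933014) (nat_lit 684) (nat_lit 1807882272) (nat_lit 76) (nat_lit 3480034467) (nat_lit 249) (nat_lit 5) (nat_lit 258) (nat_lit 5) (nat_lit 250) (nat_lit 5) (nat_lit 477) (nat_lit 425) (nat_lit 238)) (XT.lf (nat_lit 0) (nat_lit 7846091959) (nat_lit 608) (nat_lit 7460289287) (nat_lit 684) (nat_lit 2603082891) (nat_lit 241) (nat_lit 5) (nat_lit 249) (nat_lit 5) (nat_lit 250) (nat_lit 5) (nat_lit 478) (nat_lit 425) (nat_lit 237))))) (XT.nd (nat_lit 234) (nat_lit 532) (nat_lit 0) (XT.nd (nat_lit 78) (nat_lit 1216) (nat_lit 0) (XT.lf (nat_lit 0) (nat_lit 138777314) (nat_lit 684) (nat_lit 411788270)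 (nat_lit 76) (nat_lit 17569527910) (nat_lit 240) (nat_lit 5) (nat_lit 249) (nat_lit 5) (nat_lit 241) (nat_lit 5) (nat_lit 479) (nat_lit 425) (nat_lit 236)) (XT.nd (nat_lit 78) (nat_lit 608) (nat_lit 0) (XT.lf (nat_lit 0) (nat_lit 2998275234) (nat_lit 684) (nat_lit 8843934514) (nat_lit 76) (nat_lit 6490430794) (nat_lit 232) (nat_lit 5) (nat_lit 241) (nat_lit 5) (nat_lit 233) (nat_lit 5) (nat_lit 480) (nat_lit 425) (nat_lit 235)) (XT.lf (nat_lit 0) (nat_lit 1045028785) (nat_lit 608) (nat_lit 4876253987) (nat_lit 684) (nat_lit 12628031669) (nat_lit 224) (nat_lit 5) (nat_lit 232) (nat_lit 5) (nat_lit 233) (nat_lit 5) (nat_lit 481) (nat_lit 425) (nat_lit 234)))) (XT.nd (nat_lit 78) (nat_lit 532) (nat_lit 0) (XT.lf (nat_lit 0) (nat_lit 8970140876) (nat_lit 684) (nat_lit 7540841354) (nat_lit 76) (nat_lit 2257994037) (nat_lit 224) (nat_lit 5) (nat_lit 233) (nat_lit 5) (nat_lit 225) (nat_lit 5) (nat_lit 482) (nat_lit 425) (nat_lit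 233)) (XT.nd (nat_lit 78) (nat_lit 0) (nat_lit 0) (XT.lf (nat_lit 0) (nat_lit 2615554401) (nat_lit 532) (nat_lit 9507008146) (nat_lit 608) (nat_lit 6869619267) (nat_lit 217) (nat_lit 5) (nat_lit 224) (nat_lit 5) (nat_lit 225) (nat_lit 5) (nat_lit 483) (nat_lit 425) (nat_lit 232)) (XT.lf (nat_lit 0) (nat_lit 13069023122) (nat_lit 532) (nat_lit 2313001397) (nat_lit 608) (nat_lit 3836949285) (nat_lit 217) (nat_lit 5) (nat_lit 224) (nat_lit 5) (nat_lit 225) (nat_lit 5) (nat_lit 484) (nat_lit 425) (nat_lit 231))))))) (XT.nd (nat_lit 780) (nat_lit 1444) (nat_lit 0) (XT.nd (nat_lit 390) (nat_lit 1520) (nat_lit 0) (XT.nd (nat_lit 156) (nat_lit 1064) (nat_lit 0) (XT.nd (nat_lit 78) (nat_lit 76) (nat_lit 0) (XT.lf (nat_lit 0) (nat_lit 4296755412) (nat_lit 608) (nat_lit 14463950500) (nat_lit 684) (nat_lit 688517246) (nat_lit 209) (nat_lit 5) (nat_lit 217) (nat_lit 5) (nat_lit 218) (nat_lit 5) (nat_lit 485) (nat_lit 425) (nat_lit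 230)) (XT.lf (nat_lit 0) (nat_lit 2540193512) (nat_lit 684) (nat_lit 4687729481) (nat_lit 76) (nat_lit 12454820981) (nat_lit 208) (nat_lit 5) (nat_lit 217) (nat_lit 5) (nat_lit 209) (nat_lit 5) (nat_lit 486) (nat_lit 425) (nat_lit 229))) (XT.nd (nat_lit 78) (nat_lit 532) (nat_lit 0) (XT.lf (nat_lit 0) (nat_lit 5858503607) (nat_lit 608) (nat_lit 13868431286) (nat_lit 76) (nat_lit 193226410) (nat_lit 201) (nat_lit 5) (nat_lit 209) (nat_lit 5) (nat_lit 202) (nat_lit 5) (nat_lit 487) (nat_lit 425) (nat_lit 228)) (XT.nd (nat_lit 78) (nat_lit 532) (nat_lit 0) (XT.lf (nat_lit 0) (nat_lit 9316437023) (nat_lit 608) (nat_lit 3148417111) (nat_lit 76) (nat_lit 7696009667) (nat_lit 201) (nat_lit 5) (nat_lit 209) (nat_lit 5) (nat_lit 202) (nat_lit 5) (nat_lit 488) (nat_lit 425) (nat_lit 227)) (XT.lf (nat_lit 0) (nat_lit 7881356855) (nat_lit 532) (nat_lit 5007190916) (nat_lit 608) (nat_lit 7516934130) (nat_lit 194) (nat_lit 5) (nat_lit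 201) (nat_lit 5) (nat_lit 202) (nat_lit 5) (nat_lit 489) (nat_lit 425) (nat_lit 226))))) (XT.nd (nat_lit 156) (nat_lit 1064) (nat_lit 0) (XT.nd (nat_lit 78) (nat_lit 456) (nat_lit 0) (XT.lf (nat_lit 0) (nat_lit 16564151206) (nat_lit 608) (nat_lit 1505248951) (nat_lit 76) (nat_lit 2584953087) (nat_lit 194) (nat_lit 5) (nat_lit 202) (nat_lit 5) (nat_lit 195) (nat_lit 5) (nat_lit 490) (nat_lit 425) (nat_lit 225)) (XT.lf (nat_lit 0) (nat_lit 9821751985) (nat_lit 456) (nat_lit 10582468300) (nat_lit 532) (nat_lit 502164508) (nat_lit 188) (nat_lit 5) (nat_lit 194) (nat_lit 5) (nat_lit 195) (nat_lit 5) (nat_lit 491) (nat_lit 425) (nat_lit 224))) (XT.nd (nat_lit 78) (nat_lit 456) (nat_lit 0) (XT.lf (nat_lit 0) (nat_lit 206648555) (nat_lit 532) (nat_lit 2915131180) (nat_lit 608) (nat_lit 18041157811) (nat_lit 180) (nat_lit 5) (nat_lit 187) (nat_lit 5) (nat_lit 188) (nat_lit 5) (nat_lit 492) (nat_lit 425) (nat_lit 223)) (XT.nd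 (nat_lit 78) (nat_lit 456) (nat_lit 0) (XT.lf (nat_lit 0) (nat_lit 6912313416) (nat_lit 608) (nat_lit 9592780956) (nat_lit 76) (nat_lit 4917445650) (nat_lit 180) (nat_lit 5) (nat_lit 188) (nat_lit 5) (nat_lit 181) (nat_lit 5) (nat_lit 493) (nat_lit 425) (nat_lit 222)) (XT.lf (nat_lit 0) (nat_lit 1997050435) (nat_lit 456) (nat_lit 8808096484) (nat_lit 532) (nat_lit 10881659557) (nat_lit 174) (nat_lit 5) (nat_lit 180) (nat_lit 5) (nat_lit 181) (nat_lit 5) (nat_lit 494) (nat_lit 425) (nat_lit 221)))))) (XT.nd (nat_lit 390) (nat_lit 456) (nat_lit 0) (XT.nd (nat_lit 156) (nat_lit 532) (nat_lit 0) (XT.nd (nat_lit 78) (nat_lit 456) (nat_lit 0) (XT.lf (nat_lit 0) (nat_lit 13940929683) (nat_lit 456) (nat_lit 893560349) (nat_lit 532) (nat_lit 7120696845) (nat_lit 174) (nat_lit 5) (nat_lit 180) (nat_lit 5) (nat_lit 181) (nat_lit 5) (nat_lit 495) (nat_lit 425) (nat_lit 220)) (XT.lf (nat_lit 0) (nat_lit 3891446554) (nat_lit 456)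 (nat_lit 15119231222) (nat_lit 532) (nat_lit 3216933599) (nat_lit 168) (nat_lit 5) (nat_lit 174) (nat_lit 5) (nat_lit 175) (nat_lit 5) (nat_lit 496) (nat_lit 425) (nat_lit 219))) (XT.nd (nat_lit 78) (nat_lit 456) (nat_lit 0) (XT.lf (nat_lit 0) (nat_lit 809328002) (nat_lit 532) (nat_lit 6379503736) (nat_lit 76) (nat_lit 15315465780) (nat_lit 167) (nat_lit 5) (nat_lit 174) (nat_lit 5) (nat_lit 168) (nat_lit 5) (nat_lit 497) (nat_lit 425) (nat_lit 218)) (XT.nd (nat_lit 78) (nat_lit 0) (nat_lit 0) (XT.lf (nat_lit 0) (nat_lit 4911890380) (nat_lit 532) (nat_lit 16927370142) (nat_lit 76) (nat_lit 946056127) (nat_lit 161) (nat_lit 5) (nat_lit 168) (nat_lit 5) (nat_lit 162) (nat_lit 5) (nat_lit 498) (nat_lit 425) (nat_lit 217)) (XT.lf (nat_lit 0) (nat_lit 9181761385) (nat_lit 532) (nat_lit 4700018969) (nat_lit 76) (nat_lit 9188472181) (nat_lit 161) (nat_lit 5) (nat_lit 168) (nat_lit 5) (nat_lit 162) (nat_lit 5) (nat_lit 499)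 (nat_lit 425) (nat_lit 216))))) (XT.nd (nat_lit 53742) (nat_lit 0) (nat_lit 22040) (XT.nd (nat_lit 53586) (nat_lit 0) (nat_lit 22040) (XT.lf (nat_lit 0) (nat_lit 7867564788) (nat_lit 456) (nat_lit 5715209103) (nat_lit 532) (nat_lit 9777199855) (nat_lit 155) (nat_lit 5) (nat_lit 161) (nat_lit 5) (nat_lit 162) (nat_lit 5) (nat_lit 500) (nat_lit 425) (nat_lit 215)) (XT.nd (nat_lit 78) (nat_lit 0) (nat_lit 0) (XT.lf (nat_lit 0) (nat_lit 1054239801) (nat_lit 0) (nat_lit 1054239801) (nat_lit 1596) (nat_lit 3172609658) (nat_lit 445) (nat_lit 5) (nat_lit 445) (nat_lit 3) (nat_lit 466) (nat_lit 3) (nat_lit 426) (nat_lit 426) (nat_lit 288)) (XT.lf (nat_lit 0) (nat_lit 4887521328) (nat_lit 1596) (nat_lit 3453843770) (nat_lit 1672) (nat_lit 2313590550) (nat_lit 445) (nat_lit 5) (nat_lit 466) (nat_lit 3) (nat_lit 467) (nat_lit 5) (nat_lit 427) (nat_lit 426) (nat_lit 287)))) (XT.nd (nat_lit 78) (nat_lit 0) (nat_lit 76) (XT.lf (nat_lit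 76) (nat_lit 1645199119) (nat_lit 0) (nat_lit 3934909242) (nat_lit 1672) (nat_lit 5169314944) (nat_lit 446) (nat_lit 5) (nat_lit 445) (nat_lit 5) (nat_lit 467) (nat_lit 5) (nat_lit 428) (nat_lit 426) (nat_lit 286)) (XT.nd (nat_lit 78) (nat_lit 0) (nat_lit 0) (XT.lf (nat_lit 0) (nat_lit 6297788112) (nat_lit 1596) (nat_lit 3964801631) (nat_lit 1672) (nat_lit 582972873) (nat_lit 446) (nat_lit 5) (nat_lit 467) (nat_lit 5) (nat_lit 468) (nat_lit 5) (nat_lit 429) (nat_lit 426) (nat_lit 285)) (XT.lf (nat_lit 76) (nat_lit 1259299443) (nat_lit 0) (nat_lit 5789342113) (nat_lit 1672) (nat_lit 3894613731) (nat_lit 447) (nat_lit 5) (nat_lit 446) (nat_lit 5) (nat_lit 468) (nat_lit 5) (nat_lit 430) (nat_lit 426) (nat_lit 284))))))))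
noncomputable def xc203 : XT := (XT.nd (nat_lit 1638) (nat_lit 10868) (nat_lit 0) (XT.nd (nat_lit 780) (nat_lit 1292) (nat_lit 0) (XT.nd (nat_lit 390) (nat_lit 1520) (nat_lit 0) (XT.nd (nat_lit 156) (nat_lit 0) (nat_lit 76) (XT.nd (nat_lit 78) (nat_lit 0) (nat_lit 76) (XT.lf (nat_lit 76) (nat_lit 6633115959) (nat_lit 0) (nat_lit 1192833909) (nat_lit 1672) (nat_lit 3216730031) (nat_lit 447) (nat_lit 5) (nat_lit 446) (nat_lit 5) (nat_lit 468) (nat_lit 5) (nat_lit 431) (nat_lit 426) (nat_lit 283)) (XT.lf (nat_lit 76) (nat_lit 951407766) (nat_lit 0) (nat_lit 7681441217) (nat_lit 1672) (nat_lit 2510969835) (nat_lit 448) (nat_lit 5) (nat_lit 447) (nat_lit 5) (nat_lit 469) (nat_lit 5) (nat_lit 432) (nat_lit 426) (nat_lit 282))) (XT.nd (nat_lit 78) (nat_lit 0) (nat_lit 76) (XT.lf (nat_lit 76) (nat_lit 6462734200) (nat_lit 0) (nat_lit 3015996352) (nat_lit 1672) (nat_lit 1767799650) (nat_lit 448) (nat_lit 5) (nat_lit 447) (nat_lit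 5) (nat_lit 469) (nat_lit 5) (nat_lit 433) (nat_lit 426) (nat_lit 281)) (XT.nd (nat_lit 78) (nat_lit 0) (nat_lit 0) (XT.lf (nat_lit 76) (nat_lit 722355807) (nat_lit 0) (nat_lit 9620909571) (nat_lit 1672) (nat_lit 1008002171) (nat_lit 449) (nat_lit 5) (nat_lit 448) (nat_lit 5) (nat_lit 470) (nat_lit 5) (nat_lit 434) (nat_lit 426) (nat_lit 280)) (XT.lf (nat_lit 76) (nat_lit 6374500973) (nat_lit 0) (nat_lit 4888487346) (nat_lit 1672) (nat_lit 194359697) (nat_lit 449) (nat_lit 5) (nat_lit 448) (nat_lit 5) (nat_lit 470) (nat_lit 5) (nat_lit 435) (nat_lit 426) (nat_lit 279))))) (XT.nd (nat_lit 156) (nat_lit 0) (nat_lit 76) (XT.nd (nat_lit 78) (nat_lit 0) (nat_lit 76) (XT.lf (nat_lit 76) (nat_lit 568715863) (nat_lit 0) (nat_lit 48328471) (nat_lit 1748) (nat_lit 10948632822) (nat_lit 427) (nat_lit 5) (nat_lit 426) (nat_lit 5) (nat_lit 449) (nat_lit 5) (nat_lit 436) (nat_lit 426) (nat_lit 278)) (XT.lf (nat_lit 0) (nat_lit 1494530400)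 (nat_lit 1672) (nat_lit 5315543669) (nat_lit 1748) (nat_lit 4865029942) (nat_lit 427) (nat_lit 5) (nat_lit 449) (nat_lit 5) (nat_lit 450) (nat_lit 5) (nat_lit 437) (nat_lit 426) (nat_lit 277))) (XT.nd (nat_lit 78) (nat_lit 0) (nat_lit 76) (XT.lf (nat_lit 76) (nat_lit 476600567) (nat_lit 0) (nat_lit 1903026437) (nat_lit 1748) (nat_lit 9407297023) (nat_lit 428) (nat_lit 5) (nat_lit 427) (nat_lit 5) (nat_lit 450) (nat_lit 5) (nat_lit 438) (nat_lit 426) (nat_lit 276)) (XT.nd (nat_lit 78) (nat_lit 0) (nat_lit 0) (XT.lf (nat_lit 0) (nat_lit 3325352782) (nat_lit 1672) (nat_lit 5473074659) (nat_lit 1748) (nat_lit 3101700182) (nat_lit 428) (nat_lit 5) (nat_lit 450) (nat_lit 5) (nat_lit 451) (nat_lit 5) (nat_lit 439) (nat_lit 426) (nat_lit 275)) (XT.lf (nat_lit 76) (nat_lit 465528269) (nat_lit 0) (nat_lit 3827227034) (nat_lit 1748) (nat_lit 7722790357) (nat_lit 429) (nat_lit 5) (nat_lit 428) (nat_lit 5) (nat_lit 451) (nat_lit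 5) (nat_lit 440) (nat_lit 426) (nat_lit 274)))))) (XT.nd (nat_lit 390) (nat_lit 1520) (nat_lit 0) (XT.nd (nat_lit 156) (nat_lit 0) (nat_lit 0) (XT.nd (nat_lit 78) (nat_lit 0) (nat_lit 0) (XT.lf (nat_lit 0) (nat_lit 5311905904) (nat_lit 1672) (nat_lit 5552880233) (nat_lit 1748) (nat_lit 1267843423) (nat_lit 429) (nat_lit 5) (nat_lit 451) (nat_lit 5) (nat_lit 452) (nat_lit 5) (nat_lit 441) (nat_lit 426) (nat_lit 273)) (XT.lf (nat_lit 76) (nat_lit 536956114) (nat_lit 0) (nat_lit 5830920091) (nat_lit 1748) (nat_lit 5883855594) (nat_lit 430) (nat_lit 5) (nat_lit 429) (nat_lit 5) (nat_lit 452) (nat_lit 5) (nat_lit 442) (nat_lit 426) (nat_lit 272))) (XT.nd (nat_lit 78) (nat_lit 0) (nat_lit 76) (XT.lf (nat_lit 76) (nat_lit 6814978799) (nat_lit 0) (nat_lit 655039787) (nat_lit 1748) (nat_lit 4902701731) (nat_lit 430) (nat_lit 5) (nat_lit 429) (nat_lit 5) (nat_lit 452) (nat_lit 5) (nat_lit 443) (nat_lit 426) (nat_lit 271)) (XT.nd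 (nat_lit 78) (nat_lit 0) (nat_lit 0) (XT.lf (nat_lit 76) (nat_lit 692518646) (nat_lit 0) (nat_lit 7924256388) (nat_lit 1748) (nat_lit 3878907334) (nat_lit 431) (nat_lit 5) (nat_lit 430) (nat_lit 5) (nat_lit 453) (nat_lit 5) (nat_lit 444) (nat_lit 426) (nat_lit 270)) (XT.lf (nat_lit 76) (nat_lit 7129811245) (nat_lit 0) (nat_lit 2686487167) (nat_lit 1748) (nat_lit 2804213695) (nat_lit 431) (nat_lit 5) (nat_lit 430) (nat_lit 5) (nat_lit 453) (nat_lit 5) (nat_lit 445) (nat_lit 426) (nat_lit 269))))) (XT.nd (nat_lit 234) (nat_lit 0) (nat_lit 0) (XT.nd (nat_lit 78) (nat_lit 1672) (nat_lit 0) (XT.lf (nat_lit 76) (nat_lit 934023373) (nat_lit 0) (nat_lit 10117573942) (nat_lit 1748) (nat_lit 1696010409) (nat_lit 432) (nat_lit 5) (nat_lit 431) (nat_lit 5) (nat_lit 454) (nat_lit 5) (nat_lit 446) (nat_lit 426) (nat_lit 268)) (XT.nd (nat_lit 78) (nat_lit 1672) (nat_lit 0) (XT.lf (nat_lit 76) (nat_lit 7534708405) (nat_lit 0) (nat_lit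 4820057499) (nat_lit 1748) (nat_lit 521620960) (nat_lit 432) (nat_lit 5) (nat_lit 431) (nat_lit 5) (nat_lit 454) (nat_lit 5) (nat_lit 447) (nat_lit 426) (nat_lit 267)) (XT.lf (nat_lit 0) (nat_lit 668261164) (nat_lit 1748) (nat_lit 11748678925) (nat_lit 1824) (nat_lit 590700901) (nat_lit 409) (nat_lit 5) (nat_lit 432) (nat_lit 5) (nat_lit 433) (nat_lit 5) (nat_lit 448) (nat_lit 426) (nat_lit 266)))) (XT.nd (nat_lit 78) (nat_lit 0) (nat_lit 0) (XT.lf (nat_lit 0) (nat_lit 1931931506) (nat_lit 1748) (nat_lit 5121486350) (nat_lit 1824) (nat_lit 6086898484) (nat_lit 409) (nat_lit 5) (nat_lit 432) (nat_lit 5) (nat_lit 433) (nat_lit 5) (nat_lit 449) (nat_lit 426) (nat_lit 265)) (XT.nd (nat_lit 78) (nat_lit 0) (nat_lit 76) (XT.lf (nat_lit 76) (nat_lit 1650987801) (nat_lit 0) (nat_lit 1569787917) (nat_lit 1824) (nat_lit 10054875985) (nat_lit 410) (nat_lit 5) (nat_lit 409) (nat_lit 5) (nat_lit 433) (nat_lit 5) (nat_lit 450) (nat_lit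 426) (nat_lit 264)) (XT.lf (nat_lit 0) (nat_lit 4585463136) (nat_lit 1748) (nat_lit 4820108882) (nat_lit 76) (nat_lit 4007124856) (nat_lit 410) (nat_lit 5) (nat_lit 433) (nat_lit 5) (nat_lit 411) (nat_lit 5) (nat_lit 451) (nat_lit 426) (nat_lit 263))))))) (XT.nd (nat_lit 858) (nat_lit 4636) (nat_lit 0) (XT.nd (nat_lit 390) (nat_lit 2584) (nat_lit 0) (XT.nd (nat_lit 156) (nat_lit 1976) (nat_lit 0) (XT.nd (nat_lit 78) (nat_lit 0) (nat_lit 0) (XT.lf (nat_lit 0) (nat_lit 2129157668) (nat_lit 1748) (nat_lit 3862062878) (nat_lit 1824) (nat_lit 7560991215) (nat_lit 387) (nat_lit 5) (nat_lit 410) (nat_lit 5) (nat_lit 411) (nat_lit 5) (nat_lit 452) (nat_lit 426) (nat_lit 262)) (XT.lf (nat_lit 0) (nat_lit 7459002799) (nat_lit 1824) (nat_lit 4432042639) (nat_lit 76) (nat_lit 1802797568) (nat_lit 387) (nat_lit 5) (nat_lit 411) (nat_lit 5) (nat_lit 388) (nat_lit 5) (nat_lit 453) (nat_lit 426) (nat_lit 261))) (XT.nd (nat_lit 78) (nat_lit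 912) (nat_lit 0) (XT.lf (nat_lit 0) (nat_lit 2699728840) (nat_lit 1064) (nat_lit 6289431676) (nat_lit 1140) (nat_lit 4848490133) (nat_lit 373) (nat_lit 5) (nat_lit 387) (nat_lit 5) (nat_lit 388) (nat_lit 5) (nat_lit 454) (nat_lit 426) (nat_lit 260)) (XT.nd (nat_lit 78) (nat_lit 912) (nat_lit 0) (XT.lf (nat_lit 0) (nat_lit 10025380688) (nat_lit 1064) (nat_lit 544337255) (nat_lit 1140) (nat_lit 3414224660) (nat_lit 373) (nat_lit 5) (nat_lit 387) (nat_lit 5) (nat_lit 388) (nat_lit 5) (nat_lit 455) (nat_lit 426) (nat_lit 259)) (XT.lf (nat_lit 0) (nat_lit 3365141364) (nat_lit 912) (nat_lit 8863363962) (nat_lit 988) (nat_lit 1903726703) (nat_lit 361) (nat_lit 5) (nat_lit 373) (nat_lit 5) (nat_lit 374) (nat_lit 5) (nat_lit 456) (nat_lit 426) (nat_lit 258))))) (XT.nd (nat_lit 234) (nat_lit 1672) (nat_lit 0) (XT.nd (nat_lit 78) (nat_lit 912) (nat_lit 0) (XT.lf (nat_lit 0) (nat_lit 10876518133) (nat_lit 912) (nat_lit 3064486666)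 (nat_lit 988) (nat_lit 342075647) (nat_lit 361) (nat_lit 5) (nat_lit 373) (nat_lit 5) (nat_lit 374) (nat_lit 5) (nat_lit 457) (nat_lit 426) (nat_lit 257)) (XT.nd (nat_lit 78) (nat_lit 0) (nat_lit 0) (XT.lf (nat_lit 0) (nat_lit 1270530454) (nat_lit 912) (nat_lit 10316613104) (nat_lit 76) (nat_lit 2848921097) (nat_lit 349) (nat_lit 5) (nat_lit 361) (nat_lit 5) (nat_lit 350) (nat_lit 5) (nat_lit 458) (nat_lit 426) (nat_lit 256)) (XT.lf (nat_lit 0) (nat_lit 2944765466) (nat_lit 912) (nat_lit 2781101920) (nat_lit 76) (nat_lit 8865520498) (nat_lit 349) (nat_lit 5) (nat_lit 361) (nat_lit 5) (nat_lit 350) (nat_lit 5) (nat_lit 459) (nat_lit 426) (nat_lit 255)))) (XT.nd (nat_lit 78) (nat_lit 836) (nat_lit 0) (XT.lf (nat_lit 0) (nat_lit 4677385220) (nat_lit 912) (nat_lit 9789754014) (nat_lit 76) (nat_lit 282183976) (nat_lit 338) (nat_lit 5) (nat_lit 350) (nat_lit 5) (nat_lit 339) (nat_lit 5) (nat_lit 460) (nat_lit 426) (nat_lit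 254)) (XT.nd (nat_lit 78) (nat_lit 836) (nat_lit 0) (XT.lf (nat_lit 0) (nat_lit 6492319681) (nat_lit 912) (nat_lit 2064191600) (nat_lit 76) (nat_lit 6352956273) (nat_lit 338) (nat_lit 5) (nat_lit 350) (nat_lit 5) (nat_lit 339) (nat_lit 5) (nat_lit 461) (nat_lit 426) (nat_lit 253)) (XT.lf (nat_lit 0) (nat_lit 5884373670) (nat_lit 836) (nat_lit 2488518152) (nat_lit 912) (nat_lit 6699339673) (nat_lit 327) (nat_lit 5) (nat_lit 338) (nat_lit 5) (nat_lit 339) (nat_lit 5) (nat_lit 462) (nat_lit 426) (nat_lit 252)))))) (XT.nd (nat_lit 390) (nat_lit 2204) (nat_lit 0) (XT.nd (nat_lit 156) (nat_lit 1596) (nat_lit 0) (XT.nd (nat_lit 78) (nat_lit 836) (nat_lit 0) (XT.lf (nat_lit 0) (nat_lit 10320299600) (nat_lit 912) (nat_lit 1251007851) (nat_lit 76) (nat_lit 3666362200) (nat_lit 327) (nat_lit 5) (nat_lit 339) (nat_lit 5) (nat_lit 328) (nat_lit 5) (nat_lit 463) (nat_lit 426) (nat_lit 251)) (XT.lf (nat_lit 0) (nat_lit 6910093565)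 (nat_lit 836) (nat_lit 5449331027) (nat_lit 912) (nat_lit 3045939952) (nat_lit 316) (nat_lit 5) (nat_lit 327) (nat_lit 5) (nat_lit 328) (nat_lit 5) (nat_lit 464) (nat_lit 426) (nat_lit 250))) (XT.nd (nat_lit 78) (nat_lit 1596) (nat_lit 0) (XT.lf (nat_lit 0) (nat_lit 14444480469) (nat_lit 912) (nat_lit 338835964) (nat_lit 76) (nat_lit 792997224) (nat_lit 316) (nat_lit 5) (nat_lit 328) (nat_lit 5) (nat_lit 317) (nat_lit 5) (nat_lit 465) (nat_lit 426) (nat_lit 249)) (XT.nd (nat_lit 78) (nat_lit 760) (nat_lit 0) (XT.lf (nat_lit 0) (nat_lit 890321446) (nat_lit 836) (nat_lit 7713412706) (nat_lit 76) (nat_lit 7145233658) (nat_lit 305) (nat_lit 5) (nat_lit 316) (nat_lit 5) (nat_lit 306) (nat_lit 5) (nat_lit 466) (nat_lit 426) (nat_lit 248)) (XT.lf (nat_lit 0) (nat_lit 649371171) (nat_lit 760) (nat_lit 2286663547) (nat_lit 836) (nat_lit 12988928382) (nat_lit 295) (nat_lit 5) (nat_lit 305) (nat_lit 5) (nat_lit 306) (nat_lit 5)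 (nat_lit 467) (nat_lit 426) (nat_lit 247))))) (XT.nd (nat_lit 234) (nat_lit 1520) (nat_lit 0) (XT.nd (nat_lit 78) (nat_lit 684) (nat_lit 0) (XT.lf (nat_lit 0) (nat_lit 5093609366) (nat_lit 836) (nat_lit 6855544686) (nat_lit 76) (nat_lit 4153908341) (nat_lit 295) (nat_lit 5) (nat_lit 306) (nat_lit 5) (nat_lit 296) (nat_lit 5) (nat_lit 468) (nat_lit 426) (nat_lit 246)) (XT.nd (nat_lit 78) (nat_lit 0) (nat_lit 0) (XT.lf (nat_lit 0) (nat_lit 1731907131) (nat_lit 684) (nat_lit 5580831132) (nat_lit 760) (nat_lit 8971620330) (nat_lit 286) (nat_lit 5) (nat_lit 295) (nat_lit 5) (nat_lit 296) (nat_lit 5) (nat_lit 469) (nat_lit 426) (nat_lit 245)) (XT.lf (nat_lit 0) (nat_lit 9620610436) (nat_lit 760) (nat_lit 5899235811) (nat_lit 76) (nat_lit 948550178) (nat_lit 286) (nat_lit 5) (nat_lit 296) (nat_lit 5) (nat_lit 287) (nat_lit 5) (nat_lit 470) (nat_lit 426) (nat_lit 244)))) (XT.nd (nat_lit 78) (nat_lit 760) (nat_lit 0) (XT.lf (nat_lit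 0) (nat_lit 2919882391) (nat_lit 760) (nat_lit 9102941139) (nat_lit 836) (nat_lit 4632330676) (nat_lit 276) (nat_lit 5) (nat_lit 286) (nat_lit 5) (nat_lit 287) (nat_lit 5) (nat_lit 471) (nat_lit 426) (nat_lit 243)) (XT.nd (nat_lit 78) (nat_lit 760) (nat_lit 0) (XT.lf (nat_lit 0) (nat_lit 11986907159) (nat_lit 760) (nat_lit 2518124054) (nat_lit 836) (nat_lit 2339979729) (nat_lit 276) (nat_lit 5) (nat_lit 286) (nat_lit 5) (nat_lit 287) (nat_lit 5) (nat_lit 472) (nat_lit 426) (nat_lit 242)) (XT.lf (nat_lit 0) (nat_lit 45692285) (nat_lit 760) (nat_lit 12821803302) (nat_lit 76) (nat_lit 4170223143) (nat_lit 266) (nat_lit 5) (nat_lit 276) (nat_lit 5) (nat_lit 267) (nat_lit 5) (nat_lit 473) (nat_lit 426) (nat_lit 241))))))))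
noncomputable def xc204 : XT := (XT.nd (nat_lit 1638) (nat_lit 1444) (nat_lit 0) (XT.nd (nat_lit 780) (nat_lit 3344) (nat_lit 0) (XT.nd (nat_lit 390) (nat_lit 1900) (nat_lit 0) (XT.nd (nat_lit 156) (nat_lit 608) (nat_lit 0) (XT.nd (nat_lit 78) (nat_lit 684) (nat_lit 0) (XT.lf (nat_lit 0) (nat_lit 2489816221) (nat_lit 760) (nat_lit 3737219122) (nat_lit 76) (nat_lit 11006097212) (nat_lit 266) (nat_lit 5) (nat_lit 276) (nat_lit 5) (nat_lit 267) (nat_lit 5) (nat_lit 474) (nat_lit 426) (nat_lit 240)) (XT.lf (nat_lit 0) (nat_lit 5015618919) (nat_lit 760) (nat_lit 11841536377) (nat_lit 76) (nat_lit 574646028) (nat_lit 257) (nat_lit 5) (nat_lit 267) (nat_lit 5) (nat_lit 258) (nat_lit 5) (nat_lit 475) (nat_lit 426) (nat_lit 239))) (XT.nd (nat_lit 78) (nat_lit 608) (nat_lit 0) (XT.lf (nat_lit 0) (nat_lit 7651199048) (nat_lit 760) (nat_lit 2528777966) (nat_lit 76) (nat_lit 7453283770) (nat_lit 257) (nat_lit 5) (nat_lit 267) (nat_lit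 5) (nat_lit 258) (nat_lit 5) (nat_lit 476) (nat_lit 426) (nat_lit 238)) (XT.nd (nat_lit 78) (nat_lit 0) (nat_lit 0) (XT.lf (nat_lit 0) (nat_lit 7054532537) (nat_lit 608) (nat_lit 3323680496) (nat_lit 684) (nat_lit 7459764447) (nat_lit 249) (nat_lit 5) (nat_lit 257) (nat_lit 5) (nat_lit 258) (nat_lit 5) (nat_lit 477) (nat_lit 426) (nat_lit 237)) (XT.lf (nat_lit 0) (nat_lit 13193673209) (nat_lit 684) (nat_lit 1214905532) (nat_lit 76) (nat_lit 3637534093) (nat_lit 249) (nat_lit 5) (nat_lit 258) (nat_lit 5) (nat_lit 250) (nat_lit 5) (nat_lit 478) (nat_lit 426) (nat_lit 236))))) (XT.nd (nat_lit 156) (nat_lit 608) (nat_lit 0) (XT.nd (nat_lit 78) (nat_lit 684) (nat_lit 0) (XT.lf (nat_lit 0) (nat_lit 8628009142) (nat_lit 608) (nat_lit 7508598333) (nat_lit 684) (nat_lit 2120382518) (nat_lit 241) (nat_lit 5) (nat_lit 249) (nat_lit 5) (nat_lit 250) (nat_lit 5) (nat_lit 479) (nat_lit 426) (nat_lit 235)) (XT.lf (nat_lit 0) (nat_lit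 202421682) (nat_lit 608) (nat_lit 457845953) (nat_lit 684) (nat_lit 17811679023) (nat_lit 232) (nat_lit 5) (nat_lit 240) (nat_lit 5) (nat_lit 241) (nat_lit 5) (nat_lit 480) (nat_lit 426) (nat_lit 234))) (XT.nd (nat_lit 78) (nat_lit 608) (nat_lit 0) (XT.lf (nat_lit 0) (nat_lit 3570171996) (nat_lit 684) (nat_lit 8395382030) (nat_lit 76) (nat_lit 6723329713) (nat_lit 232) (nat_lit 5) (nat_lit 241) (nat_lit 5) (nat_lit 233) (nat_lit 5) (nat_lit 481) (nat_lit 426) (nat_lit 233)) (XT.nd (nat_lit 78) (nat_lit 0) (nat_lit 0) (XT.lf (nat_lit 0) (nat_lit 1687245856) (nat_lit 608) (nat_lit 4858389960) (nat_lit 684) (nat_lit 12364378730) (nat_lit 224) (nat_lit 5) (nat_lit 232) (nat_lit 5) (nat_lit 233) (nat_lit 5) (nat_lit 482) (nat_lit 426) (nat_lit 232)) (XT.lf (nat_lit 0) (nat_lit 9646285430) (nat_lit 684) (nat_lit 7073174360) (nat_lit 76) (nat_lit 2414796818) (nat_lit 224) (nat_lit 5) (nat_lit 233) (nat_lit 5) (nat_lit 225)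 (nat_lit 5) (nat_lit 483) (nat_lit 426) (nat_lit 231)))))) (XT.nd (nat_lit 390) (nat_lit 1596) (nat_lit 0) (XT.nd (nat_lit 156) (nat_lit 1216) (nat_lit 0) (XT.nd (nat_lit 78) (nat_lit 0) (nat_lit 0) (XT.lf (nat_lit 0) (nat_lit 3282280337) (nat_lit 532) (nat_lit 9573724351) (nat_lit 608) (nat_lit 6506039817) (nat_lit 217) (nat_lit 5) (nat_lit 224) (nat_lit 5) (nat_lit 225) (nat_lit 5) (nat_lit 484) (nat_lit 426) (nat_lit 230)) (XT.lf (nat_lit 0) (nat_lit 13932771083) (nat_lit 532) (nat_lit 2238257545) (nat_lit 608) (nat_lit 3422539412) (nat_lit 217) (nat_lit 5) (nat_lit 224) (nat_lit 5) (nat_lit 225) (nat_lit 5) (nat_lit 485) (nat_lit 426) (nat_lit 229))) (XT.nd (nat_lit 78) (nat_lit 608) (nat_lit 0) (XT.lf (nat_lit 0) (nat_lit 4990035469) (nat_lit 608) (nat_lit 14622523196) (nat_lit 684) (nat_lit 215961312) (nat_lit 209) (nat_lit 5) (nat_lit 217) (nat_lit 5) (nat_lit 218) (nat_lit 5) (nat_lit 486) (nat_lit 426) (nat_lit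 228)) (XT.nd (nat_lit 78) (nat_lit 532) (nat_lit 0) (XT.lf (nat_lit 0) (nat_lit 3061534658) (nat_lit 684) (nat_lit 4179645797) (nat_lit 76) (nat_lit 12825658797) (nat_lit 208) (nat_lit 5) (nat_lit 217) (nat_lit 5) (nat_lit 209) (nat_lit 5) (nat_lit 487) (nat_lit 426) (nat_lit 227)) (XT.lf (nat_lit 0) (nat_lit 6441728045) (nat_lit 608) (nat_lit 13539332791) (nat_lit 76) (nat_lit 328036668) (nat_lit 201) (nat_lit 5) (nat_lit 209) (nat_lit 5) (nat_lit 202) (nat_lit 5) (nat_lit 488) (nat_lit 426) (nat_lit 226))))) (XT.nd (nat_lit 234) (nat_lit 1064) (nat_lit 0) (XT.nd (nat_lit 78) (nat_lit 532) (nat_lit 0) (XT.lf (nat_lit 0) (nat_lit 9959681809) (nat_lit 608) (nat_lit 2616809844) (nat_lit 76) (nat_lit 7978308028) (nat_lit 201) (nat_lit 5) (nat_lit 209) (nat_lit 5) (nat_lit 202) (nat_lit 5) (nat_lit 489) (nat_lit 426) (nat_lit 225)) (XT.nd (nat_lit 78) (nat_lit 0) (nat_lit 0) (XT.lf (nat_lit 0) (nat_lit 8629647920) (nat_lit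 532) (nat_lit 4968462696) (nat_lit 608) (nat_lit 7206304816) (nat_lit 194) (nat_lit 5) (nat_lit 201) (nat_lit 5) (nat_lit 202) (nat_lit 5) (nat_lit 490) (nat_lit 426) (nat_lit 224)) (XT.lf (nat_lit 0) (nat_lit 17339251425) (nat_lit 608) (nat_lit 948159434) (nat_lit 76) (nat_lit 2771015586) (nat_lit 194) (nat_lit 5) (nat_lit 202) (nat_lit 5) (nat_lit 195) (nat_lit 5) (nat_lit 491) (nat_lit 426) (nat_lit 223)))) (XT.nd (nat_lit 78) (nat_lit 608) (nat_lit 0) (XT.lf (nat_lit 0) (nat_lit 10601518400) (nat_lit 456) (nat_lit 10649688561) (nat_lit 532) (nat_lit 64392659) (nat_lit 188) (nat_lit 5) (nat_lit 194) (nat_lit 5) (nat_lit 195) (nat_lit 5) (nat_lit 492) (nat_lit 426) (nat_lit 222)) (XT.nd (nat_lit 78) (nat_lit 0) (nat_lit 0) (XT.lf (nat_lit 0) (nat_lit 796241042) (nat_lit 532) (nat_lit 2825051915) (nat_lit 608) (nat_lit 17956032200) (nat_lit 180) (nat_lit 5) (nat_lit 187) (nat_lit 5) (nat_lit 188) (nat_lit 5) (nat_lit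 493) (nat_lit 426) (nat_lit 221)) (XT.lf (nat_lit 0) (nat_lit 7480011665) (nat_lit 608) (nat_lit 9202903965) (nat_lit 76) (nat_lit 5159359106) (nat_lit 180) (nat_lit 5) (nat_lit 188) (nat_lit 5) (nat_lit 181) (nat_lit 5) (nat_lit 494) (nat_lit 426) (nat_lit 220))))))) (XT.nd (nat_lit 54366) (nat_lit 0) (nat_lit 20140) (XT.nd (nat_lit 390) (nat_lit 0) (nat_lit 0) (XT.nd (nat_lit 156) (nat_lit 988) (nat_lit 0) (XT.nd (nat_lit 78) (nat_lit 0) (nat_lit 0) (XT.lf (nat_lit 0) (nat_lit 2614896866) (nat_lit 456) (nat_lit 8831136490) (nat_lit 532) (nat_lit 10665889023) (nat_lit 174) (nat_lit 5) (nat_lit 180) (nat_lit 5) (nat_lit 181) (nat_lit 5) (nat_lit 495) (nat_lit 426) (nat_lit 219)) (XT.lf (nat_lit 0) (nat_lit 14786322220) (nat_lit 456) (nat_lit 761312023) (nat_lit 532) (nat_lit 6838205169) (nat_lit 174) (nat_lit 5) (nat_lit 180) (nat_lit 5) (nat_lit 181) (nat_lit 5) (nat_lit 496) (nat_lit 426) (nat_lit 218))) (XT.nd (nat_lit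 78) (nat_lit 532) (nat_lit 0) (XT.lf (nat_lit 0) (nat_lit 4539549307) (nat_lit 456) (nat_lit 15264288822) (nat_lit 532) (nat_lit 2859946817) (nat_lit 168) (nat_lit 5) (nat_lit 174) (nat_lit 5) (nat_lit 175) (nat_lit 5) (nat_lit 497) (nat_lit 426) (nat_lit 217)) (XT.nd (nat_lit 78) (nat_lit 456) (nat_lit 0) (XT.lf (nat_lit 0) (nat_lit 1233161321) (nat_lit 532) (nat_lit 5942469346) (nat_lit 76) (nat_lit 15770484795) (nat_lit 167) (nat_lit 5) (nat_lit 174) (nat_lit 5) (nat_lit 168) (nat_lit 5) (nat_lit 498) (nat_lit 426) (nat_lit 216)) (XT.lf (nat_lit 0) (nat_lit 5414447009) (nat_lit 532) (nat_lit 16697852328) (nat_lit 76) (nat_lit 1120524454) (nat_lit 161) (nat_lit 5) (nat_lit 168) (nat_lit 5) (nat_lit 162) (nat_lit 5) (nat_lit 499) (nat_lit 426) (nat_lit 215))))) (XT.nd (nat_lit 53742) (nat_lit 0) (nat_lit 21584) (XT.nd (nat_lit 53664) (nat_lit 0) (nat_lit 21584) (XT.lf (nat_lit 0) (nat_lit 9761787614) (nat_lit 532) (nat_lit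 4237092665) (nat_lit 76) (nat_lit 9524738884) (nat_lit 161) (nat_lit 5) (nat_lit 168) (nat_lit 5) (nat_lit 162) (nat_lit 5) (nat_lit 500) (nat_lit 426) (nat_lit 214)) (XT.lf (nat_lit 0) (nat_lit 1379919809) (nat_lit 0) (nat_lit 1379919809) (nat_lit 1596) (nat_lit 2614412608) (nat_lit 445) (nat_lit 5) (nat_lit 445) (nat_lit 3) (nat_lit 466) (nat_lit 3) (nat_lit 427) (nat_lit 427) (nat_lit 286))) (XT.nd (nat_lit 78) (nat_lit 0) (nat_lit 0) (XT.lf (nat_lit 0) (nat_lit 6175885069) (nat_lit 1596) (nat_lit 2897368362) (nat_lit 1672) (nat_lit 1770449829) (nat_lit 445) (nat_lit 5) (nat_lit 466) (nat_lit 3) (nat_lit 467) (nat_lit 5) (nat_lit 428) (nat_lit 427) (nat_lit 285)) (XT.nd (nat_lit 78) (nat_lit 0) (nat_lit 76) (XT.lf (nat_lit 76) (nat_lit 2299539910) (nat_lit 0) (nat_lit 4563473354) (nat_lit 1672) (nat_lit 4077443792) (nat_lit 446) (nat_lit 5) (nat_lit 445) (nat_lit 5) (nat_lit 467) (nat_lit 5) (nat_lit 429) (nat_lit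 427) (nat_lit 284)) (XT.lf (nat_lit 0) (nat_lit 7568579796) (nat_lit 1596) (nat_lit 3407860782) (nat_lit 1672) (nat_lit 62618275) (nat_lit 446) (nat_lit 5) (nat_lit 467) (nat_lit 5) (nat_lit 468) (nat_lit 5) (nat_lit 430) (nat_lit 427) (nat_lit 283)))))) (XT.nd (nat_lit 390) (nat_lit 0) (nat_lit 0) (XT.nd (nat_lit 156) (nat_lit 1520) (nat_lit 0) (XT.nd (nat_lit 78) (nat_lit 0) (nat_lit 0) (XT.lf (nat_lit 76) (nat_lit 1916536544) (nat_lit 0) (nat_lit 6399569697) (nat_lit 1672) (nat_lit 2822976182) (nat_lit 447) (nat_lit 5) (nat_lit 446) (nat_lit 5) (nat_lit 468) (nat_lit 5) (nat_lit 431) (nat_lit 427) (nat_lit 282)) (XT.lf (nat_lit 76) (nat_lit 7385436232) (nat_lit 0) (nat_lit 1701436412) (nat_lit 1672) (nat_lit 2154074608) (nat_lit 447) (nat_lit 5) (nat_lit 446) (nat_lit 5) (nat_lit 468) (nat_lit 5) (nat_lit 432) (nat_lit 427) (nat_lit 281))) (XT.nd (nat_lit 78) (nat_lit 1596) (nat_lit 0) (XT.lf (nat_lit 76) (nat_lit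 1611581415) (nat_lit 0) (nat_lit 8277750512) (nat_lit 1672) (nat_lit 1455198346) (nat_lit 448) (nat_lit 5) (nat_lit 447) (nat_lit 5) (nat_lit 469) (nat_lit 5) (nat_lit 433) (nat_lit 427) (nat_lit 280)) (XT.nd (nat_lit 78) (nat_lit 1596) (nat_lit 0) (XT.lf (nat_lit 76) (nat_lit 7220562897) (nat_lit 0) (nat_lit 3510316740) (nat_lit 1672) (nat_lit 718850854) (nat_lit 448) (nat_lit 5) (nat_lit 447) (nat_lit 5) (nat_lit 469) (nat_lit 5) (nat_lit 434) (nat_lit 427) (nat_lit 279)) (XT.lf (nat_lit 0) (nat_lit 35883855) (nat_lit 1672) (nat_lit 10171567534) (nat_lit 1748) (nat_lit 1349503559) (nat_lit 426) (nat_lit 5) (nat_lit 448) (nat_lit 5) (nat_lit 449) (nat_lit 5) (nat_lit 435) (nat_lit 427) (nat_lit 278))))) (XT.nd (nat_lit 234) (nat_lit 0) (nat_lit 76) (XT.nd (nat_lit 78) (nat_lit 0) (nat_lit 0) (XT.lf (nat_lit 0) (nat_lit 834315445) (nat_lit 1672) (nat_lit 4532974742) (nat_lit 1748) (nat_lit 6298180078) (nat_lit 426) (nat_lit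 5) (nat_lit 448) (nat_lit 5) (nat_lit 449) (nat_lit 5) (nat_lit 436) (nat_lit 427) (nat_lit 277)) (XT.nd (nat_lit 78) (nat_lit 0) (nat_lit 76) (XT.lf (nat_lit 76) (nat_lit 1226054363) (nat_lit 0) (nat_lit 417291839) (nat_lit 1748) (nat_lit 10132922916) (nat_lit 427) (nat_lit 5) (nat_lit 426) (nat_lit 5) (nat_lit 449) (nat_lit 5) (nat_lit 437) (nat_lit 427) (nat_lit 276)) (XT.lf (nat_lit 0) (nat_lit 2516157971) (nat_lit 1672) (nat_lit 4765898618) (nat_lit 1748) (nat_lit 4606281076) (nat_lit 427) (nat_lit 5) (nat_lit 449) (nat_lit 5) (nat_lit 450) (nat_lit 5) (nat_lit 438) (nat_lit 427) (nat_lit 275)))) (XT.nd (nat_lit 78) (nat_lit 0) (nat_lit 76) (XT.lf (nat_lit 76) (nat_lit 1137773003) (nat_lit 0) (nat_lit 2265968563) (nat_lit 1748) (nat_lit 8598965317) (nat_lit 428) (nat_lit 5) (nat_lit 427) (nat_lit 5) (nat_lit 450) (nat_lit 5) (nat_lit 439) (nat_lit 427) (nat_lit 274)) (XT.nd (nat_lit 78) (nat_lit 0) (nat_lit 0) (XT.lf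 (nat_lit 0) (nat_lit 4347166382) (nat_lit 1672) (nat_lit 4922040667) (nat_lit 1748) (nat_lit 2849400150) (nat_lit 428) (nat_lit 5) (nat_lit 450) (nat_lit 5) (nat_lit 451) (nat_lit 5) (nat_lit 440) (nat_lit 427) (nat_lit 273)) (XT.lf (nat_lit 76) (nat_lit 1130988955) (nat_lit 0) (nat_lit 4188456659) (nat_lit 1748) (nat_lit 6917185582) (nat_lit 429) (nat_lit 5) (nat_lit 428) (nat_lit 5) (nat_lit 451) (nat_lit 5) (nat_lit 441) (nat_lit 427) (nat_lit 272))))))))
noncomputable def xc205 : XT := (XT.nd (nat_lit 1638) (nat_lit 8664) (nat_lit 0) (XT.nd (nat_lit 780) (nat_lit 5320) (nat_lit 0) (XT.nd (nat_lit 390) (nat_lit 1596) (nat_lit 0) (XT.nd (nat_lit 156) (nat_lit 0) (nat_lit 0) (XT.nd (nat_lit 78) (nat_lit 0) (nat_lit 0) (XT.lf (nat_lit 0) (nat_lit 6338719357) (nat_lit 1672) (nat_lit 4999992874) (nat_lit 1748) (nat_lit 1017757754) (nat_lit 429) (nat_lit 5) (nat_lit 451) (nat_lit 5) (nat_lit 452) (nat_lit 5) (nat_lit 442)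 (nat_lit 427) (nat_lit 271)) (XT.lf (nat_lit 76) (nat_lit 1207272140) (nat_lit 0) (nat_lit 6194768838) (nat_lit 1748) (nat_lit 5076196509) (nat_lit 430) (nat_lit 5) (nat_lit 429) (nat_lit 5) (nat_lit 452) (nat_lit 5) (nat_lit 443) (nat_lit 427) (nat_lit 270))) (XT.nd (nat_lit 78) (nat_lit 0) (nat_lit 76) (XT.lf (nat_lit 76) (nat_lit 7597922398) (nat_lit 0) (nat_lit 910523274) (nat_lit 1748) (nat_lit 4093563416) (nat_lit 430) (nat_lit 5) (nat_lit 429) (nat_lit 5) (nat_lit 452) (nat_lit 5) (nat_lit 444) (nat_lit 427) (nat_lit 269)) (XT.nd (nat_lit 78) (nat_lit 0) (nat_lit 0) (XT.lf (nat_lit 76) (nat_lit 1368368286) (nat_lit 0) (nat_lit 8295092353) (nat_lit 1748) (nat_lit 3064270824) (nat_lit 431) (nat_lit 5) (nat_lit 430) (nat_lit 5) (nat_lit 453) (nat_lit 5) (nat_lit 445) (nat_lit 427) (nat_lit 268)) (XT.lf (nat_lit 76) (nat_lit 7921426359) (nat_lit 0) (nat_lit 2948404005) (nat_lit 1748) (nat_lit 1985577717) (nat_lit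 431) (nat_lit 5) (nat_lit 430) (nat_lit 5) (nat_lit 453) (nat_lit 5) (nat_lit 446) (nat_lit 427) (nat_lit 267))))) (XT.nd (nat_lit 156) (nat_lit 0) (nat_lit 76) (XT.nd (nat_lit 78) (nat_lit 1748) (nat_lit 0) (XT.lf (nat_lit 76) (nat_lit 1616194707) (nat_lit 0) (nat_lit 10499815216) (nat_lit 1748) (nat_lit 869319452) (nat_lit 432) (nat_lit 5) (nat_lit 431) (nat_lit 5) (nat_lit 454) (nat_lit 5) (nat_lit 447) (nat_lit 427) (nat_lit 266)) (XT.lf (nat_lit 0) (nat_lit 307595276) (nat_lit 1748) (nat_lit 4783161791) (nat_lit 1824) (nat_lit 8026224412) (nat_lit 408) (nat_lit 5) (nat_lit 431) (nat_lit 5) (nat_lit 432) (nat_lit 5) (nat_lit 448) (nat_lit 427) (nat_lit 265))) (XT.nd (nat_lit 78) (nat_lit 0) (nat_lit 0) (XT.lf (nat_lit 0) (nat_lit 1501180615) (nat_lit 1748) (nat_lit 11308298296) (nat_lit 1824) (nat_lit 441581854) (nat_lit 409) (nat_lit 5) (nat_lit 432) (nat_lit 5) (nat_lit 433) (nat_lit 5) (nat_lit 449) (nat_lit 427)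 (nat_lit 264)) (XT.nd (nat_lit 78) (nat_lit 0) (nat_lit 0) (XT.lf (nat_lit 0) (nat_lit 2774054674) (nat_lit 1748) (nat_lit 4561804110) (nat_lit 1824) (nat_lit 6050858939) (nat_lit 409) (nat_lit 5) (nat_lit 432) (nat_lit 5) (nat_lit 433) (nat_lit 5) (nat_lit 450) (nat_lit 427) (nat_lit 263)) (XT.lf (nat_lit 76) (nat_lit 2341763525) (nat_lit 0) (nat_lit 1735428235) (nat_lit 1824) (nat_lit 9447804287) (nat_lit 410) (nat_lit 5) (nat_lit 409) (nat_lit 5) (nat_lit 433) (nat_lit 5) (nat_lit 451) (nat_lit 427) (nat_lit 262)))))) (XT.nd (nat_lit 390) (nat_lit 2660) (nat_lit 0) (XT.nd (nat_lit 156) (nat_lit 1064) (nat_lit 0) (XT.nd (nat_lit 78) (nat_lit 1748) (nat_lit 0) (XT.lf (nat_lit 0) (nat_lit 5452788989) (nat_lit 1748) (nat_lit 4254946095) (nat_lit 76) (nat_lit 3957381159) (nat_lit 410) (nat_lit 5) (nat_lit 433) (nat_lit 5) (nat_lit 411) (nat_lit 5) (nat_lit 452) (nat_lit 427) (nat_lit 261)) (XT.lf (nat_lit 0) (nat_lit 2828953384)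 (nat_lit 1748) (nat_lit 4046767054) (nat_lit 1824) (nat_lit 6931926130) (nat_lit 387) (nat_lit 5) (nat_lit 410) (nat_lit 5) (nat_lit 411) (nat_lit 5) (nat_lit 453) (nat_lit 427) (nat_lit 260))) (XT.nd (nat_lit 78) (nat_lit 1064) (nat_lit 0) (XT.lf (nat_lit 0) (nat_lit 8357180660) (nat_lit 1824) (nat_lit 3860370049) (nat_lit 76) (nat_lit 1734879477) (nat_lit 387) (nat_lit 5) (nat_lit 411) (nat_lit 5) (nat_lit 388) (nat_lit 5) (nat_lit 454) (nat_lit 427) (nat_lit 259)) (XT.nd (nat_lit 78) (nat_lit 0) (nat_lit 0) (XT.lf (nat_lit 0) (nat_lit 3409692691) (nat_lit 1064) (nat_lit 6497821596) (nat_lit 1140) (nat_lit 4191814313) (nat_lit 373) (nat_lit 5) (nat_lit 387) (nat_lit 5) (nat_lit 388) (nat_lit 5) (nat_lit 455) (nat_lit 427) (nat_lit 258)) (XT.lf (nat_lit 0) (nat_lit 10868995433) (nat_lit 1064) (nat_lit 636205654) (nat_lit 1140) (nat_lit 2743640896) (nat_lit 373) (nat_lit 5) (nat_lit 387) (nat_lit 5) (nat_lit 388) (nat_lit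 5) (nat_lit 456) (nat_lit 427) (nat_lit 257))))) (XT.nd (nat_lit 234) (nat_lit 836) (nat_lit 0) (XT.nd (nat_lit 78) (nat_lit 912) (nat_lit 0) (XT.lf (nat_lit 0) (nat_lit 4086524921) (nat_lit 912) (nat_lit 9100172726) (nat_lit 988) (nat_lit 1213614719) (nat_lit 361) (nat_lit 5) (nat_lit 373) (nat_lit 5) (nat_lit 374) (nat_lit 5) (nat_lit 457) (nat_lit 427) (nat_lit 256)) (XT.nd (nat_lit 78) (nat_lit 836) (nat_lit 0) (XT.lf (nat_lit 0) (nat_lit 360204265) (nat_lit 988) (nat_lit 2821528978) (nat_lit 76) (nat_lit 11372682687) (nat_lit 360) (nat_lit 5) (nat_lit 373) (nat_lit 5) (nat_lit 361) (nat_lit 5) (nat_lit 458) (nat_lit 427) (nat_lit 255)) (XT.lf (nat_lit 0) (nat_lit 1990556356) (nat_lit 912) (nat_lit 9861841139) (nat_lit 76) (nat_lit 2858221121) (nat_lit 349) (nat_lit 5) (nat_lit 361) (nat_lit 5) (nat_lit 350) (nat_lit 5) (nat_lit 459) (nat_lit 427) (nat_lit 254)))) (XT.nd (nat_lit 78) (nat_lit 836) (nat_lit 0) (XT.lf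 (nat_lit 0) (nat_lit 3684656161) (nat_lit 912) (nat_lit 2188582560) (nat_lit 76) (nat_lit 8996087381) (nat_lit 349) (nat_lit 5) (nat_lit 361) (nat_lit 5) (nat_lit 350) (nat_lit 5) (nat_lit 460) (nat_lit 427) (nat_lit 253)) (XT.nd (nat_lit 78) (nat_lit 0) (nat_lit 0) (XT.lf (nat_lit 0) (nat_lit 5442574496) (nat_lit 912) (nat_lit 9327789536) (nat_lit 76) (nat_lit 260248465) (nat_lit 338) (nat_lit 5) (nat_lit 350) (nat_lit 5) (nat_lit 339) (nat_lit 5) (nat_lit 461) (nat_lit 427) (nat_lit 252)) (XT.lf (nat_lit 0) (nat_lit 7280638203) (nat_lit 912) (nat_lit 1460613120) (nat_lit 76) (nat_lit 6452976977) (nat_lit 338) (nat_lit 5) (nat_lit 350) (nat_lit 5) (nat_lit 339) (nat_lit 5) (nat_lit 462) (nat_lit 427) (nat_lit 251))))))) (XT.nd (nat_lit 858) (nat_lit 3952) (nat_lit 0) (XT.nd (nat_lit 390) (nat_lit 2204) (nat_lit 0) (XT.nd (nat_lit 156) (nat_lit 1672) (nat_lit 0) (XT.nd (nat_lit 78) (nat_lit 0) (nat_lit 0) (XT.lf (nat_lit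 0) (nat_lit 6642680940) (nat_lit 836) (nat_lit 2547388958) (nat_lit 912) (nat_lit 6170357741) (nat_lit 327) (nat_lit 5) (nat_lit 338) (nat_lit 5) (nat_lit 339) (nat_lit 5) (nat_lit 463) (nat_lit 427) (nat_lit 250)) (XT.lf (nat_lit 0) (nat_lit 11163628292) (nat_lit 912) (nat_lit 634922745) (nat_lit 76) (nat_lit 3730884455) (nat_lit 327) (nat_lit 5) (nat_lit 339) (nat_lit 5) (nat_lit 328) (nat_lit 5) (nat_lit 464) (nat_lit 427) (nat_lit 249))) (XT.nd (nat_lit 78) (nat_lit 836) (nat_lit 0) (XT.lf (nat_lit 0) (nat_lit 7685182902) (nat_lit 836) (nat_lit 5549999297) (nat_lit 912) (nat_lit 2465474040) (nat_lit 316) (nat_lit 5) (nat_lit 327) (nat_lit 5) (nat_lit 328) (nat_lit 5) (nat_lit 465) (nat_lit 427) (nat_lit 248)) (XT.nd (nat_lit 78) (nat_lit 76) (nat_lit 0) (XT.lf (nat_lit 0) (nat_lit 295169352) (nat_lit 760) (nat_lit 15056414340) (nat_lit 836) (nat_lit 523652539) (nat_lit 306) (nat_lit 5) (nat_lit 316) (nat_lit 5) (nat_lit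 317) (nat_lit 5) (nat_lit 466) (nat_lit 427) (nat_lit 247)) (XT.lf (nat_lit 0) (nat_lit 1520709106) (nat_lit 836) (nat_lit 7226589315) (nat_lit 76) (nat_lit 7304166991) (nat_lit 305) (nat_lit 5) (nat_lit 316) (nat_lit 5) (nat_lit 306) (nat_lit 5) (nat_lit 467) (nat_lit 427) (nat_lit 246))))) (XT.nd (nat_lit 234) (nat_lit 760) (nat_lit 0) (XT.nd (nat_lit 78) (nat_lit 684) (nat_lit 0) (XT.lf (nat_lit 0) (nat_lit 1299232532) (nat_lit 760) (nat_lit 2300227723) (nat_lit 836) (nat_lit 12631682394) (nat_lit 295) (nat_lit 5) (nat_lit 305) (nat_lit 5) (nat_lit 306) (nat_lit 5) (nat_lit 468) (nat_lit 427) (nat_lit 245)) (XT.nd (nat_lit 78) (nat_lit 684) (nat_lit 0) (XT.lf (nat_lit 0) (nat_lit 5788534206) (nat_lit 836) (nat_lit 6356395985) (nat_lit 76) (nat_lit 4268111204) (nat_lit 295) (nat_lit 5) (nat_lit 306) (nat_lit 5) (nat_lit 296) (nat_lit 5) (nat_lit 469) (nat_lit 427) (nat_lit 244)) (XT.lf (nat_lit 0) (nat_lit 2398618951)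 (nat_lit 684) (nat_lit 5645902089) (nat_lit 760) (nat_lit 8553597310) (nat_lit 286) (nat_lit 5) (nat_lit 295) (nat_lit 5) (nat_lit 296) (nat_lit 5) (nat_lit 470) (nat_lit 427) (nat_lit 243)))) (XT.nd (nat_lit 78) (nat_lit 760) (nat_lit 0) (XT.lf (nat_lit 0) (nat_lit 10387365994) (nat_lit 760) (nat_lit 5386143187) (nat_lit 76) (nat_lit 1012555703) (nat_lit 286) (nat_lit 5) (nat_lit 296) (nat_lit 5) (nat_lit 287) (nat_lit 5) (nat_lit 471) (nat_lit 427) (nat_lit 242)) (XT.nd (nat_lit 78) (nat_lit 0) (nat_lit 0) (XT.lf (nat_lit 0) (nat_lit 3605205555) (nat_lit 760) (nat_lit 9225226577) (nat_lit 836) (nat_lit 4146273681) (nat_lit 276) (nat_lit 5) (nat_lit 286) (nat_lit 5) (nat_lit 287) (nat_lit 5) (nat_lit 472) (nat_lit 427) (nat_lit 241)) (XT.lf (nat_lit 0) (nat_lit 12841278161) (nat_lit 760) (nat_lit 2509885178) (nat_lit 836) (nat_lit 1819422845) (nat_lit 276) (nat_lit 5) (nat_lit 286) (nat_lit 5) (nat_lit 287) (nat_lit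 5) (nat_lit 473) (nat_lit 427) (nat_lit 240)))))) (XT.nd (nat_lit 390) (nat_lit 1900) (nat_lit 0) (XT.nd (nat_lit 156) (nat_lit 1292) (nat_lit 0) (XT.nd (nat_lit 78) (nat_lit 0) (nat_lit 0) (XT.lf (nat_lit 0) (nat_lit 599980044) (nat_lit 760) (nat_lit 12449227190) (nat_lit 76) (nat_lit 4318001979) (nat_lit 266) (nat_lit 5) (nat_lit 276) (nat_lit 5) (nat_lit 267) (nat_lit 5) (nat_lit 474) (nat_lit 427) (nat_lit 239)) (XT.lf (nat_lit 0) (nat_lit 3082135990) (nat_lit 760) (nat_lit 3195284899) (nat_lit 76) (nat_lit 11289331287) (nat_lit 266) (nat_lit 5) (nat_lit 276) (nat_lit 5) (nat_lit 267) (nat_lit 5) (nat_lit 475) (nat_lit 427) (nat_lit 238))) (XT.nd (nat_lit 78) (nat_lit 608) (nat_lit 0) (XT.lf (nat_lit 0) (nat_lit 5652292938) (nat_lit 760) (nat_lit 11455337910) (nat_lit 76) (nat_lit 661890485) (nat_lit 257) (nat_lit 5) (nat_lit 267) (nat_lit 5) (nat_lit 258) (nat_lit 5) (nat_lit 476) (nat_lit 427) (nat_lit 237)) (XT.nd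 (nat_lit 78) (nat_lit 608) (nat_lit 0) (XT.lf (nat_lit 0) (nat_lit 8330067775) (nat_lit 760) (nat_lit 1968540588) (nat_lit 76) (nat_lit 7676615658) (nat_lit 257) (nat_lit 5) (nat_lit 267) (nat_lit 5) (nat_lit 258) (nat_lit 5) (nat_lit 477) (nat_lit 427) (nat_lit 236)) (XT.lf (nat_lit 0) (nat_lit 7802417618) (nat_lit 608) (nat_lit 3302833452) (nat_lit 684) (nat_lit 7078915029) (nat_lit 249) (nat_lit 5) (nat_lit 257) (nat_lit 5) (nat_lit 258) (nat_lit 5) (nat_lit 478) (nat_lit 427) (nat_lit 235))))) (XT.nd (nat_lit 234) (nat_lit 608) (nat_lit 0) (XT.nd (nat_lit 78) (nat_lit 1292) (nat_lit 0) (XT.lf (nat_lit 0) (nat_lit 13967390516) (nat_lit 684) (nat_lit 634499311) (nat_lit 76) (nat_lit 3794770489) (nat_lit 249) (nat_lit 5) (nat_lit 258) (nat_lit 5) (nat_lit 250) (nat_lit 5) (nat_lit 479) (nat_lit 427) (nat_lit 234)) (XT.nd (nat_lit 78) (nat_lit 684) (nat_lit 0) (XT.lf (nat_lit 0) (nat_lit 9401295338) (nat_lit 608) (nat_lit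 7561791503) (nat_lit 684) (nat_lit 1648793598) (nat_lit 241) (nat_lit 5) (nat_lit 249) (nat_lit 5) (nat_lit 250) (nat_lit 5) (nat_lit 480) (nat_lit 427) (nat_lit 233)) (XT.lf (nat_lit 0) (nat_lit 810110656) (nat_lit 608) (nat_lit 364590795) (nat_lit 684) (nat_lit 17656491936) (nat_lit 232) (nat_lit 5) (nat_lit 240) (nat_lit 5) (nat_lit 241) (nat_lit 5) (nat_lit 481) (nat_lit 427) (nat_lit 232)))) (XT.nd (nat_lit 78) (nat_lit 608) (nat_lit 0) (XT.lf (nat_lit 0) (nat_lit 4133627779) (nat_lit 684) (nat_lit 7962144750) (nat_lit 76) (nat_lit 6956883488) (nat_lit 232) (nat_lit 5) (nat_lit 241) (nat_lit 5) (nat_lit 233) (nat_lit 5) (nat_lit 482) (nat_lit 427) (nat_lit 231)) (XT.nd (nat_lit 78) (nat_lit 0) (nat_lit 0) (XT.lf (nat_lit 0) (nat_lit 2318180793) (nat_lit 608) (nat_lit 4844649351) (nat_lit 684) (nat_lit 12115497934) (nat_lit 224) (nat_lit 5) (nat_lit 232) (nat_lit 5) (nat_lit 233) (nat_lit 5) (nat_lit 483) (nat_lit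 427) (nat_lit 230)) (XT.lf (nat_lit 0) (nat_lit 10316663788) (nat_lit 684) (nat_lit 6620170507) (nat_lit 76) (nat_lit 2570400425) (nat_lit 224) (nat_lit 5) (nat_lit 233) (nat_lit 5) (nat_lit 225) (nat_lit 5) (nat_lit 484) (nat_lit 427) (nat_lit 229))))))))
noncomputable def xc206 : XT := (XT.nd (nat_lit 55302) (nat_lit 0) (nat_lit 17176) (XT.nd (nat_lit 780) (nat_lit 1444) (nat_lit 0) (XT.nd (nat_lit 390) (nat_lit 1596) (nat_lit 0) (XT.nd (nat_lit 156) (nat_lit 1216) (nat_lit 0) (XT.nd (nat_lit 78) (nat_lit 0) (nat_lit 0) (XT.lf (nat_lit 0) (nat_lit 3938482315) (nat_lit 532) (nat_lit 9646567584) (nat_lit 608) (nat_lit 6154642124) (nat_lit 217) (nat_lit 5) (nat_lit 224) (nat_lit 5) (nat_lit 225) (nat_lit 5) (nat_lit 485) (nat_lit 427) (nat_lit 228)) (XT.lf (nat_lit 0) (nat_lit 14790403339) (nat_lit 532) (nat_lit 2166717544) (nat_lit 608) (nat_lit 3018913251) (nat_lit 217) (nat_lit 5) (nat_lit 224) (nat_lit 5) (nat_lit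 225) (nat_lit 5) (nat_lit 486) (nat_lit 427) (nat_lit 227))) (XT.nd (nat_lit 78) (nat_lit 532) (nat_lit 0) (XT.lf (nat_lit 0) (nat_lit 243919534) (nat_lit 684) (nat_lit 14543786469) (nat_lit 76) (nat_lit 5428040819) (nat_lit 208) (nat_lit 5) (nat_lit 217) (nat_lit 5) (nat_lit 209) (nat_lit 5) (nat_lit 487) (nat_lit 427) (nat_lit 226)) (XT.nd (nat_lit 78) (nat_lit 532) (nat_lit 0) (XT.lf (nat_lit 0) (nat_lit 3575031091) (nat_lit 684) (nat_lit 3684770554) (nat_lit 76) (nat_lit 13199186001) (nat_lit 208) (nat_lit 5) (nat_lit 217) (nat_lit 5) (nat_lit 209) (nat_lit 5) (nat_lit 488) (nat_lit 427) (nat_lit 225)) (XT.lf (nat_lit 0) (nat_lit 7018519513) (nat_lit 608) (nat_lit 13227202183) (nat_lit 76) (nat_lit 460458350) (nat_lit 201) (nat_lit 5) (nat_lit 209) (nat_lit 5) (nat_lit 202) (nat_lit 5) (nat_lit 489) (nat_lit 427) (nat_lit 224))))) (XT.nd (nat_lit 156) (nat_lit 1064) (nat_lit 0) (XT.nd (nat_lit 78) (nat_lit 532) (nat_lit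 0) (XT.lf (nat_lit 0) (nat_lit 10598048883) (nat_lit 608) (nat_lit 2097658527) (nat_lit 76) (nat_lit 8261267275) (nat_lit 201) (nat_lit 5) (nat_lit 209) (nat_lit 5) (nat_lit 202) (nat_lit 5) (nat_lit 490) (nat_lit 427) (nat_lit 223)) (XT.lf (nat_lit 0) (nat_lit 9369968605) (nat_lit 532) (nat_lit 4934352482) (nat_lit 608) (nat_lit 6907362864) (nat_lit 194) (nat_lit 5) (nat_lit 201) (nat_lit 5) (nat_lit 202) (nat_lit 5) (nat_lit 491) (nat_lit 427) (nat_lit 222))) (XT.nd (nat_lit 78) (nat_lit 1064) (nat_lit 0) (XT.lf (nat_lit 0) (nat_lit 18112619685) (nat_lit 608) (nat_lit 402729604) (nat_lit 76) (nat_lit 2955581840) (nat_lit 194) (nat_lit 5) (nat_lit 202) (nat_lit 5) (nat_lit 195) (nat_lit 5) (nat_lit 492) (nat_lit 427) (nat_lit 221)) (XT.nd (nat_lit 78) (nat_lit 532) (nat_lit 0) (XT.lf (nat_lit 0) (nat_lit 359961717) (nat_lit 532) (nat_lit 10361484336) (nat_lit 76) (nat_lit 11011851424) (nat_lit 187) (nat_lit 5) (nat_lit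 194) (nat_lit 5) (nat_lit 188) (nat_lit 5) (nat_lit 493) (nat_lit 427) (nat_lit 220)) (XT.lf (nat_lit 0) (nat_lit 1374891271) (nat_lit 532) (nat_lit 2738932914) (nat_lit 608) (nat_lit 17886520811) (nat_lit 180) (nat_lit 5) (nat_lit 187) (nat_lit 5) (nat_lit 188) (nat_lit 5) (nat_lit 494) (nat_lit 427) (nat_lit 219)))))) (XT.nd (nat_lit 390) (nat_lit 456) (nat_lit 0) (XT.nd (nat_lit 156) (nat_lit 532) (nat_lit 0) (XT.nd (nat_lit 78) (nat_lit 456) (nat_lit 0) (XT.lf (nat_lit 0) (nat_lit 8042387735) (nat_lit 608) (nat_lit 8827818820) (nat_lit 76) (nat_lit 5400536045) (nat_lit 180) (nat_lit 5) (nat_lit 188) (nat_lit 5) (nat_lit 181) (nat_lit 5) (nat_lit 495) (nat_lit 427) (nat_lit 218)) (XT.lf (nat_lit 0) (nat_lit 3222659454) (nat_lit 456) (nat_lit 8860583208) (nat_lit 532) (nat_lit 10462632673) (nat_lit 174) (nat_lit 5) (nat_lit 180) (nat_lit 5) (nat_lit 181) (nat_lit 5) (nat_lit 496) (nat_lit 427) (nat_lit 217))) (XT.nd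 (nat_lit 78) (nat_lit 532) (nat_lit 0) (XT.lf (nat_lit 0) (nat_lit 15626621851) (nat_lit 456) (nat_lit 632248055) (nat_lit 532) (nat_lit 6566563262) (nat_lit 174) (nat_lit 5) (nat_lit 180) (nat_lit 5) (nat_lit 181) (nat_lit 5) (nat_lit 497) (nat_lit 427) (nat_lit 216)) (XT.nd (nat_lit 78) (nat_lit 76) (nat_lit 0) (XT.lf (nat_lit 0) (nat_lit 5178469688) (nat_lit 456) (nat_lit 15418356774) (nat_lit 532) (nat_lit 2512180881) (nat_lit 168) (nat_lit 5) (nat_lit 174) (nat_lit 5) (nat_lit 175) (nat_lit 5) (nat_lit 498) (nat_lit 427) (nat_lit 215)) (XT.lf (nat_lit 0) (nat_lit 1649641886) (nat_lit 532) (nat_lit 5518619325) (nat_lit 76) (nat_lit 16228829611) (nat_lit 167) (nat_lit 5) (nat_lit 174) (nat_lit 5) (nat_lit 168) (nat_lit 5) (nat_lit 499) (nat_lit 427) (nat_lit 214))))) (XT.nd (nat_lit 53898) (nat_lit 0) (nat_lit 21584) (XT.nd (nat_lit 53742) (nat_lit 0) (nat_lit 21584) (XT.lf (nat_lit 0) (nat_lit 5911354578) (nat_lit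 532) (nat_lit 16485802822) (nat_lit 76) (nat_lit 1292442061) (nat_lit 161) (nat_lit 5) (nat_lit 168) (nat_lit 5) (nat_lit 162) (nat_lit 5) (nat_lit 500) (nat_lit 427) (nat_lit 213)) (XT.nd (nat_lit 78) (nat_lit 0) (nat_lit 0) (XT.lf (nat_lit 0) (nat_lit 1700285614) (nat_lit 0) (nat_lit 1700285614) (nat_lit 1596) (nat_lit 2069191016) (nat_lit 445) (nat_lit 5) (nat_lit 445) (nat_lit 3) (nat_lit 466) (nat_lit 3) (nat_lit 428) (nat_lit 428) (nat_lit 284)) (XT.lf (nat_lit 0) (nat_lit 7443783118) (nat_lit 1596) (nat_lit 2354054403) (nat_lit 1672) (nat_lit 1239333901) (nat_lit 445) (nat_lit 5) (nat_lit 466) (nat_lit 3) (nat_lit 467) (nat_lit 5) (nat_lit 429) (nat_lit 428) (nat_lit 283)))) (XT.nd (nat_lit 78) (nat_lit 0) (nat_lit 0) (XT.lf (nat_lit 76) (nat_lit 2942836367) (nat_lit 0) (nat_lit 5183256783) (nat_lit 1672) (nat_lit 3010148520) (nat_lit 446) (nat_lit 5) (nat_lit 445) (nat_lit 5) (nat_lit 467) (nat_lit 5) (nat_lit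 430) (nat_lit 428) (nat_lit 282)) (XT.nd (nat_lit 78) (nat_lit 0) (nat_lit 76) (XT.lf (nat_lit 76) (nat_lit 8369844422) (nat_lit 0) (nat_lit 453431495) (nat_lit 1672) (nat_lit 2413999452) (nat_lit 446) (nat_lit 5) (nat_lit 445) (nat_lit 5) (nat_lit 467) (nat_lit 5) (nat_lit 431) (nat_lit 428) (nat_lit 281)) (XT.lf (nat_lit 76) (nat_lit 2562375073) (nat_lit 0) (nat_lit 7002802095) (nat_lit 1672) (nat_lit 1774543525) (nat_lit 447) (nat_lit 5) (nat_lit 446) (nat_lit 5) (nat_lit 468) (nat_lit 5) (nat_lit 432) (nat_lit 428) (nat_lit 280))))))) (XT.nd (nat_lit 858) (nat_lit 2888) (nat_lit 0) (XT.nd (nat_lit 390) (nat_lit 0) (nat_lit 76) (XT.nd (nat_lit 156) (nat_lit 1596) (nat_lit 0) (XT.nd (nat_lit 78) (nat_lit 0) (nat_lit 76) (XT.lf (nat_lit 76) (nat_lit 8128740836) (nat_lit 0) (nat_lit 2201387693) (nat_lit 1672) (nat_lit 1113928473) (nat_lit 447) (nat_lit 5) (nat_lit 446) (nat_lit 5) (nat_lit 468) (nat_lit 5) (nat_lit 433)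 (nat_lit 428) (nat_lit 279)) (XT.lf (nat_lit 76) (nat_lit 2260062076) (nat_lit 0) (nat_lit 8868796170) (nat_lit 1672) (nat_lit 421258402) (nat_lit 448) (nat_lit 5) (nat_lit 447) (nat_lit 5) (nat_lit 469) (nat_lit 5) (nat_lit 434) (nat_lit 428) (nat_lit 278))) (XT.nd (nat_lit 78) (nat_lit 0) (nat_lit 76) (XT.lf (nat_lit 0) (nat_lit 304919817) (nat_lit 1672) (nat_lit 3690704779) (nat_lit 1748) (nat_lit 7662173884) (nat_lit 425) (nat_lit 5) (nat_lit 447) (nat_lit 5) (nat_lit 448) (nat_lit 5) (nat_lit 435) (nat_lit 428) (nat_lit 277)) (XT.nd (nat_lit 78) (nat_lit 0) (nat_lit 0) (XT.lf (nat_lit 0) (nat_lit 1046368487) (nat_lit 1672) (nat_lit 9737506638) (nat_lit 1748) (nat_lit 983581223) (nat_lit 426) (nat_lit 5) (nat_lit 448) (nat_lit 5) (nat_lit 449) (nat_lit 5) (nat_lit 436) (nat_lit 428) (nat_lit 276)) (XT.lf (nat_lit 0) (nat_lit 1840969356) (nat_lit 1672) (nat_lit 3998641839) (nat_lit 1748) (nat_lit 6038935438) (nat_lit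 426) (nat_lit 5) (nat_lit 448) (nat_lit 5) (nat_lit 449) (nat_lit 5) (nat_lit 437) (nat_lit 428) (nat_lit 275))))) (XT.nd (nat_lit 234) (nat_lit 0) (nat_lit 152) (XT.nd (nat_lit 78) (nat_lit 0) (nat_lit 76) (XT.lf (nat_lit 76) (nat_lit 1871456057) (nat_lit 0) (nat_lit 779344711) (nat_lit 1748) (nat_lit 9341076797) (nat_lit 427) (nat_lit 5) (nat_lit 426) (nat_lit 5) (nat_lit 449) (nat_lit 5) (nat_lit 438) (nat_lit 428) (nat_lit 274)) (XT.nd (nat_lit 78) (nat_lit 0) (nat_lit 0) (XT.lf (nat_lit 0) (nat_lit 3519707739) (nat_lit 1672) (nat_lit 4230732234) (nat_lit 1748) (nat_lit 4356183066) (nat_lit 427) (nat_lit 5) (nat_lit 449) (nat_lit 5) (nat_lit 450) (nat_lit 5) (nat_lit 439) (nat_lit 428) (nat_lit 273)) (XT.lf (nat_lit 76) (nat_lit 1786864896) (nat_lit 0) (nat_lit 2623553984) (nat_lit 1748) (nat_lit 7813161419) (nat_lit 428) (nat_lit 5) (nat_lit 427) (nat_lit 5) (nat_lit 450) (nat_lit 5) (nat_lit 440) (nat_lit 428)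 (nat_lit 272)))) (XT.nd (nat_lit 78) (nat_lit 0) (nat_lit 0) (XT.lf (nat_lit 0) (nat_lit 5352320537) (nat_lit 1672) (nat_lit 4385633840) (nat_lit 1748) (nat_lit 2604260090) (nat_lit 428) (nat_lit 5) (nat_lit 450) (nat_lit 5) (nat_lit 451) (nat_lit 5) (nat_lit 441) (nat_lit 428) (nat_lit 271)) (XT.nd (nat_lit 78) (nat_lit 0) (nat_lit 76) (XT.lf (nat_lit 76) (nat_lit 1784279746) (nat_lit 0) (nat_lit 4545856209) (nat_lit 1748) (nat_lit 6132749034) (nat_lit 429) (nat_lit 5) (nat_lit 428) (nat_lit 5) (nat_lit 451) (nat_lit 5) (nat_lit 442) (nat_lit 428) (nat_lit 270)) (XT.lf (nat_lit 0) (nat_lit 7350322016) (nat_lit 1672) (nat_lit 4461829561) (nat_lit 1748) (nat_lit 773366140) (nat_lit 429) (nat_lit 5) (nat_lit 451) (nat_lit 5) (nat_lit 452) (nat_lit 5) (nat_lit 443) (nat_lit 428) (nat_lit 269)))))) (XT.nd (nat_lit 390) (nat_lit 3192) (nat_lit 0) (XT.nd (nat_lit 156) (nat_lit 0) (nat_lit 76) (XT.nd (nat_lit 78) (nat_lit 0)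 (nat_lit 0) (XT.lf (nat_lit 76) (nat_lit 1865382311) (nat_lit 0) (nat_lit 6556294304) (nat_lit 1748) (nat_lit 4288316174) (nat_lit 430) (nat_lit 5) (nat_lit 429) (nat_lit 5) (nat_lit 452) (nat_lit 5) (nat_lit 444) (nat_lit 428) (nat_lit 268)) (XT.lf (nat_lit 76) (nat_lit 8371414894) (nat_lit 0) (nat_lit 1161704415) (nat_lit 1748) (nat_lit 3303469719) (nat_lit 430) (nat_lit 5) (nat_lit 429) (nat_lit 5) (nat_lit 452) (nat_lit 5) (nat_lit 445) (nat_lit 428) (nat_lit 267))) (XT.nd (nat_lit 78) (nat_lit 0) (nat_lit 0) (XT.lf (nat_lit 76) (nat_lit 2032028681) (nat_lit 0) (nat_lit 8665099195) (nat_lit 1748) (nat_lit 2267987366) (nat_lit 431) (nat_lit 5) (nat_lit 430) (nat_lit 5) (nat_lit 453) (nat_lit 5) (nat_lit 446) (nat_lit 428) (nat_lit 266)) (XT.nd (nat_lit 78) (nat_lit 0) (nat_lit 76) (XT.lf (nat_lit 76) (nat_lit 8703671581) (nat_lit 0) (nat_lit 3207475022) (nat_lit 1748) (nat_lit 1184535474) (nat_lit 431) (nat_lit 5)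 (nat_lit 430) (nat_lit 5) (nat_lit 453) (nat_lit 5) (nat_lit 447) (nat_lit 428) (nat_lit 265)) (XT.lf (nat_lit 76) (nat_lit 2286245309) (nat_lit 0) (nat_lit 10882715975) (nat_lit 1748) (nat_lit 59513257) (nat_lit 432) (nat_lit 5) (nat_lit 431) (nat_lit 5) (nat_lit 454) (nat_lit 5) (nat_lit 448) (nat_lit 428) (nat_lit 264))))) (XT.nd (nat_lit 234) (nat_lit 1596) (nat_lit 0) (XT.nd (nat_lit 78) (nat_lit 0) (nat_lit 76) (XT.lf (nat_lit 0) (nat_lit 1114084245) (nat_lit 1748) (nat_lit 4242631452) (nat_lit 1824) (nat_lit 8006263416) (nat_lit 408) (nat_lit 5) (nat_lit 431) (nat_lit 5) (nat_lit 432) (nat_lit 5) (nat_lit 449) (nat_lit 428) (nat_lit 263)) (XT.nd (nat_lit 78) (nat_lit 0) (nat_lit 0) (XT.lf (nat_lit 0) (nat_lit 2318934166) (nat_lit 1748) (nat_lit 10885334882) (nat_lit 1824) (nat_lit 295729653) (nat_lit 409) (nat_lit 5) (nat_lit 432) (nat_lit 5) (nat_lit 433) (nat_lit 5) (nat_lit 450) (nat_lit 428) (nat_lit 262))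 (XT.lf (nat_lit 0) (nat_lit 3601820021) (nat_lit 1748) (nat_lit 4016638839) (nat_lit 1824) (nat_lit 6020225296) (nat_lit 409) (nat_lit 5) (nat_lit 432) (nat_lit 5) (nat_lit 433) (nat_lit 5) (nat_lit 451) (nat_lit 428) (nat_lit 261)))) (XT.nd (nat_lit 78) (nat_lit 1672) (nat_lit 0) (XT.lf (nat_lit 76) (nat_lit 3020813297) (nat_lit 0) (nat_lit 1899168479) (nat_lit 1824) (nat_lit 8859973351) (nat_lit 410) (nat_lit 5) (nat_lit 409) (nat_lit 5) (nat_lit 433) (nat_lit 5) (nat_lit 452) (nat_lit 428) (nat_lit 260)) (XT.nd (nat_lit 78) (nat_lit 1748) (nat_lit 0) (XT.lf (nat_lit 0) (nat_lit 6307343221) (nat_lit 1748) (nat_lit 3704169427) (nat_lit 76) (nat_lit 3911686228) (nat_lit 410) (nat_lit 5) (nat_lit 433) (nat_lit 5) (nat_lit 411) (nat_lit 5) (nat_lit 453) (nat_lit 428) (nat_lit 259)) (XT.lf (nat_lit 0) (nat_lit 3517224650) (nat_lit 1748) (nat_lit 4230992398) (nat_lit 1824) (nat_lit 6320579158) (nat_lit 387) (nat_lit 5) (nat_lit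 410) (nat_lit 5) (nat_lit 411) (nat_lit 5) (nat_lit 454) (nat_lit 428) (nat_lit 258))))))))
noncomputable def xc207 : XT := (XT.nd (nat_lit 1638) (nat_lit 6992) (nat_lit 0) (XT.nd (nat_lit 780) (nat_lit 4636) (nat_lit 0) (XT.nd (nat_lit 390) (nat_lit 2508) (nat_lit 0) (XT.nd (nat_lit 156) (nat_lit 988) (nat_lit 0) (XT.nd (nat_lit 78) (nat_lit 1064) (nat_lit 0) (XT.lf (nat_lit 0) (nat_lit 9244237580) (nat_lit 1824) (nat_lit 3302904784) (nat_lit 76) (nat_lit 1669640463) (nat_lit 387) (nat_lit 5) (nat_lit 411) (nat_lit 5) (nat_lit 388) (nat_lit 5) (nat_lit 455) (nat_lit 428) (nat_lit 257)) (XT.lf (nat_lit 0) (nat_lit 4108383733) (nat_lit 1064) (nat_lit 6707171806) (nat_lit 1140) (nat_lit 3551269955) (nat_lit 373) (nat_lit 5) (nat_lit 387) (nat_lit 5) (nat_lit 388) (nat_lit 5) (nat_lit 456) (nat_lit 428) (nat_lit 256))) (XT.nd (nat_lit 78) (nat_lit 988) (nat_lit 0) (XT.lf (nat_lit 0) (nat_lit 11704509840) (nat_lit 1064)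 (nat_lit 726766805) (nat_lit 1140) (nat_lit 2088336611) (nat_lit 373) (nat_lit 5) (nat_lit 387) (nat_lit 5) (nat_lit 388) (nat_lit 5) (nat_lit 457) (nat_lit 428) (nat_lit 255)) (XT.nd (nat_lit 78) (nat_lit 76) (nat_lit 0) (XT.lf (nat_lit 0) (nat_lit 4796937397) (nat_lit 912) (nat_lit 9339405597) (nat_lit 988) (nat_lit 537976865) (nat_lit 361) (nat_lit 5) (nat_lit 373) (nat_lit 5) (nat_lit 374) (nat_lit 5) (nat_lit 458) (nat_lit 428) (nat_lit 254)) (XT.lf (nat_lit 0) (nat_lit 1044595312) (nat_lit 988) (nat_lit 2252335587) (nat_lit 76) (nat_lit 11534759979) (nat_lit 360) (nat_lit 5) (nat_lit 373) (nat_lit 5) (nat_lit 361) (nat_lit 5) (nat_lit 459) (nat_lit 428) (nat_lit 253))))) (XT.nd (nat_lit 156) (nat_lit 1672) (nat_lit 0) (XT.nd (nat_lit 78) (nat_lit 0) (nat_lit 0) (XT.lf (nat_lit 0) (nat_lit 2698010018) (nat_lit 912) (nat_lit 9423645219) (nat_lit 76) (nat_lit 2869558556) (nat_lit 349) (nat_lit 5) (nat_lit 361) (nat_lit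 5) (nat_lit 350) (nat_lit 5) (nat_lit 460) (nat_lit 428) (nat_lit 252)) (XT.lf (nat_lit 0) (nat_lit 4412900789) (nat_lit 912) (nat_lit 1609380934) (nat_lit 76) (nat_lit 9131080709) (nat_lit 349) (nat_lit 5) (nat_lit 361) (nat_lit 5) (nat_lit 350) (nat_lit 5) (nat_lit 461) (nat_lit 428) (nat_lit 251))) (XT.nd (nat_lit 78) (nat_lit 836) (nat_lit 0) (XT.lf (nat_lit 0) (nat_lit 6196986896) (nat_lit 912) (nat_lit 8882127373) (nat_lit 76) (nat_lit 238945178) (nat_lit 338) (nat_lit 5) (nat_lit 350) (nat_lit 5) (nat_lit 339) (nat_lit 5) (nat_lit 462) (nat_lit 428) (nat_lit 250)) (XT.nd (nat_lit 78) (nat_lit 836) (nat_lit 0) (XT.lf (nat_lit 0) (nat_lit 8059153821) (nat_lit 912) (nat_lit 870003860) (nat_lit 76) (nat_lit 6556048029) (nat_lit 338) (nat_lit 5) (nat_lit 350) (nat_lit 5) (nat_lit 339) (nat_lit 5) (nat_lit 463) (nat_lit 428) (nat_lit 249)) (XT.lf (nat_lit 0) (nat_lit 7391278308) (nat_lit 836) (nat_lit 2607083798) (nat_lit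 912) (nat_lit 5656540055) (nat_lit 327) (nat_lit 5) (nat_lit 338) (nat_lit 5) (nat_lit 339) (nat_lit 5) (nat_lit 464) (nat_lit 428) (nat_lit 248)))))) (XT.nd (nat_lit 390) (nat_lit 2204) (nat_lit 0) (XT.nd (nat_lit 156) (nat_lit 1596) (nat_lit 0) (XT.nd (nat_lit 78) (nat_lit 836) (nat_lit 0) (XT.lf (nat_lit 0) (nat_lit 11999091072) (nat_lit 912) (nat_lit 31410836) (nat_lit 76) (nat_lit 3797039064) (nat_lit 327) (nat_lit 5) (nat_lit 339) (nat_lit 5) (nat_lit 328) (nat_lit 5) (nat_lit 465) (nat_lit 428) (nat_lit 247)) (XT.lf (nat_lit 0) (nat_lit 8451042909) (nat_lit 836) (nat_lit 5653003944) (nat_lit 912) (nat_lit 1898304559) (nat_lit 316) (nat_lit 5) (nat_lit 327) (nat_lit 5) (nat_lit 328) (nat_lit 5) (nat_lit 466) (nat_lit 428) (nat_lit 246))) (XT.nd (nat_lit 78) (nat_lit 760) (nat_lit 0) (XT.lf (nat_lit 0) (nat_lit 73449397) (nat_lit 836) (nat_lit 15259679098) (nat_lit 76) (nat_lit 847444805) (nat_lit 305) (nat_lit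 5) (nat_lit 316) (nat_lit 5) (nat_lit 306) (nat_lit 5) (nat_lit 467) (nat_lit 428) (nat_lit 245)) (XT.nd (nat_lit 78) (nat_lit 760) (nat_lit 0) (XT.lf (nat_lit 0) (nat_lit 2139917244) (nat_lit 836) (nat_lit 6754923826) (nat_lit 76) (nat_lit 7465656579) (nat_lit 305) (nat_lit 5) (nat_lit 316) (nat_lit 5) (nat_lit 306) (nat_lit 5) (nat_lit 468) (nat_lit 428) (nat_lit 244)) (XT.lf (nat_lit 0) (nat_lit 1937360528) (nat_lit 760) (nat_lit 2315312349) (nat_lit 836) (nat_lit 12291251301) (nat_lit 295) (nat_lit 5) (nat_lit 305) (nat_lit 5) (nat_lit 306) (nat_lit 5) (nat_lit 469) (nat_lit 428) (nat_lit 243))))) (XT.nd (nat_lit 234) (nat_lit 1520) (nat_lit 0) (XT.nd (nat_lit 78) (nat_lit 684) (nat_lit 0) (XT.lf (nat_lit 0) (nat_lit 6474328585) (nat_lit 836) (nat_lit 5871971045) (nat_lit 76) (nat_lit 4383389515) (nat_lit 295) (nat_lit 5) (nat_lit 306) (nat_lit 5) (nat_lit 296) (nat_lit 5) (nat_lit 470) (nat_lit 428) (nat_lit 242))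 (XT.nd (nat_lit 78) (nat_lit 0) (nat_lit 0) (XT.lf (nat_lit 0) (nat_lit 3054120816) (nat_lit 684) (nat_lit 5714081890) (nat_lit 760) (nat_lit 8150413752) (nat_lit 286) (nat_lit 5) (nat_lit 295) (nat_lit 5) (nat_lit 296) (nat_lit 5) (nat_lit 471) (nat_lit 428) (nat_lit 241)) (XT.lf (nat_lit 0) (nat_lit 11147154211) (nat_lit 760) (nat_lit 4887294213) (nat_lit 76) (nat_lit 1076092592) (nat_lit 286) (nat_lit 5) (nat_lit 296) (nat_lit 5) (nat_lit 287) (nat_lit 5) (nat_lit 472) (nat_lit 428) (nat_lit 240)))) (XT.nd (nat_lit 78) (nat_lit 760) (nat_lit 0) (XT.lf (nat_lit 0) (nat_lit 4279890900) (nat_lit 760) (nat_lit 9352278797) (nat_lit 836) (nat_lit 3672967312) (nat_lit 276) (nat_lit 5) (nat_lit 286) (nat_lit 5) (nat_lit 287) (nat_lit 5) (nat_lit 473) (nat_lit 428) (nat_lit 239)) (XT.nd (nat_lit 78) (nat_lit 760) (nat_lit 0) (XT.lf (nat_lit 0) (nat_lit 13688869640) (nat_lit 760) (nat_lit 2503757087) (nat_lit 836) (nat_lit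 1310485966) (nat_lit 276) (nat_lit 5) (nat_lit 286) (nat_lit 5) (nat_lit 287) (nat_lit 5) (nat_lit 474) (nat_lit 428) (nat_lit 238)) (XT.lf (nat_lit 0) (nat_lit 1143865375) (nat_lit 760) (nat_lit 12093624865) (nat_lit 76) (nat_lit 4466236657) (nat_lit 266) (nat_lit 5) (nat_lit 276) (nat_lit 5) (nat_lit 267) (nat_lit 5) (nat_lit 475) (nat_lit 428) (nat_lit 237))))))) (XT.nd (nat_lit 858) (nat_lit 3268) (nat_lit 0) (XT.nd (nat_lit 390) (nat_lit 2432) (nat_lit 0) (XT.nd (nat_lit 156) (nat_lit 608) (nat_lit 0) (XT.nd (nat_lit 78) (nat_lit 684) (nat_lit 0) (XT.lf (nat_lit 0) (nat_lit 3665235308) (nat_lit 760) (nat_lit 2666458373) (nat_lit 76) (nat_lit 11575779323) (nat_lit 266) (nat_lit 5) (nat_lit 276) (nat_lit 5) (nat_lit 267) (nat_lit 5) (nat_lit 476) (nat_lit 428) (nat_lit 236)) (XT.lf (nat_lit 0) (nat_lit 6280872861) (nat_lit 760) (nat_lit 11085608455) (nat_lit 76) (nat_lit 747938307) (nat_lit 257) (nat_lit 5) (nat_lit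 267) (nat_lit 5) (nat_lit 258) (nat_lit 5) (nat_lit 477) (nat_lit 428) (nat_lit 235))) (XT.nd (nat_lit 78) (nat_lit 608) (nat_lit 0) (XT.lf (nat_lit 0) (nat_lit 9002094683) (nat_lit 760) (nat_lit 1420817074) (nat_lit 76) (nat_lit 7901530335) (nat_lit 257) (nat_lit 5) (nat_lit 267) (nat_lit 5) (nat_lit 258) (nat_lit 5) (nat_lit 478) (nat_lit 428) (nat_lit 234)) (XT.nd (nat_lit 78) (nat_lit 0) (nat_lit 0) (XT.lf (nat_lit 0) (nat_lit 8541697834) (nat_lit 608) (nat_lit 3284960234) (nat_lit 684) (nat_lit 6711030904) (nat_lit 249) (nat_lit 5) (nat_lit 257) (nat_lit 5) (nat_lit 258) (nat_lit 5) (nat_lit 479) (nat_lit 428) (nat_lit 233)) (XT.lf (nat_lit 0) (nat_lit 14736784312) (nat_lit 684) (nat_lit 65966373) (nat_lit 76) (nat_lit 3951870929) (nat_lit 249) (nat_lit 5) (nat_lit 258) (nat_lit 5) (nat_lit 250) (nat_lit 5) (nat_lit 480) (nat_lit 428) (nat_lit 232))))) (XT.nd (nat_lit 234) (nat_lit 1140) (nat_lit 0) (XT.nd (nat_lit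 78) (nat_lit 684) (nat_lit 0) (XT.lf (nat_lit 0) (nat_lit 10166720335) (nat_lit 608) (nat_lit 7619814342) (nat_lit 684) (nat_lit 1187732013) (nat_lit 241) (nat_lit 5) (nat_lit 249) (nat_lit 5) (nat_lit 250) (nat_lit 5) (nat_lit 481) (nat_lit 428) (nat_lit 231)) (XT.nd (nat_lit 78) (nat_lit 0) (nat_lit 0) (XT.lf (nat_lit 0) (nat_lit 1406513311) (nat_lit 608) (nat_lit 273447320) (nat_lit 684) (nat_lit 17518060194) (nat_lit 232) (nat_lit 5) (nat_lit 240) (nat_lit 5) (nat_lit 241) (nat_lit 5) (nat_lit 482) (nat_lit 428) (nat_lit 230)) (XT.lf (nat_lit 0) (nat_lit 4689245686) (nat_lit 684) (nat_lit 7543585915) (nat_lit 76) (nat_lit 7191260663) (nat_lit 232) (nat_lit 5) (nat_lit 241) (nat_lit 5) (nat_lit 233) (nat_lit 5) (nat_lit 483) (nat_lit 428) (nat_lit 229)))) (XT.nd (nat_lit 78) (nat_lit 532) (nat_lit 0) (XT.lf (nat_lit 0) (nat_lit 2938544811) (nat_lit 608) (nat_lit 4834940639) (nat_lit 684) (nat_lit 11880906345) (nat_lit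 224) (nat_lit 5) (nat_lit 232) (nat_lit 5) (nat_lit 233) (nat_lit 5) (nat_lit 484) (nat_lit 428) (nat_lit 228)) (XT.nd (nat_lit 78) (nat_lit 532) (nat_lit 0) (XT.lf (nat_lit 0) (nat_lit 10981909645) (nat_lit 684) (nat_lit 6181190468) (nat_lit 76) (nat_lit 2724949217) (nat_lit 224) (nat_lit 5) (nat_lit 233) (nat_lit 5) (nat_lit 225) (nat_lit 5) (nat_lit 485) (nat_lit 428) (nat_lit 227)) (XT.lf (nat_lit 0) (nat_lit 4584876309) (nat_lit 532) (nat_lit 9725474277) (nat_lit 608) (nat_lit 5814914428) (nat_lit 217) (nat_lit 5) (nat_lit 224) (nat_lit 5) (nat_lit 225) (nat_lit 5) (nat_lit 486) (nat_lit 428) (nat_lit 226)))))) (XT.nd (nat_lit 390) (nat_lit 2052) (nat_lit 0) (XT.nd (nat_lit 156) (nat_lit 532) (nat_lit 0) (XT.nd (nat_lit 78) (nat_lit 684) (nat_lit 0) (XT.lf (nat_lit 0) (nat_lit 15642705864) (nat_lit 532) (nat_lit 2098263014) (nat_lit 608) (nat_lit 2625545889) (nat_lit 217) (nat_lit 5) (nat_lit 224) (nat_lit 5) (nat_lit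 225) (nat_lit 5) (nat_lit 487) (nat_lit 428) (nat_lit 225)) (XT.lf (nat_lit 0) (nat_lit 692195710) (nat_lit 684) (nat_lit 14267536551) (nat_lit 76) (nat_lit 5651321272) (nat_lit 208) (nat_lit 5) (nat_lit 217) (nat_lit 5) (nat_lit 209) (nat_lit 5) (nat_lit 488) (nat_lit 428) (nat_lit 224))) (XT.nd (nat_lit 78) (nat_lit 532) (nat_lit 0) (XT.lf (nat_lit 0) (nat_lit 4081235424) (nat_lit 684) (nat_lit 3202460428) (nat_lit 76) (nat_lit 13575639953) (nat_lit 208) (nat_lit 5) (nat_lit 217) (nat_lit 5) (nat_lit 209) (nat_lit 5) (nat_lit 489) (nat_lit 428) (nat_lit 223)) (XT.nd (nat_lit 78) (nat_lit 0) (nat_lit 0) (XT.lf (nat_lit 0) (nat_lit 7589452097) (nat_lit 608) (nat_lit 12931464350) (nat_lit 76) (nat_lit 590641131) (nat_lit 201) (nat_lit 5) (nat_lit 209) (nat_lit 5) (nat_lit 202) (nat_lit 5) (nat_lit 490) (nat_lit 428) (nat_lit 222)) (XT.lf (nat_lit 0) (nat_lit 11232129659) (nat_lit 608) (nat_lit 1590315741) (nat_lit 76)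 (nat_lit 8545094203) (nat_lit 201) (nat_lit 5) (nat_lit 209) (nat_lit 5) (nat_lit 202) (nat_lit 5) (nat_lit 491) (nat_lit 428) (nat_lit 221))))) (XT.nd (nat_lit 234) (nat_lit 988) (nat_lit 0) (XT.nd (nat_lit 78) (nat_lit 532) (nat_lit 0) (XT.lf (nat_lit 0) (nat_lit 10103050145) (nat_lit 532) (nat_lit 4904743234) (nat_lit 608) (nat_lit 6619646945) (nat_lit 194) (nat_lit 5) (nat_lit 201) (nat_lit 5) (nat_lit 202) (nat_lit 5) (nat_lit 492) (nat_lit 428) (nat_lit 220)) (XT.nd (nat_lit 78) (nat_lit 76) (nat_lit 0) (XT.lf (nat_lit 0) (nat_lit 133442880) (nat_lit 456) (nat_lit 18752314083) (nat_lit 532) (nat_lit 3006248044) (nat_lit 188) (nat_lit 5) (nat_lit 194) (nat_lit 5) (nat_lit 195) (nat_lit 5) (nat_lit 493) (nat_lit 428) (nat_lit 219)) (XT.lf (nat_lit 0) (nat_lit 775447014) (nat_lit 532) (nat_lit 10024257980) (nat_lit 76) (nat_lit 11359970599) (nat_lit 187) (nat_lit 5) (nat_lit 194) (nat_lit 5) (nat_lit 188) (nat_lit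 5) (nat_lit 494) (nat_lit 428) (nat_lit 218)))) (XT.nd (nat_lit 78) (nat_lit 456) (nat_lit 0) (XT.lf (nat_lit 0) (nat_lit 1943263193) (nat_lit 532) (nat_lit 2656629642) (nat_lit 608) (nat_lit 17832263498) (nat_lit 180) (nat_lit 5) (nat_lit 187) (nat_lit 5) (nat_lit 188) (nat_lit 5) (nat_lit 495) (nat_lit 428) (nat_lit 217)) (XT.nd (nat_lit 78) (nat_lit 456) (nat_lit 0) (XT.lf (nat_lit 0) (nat_lit 8599982737) (nat_lit 608) (nat_lit 8466944185) (nat_lit 76) (nat_lit 5641178213) (nat_lit 180) (nat_lit 5) (nat_lit 188) (nat_lit 5) (nat_lit 181) (nat_lit 5) (nat_lit 496) (nat_lit 428) (nat_lit 216)) (XT.lf (nat_lit 0) (nat_lit 3821007924) (nat_lit 456) (nat_lit 8896333883) (nat_lit 532) (nat_lit 10271487278) (nat_lit 174) (nat_lit 5) (nat_lit 180) (nat_lit 5) (nat_lit 181) (nat_lit 5) (nat_lit 497) (nat_lit 428) (nat_lit 215))))))))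
noncomputable def xc208 : XT := (XT.nd (nat_lit 55380) (nat_lit 0) (nat_lit 11324) (XT.nd (nat_lit 54522) (nat_lit 0) (nat_lit 19608) (XT.nd (nat_lit 54132) (nat_lit 0) (nat_lit 19608) (XT.nd (nat_lit 156) (nat_lit 76) (nat_lit 0) (XT.nd (nat_lit 78) (nat_lit 456) (nat_lit 0) (XT.lf (nat_lit 0) (nat_lit 16462581034) (nat_lit 456) (nat_lit 506205772) (nat_lit 532) (nat_lit 6305347421) (nat_lit 174) (nat_lit 5) (nat_lit 180) (nat_lit 5) (nat_lit 181) (nat_lit 5) (nat_lit 498) (nat_lit 428) (nat_lit 214)) (XT.lf (nat_lit 0) (nat_lit 5808883944) (nat_lit 456) (nat_lit 15581378058) (nat_lit 532) (nat_lit 2173184905) (nat_lit 168) (nat_lit 5) (nat_lit 174) (nat_lit 5) (nat_lit 175) (nat_lit 5) (nat_lit 499) (nat_lit 428) (nat_lit 213))) (XT.nd (nat_lit 53820) (nat_lit 0) (nat_lit 21128) (XT.lf (nat_lit 0) (nat_lit 2059237318) (nat_lit 532) (nat_lit 5107365983) (nat_lit 76) (nat_lit 16690790979) (nat_lit 167) (nat_lit 5) (nat_lit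 174) (nat_lit 5) (nat_lit 168) (nat_lit 5) (nat_lit 500) (nat_lit 428) (nat_lit 212)) (XT.nd (nat_lit 78) (nat_lit 0) (nat_lit 0) (XT.lf (nat_lit 0) (nat_lit 2015690220) (nat_lit 0) (nat_lit 2015690220) (nat_lit 1596) (nat_lit 1536267026) (nat_lit 445) (nat_lit 5) (nat_lit 445) (nat_lit 3) (nat_lit 466) (nat_lit 3) (nat_lit 429) (nat_lit 429) (nat_lit 282)) (XT.lf (nat_lit 0) (nat_lit 8692601444) (nat_lit 1596) (nat_lit 1823221875) (nat_lit 1672) (nat_lit 719594508) (nat_lit 445) (nat_lit 5) (nat_lit 466) (nat_lit 3) (nat_lit 467) (nat_lit 5) (nat_lit 430) (nat_lit 429) (nat_lit 281))))) (XT.nd (nat_lit 156) (nat_lit 1520) (nat_lit 0) (XT.nd (nat_lit 78) (nat_lit 0) (nat_lit 0) (XT.lf (nat_lit 76) (nat_lit 3575804648) (nat_lit 0) (nat_lit 5794913040) (nat_lit 1672) (nat_lit 1966118361) (nat_lit 446) (nat_lit 5) (nat_lit 445) (nat_lit 5) (nat_lit 467) (nat_lit 5) (nat_lit 431) (nat_lit 429) (nat_lit 280)) (XT.lf (nat_lit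 76) (nat_lit 9100095774) (nat_lit 0) (nat_lit 960530635) (nat_lit 1672) (nat_lit 1379697942) (nat_lit 446) (nat_lit 5) (nat_lit 445) (nat_lit 5) (nat_lit 467) (nat_lit 5) (nat_lit 432) (nat_lit 429) (nat_lit 279))) (XT.nd (nat_lit 78) (nat_lit 1596) (nat_lit 0) (XT.lf (nat_lit 76) (nat_lit 3197540104) (nat_lit 0) (nat_lit 7599644954) (nat_lit 1672) (nat_lit 748046525) (nat_lit 447) (nat_lit 5) (nat_lit 446) (nat_lit 5) (nat_lit 468) (nat_lit 5) (nat_lit 433) (nat_lit 429) (nat_lit 278)) (XT.nd (nat_lit 78) (nat_lit 1596) (nat_lit 0) (XT.lf (nat_lit 76) (nat_lit 8863783819) (nat_lit 0) (nat_lit 2693245660) (nat_lit 1672) (nat_lit 95042463) (nat_lit 447) (nat_lit 5) (nat_lit 446) (nat_lit 5) (nat_lit 468) (nat_lit 5) (nat_lit 434) (nat_lit 429) (nat_lit 277)) (XT.lf (nat_lit 0) (nat_lit 584315801) (nat_lit 1672) (nat_lit 8866903554) (nat_lit 1748) (nat_lit 2309345782) (nat_lit 425) (nat_lit 5) (nat_lit 447) (nat_lit 5)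 (nat_lit 448) (nat_lit 5) (nat_lit 435) (nat_lit 429) (nat_lit 276)))))) (XT.nd (nat_lit 390) (nat_lit 0) (nat_lit 152) (XT.nd (nat_lit 156) (nat_lit 0) (nat_lit 76) (XT.nd (nat_lit 78) (nat_lit 0) (nat_lit 76) (XT.lf (nat_lit 0) (nat_lit 1299610365) (nat_lit 1672) (nat_lit 3170242091) (nat_lit 1748) (nat_lit 7400896464) (nat_lit 425) (nat_lit 5) (nat_lit 447) (nat_lit 5) (nat_lit 448) (nat_lit 5) (nat_lit 436) (nat_lit 429) (nat_lit 275)) (XT.lf (nat_lit 0) (nat_lit 2037852329) (nat_lit 1672) (nat_lit 9319519125) (nat_lit 1748) (nat_lit 625597708) (nat_lit 426) (nat_lit 5) (nat_lit 448) (nat_lit 5) (nat_lit 449) (nat_lit 5) (nat_lit 437) (nat_lit 429) (nat_lit 274))) (XT.nd (nat_lit 78) (nat_lit 0) (nat_lit 0) (XT.lf (nat_lit 0) (nat_lit 2829314696) (nat_lit 1672) (nat_lit 3477891493) (nat_lit 1748) (nat_lit 5789464010) (nat_lit 426) (nat_lit 5) (nat_lit 448) (nat_lit 5) (nat_lit 449) (nat_lit 5) (nat_lit 438) (nat_lit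 429) (nat_lit 273)) (XT.nd (nat_lit 78) (nat_lit 0) (nat_lit 76) (XT.lf (nat_lit 76) (nat_lit 2505656234) (nat_lit 0) (nat_lit 1134903764) (nat_lit 1748) (nat_lit 8572011580) (nat_lit 427) (nat_lit 5) (nat_lit 426) (nat_lit 5) (nat_lit 449) (nat_lit 5) (nat_lit 439) (nat_lit 429) (nat_lit 272)) (XT.lf (nat_lit 0) (nat_lit 4506313551) (nat_lit 1672) (nat_lit 3709344999) (nat_lit 1748) (nat_lit 4114372058) (nat_lit 427) (nat_lit 5) (nat_lit 449) (nat_lit 5) (nat_lit 450) (nat_lit 5) (nat_lit 440) (nat_lit 429) (nat_lit 271))))) (XT.nd (nat_lit 234) (nat_lit 0) (nat_lit 152) (XT.nd (nat_lit 78) (nat_lit 0) (nat_lit 76) (XT.lf (nat_lit 76) (nat_lit 2424617220) (nat_lit 0) (nat_lit 2976165441) (nat_lit 1748) (nat_lit 7048833332) (nat_lit 428) (nat_lit 5) (nat_lit 427) (nat_lit 5) (nat_lit 450) (nat_lit 5) (nat_lit 441) (nat_lit 429) (nat_lit 270)) (XT.nd (nat_lit 78) (nat_lit 0) (nat_lit 0) (XT.lf (nat_lit 0) (nat_lit 6341922529)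 (nat_lit 1672) (nat_lit 3863150783) (nat_lit 1748) (nat_lit 2365949230) (nat_lit 428) (nat_lit 5) (nat_lit 450) (nat_lit 5) (nat_lit 451) (nat_lit 5) (nat_lit 442) (nat_lit 429) (nat_lit 269)) (XT.lf (nat_lit 76) (nat_lit 2426146629) (nat_lit 0) (nat_lit 4899778347) (nat_lit 1748) (nat_lit 5368456436) (nat_lit 429) (nat_lit 5) (nat_lit 428) (nat_lit 5) (nat_lit 451) (nat_lit 5) (nat_lit 443) (nat_lit 429) (nat_lit 268)))) (XT.nd (nat_lit 78) (nat_lit 0) (nat_lit 0) (XT.lf (nat_lit 0) (nat_lit 8347797768) (nat_lit 1672) (nat_lit 3937683635) (nat_lit 1748) (nat_lit 534367134) (nat_lit 429) (nat_lit 5) (nat_lit 451) (nat_lit 5) (nat_lit 452) (nat_lit 5) (nat_lit 444) (nat_lit 429) (nat_lit 267)) (XT.nd (nat_lit 78) (nat_lit 0) (nat_lit 0) (XT.lf (nat_lit 76) (nat_lit 2512037063) (nat_lit 0) (nat_lit 6915822813) (nat_lit 1748) (nat_lit 3519214884) (nat_lit 430) (nat_lit 5) (nat_lit 429) (nat_lit 5) (nat_lit 452) (nat_lit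 5) (nat_lit 445) (nat_lit 429) (nat_lit 266)) (XT.lf (nat_lit 76) (nat_lit 9136242315) (nat_lit 0) (nat_lit 1408862644) (nat_lit 1748) (nat_lit 2531433610) (nat_lit 430) (nat_lit 5) (nat_lit 429) (nat_lit 5) (nat_lit 452) (nat_lit 5) (nat_lit 446) (nat_lit 429) (nat_lit 265))))))) (XT.nd (nat_lit 780) (nat_lit 5396) (nat_lit 0) (XT.nd (nat_lit 390) (nat_lit 1596) (nat_lit 0) (XT.nd (nat_lit 156) (nat_lit 1672) (nat_lit 0) (XT.nd (nat_lit 78) (nat_lit 0) (nat_lit 0) (XT.lf (nat_lit 76) (nat_lit 2684254250) (nat_lit 0) (nat_lit 9034580528) (nat_lit 1748) (nat_lit 1489078684) (nat_lit 431) (nat_lit 5) (nat_lit 430) (nat_lit 5) (nat_lit 453) (nat_lit 5) (nat_lit 447) (nat_lit 429) (nat_lit 264)) (XT.lf (nat_lit 76) (nat_lit 9477338146) (nat_lit 0) (nat_lit 3463957217) (nat_lit 1748) (nat_lit 400119879) (nat_lit 431) (nat_lit 5) (nat_lit 430) (nat_lit 5) (nat_lit 453) (nat_lit 5) (nat_lit 448) (nat_lit 429) (nat_lit 263)))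 (XT.nd (nat_lit 78) (nat_lit 0) (nat_lit 0) (XT.lf (nat_lit 0) (nat_lit 724736794) (nat_lit 1748) (nat_lit 10536960499) (nat_lit 1824) (nat_lit 2215333057) (nat_lit 408) (nat_lit 5) (nat_lit 431) (nat_lit 5) (nat_lit 432) (nat_lit 5) (nat_lit 449) (nat_lit 429) (nat_lit 262)) (XT.nd (nat_lit 78) (nat_lit 0) (nat_lit 76) (XT.lf (nat_lit 0) (nat_lit 1905624930) (nat_lit 1748) (nat_lit 3715994679) (nat_lit 1824) (nat_lit 7992911671) (nat_lit 408) (nat_lit 5) (nat_lit 431) (nat_lit 5) (nat_lit 432) (nat_lit 5) (nat_lit 450) (nat_lit 429) (nat_lit 261)) (XT.lf (nat_lit 0) (nat_lit 3122454275) (nat_lit 1748) (nat_lit 10479118685) (nat_lit 1824) (nat_lit 152966969) (nat_lit 409) (nat_lit 5) (nat_lit 432) (nat_lit 5) (nat_lit 433) (nat_lit 5) (nat_lit 451) (nat_lit 429) (nat_lit 260))))) (XT.nd (nat_lit 156) (nat_lit 1672) (nat_lit 0) (XT.nd (nat_lit 78) (nat_lit 0) (nat_lit 0) (XT.lf (nat_lit 0) (nat_lit 4416151937) (nat_lit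 1748) (nat_lit 3485282503) (nat_lit 1824) (nat_lit 5994867766) (nat_lit 409) (nat_lit 5) (nat_lit 432) (nat_lit 5) (nat_lit 433) (nat_lit 5) (nat_lit 452) (nat_lit 429) (nat_lit 259)) (XT.lf (nat_lit 76) (nat_lit 3688894405) (nat_lit 0) (nat_lit 2061173071) (nat_lit 1824) (nat_lit 8290549382) (nat_lit 410) (nat_lit 5) (nat_lit 409) (nat_lit 5) (nat_lit 433) (nat_lit 5) (nat_lit 453) (nat_lit 429) (nat_lit 258))) (XT.nd (nat_lit 78) (nat_lit 1748) (nat_lit 0) (XT.lf (nat_lit 0) (nat_lit 7150039925) (nat_lit 1748) (nat_lit 3167069049) (nat_lit 76) (nat_lit 3869925187) (nat_lit 410) (nat_lit 5) (nat_lit 433) (nat_lit 5) (nat_lit 411) (nat_lit 5) (nat_lit 454) (nat_lit 429) (nat_lit 257)) (XT.nd (nat_lit 78) (nat_lit 0) (nat_lit 0) (XT.lf (nat_lit 0) (nat_lit 4194731964) (nat_lit 1748) (nat_lit 4414891372) (nat_lit 1824) (nat_lit 5726128097) (nat_lit 387) (nat_lit 5) (nat_lit 410) (nat_lit 5) (nat_lit 411) (nat_lit 5) (nat_lit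 455) (nat_lit 429) (nat_lit 256)) (XT.lf (nat_lit 0) (nat_lit 10121080528) (nat_lit 1824) (nat_lit 2758935327) (nat_lit 76) (nat_lit 1606977329) (nat_lit 387) (nat_lit 5) (nat_lit 411) (nat_lit 5) (nat_lit 388) (nat_lit 5) (nat_lit 456) (nat_lit 429) (nat_lit 255)))))) (XT.nd (nat_lit 390) (nat_lit 2508) (nat_lit 0) (XT.nd (nat_lit 156) (nat_lit 1824) (nat_lit 0) (XT.nd (nat_lit 78) (nat_lit 0) (nat_lit 0) (XT.lf (nat_lit 0) (nat_lit 4796565622) (nat_lit 1064) (nat_lit 6917626064) (nat_lit 1140) (nat_lit 2926043293) (nat_lit 373) (nat_lit 5) (nat_lit 387) (nat_lit 5) (nat_lit 388) (nat_lit 5) (nat_lit 457) (nat_lit 429) (nat_lit 254)) (XT.lf (nat_lit 0) (nat_lit 12532731620) (nat_lit 1064) (nat_lit 816116671) (nat_lit 1140) (nat_lit 1447503283) (nat_lit 373) (nat_lit 5) (nat_lit 387) (nat_lit 5) (nat_lit 388) (nat_lit 5) (nat_lit 458) (nat_lit 429) (nat_lit 253))) (XT.nd (nat_lit 78) (nat_lit 836) (nat_lit 0) (XT.lf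 (nat_lit 0) (nat_lit 122369159) (nat_lit 988) (nat_lit 9458010517) (nat_lit 76) (nat_lit 5373955315) (nat_lit 360) (nat_lit 5) (nat_lit 373) (nat_lit 5) (nat_lit 361) (nat_lit 5) (nat_lit 459) (nat_lit 429) (nat_lit 252)) (XT.nd (nat_lit 78) (nat_lit 836) (nat_lit 0) (XT.lf (nat_lit 0) (nat_lit 1716378185) (nat_lit 988) (nat_lit 1696052068) (nat_lit 76) (nat_lit 11702617460) (nat_lit 360) (nat_lit 5) (nat_lit 373) (nat_lit 5) (nat_lit 361) (nat_lit 5) (nat_lit 460) (nat_lit 429) (nat_lit 251)) (XT.lf (nat_lit 0) (nat_lit 3393687380) (nat_lit 912) (nat_lit 9001360007) (nat_lit 76) (nat_lit 2882902257) (nat_lit 349) (nat_lit 5) (nat_lit 361) (nat_lit 5) (nat_lit 350) (nat_lit 5) (nat_lit 461) (nat_lit 429) (nat_lit 250))))) (XT.nd (nat_lit 234) (nat_lit 1672) (nat_lit 0) (XT.nd (nat_lit 78) (nat_lit 836) (nat_lit 0) (XT.lf (nat_lit 0) (nat_lit 5130293277) (nat_lit 912) (nat_lit 1042786086) (nat_lit 76) (nat_lit 9270518529)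 (nat_lit 349) (nat_lit 5) (nat_lit 361) (nat_lit 5) (nat_lit 350) (nat_lit 5) (nat_lit 462) (nat_lit 429) (nat_lit 249)) (XT.nd (nat_lit 78) (nat_lit 0) (nat_lit 0) (XT.lf (nat_lit 0) (nat_lit 6941419628) (nat_lit 912) (nat_lit 8452101762) (nat_lit 76) (nat_lit 218245172) (nat_lit 338) (nat_lit 5) (nat_lit 350) (nat_lit 5) (nat_lit 339) (nat_lit 5) (nat_lit 463) (nat_lit 429) (nat_lit 248)) (XT.lf (nat_lit 0) (nat_lit 8828663362) (nat_lit 912) (nat_lit 291650839) (nat_lit 76) (nat_lit 6662189667) (nat_lit 338) (nat_lit 5) (nat_lit 350) (nat_lit 5) (nat_lit 339) (nat_lit 5) (nat_lit 464) (nat_lit 429) (nat_lit 247)))) (XT.nd (nat_lit 78) (nat_lit 836) (nat_lit 0) (XT.lf (nat_lit 0) (nat_lit 8130937544) (nat_lit 836) (nat_lit 2667632876) (nat_lit 912) (nat_lit 5157190232) (nat_lit 327) (nat_lit 5) (nat_lit 338) (nat_lit 5) (nat_lit 339) (nat_lit 5) (nat_lit 465) (nat_lit 429) (nat_lit 246)) (XT.nd (nat_lit 78) (nat_lit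 0) (nat_lit 0) (XT.lf (nat_lit 0) (nat_lit 567688448) (nat_lit 836) (nat_lit 12263488378) (nat_lit 912) (nat_lit 3300842758) (nat_lit 316) (nat_lit 5) (nat_lit 327) (nat_lit 5) (nat_lit 328) (nat_lit 5) (nat_lit 466) (nat_lit 429) (nat_lit 245)) (XT.lf (nat_lit 0) (nat_lit 9208449339) (nat_lit 836) (nat_lit 5758379153) (nat_lit 912) (nat_lit 1343730318) (nat_lit 316) (nat_lit 5) (nat_lit 327) (nat_lit 5) (nat_lit 328) (nat_lit 5) (nat_lit 467) (nat_lit 429) (nat_lit 244))))))))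
noncomputable def xc209 : XT := (XT.nd (nat_lit 1638) (nat_lit 3724) (nat_lit 0) (XT.nd (nat_lit 780) (nat_lit 3724) (nat_lit 0) (XT.nd (nat_lit 390) (nat_lit 1520) (nat_lit 0) (XT.nd (nat_lit 156) (nat_lit 1444) (nat_lit 0) (XT.nd (nat_lit 78) (nat_lit 0) (nat_lit 0) (XT.lf (nat_lit 0) (nat_lit 652167362) (nat_lit 836) (nat_lit 14960757705) (nat_lit 76) (nat_lit 879497866) (nat_lit 305) (nat_lit 5) (nat_lit 316) (nat_lit 5) (nat_lit 306) (nat_lit 5) (nat_lit 468) (nat_lit 429) (nat_lit 243)) (XT.lf (nat_lit 0) (nat_lit 2748645958) (nat_lit 836) (nat_lit 6297752718) (nat_lit 76) (nat_lit 7629777715) (nat_lit 305) (nat_lit 5) (nat_lit 316) (nat_lit 5) (nat_lit 306) (nat_lit 5) (nat_lit 469) (nat_lit 429) (nat_lit 242))) (XT.nd (nat_lit 78) (nat_lit 684) (nat_lit 0) (XT.lf (nat_lit 0) (nat_lit 2564480812) (nat_lit 760) (nat_lit 2331899325) (nat_lit 836) (nat_lit 11967041013) (nat_lit 295) (nat_lit 5) (nat_lit 305) (nat_lit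 5) (nat_lit 306) (nat_lit 5) (nat_lit 470) (nat_lit 429) (nat_lit 241)) (XT.nd (nat_lit 78) (nat_lit 684) (nat_lit 0) (XT.lf (nat_lit 0) (nat_lit 7151704138) (nat_lit 836) (nat_lit 5401604949) (nat_lit 76) (nat_lit 4499811715) (nat_lit 295) (nat_lit 5) (nat_lit 306) (nat_lit 5) (nat_lit 296) (nat_lit 5) (nat_lit 471) (nat_lit 429) (nat_lit 240)) (XT.lf (nat_lit 0) (nat_lit 3699141607) (nat_lit 684) (nat_lit 5785362527) (nat_lit 760) (nat_lit 7761465564) (nat_lit 286) (nat_lit 5) (nat_lit 295) (nat_lit 5) (nat_lit 296) (nat_lit 5) (nat_lit 472) (nat_lit 429) (nat_lit 239))))) (XT.nd (nat_lit 156) (nat_lit 760) (nat_lit 0) (XT.nd (nat_lit 78) (nat_lit 760) (nat_lit 0) (XT.lf (nat_lit 0) (nat_lit 11900701771) (nat_lit 760) (nat_lit 4402022182) (nat_lit 76) (nat_lit 1139219380) (nat_lit 286) (nat_lit 5) (nat_lit 296) (nat_lit 5) (nat_lit 287) (nat_lit 5) (nat_lit 473) (nat_lit 429) (nat_lit 238)) (XT.lf (nat_lit 0) (nat_lit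 4944670988) (nat_lit 760) (nat_lit 9484103006) (nat_lit 836) (nat_lit 3211793977) (nat_lit 276) (nat_lit 5) (nat_lit 286) (nat_lit 5) (nat_lit 287) (nat_lit 5) (nat_lit 474) (nat_lit 429) (nat_lit 237))) (XT.nd (nat_lit 78) (nat_lit 760) (nat_lit 0) (XT.lf (nat_lit 0) (nat_lit 14530472788) (nat_lit 760) (nat_lit 2499693632) (nat_lit 836) (nat_lit 812545997) (nat_lit 276) (nat_lit 5) (nat_lit 286) (nat_lit 5) (nat_lit 287) (nat_lit 5) (nat_lit 475) (nat_lit 429) (nat_lit 236)) (XT.nd (nat_lit 78) (nat_lit 0) (nat_lit 0) (XT.lf (nat_lit 0) (nat_lit 1677974642) (nat_lit 760) (nat_lit 11754387339) (nat_lit 76) (nat_lit 4615033360) (nat_lit 266) (nat_lit 5) (nat_lit 276) (nat_lit 5) (nat_lit 267) (nat_lit 5) (nat_lit 476) (nat_lit 429) (nat_lit 235)) (XT.lf (nat_lit 0) (nat_lit 4239747817) (nat_lit 760) (nat_lit 2150071831) (nat_lit 76) (nat_lit 11865600763) (nat_lit 266) (nat_lit 5) (nat_lit 276) (nat_lit 5) (nat_lit 267)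 (nat_lit 5) (nat_lit 477) (nat_lit 429) (nat_lit 234)))))) (XT.nd (nat_lit 390) (nat_lit 1824) (nat_lit 0) (XT.nd (nat_lit 156) (nat_lit 1216) (nat_lit 0) (XT.nd (nat_lit 78) (nat_lit 0) (nat_lit 0) (XT.lf (nat_lit 0) (nat_lit 6902005567) (nat_lit 760) (nat_lit 10731737952) (nat_lit 76) (nat_lit 832879783) (nat_lit 257) (nat_lit 5) (nat_lit 267) (nat_lit 5) (nat_lit 258) (nat_lit 5) (nat_lit 478) (nat_lit 429) (nat_lit 233)) (XT.lf (nat_lit 0) (nat_lit 9667935840) (nat_lit 760) (nat_lit 884936678) (nat_lit 76) (nat_lit 8128171442) (nat_lit 257) (nat_lit 5) (nat_lit 267) (nat_lit 5) (nat_lit 258) (nat_lit 5) (nat_lit 479) (nat_lit 429) (nat_lit 232))) (XT.nd (nat_lit 78) (nat_lit 608) (nat_lit 0) (XT.lf (nat_lit 0) (nat_lit 9273116050) (nat_lit 608) (nat_lit 3269988652) (nat_lit 684) (nat_lit 6355572145) (nat_lit 249) (nat_lit 5) (nat_lit 257) (nat_lit 5) (nat_lit 258) (nat_lit 5) (nat_lit 480) (nat_lit 429) (nat_lit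 231)) (XT.nd (nat_lit 78) (nat_lit 0) (nat_lit 0) (XT.lf (nat_lit 0) (nat_lit 497897646) (nat_lit 608) (nat_lit 15007871936) (nat_lit 684) (nat_lit 3614295124) (nat_lit 241) (nat_lit 5) (nat_lit 249) (nat_lit 5) (nat_lit 250) (nat_lit 5) (nat_lit 481) (nat_lit 429) (nat_lit 230)) (XT.lf (nat_lit 0) (nat_lit 10925032721) (nat_lit 608) (nat_lit 7682617212) (nat_lit 684) (nat_lit 736633274) (nat_lit 241) (nat_lit 5) (nat_lit 249) (nat_lit 5) (nat_lit 250) (nat_lit 5) (nat_lit 482) (nat_lit 429) (nat_lit 229))))) (XT.nd (nat_lit 234) (nat_lit 532) (nat_lit 0) (XT.nd (nat_lit 78) (nat_lit 608) (nat_lit 0) (XT.lf (nat_lit 0) (nat_lit 1992314129) (nat_lit 608) (nat_lit 184303337) (nat_lit 684) (nat_lit 17395947753) (nat_lit 232) (nat_lit 5) (nat_lit 240) (nat_lit 5) (nat_lit 241) (nat_lit 5) (nat_lit 483) (nat_lit 429) (nat_lit 228)) (XT.nd (nat_lit 78) (nat_lit 608) (nat_lit 0) (XT.lf (nat_lit 0) (nat_lit 5237610906) (nat_lit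 684) (nat_lit 7139092649) (nat_lit 76) (nat_lit 7426627115) (nat_lit 232) (nat_lit 5) (nat_lit 241) (nat_lit 5) (nat_lit 233) (nat_lit 5) (nat_lit 484) (nat_lit 429) (nat_lit 227)) (XT.lf (nat_lit 0) (nat_lit 3549026975) (nat_lit 608) (nat_lit 4829177227) (nat_lit 684) (nat_lit 11660141592) (nat_lit 224) (nat_lit 5) (nat_lit 232) (nat_lit 5) (nat_lit 233) (nat_lit 5) (nat_lit 485) (nat_lit 429) (nat_lit 226)))) (XT.nd (nat_lit 78) (nat_lit 532) (nat_lit 0) (XT.lf (nat_lit 0) (nat_lit 11642640284) (nat_lit 684) (nat_lit 5755618344) (nat_lit 76) (nat_lit 2878583902) (nat_lit 224) (nat_lit 5) (nat_lit 233) (nat_lit 5) (nat_lit 225) (nat_lit 5) (nat_lit 486) (nat_lit 429) (nat_lit 225)) (XT.nd (nat_lit 78) (nat_lit 0) (nat_lit 0) (XT.lf (nat_lit 0) (nat_lit 5222156637) (nat_lit 532) (nat_lit 9810386820) (nat_lit 608) (nat_lit 5486364063) (nat_lit 217) (nat_lit 5) (nat_lit 224) (nat_lit 5) (nat_lit 225) (nat_lit 5) (nat_lit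 487) (nat_lit 429) (nat_lit 224)) (XT.lf (nat_lit 0) (nat_lit 16490445082) (nat_lit 532) (nat_lit 2032780292) (nat_lit 608) (nat_lit 2241930676) (nat_lit 217) (nat_lit 5) (nat_lit 224) (nat_lit 5) (nat_lit 225) (nat_lit 5) (nat_lit 488) (nat_lit 429) (nat_lit 223))))))) (XT.nd (nat_lit 858) (nat_lit 456) (nat_lit 0) (XT.nd (nat_lit 390) (nat_lit 1520) (nat_lit 0) (XT.nd (nat_lit 156) (nat_lit 1064) (nat_lit 0) (XT.nd (nat_lit 78) (nat_lit 0) (nat_lit 0) (XT.lf (nat_lit 0) (nat_lit 1132219732) (nat_lit 684) (nat_lit 14007783816) (nat_lit 76) (nat_lit 5874612630) (nat_lit 208) (nat_lit 5) (nat_lit 217) (nat_lit 5) (nat_lit 209) (nat_lit 5) (nat_lit 489) (nat_lit 429) (nat_lit 222)) (XT.lf (nat_lit 0) (nat_lit 4580683768) (nat_lit 684) (nat_lit 2732094473) (nat_lit 76) (nat_lit 13955255627) (nat_lit 208) (nat_lit 5) (nat_lit 217) (nat_lit 5) (nat_lit 209) (nat_lit 5) (nat_lit 490) (nat_lit 429) (nat_lit 221))) (XT.nd (nat_lit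 78) (nat_lit 532) (nat_lit 0) (XT.lf (nat_lit 0) (nat_lit 8155084079) (nat_lit 608) (nat_lit 12651568190) (nat_lit 76) (nat_lit 718730015) (nat_lit 201) (nat_lit 5) (nat_lit 209) (nat_lit 5) (nat_lit 202) (nat_lit 5) (nat_lit 491) (nat_lit 429) (nat_lit 220)) (XT.nd (nat_lit 78) (nat_lit 532) (nat_lit 0) (XT.lf (nat_lit 0) (nat_lit 11862500624) (nat_lit 608) (nat_lit 1094155930) (nat_lit 76) (nat_lit 8829992225) (nat_lit 201) (nat_lit 5) (nat_lit 209) (nat_lit 5) (nat_lit 202) (nat_lit 5) (nat_lit 492) (nat_lit 429) (nat_lit 219)) (XT.lf (nat_lit 0) (nat_lit 10829603812) (nat_lit 532) (nat_lit 4879523703) (nat_lit 608) (nat_lit 6342713495) (nat_lit 194) (nat_lit 5) (nat_lit 201) (nat_lit 5) (nat_lit 202) (nat_lit 5) (nat_lit 493) (nat_lit 429) (nat_lit 218))))) (XT.nd (nat_lit 234) (nat_lit 456) (nat_lit 0) (XT.nd (nat_lit 78) (nat_lit 608) (nat_lit 0) (XT.lf (nat_lit 0) (nat_lit 664452936) (nat_lit 456) (nat_lit 18996546475)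 (nat_lit 532) (nat_lit 2660773035) (nat_lit 188) (nat_lit 5) (nat_lit 194) (nat_lit 5) (nat_lit 195) (nat_lit 5) (nat_lit 494) (nat_lit 429) (nat_lit 217)) (XT.nd (nat_lit 78) (nat_lit 532) (nat_lit 0) (XT.lf (nat_lit 0) (nat_lit 1183387770) (nat_lit 532) (nat_lit 9701428988) (nat_lit 76) (nat_lit 11710086338) (nat_lit 187) (nat_lit 5) (nat_lit 194) (nat_lit 5) (nat_lit 188) (nat_lit 5) (nat_lit 495) (nat_lit 429) (nat_lit 216)) (XT.lf (nat_lit 0) (nat_lit 2501999752) (nat_lit 532) (nat_lit 2578003364) (nat_lit 608) (nat_lit 17792919025) (nat_lit 180) (nat_lit 5) (nat_lit 187) (nat_lit 5) (nat_lit 188) (nat_lit 5) (nat_lit 496) (nat_lit 429) (nat_lit 215)))) (XT.nd (nat_lit 78) (nat_lit 456) (nat_lit 0) (XT.lf (nat_lit 0) (nat_lit 9153323461) (nat_lit 608) (nat_lit 8119721158) (nat_lit 76) (nat_lit 5881482983) (nat_lit 180) (nat_lit 5) (nat_lit 188) (nat_lit 5) (nat_lit 181) (nat_lit 5) (nat_lit 497) (nat_lit 429) (nat_lit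 214)) (XT.nd (nat_lit 78) (nat_lit 0) (nat_lit 0) (XT.lf (nat_lit 0) (nat_lit 4410591559) (nat_lit 456) (nat_lit 8938292674) (nat_lit 532) (nat_lit 10092066918) (nat_lit 174) (nat_lit 5) (nat_lit 180) (nat_lit 5) (nat_lit 181) (nat_lit 5) (nat_lit 498) (nat_lit 429) (nat_lit 213)) (XT.lf (nat_lit 0) (nat_lit 17294934103) (nat_lit 456) (nat_lit 383028039) (nat_lit 532) (nat_lit 6054150345) (nat_lit 174) (nat_lit 5) (nat_lit 180) (nat_lit 5) (nat_lit 181) (nat_lit 5) (nat_lit 499) (nat_lit 429) (nat_lit 212)))))) (XT.nd (nat_lit 54210) (nat_lit 0) (nat_lit 19456) (XT.nd (nat_lit 53976) (nat_lit 0) (nat_lit 21052) (XT.nd (nat_lit 53898) (nat_lit 0) (nat_lit 21052) (XT.lf (nat_lit 0) (nat_lit 6431448457) (nat_lit 456) (nat_lit 15753303724) (nat_lit 532) (nat_lit 1842523658) (nat_lit 168) (nat_lit 5) (nat_lit 174) (nat_lit 5) (nat_lit 175) (nat_lit 5) (nat_lit 500) (nat_lit 429) (nat_lit 211)) (XT.lf (nat_lit 0) (nat_lit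 2326475856) (nat_lit 0) (nat_lit 2326475856) (nat_lit 1596) (nat_lit 1014985630) (nat_lit 445) (nat_lit 5) (nat_lit 445) (nat_lit 3) (nat_lit 466) (nat_lit 3) (nat_lit 430) (nat_lit 430) (nat_lit 280))) (XT.nd (nat_lit 78) (nat_lit 0) (nat_lit 0) (XT.lf (nat_lit 0) (nat_lit 9923684023) (nat_lit 1596) (nat_lit 1304213786) (nat_lit 1672) (nat_lit 210604938) (nat_lit 445) (nat_lit 5) (nat_lit 466) (nat_lit 3) (nat_lit 467) (nat_lit 5) (nat_lit 431) (nat_lit 430) (nat_lit 279)) (XT.nd (nat_lit 78) (nat_lit 0) (nat_lit 0) (XT.lf (nat_lit 76) (nat_lit 4199138842) (nat_lit 0) (nat_lit 6399076507) (nat_lit 1672) (nat_lit 944086317) (nat_lit 446) (nat_lit 5) (nat_lit 445) (nat_lit 5) (nat_lit 467) (nat_lit 5) (nat_lit 432) (nat_lit 430) (nat_lit 278)) (XT.lf (nat_lit 76) (nat_lit 9823095829) (nat_lit 0) (nat_lit 1458432627) (nat_lit 1672) (nat_lit 366748361) (nat_lit 446) (nat_lit 5) (nat_lit 445) (nat_lit 5) (nat_lit 467) (nat_lit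 5) (nat_lit 433) (nat_lit 430) (nat_lit 277))))) (XT.nd (nat_lit 234) (nat_lit 0) (nat_lit 76) (XT.nd (nat_lit 78) (nat_lit 0) (nat_lit 0) (XT.lf (nat_lit 0) (nat_lit 254361796) (nat_lit 1672) (nat_lit 7934618384) (nat_lit 1748) (nat_lit 3566665508) (nat_lit 424) (nat_lit 5) (nat_lit 446) (nat_lit 5) (nat_lit 447) (nat_lit 5) (nat_lit 434) (nat_lit 430) (nat_lit 276)) (XT.nd (nat_lit 78) (nat_lit 0) (nat_lit 76) (XT.lf (nat_lit 0) (nat_lit 891938186) (nat_lit 1672) (nat_lit 2279627432) (nat_lit 1748) (nat_lit 8693374464) (nat_lit 424) (nat_lit 5) (nat_lit 446) (nat_lit 5) (nat_lit 447) (nat_lit 5) (nat_lit 435) (nat_lit 430) (nat_lit 275)) (XT.lf (nat_lit 0) (nat_lit 1565210108) (nat_lit 1672) (nat_lit 8461617327) (nat_lit 1748) (nat_lit 1949139662) (nat_lit 425) (nat_lit 5) (nat_lit 447) (nat_lit 5) (nat_lit 448) (nat_lit 5) (nat_lit 436) (nat_lit 430) (nat_lit 274)))) (XT.nd (nat_lit 78) (nat_lit 0) (nat_lit 76) (XT.lf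 (nat_lit 0) (nat_lit 2275806485) (nat_lit 1672) (nat_lit 2662446641) (nat_lit 1748) (nat_lit 7150489848) (nat_lit 425) (nat_lit 5) (nat_lit 447) (nat_lit 5) (nat_lit 448) (nat_lit 5) (nat_lit 437) (nat_lit 430) (nat_lit 273)) (XT.nd (nat_lit 78) (nat_lit 0) (nat_lit 0) (XT.lf (nat_lit 0) (nat_lit 3011477957) (nat_lit 1672) (nat_lit 8916965211) (nat_lit 1748) (nat_lit 275119332) (nat_lit 426) (nat_lit 5) (nat_lit 448) (nat_lit 5) (nat_lit 449) (nat_lit 5) (nat_lit 438) (nat_lit 430) (nat_lit 272)) (XT.lf (nat_lit 0) (nat_lit 3800478031) (nat_lit 1672) (nat_lit 2970052954) (nat_lit 1748) (nat_lit 5549380417) (nat_lit 426) (nat_lit 5) (nat_lit 448) (nat_lit 5) (nat_lit 449) (nat_lit 5) (nat_lit 439) (nat_lit 430) (nat_lit 271))))))))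
noncomputable def xc210 : XT := (XT.nd (nat_lit 1638) (nat_lit 8436) (nat_lit 0) (XT.nd (nat_lit 780) (nat_lit 3572) (nat_lit 0) (XT.nd (nat_lit 390) (nat_lit 1444) (nat_lit 0) (XT.nd (nat_lit 156) (nat_lit 0) (nat_lit 76) (XT.nd (nat_lit 78) (nat_lit 0) (nat_lit 76) (XT.lf (nat_lit 76) (nat_lit 3129367067) (nat_lit 0) (nat_lit 1484372466) (nat_lit 1748) (nat_lit 7824683307) (nat_lit 427) (nat_lit 5) (nat_lit 426) (nat_lit 5) (nat_lit 449) (nat_lit 5) (nat_lit 440) (nat_lit 430) (nat_lit 270)) (XT.lf (nat_lit 0) (nat_lit 5477073864) (nat_lit 1672) (nat_lit 3201061810) (nat_lit 1748) (nat_lit 3880497763) (nat_lit 427) (nat_lit 5) (nat_lit 449) (nat_lit 5) (nat_lit 450) (nat_lit 5) (nat_lit 441) (nat_lit 430) (nat_lit 269))) (XT.nd (nat_lit 78) (nat_lit 0) (nat_lit 76) (XT.lf (nat_lit 76) (nat_lit 3051747613) (nat_lit 0) (nat_lit 3324174312) (nat_lit 1748) (nat_lit 6304966366) (nat_lit 428) (nat_lit 5) (nat_lit 427) (nat_lit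 5) (nat_lit 450) (nat_lit 5) (nat_lit 442) (nat_lit 430) (nat_lit 268)) (XT.nd (nat_lit 78) (nat_lit 0) (nat_lit 0) (XT.lf (nat_lit 0) (nat_lit 7317045853) (nat_lit 1672) (nat_lit 3353912709) (nat_lit 1748) (nat_lit 2134148586) (nat_lit 428) (nat_lit 5) (nat_lit 450) (nat_lit 5) (nat_lit 451) (nat_lit 5) (nat_lit 443) (nat_lit 430) (nat_lit 267)) (XT.lf (nat_lit 76) (nat_lit 3057312091) (nat_lit 0) (nat_lit 5250566122) (nat_lit 1748) (nat_lit 4623319242) (nat_lit 429) (nat_lit 5) (nat_lit 428) (nat_lit 5) (nat_lit 451) (nat_lit 5) (nat_lit 444) (nat_lit 430) (nat_lit 266))))) (XT.nd (nat_lit 156) (nat_lit 1672) (nat_lit 0) (XT.nd (nat_lit 78) (nat_lit 0) (nat_lit 0) (XT.lf (nat_lit 0) (nat_lit 9332198276) (nat_lit 1672) (nat_lit 3426873182) (nat_lit 1748) (nat_lit 300469385) (nat_lit 429) (nat_lit 5) (nat_lit 451) (nat_lit 5) (nat_lit 452) (nat_lit 5) (nat_lit 445) (nat_lit 430) (nat_lit 265)) (XT.lf (nat_lit 76) (nat_lit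 3147963219) (nat_lit 0) (nat_lit 7273672740) (nat_lit 1748) (nat_lit 2767927120) (nat_lit 430) (nat_lit 5) (nat_lit 429) (nat_lit 5) (nat_lit 452) (nat_lit 5) (nat_lit 446) (nat_lit 430) (nat_lit 264))) (XT.nd (nat_lit 78) (nat_lit 1672) (nat_lit 0) (XT.lf (nat_lit 76) (nat_lit 9893168549) (nat_lit 0) (nat_lit 1652268790) (nat_lit 1748) (nat_lit 1776501437) (nat_lit 430) (nat_lit 5) (nat_lit 429) (nat_lit 5) (nat_lit 452) (nat_lit 5) (nat_lit 447) (nat_lit 430) (nat_lit 263)) (XT.nd (nat_lit 78) (nat_lit 1748) (nat_lit 0) (XT.lf (nat_lit 76) (nat_lit 3325775739) (nat_lit 0) (nat_lit 9403833604) (nat_lit 1748) (nat_lit 726599175) (nat_lit 431) (nat_lit 5) (nat_lit 430) (nat_lit 5) (nat_lit 453) (nat_lit 5) (nat_lit 448) (nat_lit 430) (nat_lit 262)) (XT.lf (nat_lit 0) (nat_lit 363769962) (nat_lit 1748) (nat_lit 3351889494) (nat_lit 1824) (nat_lit 9876984059) (nat_lit 407) (nat_lit 5) (nat_lit 430) (nat_lit 5) (nat_lit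 431) (nat_lit 5) (nat_lit 449) (nat_lit 430) (nat_lit 261)))))) (XT.nd (nat_lit 390) (nat_lit 3648) (nat_lit 0) (XT.nd (nat_lit 156) (nat_lit 0) (nat_lit 76) (XT.nd (nat_lit 78) (nat_lit 0) (nat_lit 0) (XT.lf (nat_lit 0) (nat_lit 1493407020) (nat_lit 1748) (nat_lit 10148200295) (nat_lit 1824) (nat_lit 2089564215) (nat_lit 408) (nat_lit 5) (nat_lit 431) (nat_lit 5) (nat_lit 432) (nat_lit 5) (nat_lit 450) (nat_lit 430) (nat_lit 260)) (XT.lf (nat_lit 0) (nat_lit 2683125164) (nat_lit 1748) (nat_lit 3202570048) (nat_lit 1824) (nat_lit 7986029216) (nat_lit 408) (nat_lit 5) (nat_lit 431) (nat_lit 5) (nat_lit 432) (nat_lit 5) (nat_lit 451) (nat_lit 430) (nat_lit 259))) (XT.nd (nat_lit 78) (nat_lit 0) (nat_lit 0) (XT.lf (nat_lit 0) (nat_lit 3912644062) (nat_lit 1748) (nat_lit 10089005850) (nat_lit 1824) (nat_lit 13122352) (nat_lit 409) (nat_lit 5) (nat_lit 432) (nat_lit 5) (nat_lit 433) (nat_lit 5) (nat_lit 452) (nat_lit 430)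 (nat_lit 258)) (XT.nd (nat_lit 78) (nat_lit 0) (nat_lit 0) (XT.lf (nat_lit 0) (nat_lit 5217946251) (nat_lit 1748) (nat_lit 2967051674) (nat_lit 1824) (nat_lit 5974663204) (nat_lit 409) (nat_lit 5) (nat_lit 432) (nat_lit 5) (nat_lit 433) (nat_lit 5) (nat_lit 453) (nat_lit 430) (nat_lit 257)) (XT.lf (nat_lit 76) (nat_lit 4346740769) (nat_lit 0) (nat_lit 2221601859) (nat_lit 1824) (nat_lit 7738729232) (nat_lit 410) (nat_lit 5) (nat_lit 409) (nat_lit 5) (nat_lit 433) (nat_lit 5) (nat_lit 454) (nat_lit 430) (nat_lit 256))))) (XT.nd (nat_lit 234) (nat_lit 2052) (nat_lit 0) (XT.nd (nat_lit 78) (nat_lit 1748) (nat_lit 0) (XT.lf (nat_lit 0) (nat_lit 7981766060) (nat_lit 1748) (nat_lit 2642959674) (nat_lit 76) (nat_lit 3831988467) (nat_lit 410) (nat_lit 5) (nat_lit 433) (nat_lit 5) (nat_lit 411) (nat_lit 5) (nat_lit 455) (nat_lit 430) (nat_lit 255)) (XT.nd (nat_lit 78) (nat_lit 0) (nat_lit 0) (XT.lf (nat_lit 0) (nat_lit 4862212551)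 (nat_lit 1748) (nat_lit 4598613195) (nat_lit 1824) (nat_lit 5147779990) (nat_lit 387) (nat_lit 5) (nat_lit 410) (nat_lit 5) (nat_lit 411) (nat_lit 5) (nat_lit 456) (nat_lit 430) (nat_lit 254)) (XT.lf (nat_lit 0) (nat_lit 10988590755) (nat_lit 1824) (nat_lit 2227774593) (nat_lit 76) (nat_lit 1546790902) (nat_lit 387) (nat_lit 5) (nat_lit 411) (nat_lit 5) (nat_lit 388) (nat_lit 5) (nat_lit 457) (nat_lit 430) (nat_lit 253)))) (XT.nd (nat_lit 78) (nat_lit 988) (nat_lit 0) (XT.lf (nat_lit 0) (nat_lit 5474978878) (nat_lit 1064) (nat_lit 7129326164) (nat_lit 1140) (nat_lit 2315348414) (nat_lit 373) (nat_lit 5) (nat_lit 387) (nat_lit 5) (nat_lit 388) (nat_lit 5) (nat_lit 458) (nat_lit 430) (nat_lit 252)) (XT.nd (nat_lit 78) (nat_lit 988) (nat_lit 0) (XT.lf (nat_lit 0) (nat_lit 13354446981) (nat_lit 1064) (nat_lit 904348395) (nat_lit 1140) (nat_lit 820359481) (nat_lit 373) (nat_lit 5) (nat_lit 387) (nat_lit 5) (nat_lit 388) (nat_lit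 5) (nat_lit 459) (nat_lit 430) (nat_lit 251)) (XT.lf (nat_lit 0) (nat_lit 762944941) (nat_lit 988) (nat_lit 9057631286) (nat_lit 76) (nat_lit 5419828815) (nat_lit 360) (nat_lit 5) (nat_lit 373) (nat_lit 5) (nat_lit 361) (nat_lit 5) (nat_lit 460) (nat_lit 430) (nat_lit 250))))))) (XT.nd (nat_lit 780) (nat_lit 4256) (nat_lit 0) (XT.nd (nat_lit 390) (nat_lit 1672) (nat_lit 0) (XT.nd (nat_lit 156) (nat_lit 1672) (nat_lit 0) (XT.nd (nat_lit 78) (nat_lit 836) (nat_lit 0) (XT.lf (nat_lit 0) (nat_lit 2376321826) (nat_lit 988) (nat_lit 1151993266) (nat_lit 76) (nat_lit 11876272156) (nat_lit 360) (nat_lit 5) (nat_lit 373) (nat_lit 5) (nat_lit 361) (nat_lit 5) (nat_lit 461) (nat_lit 430) (nat_lit 249)) (XT.lf (nat_lit 0) (nat_lit 4078359630) (nat_lit 912) (nat_lit 8594345574) (nat_lit 76) (nat_lit 2898223249) (nat_lit 349) (nat_lit 5) (nat_lit 361) (nat_lit 5) (nat_lit 350) (nat_lit 5) (nat_lit 462) (nat_lit 430) (nat_lit 248)))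 (XT.nd (nat_lit 78) (nat_lit 1672) (nat_lit 0) (XT.lf (nat_lit 0) (nat_lit 5837603556) (nat_lit 912) (nat_lit 488110794) (nat_lit 76) (nat_lit 9414421985) (nat_lit 349) (nat_lit 5) (nat_lit 361) (nat_lit 5) (nat_lit 350) (nat_lit 5) (nat_lit 463) (nat_lit 430) (nat_lit 247)) (XT.nd (nat_lit 78) (nat_lit 836) (nat_lit 0) (XT.lf (nat_lit 0) (nat_lit 7676646515) (nat_lit 912) (nat_lit 8037072133) (nat_lit 76) (nat_lit 198120544) (nat_lit 338) (nat_lit 5) (nat_lit 350) (nat_lit 5) (nat_lit 339) (nat_lit 5) (nat_lit 464) (nat_lit 430) (nat_lit 246)) (XT.lf (nat_lit 0) (nat_lit 278791826) (nat_lit 836) (nat_lit 9312959310) (nat_lit 912) (nat_lit 6494442391) (nat_lit 327) (nat_lit 5) (nat_lit 338) (nat_lit 5) (nat_lit 339) (nat_lit 5) (nat_lit 465) (nat_lit 430) (nat_lit 245))))) (XT.nd (nat_lit 156) (nat_lit 836) (nat_lit 0) (XT.nd (nat_lit 78) (nat_lit 836) (nat_lit 0) (XT.lf (nat_lit 0) (nat_lit 8862408341) (nat_lit 836)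 (nat_lit 2729066466) (nat_lit 912) (nat_lit 4671636781) (nat_lit 327) (nat_lit 5) (nat_lit 338) (nat_lit 5) (nat_lit 339) (nat_lit 5) (nat_lit 466) (nat_lit 430) (nat_lit 244)) (XT.lf (nat_lit 0) (nat_lit 1155890816) (nat_lit 836) (nat_lit 12501223959) (nat_lit 912) (nat_lit 2785937719) (nat_lit 316) (nat_lit 5) (nat_lit 327) (nat_lit 5) (nat_lit 328) (nat_lit 5) (nat_lit 467) (nat_lit 430) (nat_lit 243))) (XT.nd (nat_lit 78) (nat_lit 836) (nat_lit 0) (XT.lf (nat_lit 0) (nat_lit 9958156169) (nat_lit 836) (nat_lit 5866160278) (nat_lit 912) (nat_lit 801073656) (nat_lit 316) (nat_lit 5) (nat_lit 327) (nat_lit 5) (nat_lit 328) (nat_lit 5) (nat_lit 468) (nat_lit 430) (nat_lit 242)) (XT.nd (nat_lit 78) (nat_lit 0) (nat_lit 0) (XT.lf (nat_lit 0) (nat_lit 1220044404) (nat_lit 836) (nat_lit 14679316404) (nat_lit 76) (nat_lit 911605474) (nat_lit 305) (nat_lit 5) (nat_lit 316) (nat_lit 5) (nat_lit 306) (nat_lit 5) (nat_lit 469)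 (nat_lit 430) (nat_lit 241)) (XT.lf (nat_lit 0) (nat_lit 3347573480) (nat_lit 836) (nat_lit 5854436738) (nat_lit 76) (nat_lit 7796606261) (nat_lit 305) (nat_lit 5) (nat_lit 316) (nat_lit 5) (nat_lit 306) (nat_lit 5) (nat_lit 470) (nat_lit 430) (nat_lit 240)))))) (XT.nd (nat_lit 390) (nat_lit 2052) (nat_lit 0) (XT.nd (nat_lit 156) (nat_lit 1444) (nat_lit 0) (XT.nd (nat_lit 78) (nat_lit 0) (nat_lit 0) (XT.lf (nat_lit 0) (nat_lit 3181296259) (nat_lit 760) (nat_lit 2349972077) (nat_lit 836) (nat_lit 11658481686) (nat_lit 295) (nat_lit 5) (nat_lit 305) (nat_lit 5) (nat_lit 306) (nat_lit 5) (nat_lit 471) (nat_lit 430) (nat_lit 239)) (XT.lf (nat_lit 0) (nat_lit 7821352004) (nat_lit 836) (nat_lit 4944656735) (nat_lit 76) (nat_lit 4617445789) (nat_lit 295) (nat_lit 5) (nat_lit 306) (nat_lit 5) (nat_lit 296) (nat_lit 5) (nat_lit 472) (nat_lit 430) (nat_lit 238))) (XT.nd (nat_lit 78) (nat_lit 760) (nat_lit 0) (XT.lf (nat_lit 0)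 (nat_lit 4334387776) (nat_lit 684) (nat_lit 5859738558) (nat_lit 760) (nat_lit 7386171554) (nat_lit 286) (nat_lit 5) (nat_lit 295) (nat_lit 5) (nat_lit 296) (nat_lit 5) (nat_lit 473) (nat_lit 430) (nat_lit 237)) (XT.nd (nat_lit 78) (nat_lit 760) (nat_lit 0) (XT.lf (nat_lit 0) (nat_lit 12648716264) (nat_lit 760) (nat_lit 3929684008) (nat_lit 76) (nat_lit 1201993133) (nat_lit 286) (nat_lit 5) (nat_lit 296) (nat_lit 5) (nat_lit 287) (nat_lit 5) (nat_lit 474) (nat_lit 430) (nat_lit 236)) (XT.lf (nat_lit 0) (nat_lit 5600256325) (nat_lit 760) (nat_lit 9620708011) (nat_lit 836) (nat_lit 2762157613) (nat_lit 276) (nat_lit 5) (nat_lit 286) (nat_lit 5) (nat_lit 287) (nat_lit 5) (nat_lit 475) (nat_lit 430) (nat_lit 235))))) (XT.nd (nat_lit 234) (nat_lit 1292) (nat_lit 0) (XT.nd (nat_lit 78) (nat_lit 760) (nat_lit 0) (XT.lf (nat_lit 0) (nat_lit 15366858633) (nat_lit 760) (nat_lit 2497651177) (nat_lit 836) (nat_lit 325000600) (nat_lit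 276) (nat_lit 5) (nat_lit 286) (nat_lit 5) (nat_lit 287) (nat_lit 5) (nat_lit 476) (nat_lit 430) (nat_lit 234)) (XT.nd (nat_lit 78) (nat_lit 0) (nat_lit 0) (XT.lf (nat_lit 0) (nat_lit 2202914334) (nat_lit 760) (nat_lit 11430930273) (nat_lit 76) (nat_lit 4764496629) (nat_lit 266) (nat_lit 5) (nat_lit 276) (nat_lit 5) (nat_lit 267) (nat_lit 5) (nat_lit 477) (nat_lit 430) (nat_lit 233)) (XT.lf (nat_lit 0) (nat_lit 4806288067) (nat_lit 760) (nat_lit 1645480314) (nat_lit 76) (nat_lit 12158954544) (nat_lit 266) (nat_lit 5) (nat_lit 276) (nat_lit 5) (nat_lit 267) (nat_lit 5) (nat_lit 478) (nat_lit 430) (nat_lit 232)))) (XT.nd (nat_lit 78) (nat_lit 608) (nat_lit 0) (XT.lf (nat_lit 0) (nat_lit 7516319466) (nat_lit 760) (nat_lit 10393140615) (nat_lit 76) (nat_lit 916802575) (nat_lit 257) (nat_lit 5) (nat_lit 267) (nat_lit 5) (nat_lit 258) (nat_lit 5) (nat_lit 479) (nat_lit 430) (nat_lit 231)) (XT.nd (nat_lit 78) (nat_lit 608)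 (nat_lit 0) (XT.lf (nat_lit 0) (nat_lit 10328229643) (nat_lit 760) (nat_lit 360251004) (nat_lit 76) (nat_lit 8356681142) (nat_lit 257) (nat_lit 5) (nat_lit 267) (nat_lit 5) (nat_lit 258) (nat_lit 5) (nat_lit 480) (nat_lit 430) (nat_lit 230)) (XT.lf (nat_lit 0) (nat_lit 9997394460) (nat_lit 608) (nat_lit 3257850183) (nat_lit 684) (nat_lit 6012019057) (nat_lit 249) (nat_lit 5) (nat_lit 257) (nat_lit 5) (nat_lit 258) (nat_lit 5) (nat_lit 481) (nat_lit 430) (nat_lit 229))))))))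
noncomputable def xc211 : XT := (XT.nd (nat_lit 55614) (nat_lit 0) (nat_lit 17708) (XT.nd (nat_lit 780) (nat_lit 2584) (nat_lit 0) (XT.nd (nat_lit 390) (nat_lit 1216) (nat_lit 0) (XT.nd (nat_lit 156) (nat_lit 1292) (nat_lit 0) (XT.nd (nat_lit 78) (nat_lit 0) (nat_lit 0) (XT.lf (nat_lit 0) (nat_lit 1051951657) (nat_lit 608) (nat_lit 15220192691) (nat_lit 684) (nat_lit 3221038497) (nat_lit 241) (nat_lit 5) (nat_lit 249) (nat_lit 5) (nat_lit 250) (nat_lit 5) (nat_lit 482) (nat_lit 430) (nat_lit 228)) (XT.lf (nat_lit 0) (nat_lit 11676960883) (nat_lit 608) (nat_lit 7750155160) (nat_lit 684) (nat_lit 294951694) (nat_lit 241) (nat_lit 5) (nat_lit 249) (nat_lit 5) (nat_lit 250) (nat_lit 5) (nat_lit 483) (nat_lit 430) (nat_lit 227))) (XT.nd (nat_lit 78) (nat_lit 608) (nat_lit 0) (XT.lf (nat_lit 0) (nat_lit 2568175936) (nat_lit 608) (nat_lit 97050410) (nat_lit 684) (nat_lit 17289739790) (nat_lit 232) (nat_lit 5) (nat_lit 240)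 (nat_lit 5) (nat_lit 241) (nat_lit 5) (nat_lit 484) (nat_lit 430) (nat_lit 226)) (XT.nd (nat_lit 78) (nat_lit 608) (nat_lit 0) (XT.lf (nat_lit 0) (nat_lit 5779291523) (nat_lit 684) (nat_lit 6748075016) (nat_lit 76) (nat_lit 7663146238) (nat_lit 232) (nat_lit 5) (nat_lit 241) (nat_lit 5) (nat_lit 233) (nat_lit 5) (nat_lit 485) (nat_lit 430) (nat_lit 225)) (XT.lf (nat_lit 0) (nat_lit 4150295162) (nat_lit 608) (nat_lit 4827277279) (nat_lit 684) (nat_lit 11452761110) (nat_lit 224) (nat_lit 5) (nat_lit 232) (nat_lit 5) (nat_lit 233) (nat_lit 5) (nat_lit 486) (nat_lit 430) (nat_lit 224))))) (XT.nd (nat_lit 156) (nat_lit 684) (nat_lit 0) (XT.nd (nat_lit 78) (nat_lit 532) (nat_lit 0) (XT.lf (nat_lit 0) (nat_lit 12299457379) (nat_lit 684) (nat_lit 5342860725) (nat_lit 76) (nat_lit 3031441720) (nat_lit 224) (nat_lit 5) (nat_lit 233) (nat_lit 5) (nat_lit 225) (nat_lit 5) (nat_lit 487) (nat_lit 430) (nat_lit 223)) (XT.lf (nat_lit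 0) (nat_lit 5850996927) (nat_lit 532) (nat_lit 9901253398) (nat_lit 608) (nat_lit 5168516706) (nat_lit 217) (nat_lit 5) (nat_lit 224) (nat_lit 5) (nat_lit 225) (nat_lit 5) (nat_lit 488) (nat_lit 430) (nat_lit 222))) (XT.nd (nat_lit 78) (nat_lit 684) (nat_lit 0) (XT.lf (nat_lit 0) (nat_lit 17334368843) (nat_lit 532) (nat_lit 1970160252) (nat_lit 608) (nat_lit 1867578468) (nat_lit 217) (nat_lit 5) (nat_lit 224) (nat_lit 5) (nat_lit 225) (nat_lit 5) (nat_lit 489) (nat_lit 430) (nat_lit 221)) (XT.nd (nat_lit 78) (nat_lit 0) (nat_lit 0) (XT.lf (nat_lit 0) (nat_lit 1564495142) (nat_lit 684) (nat_lit 13764003057) (nat_lit 76) (nat_lit 6098088094) (nat_lit 208) (nat_lit 5) (nat_lit 217) (nat_lit 5) (nat_lit 209) (nat_lit 5) (nat_lit 490) (nat_lit 430) (nat_lit 220)) (XT.lf (nat_lit 0) (nat_lit 5073896477) (nat_lit 684) (nat_lit 2273073191) (nat_lit 76) (nat_lit 14338265849) (nat_lit 208) (nat_lit 5) (nat_lit 217) (nat_lit 5)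 (nat_lit 209) (nat_lit 5) (nat_lit 491) (nat_lit 430) (nat_lit 219)))))) (XT.nd (nat_lit 390) (nat_lit 988) (nat_lit 0) (XT.nd (nat_lit 156) (nat_lit 1064) (nat_lit 0) (XT.nd (nat_lit 78) (nat_lit 0) (nat_lit 0) (XT.lf (nat_lit 0) (nat_lit 8715958674) (nat_lit 608) (nat_lit 12386985705) (nat_lit 76) (nat_lit 844865535) (nat_lit 201) (nat_lit 5) (nat_lit 209) (nat_lit 5) (nat_lit 202) (nat_lit 5) (nat_lit 492) (nat_lit 430) (nat_lit 218)) (XT.lf (nat_lit 0) (nat_lit 12489724081) (nat_lit 608) (nat_lit 608574492) (nat_lit 76) (nat_lit 9116161599) (nat_lit 201) (nat_lit 5) (nat_lit 209) (nat_lit 5) (nat_lit 202) (nat_lit 5) (nat_lit 493) (nat_lit 430) (nat_lit 217))) (XT.nd (nat_lit 78) (nat_lit 532) (nat_lit 0) (XT.lf (nat_lit 0) (nat_lit 11550321863) (nat_lit 532) (nat_lit 4858588229) (nat_lit 608) (nat_lit 6076136017) (nat_lit 194) (nat_lit 5) (nat_lit 201) (nat_lit 5) (nat_lit 202) (nat_lit 5) (nat_lit 494) (nat_lit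 430) (nat_lit 216)) (XT.nd (nat_lit 78) (nat_lit 76) (nat_lit 0) (XT.lf (nat_lit 0) (nat_lit 1185567061) (nat_lit 456) (nat_lit 19250743178) (nat_lit 532) (nat_lit 2324138468) (nat_lit 188) (nat_lit 5) (nat_lit 194) (nat_lit 5) (nat_lit 195) (nat_lit 5) (nat_lit 495) (nat_lit 430) (nat_lit 215)) (XT.lf (nat_lit 0) (nat_lit 1584248736) (nat_lit 532) (nat_lit 9392464342) (nat_lit 76) (nat_lit 12062431400) (nat_lit 187) (nat_lit 5) (nat_lit 194) (nat_lit 5) (nat_lit 188) (nat_lit 5) (nat_lit 496) (nat_lit 430) (nat_lit 214))))) (XT.nd (nat_lit 54210) (nat_lit 0) (nat_lit 18924) (XT.nd (nat_lit 78) (nat_lit 456) (nat_lit 0) (XT.lf (nat_lit 0) (nat_lit 3051723806) (nat_lit 532) (nat_lit 2502920917) (nat_lit 608) (nat_lit 17768164426) (nat_lit 180) (nat_lit 5) (nat_lit 187) (nat_lit 5) (nat_lit 188) (nat_lit 5) (nat_lit 497) (nat_lit 430) (nat_lit 213)) (XT.nd (nat_lit 78) (nat_lit 456) (nat_lit 0) (XT.lf (nat_lit 0) (nat_lit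 9702923060) (nat_lit 608) (nat_lit 7785612399) (nat_lit 76) (nat_lit 6121643598) (nat_lit 180) (nat_lit 5) (nat_lit 188) (nat_lit 5) (nat_lit 181) (nat_lit 5) (nat_lit 498) (nat_lit 430) (nat_lit 212)) (XT.lf (nat_lit 0) (nat_lit 4992040104) (nat_lit 456) (nat_lit 8986370440) (nat_lit 532) (nat_lit 9924002351) (nat_lit 174) (nat_lit 5) (nat_lit 180) (nat_lit 5) (nat_lit 181) (nat_lit 5) (nat_lit 499) (nat_lit 430) (nat_lit 211)))) (XT.nd (nat_lit 78) (nat_lit 1672) (nat_lit 0) (XT.lf (nat_lit 0) (nat_lit 2632974453) (nat_lit 0) (nat_lit 2632974453) (nat_lit 1596) (nat_lit 504713699) (nat_lit 445) (nat_lit 5) (nat_lit 445) (nat_lit 3) (nat_lit 466) (nat_lit 3) (nat_lit 431) (nat_lit 431) (nat_lit 278)) (XT.nd (nat_lit 78) (nat_lit 1672) (nat_lit 0) (XT.lf (nat_lit 0) (nat_lit 10848159571) (nat_lit 0) (nat_lit 292071453) (nat_lit 1596) (nat_lit 506220080) (nat_lit 445) (nat_lit 5) (nat_lit 445) (nat_lit 3) (nat_lit 466)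 (nat_lit 3) (nat_lit 432) (nat_lit 431) (nat_lit 277)) (XT.lf (nat_lit 0) (nat_lit 56422852) (nat_lit 1672) (nat_lit 6939561832) (nat_lit 1748) (nat_lit 4756710472) (nat_lit 423) (nat_lit 5) (nat_lit 445) (nat_lit 5) (nat_lit 446) (nat_lit 5) (nat_lit 433) (nat_lit 431) (nat_lit 276))))))) (XT.nd (nat_lit 858) (nat_lit 1216) (nat_lit 0) (XT.nd (nat_lit 390) (nat_lit 0) (nat_lit 152) (XT.nd (nat_lit 156) (nat_lit 0) (nat_lit 76) (XT.nd (nat_lit 78) (nat_lit 0) (nat_lit 76) (XT.lf (nat_lit 0) (nat_lit 617843819) (nat_lit 1672) (nat_lit 1325714613) (nat_lit 1748) (nat_lit 9917558391) (nat_lit 423) (nat_lit 5) (nat_lit 445) (nat_lit 5) (nat_lit 446) (nat_lit 5) (nat_lit 434) (nat_lit 431) (nat_lit 275)) (XT.lf (nat_lit 0) (nat_lit 1227694199) (nat_lit 1672) (nat_lit 7540568561) (nat_lit 1748) (nat_lit 3202705755) (nat_lit 424) (nat_lit 5) (nat_lit 446) (nat_lit 5) (nat_lit 447) (nat_lit 5) (nat_lit 435) (nat_lit 431) (nat_lit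 274))) (XT.nd (nat_lit 78) (nat_lit 0) (nat_lit 76) (XT.lf (nat_lit 0) (nat_lit 1859036919) (nat_lit 1672) (nat_lit 1783315872) (nat_lit 1748) (nat_lit 8440484047) (nat_lit 424) (nat_lit 5) (nat_lit 446) (nat_lit 5) (nat_lit 447) (nat_lit 5) (nat_lit 436) (nat_lit 431) (nat_lit 273)) (XT.nd (nat_lit 78) (nat_lit 0) (nat_lit 0) (XT.lf (nat_lit 0) (nat_lit 2528086773) (nat_lit 1672) (nat_lit 8070849387) (nat_lit 1748) (nat_lit 1597510155) (nat_lit 425) (nat_lit 5) (nat_lit 447) (nat_lit 5) (nat_lit 448) (nat_lit 5) (nat_lit 437) (nat_lit 431) (nat_lit 272)) (XT.lf (nat_lit 0) (nat_lit 3234628951) (nat_lit 1672) (nat_lit 2166675685) (nat_lit 1748) (nat_lit 6910546410) (nat_lit 425) (nat_lit 5) (nat_lit 447) (nat_lit 5) (nat_lit 448) (nat_lit 5) (nat_lit 438) (nat_lit 431) (nat_lit 271))))) (XT.nd (nat_lit 234) (nat_lit 0) (nat_lit 152) (XT.nd (nat_lit 78) (nat_lit 0) (nat_lit 76) (XT.lf (nat_lit 76) (nat_lit 3899620270)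 (nat_lit 0) (nat_lit 69180570) (nat_lit 1748) (nat_lit 8460498240) (nat_lit 426) (nat_lit 5) (nat_lit 425) (nat_lit 5) (nat_lit 448) (nat_lit 5) (nat_lit 439) (nat_lit 431) (nat_lit 270)) (XT.nd (nat_lit 78) (nat_lit 0) (nat_lit 0) (XT.lf (nat_lit 0) (nat_lit 4755550491) (nat_lit 1672) (nat_lit 2474478650) (nat_lit 1748) (nat_lit 5318314130) (nat_lit 426) (nat_lit 5) (nat_lit 448) (nat_lit 5) (nat_lit 449) (nat_lit 5) (nat_lit 440) (nat_lit 431) (nat_lit 269)) (XT.lf (nat_lit 76) (nat_lit 3743278619) (nat_lit 0) (nat_lit 1828141639) (nat_lit 1748) (nat_lit 7098085369) (nat_lit 427) (nat_lit 5) (nat_lit 426) (nat_lit 5) (nat_lit 449) (nat_lit 5) (nat_lit 441) (nat_lit 431) (nat_lit 268)))) (XT.nd (nat_lit 78) (nat_lit 0) (nat_lit 0) (XT.lf (nat_lit 0) (nat_lit 6433053290) (nat_lit 1672) (nat_lit 2705230981) (nat_lit 1748) (nat_lit 3654222928) (nat_lit 427) (nat_lit 5) (nat_lit 449) (nat_lit 5) (nat_lit 450) (nat_lit 5)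 (nat_lit 442) (nat_lit 431) (nat_lit 267)) (XT.nd (nat_lit 78) (nat_lit 0) (nat_lit 76) (XT.lf (nat_lit 76) (nat_lit 3668951393) (nat_lit 0) (nat_lit 3667941113) (nat_lit 1748) (nat_lit 5580581617) (nat_lit 428) (nat_lit 5) (nat_lit 427) (nat_lit 5) (nat_lit 450) (nat_lit 5) (nat_lit 443) (nat_lit 431) (nat_lit 266)) (XT.lf (nat_lit 0) (nat_lit 8278731707) (nat_lit 1672) (nat_lit 2857264426) (nat_lit 1748) (nat_lit 1908550485) (nat_lit 428) (nat_lit 5) (nat_lit 450) (nat_lit 5) (nat_lit 451) (nat_lit 5) (nat_lit 444) (nat_lit 431) (nat_lit 265)))))) (XT.nd (nat_lit 390) (nat_lit 0) (nat_lit 0) (XT.nd (nat_lit 156) (nat_lit 1596) (nat_lit 0) (XT.nd (nat_lit 78) (nat_lit 0) (nat_lit 76) (XT.lf (nat_lit 76) (nat_lit 3678476142) (nat_lit 0) (nat_lit 5598553423) (nat_lit 1748) (nat_lit 3896383164) (nat_lit 429) (nat_lit 5) (nat_lit 428) (nat_lit 5) (nat_lit 451) (nat_lit 5) (nat_lit 445) (nat_lit 431) (nat_lit 264)) (XT.lf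 (nat_lit 0) (nat_lit 10304544425) (nat_lit 1672) (nat_lit 2928740013) (nat_lit 1748) (nat_lit 71391219) (nat_lit 429) (nat_lit 5) (nat_lit 451) (nat_lit 5) (nat_lit 452) (nat_lit 5) (nat_lit 446) (nat_lit 431) (nat_lit 263))) (XT.nd (nat_lit 78) (nat_lit 1672) (nat_lit 0) (XT.lf (nat_lit 76) (nat_lit 3773865020) (nat_lit 0) (nat_lit 7630154913) (nat_lit 1748) (nat_lit 2033520128) (nat_lit 430) (nat_lit 5) (nat_lit 429) (nat_lit 5) (nat_lit 452) (nat_lit 5) (nat_lit 447) (nat_lit 431) (nat_lit 262)) (XT.nd (nat_lit 78) (nat_lit 1672) (nat_lit 0) (XT.lf (nat_lit 76) (nat_lit 10642936367) (nat_lit 0) (nat_lit 1892185458) (nat_lit 1748) (nat_lit 1037751530) (nat_lit 430) (nat_lit 5) (nat_lit 429) (nat_lit 5) (nat_lit 452) (nat_lit 5) (nat_lit 448) (nat_lit 431) (nat_lit 261)) (XT.lf (nat_lit 0) (nat_lit 20098362) (nat_lit 1748) (nat_lit 9752916438) (nat_lit 1824) (nat_lit 3937068022) (nat_lit 407) (nat_lit 5) (nat_lit 430)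 (nat_lit 5) (nat_lit 431) (nat_lit 5) (nat_lit 449) (nat_lit 431) (nat_lit 260))))) (XT.nd (nat_lit 234) (nat_lit 0) (nat_lit 76) (XT.nd (nat_lit 78) (nat_lit 0) (nat_lit 76) (XT.lf (nat_lit 0) (nat_lit 1107819335) (nat_lit 1748) (nat_lit 2854894850) (nat_lit 1824) (nat_lit 9886736998) (nat_lit 407) (nat_lit 5) (nat_lit 430) (nat_lit 5) (nat_lit 431) (nat_lit 5) (nat_lit 450) (nat_lit 431) (nat_lit 259)) (XT.nd (nat_lit 78) (nat_lit 0) (nat_lit 0) (XT.lf (nat_lit 0) (nat_lit 2248165098) (nat_lit 1748) (nat_lit 9774944179) (nat_lit 1824) (nat_lit 1967884236) (nat_lit 408) (nat_lit 5) (nat_lit 431) (nat_lit 5) (nat_lit 432) (nat_lit 5) (nat_lit 451) (nat_lit 431) (nat_lit 258)) (XT.lf (nat_lit 0) (nat_lit 3447464076) (nat_lit 1748) (nat_lit 2701699761) (nat_lit 1824) (nat_lit 7985483855) (nat_lit 408) (nat_lit 5) (nat_lit 431) (nat_lit 5) (nat_lit 432) (nat_lit 5) (nat_lit 452) (nat_lit 431) (nat_lit 257)))) (XT.nd (nat_lit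 78) (nat_lit 0) (nat_lit 76) (XT.lf (nat_lit 76) (nat_lit 4565576659) (nat_lit 0) (nat_lit 125617518) (nat_lit 1824) (nat_lit 9589575729) (nat_lit 409) (nat_lit 5) (nat_lit 408) (nat_lit 5) (nat_lit 432) (nat_lit 5) (nat_lit 453) (nat_lit 431) (nat_lit 256)) (XT.nd (nat_lit 78) (nat_lit 0) (nat_lit 0) (XT.lf (nat_lit 0) (nat_lit 6008071492) (nat_lit 1748) (nat_lit 2461286519) (nat_lit 1824) (nat_lit 5959494878) (nat_lit 409) (nat_lit 5) (nat_lit 432) (nat_lit 5) (nat_lit 433) (nat_lit 5) (nat_lit 454) (nat_lit 431) (nat_lit 255)) (XT.lf (nat_lit 76) (nat_lit 4995063970) (nat_lit 0) (nat_lit 2380610335) (nat_lit 1824) (nat_lit 7203739171) (nat_lit 410) (nat_lit 5) (nat_lit 409) (nat_lit 5) (nat_lit 433) (nat_lit 5) (nat_lit 455) (nat_lit 431) (nat_lit 254))))))))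
noncomputable def xc212 : XT := (XT.nd (nat_lit 1638) (nat_lit 6764) (nat_lit 0) (XT.nd (nat_lit 780) (nat_lit 4712) (nat_lit 0) (XT.nd (nat_lit 390) (nat_lit 2660) (nat_lit 0) (XT.nd (nat_lit 156) (nat_lit 1064) (nat_lit 0) (XT.nd (nat_lit 78) (nat_lit 1748) (nat_lit 0) (XT.lf (nat_lit 0) (nat_lit 8803382672) (nat_lit 1748) (nat_lit 2131179541) (nat_lit 76) (nat_lit 3797771621) (nat_lit 410) (nat_lit 5) (nat_lit 433) (nat_lit 5) (nat_lit 411) (nat_lit 5) (nat_lit 456) (nat_lit 431) (nat_lit 253)) (XT.lf (nat_lit 0) (nat_lit 5520381397) (nat_lit 1748) (nat_lit 4782304026) (nat_lit 1824) (nat_lit 4584769933) (nat_lit 387) (nat_lit 5) (nat_lit 410) (nat_lit 5) (nat_lit 411) (nat_lit 5) (nat_lit 457) (nat_lit 431) (nat_lit 252))) (XT.nd (nat_lit 78) (nat_lit 1064) (nat_lit 0) (XT.lf (nat_lit 0) (nat_lit 11847624985) (nat_lit 1824) (nat_lit 1708758921) (nat_lit 76) (nat_lit 1488985876) (nat_lit 387) (nat_lit 5) (nat_lit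 411) (nat_lit 5) (nat_lit 388) (nat_lit 5) (nat_lit 458) (nat_lit 431) (nat_lit 251)) (XT.nd (nat_lit 78) (nat_lit 0) (nat_lit 0) (XT.lf (nat_lit 0) (nat_lit 6144341915) (nat_lit 1064) (nat_lit 7342412090) (nat_lit 1140) (nat_lit 1718426100) (nat_lit 373) (nat_lit 5) (nat_lit 387) (nat_lit 5) (nat_lit 388) (nat_lit 5) (nat_lit 459) (nat_lit 431) (nat_lit 250)) (XT.lf (nat_lit 0) (nat_lit 14170421665) (nat_lit 1064) (nat_lit 991552425) (nat_lit 1140) (nat_lit 206149728) (nat_lit 373) (nat_lit 5) (nat_lit 387) (nat_lit 5) (nat_lit 388) (nat_lit 5) (nat_lit 460) (nat_lit 431) (nat_lit 249))))) (XT.nd (nat_lit 156) (nat_lit 1672) (nat_lit 0) (XT.nd (nat_lit 78) (nat_lit 0) (nat_lit 0) (XT.lf (nat_lit 0) (nat_lit 1391552935) (nat_lit 988) (nat_lit 8672137006) (nat_lit 76) (nat_lit 5469012006) (nat_lit 360) (nat_lit 5) (nat_lit 373) (nat_lit 5) (nat_lit 361) (nat_lit 5) (nat_lit 461) (nat_lit 431) (nat_lit 248)) (XT.lf (nat_lit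 0) (nat_lit 3025170905) (nat_lit 988) (nat_lit 619496948) (nat_lit 76) (nat_lit 12055745260) (nat_lit 360) (nat_lit 5) (nat_lit 373) (nat_lit 5) (nat_lit 361) (nat_lit 5) (nat_lit 462) (nat_lit 431) (nat_lit 247))) (XT.nd (nat_lit 78) (nat_lit 836) (nat_lit 0) (XT.lf (nat_lit 0) (nat_lit 4752774287) (nat_lit 912) (nat_lit 8201986394) (nat_lit 76) (nat_lit 2915494660) (nat_lit 349) (nat_lit 5) (nat_lit 361) (nat_lit 5) (nat_lit 350) (nat_lit 5) (nat_lit 463) (nat_lit 431) (nat_lit 246)) (XT.nd (nat_lit 78) (nat_lit 0) (nat_lit 0) (XT.lf (nat_lit 0) (nat_lit 56044465) (nat_lit 836) (nat_lit 6479898044) (nat_lit 912) (nat_lit 9507134687) (nat_lit 338) (nat_lit 5) (nat_lit 349) (nat_lit 5) (nat_lit 350) (nat_lit 5) (nat_lit 464) (nat_lit 431) (nat_lit 245)) (XT.lf (nat_lit 0) (nat_lit 8403419060) (nat_lit 912) (nat_lit 7636422126) (nat_lit 76) (nat_lit 178544382) (nat_lit 338) (nat_lit 5) (nat_lit 350) (nat_lit 5) (nat_lit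 339) (nat_lit 5) (nat_lit 465) (nat_lit 431) (nat_lit 244)))))) (XT.nd (nat_lit 390) (nat_lit 2204) (nat_lit 0) (XT.nd (nat_lit 156) (nat_lit 1672) (nat_lit 0) (XT.nd (nat_lit 78) (nat_lit 0) (nat_lit 0) (XT.lf (nat_lit 0) (nat_lit 842065748) (nat_lit 836) (nat_lit 9507140979) (nat_lit 912) (nat_lit 6047177067) (nat_lit 327) (nat_lit 5) (nat_lit 338) (nat_lit 5) (nat_lit 339) (nat_lit 5) (nat_lit 466) (nat_lit 431) (nat_lit 243)) (XT.lf (nat_lit 0) (nat_lit 9586419336) (nat_lit 836) (nat_lit 2791414936) (nat_lit 912) (nat_lit 4199232094) (nat_lit 327) (nat_lit 5) (nat_lit 338) (nat_lit 5) (nat_lit 339) (nat_lit 5) (nat_lit 467) (nat_lit 431) (nat_lit 242))) (XT.nd (nat_lit 78) (nat_lit 836) (nat_lit 0) (XT.lf (nat_lit 0) (nat_lit 1733457498) (nat_lit 836) (nat_lit 12744006813) (nat_lit 912) (nat_lit 2283292484) (nat_lit 316) (nat_lit 5) (nat_lit 327) (nat_lit 5) (nat_lit 328) (nat_lit 5) (nat_lit 468) (nat_lit 431) (nat_lit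 241)) (XT.nd (nat_lit 78) (nat_lit 836) (nat_lit 0) (XT.lf (nat_lit 0) (nat_lit 10700896611) (nat_lit 836) (nat_lit 5976383852) (nat_lit 912) (nat_lit 269679454) (nat_lit 316) (nat_lit 5) (nat_lit 327) (nat_lit 5) (nat_lit 328) (nat_lit 5) (nat_lit 469) (nat_lit 431) (nat_lit 240)) (XT.lf (nat_lit 0) (nat_lit 1777734118) (nat_lit 836) (nat_lit 14414793875) (nat_lit 76) (nat_lit 943791497) (nat_lit 305) (nat_lit 5) (nat_lit 316) (nat_lit 5) (nat_lit 306) (nat_lit 5) (nat_lit 470) (nat_lit 431) (nat_lit 239))))) (XT.nd (nat_lit 234) (nat_lit 1444) (nat_lit 0) (XT.nd (nat_lit 78) (nat_lit 760) (nat_lit 0) (XT.lf (nat_lit 0) (nat_lit 3937357132) (nat_lit 836) (nat_lit 5424359927) (nat_lit 76) (nat_lit 7966218694) (nat_lit 305) (nat_lit 5) (nat_lit 316) (nat_lit 5) (nat_lit 306) (nat_lit 5) (nat_lit 471) (nat_lit 431) (nat_lit 238)) (XT.nd (nat_lit 78) (nat_lit 0) (nat_lit 0) (XT.lf (nat_lit 0) (nat_lit 3788487957) (nat_lit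 760) (nat_lit 2369515506) (nat_lit 836) (nat_lit 11365026802) (nat_lit 295) (nat_lit 5) (nat_lit 305) (nat_lit 5) (nat_lit 306) (nat_lit 5) (nat_lit 472) (nat_lit 431) (nat_lit 237)) (XT.lf (nat_lit 0) (nat_lit 8483943773) (nat_lit 836) (nat_lit 4500508432) (nat_lit 76) (nat_lit 4736359334) (nat_lit 295) (nat_lit 5) (nat_lit 306) (nat_lit 5) (nat_lit 296) (nat_lit 5) (nat_lit 473) (nat_lit 431) (nat_lit 236)))) (XT.nd (nat_lit 78) (nat_lit 760) (nat_lit 0) (XT.lf (nat_lit 0) (nat_lit 4960544328) (nat_lit 684) (nat_lit 5937207052) (nat_lit 760) (nat_lit 7023972531) (nat_lit 286) (nat_lit 5) (nat_lit 295) (nat_lit 5) (nat_lit 296) (nat_lit 5) (nat_lit 474) (nat_lit 431) (nat_lit 235)) (XT.nd (nat_lit 78) (nat_lit 760) (nat_lit 0) (XT.lf (nat_lit 0) (nat_lit 13391887108) (nat_lit 760) (nat_lit 3469659254) (nat_lit 76) (nat_lit 1264469526) (nat_lit 286) (nat_lit 5) (nat_lit 296) (nat_lit 5) (nat_lit 287) (nat_lit 5) (nat_lit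 475) (nat_lit 431) (nat_lit 234)) (XT.lf (nat_lit 0) (nat_lit 6247336343) (nat_lit 760) (nat_lit 9762106163) (nat_lit 836) (nat_lit 2323482808) (nat_lit 276) (nat_lit 5) (nat_lit 286) (nat_lit 5) (nat_lit 287) (nat_lit 5) (nat_lit 476) (nat_lit 431) (nat_lit 233))))))) (XT.nd (nat_lit 780) (nat_lit 3420) (nat_lit 0) (XT.nd (nat_lit 390) (nat_lit 1292) (nat_lit 0) (XT.nd (nat_lit 156) (nat_lit 1292) (nat_lit 0) (XT.nd (nat_lit 78) (nat_lit 684) (nat_lit 0) (XT.lf (nat_lit 0) (nat_lit 150729562) (nat_lit 836) (nat_lit 2345847469) (nat_lit 76) (nat_lit 16047037995) (nat_lit 275) (nat_lit 5) (nat_lit 286) (nat_lit 5) (nat_lit 276) (nat_lit 5) (nat_lit 477) (nat_lit 431) (nat_lit 232)) (XT.lf (nat_lit 0) (nat_lit 2719271927) (nat_lit 760) (nat_lit 11122693041) (nat_lit 76) (nat_lit 4914729469) (nat_lit 266) (nat_lit 5) (nat_lit 276) (nat_lit 5) (nat_lit 267) (nat_lit 5) (nat_lit 478) (nat_lit 431) (nat_lit 231))) (XT.nd (nat_lit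 78) (nat_lit 1292) (nat_lit 0) (XT.lf (nat_lit 0) (nat_lit 5365452364) (nat_lit 760) (nat_lit 1152060668) (nat_lit 76) (nat_lit 12455999230) (nat_lit 266) (nat_lit 5) (nat_lit 276) (nat_lit 5) (nat_lit 267) (nat_lit 5) (nat_lit 479) (nat_lit 431) (nat_lit 230)) (XT.nd (nat_lit 78) (nat_lit 608) (nat_lit 0) (XT.lf (nat_lit 0) (nat_lit 8124425351) (nat_lit 760) (nat_lit 10069254008) (nat_lit 76) (nat_lit 999791834) (nat_lit 257) (nat_lit 5) (nat_lit 267) (nat_lit 5) (nat_lit 258) (nat_lit 5) (nat_lit 480) (nat_lit 431) (nat_lit 229)) (XT.lf (nat_lit 0) (nat_lit 155911746) (nat_lit 608) (nat_lit 10828698199) (nat_lit 684) (nat_lit 8432300798) (nat_lit 249) (nat_lit 5) (nat_lit 257) (nat_lit 5) (nat_lit 258) (nat_lit 5) (nat_lit 481) (nat_lit 431) (nat_lit 228))))) (XT.nd (nat_lit 156) (nat_lit 684) (nat_lit 0) (XT.nd (nat_lit 78) (nat_lit 608) (nat_lit 0) (XT.lf (nat_lit 0) (nat_lit 10715235553) (nat_lit 608) (nat_lit 3248479849)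 (nat_lit 684) (nat_lit 5679871384) (nat_lit 249) (nat_lit 5) (nat_lit 257) (nat_lit 5) (nat_lit 258) (nat_lit 5) (nat_lit 482) (nat_lit 431) (nat_lit 227)) (XT.lf (nat_lit 0) (nat_lit 1595958835) (nat_lit 608) (nat_lit 15440170667) (nat_lit 684) (nat_lit 2837994321) (nat_lit 241) (nat_lit 5) (nat_lit 249) (nat_lit 5) (nat_lit 250) (nat_lit 5) (nat_lit 483) (nat_lit 431) (nat_lit 226))) (XT.nd (nat_lit 78) (nat_lit 608) (nat_lit 0) (XT.lf (nat_lit 0) (nat_lit 136032592) (nat_lit 684) (nat_lit 7685442352) (nat_lit 76) (nat_lit 12286268525) (nat_lit 240) (nat_lit 5) (nat_lit 249) (nat_lit 5) (nat_lit 241) (nat_lit 5) (nat_lit 484) (nat_lit 431) (nat_lit 225)) (XT.nd (nat_lit 78) (nat_lit 0) (nat_lit 0) (XT.lf (nat_lit 0) (nat_lit 3134740844) (nat_lit 608) (nat_lit 11583696) (nat_lit 684) (nat_lit 17199041970) (nat_lit 232) (nat_lit 5) (nat_lit 240) (nat_lit 5) (nat_lit 241) (nat_lit 5) (nat_lit 485) (nat_lit 431) (nat_lit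 224)) (XT.lf (nat_lit 0) (nat_lit 6314839290) (nat_lit 684) (nat_lit 6369965116) (nat_lit 76) (nat_lit 7900979118) (nat_lit 232) (nat_lit 5) (nat_lit 241) (nat_lit 5) (nat_lit 233) (nat_lit 5) (nat_lit 486) (nat_lit 431) (nat_lit 223)))))) (XT.nd (nat_lit 390) (nat_lit 1596) (nat_lit 0) (XT.nd (nat_lit 156) (nat_lit 1216) (nat_lit 0) (XT.nd (nat_lit 78) (nat_lit 0) (nat_lit 0) (XT.lf (nat_lit 0) (nat_lit 4742996996) (nat_lit 608) (nat_lit 4829163567) (nat_lit 684) (nat_lit 11258341405) (nat_lit 224) (nat_lit 5) (nat_lit 232) (nat_lit 5) (nat_lit 233) (nat_lit 5) (nat_lit 487) (nat_lit 431) (nat_lit 222)) (XT.lf (nat_lit 0) (nat_lit 12952947765) (nat_lit 684) (nat_lit 4942345788) (nat_lit 76) (nat_lit 3183656618) (nat_lit 224) (nat_lit 5) (nat_lit 233) (nat_lit 5) (nat_lit 225) (nat_lit 5) (nat_lit 488) (nat_lit 431) (nat_lit 221))) (XT.nd (nat_lit 78) (nat_lit 684) (nat_lit 0) (XT.lf (nat_lit 0) (nat_lit 6472051042)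 (nat_lit 532) (nat_lit 9998027832) (nat_lit 608) (nat_lit 4860915647) (nat_lit 217) (nat_lit 5) (nat_lit 224) (nat_lit 5) (nat_lit 225) (nat_lit 5) (nat_lit 489) (nat_lit 431) (nat_lit 220)) (XT.nd (nat_lit 78) (nat_lit 684) (nat_lit 0) (XT.lf (nat_lit 0) (nat_lit 18175207373) (nat_lit 532) (nat_lit 1910298130) (nat_lit 608) (nat_lit 1502016906) (nat_lit 217) (nat_lit 5) (nat_lit 224) (nat_lit 5) (nat_lit 225) (nat_lit 5) (nat_lit 490) (nat_lit 431) (nat_lit 219)) (XT.lf (nat_lit 0) (nat_lit 1989509588) (nat_lit 684) (nat_lit 13535691774) (nat_lit 76) (nat_lit 6321917609) (nat_lit 208) (nat_lit 5) (nat_lit 217) (nat_lit 5) (nat_lit 209) (nat_lit 5) (nat_lit 491) (nat_lit 431) (nat_lit 218))))) (XT.nd (nat_lit 234) (nat_lit 1064) (nat_lit 0) (XT.nd (nat_lit 78) (nat_lit 532) (nat_lit 0) (XT.lf (nat_lit 0) (nat_lit 5561378862) (nat_lit 684) (nat_lit 1824817651) (nat_lit 76) (nat_lit 14724901512) (nat_lit 208) (nat_lit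 5) (nat_lit 217) (nat_lit 5) (nat_lit 209) (nat_lit 5) (nat_lit 492) (nat_lit 431) (nat_lit 217)) (XT.nd (nat_lit 78) (nat_lit 0) (nat_lit 0) (XT.lf (nat_lit 0) (nat_lit 9272604755) (nat_lit 608) (nat_lit 12137211147) (nat_lit 76) (nat_lit 969183953) (nat_lit 201) (nat_lit 5) (nat_lit 209) (nat_lit 5) (nat_lit 202) (nat_lit 5) (nat_lit 493) (nat_lit 431) (nat_lit 216)) (XT.lf (nat_lit 0) (nat_lit 13114348864) (nat_lit 608) (nat_lit 132986891) (nat_lit 76) (nat_lit 9403799642) (nat_lit 201) (nat_lit 5) (nat_lit 209) (nat_lit 5) (nat_lit 202) (nat_lit 5) (nat_lit 494) (nat_lit 431) (nat_lit 215)))) (XT.nd (nat_lit 78) (nat_lit 532) (nat_lit 0) (XT.lf (nat_lit 0) (nat_lit 12265878449) (nat_lit 532) (nat_lit 4841836553) (nat_lit 608) (nat_lit 5819504425) (nat_lit 194) (nat_lit 5) (nat_lit 201) (nat_lit 5) (nat_lit 202) (nat_lit 5) (nat_lit 495) (nat_lit 431) (nat_lit 214)) (XT.nd (nat_lit 78) (nat_lit 76) (nat_lit 0) (XT.lf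 (nat_lit 0) (nat_lit 1697384002) (nat_lit 456) (nat_lit 19514906228) (nat_lit 532) (nat_lit 1995909561) (nat_lit 188) (nat_lit 5) (nat_lit 194) (nat_lit 5) (nat_lit 195) (nat_lit 5) (nat_lit 496) (nat_lit 431) (nat_lit 213)) (XT.lf (nat_lit 0) (nat_lit 1978480050) (nat_lit 532) (nat_lit 9096852244) (nat_lit 76) (nat_lit 12417235715) (nat_lit 187) (nat_lit 5) (nat_lit 194) (nat_lit 5) (nat_lit 188) (nat_lit 5) (nat_lit 497) (nat_lit 431) (nat_lit 212))))))))
noncomputable def xc213 : XT := (XT.nd (nat_lit 55692) (nat_lit 0) (nat_lit 9500) (XT.nd (nat_lit 54834) (nat_lit 0) (nat_lit 17252) (XT.nd (nat_lit 54444) (nat_lit 0) (nat_lit 18468) (XT.nd (nat_lit 54210) (nat_lit 0) (nat_lit 18392) (XT.nd (nat_lit 78) (nat_lit 0) (nat_lit 0) (XT.lf (nat_lit 0) (nat_lit 3593039001) (nat_lit 532) (nat_lit 2431254505) (nat_lit 608) (nat_lit 17757694402) (nat_lit 180) (nat_lit 5) (nat_lit 187) (nat_lit 5) (nat_lit 188) (nat_lit 5)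 (nat_lit 498) (nat_lit 431) (nat_lit 211)) (XT.lf (nat_lit 0) (nat_lit 10249281724) (nat_lit 608) (nat_lit 7464101289) (nat_lit 76) (nat_lit 6361849399) (nat_lit 180) (nat_lit 5) (nat_lit 188) (nat_lit 5) (nat_lit 181) (nat_lit 5) (nat_lit 499) (nat_lit 431) (nat_lit 210))) (XT.nd (nat_lit 78) (nat_lit 1748) (nat_lit 0) (XT.lf (nat_lit 0) (nat_lit 2935508107) (nat_lit 0) (nat_lit 2935508107) (nat_lit 1596) (nat_lit 4839074) (nat_lit 445) (nat_lit 5) (nat_lit 445) (nat_lit 3) (nat_lit 466) (nat_lit 3) (nat_lit 432) (nat_lit 432) (nat_lit 276)) (XT.nd (nat_lit 78) (nat_lit 0) (nat_lit 76) (XT.lf (nat_lit 0) (nat_lit 477252107) (nat_lit 1748) (nat_lit 307407504) (nat_lit 1748) (nat_lit 11074617385) (nat_lit 422) (nat_lit 3) (nat_lit 445) (nat_lit 3) (nat_lit 445) (nat_lit 5) (nat_lit 433) (nat_lit 432) (nat_lit 275)) (XT.lf (nat_lit 0) (nat_lit 1025218933) (nat_lit 1672) (nat_lit 6555273463) (nat_lit 1748) (nat_lit 4387478127)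 (nat_lit 423) (nat_lit 5) (nat_lit 445) (nat_lit 5) (nat_lit 446) (nat_lit 5) (nat_lit 434) (nat_lit 432) (nat_lit 274))))) (XT.nd (nat_lit 156) (nat_lit 0) (nat_lit 76) (XT.nd (nat_lit 78) (nat_lit 0) (nat_lit 76) (XT.lf (nat_lit 0) (nat_lit 1578894445) (nat_lit 1672) (nat_lit 839405762) (nat_lit 1748) (nat_lit 9660648230) (nat_lit 423) (nat_lit 5) (nat_lit 445) (nat_lit 5) (nat_lit 446) (nat_lit 5) (nat_lit 435) (nat_lit 432) (nat_lit 273)) (XT.lf (nat_lit 0) (nat_lit 2182895111) (nat_lit 1672) (nat_lit 7160101394) (nat_lit 1748) (nat_lit 2848369766) (nat_lit 424) (nat_lit 5) (nat_lit 446) (nat_lit 5) (nat_lit 447) (nat_lit 5) (nat_lit 436) (nat_lit 432) (nat_lit 272))) (XT.nd (nat_lit 78) (nat_lit 0) (nat_lit 76) (XT.lf (nat_lit 0) (nat_lit 2808616704) (nat_lit 1672) (nat_lit 1298120878) (nat_lit 1748) (nat_lit 8199107352) (nat_lit 424) (nat_lit 5) (nat_lit 446) (nat_lit 5) (nat_lit 447) (nat_lit 5) (nat_lit 437)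 (nat_lit 432) (nat_lit 271)) (XT.nd (nat_lit 78) (nat_lit 0) (nat_lit 0) (XT.lf (nat_lit 0) (nat_lit 3474046878) (nat_lit 1672) (nat_lit 7694011582) (nat_lit 1748) (nat_lit 1254016011) (nat_lit 425) (nat_lit 5) (nat_lit 447) (nat_lit 5) (nat_lit 448) (nat_lit 5) (nat_lit 438) (nat_lit 432) (nat_lit 270)) (XT.lf (nat_lit 0) (nat_lit 4177163069) (nat_lit 1672) (nat_lit 1682308421) (nat_lit 1748) (nat_lit 6680674644) (nat_lit 425) (nat_lit 5) (nat_lit 447) (nat_lit 5) (nat_lit 448) (nat_lit 5) (nat_lit 439) (nat_lit 432) (nat_lit 269)))))) (XT.nd (nat_lit 390) (nat_lit 1368) (nat_lit 0) (XT.nd (nat_lit 156) (nat_lit 0) (nat_lit 76) (XT.nd (nat_lit 78) (nat_lit 0) (nat_lit 76) (XT.lf (nat_lit 76) (nat_lit 4501841737) (nat_lit 0) (nat_lit 410367722) (nat_lit 1748) (nat_lit 7748017400) (nat_lit 426) (nat_lit 5) (nat_lit 425) (nat_lit 5) (nat_lit 448) (nat_lit 5) (nat_lit 440) (nat_lit 432) (nat_lit 268)) (XT.lf (nat_lit 0)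 (nat_lit 5695589317) (nat_lit 1672) (nat_lit 1990543228) (nat_lit 1748) (nat_lit 5095908887) (nat_lit 426) (nat_lit 5) (nat_lit 448) (nat_lit 5) (nat_lit 449) (nat_lit 5) (nat_lit 441) (nat_lit 432) (nat_lit 267))) (XT.nd (nat_lit 78) (nat_lit 0) (nat_lit 76) (XT.lf (nat_lit 76) (nat_lit 4348059810) (nat_lit 0) (nat_lit 2166590020) (nat_lit 1748) (nat_lit 6391246996) (nat_lit 427) (nat_lit 5) (nat_lit 426) (nat_lit 5) (nat_lit 449) (nat_lit 5) (nat_lit 442) (nat_lit 432) (nat_lit 266)) (XT.nd (nat_lit 78) (nat_lit 0) (nat_lit 0) (XT.lf (nat_lit 0) (nat_lit 7375284088) (nat_lit 1672) (nat_lit 2221223274) (nat_lit 1748) (nat_lit 3435222813) (nat_lit 427) (nat_lit 5) (nat_lit 449) (nat_lit 5) (nat_lit 450) (nat_lit 5) (nat_lit 443) (nat_lit 432) (nat_lit 265)) (XT.lf (nat_lit 76) (nat_lit 4276902536) (nat_lit 0) (nat_lit 4007816002) (nat_lit 1748) (nat_lit 4874734506) (nat_lit 428) (nat_lit 5) (nat_lit 427) (nat_lit 5)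 (nat_lit 450) (nat_lit 5) (nat_lit 444) (nat_lit 432) (nat_lit 264))))) (XT.nd (nat_lit 234) (nat_lit 1596) (nat_lit 0) (XT.nd (nat_lit 78) (nat_lit 0) (nat_lit 0) (XT.lf (nat_lit 0) (nat_lit 9227990441) (nat_lit 1672) (nat_lit 2372573366) (nat_lit 1748) (nat_lit 1688858102) (nat_lit 428) (nat_lit 5) (nat_lit 450) (nat_lit 5) (nat_lit 451) (nat_lit 5) (nat_lit 445) (nat_lit 432) (nat_lit 263)) (XT.nd (nat_lit 78) (nat_lit 0) (nat_lit 0) (XT.lf (nat_lit 76) (nat_lit 4290317301) (nat_lit 0) (nat_lit 5944065417) (nat_lit 1748) (nat_lit 3186726761) (nat_lit 429) (nat_lit 5) (nat_lit 428) (nat_lit 5) (nat_lit 451) (nat_lit 5) (nat_lit 446) (nat_lit 432) (nat_lit 262)) (XT.lf (nat_lit 76) (nat_lit 11111660302) (nat_lit 0) (nat_lit 155174920) (nat_lit 1748) (nat_lit 2288481269) (nat_lit 429) (nat_lit 5) (nat_lit 428) (nat_lit 5) (nat_lit 451) (nat_lit 5) (nat_lit 447) (nat_lit 432) (nat_lit 261)))) (XT.nd (nat_lit 78) (nat_lit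 1672) (nat_lit 0) (XT.lf (nat_lit 76) (nat_lit 4390425112) (nat_lit 0) (nat_lit 7985573005) (nat_lit 1748) (nat_lit 1315092554) (nat_lit 430) (nat_lit 5) (nat_lit 429) (nat_lit 5) (nat_lit 452) (nat_lit 5) (nat_lit 448) (nat_lit 432) (nat_lit 260)) (XT.nd (nat_lit 78) (nat_lit 1672) (nat_lit 0) (XT.lf (nat_lit 76) (nat_lit 11386268420) (nat_lit 0) (nat_lit 2128867396) (nat_lit 1748) (nat_lit 314292859) (nat_lit 430) (nat_lit 5) (nat_lit 429) (nat_lit 5) (nat_lit 452) (nat_lit 5) (nat_lit 449) (nat_lit 432) (nat_lit 259)) (XT.lf (nat_lit 0) (nat_lit 742827755) (nat_lit 1748) (nat_lit 9395001792) (nat_lit 1824) (nat_lit 3831704733) (nat_lit 407) (nat_lit 5) (nat_lit 430) (nat_lit 5) (nat_lit 431) (nat_lit 5) (nat_lit 450) (nat_lit 432) (nat_lit 258))))))) (XT.nd (nat_lit 858) (nat_lit 5092) (nat_lit 0) (XT.nd (nat_lit 390) (nat_lit 2660) (nat_lit 0) (XT.nd (nat_lit 156) (nat_lit 0) (nat_lit 76) (XT.nd (nat_lit 78) (nat_lit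 0) (nat_lit 76) (XT.lf (nat_lit 0) (nat_lit 1838139864) (nat_lit 1748) (nat_lit 2369862379) (nat_lit 1824) (nat_lit 9903976984) (nat_lit 407) (nat_lit 5) (nat_lit 430) (nat_lit 5) (nat_lit 431) (nat_lit 5) (nat_lit 451) (nat_lit 432) (nat_lit 257)) (XT.lf (nat_lit 0) (nat_lit 2989869976) (nat_lit 1748) (nat_lit 9416598271) (nat_lit 1824) (nat_lit 1850118445) (nat_lit 408) (nat_lit 5) (nat_lit 431) (nat_lit 5) (nat_lit 432) (nat_lit 5) (nat_lit 452) (nat_lit 432) (nat_lit 256))) (XT.nd (nat_lit 78) (nat_lit 0) (nat_lit 0) (XT.lf (nat_lit 0) (nat_lit 4199493335) (nat_lit 1748) (nat_lit 2212748666) (nat_lit 1824) (nat_lit 7991150909) (nat_lit 408) (nat_lit 5) (nat_lit 431) (nat_lit 5) (nat_lit 432) (nat_lit 5) (nat_lit 453) (nat_lit 432) (nat_lit 255)) (XT.nd (nat_lit 78) (nat_lit 0) (nat_lit 76) (XT.lf (nat_lit 76) (nat_lit 5196301012) (nat_lit 0) (nat_lit 261905526) (nat_lit 1824) (nat_lit 9094434470) (nat_lit 409) (nat_lit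 5) (nat_lit 408) (nat_lit 5) (nat_lit 432) (nat_lit 5) (nat_lit 454) (nat_lit 432) (nat_lit 254)) (XT.lf (nat_lit 0) (nat_lit 6787370096) (nat_lit 1748) (nat_lit 1967349822) (nat_lit 1824) (nat_lit 5949252259) (nat_lit 409) (nat_lit 5) (nat_lit 432) (nat_lit 5) (nat_lit 433) (nat_lit 5) (nat_lit 455) (nat_lit 432) (nat_lit 253))))) (XT.nd (nat_lit 234) (nat_lit 1140) (nat_lit 0) (XT.nd (nat_lit 78) (nat_lit 1672) (nat_lit 0) (XT.lf (nat_lit 76) (nat_lit 5634554239) (nat_lit 0) (nat_lit 2538349837) (nat_lit 1824) (nat_lit 6684833710) (nat_lit 410) (nat_lit 5) (nat_lit 409) (nat_lit 5) (nat_lit 433) (nat_lit 5) (nat_lit 456) (nat_lit 432) (nat_lit 252)) (XT.nd (nat_lit 78) (nat_lit 1748) (nat_lit 0) (XT.lf (nat_lit 0) (nat_lit 9615726077) (nat_lit 1748) (nat_lit 1631089438) (nat_lit 76) (nat_lit 3767175135) (nat_lit 410) (nat_lit 5) (nat_lit 433) (nat_lit 5) (nat_lit 411) (nat_lit 5) (nat_lit 457) (nat_lit 432) (nat_lit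 251)) (XT.lf (nat_lit 0) (nat_lit 6169932233) (nat_lit 1748) (nat_lit 4966107129) (nat_lit 1824) (nat_lit 4036359934) (nat_lit 387) (nat_lit 5) (nat_lit 410) (nat_lit 5) (nat_lit 411) (nat_lit 5) (nat_lit 458) (nat_lit 432) (nat_lit 250)))) (XT.nd (nat_lit 78) (nat_lit 1140) (nat_lit 0) (XT.lf (nat_lit 0) (nat_lit 12699016561) (nat_lit 1824) (nat_lit 1201247089) (nat_lit 76) (nat_lit 1433470665) (nat_lit 387) (nat_lit 5) (nat_lit 411) (nat_lit 5) (nat_lit 388) (nat_lit 5) (nat_lit 459) (nat_lit 432) (nat_lit 249)) (XT.nd (nat_lit 78) (nat_lit 76) (nat_lit 0) (XT.lf (nat_lit 0) (nat_lit 6805352032) (nat_lit 1064) (nat_lit 7557022157) (nat_lit 1140) (nat_lit 1134542717) (nat_lit 373) (nat_lit 5) (nat_lit 387) (nat_lit 5) (nat_lit 388) (nat_lit 5) (nat_lit 460) (nat_lit 432) (nat_lit 248)) (XT.lf (nat_lit 0) (nat_lit 390664865) (nat_lit 1140) (nat_lit 684530203) (nat_lit 76) (nat_lit 14588115508) (nat_lit 372) (nat_lit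 5) (nat_lit 387) (nat_lit 5) (nat_lit 373) (nat_lit 5) (nat_lit 461) (nat_lit 432) (nat_lit 247)))))) (XT.nd (nat_lit 390) (nat_lit 2508) (nat_lit 0) (XT.nd (nat_lit 156) (nat_lit 1672) (nat_lit 0) (XT.nd (nat_lit 78) (nat_lit 0) (nat_lit 0) (XT.lf (nat_lit 0) (nat_lit 2008915996) (nat_lit 988) (nat_lit 8300936430) (nat_lit 76) (nat_lit 5521478188) (nat_lit 360) (nat_lit 5) (nat_lit 373) (nat_lit 5) (nat_lit 361) (nat_lit 5) (nat_lit 462) (nat_lit 432) (nat_lit 246)) (XT.lf (nat_lit 0) (nat_lit 3663646874) (nat_lit 988) (nat_lit 97922852) (nat_lit 76) (nat_lit 12241062070) (nat_lit 360) (nat_lit 5) (nat_lit 373) (nat_lit 5) (nat_lit 361) (nat_lit 5) (nat_lit 463) (nat_lit 432) (nat_lit 245))) (XT.nd (nat_lit 78) (nat_lit 836) (nat_lit 0) (XT.lf (nat_lit 0) (nat_lit 5417656248) (nat_lit 912) (nat_lit 7823690393) (nat_lit 76) (nat_lit 2934691661) (nat_lit 349) (nat_lit 5) (nat_lit 361) (nat_lit 5) (nat_lit 350) (nat_lit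 5) (nat_lit 464) (nat_lit 432) (nat_lit 244)) (XT.nd (nat_lit 78) (nat_lit 0) (nat_lit 0) (XT.lf (nat_lit 0) (nat_lit 595933084) (nat_lit 836) (nat_lit 6632879720) (nat_lit 912) (nat_lit 9123661715) (nat_lit 338) (nat_lit 5) (nat_lit 349) (nat_lit 5) (nat_lit 350) (nat_lit 5) (nat_lit 465) (nat_lit 432) (nat_lit 243)) (XT.lf (nat_lit 0) (nat_lit 9122467462) (nat_lit 912) (nat_lit 7249558633) (nat_lit 76) (nat_lit 159490727) (nat_lit 338) (nat_lit 5) (nat_lit 350) (nat_lit 5) (nat_lit 339) (nat_lit 5) (nat_lit 466) (nat_lit 432) (nat_lit 242))))) (XT.nd (nat_lit 234) (nat_lit 836) (nat_lit 0) (XT.nd (nat_lit 78) (nat_lit 836) (nat_lit 0) (XT.lf (nat_lit 0) (nat_lit 1394949051) (nat_lit 836) (nat_lit 9704898642) (nat_lit 912) (nat_lit 5613378037) (nat_lit 327) (nat_lit 5) (nat_lit 338) (nat_lit 5) (nat_lit 339) (nat_lit 5) (nat_lit 467) (nat_lit 432) (nat_lit 241)) (XT.nd (nat_lit 78) (nat_lit 836) (nat_lit 0) (XT.lf (nat_lit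 0) (nat_lit 10303679084) (nat_lit 836) (nat_lit 2854708767) (nat_lit 912) (nat_lit 3739351470) (nat_lit 327) (nat_lit 5) (nat_lit 338) (nat_lit 5) (nat_lit 339) (nat_lit 5) (nat_lit 468) (nat_lit 432) (nat_lit 240)) (XT.lf (nat_lit 0) (nat_lit 2301045589) (nat_lit 836) (nat_lit 12991926526) (nat_lit 912) (nat_lit 1792276299) (nat_lit 316) (nat_lit 5) (nat_lit 327) (nat_lit 5) (nat_lit 328) (nat_lit 5) (nat_lit 469) (nat_lit 432) (nat_lit 239)))) (XT.nd (nat_lit 78) (nat_lit 760) (nat_lit 0) (XT.lf (nat_lit 0) (nat_lit 247792778) (nat_lit 912) (nat_lit 5839631985) (nat_lit 76) (nat_lit 11187928494) (nat_lit 315) (nat_lit 5) (nat_lit 327) (nat_lit 5) (nat_lit 316) (nat_lit 5) (nat_lit 470) (nat_lit 432) (nat_lit 238)) (XT.nd (nat_lit 78) (nat_lit 0) (nat_lit 0) (XT.lf (nat_lit 0) (nat_lit 2325869371) (nat_lit 836) (nat_lit 14166652942) (nat_lit 76) (nat_lit 976079393) (nat_lit 305) (nat_lit 5) (nat_lit 316) (nat_lit 5)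 (nat_lit 306) (nat_lit 5) (nat_lit 471) (nat_lit 432) (nat_lit 237)) (XT.lf (nat_lit 0) (nat_lit 4518634246) (nat_lit 836) (nat_lit 5006928684) (nat_lit 76) (nat_lit 8138692152) (nat_lit 305) (nat_lit 5) (nat_lit 316) (nat_lit 5) (nat_lit 306) (nat_lit 5) (nat_lit 472) (nat_lit 432) (nat_lit 236))))))))
noncomputable def xc214 : XT := (XT.nd (nat_lit 1638) (nat_lit 2128) (nat_lit 0) (XT.nd (nat_lit 780) (nat_lit 3116) (nat_lit 0) (XT.nd (nat_lit 390) (nat_lit 2052) (nat_lit 0) (XT.nd (nat_lit 156) (nat_lit 1444) (nat_lit 0) (XT.nd (nat_lit 78) (nat_lit 0) (nat_lit 0) (XT.lf (nat_lit 0) (nat_lit 4386716168) (nat_lit 760) (nat_lit 2390515954) (nat_lit 836) (nat_lit 11086152293) (nat_lit 295) (nat_lit 5) (nat_lit 305) (nat_lit 5) (nat_lit 306) (nat_lit 5) (nat_lit 473) (nat_lit 432) (nat_lit 235)) (XT.lf (nat_lit 0) (nat_lit 9140132384) (nat_lit 836) (nat_lit 4068564123) (nat_lit 76) (nat_lit 4856619613) (nat_lit 295) (nat_lit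 5) (nat_lit 306) (nat_lit 5) (nat_lit 296) (nat_lit 5) (nat_lit 474) (nat_lit 432) (nat_lit 234))) (XT.nd (nat_lit 78) (nat_lit 760) (nat_lit 0) (XT.lf (nat_lit 0) (nat_lit 5578275781) (nat_lit 684) (nat_lit 6017767535) (nat_lit 760) (nat_lit 6674330438) (nat_lit 286) (nat_lit 5) (nat_lit 295) (nat_lit 5) (nat_lit 296) (nat_lit 5) (nat_lit 475) (nat_lit 432) (nat_lit 233)) (XT.nd (nat_lit 78) (nat_lit 760) (nat_lit 0) (XT.lf (nat_lit 0) (nat_lit 14130886440) (nat_lit 760) (nat_lit 3021349216) (nat_lit 76) (nat_lit 1326702909) (nat_lit 286) (nat_lit 5) (nat_lit 296) (nat_lit 5) (nat_lit 287) (nat_lit 5) (nat_lit 476) (nat_lit 432) (nat_lit 232)) (XT.lf (nat_lit 0) (nat_lit 6886580351) (nat_lit 760) (nat_lit 9908313292) (nat_lit 836) (nat_lit 1895213942) (nat_lit 276) (nat_lit 5) (nat_lit 286) (nat_lit 5) (nat_lit 287) (nat_lit 5) (nat_lit 477) (nat_lit 432) (nat_lit 231))))) (XT.nd (nat_lit 156) (nat_lit 1292) (nat_lit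 0) (XT.nd (nat_lit 78) (nat_lit 684) (nat_lit 0) (XT.lf (nat_lit 0) (nat_lit 613069879) (nat_lit 836) (nat_lit 1882282851) (nat_lit 76) (nat_lit 16409783732) (nat_lit 275) (nat_lit 5) (nat_lit 286) (nat_lit 5) (nat_lit 276) (nat_lit 5) (nat_lit 478) (nat_lit 432) (nat_lit 230)) (XT.lf (nat_lit 0) (nat_lit 3227616715) (nat_lit 760) (nat_lit 10829137832) (nat_lit 76) (nat_lit 5065833466) (nat_lit 266) (nat_lit 5) (nat_lit 276) (nat_lit 5) (nat_lit 267) (nat_lit 5) (nat_lit 479) (nat_lit 432) (nat_lit 229))) (XT.nd (nat_lit 78) (nat_lit 1292) (nat_lit 0) (XT.lf (nat_lit 0) (nat_lit 5917819597) (nat_lit 760) (nat_lit 669210636) (nat_lit 76) (nat_lit 12756893144) (nat_lit 266) (nat_lit 5) (nat_lit 276) (nat_lit 5) (nat_lit 267) (nat_lit 5) (nat_lit 480) (nat_lit 432) (nat_lit 228)) (XT.nd (nat_lit 78) (nat_lit 608) (nat_lit 0) (XT.lf (nat_lit 0) (nat_lit 8726917218) (nat_lit 760) (nat_lit 9759538147) (nat_lit 76) (nat_lit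 1081930314) (nat_lit 257) (nat_lit 5) (nat_lit 267) (nat_lit 5) (nat_lit 258) (nat_lit 5) (nat_lit 481) (nat_lit 432) (nat_lit 227)) (XT.lf (nat_lit 0) (nat_lit 666768416) (nat_lit 608) (nat_lit 10972206146) (nat_lit 684) (nat_lit 8157429115) (nat_lit 249) (nat_lit 5) (nat_lit 257) (nat_lit 5) (nat_lit 258) (nat_lit 5) (nat_lit 482) (nat_lit 432) (nat_lit 226)))))) (XT.nd (nat_lit 390) (nat_lit 1824) (nat_lit 0) (XT.nd (nat_lit 156) (nat_lit 684) (nat_lit 0) (XT.nd (nat_lit 78) (nat_lit 608) (nat_lit 0) (XT.lf (nat_lit 0) (nat_lit 11427323044) (nat_lit 608) (nat_lit 3241816095) (nat_lit 684) (nat_lit 5358647538) (nat_lit 249) (nat_lit 5) (nat_lit 257) (nat_lit 5) (nat_lit 258) (nat_lit 5) (nat_lit 483) (nat_lit 432) (nat_lit 225)) (XT.lf (nat_lit 0) (nat_lit 2130538667) (nat_lit 608) (nat_lit 15667826562) (nat_lit 684) (nat_lit 2464664871) (nat_lit 241) (nat_lit 5) (nat_lit 249) (nat_lit 5) (nat_lit 250) (nat_lit 5)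 (nat_lit 484) (nat_lit 432) (nat_lit 224))) (XT.nd (nat_lit 78) (nat_lit 608) (nat_lit 0) (XT.lf (nat_lit 0) (nat_lit 554879359) (nat_lit 684) (nat_lit 7340676268) (nat_lit 76) (nat_lit 12605879919) (nat_lit 240) (nat_lit 5) (nat_lit 249) (nat_lit 5) (nat_lit 241) (nat_lit 5) (nat_lit 485) (nat_lit 432) (nat_lit 223)) (XT.nd (nat_lit 78) (nat_lit 0) (nat_lit 0) (XT.lf (nat_lit 0) (nat_lit 3620901707) (nat_lit 684) (nat_lit 17051750289) (nat_lit 76) (nat_lit 71251310) (nat_lit 232) (nat_lit 5) (nat_lit 241) (nat_lit 5) (nat_lit 233) (nat_lit 5) (nat_lit 486) (nat_lit 432) (nat_lit 222)) (XT.lf (nat_lit 0) (nat_lit 6844790379) (nat_lit 684) (nat_lit 6004216205) (nat_lit 76) (nat_lit 8140284700) (nat_lit 232) (nat_lit 5) (nat_lit 241) (nat_lit 5) (nat_lit 233) (nat_lit 5) (nat_lit 487) (nat_lit 432) (nat_lit 221))))) (XT.nd (nat_lit 234) (nat_lit 684) (nat_lit 0) (XT.nd (nat_lit 78) (nat_lit 532) (nat_lit 0) (XT.lf (nat_lit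 0) (nat_lit 5327760753) (nat_lit 608) (nat_lit 4834763314) (nat_lit 684) (nat_lit 11076477354) (nat_lit 224) (nat_lit 5) (nat_lit 232) (nat_lit 5) (nat_lit 233) (nat_lit 5) (nat_lit 488) (nat_lit 432) (nat_lit 220)) (XT.nd (nat_lit 78) (nat_lit 532) (nat_lit 0) (XT.lf (nat_lit 0) (nat_lit 13603684190) (nat_lit 684) (nat_lit 4553522432) (nat_lit 76) (nat_lit 3335359416) (nat_lit 224) (nat_lit 5) (nat_lit 233) (nat_lit 5) (nat_lit 225) (nat_lit 5) (nat_lit 489) (nat_lit 432) (nat_lit 219)) (XT.lf (nat_lit 0) (nat_lit 7085953978) (nat_lit 532) (nat_lit 10100669441) (nat_lit 608) (nat_lit 4563121086) (nat_lit 217) (nat_lit 5) (nat_lit 224) (nat_lit 5) (nat_lit 225) (nat_lit 5) (nat_lit 490) (nat_lit 432) (nat_lit 218)))) (XT.nd (nat_lit 78) (nat_lit 684) (nat_lit 0) (XT.lf (nat_lit 0) (nat_lit 19013674183) (nat_lit 532) (nat_lit 1853093359) (nat_lit 608) (nat_lit 1144789721) (nat_lit 217) (nat_lit 5) (nat_lit 224) (nat_lit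 5) (nat_lit 225) (nat_lit 5) (nat_lit 491) (nat_lit 432) (nat_lit 217)) (XT.nd (nat_lit 78) (nat_lit 0) (nat_lit 0) (XT.lf (nat_lit 0) (nat_lit 2407735520) (nat_lit 684) (nat_lit 13322369330) (nat_lit 76) (nat_lit 6546268066) (nat_lit 208) (nat_lit 5) (nat_lit 217) (nat_lit 5) (nat_lit 209) (nat_lit 5) (nat_lit 492) (nat_lit 432) (nat_lit 216)) (XT.lf (nat_lit 0) (nat_lit 6043621870) (nat_lit 684) (nat_lit 1386768632) (nat_lit 76) (nat_lit 15115391802) (nat_lit 208) (nat_lit 5) (nat_lit 217) (nat_lit 5) (nat_lit 209) (nat_lit 5) (nat_lit 493) (nat_lit 432) (nat_lit 215))))))) (XT.nd (nat_lit 54990) (nat_lit 0) (nat_lit 18544) (XT.nd (nat_lit 390) (nat_lit 532) (nat_lit 0) (XT.nd (nat_lit 156) (nat_lit 532) (nat_lit 0) (XT.nd (nat_lit 78) (nat_lit 532) (nat_lit 0) (XT.lf (nat_lit 0) (nat_lit 9825537537) (nat_lit 608) (nat_lit 11901760184) (nat_lit 76) (nat_lit 1091817447) (nat_lit 201) (nat_lit 5) (nat_lit 209) (nat_lit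 5) (nat_lit 202) (nat_lit 5) (nat_lit 494) (nat_lit 432) (nat_lit 214)) (XT.lf (nat_lit 0) (nat_lit 337599863) (nat_lit 532) (nat_lit 13401503083) (nat_lit 608) (nat_lit 9357693003) (nat_lit 194) (nat_lit 5) (nat_lit 201) (nat_lit 5) (nat_lit 202) (nat_lit 5) (nat_lit 495) (nat_lit 432) (nat_lit 213))) (XT.nd (nat_lit 78) (nat_lit 532) (nat_lit 0) (XT.lf (nat_lit 0) (nat_lit 12976930494) (nat_lit 532) (nat_lit 4829173629) (nat_lit 608) (nat_lit 5572424394) (nat_lit 194) (nat_lit 5) (nat_lit 201) (nat_lit 5) (nat_lit 202) (nat_lit 5) (nat_lit 496) (nat_lit 432) (nat_lit 212)) (XT.nd (nat_lit 78) (nat_lit 76) (nat_lit 0) (XT.lf (nat_lit 0) (nat_lit 2200483546) (nat_lit 456) (nat_lit 19789045363) (nat_lit 532) (nat_lit 1675666587) (nat_lit 188) (nat_lit 5) (nat_lit 194) (nat_lit 5) (nat_lit 195) (nat_lit 5) (nat_lit 497) (nat_lit 432) (nat_lit 211)) (XT.lf (nat_lit 0) (nat_lit 2366517873) (nat_lit 532) (nat_lit 8814101298)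 (nat_lit 76) (nat_lit 12774726610) (nat_lit 187) (nat_lit 5) (nat_lit 194) (nat_lit 5) (nat_lit 188) (nat_lit 5) (nat_lit 498) (nat_lit 432) (nat_lit 210))))) (XT.nd (nat_lit 54366) (nat_lit 0) (nat_lit 18468) (XT.nd (nat_lit 54210) (nat_lit 0) (nat_lit 18392) (XT.lf (nat_lit 0) (nat_lit 4126530613) (nat_lit 532) (nat_lit 2362881488) (nat_lit 608) (nat_lit 17761220730) (nat_lit 180) (nat_lit 5) (nat_lit 187) (nat_lit 5) (nat_lit 188) (nat_lit 5) (nat_lit 499) (nat_lit 432) (nat_lit 209)) (XT.nd (nat_lit 78) (nat_lit 0) (nat_lit 0) (XT.lf (nat_lit 0) (nat_lit 478866446) (nat_lit 1748) (nat_lit 2752309623) (nat_lit 1748) (nat_lit 2752309623) (nat_lit 422) (nat_lit 3) (nat_lit 445) (nat_lit 3) (nat_lit 445) (nat_lit 5) (nat_lit 433) (nat_lit 433) (nat_lit 274)) (XT.lf (nat_lit 76) (nat_lit 172654734) (nat_lit 0) (nat_lit 1263768438) (nat_lit 1748) (nat_lit 10640629996) (nat_lit 423) (nat_lit 5) (nat_lit 422) (nat_lit 3)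 (nat_lit 445) (nat_lit 5) (nat_lit 434) (nat_lit 433) (nat_lit 273)))) (XT.nd (nat_lit 78) (nat_lit 0) (nat_lit 0) (XT.lf (nat_lit 0) (nat_lit 1975815224) (nat_lit 1672) (nat_lit 6183611145) (nat_lit 1748) (nat_lit 4028893054) (nat_lit 423) (nat_lit 5) (nat_lit 445) (nat_lit 5) (nat_lit 446) (nat_lit 5) (nat_lit 435) (nat_lit 433) (nat_lit 272)) (XT.nd (nat_lit 78) (nat_lit 0) (nat_lit 76) (XT.lf (nat_lit 0) (nat_lit 2522327149) (nat_lit 1672) (nat_lit 363284282) (nat_lit 1748) (nat_lit 9416278219) (nat_lit 423) (nat_lit 5) (nat_lit 445) (nat_lit 5) (nat_lit 446) (nat_lit 5) (nat_lit 436) (nat_lit 433) (nat_lit 271)) (XT.lf (nat_lit 0) (nat_lit 3121061883) (nat_lit 1672) (nat_lit 6792655077) (nat_lit 1748) (nat_lit 2503193656) (nat_lit 424) (nat_lit 5) (nat_lit 446) (nat_lit 5) (nat_lit 447) (nat_lit 5) (nat_lit 437) (nat_lit 433) (nat_lit 270)))))) (XT.nd (nat_lit 390) (nat_lit 0) (nat_lit 152) (XT.nd (nat_lit 156)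 (nat_lit 0) (nat_lit 76) (XT.nd (nat_lit 78) (nat_lit 0) (nat_lit 76) (XT.lf (nat_lit 0) (nat_lit 3741758518) (nat_lit 1672) (nat_lit 823447663) (nat_lit 1748) (nat_lit 7968831160) (nat_lit 424) (nat_lit 5) (nat_lit 446) (nat_lit 5) (nat_lit 447) (nat_lit 5) (nat_lit 438) (nat_lit 433) (nat_lit 269)) (XT.lf (nat_lit 0) (nat_lit 4404156775) (nat_lit 1672) (nat_lit 7330538111) (nat_lit 1748) (nat_lit 918230945) (nat_lit 425) (nat_lit 5) (nat_lit 447) (nat_lit 5) (nat_lit 448) (nat_lit 5) (nat_lit 439) (nat_lit 433) (nat_lit 268))) (XT.nd (nat_lit 78) (nat_lit 0) (nat_lit 0) (XT.lf (nat_lit 0) (nat_lit 5104460212) (nat_lit 1672) (nat_lit 1208745077) (nat_lit 1748) (nat_lit 6460498543) (nat_lit 425) (nat_lit 5) (nat_lit 447) (nat_lit 5) (nat_lit 448) (nat_lit 5) (nat_lit 440) (nat_lit 433) (nat_lit 267)) (XT.nd (nat_lit 78) (nat_lit 0) (nat_lit 76) (XT.lf (nat_lit 76) (nat_lit 5095751180) (nat_lit 0) (nat_lit 745183631)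 (nat_lit 1748) (nat_lit 7055524072) (nat_lit 426) (nat_lit 5) (nat_lit 425) (nat_lit 5) (nat_lit 448) (nat_lit 5) (nat_lit 441) (nat_lit 433) (nat_lit 266)) (XT.lf (nat_lit 0) (nat_lit 6621619343) (nat_lit 1672) (nat_lit 1517642641) (nat_lit 1748) (nat_lit 4881822138) (nat_lit 426) (nat_lit 5) (nat_lit 448) (nat_lit 5) (nat_lit 449) (nat_lit 5) (nat_lit 442) (nat_lit 433) (nat_lit 265))))) (XT.nd (nat_lit 234) (nat_lit 0) (nat_lit 152) (XT.nd (nat_lit 78) (nat_lit 0) (nat_lit 76) (XT.lf (nat_lit 76) (nat_lit 4944359356) (nat_lit 0) (nat_lit 2500084785) (nat_lit 1748) (nat_lit 5703231796) (nat_lit 427) (nat_lit 5) (nat_lit 426) (nat_lit 5) (nat_lit 449) (nat_lit 5) (nat_lit 443) (nat_lit 433) (nat_lit 264)) (XT.nd (nat_lit 78) (nat_lit 0) (nat_lit 0) (XT.lf (nat_lit 0) (nat_lit 8304767597) (nat_lit 1672) (nat_lit 1748430969) (nat_lit 1748) (nat_lit 3223184696) (nat_lit 427) (nat_lit 5) (nat_lit 449) (nat_lit 5) (nat_lit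 450) (nat_lit 5) (nat_lit 444) (nat_lit 433) (nat_lit 263)) (XT.lf (nat_lit 76) (nat_lit 4876254614) (nat_lit 0) (nat_lit 4344139244) (nat_lit 1748) (nat_lit 4186513373) (nat_lit 428) (nat_lit 5) (nat_lit 427) (nat_lit 5) (nat_lit 450) (nat_lit 5) (nat_lit 445) (nat_lit 433) (nat_lit 262)))) (XT.nd (nat_lit 78) (nat_lit 0) (nat_lit 0) (XT.lf (nat_lit 0) (nat_lit 10165802941) (nat_lit 1672) (nat_lit 1899228651) (nat_lit 1748) (nat_lit 1474785021) (nat_lit 428) (nat_lit 5) (nat_lit 450) (nat_lit 5) (nat_lit 451) (nat_lit 5) (nat_lit 446) (nat_lit 433) (nat_lit 261)) (XT.nd (nat_lit 78) (nat_lit 0) (nat_lit 0) (XT.lf (nat_lit 76) (nat_lit 4893493539) (nat_lit 0) (nat_lit 6287418972) (nat_lit 1748) (nat_lit 2493460079) (nat_lit 429) (nat_lit 5) (nat_lit 428) (nat_lit 5) (nat_lit 451) (nat_lit 5) (nat_lit 447) (nat_lit 433) (nat_lit 260)) (XT.lf (nat_lit 76) (nat_lit 11841118892) (nat_lit 0) (nat_lit 378349249) (nat_lit 1748)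 (nat_lit 1592092838) (nat_lit 429) (nat_lit 5) (nat_lit 428) (nat_lit 5) (nat_lit 451) (nat_lit 5) (nat_lit 448) (nat_lit 433) (nat_lit 259))))))))
noncomputable def xc215 : XT := (XT.nd (nat_lit 1638) (nat_lit 8360) (nat_lit 0) (XT.nd (nat_lit 780) (nat_lit 6004) (nat_lit 0) (XT.nd (nat_lit 390) (nat_lit 0) (nat_lit 152) (XT.nd (nat_lit 156) (nat_lit 0) (nat_lit 76) (XT.nd (nat_lit 78) (nat_lit 1748) (nat_lit 0) (XT.lf (nat_lit 76) (nat_lit 4998305502) (nat_lit 0) (nat_lit 8340223904) (nat_lit 1748) (nat_lit 611773129) (nat_lit 430) (nat_lit 5) (nat_lit 429) (nat_lit 5) (nat_lit 452) (nat_lit 5) (nat_lit 449) (nat_lit 433) (nat_lit 258)) (XT.lf (nat_lit 0) (nat_lit 389559223) (nat_lit 1748) (nat_lit 1970388470) (nat_lit 1824) (nat_lit 11731694817) (nat_lit 406) (nat_lit 5) (nat_lit 429) (nat_lit 5) (nat_lit 430) (nat_lit 5) (nat_lit 450) (nat_lit 433) (nat_lit 257))) (XT.nd (nat_lit 78) (nat_lit 0) (nat_lit 0) (XT.lf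 (nat_lit 0) (nat_lit 1451962881) (nat_lit 1748) (nat_lit 9051401467) (nat_lit 1824) (nat_lit 3731383186) (nat_lit 407) (nat_lit 5) (nat_lit 430) (nat_lit 5) (nat_lit 431) (nat_lit 5) (nat_lit 451) (nat_lit 433) (nat_lit 256)) (XT.nd (nat_lit 78) (nat_lit 0) (nat_lit 76) (XT.lf (nat_lit 0) (nat_lit 2555567927) (nat_lit 1748) (nat_lit 1896180842) (nat_lit 1824) (nat_lit 9928570601) (nat_lit 407) (nat_lit 5) (nat_lit 430) (nat_lit 5) (nat_lit 431) (nat_lit 5) (nat_lit 452) (nat_lit 433) (nat_lit 255)) (XT.lf (nat_lit 0) (nat_lit 3719353628) (nat_lit 1748) (nat_lit 9072591912) (nat_lit 1824) (nat_lit 1736098634) (nat_lit 408) (nat_lit 5) (nat_lit 431) (nat_lit 5) (nat_lit 432) (nat_lit 5) (nat_lit 453) (nat_lit 433) (nat_lit 254))))) (XT.nd (nat_lit 156) (nat_lit 0) (nat_lit 76) (XT.nd (nat_lit 78) (nat_lit 0) (nat_lit 0) (XT.lf (nat_lit 0) (nat_lit 4940038351) (nat_lit 1748) (nat_lit 1735103322) (nat_lit 1824) (nat_lit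 8002912967) (nat_lit 408) (nat_lit 5) (nat_lit 431) (nat_lit 5) (nat_lit 432) (nat_lit 5) (nat_lit 454) (nat_lit 433) (nat_lit 253)) (XT.lf (nat_lit 76) (nat_lit 5818693795) (nat_lit 0) (nat_lit 395724623) (nat_lit 1824) (nat_lit 8616064822) (nat_lit 409) (nat_lit 5) (nat_lit 408) (nat_lit 5) (nat_lit 432) (nat_lit 5) (nat_lit 455) (nat_lit 433) (nat_lit 252))) (XT.nd (nat_lit 78) (nat_lit 0) (nat_lit 0) (XT.lf (nat_lit 0) (nat_lit 7556659573) (nat_lit 1748) (nat_lit 1484626051) (nat_lit 1824) (nat_lit 5943830811) (nat_lit 409) (nat_lit 5) (nat_lit 432) (nat_lit 5) (nat_lit 433) (nat_lit 5) (nat_lit 456) (nat_lit 433) (nat_lit 251)) (XT.nd (nat_lit 78) (nat_lit 0) (nat_lit 76) (XT.lf (nat_lit 76) (nat_lit 6265881416) (nat_lit 0) (nat_lit 2694967753) (nat_lit 1824) (nat_lit 6181294472) (nat_lit 410) (nat_lit 5) (nat_lit 409) (nat_lit 5) (nat_lit 433) (nat_lit 5) (nat_lit 457) (nat_lit 433) (nat_lit 250)) (XT.lf (nat_lit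 0) (nat_lit 10419608987) (nat_lit 1748) (nat_lit 1142071767) (nat_lit 76) (nat_lit 3740104261) (nat_lit 410) (nat_lit 5) (nat_lit 433) (nat_lit 5) (nat_lit 411) (nat_lit 5) (nat_lit 458) (nat_lit 433) (nat_lit 249)))))) (XT.nd (nat_lit 390) (nat_lit 2508) (nat_lit 0) (XT.nd (nat_lit 156) (nat_lit 2052) (nat_lit 0) (XT.nd (nat_lit 78) (nat_lit 0) (nat_lit 0) (XT.lf (nat_lit 0) (nat_lit 6811538499) (nat_lit 1748) (nat_lit 5150163049) (nat_lit 1824) (nat_lit 3501837807) (nat_lit 387) (nat_lit 5) (nat_lit 410) (nat_lit 5) (nat_lit 411) (nat_lit 5) (nat_lit 459) (nat_lit 433) (nat_lit 248)) (XT.lf (nat_lit 0) (nat_lit 13543576550) (nat_lit 1824) (nat_lit 704619389) (nat_lit 76) (nat_lit 1380157255) (nat_lit 387) (nat_lit 5) (nat_lit 411) (nat_lit 5) (nat_lit 388) (nat_lit 5) (nat_lit 460) (nat_lit 433) (nat_lit 247))) (XT.nd (nat_lit 78) (nat_lit 988) (nat_lit 0) (XT.lf (nat_lit 0) (nat_lit 7458686369) (nat_lit 1064) (nat_lit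 7773293151) (nat_lit 1140) (nat_lit 562989141) (nat_lit 373) (nat_lit 5) (nat_lit 387) (nat_lit 5) (nat_lit 388) (nat_lit 5) (nat_lit 461) (nat_lit 433) (nat_lit 246)) (XT.nd (nat_lit 78) (nat_lit 912) (nat_lit 0) (XT.lf (nat_lit 0) (nat_lit 973429935) (nat_lit 1140) (nat_lit 183264287) (nat_lit 76) (nat_lit 14808153402) (nat_lit 372) (nat_lit 5) (nat_lit 387) (nat_lit 5) (nat_lit 373) (nat_lit 5) (nat_lit 462) (nat_lit 433) (nat_lit 245)) (XT.lf (nat_lit 0) (nat_lit 2615734072) (nat_lit 988) (nat_lit 7943461006) (nat_lit 76) (nat_lit 5577203737) (nat_lit 360) (nat_lit 5) (nat_lit 373) (nat_lit 5) (nat_lit 361) (nat_lit 5) (nat_lit 463) (nat_lit 433) (nat_lit 244))))) (XT.nd (nat_lit 234) (nat_lit 836) (nat_lit 0) (XT.nd (nat_lit 78) (nat_lit 836) (nat_lit 0) (XT.lf (nat_lit 0) (nat_lit 418841432) (nat_lit 836) (nat_lit 3876326948) (nat_lit 912) (nat_lit 12016129888) (nat_lit 349) (nat_lit 5) (nat_lit 360) (nat_lit 5)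 (nat_lit 361) (nat_lit 5) (nat_lit 464) (nat_lit 433) (nat_lit 243)) (XT.nd (nat_lit 78) (nat_lit 836) (nat_lit 0) (XT.lf (nat_lit 0) (nat_lit 6073708791) (nat_lit 912) (nat_lit 7458888030) (nat_lit 76) (nat_lit 2955791403) (nat_lit 349) (nat_lit 5) (nat_lit 361) (nat_lit 5) (nat_lit 350) (nat_lit 5) (nat_lit 465) (nat_lit 433) (nat_lit 242)) (XT.lf (nat_lit 0) (nat_lit 1125698468) (nat_lit 836) (nat_lit 6788013010) (nat_lit 912) (nat_lit 8754793479) (nat_lit 338) (nat_lit 5) (nat_lit 349) (nat_lit 5) (nat_lit 350) (nat_lit 5) (nat_lit 466) (nat_lit 433) (nat_lit 241)))) (XT.nd (nat_lit 78) (nat_lit 836) (nat_lit 0) (XT.lf (nat_lit 0) (nat_lit 9834501607) (nat_lit 912) (nat_lit 6875910883) (nat_lit 76) (nat_lit 140934539) (nat_lit 338) (nat_lit 5) (nat_lit 350) (nat_lit 5) (nat_lit 339) (nat_lit 5) (nat_lit 467) (nat_lit 433) (nat_lit 240)) (XT.nd (nat_lit 78) (nat_lit 0) (nat_lit 0) (XT.lf (nat_lit 0) (nat_lit 1938074857)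 (nat_lit 836) (nat_lit 9906315765) (nat_lit 912) (nat_lit 5192444356) (nat_lit 327) (nat_lit 5) (nat_lit 338) (nat_lit 5) (nat_lit 339) (nat_lit 5) (nat_lit 468) (nat_lit 433) (nat_lit 239)) (XT.lf (nat_lit 0) (nat_lit 11014877003) (nat_lit 836) (nat_lit 2918978579) (nat_lit 912) (nat_lit 3291392184) (nat_lit 327) (nat_lit 5) (nat_lit 338) (nat_lit 5) (nat_lit 339) (nat_lit 5) (nat_lit 469) (nat_lit 433) (nat_lit 238))))))) (XT.nd (nat_lit 858) (nat_lit 3724) (nat_lit 0) (XT.nd (nat_lit 390) (nat_lit 2204) (nat_lit 0) (XT.nd (nat_lit 156) (nat_lit 1520) (nat_lit 0) (XT.nd (nat_lit 78) (nat_lit 76) (nat_lit 0) (XT.lf (nat_lit 0) (nat_lit 2859291549) (nat_lit 836) (nat_lit 13245074914) (nat_lit 912) (nat_lit 1312279808) (nat_lit 316) (nat_lit 5) (nat_lit 327) (nat_lit 5) (nat_lit 328) (nat_lit 5) (nat_lit 470) (nat_lit 433) (nat_lit 237)) (XT.lf (nat_lit 0) (nat_lit 751843395) (nat_lit 912) (nat_lit 5447421712) (nat_lit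 76) (nat_lit 11411424534) (nat_lit 315) (nat_lit 5) (nat_lit 327) (nat_lit 5) (nat_lit 316) (nat_lit 5) (nat_lit 471) (nat_lit 433) (nat_lit 236))) (XT.nd (nat_lit 78) (nat_lit 760) (nat_lit 0) (XT.lf (nat_lit 0) (nat_lit 2865063202) (nat_lit 836) (nat_lit 13934379686) (nat_lit 76) (nat_lit 1008492240) (nat_lit 305) (nat_lit 5) (nat_lit 316) (nat_lit 5) (nat_lit 306) (nat_lit 5) (nat_lit 472) (nat_lit 433) (nat_lit 235)) (XT.nd (nat_lit 78) (nat_lit 760) (nat_lit 0) (XT.lf (nat_lit 0) (nat_lit 5092023052) (nat_lit 836) (nat_lit 4601570871) (nat_lit 76) (nat_lit 8314104484) (nat_lit 305) (nat_lit 5) (nat_lit 316) (nat_lit 5) (nat_lit 306) (nat_lit 5) (nat_lit 473) (nat_lit 433) (nat_lit 234)) (XT.lf (nat_lit 0) (nat_lit 4976621244) (nat_lit 760) (nat_lit 2412961162) (nat_lit 836) (nat_lit 10821355687) (nat_lit 295) (nat_lit 5) (nat_lit 305) (nat_lit 5) (nat_lit 306) (nat_lit 5) (nat_lit 474) (nat_lit 433) (nat_lit 233)))))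 (XT.nd (nat_lit 234) (nat_lit 1520) (nat_lit 0) (XT.nd (nat_lit 78) (nat_lit 684) (nat_lit 0) (XT.lf (nat_lit 0) (nat_lit 9790553001) (nat_lit 836) (nat_lit 3648249057) (nat_lit 76) (nat_lit 4978293616) (nat_lit 295) (nat_lit 5) (nat_lit 306) (nat_lit 5) (nat_lit 296) (nat_lit 5) (nat_lit 475) (nat_lit 433) (nat_lit 232)) (XT.nd (nat_lit 78) (nat_lit 0) (nat_lit 0) (XT.lf (nat_lit 0) (nat_lit 6188227078) (nat_lit 684) (nat_lit 6101421946) (nat_lit 760) (nat_lit 6336727521) (nat_lit 286) (nat_lit 5) (nat_lit 295) (nat_lit 5) (nat_lit 296) (nat_lit 5) (nat_lit 476) (nat_lit 433) (nat_lit 231)) (XT.lf (nat_lit 0) (nat_lit 14866369980) (nat_lit 760) (nat_lit 2584176024) (nat_lit 76) (nat_lit 1388746379) (nat_lit 286) (nat_lit 5) (nat_lit 296) (nat_lit 5) (nat_lit 287) (nat_lit 5) (nat_lit 477) (nat_lit 433) (nat_lit 230)))) (XT.nd (nat_lit 78) (nat_lit 760) (nat_lit 0) (XT.lf (nat_lit 0) (nat_lit 7518638449) (nat_lit 760)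 (nat_lit 10059348652) (nat_lit 836) (nat_lit 1476814375) (nat_lit 276) (nat_lit 5) (nat_lit 286) (nat_lit 5) (nat_lit 287) (nat_lit 5) (nat_lit 478) (nat_lit 433) (nat_lit 229)) (XT.nd (nat_lit 78) (nat_lit 684) (nat_lit 0) (XT.lf (nat_lit 0) (nat_lit 1066820825) (nat_lit 836) (nat_lit 1429269562) (nat_lit 76) (nat_lit 16778161046) (nat_lit 275) (nat_lit 5) (nat_lit 286) (nat_lit 5) (nat_lit 276) (nat_lit 5) (nat_lit 479) (nat_lit 433) (nat_lit 228)) (XT.lf (nat_lit 0) (nat_lit 3728500604) (nat_lit 760) (nat_lit 10549748779) (nat_lit 76) (nat_lit 5217908889) (nat_lit 266) (nat_lit 5) (nat_lit 276) (nat_lit 5) (nat_lit 267) (nat_lit 5) (nat_lit 480) (nat_lit 433) (nat_lit 227)))))) (XT.nd (nat_lit 390) (nat_lit 1824) (nat_lit 0) (XT.nd (nat_lit 156) (nat_lit 1216) (nat_lit 0) (XT.nd (nat_lit 78) (nat_lit 684) (nat_lit 0) (XT.lf (nat_lit 0) (nat_lit 6463952022) (nat_lit 760) (nat_lit 196347976) (nat_lit 76) (nat_lit 13061794491)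 (nat_lit 266) (nat_lit 5) (nat_lit 276) (nat_lit 5) (nat_lit 267) (nat_lit 5) (nat_lit 481) (nat_lit 433) (nat_lit 226)) (XT.lf (nat_lit 0) (nat_lit 9324373055) (nat_lit 760) (nat_lit 9463474641) (nat_lit 76) (nat_lit 1163298490) (nat_lit 257) (nat_lit 5) (nat_lit 267) (nat_lit 5) (nat_lit 258) (nat_lit 5) (nat_lit 482) (nat_lit 433) (nat_lit 225))) (XT.nd (nat_lit 78) (nat_lit 608) (nat_lit 0) (XT.lf (nat_lit 0) (nat_lit 1168126117) (nat_lit 608) (nat_lit 11121421494) (nat_lit 684) (nat_lit 7894282330) (nat_lit 249) (nat_lit 5) (nat_lit 257) (nat_lit 5) (nat_lit 258) (nat_lit 5) (nat_lit 483) (nat_lit 433) (nat_lit 224)) (XT.nd (nat_lit 78) (nat_lit 608) (nat_lit 0) (XT.lf (nat_lit 0) (nat_lit 12134322772) (nat_lit 608) (nat_lit 3237800677) (nat_lit 684) (nat_lit 5047883854) (nat_lit 249) (nat_lit 5) (nat_lit 257) (nat_lit 5) (nat_lit 258) (nat_lit 5) (nat_lit 484) (nat_lit 433) (nat_lit 223)) (XT.lf (nat_lit 0) (nat_lit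 2656291169) (nat_lit 608) (nat_lit 15903186632) (nat_lit 684) (nat_lit 2100569725) (nat_lit 241) (nat_lit 5) (nat_lit 249) (nat_lit 5) (nat_lit 250) (nat_lit 5) (nat_lit 485) (nat_lit 433) (nat_lit 222))))) (XT.nd (nat_lit 234) (nat_lit 1140) (nat_lit 0) (XT.nd (nat_lit 78) (nat_lit 608) (nat_lit 0) (XT.lf (nat_lit 0) (nat_lit 965944378) (nat_lit 684) (nat_lit 7008371251) (nat_lit 76) (nat_lit 12929014456) (nat_lit 240) (nat_lit 5) (nat_lit 249) (nat_lit 5) (nat_lit 241) (nat_lit 5) (nat_lit 486) (nat_lit 433) (nat_lit 221)) (XT.nd (nat_lit 78) (nat_lit 0) (nat_lit 0) (XT.lf (nat_lit 0) (nat_lit 4089059254) (nat_lit 684) (nat_lit 16909306655) (nat_lit 76) (nat_lit 152368493) (nat_lit 232) (nat_lit 5) (nat_lit 241) (nat_lit 5) (nat_lit 233) (nat_lit 5) (nat_lit 487) (nat_lit 433) (nat_lit 220)) (XT.lf (nat_lit 0) (nat_lit 7369666101) (nat_lit 684) (nat_lit 5650301862) (nat_lit 76) (nat_lit 8381219960) (nat_lit 232) (nat_lit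 5) (nat_lit 241) (nat_lit 5) (nat_lit 233) (nat_lit 5) (nat_lit 488) (nat_lit 433) (nat_lit 219)))) (XT.nd (nat_lit 78) (nat_lit 532) (nat_lit 0) (XT.lf (nat_lit 0) (nat_lit 5905196223) (nat_lit 608) (nat_lit 4844008058) (nat_lit 684) (nat_lit 10906781527) (nat_lit 224) (nat_lit 5) (nat_lit 232) (nat_lit 5) (nat_lit 233) (nat_lit 5) (nat_lit 489) (nat_lit 433) (nat_lit 218)) (XT.nd (nat_lit 78) (nat_lit 532) (nat_lit 0) (XT.lf (nat_lit 0) (nat_lit 14252226029) (nat_lit 684) (nat_lit 4175859439) (nat_lit 76) (nat_lit 3486677970) (nat_lit 224) (nat_lit 5) (nat_lit 233) (nat_lit 5) (nat_lit 225) (nat_lit 5) (nat_lit 490) (nat_lit 433) (nat_lit 217)) (XT.lf (nat_lit 0) (nat_lit 7693322726) (nat_lit 532) (nat_lit 10209142895) (nat_lit 608) (nat_lit 4274709465) (nat_lit 217) (nat_lit 5) (nat_lit 224) (nat_lit 5) (nat_lit 225) (nat_lit 5) (nat_lit 491) (nat_lit 433) (nat_lit 216))))))))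
noncomputable def xc216 : XT := (XT.nd (nat_lit 55848) (nat_lit 0) (nat_lit 11476) (XT.nd (nat_lit 54990) (nat_lit 0) (nat_lit 17936) (XT.nd (nat_lit 390) (nat_lit 532) (nat_lit 0) (XT.nd (nat_lit 156) (nat_lit 1064) (nat_lit 0) (XT.nd (nat_lit 78) (nat_lit 684) (nat_lit 0) (XT.lf (nat_lit 0) (nat_lit 19850466949) (nat_lit 532) (nat_lit 1798449408) (nat_lit 608) (nat_lit 795456062) (nat_lit 217) (nat_lit 5) (nat_lit 224) (nat_lit 5) (nat_lit 225) (nat_lit 5) (nat_lit 492) (nat_lit 433) (nat_lit 215)) (XT.lf (nat_lit 0) (nat_lit 2819630849) (nat_lit 684) (nat_lit 13123576157) (nat_lit 76) (nat_lit 6771303486) (nat_lit 208) (nat_lit 5) (nat_lit 217) (nat_lit 5) (nat_lit 209) (nat_lit 5) (nat_lit 493) (nat_lit 433) (nat_lit 214))) (XT.nd (nat_lit 78) (nat_lit 1064) (nat_lit 0) (XT.lf (nat_lit 0) (nat_lit 6521102757) (nat_lit 684) (nat_lit 958385809) (nat_lit 76) (nat_lit 15509964401) (nat_lit 208) (nat_lit 5) (nat_lit 217)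 (nat_lit 5) (nat_lit 209) (nat_lit 5) (nat_lit 494) (nat_lit 433) (nat_lit 213)) (XT.nd (nat_lit 78) (nat_lit 532) (nat_lit 0) (XT.lf (nat_lit 0) (nat_lit 10375259251) (nat_lit 608) (nat_lit 11680169103) (nat_lit 76) (nat_lit 1212894295) (nat_lit 201) (nat_lit 5) (nat_lit 209) (nat_lit 5) (nat_lit 202) (nat_lit 5) (nat_lit 495) (nat_lit 433) (nat_lit 212)) (XT.lf (nat_lit 0) (nat_lit 800954287) (nat_lit 532) (nat_lit 13562180542) (nat_lit 608) (nat_lit 9188503608) (nat_lit 194) (nat_lit 5) (nat_lit 201) (nat_lit 5) (nat_lit 202) (nat_lit 5) (nat_lit 496) (nat_lit 433) (nat_lit 211))))) (XT.nd (nat_lit 156) (nat_lit 76) (nat_lit 0) (XT.nd (nat_lit 78) (nat_lit 456) (nat_lit 0) (XT.lf (nat_lit 0) (nat_lit 13684118542) (nat_lit 532) (nat_lit 4820509452) (nat_lit 608) (nat_lit 5334516749) (nat_lit 194) (nat_lit 5) (nat_lit 201) (nat_lit 5) (nat_lit 202) (nat_lit 5) (nat_lit 497) (nat_lit 433) (nat_lit 210)) (XT.lf (nat_lit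 0) (nat_lit 2695427342) (nat_lit 456) (nat_lit 20073177875) (nat_lit 532) (nat_lit 1363004250) (nat_lit 188) (nat_lit 5) (nat_lit 194) (nat_lit 5) (nat_lit 195) (nat_lit 5) (nat_lit 498) (nat_lit 433) (nat_lit 209))) (XT.nd (nat_lit 54288) (nat_lit 0) (nat_lit 17860) (XT.lf (nat_lit 0) (nat_lit 2748785007) (nat_lit 532) (nat_lit 8543739734) (nat_lit 76) (nat_lit 13135129043) (nat_lit 187) (nat_lit 5) (nat_lit 194) (nat_lit 5) (nat_lit 188) (nat_lit 5) (nat_lit 499) (nat_lit 433) (nat_lit 208)) (XT.nd (nat_lit 78) (nat_lit 0) (nat_lit 0) (XT.lf (nat_lit 0) (nat_lit 953397223) (nat_lit 1748) (nat_lit 2570127389) (nat_lit 1748) (nat_lit 2570127389) (nat_lit 422) (nat_lit 3) (nat_lit 445) (nat_lit 3) (nat_lit 445) (nat_lit 5) (nat_lit 434) (nat_lit 434) (nat_lit 272)) (XT.lf (nat_lit 76) (nat_lit 647443256) (nat_lit 0) (nat_lit 1732442030) (nat_lit 1748) (nat_lit 9920013612) (nat_lit 423) (nat_lit 5) (nat_lit 422) (nat_lit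 3) (nat_lit 445) (nat_lit 5) (nat_lit 435) (nat_lit 434) (nat_lit 271)))))) (XT.nd (nat_lit 390) (nat_lit 0) (nat_lit 152) (XT.nd (nat_lit 156) (nat_lit 0) (nat_lit 76) (XT.nd (nat_lit 78) (nat_lit 0) (nat_lit 0) (XT.lf (nat_lit 0) (nat_lit 2909306837) (nat_lit 1672) (nat_lit 5824038666) (nat_lit 1748) (nat_lit 3680467997) (nat_lit 423) (nat_lit 5) (nat_lit 445) (nat_lit 5) (nat_lit 446) (nat_lit 5) (nat_lit 436) (nat_lit 434) (nat_lit 270)) (XT.lf (nat_lit 76) (nat_lit 104591077) (nat_lit 0) (nat_lit 3345308070) (nat_lit 1748) (nat_lit 9080100685) (nat_lit 424) (nat_lit 5) (nat_lit 423) (nat_lit 5) (nat_lit 446) (nat_lit 5) (nat_lit 437) (nat_lit 434) (nat_lit 269))) (XT.nd (nat_lit 78) (nat_lit 0) (nat_lit 0) (XT.lf (nat_lit 0) (nat_lit 4043257120) (nat_lit 1672) (nat_lit 6437688932) (nat_lit 1748) (nat_lit 2166729745) (nat_lit 424) (nat_lit 5) (nat_lit 446) (nat_lit 5) (nat_lit 447) (nat_lit 5) (nat_lit 438) (nat_lit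 434) (nat_lit 268)) (XT.nd (nat_lit 78) (nat_lit 0) (nat_lit 76) (XT.lf (nat_lit 0) (nat_lit 4659509374) (nat_lit 1672) (nat_lit 358721276) (nat_lit 1748) (nat_lit 7749258976) (nat_lit 424) (nat_lit 5) (nat_lit 446) (nat_lit 5) (nat_lit 447) (nat_lit 5) (nat_lit 439) (nat_lit 434) (nat_lit 267)) (XT.lf (nat_lit 0) (nat_lit 5319449599) (nat_lit 1672) (nat_lit 6979884645) (nat_lit 1748) (nat_lit 589743020) (nat_lit 425) (nat_lit 5) (nat_lit 447) (nat_lit 5) (nat_lit 448) (nat_lit 5) (nat_lit 440) (nat_lit 434) (nat_lit 266))))) (XT.nd (nat_lit 234) (nat_lit 0) (nat_lit 76) (XT.nd (nat_lit 78) (nat_lit 0) (nat_lit 0) (XT.lf (nat_lit 0) (nat_lit 6017539307) (nat_lit 1672) (nat_lit 745406029) (nat_lit 1748) (nat_lit 6249657001) (nat_lit 425) (nat_lit 5) (nat_lit 447) (nat_lit 5) (nat_lit 448) (nat_lit 5) (nat_lit 441) (nat_lit 434) (nat_lit 265)) (XT.nd (nat_lit 78) (nat_lit 0) (nat_lit 76) (XT.lf (nat_lit 76) (nat_lit 5681972824)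 (nat_lit 0) (nat_lit 1074013251) (nat_lit 1748) (nat_lit 6382088536) (nat_lit 426) (nat_lit 5) (nat_lit 425) (nat_lit 5) (nat_lit 448) (nat_lit 5) (nat_lit 442) (nat_lit 434) (nat_lit 264)) (XT.lf (nat_lit 0) (nat_lit 7534634428) (nat_lit 1672) (nat_lit 1055193253) (nat_lit 1748) (nat_lit 4675724510) (nat_lit 426) (nat_lit 5) (nat_lit 448) (nat_lit 5) (nat_lit 449) (nat_lit 5) (nat_lit 443) (nat_lit 434) (nat_lit 263)))) (XT.nd (nat_lit 78) (nat_lit 0) (nat_lit 76) (XT.lf (nat_lit 76) (nat_lit 5532806665) (nat_lit 0) (nat_lit 2828982064) (nat_lit 1748) (nat_lit 5033136360) (nat_lit 427) (nat_lit 5) (nat_lit 426) (nat_lit 5) (nat_lit 449) (nat_lit 5) (nat_lit 444) (nat_lit 434) (nat_lit 262)) (XT.nd (nat_lit 78) (nat_lit 0) (nat_lit 0) (XT.lf (nat_lit 0) (nat_lit 9222475625) (nat_lit 1672) (nat_lit 1286266976) (nat_lit 1748) (nat_lit 3017807392) (nat_lit 427) (nat_lit 5) (nat_lit 449) (nat_lit 5) (nat_lit 450) (nat_lit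 5) (nat_lit 445) (nat_lit 434) (nat_lit 261)) (XT.lf (nat_lit 76) (nat_lit 5467641709) (nat_lit 0) (nat_lit 4677241678) (nat_lit 1748) (nat_lit 3515038120) (nat_lit 428) (nat_lit 5) (nat_lit 427) (nat_lit 5) (nat_lit 450) (nat_lit 5) (nat_lit 446) (nat_lit 434) (nat_lit 260))))))) (XT.nd (nat_lit 780) (nat_lit 5168) (nat_lit 0) (XT.nd (nat_lit 390) (nat_lit 0) (nat_lit 76) (XT.nd (nat_lit 156) (nat_lit 1672) (nat_lit 0) (XT.nd (nat_lit 78) (nat_lit 0) (nat_lit 0) (XT.lf (nat_lit 0) (nat_lit 11093121971) (nat_lit 1672) (nat_lit 1436640191) (nat_lit 1748) (nat_lit 1266054806) (nat_lit 428) (nat_lit 5) (nat_lit 450) (nat_lit 5) (nat_lit 451) (nat_lit 5) (nat_lit 447) (nat_lit 434) (nat_lit 259)) (XT.lf (nat_lit 76) (nat_lit 5488643199) (nat_lit 0) (nat_lit 6628923067) (nat_lit 1748) (nat_lit 1815723343) (nat_lit 429) (nat_lit 5) (nat_lit 428) (nat_lit 5) (nat_lit 451) (nat_lit 5) (nat_lit 448) (nat_lit 434) (nat_lit 258)))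 (XT.nd (nat_lit 78) (nat_lit 1672) (nat_lit 0) (XT.lf (nat_lit 76) (nat_lit 12565470475) (nat_lit 0) (nat_lit 597441446) (nat_lit 1748) (nat_lit 910595540) (nat_lit 429) (nat_lit 5) (nat_lit 428) (nat_lit 5) (nat_lit 451) (nat_lit 5) (nat_lit 449) (nat_lit 434) (nat_lit 257)) (XT.nd (nat_lit 78) (nat_lit 0) (nat_lit 0) (XT.lf (nat_lit 0) (nat_lit 76267052) (nat_lit 1748) (nat_lit 8617619242) (nat_lit 1824) (nat_lit 5521369630) (nat_lit 406) (nat_lit 5) (nat_lit 429) (nat_lit 5) (nat_lit 430) (nat_lit 5) (nat_lit 450) (nat_lit 434) (nat_lit 256)) (XT.lf (nat_lit 0) (nat_lit 1075871642) (nat_lit 1748) (nat_lit 1510417558) (nat_lit 1824) (nat_lit 11773329599) (nat_lit 406) (nat_lit 5) (nat_lit 429) (nat_lit 5) (nat_lit 430) (nat_lit 5) (nat_lit 451) (nat_lit 434) (nat_lit 255))))) (XT.nd (nat_lit 156) (nat_lit 0) (nat_lit 76) (XT.nd (nat_lit 78) (nat_lit 0) (nat_lit 0) (XT.lf (nat_lit 0) (nat_lit 2148321027) (nat_lit 1748)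 (nat_lit 8721567943) (nat_lit 1824) (nat_lit 3635926612) (nat_lit 407) (nat_lit 5) (nat_lit 430) (nat_lit 5) (nat_lit 431) (nat_lit 5) (nat_lit 452) (nat_lit 434) (nat_lit 254)) (XT.lf (nat_lit 0) (nat_lit 3260913490) (nat_lit 1748) (nat_lit 1433259799) (nat_lit 1824) (nat_lit 9960392760) (nat_lit 407) (nat_lit 5) (nat_lit 430) (nat_lit 5) (nat_lit 431) (nat_lit 5) (nat_lit 453) (nat_lit 434) (nat_lit 253))) (XT.nd (nat_lit 78) (nat_lit 0) (nat_lit 0) (XT.lf (nat_lit 0) (nat_lit 4437422220) (nat_lit 1748) (nat_lit 8742376773) (nat_lit 1824) (nat_lit 1625662803) (nat_lit 408) (nat_lit 5) (nat_lit 431) (nat_lit 5) (nat_lit 432) (nat_lit 5) (nat_lit 454) (nat_lit 434) (nat_lit 252)) (XT.nd (nat_lit 78) (nat_lit 0) (nat_lit 0) (XT.lf (nat_lit 0) (nat_lit 5669899431) (nat_lit 1748) (nat_lit 1268171097) (nat_lit 1824) (nat_lit 8020659654) (nat_lit 408) (nat_lit 5) (nat_lit 431) (nat_lit 5) (nat_lit 432) (nat_lit 5) (nat_lit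 455) (nat_lit 434) (nat_lit 251)) (XT.lf (nat_lit 76) (nat_lit 6433401738) (nat_lit 0) (nat_lit 527227146) (nat_lit 1824) (nat_lit 8153766418) (nat_lit 409) (nat_lit 5) (nat_lit 408) (nat_lit 5) (nat_lit 432) (nat_lit 5) (nat_lit 456) (nat_lit 434) (nat_lit 250)))))) (XT.nd (nat_lit 390) (nat_lit 3724) (nat_lit 0) (XT.nd (nat_lit 156) (nat_lit 1672) (nat_lit 0) (XT.nd (nat_lit 78) (nat_lit 0) (nat_lit 0) (XT.lf (nat_lit 0) (nat_lit 8316733628) (nat_lit 1748) (nat_lit 1012520448) (nat_lit 1824) (nat_lit 5943131789) (nat_lit 409) (nat_lit 5) (nat_lit 432) (nat_lit 5) (nat_lit 433) (nat_lit 5) (nat_lit 457) (nat_lit 434) (nat_lit 249)) (XT.lf (nat_lit 76) (nat_lit 6889695864) (nat_lit 0) (nat_lit 2850607706) (nat_lit 1824) (nat_lit 5692429095) (nat_lit 410) (nat_lit 5) (nat_lit 409) (nat_lit 5) (nat_lit 433) (nat_lit 5) (nat_lit 458) (nat_lit 434) (nat_lit 248))) (XT.nd (nat_lit 78) (nat_lit 1748) (nat_lit 0) (XT.lf (nat_lit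 0) (nat_lit 11215821609) (nat_lit 1748) (nat_lit 663529639) (nat_lit 76) (nat_lit 3716468843) (nat_lit 410) (nat_lit 5) (nat_lit 433) (nat_lit 5) (nat_lit 411) (nat_lit 5) (nat_lit 459) (nat_lit 434) (nat_lit 247)) (XT.nd (nat_lit 78) (nat_lit 0) (nat_lit 0) (XT.lf (nat_lit 0) (nat_lit 7445854256) (nat_lit 1748) (nat_lit 5334609772) (nat_lit 1824) (nat_lit 2980516118) (nat_lit 387) (nat_lit 5) (nat_lit 410) (nat_lit 5) (nat_lit 411) (nat_lit 5) (nat_lit 460) (nat_lit 434) (nat_lit 246)) (XT.lf (nat_lit 0) (nat_lit 14382094811) (nat_lit 1824) (nat_lit 218276710) (nat_lit 76) (nat_lit 1328961071) (nat_lit 387) (nat_lit 5) (nat_lit 411) (nat_lit 5) (nat_lit 388) (nat_lit 5) (nat_lit 461) (nat_lit 434) (nat_lit 245))))) (XT.nd (nat_lit 234) (nat_lit 1672) (nat_lit 0) (XT.nd (nat_lit 78) (nat_lit 988) (nat_lit 0) (XT.lf (nat_lit 0) (nat_lit 8105002827) (nat_lit 1064) (nat_lit 7991360466) (nat_lit 1140) (nat_lit 3079729) (nat_lit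 373) (nat_lit 5) (nat_lit 387) (nat_lit 5) (nat_lit 388) (nat_lit 5) (nat_lit 462) (nat_lit 434) (nat_lit 244)) (XT.nd (nat_lit 78) (nat_lit 0) (nat_lit 0) (XT.lf (nat_lit 0) (nat_lit 312124121) (nat_lit 912) (nat_lit 1235426623) (nat_lit 988) (nat_lit 14725279596) (nat_lit 360) (nat_lit 5) (nat_lit 372) (nat_lit 5) (nat_lit 373) (nat_lit 5) (nat_lit 463) (nat_lit 434) (nat_lit 243)) (XT.lf (nat_lit 0) (nat_lit 3212685197) (nat_lit 988) (nat_lit 7599163990) (nat_lit 76) (nat_lit 5636168020) (nat_lit 360) (nat_lit 5) (nat_lit 373) (nat_lit 5) (nat_lit 361) (nat_lit 5) (nat_lit 464) (nat_lit 434) (nat_lit 242)))) (XT.nd (nat_lit 78) (nat_lit 836) (nat_lit 0) (XT.lf (nat_lit 0) (nat_lit 927074193) (nat_lit 836) (nat_lit 3991200249) (nat_lit 912) (nat_lit 11708293134) (nat_lit 349) (nat_lit 5) (nat_lit 360) (nat_lit 5) (nat_lit 361) (nat_lit 5) (nat_lit 465) (nat_lit 434) (nat_lit 241)) (XT.nd (nat_lit 78) (nat_lit 836)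 (nat_lit 0) (XT.lf (nat_lit 0) (nat_lit 6721614550) (nat_lit 912) (nat_lit 7107031409) (nat_lit 76) (nat_lit 2978772964) (nat_lit 349) (nat_lit 5) (nat_lit 361) (nat_lit 5) (nat_lit 350) (nat_lit 5) (nat_lit 466) (nat_lit 434) (nat_lit 240)) (XT.lf (nat_lit 0) (nat_lit 1645950541) (nat_lit 836) (nat_lit 6945376208) (nat_lit 912) (nat_lit 8399957139) (nat_lit 338) (nat_lit 5) (nat_lit 349) (nat_lit 5) (nat_lit 350) (nat_lit 5) (nat_lit 467) (nat_lit 434) (nat_lit 239))))))))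
noncomputable def xc217 : XT := (XT.nd (nat_lit 1638) (nat_lit 3344) (nat_lit 0) (XT.nd (nat_lit 780) (nat_lit 4104) (nat_lit 0) (XT.nd (nat_lit 390) (nat_lit 2204) (nat_lit 0) (XT.nd (nat_lit 156) (nat_lit 912) (nat_lit 0) (XT.nd (nat_lit 78) (nat_lit 836) (nat_lit 0) (XT.lf (nat_lit 0) (nat_lit 10540212012) (nat_lit 912) (nat_lit 6514929559) (nat_lit 76) (nat_lit 122851650) (nat_lit 338) (nat_lit 5) (nat_lit 350) (nat_lit 5) (nat_lit 339) (nat_lit 5) (nat_lit 468) (nat_lit 434) (nat_lit 238)) (XT.lf (nat_lit 0) (nat_lit 2472056293) (nat_lit 836) (nat_lit 10111477018) (nat_lit 912) (nat_lit 4783796856) (nat_lit 327) (nat_lit 5) (nat_lit 338) (nat_lit 5) (nat_lit 339) (nat_lit 5) (nat_lit 469) (nat_lit 434) (nat_lit 237))) (XT.nd (nat_lit 78) (nat_lit 912) (nat_lit 0) (XT.lf (nat_lit 0) (nat_lit 11720684288) (nat_lit 836) (nat_lit 2984255149) (nat_lit 912) (nat_lit 2854772589) (nat_lit 327) (nat_lit 5) (nat_lit 338)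 (nat_lit 5) (nat_lit 339) (nat_lit 5) (nat_lit 470) (nat_lit 434) (nat_lit 236)) (XT.nd (nat_lit 78) (nat_lit 76) (nat_lit 0) (XT.lf (nat_lit 0) (nat_lit 3408812105) (nat_lit 836) (nat_lit 13503546057) (nat_lit 912) (nat_lit 842714161) (nat_lit 316) (nat_lit 5) (nat_lit 327) (nat_lit 5) (nat_lit 328) (nat_lit 5) (nat_lit 471) (nat_lit 434) (nat_lit 235)) (XT.lf (nat_lit 0) (nat_lit 1246594567) (nat_lit 912) (nat_lit 5067132437) (nat_lit 76) (nat_lit 11639400690) (nat_lit 315) (nat_lit 5) (nat_lit 327) (nat_lit 5) (nat_lit 316) (nat_lit 5) (nat_lit 472) (nat_lit 434) (nat_lit 234))))) (XT.nd (nat_lit 156) (nat_lit 1444) (nat_lit 0) (XT.nd (nat_lit 78) (nat_lit 0) (nat_lit 0) (XT.lf (nat_lit 0) (nat_lit 3395909682) (nat_lit 836) (nat_lit 13717482586) (nat_lit 76) (nat_lit 1041052761) (nat_lit 305) (nat_lit 5) (nat_lit 316) (nat_lit 5) (nat_lit 306) (nat_lit 5) (nat_lit 473) (nat_lit 434) (nat_lit 233)) (XT.lf (nat_lit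 0) (nat_lit 5658123528) (nat_lit 836) (nat_lit 4207734942) (nat_lit 76) (nat_lit 8492534295) (nat_lit 305) (nat_lit 5) (nat_lit 316) (nat_lit 5) (nat_lit 306) (nat_lit 5) (nat_lit 474) (nat_lit 434) (nat_lit 232))) (XT.nd (nat_lit 78) (nat_lit 684) (nat_lit 0) (XT.lf (nat_lit 0) (nat_lit 5558824519) (nat_lit 760) (nat_lit 2436840232) (nat_lit 836) (nat_lit 10570155300) (nat_lit 295) (nat_lit 5) (nat_lit 305) (nat_lit 5) (nat_lit 306) (nat_lit 5) (nat_lit 475) (nat_lit 434) (nat_lit 231)) (XT.nd (nat_lit 78) (nat_lit 684) (nat_lit 0) (XT.lf (nat_lit 0) (nat_lit 10435823855) (nat_lit 836) (nat_lit 3239008782) (nat_lit 76) (nat_lit 5101448119) (nat_lit 295) (nat_lit 5) (nat_lit 306) (nat_lit 5) (nat_lit 296) (nat_lit 5) (nat_lit 476) (nat_lit 434) (nat_lit 230)) (XT.lf (nat_lit 0) (nat_lit 6791024473) (nat_lit 684) (nat_lit 6188174587) (nat_lit 760) (nat_lit 6010665525) (nat_lit 286) (nat_lit 5) (nat_lit 295) (nat_lit 5)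 (nat_lit 296) (nat_lit 5) (nat_lit 477) (nat_lit 434) (nat_lit 229)))))) (XT.nd (nat_lit 390) (nat_lit 1900) (nat_lit 0) (XT.nd (nat_lit 156) (nat_lit 1444) (nat_lit 0) (XT.nd (nat_lit 78) (nat_lit 760) (nat_lit 0) (XT.lf (nat_lit 0) (nat_lit 15598977860) (nat_lit 760) (nat_lit 2157581790) (nat_lit 76) (nat_lit 1450651845) (nat_lit 286) (nat_lit 5) (nat_lit 296) (nat_lit 5) (nat_lit 287) (nat_lit 5) (nat_lit 478) (nat_lit 434) (nat_lit 228)) (XT.lf (nat_lit 0) (nat_lit 8144142408) (nat_lit 760) (nat_lit 10215234870) (nat_lit 836) (nat_lit 1067765651) (nat_lit 276) (nat_lit 5) (nat_lit 286) (nat_lit 5) (nat_lit 287) (nat_lit 5) (nat_lit 479) (nat_lit 434) (nat_lit 227))) (XT.nd (nat_lit 78) (nat_lit 1368) (nat_lit 0) (XT.lf (nat_lit 0) (nat_lit 1512503212) (nat_lit 836) (nat_lit 986248893) (nat_lit 76) (nat_lit 17152345604) (nat_lit 275) (nat_lit 5) (nat_lit 286) (nat_lit 5) (nat_lit 276) (nat_lit 5) (nat_lit 480) (nat_lit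 434) (nat_lit 226)) (XT.nd (nat_lit 78) (nat_lit 684) (nat_lit 0) (XT.lf (nat_lit 0) (nat_lit 4222458884) (nat_lit 760) (nat_lit 10284031135) (nat_lit 76) (nat_lit 5371054797) (nat_lit 266) (nat_lit 5) (nat_lit 276) (nat_lit 5) (nat_lit 267) (nat_lit 5) (nat_lit 481) (nat_lit 434) (nat_lit 225)) (XT.lf (nat_lit 0) (nat_lit 270639867) (nat_lit 684) (nat_lit 6735513338) (nat_lit 760) (nat_lit 13101978795) (nat_lit 257) (nat_lit 5) (nat_lit 266) (nat_lit 5) (nat_lit 267) (nat_lit 5) (nat_lit 482) (nat_lit 434) (nat_lit 224))))) (XT.nd (nat_lit 234) (nat_lit 1292) (nat_lit 0) (XT.nd (nat_lit 78) (nat_lit 608) (nat_lit 0) (XT.lf (nat_lit 0) (nat_lit 9917355608) (nat_lit 760) (nat_lit 9180565867) (nat_lit 76) (nat_lit 1243974657) (nat_lit 257) (nat_lit 5) (nat_lit 267) (nat_lit 5) (nat_lit 258) (nat_lit 5) (nat_lit 483) (nat_lit 434) (nat_lit 223)) (XT.nd (nat_lit 78) (nat_lit 0) (nat_lit 0) (XT.lf (nat_lit 0) (nat_lit 1660560470)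 (nat_lit 608) (nat_lit 11276348218) (nat_lit 684) (nat_lit 7642426179) (nat_lit 249) (nat_lit 5) (nat_lit 257) (nat_lit 5) (nat_lit 258) (nat_lit 5) (nat_lit 484) (nat_lit 434) (nat_lit 222)) (XT.lf (nat_lit 0) (nat_lit 12836883571) (nat_lit 608) (nat_lit 3236378548) (nat_lit 684) (nat_lit 4747133886) (nat_lit 249) (nat_lit 5) (nat_lit 257) (nat_lit 5) (nat_lit 258) (nat_lit 5) (nat_lit 485) (nat_lit 434) (nat_lit 221)))) (XT.nd (nat_lit 78) (nat_lit 684) (nat_lit 0) (XT.lf (nat_lit 0) (nat_lit 3173797739) (nat_lit 608) (nat_lit 16146282601) (nat_lit 684) (nat_lit 1745245053) (nat_lit 241) (nat_lit 5) (nat_lit 249) (nat_lit 5) (nat_lit 250) (nat_lit 5) (nat_lit 486) (nat_lit 434) (nat_lit 220)) (XT.nd (nat_lit 78) (nat_lit 608) (nat_lit 0) (XT.lf (nat_lit 0) (nat_lit 1369699473) (nat_lit 684) (nat_lit 6688024891) (nat_lit 76) (nat_lit 13255854009) (nat_lit 240) (nat_lit 5) (nat_lit 249) (nat_lit 5) (nat_lit 241) (nat_lit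 5) (nat_lit 487) (nat_lit 434) (nat_lit 219)) (XT.lf (nat_lit 0) (nat_lit 4551212904) (nat_lit 684) (nat_lit 16782788213) (nat_lit 76) (nat_lit 232013477) (nat_lit 232) (nat_lit 5) (nat_lit 241) (nat_lit 5) (nat_lit 233) (nat_lit 5) (nat_lit 488) (nat_lit 434) (nat_lit 218))))))) (XT.nd (nat_lit 55146) (nat_lit 0) (nat_lit 17784) (XT.nd (nat_lit 390) (nat_lit 2204) (nat_lit 0) (XT.nd (nat_lit 156) (nat_lit 532) (nat_lit 0) (XT.nd (nat_lit 78) (nat_lit 608) (nat_lit 0) (XT.lf (nat_lit 0) (nat_lit 7889973605) (nat_lit 684) (nat_lit 5307715178) (nat_lit 76) (nat_lit 8623940059) (nat_lit 232) (nat_lit 5) (nat_lit 241) (nat_lit 5) (nat_lit 233) (nat_lit 5) (nat_lit 489) (nat_lit 434) (nat_lit 217)) (XT.lf (nat_lit 0) (nat_lit 6475895548) (nat_lit 608) (nat_lit 4856833507) (nat_lit 684) (nat_lit 10748883542) (nat_lit 224) (nat_lit 5) (nat_lit 232) (nat_lit 5) (nat_lit 233) (nat_lit 5) (nat_lit 490) (nat_lit 434) (nat_lit 216)))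 (XT.nd (nat_lit 78) (nat_lit 532) (nat_lit 0) (XT.lf (nat_lit 0) (nat_lit 14899119988) (nat_lit 684) (nat_lit 3808844678) (nat_lit 76) (nat_lit 3637737333) (nat_lit 224) (nat_lit 5) (nat_lit 233) (nat_lit 5) (nat_lit 225) (nat_lit 5) (nat_lit 491) (nat_lit 434) (nat_lit 215)) (XT.nd (nat_lit 78) (nat_lit 0) (nat_lit 0) (XT.lf (nat_lit 0) (nat_lit 8294757105) (nat_lit 532) (nat_lit 10323418088) (nat_lit 608) (nat_lit 3995272818) (nat_lit 217) (nat_lit 5) (nat_lit 224) (nat_lit 5) (nat_lit 225) (nat_lit 5) (nat_lit 492) (nat_lit 434) (nat_lit 214)) (XT.lf (nat_lit 0) (nat_lit 20686268371) (nat_lit 532) (nat_lit 1746273627) (nat_lit 608) (nat_lit 453589853) (nat_lit 217) (nat_lit 5) (nat_lit 224) (nat_lit 5) (nat_lit 225) (nat_lit 5) (nat_lit 493) (nat_lit 434) (nat_lit 213))))) (XT.nd (nat_lit 234) (nat_lit 988) (nat_lit 0) (XT.nd (nat_lit 78) (nat_lit 532) (nat_lit 0) (XT.lf (nat_lit 0) (nat_lit 3225639593) (nat_lit 684)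 (nat_lit 12938872978) (nat_lit 76) (nat_lit 6997185206) (nat_lit 208) (nat_lit 5) (nat_lit 217) (nat_lit 5) (nat_lit 209) (nat_lit 5) (nat_lit 494) (nat_lit 434) (nat_lit 212)) (XT.nd (nat_lit 78) (nat_lit 532) (nat_lit 0) (XT.lf (nat_lit 0) (nat_lit 6994285721) (nat_lit 684) (nat_lit 539146954) (nat_lit 76) (nat_lit 15908845699) (nat_lit 208) (nat_lit 5) (nat_lit 217) (nat_lit 5) (nat_lit 209) (nat_lit 5) (nat_lit 495) (nat_lit 434) (nat_lit 211)) (XT.lf (nat_lit 0) (nat_lit 10922259788) (nat_lit 608) (nat_lit 11471994050) (nat_lit 76) (nat_lit 1332539050) (nat_lit 201) (nat_lit 5) (nat_lit 209) (nat_lit 5) (nat_lit 202) (nat_lit 5) (nat_lit 496) (nat_lit 434) (nat_lit 210)))) (XT.nd (nat_lit 78) (nat_lit 456) (nat_lit 0) (XT.lf (nat_lit 0) (nat_lit 1255845372) (nat_lit 532) (nat_lit 13730240183) (nat_lit 608) (nat_lit 9029767668) (nat_lit 194) (nat_lit 5) (nat_lit 201) (nat_lit 5) (nat_lit 202) (nat_lit 5) (nat_lit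 497) (nat_lit 434) (nat_lit 209)) (XT.nd (nat_lit 78) (nat_lit 456) (nat_lit 0) (XT.lf (nat_lit 0) (nat_lit 14388067578) (nat_lit 532) (nat_lit 4815758886) (nat_lit 608) (nat_lit 5105416876) (nat_lit 194) (nat_lit 5) (nat_lit 201) (nat_lit 5) (nat_lit 202) (nat_lit 5) (nat_lit 498) (nat_lit 434) (nat_lit 208)) (XT.lf (nat_lit 0) (nat_lit 3182759693) (nat_lit 456) (nat_lit 20367328480) (nat_lit 532) (nat_lit 1057531090) (nat_lit 188) (nat_lit 5) (nat_lit 194) (nat_lit 5) (nat_lit 195) (nat_lit 5) (nat_lit 499) (nat_lit 434) (nat_lit 207)))))) (XT.nd (nat_lit 390) (nat_lit 0) (nat_lit 152) (XT.nd (nat_lit 156) (nat_lit 0) (nat_lit 76) (XT.nd (nat_lit 78) (nat_lit 0) (nat_lit 0) (XT.lf (nat_lit 0) (nat_lit 1419363907) (nat_lit 1748) (nat_lit 2393513378) (nat_lit 1748) (nat_lit 2393513378) (nat_lit 422) (nat_lit 3) (nat_lit 445) (nat_lit 3) (nat_lit 445) (nat_lit 5) (nat_lit 435) (nat_lit 435) (nat_lit 270)) (XT.lf (nat_lit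 76) (nat_lit 1113425019) (nat_lit 0) (nat_lit 2193271401) (nat_lit 1748) (nat_lit 9221231086) (nat_lit 423) (nat_lit 5) (nat_lit 422) (nat_lit 3) (nat_lit 445) (nat_lit 5) (nat_lit 436) (nat_lit 435) (nat_lit 269))) (XT.nd (nat_lit 78) (nat_lit 0) (nat_lit 0) (XT.lf (nat_lit 0) (nat_lit 3826754132) (nat_lit 1672) (nat_lit 5476039719) (nat_lit 1748) (nat_lit 3341733146) (nat_lit 423) (nat_lit 5) (nat_lit 445) (nat_lit 5) (nat_lit 446) (nat_lit 5) (nat_lit 437) (nat_lit 435) (nat_lit 268)) (XT.nd (nat_lit 78) (nat_lit 0) (nat_lit 76) (XT.lf (nat_lit 76) (nat_lit 568106832) (nat_lit 0) (nat_lit 3796199069) (nat_lit 1748) (nat_lit 8399015605) (nat_lit 424) (nat_lit 5) (nat_lit 423) (nat_lit 5) (nat_lit 446) (nat_lit 5) (nat_lit 438) (nat_lit 435) (nat_lit 267)) (XT.lf (nat_lit 0) (nat_lit 4950510190) (nat_lit 1672) (nat_lit 6094682573) (nat_lit 1748) (nat_lit 1838545902) (nat_lit 424) (nat_lit 5) (nat_lit 446) (nat_lit 5)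 (nat_lit 447) (nat_lit 5) (nat_lit 439) (nat_lit 435) (nat_lit 266))))) (XT.nd (nat_lit 234) (nat_lit 0) (nat_lit 76) (XT.nd (nat_lit 78) (nat_lit 0) (nat_lit 76) (XT.lf (nat_lit 76) (nat_lit 97898188) (nat_lit 0) (nat_lit 5465621236) (nat_lit 1748) (nat_lit 7442747823) (nat_lit 425) (nat_lit 5) (nat_lit 424) (nat_lit 5) (nat_lit 447) (nat_lit 5) (nat_lit 440) (nat_lit 435) (nat_lit 265)) (XT.nd (nat_lit 78) (nat_lit 0) (nat_lit 0) (XT.lf (nat_lit 0) (nat_lit 6220926719) (nat_lit 1672) (nat_lit 6641527485) (nat_lit 1748) (nat_lit 268154044) (nat_lit 425) (nat_lit 5) (nat_lit 447) (nat_lit 5) (nat_lit 448) (nat_lit 5) (nat_lit 441) (nat_lit 435) (nat_lit 264)) (XT.lf (nat_lit 0) (nat_lit 6917388258) (nat_lit 1672) (nat_lit 291730961) (nat_lit 1748) (nat_lit 6047803242) (nat_lit 425) (nat_lit 5) (nat_lit 447) (nat_lit 5) (nat_lit 448) (nat_lit 5) (nat_lit 442) (nat_lit 435) (nat_lit 263)))) (XT.nd (nat_lit 78) (nat_lit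 0) (nat_lit 76) (XT.lf (nat_lit 76) (nat_lit 6261112685) (nat_lit 0) (nat_lit 1397229336) (nat_lit 1748) (nat_lit 5726814104) (nat_lit 426) (nat_lit 5) (nat_lit 425) (nat_lit 5) (nat_lit 448) (nat_lit 5) (nat_lit 443) (nat_lit 435) (nat_lit 262)) (XT.nd (nat_lit 78) (nat_lit 0) (nat_lit 0) (XT.lf (nat_lit 0) (nat_lit 8435598837) (nat_lit 1672) (nat_lit 602630989) (nat_lit 1748) (nat_lit 4477299295) (nat_lit 426) (nat_lit 5) (nat_lit 448) (nat_lit 5) (nat_lit 449) (nat_lit 5) (nat_lit 444) (nat_lit 435) (nat_lit 261)) (XT.lf (nat_lit 76) (nat_lit 6114012703) (nat_lit 0) (nat_lit 3153627433) (nat_lit 1748) (nat_lit 4380088906) (nat_lit 427) (nat_lit 5) (nat_lit 426) (nat_lit 5) (nat_lit 449) (nat_lit 5) (nat_lit 445) (nat_lit 435) (nat_lit 260))))))))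
noncomputable def xc218 : XT := (XT.nd (nat_lit 1638) (nat_lit 8208) (nat_lit 0) (XT.nd (nat_lit 780) (nat_lit 4332) (nat_lit 0) (XT.nd (nat_lit 390) (nat_lit 1596) (nat_lit 0) (XT.nd (nat_lit 156) (nat_lit 0) (nat_lit 76) (XT.nd (nat_lit 78) (nat_lit 0) (nat_lit 0) (XT.lf (nat_lit 0) (nat_lit 10129351776) (nat_lit 1672) (nat_lit 834163969) (nat_lit 1748) (nat_lit 2818800798) (nat_lit 427) (nat_lit 5) (nat_lit 449) (nat_lit 5) (nat_lit 450) (nat_lit 5) (nat_lit 446) (nat_lit 435) (nat_lit 259)) (XT.lf (nat_lit 76) (nat_lit 6051679283) (nat_lit 0) (nat_lit 5007445151) (nat_lit 1748) (nat_lit 2859458912) (nat_lit 428) (nat_lit 5) (nat_lit 427) (nat_lit 5) (nat_lit 450) (nat_lit 5) (nat_lit 447) (nat_lit 435) (nat_lit 258))) (XT.nd (nat_lit 78) (nat_lit 0) (nat_lit 0) (XT.lf (nat_lit 0) (nat_lit 12010873463) (nat_lit 1672) (nat_lit 984237824) (nat_lit 1748) (nat_lit 1062400590) (nat_lit 428) (nat_lit 5) (nat_lit 450) (nat_lit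 5) (nat_lit 451) (nat_lit 5) (nat_lit 448) (nat_lit 435) (nat_lit 257)) (XT.nd (nat_lit 78) (nat_lit 0) (nat_lit 0) (XT.lf (nat_lit 76) (nat_lit 6076385871) (nat_lit 0) (nat_lit 6968879187) (nat_lit 1748) (nat_lit 1152685697) (nat_lit 429) (nat_lit 5) (nat_lit 428) (nat_lit 5) (nat_lit 451) (nat_lit 5) (nat_lit 449) (nat_lit 435) (nat_lit 256)) (XT.lf (nat_lit 76) (nat_lit 13285377736) (nat_lit 0) (nat_lit 812701704) (nat_lit 1748) (nat_lit 243168125) (nat_lit 429) (nat_lit 5) (nat_lit 428) (nat_lit 5) (nat_lit 451) (nat_lit 5) (nat_lit 450) (nat_lit 435) (nat_lit 255))))) (XT.nd (nat_lit 156) (nat_lit 0) (nat_lit 76) (XT.nd (nat_lit 78) (nat_lit 0) (nat_lit 0) (XT.lf (nat_lit 0) (nat_lit 743009289) (nat_lit 1748) (nat_lit 8300384684) (nat_lit 1824) (nat_lit 5442582205) (nat_lit 406) (nat_lit 5) (nat_lit 429) (nat_lit 5) (nat_lit 430) (nat_lit 5) (nat_lit 451) (nat_lit 435) (nat_lit 254)) (XT.lf (nat_lit 0) (nat_lit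 1749562503) (nat_lit 1748) (nat_lit 1060638711) (nat_lit 1824) (nat_lit 11823291468) (nat_lit 406) (nat_lit 5) (nat_lit 429) (nat_lit 5) (nat_lit 430) (nat_lit 5) (nat_lit 452) (nat_lit 435) (nat_lit 253))) (XT.nd (nat_lit 78) (nat_lit 0) (nat_lit 0) (XT.lf (nat_lit 0) (nat_lit 2832693530) (nat_lit 1748) (nat_lit 8404975125) (nat_lit 1824) (nat_lit 3545165484) (nat_lit 407) (nat_lit 5) (nat_lit 430) (nat_lit 5) (nat_lit 431) (nat_lit 5) (nat_lit 453) (nat_lit 435) (nat_lit 252)) (XT.nd (nat_lit 78) (nat_lit 0) (nat_lit 76) (XT.lf (nat_lit 0) (nat_lit 3954961252) (nat_lit 1748) (nat_lit 980528743) (nat_lit 1824) (nat_lit 9999326439) (nat_lit 407) (nat_lit 5) (nat_lit 430) (nat_lit 5) (nat_lit 431) (nat_lit 5) (nat_lit 454) (nat_lit 435) (nat_lit 251)) (XT.lf (nat_lit 0) (nat_lit 5144857246) (nat_lit 1748) (nat_lit 8425425983) (nat_lit 1824) (nat_lit 1518654909) (nat_lit 408) (nat_lit 5) (nat_lit 431) (nat_lit 5) (nat_lit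 432) (nat_lit 5) (nat_lit 455) (nat_lit 435) (nat_lit 250)))))) (XT.nd (nat_lit 390) (nat_lit 4484) (nat_lit 0) (XT.nd (nat_lit 156) (nat_lit 0) (nat_lit 76) (XT.nd (nat_lit 78) (nat_lit 0) (nat_lit 0) (XT.lf (nat_lit 0) (nat_lit 6389852891) (nat_lit 1748) (nat_lit 811379298) (nat_lit 1824) (nat_lit 8044287406) (nat_lit 408) (nat_lit 5) (nat_lit 431) (nat_lit 5) (nat_lit 432) (nat_lit 5) (nat_lit 456) (nat_lit 435) (nat_lit 249)) (XT.lf (nat_lit 76) (nat_lit 7041052920) (nat_lit 0) (nat_lit 656560645) (nat_lit 1824) (nat_lit 7706865102) (nat_lit 409) (nat_lit 5) (nat_lit 408) (nat_lit 5) (nat_lit 432) (nat_lit 5) (nat_lit 457) (nat_lit 435) (nat_lit 248))) (XT.nd (nat_lit 78) (nat_lit 0) (nat_lit 0) (XT.lf (nat_lit 0) (nat_lit 9068363248) (nat_lit 1748) (nat_lit 550458166) (nat_lit 1824) (nat_lit 5947062054) (nat_lit 409) (nat_lit 5) (nat_lit 432) (nat_lit 5) (nat_lit 433) (nat_lit 5) (nat_lit 458) (nat_lit 435) (nat_lit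 247)) (XT.nd (nat_lit 78) (nat_lit 0) (nat_lit 76) (XT.lf (nat_lit 76) (nat_lit 7506629363) (nat_lit 0) (nat_lit 3005409748) (nat_lit 1824) (nat_lit 5217570193) (nat_lit 410) (nat_lit 5) (nat_lit 409) (nat_lit 5) (nat_lit 433) (nat_lit 5) (nat_lit 459) (nat_lit 435) (nat_lit 246)) (XT.lf (nat_lit 0) (nat_lit 12005132700) (nat_lit 1748) (nat_lit 194886003) (nat_lit 76) (nat_lit 3696183166) (nat_lit 410) (nat_lit 5) (nat_lit 433) (nat_lit 5) (nat_lit 411) (nat_lit 5) (nat_lit 460) (nat_lit 435) (nat_lit 245))))) (XT.nd (nat_lit 234) (nat_lit 1748) (nat_lit 0) (XT.nd (nat_lit 78) (nat_lit 1140) (nat_lit 0) (XT.lf (nat_lit 0) (nat_lit 8073515082) (nat_lit 1748) (nat_lit 5519582881) (nat_lit 1824) (nat_lit 2471731165) (nat_lit 387) (nat_lit 5) (nat_lit 410) (nat_lit 5) (nat_lit 411) (nat_lit 5) (nat_lit 461) (nat_lit 435) (nat_lit 244)) (XT.nd (nat_lit 78) (nat_lit 76) (nat_lit 0) (XT.lf (nat_lit 0) (nat_lit 261793790) (nat_lit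 1064) (nat_lit 14955246972) (nat_lit 1140) (nat_lit 1019706785) (nat_lit 373) (nat_lit 5) (nat_lit 387) (nat_lit 5) (nat_lit 388) (nat_lit 5) (nat_lit 462) (nat_lit 435) (nat_lit 243)) (XT.lf (nat_lit 0) (nat_lit 538689771) (nat_lit 1140) (nat_lit 7669053574) (nat_lit 76) (nat_lit 8202636292) (nat_lit 372) (nat_lit 5) (nat_lit 387) (nat_lit 5) (nat_lit 373) (nat_lit 5) (nat_lit 463) (nat_lit 435) (nat_lit 242)))) (XT.nd (nat_lit 78) (nat_lit 836) (nat_lit 0) (XT.lf (nat_lit 0) (nat_lit 800429166) (nat_lit 912) (nat_lit 1312369027) (nat_lit 988) (nat_lit 14474590221) (nat_lit 360) (nat_lit 5) (nat_lit 372) (nat_lit 5) (nat_lit 373) (nat_lit 5) (nat_lit 464) (nat_lit 435) (nat_lit 241)) (XT.nd (nat_lit 78) (nat_lit 836) (nat_lit 0) (XT.lf (nat_lit 0) (nat_lit 3800426448) (nat_lit 988) (nat_lit 7267519591) (nat_lit 76) (nat_lit 5698353326) (nat_lit 360) (nat_lit 5) (nat_lit 373) (nat_lit 5) (nat_lit 361) (nat_lit 5) (nat_lit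 465) (nat_lit 435) (nat_lit 240)) (XT.lf (nat_lit 0) (nat_lit 1426061594) (nat_lit 836) (nat_lit 4106920796) (nat_lit 912) (nat_lit 11415585341) (nat_lit 349) (nat_lit 5) (nat_lit 360) (nat_lit 5) (nat_lit 361) (nat_lit 5) (nat_lit 466) (nat_lit 435) (nat_lit 239))))))) (XT.nd (nat_lit 780) (nat_lit 4104) (nat_lit 0) (XT.nd (nat_lit 390) (nat_lit 2432) (nat_lit 0) (XT.nd (nat_lit 156) (nat_lit 836) (nat_lit 0) (XT.nd (nat_lit 78) (nat_lit 836) (nat_lit 0) (XT.lf (nat_lit 0) (nat_lit 7362036443) (nat_lit 912) (nat_lit 6767593431) (nat_lit 76) (nat_lit 3003617294) (nat_lit 349) (nat_lit 5) (nat_lit 361) (nat_lit 5) (nat_lit 350) (nat_lit 5) (nat_lit 467) (nat_lit 435) (nat_lit 238)) (XT.lf (nat_lit 0) (nat_lit 2157279877) (nat_lit 836) (nat_lit 7105047801) (nat_lit 912) (nat_lit 8058601987) (nat_lit 338) (nat_lit 5) (nat_lit 349) (nat_lit 5) (nat_lit 350) (nat_lit 5) (nat_lit 468) (nat_lit 435) (nat_lit 237))) (XT.nd (nat_lit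 78) (nat_lit 836) (nat_lit 0) (XT.lf (nat_lit 0) (nat_lit 11240270743) (nat_lit 912) (nat_lit 6166085954) (nat_lit 76) (nat_lit 105218737) (nat_lit 338) (nat_lit 5) (nat_lit 350) (nat_lit 5) (nat_lit 339) (nat_lit 5) (nat_lit 469) (nat_lit 435) (nat_lit 236)) (XT.nd (nat_lit 78) (nat_lit 0) (nat_lit 0) (XT.lf (nat_lit 0) (nat_lit 2997487364) (nat_lit 836) (nat_lit 10320468321) (nat_lit 912) (nat_lit 4386877265) (nat_lit 327) (nat_lit 5) (nat_lit 338) (nat_lit 5) (nat_lit 339) (nat_lit 5) (nat_lit 470) (nat_lit 435) (nat_lit 235)) (XT.lf (nat_lit 0) (nat_lit 12421754782) (nat_lit 836) (nat_lit 3050569431) (nat_lit 912) (nat_lit 2428931248) (nat_lit 327) (nat_lit 5) (nat_lit 338) (nat_lit 5) (nat_lit 339) (nat_lit 5) (nat_lit 471) (nat_lit 435) (nat_lit 234))))) (XT.nd (nat_lit 156) (nat_lit 1520) (nat_lit 0) (XT.nd (nat_lit 78) (nat_lit 76) (nat_lit 0) (XT.lf (nat_lit 0) (nat_lit 3950205116) (nat_lit 836) (nat_lit 13767436321)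 (nat_lit 912) (nat_lit 383010156) (nat_lit 316) (nat_lit 5) (nat_lit 327) (nat_lit 5) (nat_lit 328) (nat_lit 5) (nat_lit 472) (nat_lit 435) (nat_lit 233)) (XT.lf (nat_lit 0) (nat_lit 1732612870) (nat_lit 912) (nat_lit 4698235074) (nat_lit 76) (nat_lit 11871946166) (nat_lit 315) (nat_lit 5) (nat_lit 327) (nat_lit 5) (nat_lit 316) (nat_lit 5) (nat_lit 473) (nat_lit 435) (nat_lit 232))) (XT.nd (nat_lit 78) (nat_lit 760) (nat_lit 0) (XT.lf (nat_lit 0) (nat_lit 3918984754) (nat_lit 836) (nat_lit 13515491702) (nat_lit 76) (nat_lit 1073783347) (nat_lit 305) (nat_lit 5) (nat_lit 316) (nat_lit 5) (nat_lit 306) (nat_lit 5) (nat_lit 474) (nat_lit 435) (nat_lit 231)) (XT.nd (nat_lit 78) (nat_lit 760) (nat_lit 0) (XT.lf (nat_lit 0) (nat_lit 6217518233) (nat_lit 836) (nat_lit 3824889116) (nat_lit 76) (nat_lit 8674060992) (nat_lit 305) (nat_lit 5) (nat_lit 316) (nat_lit 5) (nat_lit 306) (nat_lit 5) (nat_lit 475) (nat_lit 435) (nat_lit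 230)) (XT.lf (nat_lit 0) (nat_lit 6133929163) (nat_lit 760) (nat_lit 2462143595) (nat_lit 836) (nat_lit 10332089451) (nat_lit 295) (nat_lit 5) (nat_lit 305) (nat_lit 5) (nat_lit 306) (nat_lit 5) (nat_lit 476) (nat_lit 435) (nat_lit 229)))))) (XT.nd (nat_lit 390) (nat_lit 2584) (nat_lit 0) (XT.nd (nat_lit 156) (nat_lit 836) (nat_lit 0) (XT.nd (nat_lit 78) (nat_lit 684) (nat_lit 0) (XT.lf (nat_lit 0) (nat_lit 11076547055) (nat_lit 836) (nat_lit 2840308319) (nat_lit 76) (nat_lit 5226149736) (nat_lit 295) (nat_lit 5) (nat_lit 306) (nat_lit 5) (nat_lit 296) (nat_lit 5) (nat_lit 477) (nat_lit 435) (nat_lit 228)) (XT.lf (nat_lit 0) (nat_lit 7387276386) (nat_lit 684) (nat_lit 6278032083) (nat_lit 760) (nat_lit 5695664931) (nat_lit 286) (nat_lit 5) (nat_lit 295) (nat_lit 5) (nat_lit 296) (nat_lit 5) (nat_lit 478) (nat_lit 435) (nat_lit 227))) (XT.nd (nat_lit 78) (nat_lit 836) (nat_lit 0) (XT.lf (nat_lit 0) (nat_lit 16329335426)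 (nat_lit 760) (nat_lit 1741027779) (nat_lit 76) (nat_lit 1512470090) (nat_lit 286) (nat_lit 5) (nat_lit 296) (nat_lit 5) (nat_lit 287) (nat_lit 5) (nat_lit 479) (nat_lit 435) (nat_lit 226)) (XT.nd (nat_lit 78) (nat_lit 76) (nat_lit 0) (XT.lf (nat_lit 0) (nat_lit 8763706524) (nat_lit 760) (nat_lit 10375997895) (nat_lit 836) (nat_lit 667566743) (nat_lit 276) (nat_lit 5) (nat_lit 286) (nat_lit 5) (nat_lit 287) (nat_lit 5) (nat_lit 480) (nat_lit 435) (nat_lit 225)) (XT.lf (nat_lit 0) (nat_lit 1950621376) (nat_lit 836) (nat_lit 552680848) (nat_lit 76) (nat_lit 17532514140) (nat_lit 275) (nat_lit 5) (nat_lit 286) (nat_lit 5) (nat_lit 276) (nat_lit 5) (nat_lit 481) (nat_lit 435) (nat_lit 224))))) (XT.nd (nat_lit 234) (nat_lit 1216) (nat_lit 0) (XT.nd (nat_lit 78) (nat_lit 684) (nat_lit 0) (XT.lf (nat_lit 0) (nat_lit 4710010972) (nat_lit 760) (nat_lit 10031510470) (nat_lit 76) (nat_lit 5525369136) (nat_lit 266) (nat_lit 5) (nat_lit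 276) (nat_lit 5) (nat_lit 267) (nat_lit 5) (nat_lit 482) (nat_lit 435) (nat_lit 223)) (XT.nd (nat_lit 78) (nat_lit 0) (nat_lit 0) (XT.lf (nat_lit 0) (nat_lit 731239470) (nat_lit 684) (nat_lit 6813191106) (nat_lit 760) (nat_lit 12957760707) (nat_lit 257) (nat_lit 5) (nat_lit 266) (nat_lit 5) (nat_lit 267) (nat_lit 5) (nat_lit 483) (nat_lit 435) (nat_lit 222)) (XT.lf (nat_lit 0) (nat_lit 10506413112) (nat_lit 760) (nat_lit 8910334175) (nat_lit 76) (nat_lit 1324035040) (nat_lit 257) (nat_lit 5) (nat_lit 267) (nat_lit 5) (nat_lit 258) (nat_lit 5) (nat_lit 484) (nat_lit 435) (nat_lit 221)))) (XT.nd (nat_lit 78) (nat_lit 608) (nat_lit 0) (XT.lf (nat_lit 0) (nat_lit 2144628880) (nat_lit 608) (nat_lit 11436994650) (nat_lit 684) (nat_lit 7401443678) (nat_lit 249) (nat_lit 5) (nat_lit 257) (nat_lit 5) (nat_lit 258) (nat_lit 5) (nat_lit 485) (nat_lit 435) (nat_lit 220)) (XT.nd (nat_lit 78) (nat_lit 608) (nat_lit 0) (XT.lf (nat_lit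 0) (nat_lit 13535638106) (nat_lit 608) (nat_lit 3237497754) (nat_lit 684) (nat_lit 4455967716) (nat_lit 249) (nat_lit 5) (nat_lit 257) (nat_lit 5) (nat_lit 258) (nat_lit 5) (nat_lit 486) (nat_lit 435) (nat_lit 219)) (XT.lf (nat_lit 0) (nat_lit 3683621970) (nat_lit 608) (nat_lit 16397151579) (nat_lit 684) (nat_lit 1398242932) (nat_lit 241) (nat_lit 5) (nat_lit 249) (nat_lit 5) (nat_lit 250) (nat_lit 5) (nat_lit 487) (nat_lit 435) (nat_lit 218))))))))
noncomputable def xc219 : XT := (XT.nd (nat_lit 56004) (nat_lit 0) (nat_lit 12616) (XT.nd (nat_lit 780) (nat_lit 532) (nat_lit 0) (XT.nd (nat_lit 390) (nat_lit 1748) (nat_lit 0) (XT.nd (nat_lit 156) (nat_lit 608) (nat_lit 0) (XT.nd (nat_lit 78) (nat_lit 608) (nat_lit 0) (XT.lf (nat_lit 0) (nat_lit 1766601544) (nat_lit 684) (nat_lit 6379153916) (nat_lit 76) (nat_lit 13586579763) (nat_lit 240) (nat_lit 5) (nat_lit 249) (nat_lit 5) (nat_lit 241) (nat_lit 5) (nat_lit 488) (nat_lit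 435) (nat_lit 217)) (XT.lf (nat_lit 0) (nat_lit 5007839301) (nat_lit 684) (nat_lit 16671784446) (nat_lit 76) (nat_lit 310276981) (nat_lit 232) (nat_lit 5) (nat_lit 241) (nat_lit 5) (nat_lit 233) (nat_lit 5) (nat_lit 489) (nat_lit 435) (nat_lit 216))) (XT.nd (nat_lit 78) (nat_lit 608) (nat_lit 0) (XT.lf (nat_lit 0) (nat_lit 8406206546) (nat_lit 684) (nat_lit 4975967981) (nat_lit 76) (nat_lit 8868598502) (nat_lit 232) (nat_lit 5) (nat_lit 241) (nat_lit 5) (nat_lit 233) (nat_lit 5) (nat_lit 490) (nat_lit 435) (nat_lit 215)) (XT.nd (nat_lit 78) (nat_lit 0) (nat_lit 0) (XT.lf (nat_lit 0) (nat_lit 7040434028) (nat_lit 608) (nat_lit 4873179412) (nat_lit 684) (nat_lit 10602429440) (nat_lit 224) (nat_lit 5) (nat_lit 232) (nat_lit 5) (nat_lit 233) (nat_lit 5) (nat_lit 491) (nat_lit 435) (nat_lit 214)) (XT.lf (nat_lit 0) (nat_lit 15544900772) (nat_lit 684) (nat_lit 3451984326) (nat_lit 76) (nat_lit 3788659903) (nat_lit 224) (nat_lit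 5) (nat_lit 233) (nat_lit 5) (nat_lit 225) (nat_lit 5) (nat_lit 492) (nat_lit 435) (nat_lit 213))))) (XT.nd (nat_lit 156) (nat_lit 1216) (nat_lit 0) (XT.nd (nat_lit 78) (nat_lit 0) (nat_lit 0) (XT.lf (nat_lit 0) (nat_lit 8890840563) (nat_lit 532) (nat_lit 10443470008) (nat_lit 608) (nat_lit 3724418147) (nat_lit 217) (nat_lit 5) (nat_lit 224) (nat_lit 5) (nat_lit 225) (nat_lit 5) (nat_lit 493) (nat_lit 435) (nat_lit 212)) (XT.lf (nat_lit 0) (nat_lit 21521746989) (nat_lit 532) (nat_lit 1696477098) (nat_lit 608) (nat_lit 118779173) (nat_lit 217) (nat_lit 5) (nat_lit 224) (nat_lit 5) (nat_lit 225) (nat_lit 5) (nat_lit 494) (nat_lit 435) (nat_lit 211))) (XT.nd (nat_lit 78) (nat_lit 532) (nat_lit 0) (XT.lf (nat_lit 0) (nat_lit 3626192492) (nat_lit 684) (nat_lit 12767840074) (nat_lit 76) (nat_lit 7224072057) (nat_lit 208) (nat_lit 5) (nat_lit 217) (nat_lit 5) (nat_lit 209) (nat_lit 5) (nat_lit 495) (nat_lit 435) (nat_lit 210))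 (XT.nd (nat_lit 78) (nat_lit 532) (nat_lit 0) (XT.lf (nat_lit 0) (nat_lit 7463622521) (nat_lit 684) (nat_lit 128547184) (nat_lit 76) (nat_lit 16312260993) (nat_lit 208) (nat_lit 5) (nat_lit 217) (nat_lit 5) (nat_lit 209) (nat_lit 5) (nat_lit 496) (nat_lit 435) (nat_lit 209)) (XT.lf (nat_lit 0) (nat_lit 11467017318) (nat_lit 608) (nat_lit 11276810290) (nat_lit 76) (nat_lit 1450872712) (nat_lit 201) (nat_lit 5) (nat_lit 209) (nat_lit 5) (nat_lit 202) (nat_lit 5) (nat_lit 497) (nat_lit 435) (nat_lit 208)))))) (XT.nd (nat_lit 54756) (nat_lit 0) (nat_lit 17404) (XT.nd (nat_lit 54522) (nat_lit 0) (nat_lit 17328) (XT.nd (nat_lit 78) (nat_lit 0) (nat_lit 0) (XT.lf (nat_lit 0) (nat_lit 1702792343) (nat_lit 532) (nat_lit 13905667776) (nat_lit 608) (nat_lit 8881156935) (nat_lit 194) (nat_lit 5) (nat_lit 201) (nat_lit 5) (nat_lit 202) (nat_lit 5) (nat_lit 498) (nat_lit 435) (nat_lit 207)) (XT.lf (nat_lit 0) (nat_lit 15089387816)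 (nat_lit 532) (nat_lit 4814841504) (nat_lit 608) (nat_lit 4884774149) (nat_lit 194) (nat_lit 5) (nat_lit 201) (nat_lit 5) (nat_lit 202) (nat_lit 5) (nat_lit 499) (nat_lit 435) (nat_lit 206))) (XT.nd (nat_lit 78) (nat_lit 0) (nat_lit 0) (XT.lf (nat_lit 0) (nat_lit 1877296302) (nat_lit 1748) (nat_lit 2222221249) (nat_lit 1748) (nat_lit 2222221249) (nat_lit 422) (nat_lit 3) (nat_lit 445) (nat_lit 3) (nat_lit 445) (nat_lit 5) (nat_lit 436) (nat_lit 436) (nat_lit 268)) (XT.nd (nat_lit 78) (nat_lit 0) (nat_lit 76) (XT.lf (nat_lit 76) (nat_lit 1571134598) (nat_lit 0) (nat_lit 2646768249) (nat_lit 1748) (nat_lit 8543311611) (nat_lit 423) (nat_lit 5) (nat_lit 422) (nat_lit 3) (nat_lit 445) (nat_lit 5) (nat_lit 437) (nat_lit 436) (nat_lit 267)) (XT.lf (nat_lit 0) (nat_lit 4729184215) (nat_lit 1672) (nat_lit 5139117107) (nat_lit 1748) (nat_lit 3012235426) (nat_lit 423) (nat_lit 5) (nat_lit 445) (nat_lit 5) (nat_lit 446) (nat_lit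 5) (nat_lit 438) (nat_lit 436) (nat_lit 266))))) (XT.nd (nat_lit 234) (nat_lit 0) (nat_lit 76) (XT.nd (nat_lit 78) (nat_lit 0) (nat_lit 76) (XT.lf (nat_lit 76) (nat_lit 1022975248) (nat_lit 0) (nat_lit 4241197289) (nat_lit 1748) (nat_lit 7737808015) (nat_lit 424) (nat_lit 5) (nat_lit 423) (nat_lit 5) (nat_lit 446) (nat_lit 5) (nat_lit 439) (nat_lit 436) (nat_lit 265)) (XT.nd (nat_lit 78) (nat_lit 0) (nat_lit 0) (XT.lf (nat_lit 0) (nat_lit 5843818671) (nat_lit 1672) (nat_lit 5763135108) (nat_lit 1748) (nat_lit 1518224895) (nat_lit 424) (nat_lit 5) (nat_lit 446) (nat_lit 5) (nat_lit 447) (nat_lit 5) (nat_lit 440) (nat_lit 436) (nat_lit 264)) (XT.lf (nat_lit 76) (nat_lit 550314103) (nat_lit 0) (nat_lit 5906124182) (nat_lit 1748) (nat_lit 6793979378) (nat_lit 425) (nat_lit 5) (nat_lit 424) (nat_lit 5) (nat_lit 447) (nat_lit 5) (nat_lit 441) (nat_lit 436) (nat_lit 263)))) (XT.nd (nat_lit 78) (nat_lit 0) (nat_lit 76) (XT.lf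 (nat_lit 76) (nat_lit 7062323265) (nat_lit 0) (nat_lit 47544565) (nat_lit 1748) (nat_lit 6267726877) (nat_lit 425) (nat_lit 5) (nat_lit 424) (nat_lit 5) (nat_lit 447) (nat_lit 5) (nat_lit 442) (nat_lit 436) (nat_lit 262)) (XT.nd (nat_lit 78) (nat_lit 0) (nat_lit 0) (XT.lf (nat_lit 76) (nat_lit 154852874) (nat_lit 0) (nat_lit 7651117857) (nat_lit 1748) (nat_lit 5700756805) (nat_lit 426) (nat_lit 5) (nat_lit 425) (nat_lit 5) (nat_lit 448) (nat_lit 5) (nat_lit 443) (nat_lit 436) (nat_lit 261)) (XT.lf (nat_lit 76) (nat_lit 6833759395) (nat_lit 0) (nat_lit 1715192973) (nat_lit 1748) (nat_lit 5088835773) (nat_lit 426) (nat_lit 5) (nat_lit 425) (nat_lit 5) (nat_lit 448) (nat_lit 5) (nat_lit 444) (nat_lit 436) (nat_lit 260))))))) (XT.nd (nat_lit 858) (nat_lit 3420) (nat_lit 0) (XT.nd (nat_lit 390) (nat_lit 1596) (nat_lit 0) (XT.nd (nat_lit 156) (nat_lit 0) (nat_lit 76) (XT.nd (nat_lit 78) (nat_lit 0) (nat_lit 0) (XT.lf (nat_lit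 0) (nat_lit 9325448569) (nat_lit 1672) (nat_lit 159410512) (nat_lit 1748) (nat_lit 4286241949) (nat_lit 426) (nat_lit 5) (nat_lit 448) (nat_lit 5) (nat_lit 449) (nat_lit 5) (nat_lit 445) (nat_lit 436) (nat_lit 259)) (XT.lf (nat_lit 76) (nat_lit 6688570836) (nat_lit 0) (nat_lit 3474356390) (nat_lit 1748) (nat_lit 3743247988) (nat_lit 427) (nat_lit 5) (nat_lit 426) (nat_lit 5) (nat_lit 449) (nat_lit 5) (nat_lit 446) (nat_lit 436) (nat_lit 258))) (XT.nd (nat_lit 78) (nat_lit 0) (nat_lit 0) (XT.lf (nat_lit 0) (nat_lit 11026312744) (nat_lit 1672) (nat_lit 391573559) (nat_lit 1748) (nat_lit 2625885442) (nat_lit 427) (nat_lit 5) (nat_lit 449) (nat_lit 5) (nat_lit 450) (nat_lit 5) (nat_lit 447) (nat_lit 436) (nat_lit 257)) (XT.nd (nat_lit 78) (nat_lit 0) (nat_lit 76) (XT.lf (nat_lit 76) (nat_lit 6628965021) (nat_lit 0) (nat_lit 5335062951) (nat_lit 1748) (nat_lit 2218954925) (nat_lit 428) (nat_lit 5) (nat_lit 427) (nat_lit 5)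 (nat_lit 450) (nat_lit 5) (nat_lit 448) (nat_lit 436) (nat_lit 256)) (XT.lf (nat_lit 0) (nat_lit 12919957766) (nat_lit 1672) (nat_lit 541470474) (nat_lit 1748) (nat_lit 863564679) (nat_lit 428) (nat_lit 5) (nat_lit 450) (nat_lit 5) (nat_lit 451) (nat_lit 5) (nat_lit 449) (nat_lit 436) (nat_lit 255))))) (XT.nd (nat_lit 234) (nat_lit 0) (nat_lit 76) (XT.nd (nat_lit 78) (nat_lit 1748) (nat_lit 0) (XT.lf (nat_lit 76) (nat_lit 6657323247) (nat_lit 0) (nat_lit 7307581702) (nat_lit 1748) (nat_lit 503543994) (nat_lit 429) (nat_lit 5) (nat_lit 428) (nat_lit 5) (nat_lit 451) (nat_lit 5) (nat_lit 450) (nat_lit 436) (nat_lit 254)) (XT.nd (nat_lit 78) (nat_lit 0) (nat_lit 76) (XT.lf (nat_lit 0) (nat_lit 405593502) (nat_lit 1748) (nat_lit 616057089) (nat_lit 1824) (nat_lit 13593171668) (nat_lit 405) (nat_lit 5) (nat_lit 428) (nat_lit 5) (nat_lit 429) (nat_lit 5) (nat_lit 451) (nat_lit 436) (nat_lit 253)) (XT.lf (nat_lit 0) (nat_lit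 1397255189) (nat_lit 1748) (nat_lit 7995816693) (nat_lit 1824) (nat_lit 5369566473) (nat_lit 406) (nat_lit 5) (nat_lit 429) (nat_lit 5) (nat_lit 430) (nat_lit 5) (nat_lit 452) (nat_lit 436) (nat_lit 252)))) (XT.nd (nat_lit 78) (nat_lit 0) (nat_lit 76) (XT.lf (nat_lit 0) (nat_lit 2411402492) (nat_lit 1748) (nat_lit 620502774) (nat_lit 1824) (nat_lit 11881455948) (nat_lit 406) (nat_lit 5) (nat_lit 429) (nat_lit 5) (nat_lit 430) (nat_lit 5) (nat_lit 453) (nat_lit 436) (nat_lit 251)) (XT.nd (nat_lit 78) (nat_lit 0) (nat_lit 0) (XT.lf (nat_lit 0) (nat_lit 3505846903) (nat_lit 1748) (nat_lit 8101117518) (nat_lit 1824) (nat_lit 3458937249) (nat_lit 407) (nat_lit 5) (nat_lit 430) (nat_lit 5) (nat_lit 431) (nat_lit 5) (nat_lit 454) (nat_lit 436) (nat_lit 250)) (XT.lf (nat_lit 0) (nat_lit 4638471754) (nat_lit 1748) (nat_lit 537436269) (nat_lit 1824) (nat_lit 10045262433) (nat_lit 407) (nat_lit 5) (nat_lit 430) (nat_lit 5) (nat_lit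 431) (nat_lit 5) (nat_lit 455) (nat_lit 436) (nat_lit 249)))))) (XT.nd (nat_lit 390) (nat_lit 3648) (nat_lit 0) (XT.nd (nat_lit 156) (nat_lit 0) (nat_lit 0) (XT.nd (nat_lit 78) (nat_lit 0) (nat_lit 0) (XT.lf (nat_lit 0) (nat_lit 5842416618) (nat_lit 1748) (nat_lit 8121233305) (nat_lit 1824) (nat_lit 1414924634) (nat_lit 408) (nat_lit 5) (nat_lit 431) (nat_lit 5) (nat_lit 432) (nat_lit 5) (nat_lit 456) (nat_lit 436) (nat_lit 248)) (XT.lf (nat_lit 0) (nat_lit 7100652132) (nat_lit 1748) (nat_lit 364174337) (nat_lit 1824) (nat_lit 8073699259) (nat_lit 408) (nat_lit 5) (nat_lit 431) (nat_lit 5) (nat_lit 432) (nat_lit 5) (nat_lit 457) (nat_lit 436) (nat_lit 247))) (XT.nd (nat_lit 78) (nat_lit 0) (nat_lit 76) (XT.lf (nat_lit 76) (nat_lit 7642257626) (nat_lit 0) (nat_lit 783868094) (nat_lit 1824) (nat_lit 7274711897) (nat_lit 409) (nat_lit 5) (nat_lit 408) (nat_lit 5) (nat_lit 432) (nat_lit 5) (nat_lit 458) (nat_lit 436) (nat_lit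 246)) (XT.nd (nat_lit 78) (nat_lit 0) (nat_lit 0) (XT.lf (nat_lit 0) (nat_lit 9812297745) (nat_lit 1748) (nat_lit 97883428) (nat_lit 1824) (nat_lit 5955533889) (nat_lit 409) (nat_lit 5) (nat_lit 432) (nat_lit 5) (nat_lit 433) (nat_lit 5) (nat_lit 459) (nat_lit 436) (nat_lit 245)) (XT.lf (nat_lit 76) (nat_lit 8117295957) (nat_lit 0) (nat_lit 3159510529) (nat_lit 1824) (nat_lit 4756074343) (nat_lit 410) (nat_lit 5) (nat_lit 409) (nat_lit 5) (nat_lit 433) (nat_lit 5) (nat_lit 460) (nat_lit 436) (nat_lit 244))))) (XT.nd (nat_lit 234) (nat_lit 988) (nat_lit 0) (XT.nd (nat_lit 78) (nat_lit 1064) (nat_lit 0) (XT.lf (nat_lit 0) (nat_lit 267931153) (nat_lit 1748) (nat_lit 12522099014) (nat_lit 1824) (nat_lit 3412974227) (nat_lit 387) (nat_lit 5) (nat_lit 410) (nat_lit 5) (nat_lit 411) (nat_lit 5) (nat_lit 461) (nat_lit 436) (nat_lit 243)) (XT.nd (nat_lit 78) (nat_lit 1064) (nat_lit 0) (XT.lf (nat_lit 0) (nat_lit 8695138921) (nat_lit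 1748) (nat_lit 5705215709) (nat_lit 1824) (nat_lit 1974841994) (nat_lit 387) (nat_lit 5) (nat_lit 410) (nat_lit 5) (nat_lit 411) (nat_lit 5) (nat_lit 462) (nat_lit 436) (nat_lit 242)) (XT.lf (nat_lit 0) (nat_lit 735498364) (nat_lit 1064) (nat_lit 15313342658) (nat_lit 1140) (nat_lit 501875432) (nat_lit 373) (nat_lit 5) (nat_lit 387) (nat_lit 5) (nat_lit 388) (nat_lit 5) (nat_lit 463) (nat_lit 436) (nat_lit 241)))) (XT.nd (nat_lit 78) (nat_lit 912) (nat_lit 0) (XT.lf (nat_lit 0) (nat_lit 1070215100) (nat_lit 1140) (nat_lit 7356022659) (nat_lit 76) (nat_lit 8301726005) (nat_lit 372) (nat_lit 5) (nat_lit 387) (nat_lit 5) (nat_lit 373) (nat_lit 5) (nat_lit 464) (nat_lit 436) (nat_lit 240)) (XT.nd (nat_lit 78) (nat_lit 0) (nat_lit 0) (XT.lf (nat_lit 0) (nat_lit 1279781235) (nat_lit 912) (nat_lit 1388821975) (nat_lit 988) (nat_lit 14240057643) (nat_lit 360) (nat_lit 5) (nat_lit 372) (nat_lit 5) (nat_lit 373) (nat_lit 5) (nat_lit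 465) (nat_lit 436) (nat_lit 239)) (XT.lf (nat_lit 0) (nat_lit 4379594865) (nat_lit 988) (nat_lit 6948022157) (nat_lit 76) (nat_lit 5763744792) (nat_lit 360) (nat_lit 5) (nat_lit 373) (nat_lit 5) (nat_lit 361) (nat_lit 5) (nat_lit 466) (nat_lit 436) (nat_lit 238))))))))
noncomputable def xc220 : XT := (XT.nd (nat_lit 1638) (nat_lit 3648) (nat_lit 0) (XT.nd (nat_lit 780) (nat_lit 4256) (nat_lit 0) (XT.nd (nat_lit 390) (nat_lit 1672) (nat_lit 0) (XT.nd (nat_lit 156) (nat_lit 1672) (nat_lit 0) (XT.nd (nat_lit 78) (nat_lit 0) (nat_lit 0) (XT.lf (nat_lit 0) (nat_lit 1916372442) (nat_lit 836) (nat_lit 4223561847) (nat_lit 912) (nat_lit 11137482539) (nat_lit 349) (nat_lit 5) (nat_lit 360) (nat_lit 5) (nat_lit 361) (nat_lit 5) (nat_lit 467) (nat_lit 436) (nat_lit 237)) (XT.lf (nat_lit 0) (nat_lit 7995618582) (nat_lit 912) (nat_lit 6440066978) (nat_lit 76) (nat_lit 3030307162) (nat_lit 349) (nat_lit 5) (nat_lit 361) (nat_lit 5)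 (nat_lit 350) (nat_lit 5) (nat_lit 468) (nat_lit 436) (nat_lit 236))) (XT.nd (nat_lit 78) (nat_lit 836) (nat_lit 0) (XT.lf (nat_lit 0) (nat_lit 2660258545) (nat_lit 836) (nat_lit 7267106532) (nat_lit 912) (nat_lit 7730198579) (nat_lit 338) (nat_lit 5) (nat_lit 349) (nat_lit 5) (nat_lit 350) (nat_lit 5) (nat_lit 469) (nat_lit 436) (nat_lit 235)) (XT.nd (nat_lit 78) (nat_lit 836) (nat_lit 0) (XT.lf (nat_lit 0) (nat_lit 11935332301) (nat_lit 912) (nat_lit 5828871152) (nat_lit 76) (nat_lit 88013283) (nat_lit 338) (nat_lit 5) (nat_lit 350) (nat_lit 5) (nat_lit 339) (nat_lit 5) (nat_lit 470) (nat_lit 436) (nat_lit 234)) (XT.lf (nat_lit 0) (nat_lit 3514943787) (nat_lit 836) (nat_lit 10533376883) (nat_lit 912) (nat_lit 4001147367) (nat_lit 327) (nat_lit 5) (nat_lit 338) (nat_lit 5) (nat_lit 339) (nat_lit 5) (nat_lit 471) (nat_lit 436) (nat_lit 233))))) (XT.nd (nat_lit 156) (nat_lit 760) (nat_lit 0) (XT.nd (nat_lit 78) (nat_lit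 912) (nat_lit 0) (XT.lf (nat_lit 0) (nat_lit 13118725835) (nat_lit 836) (nat_lit 3117952580) (nat_lit 912) (nat_lit 2013326105) (nat_lit 327) (nat_lit 5) (nat_lit 338) (nat_lit 5) (nat_lit 339) (nat_lit 5) (nat_lit 472) (nat_lit 436) (nat_lit 232)) (XT.lf (nat_lit 0) (nat_lit 66498854) (nat_lit 912) (nat_lit 13969899296) (nat_lit 76) (nat_lit 4417105305) (nat_lit 315) (nat_lit 5) (nat_lit 327) (nat_lit 5) (nat_lit 316) (nat_lit 5) (nat_lit 473) (nat_lit 436) (nat_lit 231))) (XT.nd (nat_lit 78) (nat_lit 760) (nat_lit 0) (XT.lf (nat_lit 0) (nat_lit 2210446993) (nat_lit 912) (nat_lit 4340219755) (nat_lit 76) (nat_lit 12109151971) (nat_lit 315) (nat_lit 5) (nat_lit 327) (nat_lit 5) (nat_lit 316) (nat_lit 5) (nat_lit 474) (nat_lit 436) (nat_lit 230)) (XT.nd (nat_lit 78) (nat_lit 0) (nat_lit 0) (XT.lf (nat_lit 0) (nat_lit 4434847031) (nat_lit 836) (nat_lit 13327957884) (nat_lit 76) (nat_lit 1106706083) (nat_lit 305) (nat_lit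 5) (nat_lit 316) (nat_lit 5) (nat_lit 306) (nat_lit 5) (nat_lit 475) (nat_lit 436) (nat_lit 229)) (XT.lf (nat_lit 0) (nat_lit 6770773089) (nat_lit 836) (nat_lit 3452520572) (nat_lit 76) (nat_lit 8858764828) (nat_lit 305) (nat_lit 5) (nat_lit 316) (nat_lit 5) (nat_lit 306) (nat_lit 5) (nat_lit 476) (nat_lit 436) (nat_lit 228)))))) (XT.nd (nat_lit 390) (nat_lit 2052) (nat_lit 0) (XT.nd (nat_lit 156) (nat_lit 1444) (nat_lit 0) (XT.nd (nat_lit 78) (nat_lit 0) (nat_lit 0) (XT.lf (nat_lit 0) (nat_lit 6702521004) (nat_lit 760) (nat_lit 2488862974) (nat_lit 836) (nat_lit 10106715713) (nat_lit 295) (nat_lit 5) (nat_lit 305) (nat_lit 5) (nat_lit 306) (nat_lit 5) (nat_lit 477) (nat_lit 436) (nat_lit 227)) (XT.lf (nat_lit 0) (nat_lit 11713309370) (nat_lit 836) (nat_lit 2451631364) (nat_lit 76) (nat_lit 5352464979) (nat_lit 295) (nat_lit 5) (nat_lit 306) (nat_lit 5) (nat_lit 296) (nat_lit 5) (nat_lit 478) (nat_lit 436) (nat_lit 226)))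 (XT.nd (nat_lit 78) (nat_lit 760) (nat_lit 0) (XT.lf (nat_lit 0) (nat_lit 7977574224) (nat_lit 684) (nat_lit 6371003341) (nat_lit 760) (nat_lit 5391264211) (nat_lit 286) (nat_lit 5) (nat_lit 295) (nat_lit 5) (nat_lit 296) (nat_lit 5) (nat_lit 479) (nat_lit 436) (nat_lit 225)) (XT.nd (nat_lit 78) (nat_lit 760) (nat_lit 0) (XT.lf (nat_lit 0) (nat_lit 17058054015) (nat_lit 760) (nat_lit 1333993618) (nat_lit 76) (nat_lit 1574250834) (nat_lit 286) (nat_lit 5) (nat_lit 296) (nat_lit 5) (nat_lit 287) (nat_lit 5) (nat_lit 480) (nat_lit 436) (nat_lit 224)) (XT.lf (nat_lit 0) (nat_lit 9377928432) (nat_lit 760) (nat_lit 10541666958) (nat_lit 836) (nat_lit 275733321) (nat_lit 276) (nat_lit 5) (nat_lit 286) (nat_lit 5) (nat_lit 287) (nat_lit 5) (nat_lit 481) (nat_lit 436) (nat_lit 223))))) (XT.nd (nat_lit 234) (nat_lit 608) (nat_lit 0) (XT.nd (nat_lit 78) (nat_lit 1368) (nat_lit 0) (XT.lf (nat_lit 0) (nat_lit 2381663888) (nat_lit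 836) (nat_lit 128043362) (nat_lit 76) (nat_lit 17918844569) (nat_lit 275) (nat_lit 5) (nat_lit 286) (nat_lit 5) (nat_lit 276) (nat_lit 5) (nat_lit 482) (nat_lit 436) (nat_lit 222)) (XT.nd (nat_lit 78) (nat_lit 684) (nat_lit 0) (XT.lf (nat_lit 0) (nat_lit 5191661125) (nat_lit 760) (nat_lit 9791731906) (nat_lit 76) (nat_lit 5680948839) (nat_lit 266) (nat_lit 5) (nat_lit 276) (nat_lit 5) (nat_lit 267) (nat_lit 5) (nat_lit 483) (nat_lit 436) (nat_lit 221)) (XT.lf (nat_lit 0) (nat_lit 1183375607) (nat_lit 684) (nat_lit 6894637071) (nat_lit 760) (nat_lit 12826433738) (nat_lit 257) (nat_lit 5) (nat_lit 266) (nat_lit 5) (nat_lit 267) (nat_lit 5) (nat_lit 484) (nat_lit 436) (nat_lit 220)))) (XT.nd (nat_lit 78) (nat_lit 608) (nat_lit 0) (XT.lf (nat_lit 0) (nat_lit 11092080005) (nat_lit 760) (nat_lit 8652321126) (nat_lit 76) (nat_lit 1403553889) (nat_lit 257) (nat_lit 5) (nat_lit 267) (nat_lit 5) (nat_lit 258) (nat_lit 5) (nat_lit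 485) (nat_lit 436) (nat_lit 219)) (XT.nd (nat_lit 78) (nat_lit 0) (nat_lit 0) (XT.lf (nat_lit 0) (nat_lit 2620871323) (nat_lit 608) (nat_lit 11603373401) (nat_lit 684) (nat_lit 7170934465) (nat_lit 249) (nat_lit 5) (nat_lit 257) (nat_lit 5) (nat_lit 258) (nat_lit 5) (nat_lit 486) (nat_lit 436) (nat_lit 218)) (XT.lf (nat_lit 0) (nat_lit 14231203677) (nat_lit 608) (nat_lit 3241109334) (nat_lit 684) (nat_lit 4173971300) (nat_lit 249) (nat_lit 5) (nat_lit 257) (nat_lit 5) (nat_lit 258) (nat_lit 5) (nat_lit 487) (nat_lit 436) (nat_lit 217))))))) (XT.nd (nat_lit 780) (nat_lit 0) (nat_lit 0) (XT.nd (nat_lit 390) (nat_lit 1748) (nat_lit 0) (XT.nd (nat_lit 156) (nat_lit 1216) (nat_lit 0) (XT.nd (nat_lit 78) (nat_lit 76) (nat_lit 0) (XT.lf (nat_lit 0) (nat_lit 4186310438) (nat_lit 608) (nat_lit 16655835985) (nat_lit 684) (nat_lit 1059130683) (nat_lit 241) (nat_lit 5) (nat_lit 249) (nat_lit 5) (nat_lit 250) (nat_lit 5) (nat_lit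 488) (nat_lit 436) (nat_lit 216)) (XT.lf (nat_lit 0) (nat_lit 2157093208) (nat_lit 684) (nat_lit 6081293440) (nat_lit 76) (nat_lit 13921372368) (nat_lit 240) (nat_lit 5) (nat_lit 249) (nat_lit 5) (nat_lit 241) (nat_lit 5) (nat_lit 489) (nat_lit 436) (nat_lit 215))) (XT.nd (nat_lit 78) (nat_lit 608) (nat_lit 0) (XT.lf (nat_lit 0) (nat_lit 5459401449) (nat_lit 684) (nat_lit 16575904939) (nat_lit 76) (nat_lit 387246876) (nat_lit 232) (nat_lit 5) (nat_lit 241) (nat_lit 5) (nat_lit 233) (nat_lit 5) (nat_lit 490) (nat_lit 436) (nat_lit 214)) (XT.nd (nat_lit 78) (nat_lit 608) (nat_lit 0) (XT.lf (nat_lit 0) (nat_lit 8918845738) (nat_lit 684) (nat_lit 4654590090) (nat_lit 76) (nat_lit 9115347291) (nat_lit 232) (nat_lit 5) (nat_lit 241) (nat_lit 5) (nat_lit 233) (nat_lit 5) (nat_lit 491) (nat_lit 436) (nat_lit 213)) (XT.lf (nat_lit 0) (nat_lit 7599370899) (nat_lit 608) (nat_lit 4892989439) (nat_lit 684) (nat_lit 10467081093) (nat_lit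 224) (nat_lit 5) (nat_lit 232) (nat_lit 5) (nat_lit 233) (nat_lit 5) (nat_lit 492) (nat_lit 436) (nat_lit 212))))) (XT.nd (nat_lit 156) (nat_lit 1216) (nat_lit 0) (XT.nd (nat_lit 78) (nat_lit 532) (nat_lit 0) (XT.lf (nat_lit 0) (nat_lit 16190091736) (nat_lit 684) (nat_lit 3104802131) (nat_lit 76) (nat_lit 3939565573) (nat_lit 224) (nat_lit 5) (nat_lit 233) (nat_lit 5) (nat_lit 225) (nat_lit 5) (nat_lit 493) (nat_lit 436) (nat_lit 211)) (XT.lf (nat_lit 0) (nat_lit 9482140954) (nat_lit 532) (nat_lit 10569278624) (nat_lit 608) (nat_lit 3461766826) (nat_lit 217) (nat_lit 5) (nat_lit 224) (nat_lit 5) (nat_lit 225) (nat_lit 5) (nat_lit 494) (nat_lit 436) (nat_lit 210))) (XT.nd (nat_lit 78) (nat_lit 1140) (nat_lit 0) (XT.lf (nat_lit 0) (nat_lit 206628363) (nat_lit 608) (nat_lit 1440959549) (nat_lit 76) (nat_lit 22149543039) (nat_lit 216) (nat_lit 5) (nat_lit 224) (nat_lit 5) (nat_lit 217) (nat_lit 5) (nat_lit 495) (nat_lit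 436) (nat_lit 209)) (XT.nd (nat_lit 78) (nat_lit 532) (nat_lit 0) (XT.lf (nat_lit 0) (nat_lit 4021707602) (nat_lit 684) (nat_lit 12610076572) (nat_lit 76) (nat_lit 7452120537) (nat_lit 208) (nat_lit 5) (nat_lit 217) (nat_lit 5) (nat_lit 209) (nat_lit 5) (nat_lit 496) (nat_lit 436) (nat_lit 208)) (XT.lf (nat_lit 0) (nat_lit 277541787) (nat_lit 532) (nat_lit 7653813267) (nat_lit 608) (nat_lit 16444694880) (nat_lit 201) (nat_lit 5) (nat_lit 208) (nat_lit 5) (nat_lit 209) (nat_lit 5) (nat_lit 497) (nat_lit 436) (nat_lit 207)))))) (XT.nd (nat_lit 54912) (nat_lit 0) (nat_lit 16948) (XT.nd (nat_lit 54678) (nat_lit 0) (nat_lit 16796) (XT.nd (nat_lit 54600) (nat_lit 0) (nat_lit 16796) (XT.lf (nat_lit 0) (nat_lit 12009998892) (nat_lit 608) (nat_lit 11094211509) (nat_lit 76) (nat_lit 1568012889) (nat_lit 201) (nat_lit 5) (nat_lit 209) (nat_lit 5) (nat_lit 202) (nat_lit 5) (nat_lit 498) (nat_lit 436) (nat_lit 206)) (XT.lf (nat_lit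 0) (nat_lit 2327707584) (nat_lit 1748) (nat_lit 2056013620) (nat_lit 1748) (nat_lit 2056013620) (nat_lit 422) (nat_lit 3) (nat_lit 445) (nat_lit 3) (nat_lit 445) (nat_lit 5) (nat_lit 437) (nat_lit 437) (nat_lit 266))) (XT.nd (nat_lit 78) (nat_lit 0) (nat_lit 76) (XT.lf (nat_lit 76) (nat_lit 2021089661) (nat_lit 0) (nat_lit 3093428547) (nat_lit 1748) (nat_lit 7885319619) (nat_lit 423) (nat_lit 5) (nat_lit 422) (nat_lit 3) (nat_lit 445) (nat_lit 5) (nat_lit 438) (nat_lit 437) (nat_lit 265)) (XT.nd (nat_lit 78) (nat_lit 0) (nat_lit 0) (XT.lf (nat_lit 0) (nat_lit 5617592390) (nat_lit 1672) (nat_lit 4812791983) (nat_lit 1748) (nat_lit 2691537821) (nat_lit 423) (nat_lit 5) (nat_lit 445) (nat_lit 5) (nat_lit 446) (nat_lit 5) (nat_lit 439) (nat_lit 437) (nat_lit 264)) (XT.lf (nat_lit 76) (nat_lit 1469719143) (nat_lit 0) (nat_lit 4680763870) (nat_lit 1748) (nat_lit 7095574650) (nat_lit 424) (nat_lit 5) (nat_lit 423) (nat_lit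 5) (nat_lit 446) (nat_lit 5) (nat_lit 440) (nat_lit 437) (nat_lit 263))))) (XT.nd (nat_lit 234) (nat_lit 0) (nat_lit 76) (XT.nd (nat_lit 78) (nat_lit 0) (nat_lit 0) (XT.lf (nat_lit 0) (nat_lit 6724149752) (nat_lit 1672) (nat_lit 5442564365) (nat_lit 1748) (nat_lit 1205363783) (nat_lit 424) (nat_lit 5) (nat_lit 446) (nat_lit 5) (nat_lit 447) (nat_lit 5) (nat_lit 441) (nat_lit 437) (nat_lit 262)) (XT.nd (nat_lit 78) (nat_lit 0) (nat_lit 0) (XT.lf (nat_lit 76) (nat_lit 994286506) (nat_lit 0) (nat_lit 6342576656) (nat_lit 1748) (nat_lit 6163208253) (nat_lit 425) (nat_lit 5) (nat_lit 424) (nat_lit 5) (nat_lit 447) (nat_lit 5) (nat_lit 442) (nat_lit 437) (nat_lit 261)) (XT.lf (nat_lit 76) (nat_lit 7628046318) (nat_lit 0) (nat_lit 360583682) (nat_lit 1748) (nat_lit 5641463069) (nat_lit 425) (nat_lit 5) (nat_lit 424) (nat_lit 5) (nat_lit 447) (nat_lit 5) (nat_lit 443) (nat_lit 437) (nat_lit 260)))) (XT.nd (nat_lit 78) (nat_lit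 0) (nat_lit 0) (XT.lf (nat_lit 76) (nat_lit 596601359) (nat_lit 0) (nat_lit 8088472616) (nat_lit 1748) (nat_lit 5077012517) (nat_lit 426) (nat_lit 5) (nat_lit 425) (nat_lit 5) (nat_lit 448) (nat_lit 5) (nat_lit 444) (nat_lit 437) (nat_lit 259)) (XT.nd (nat_lit 78) (nat_lit 0) (nat_lit 76) (XT.lf (nat_lit 76) (nat_lit 7400485002) (nat_lit 0) (nat_lit 2028254089) (nat_lit 1748) (nat_lit 4467318936) (nat_lit 426) (nat_lit 5) (nat_lit 425) (nat_lit 5) (nat_lit 448) (nat_lit 5) (nat_lit 445) (nat_lit 437) (nat_lit 258)) (XT.lf (nat_lit 76) (nat_lit 278650110) (nat_lit 0) (nat_lit 9928251708) (nat_lit 1748) (nat_lit 3825418696) (nat_lit 427) (nat_lit 5) (nat_lit 426) (nat_lit 5) (nat_lit 449) (nat_lit 5) (nat_lit 446) (nat_lit 437) (nat_lit 257))))))))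
noncomputable def xc221 : XT := (XT.nd (nat_lit 1638) (nat_lit 9044) (nat_lit 0) (XT.nd (nat_lit 780) (nat_lit 3420) (nat_lit 0) (XT.nd (nat_lit 390) (nat_lit 0) (nat_lit 0) (XT.nd (nat_lit 156) (nat_lit 1596) (nat_lit 0) (XT.nd (nat_lit 78) (nat_lit 0) (nat_lit 76) (XT.lf (nat_lit 76) (nat_lit 7257057630) (nat_lit 0) (nat_lit 3791494814) (nat_lit 1748) (nat_lit 3121801245) (nat_lit 427) (nat_lit 5) (nat_lit 426) (nat_lit 5) (nat_lit 449) (nat_lit 5) (nat_lit 447) (nat_lit 437) (nat_lit 256)) (XT.lf (nat_lit 76) (nat_lit 42593118) (nat_lit 0) (nat_lit 11871932969) (nat_lit 1748) (nat_lit 2396475492) (nat_lit 428) (nat_lit 5) (nat_lit 427) (nat_lit 5) (nat_lit 450) (nat_lit 5) (nat_lit 448) (nat_lit 437) (nat_lit 255))) (XT.nd (nat_lit 78) (nat_lit 1672) (nat_lit 0) (XT.lf (nat_lit 76) (nat_lit 7200079647) (nat_lit 0) (nat_lit 5660400212) (nat_lit 1748) (nat_lit 1592733133) (nat_lit 428) (nat_lit 5) (nat_lit 427) (nat_lit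 5) (nat_lit 450) (nat_lit 5) (nat_lit 449) (nat_lit 437) (nat_lit 254)) (XT.nd (nat_lit 78) (nat_lit 1748) (nat_lit 0) (XT.lf (nat_lit 0) (nat_lit 13821250840) (nat_lit 1672) (nat_lit 107805356) (nat_lit 1748) (nat_lit 669298177) (nat_lit 428) (nat_lit 5) (nat_lit 450) (nat_lit 5) (nat_lit 451) (nat_lit 5) (nat_lit 450) (nat_lit 437) (nat_lit 253)) (XT.lf (nat_lit 0) (nat_lit 130740898) (nat_lit 1748) (nat_lit 7513699999) (nat_lit 1824) (nat_lit 7100421695) (nat_lit 405) (nat_lit 5) (nat_lit 428) (nat_lit 5) (nat_lit 429) (nat_lit 5) (nat_lit 451) (nat_lit 437) (nat_lit 252))))) (XT.nd (nat_lit 156) (nat_lit 0) (nat_lit 76) (XT.nd (nat_lit 78) (nat_lit 0) (nat_lit 76) (XT.lf (nat_lit 0) (nat_lit 1038822648) (nat_lit 1748) (nat_lit 186894424) (nat_lit 1824) (nat_lit 13668634942) (nat_lit 405) (nat_lit 5) (nat_lit 428) (nat_lit 5) (nat_lit 429) (nat_lit 5) (nat_lit 452) (nat_lit 437) (nat_lit 251)) (XT.lf (nat_lit 0) (nat_lit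 2039757880) (nat_lit 1748) (nat_lit 7703430369) (nat_lit 1824) (nat_lit 5302152559) (nat_lit 406) (nat_lit 5) (nat_lit 429) (nat_lit 5) (nat_lit 430) (nat_lit 5) (nat_lit 453) (nat_lit 437) (nat_lit 250))) (XT.nd (nat_lit 78) (nat_lit 0) (nat_lit 76) (XT.lf (nat_lit 0) (nat_lit 3062137980) (nat_lit 1748) (nat_lit 189478852) (nat_lit 1824) (nat_lit 11947707377) (nat_lit 406) (nat_lit 5) (nat_lit 429) (nat_lit 5) (nat_lit 430) (nat_lit 5) (nat_lit 454) (nat_lit 437) (nat_lit 249)) (XT.nd (nat_lit 78) (nat_lit 0) (nat_lit 0) (XT.lf (nat_lit 0) (nat_lit 4168523916) (nat_lit 1748) (nat_lit 7809509429) (nat_lit 1824) (nat_lit 3377086058) (nat_lit 407) (nat_lit 5) (nat_lit 430) (nat_lit 5) (nat_lit 431) (nat_lit 5) (nat_lit 455) (nat_lit 437) (nat_lit 248)) (XT.lf (nat_lit 0) (nat_lit 5312182440) (nat_lit 1748) (nat_lit 103449270) (nat_lit 1824) (nat_lit 10098099117) (nat_lit 407) (nat_lit 5) (nat_lit 430) (nat_lit 5) (nat_lit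 431) (nat_lit 5) (nat_lit 456) (nat_lit 437) (nat_lit 247)))))) (XT.nd (nat_lit 390) (nat_lit 3648) (nat_lit 0) (XT.nd (nat_lit 156) (nat_lit 0) (nat_lit 0) (XT.nd (nat_lit 78) (nat_lit 0) (nat_lit 0) (XT.lf (nat_lit 0) (nat_lit 6530835718) (nat_lit 1748) (nat_lit 7829312338) (nat_lit 1824) (nat_lit 1314327151) (nat_lit 408) (nat_lit 5) (nat_lit 431) (nat_lit 5) (nat_lit 432) (nat_lit 5) (nat_lit 457) (nat_lit 437) (nat_lit 246)) (XT.lf (nat_lit 76) (nat_lit 74962213) (nat_lit 0) (nat_lit 7728553164) (nat_lit 1824) (nat_lit 8034329131) (nat_lit 409) (nat_lit 5) (nat_lit 408) (nat_lit 5) (nat_lit 432) (nat_lit 5) (nat_lit 458) (nat_lit 437) (nat_lit 245))) (XT.nd (nat_lit 78) (nat_lit 0) (nat_lit 76) (XT.lf (nat_lit 76) (nat_lit 8237609168) (nat_lit 0) (nat_lit 909288090) (nat_lit 1824) (nat_lit 6856682002) (nat_lit 409) (nat_lit 5) (nat_lit 408) (nat_lit 5) (nat_lit 432) (nat_lit 5) (nat_lit 459) (nat_lit 437) (nat_lit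 244)) (XT.nd (nat_lit 78) (nat_lit 0) (nat_lit 0) (XT.lf (nat_lit 76) (nat_lit 350335995) (nat_lit 0) (nat_lit 10201204378) (nat_lit 1824) (nat_lit 5620403440) (nat_lit 410) (nat_lit 5) (nat_lit 409) (nat_lit 5) (nat_lit 433) (nat_lit 5) (nat_lit 460) (nat_lit 437) (nat_lit 243)) (XT.lf (nat_lit 76) (nat_lit 8722292787) (nat_lit 0) (nat_lit 3313043480) (nat_lit 1824) (nat_lit 4307321114) (nat_lit 410) (nat_lit 5) (nat_lit 409) (nat_lit 5) (nat_lit 433) (nat_lit 5) (nat_lit 461) (nat_lit 437) (nat_lit 242))))) (XT.nd (nat_lit 234) (nat_lit 912) (nat_lit 0) (XT.nd (nat_lit 78) (nat_lit 1140) (nat_lit 0) (XT.lf (nat_lit 0) (nat_lit 724420695) (nat_lit 1748) (nat_lit 12846306848) (nat_lit 1824) (nat_lit 2945622149) (nat_lit 387) (nat_lit 5) (nat_lit 410) (nat_lit 5) (nat_lit 411) (nat_lit 5) (nat_lit 462) (nat_lit 437) (nat_lit 241)) (XT.nd (nat_lit 78) (nat_lit 1140) (nat_lit 0) (XT.lf (nat_lit 0) (nat_lit 9311326914) (nat_lit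 1748) (nat_lit 5891639486) (nat_lit 1824) (nat_lit 1489229459) (nat_lit 387) (nat_lit 5) (nat_lit 410) (nat_lit 5) (nat_lit 411) (nat_lit 5) (nat_lit 463) (nat_lit 437) (nat_lit 240)) (XT.lf (nat_lit 0) (nat_lit 5341609) (nat_lit 1140) (nat_lit 15670932120) (nat_lit 76) (nat_lit 1195108364) (nat_lit 372) (nat_lit 5) (nat_lit 387) (nat_lit 5) (nat_lit 373) (nat_lit 5) (nat_lit 464) (nat_lit 437) (nat_lit 239)))) (XT.nd (nat_lit 78) (nat_lit 912) (nat_lit 0) (XT.lf (nat_lit 0) (nat_lit 1592149520) (nat_lit 1140) (nat_lit 7054842472) (nat_lit 76) (nat_lit 8405320104) (nat_lit 372) (nat_lit 5) (nat_lit 387) (nat_lit 5) (nat_lit 373) (nat_lit 5) (nat_lit 465) (nat_lit 437) (nat_lit 238)) (XT.nd (nat_lit 78) (nat_lit 0) (nat_lit 0) (XT.lf (nat_lit 0) (nat_lit 1750728154) (nat_lit 912) (nat_lit 1464854438) (nat_lit 988) (nat_lit 14021182920) (nat_lit 360) (nat_lit 5) (nat_lit 372) (nat_lit 5) (nat_lit 373) (nat_lit 5) (nat_lit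 466) (nat_lit 437) (nat_lit 237)) (XT.lf (nat_lit 0) (nat_lit 4950808338) (nat_lit 988) (nat_lit 6640185382) (nat_lit 76) (nat_lit 5832330338) (nat_lit 360) (nat_lit 5) (nat_lit 373) (nat_lit 5) (nat_lit 361) (nat_lit 5) (nat_lit 467) (nat_lit 437) (nat_lit 236))))))) (XT.nd (nat_lit 858) (nat_lit 4104) (nat_lit 0) (XT.nd (nat_lit 390) (nat_lit 2432) (nat_lit 0) (XT.nd (nat_lit 156) (nat_lit 1672) (nat_lit 0) (XT.nd (nat_lit 78) (nat_lit 0) (nat_lit 0) (XT.lf (nat_lit 0) (nat_lit 2398557654) (nat_lit 836) (nat_lit 4341195939) (nat_lit 912) (nat_lit 10873482372) (nat_lit 349) (nat_lit 5) (nat_lit 360) (nat_lit 5) (nat_lit 361) (nat_lit 5) (nat_lit 468) (nat_lit 437) (nat_lit 235)) (XT.lf (nat_lit 0) (nat_lit 8622987133) (nat_lit 912) (nat_lit 6123964125) (nat_lit 76) (nat_lit 3058827110) (nat_lit 349) (nat_lit 5) (nat_lit 361) (nat_lit 5) (nat_lit 350) (nat_lit 5) (nat_lit 469) (nat_lit 437) (nat_lit 234))) (XT.nd (nat_lit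 78) (nat_lit 836) (nat_lit 0) (XT.lf (nat_lit 0) (nat_lit 3155440907) (nat_lit 836) (nat_lit 7431631453) (nat_lit 912) (nat_lit 7414237914) (nat_lit 338) (nat_lit 5) (nat_lit 349) (nat_lit 5) (nat_lit 350) (nat_lit 5) (nat_lit 470) (nat_lit 437) (nat_lit 233)) (XT.nd (nat_lit 78) (nat_lit 836) (nat_lit 0) (XT.lf (nat_lit 0) (nat_lit 12626034470) (nat_lit 912) (nat_lit 5502795248) (nat_lit 76) (nat_lit 71213545) (nat_lit 338) (nat_lit 5) (nat_lit 350) (nat_lit 5) (nat_lit 339) (nat_lit 5) (nat_lit 471) (nat_lit 437) (nat_lit 232)) (XT.lf (nat_lit 0) (nat_lit 4024983796) (nat_lit 836) (nat_lit 10750291245) (nat_lit 912) (nat_lit 3626088189) (nat_lit 327) (nat_lit 5) (nat_lit 338) (nat_lit 5) (nat_lit 339) (nat_lit 5) (nat_lit 472) (nat_lit 437) (nat_lit 231))))) (XT.nd (nat_lit 234) (nat_lit 1520) (nat_lit 0) (XT.nd (nat_lit 78) (nat_lit 912) (nat_lit 0) (XT.lf (nat_lit 0) (nat_lit 13812219110) (nat_lit 836) (nat_lit 3186435968)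 (nat_lit 912) (nat_lit 1607433681) (nat_lit 327) (nat_lit 5) (nat_lit 338) (nat_lit 5) (nat_lit 339) (nat_lit 5) (nat_lit 473) (nat_lit 437) (nat_lit 230)) (XT.nd (nat_lit 78) (nat_lit 0) (nat_lit 0) (XT.lf (nat_lit 0) (nat_lit 502320856) (nat_lit 912) (nat_lit 13806179616) (nat_lit 76) (nat_lit 4505218864) (nat_lit 315) (nat_lit 5) (nat_lit 327) (nat_lit 5) (nat_lit 316) (nat_lit 5) (nat_lit 474) (nat_lit 437) (nat_lit 229)) (XT.lf (nat_lit 0) (nat_lit 2680628505) (nat_lit 912) (nat_lit 3992595066) (nat_lit 76) (nat_lit 12351110944) (nat_lit 315) (nat_lit 5) (nat_lit 327) (nat_lit 5) (nat_lit 316) (nat_lit 5) (nat_lit 475) (nat_lit 437) (nat_lit 228)))) (XT.nd (nat_lit 78) (nat_lit 760) (nat_lit 0) (XT.lf (nat_lit 0) (nat_lit 4944038572) (nat_lit 836) (nat_lit 13154452017) (nat_lit 76) (nat_lit 1139842770) (nat_lit 305) (nat_lit 5) (nat_lit 316) (nat_lit 5) (nat_lit 306) (nat_lit 5) (nat_lit 476) (nat_lit 437) (nat_lit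 227)) (XT.nd (nat_lit 78) (nat_lit 760) (nat_lit 0) (XT.lf (nat_lit 0) (nat_lit 7318438159) (nat_lit 836) (nat_lit 3090134685) (nat_lit 76) (nat_lit 9046726954) (nat_lit 305) (nat_lit 5) (nat_lit 316) (nat_lit 5) (nat_lit 306) (nat_lit 5) (nat_lit 477) (nat_lit 437) (nat_lit 226)) (XT.lf (nat_lit 0) (nat_lit 7265169327) (nat_lit 760) (nat_lit 2516991355) (nat_lit 836) (nat_lit 9893610189) (nat_lit 295) (nat_lit 5) (nat_lit 305) (nat_lit 5) (nat_lit 306) (nat_lit 5) (nat_lit 478) (nat_lit 437) (nat_lit 225)))))) (XT.nd (nat_lit 390) (nat_lit 1900) (nat_lit 0) (XT.nd (nat_lit 156) (nat_lit 1520) (nat_lit 0) (XT.nd (nat_lit 78) (nat_lit 684) (nat_lit 0) (XT.lf (nat_lit 0) (nat_lit 12346682992) (nat_lit 836) (nat_lit 2072479524) (nat_lit 76) (nat_lit 5480460308) (nat_lit 295) (nat_lit 5) (nat_lit 306) (nat_lit 5) (nat_lit 296) (nat_lit 5) (nat_lit 479) (nat_lit 437) (nat_lit 224)) (XT.lf (nat_lit 0) (nat_lit 8562493174)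 (nat_lit 684) (nat_lit 6467099509) (nat_lit 760) (nat_lit 5097019121) (nat_lit 286) (nat_lit 5) (nat_lit 295) (nat_lit 5) (nat_lit 296) (nat_lit 5) (nat_lit 480) (nat_lit 437) (nat_lit 223))) (XT.nd (nat_lit 78) (nat_lit 1520) (nat_lit 0) (XT.lf (nat_lit 0) (nat_lit 17785731705) (nat_lit 760) (nat_lit 935976531) (nat_lit 76) (nat_lit 1636042792) (nat_lit 286) (nat_lit 5) (nat_lit 296) (nat_lit 5) (nat_lit 287) (nat_lit 5) (nat_lit 481) (nat_lit 437) (nat_lit 222)) (XT.nd (nat_lit 78) (nat_lit 684) (nat_lit 0) (XT.lf (nat_lit 0) (nat_lit 106783850) (nat_lit 836) (nat_lit 10604774096) (nat_lit 76) (nat_lit 9879889475) (nat_lit 275) (nat_lit 5) (nat_lit 286) (nat_lit 5) (nat_lit 276) (nat_lit 5) (nat_lit 482) (nat_lit 437) (nat_lit 221)) (XT.lf (nat_lit 0) (nat_lit 291998062) (nat_lit 684) (nat_lit 2516002027) (nat_lit 760) (nat_lit 18021413884) (nat_lit 266) (nat_lit 5) (nat_lit 275) (nat_lit 5) (nat_lit 276) (nat_lit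 5) (nat_lit 483) (nat_lit 437) (nat_lit 220))))) (XT.nd (nat_lit 234) (nat_lit 1216) (nat_lit 0) (XT.nd (nat_lit 78) (nat_lit 684) (nat_lit 0) (XT.lf (nat_lit 0) (nat_lit 5667899128) (nat_lit 760) (nat_lit 9564259380) (nat_lit 76) (nat_lit 5837889924) (nat_lit 266) (nat_lit 5) (nat_lit 276) (nat_lit 5) (nat_lit 267) (nat_lit 5) (nat_lit 484) (nat_lit 437) (nat_lit 219)) (XT.nd (nat_lit 78) (nat_lit 0) (nat_lit 0) (XT.lf (nat_lit 0) (nat_lit 1627565367) (nat_lit 684) (nat_lit 6979840599) (nat_lit 760) (nat_lit 12707643129) (nat_lit 257) (nat_lit 5) (nat_lit 266) (nat_lit 5) (nat_lit 267) (nat_lit 5) (nat_lit 485) (nat_lit 437) (nat_lit 218)) (XT.lf (nat_lit 0) (nat_lit 11674877614) (nat_lit 760) (nat_lit 8406086761) (nat_lit 76) (nat_lit 1482603579) (nat_lit 257) (nat_lit 5) (nat_lit 267) (nat_lit 5) (nat_lit 258) (nat_lit 5) (nat_lit 486) (nat_lit 437) (nat_lit 217)))) (XT.nd (nat_lit 78) (nat_lit 608) (nat_lit 0) (XT.lf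 (nat_lit 0) (nat_lit 3089811111) (nat_lit 608) (nat_lit 11775501286) (nat_lit 684) (nat_lit 6950514164) (nat_lit 249) (nat_lit 5) (nat_lit 257) (nat_lit 5) (nat_lit 258) (nat_lit 5) (nat_lit 487) (nat_lit 437) (nat_lit 216)) (XT.nd (nat_lit 78) (nat_lit 608) (nat_lit 0) (XT.lf (nat_lit 0) (nat_lit 14924183007) (nat_lit 608) (nat_lit 3247167224) (nat_lit 684) (nat_lit 3900745833) (nat_lit 249) (nat_lit 5) (nat_lit 257) (nat_lit 5) (nat_lit 258) (nat_lit 5) (nat_lit 488) (nat_lit 437) (nat_lit 215)) (XT.lf (nat_lit 0) (nat_lit 4682393460) (nat_lit 608) (nat_lit 16922383476) (nat_lit 684) (nat_lit 727490240) (nat_lit 241) (nat_lit 5) (nat_lit 249) (nat_lit 5) (nat_lit 250) (nat_lit 5) (nat_lit 489) (nat_lit 437) (nat_lit 214))))))))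
noncomputable def xc222 : XT := (XT.nd (nat_lit 56238) (nat_lit 0) (nat_lit 10412) (XT.nd (nat_lit 55380) (nat_lit 0) (nat_lit 16796) (XT.nd (nat_lit 390) (nat_lit 1748) (nat_lit 0) (XT.nd (nat_lit 156) (nat_lit 608) (nat_lit 0) (XT.nd (nat_lit 78) (nat_lit 608) (nat_lit 0) (XT.lf (nat_lit 0) (nat_lit 2541603423) (nat_lit 684) (nat_lit 5793996247) (nat_lit 76) (nat_lit 14260412088) (nat_lit 240) (nat_lit 5) (nat_lit 249) (nat_lit 5) (nat_lit 241) (nat_lit 5) (nat_lit 490) (nat_lit 437) (nat_lit 213)) (XT.lf (nat_lit 0) (nat_lit 5906349342) (nat_lit 684) (nat_lit 16494778673) (nat_lit 76) (nat_lit 463008302) (nat_lit 232) (nat_lit 5) (nat_lit 241) (nat_lit 5) (nat_lit 233) (nat_lit 5) (nat_lit 491) (nat_lit 437) (nat_lit 212))) (XT.nd (nat_lit 78) (nat_lit 608) (nat_lit 0) (XT.lf (nat_lit 0) (nat_lit 9428359774) (nat_lit 684) (nat_lit 4343128593) (nat_lit 76) (nat_lit 9364337069) (nat_lit 232) (nat_lit 5) (nat_lit 241)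 (nat_lit 5) (nat_lit 233) (nat_lit 5) (nat_lit 492) (nat_lit 437) (nat_lit 211)) (XT.nd (nat_lit 78) (nat_lit 0) (nat_lit 0) (XT.lf (nat_lit 0) (nat_lit 8153250081) (nat_lit 608) (nat_lit 4916211048) (nat_lit 684) (nat_lit 10342515625) (nat_lit 224) (nat_lit 5) (nat_lit 232) (nat_lit 5) (nat_lit 233) (nat_lit 5) (nat_lit 493) (nat_lit 437) (nat_lit 210)) (XT.lf (nat_lit 0) (nat_lit 16835205517) (nat_lit 684) (nat_lit 2766838695) (nat_lit 76) (nat_lit 4090571870) (nat_lit 224) (nat_lit 5) (nat_lit 233) (nat_lit 5) (nat_lit 225) (nat_lit 5) (nat_lit 494) (nat_lit 437) (nat_lit 209))))) (XT.nd (nat_lit 156) (nat_lit 1140) (nat_lit 0) (XT.nd (nat_lit 78) (nat_lit 76) (nat_lit 0) (XT.lf (nat_lit 0) (nat_lit 10069211282) (nat_lit 532) (nat_lit 10700828762) (nat_lit 608) (nat_lit 3206954023) (nat_lit 217) (nat_lit 5) (nat_lit 224) (nat_lit 5) (nat_lit 225) (nat_lit 5) (nat_lit 495) (nat_lit 437) (nat_lit 208)) (XT.lf (nat_lit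 0) (nat_lit 524288567) (nat_lit 608) (nat_lit 1075877135) (nat_lit 76) (nat_lit 22666537140) (nat_lit 216) (nat_lit 5) (nat_lit 224) (nat_lit 5) (nat_lit 217) (nat_lit 5) (nat_lit 496) (nat_lit 437) (nat_lit 207))) (XT.nd (nat_lit 78) (nat_lit 532) (nat_lit 0) (XT.lf (nat_lit 0) (nat_lit 4412590869) (nat_lit 684) (nat_lit 12465199765) (nat_lit 76) (nat_lit 7681484976) (nat_lit 208) (nat_lit 5) (nat_lit 217) (nat_lit 5) (nat_lit 209) (nat_lit 5) (nat_lit 497) (nat_lit 437) (nat_lit 206)) (XT.nd (nat_lit 54678) (nat_lit 0) (nat_lit 16796) (XT.lf (nat_lit 0) (nat_lit 677558604) (nat_lit 532) (nat_lit 7719346564) (nat_lit 608) (nat_lit 16460431018) (nat_lit 201) (nat_lit 5) (nat_lit 208) (nat_lit 5) (nat_lit 209) (nat_lit 5) (nat_lit 498) (nat_lit 437) (nat_lit 205)) (XT.lf (nat_lit 0) (nat_lit 2771095027) (nat_lit 1748) (nat_lit 1894661714) (nat_lit 1748) (nat_lit 1894661714) (nat_lit 422) (nat_lit 3) (nat_lit 445) (nat_lit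 3) (nat_lit 445) (nat_lit 5) (nat_lit 438) (nat_lit 438) (nat_lit 264)))))) (XT.nd (nat_lit 390) (nat_lit 0) (nat_lit 152) (XT.nd (nat_lit 156) (nat_lit 0) (nat_lit 76) (XT.nd (nat_lit 78) (nat_lit 0) (nat_lit 76) (XT.lf (nat_lit 76) (nat_lit 2463791703) (nat_lit 0) (nat_lit 3533733233) (nat_lit 1748) (nat_lit 7246353362) (nat_lit 423) (nat_lit 5) (nat_lit 422) (nat_lit 3) (nat_lit 445) (nat_lit 5) (nat_lit 439) (nat_lit 438) (nat_lit 263)) (XT.lf (nat_lit 0) (nat_lit 6492943556) (nat_lit 1672) (nat_lit 4496603124) (nat_lit 1748) (nat_lit 2379218718) (nat_lit 423) (nat_lit 5) (nat_lit 445) (nat_lit 5) (nat_lit 446) (nat_lit 5) (nat_lit 440) (nat_lit 438) (nat_lit 262))) (XT.nd (nat_lit 78) (nat_lit 0) (nat_lit 76) (XT.lf (nat_lit 76) (nat_lit 1908844773) (nat_lit 0) (nat_lit 5115346694) (nat_lit 1748) (nat_lit 6471444692) (nat_lit 424) (nat_lit 5) (nat_lit 423) (nat_lit 5) (nat_lit 446) (nat_lit 5) (nat_lit 441) (nat_lit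 438) (nat_lit 261)) (XT.nd (nat_lit 78) (nat_lit 0) (nat_lit 0) (XT.lf (nat_lit 0) (nat_lit 7592441577) (nat_lit 1672) (nat_lit 5132506151) (nat_lit 1748) (nat_lit 899573317) (nat_lit 424) (nat_lit 5) (nat_lit 446) (nat_lit 5) (nat_lit 447) (nat_lit 5) (nat_lit 442) (nat_lit 438) (nat_lit 260)) (XT.lf (nat_lit 76) (nat_lit 1430325754) (nat_lit 0) (nat_lit 6775397038) (nat_lit 1748) (nat_lit 5549591687) (nat_lit 425) (nat_lit 5) (nat_lit 424) (nat_lit 5) (nat_lit 447) (nat_lit 5) (nat_lit 443) (nat_lit 438) (nat_lit 259))))) (XT.nd (nat_lit 234) (nat_lit 0) (nat_lit 152) (XT.nd (nat_lit 78) (nat_lit 0) (nat_lit 76) (XT.lf (nat_lit 76) (nat_lit 8188600890) (nat_lit 0) (nat_lit 667764816) (nat_lit 1748) (nat_lit 5031860241) (nat_lit 425) (nat_lit 5) (nat_lit 424) (nat_lit 5) (nat_lit 447) (nat_lit 5) (nat_lit 444) (nat_lit 438) (nat_lit 258)) (XT.nd (nat_lit 78) (nat_lit 0) (nat_lit 0) (XT.lf (nat_lit 76) (nat_lit 1030151444)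 (nat_lit 0) (nat_lit 8523533497) (nat_lit 1748) (nat_lit 4469441441) (nat_lit 426) (nat_lit 5) (nat_lit 425) (nat_lit 5) (nat_lit 448) (nat_lit 5) (nat_lit 445) (nat_lit 438) (nat_lit 257)) (XT.lf (nat_lit 76) (nat_lit 7961845740) (nat_lit 0) (nat_lit 2336751944) (nat_lit 1748) (nat_lit 3861458132) (nat_lit 426) (nat_lit 5) (nat_lit 425) (nat_lit 5) (nat_lit 448) (nat_lit 5) (nat_lit 446) (nat_lit 438) (nat_lit 256)))) (XT.nd (nat_lit 78) (nat_lit 0) (nat_lit 0) (XT.lf (nat_lit 76) (nat_lit 710414659) (nat_lit 0) (nat_lit 10369612131) (nat_lit 1748) (nat_lit 3219268538) (nat_lit 427) (nat_lit 5) (nat_lit 426) (nat_lit 5) (nat_lit 449) (nat_lit 5) (nat_lit 447) (nat_lit 438) (nat_lit 255)) (XT.nd (nat_lit 78) (nat_lit 0) (nat_lit 76) (XT.lf (nat_lit 76) (nat_lit 7820033632) (nat_lit 0) (nat_lit 4105359405) (nat_lit 1748) (nat_lit 2514964199) (nat_lit 427) (nat_lit 5) (nat_lit 426) (nat_lit 5) (nat_lit 449) (nat_lit 5)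 (nat_lit 448) (nat_lit 438) (nat_lit 254)) (XT.lf (nat_lit 76) (nat_lit 473381574) (nat_lit 0) (nat_lit 12323720650) (nat_lit 1748) (nat_lit 1786953149) (nat_lit 428) (nat_lit 5) (nat_lit 427) (nat_lit 5) (nat_lit 450) (nat_lit 5) (nat_lit 449) (nat_lit 438) (nat_lit 253))))))) (XT.nd (nat_lit 858) (nat_lit 5092) (nat_lit 0) (XT.nd (nat_lit 390) (nat_lit 0) (nat_lit 76) (XT.nd (nat_lit 156) (nat_lit 1672) (nat_lit 0) (XT.nd (nat_lit 78) (nat_lit 0) (nat_lit 76) (XT.lf (nat_lit 76) (nat_lit 7765587704) (nat_lit 0) (nat_lit 5983754315) (nat_lit 1748) (nat_lit 980027156) (nat_lit 428) (nat_lit 5) (nat_lit 427) (nat_lit 5) (nat_lit 450) (nat_lit 5) (nat_lit 450) (nat_lit 438) (nat_lit 252)) (XT.lf (nat_lit 76) (nat_lit 321489188) (nat_lit 0) (nat_lit 14396203554) (nat_lit 1748) (nat_lit 159958749) (nat_lit 429) (nat_lit 5) (nat_lit 428) (nat_lit 5) (nat_lit 451) (nat_lit 5) (nat_lit 451) (nat_lit 438) (nat_lit 251))) (XT.nd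 (nat_lit 78) (nat_lit 0) (nat_lit 0) (XT.lf (nat_lit 0) (nat_lit 746215790) (nat_lit 1748) (nat_lit 7231146737) (nat_lit 1824) (nat_lit 7049880952) (nat_lit 405) (nat_lit 5) (nat_lit 428) (nat_lit 5) (nat_lit 429) (nat_lit 5) (nat_lit 452) (nat_lit 438) (nat_lit 250)) (XT.nd (nat_lit 78) (nat_lit 0) (nat_lit 76) (XT.lf (nat_lit 76) (nat_lit 236813997) (nat_lit 0) (nat_lit 1425165866) (nat_lit 1824) (nat_lit 13517957494) (nat_lit 406) (nat_lit 5) (nat_lit 405) (nat_lit 5) (nat_lit 429) (nat_lit 5) (nat_lit 453) (nat_lit 438) (nat_lit 249)) (XT.lf (nat_lit 0) (nat_lit 2671246605) (nat_lit 1748) (nat_lit 7422759783) (nat_lit 1824) (nat_lit 5240178267) (nat_lit 406) (nat_lit 5) (nat_lit 429) (nat_lit 5) (nat_lit 430) (nat_lit 5) (nat_lit 454) (nat_lit 438) (nat_lit 248))))) (XT.nd (nat_lit 234) (nat_lit 0) (nat_lit 152) (XT.nd (nat_lit 78) (nat_lit 0) (nat_lit 76) (XT.lf (nat_lit 76) (nat_lit 236042202) (nat_lit 0) (nat_lit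 3467982420) (nat_lit 1824) (nat_lit 11787428979) (nat_lit 407) (nat_lit 5) (nat_lit 406) (nat_lit 5) (nat_lit 430) (nat_lit 5) (nat_lit 455) (nat_lit 438) (nat_lit 247)) (XT.nd (nat_lit 78) (nat_lit 0) (nat_lit 0) (XT.lf (nat_lit 0) (nat_lit 4821444640) (nat_lit 1748) (nat_lit 7529684200) (nat_lit 1824) (nat_lit 3299462520) (nat_lit 407) (nat_lit 5) (nat_lit 430) (nat_lit 5) (nat_lit 431) (nat_lit 5) (nat_lit 456) (nat_lit 438) (nat_lit 246)) (XT.lf (nat_lit 76) (nat_lit 326226356) (nat_lit 0) (nat_lit 5652700403) (nat_lit 1824) (nat_lit 9833633939) (nat_lit 408) (nat_lit 5) (nat_lit 407) (nat_lit 5) (nat_lit 431) (nat_lit 5) (nat_lit 457) (nat_lit 438) (nat_lit 245)))) (XT.nd (nat_lit 78) (nat_lit 0) (nat_lit 0) (XT.lf (nat_lit 0) (nat_lit 7210828411) (nat_lit 1748) (nat_lit 7549195746) (nat_lit 1824) (nat_lit 1216722906) (nat_lit 408) (nat_lit 5) (nat_lit 431) (nat_lit 5) (nat_lit 432) (nat_lit 5) (nat_lit 458) (nat_lit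 438) (nat_lit 244)) (XT.nd (nat_lit 78) (nat_lit 0) (nat_lit 0) (XT.lf (nat_lit 76) (nat_lit 510291251) (nat_lit 0) (nat_lit 7990715045) (nat_lit 1824) (nat_lit 7642541073) (nat_lit 409) (nat_lit 5) (nat_lit 408) (nat_lit 5) (nat_lit 432) (nat_lit 5) (nat_lit 459) (nat_lit 438) (nat_lit 243)) (XT.lf (nat_lit 76) (nat_lit 8827684679) (nat_lit 0) (nat_lit 1032955046) (nat_lit 1824) (nat_lit 6452173838) (nat_lit 409) (nat_lit 5) (nat_lit 408) (nat_lit 5) (nat_lit 432) (nat_lit 5) (nat_lit 460) (nat_lit 438) (nat_lit 242)))))) (XT.nd (nat_lit 390) (nat_lit 2584) (nat_lit 0) (XT.nd (nat_lit 156) (nat_lit 2812) (nat_lit 0) (XT.nd (nat_lit 78) (nat_lit 0) (nat_lit 0) (XT.lf (nat_lit 76) (nat_lit 791314196) (nat_lit 0) (nat_lit 10493799780) (nat_lit 1824) (nat_lit 5199601003) (nat_lit 410) (nat_lit 5) (nat_lit 409) (nat_lit 5) (nat_lit 433) (nat_lit 5) (nat_lit 461) (nat_lit 438) (nat_lit 241)) (XT.lf (nat_lit 76) (nat_lit 9322200878)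 (nat_lit 0) (nat_lit 3466138970) (nat_lit 1824) (nat_lit 3870712138) (nat_lit 410) (nat_lit 5) (nat_lit 409) (nat_lit 5) (nat_lit 433) (nat_lit 5) (nat_lit 462) (nat_lit 438) (nat_lit 240))) (XT.nd (nat_lit 78) (nat_lit 1140) (nat_lit 0) (XT.lf (nat_lit 0) (nat_lit 1172522064) (nat_lit 1748) (nat_lit 13174134419) (nat_lit 1824) (nat_lit 2489721479) (nat_lit 387) (nat_lit 5) (nat_lit 410) (nat_lit 5) (nat_lit 411) (nat_lit 5) (nat_lit 463) (nat_lit 438) (nat_lit 239)) (XT.nd (nat_lit 78) (nat_lit 1140) (nat_lit 0) (XT.lf (nat_lit 0) (nat_lit 9922664193) (nat_lit 1748) (nat_lit 6078983487) (nat_lit 1824) (nat_lit 1014295310) (nat_lit 387) (nat_lit 5) (nat_lit 410) (nat_lit 5) (nat_lit 411) (nat_lit 5) (nat_lit 464) (nat_lit 438) (nat_lit 238)) (XT.lf (nat_lit 0) (nat_lit 496164243) (nat_lit 1140) (nat_lit 15544840331) (nat_lit 76) (nat_lit 1157794432) (nat_lit 372) (nat_lit 5) (nat_lit 387) (nat_lit 5) (nat_lit 373) (nat_lit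 5) (nat_lit 465) (nat_lit 438) (nat_lit 237))))) (XT.nd (nat_lit 234) (nat_lit 1672) (nat_lit 0) (XT.nd (nat_lit 78) (nat_lit 912) (nat_lit 0) (XT.lf (nat_lit 0) (nat_lit 2105086433) (nat_lit 1140) (nat_lit 6765046742) (nat_lit 76) (nat_lit 8513410723) (nat_lit 372) (nat_lit 5) (nat_lit 387) (nat_lit 5) (nat_lit 373) (nat_lit 5) (nat_lit 466) (nat_lit 438) (nat_lit 236)) (XT.nd (nat_lit 78) (nat_lit 0) (nat_lit 0) (XT.lf (nat_lit 0) (nat_lit 2213800477) (nat_lit 912) (nat_lit 1540533711) (nat_lit 988) (nat_lit 13817489050) (nat_lit 360) (nat_lit 5) (nat_lit 372) (nat_lit 5) (nat_lit 373) (nat_lit 5) (nat_lit 467) (nat_lit 438) (nat_lit 235)) (XT.lf (nat_lit 0) (nat_lit 5514666465) (nat_lit 988) (nat_lit 6343541552) (nat_lit 76) (nat_lit 5904100598) (nat_lit 360) (nat_lit 5) (nat_lit 373) (nat_lit 5) (nat_lit 361) (nat_lit 5) (nat_lit 468) (nat_lit 438) (nat_lit 234)))) (XT.nd (nat_lit 78) (nat_lit 836) (nat_lit 0) (XT.lf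 (nat_lit 0) (nat_lit 2873151033) (nat_lit 836) (nat_lit 4459894960) (nat_lit 912) (nat_lit 10623103292) (nat_lit 349) (nat_lit 5) (nat_lit 360) (nat_lit 5) (nat_lit 361) (nat_lit 5) (nat_lit 469) (nat_lit 438) (nat_lit 233)) (XT.nd (nat_lit 78) (nat_lit 836) (nat_lit 0) (XT.lf (nat_lit 0) (nat_lit 9244751163) (nat_lit 912) (nat_lit 5818815387) (nat_lit 76) (nat_lit 3089163404) (nat_lit 349) (nat_lit 5) (nat_lit 361) (nat_lit 5) (nat_lit 350) (nat_lit 5) (nat_lit 470) (nat_lit 438) (nat_lit 232)) (XT.lf (nat_lit 0) (nat_lit 3643364403) (nat_lit 836) (nat_lit 7598701981) (nat_lit 912) (nat_lit 7110230635) (nat_lit 338) (nat_lit 5) (nat_lit 349) (nat_lit 5) (nat_lit 350) (nat_lit 5) (nat_lit 471) (nat_lit 438) (nat_lit 231))))))))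
noncomputable def xc223 : XT := (XT.nd (nat_lit 1638) (nat_lit 1824) (nat_lit 0) (XT.nd (nat_lit 780) (nat_lit 4104) (nat_lit 0) (XT.nd (nat_lit 390) (nat_lit 2204) (nat_lit 0) (XT.nd (nat_lit 156) (nat_lit 912) (nat_lit 0) (XT.nd (nat_lit 78) (nat_lit 836) (nat_lit 0) (XT.lf (nat_lit 0) (nat_lit 13312999146) (nat_lit 912) (nat_lit 5187386595) (nat_lit 76) (nat_lit 54798519) (nat_lit 338) (nat_lit 5) (nat_lit 350) (nat_lit 5) (nat_lit 339) (nat_lit 5) (nat_lit 472) (nat_lit 438) (nat_lit 230)) (XT.lf (nat_lit 0) (nat_lit 4528148922) (nat_lit 836) (nat_lit 10971301321) (nat_lit 912) (nat_lit 3261199220) (nat_lit 327) (nat_lit 5) (nat_lit 338) (nat_lit 5) (nat_lit 339) (nat_lit 5) (nat_lit 473) (nat_lit 438) (nat_lit 229))) (XT.nd (nat_lit 78) (nat_lit 912) (nat_lit 0) (XT.lf (nat_lit 0) (nat_lit 14502841384) (nat_lit 836) (nat_lit 3256051209) (nat_lit 912) (nat_lit 1210748304) (nat_lit 327) (nat_lit 5) (nat_lit 338) (nat_lit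 5) (nat_lit 339) (nat_lit 5) (nat_lit 474) (nat_lit 438) (nat_lit 228)) (XT.nd (nat_lit 78) (nat_lit 0) (nat_lit 0) (XT.lf (nat_lit 0) (nat_lit 929987442) (nat_lit 912) (nat_lit 13656392341) (nat_lit 76) (nat_lit 4595103568) (nat_lit 315) (nat_lit 5) (nat_lit 327) (nat_lit 5) (nat_lit 316) (nat_lit 5) (nat_lit 475) (nat_lit 438) (nat_lit 227)) (XT.lf (nat_lit 0) (nat_lit 3143672614) (nat_lit 912) (nat_lit 3654887293) (nat_lit 76) (nat_lit 12597917797) (nat_lit 315) (nat_lit 5) (nat_lit 327) (nat_lit 5) (nat_lit 316) (nat_lit 5) (nat_lit 476) (nat_lit 438) (nat_lit 226))))) (XT.nd (nat_lit 156) (nat_lit 1444) (nat_lit 0) (XT.nd (nat_lit 78) (nat_lit 0) (nat_lit 0) (XT.lf (nat_lit 0) (nat_lit 5447085625) (nat_lit 836) (nat_lit 12994564294) (nat_lit 76) (nat_lit 1173214948) (nat_lit 305) (nat_lit 5) (nat_lit 316) (nat_lit 5) (nat_lit 306) (nat_lit 5) (nat_lit 477) (nat_lit 438) (nat_lit 225)) (XT.lf (nat_lit 0) (nat_lit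 7861048376) (nat_lit 836) (nat_lit 2737254277) (nat_lit 76) (nat_lit 9238029456) (nat_lit 305) (nat_lit 5) (nat_lit 316) (nat_lit 5) (nat_lit 306) (nat_lit 5) (nat_lit 478) (nat_lit 438) (nat_lit 224))) (XT.nd (nat_lit 78) (nat_lit 684) (nat_lit 0) (XT.lf (nat_lit 0) (nat_lit 7822427637) (nat_lit 760) (nat_lit 2546522956) (nat_lit 836) (nat_lit 9692366824) (nat_lit 295) (nat_lit 5) (nat_lit 305) (nat_lit 5) (nat_lit 306) (nat_lit 5) (nat_lit 479) (nat_lit 438) (nat_lit 223)) (XT.nd (nat_lit 78) (nat_lit 684) (nat_lit 0) (XT.lf (nat_lit 0) (nat_lit 12977226258) (nat_lit 836) (nat_lit 1702371571) (nat_lit 76) (nat_lit 5610202183) (nat_lit 295) (nat_lit 5) (nat_lit 306) (nat_lit 5) (nat_lit 296) (nat_lit 5) (nat_lit 480) (nat_lit 438) (nat_lit 222)) (XT.lf (nat_lit 0) (nat_lit 9142592965) (nat_lit 684) (nat_lit 6566333945) (nat_lit 760) (nat_lit 4812502011) (nat_lit 286) (nat_lit 5) (nat_lit 295) (nat_lit 5) (nat_lit 296)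 (nat_lit 5) (nat_lit 481) (nat_lit 438) (nat_lit 221)))))) (XT.nd (nat_lit 390) (nat_lit 1900) (nat_lit 0) (XT.nd (nat_lit 156) (nat_lit 1368) (nat_lit 0) (XT.nd (nat_lit 78) (nat_lit 836) (nat_lit 0) (XT.lf (nat_lit 0) (nat_lit 18512954037) (nat_lit 760) (nat_lit 546490604) (nat_lit 76) (nat_lit 1697893734) (nat_lit 286) (nat_lit 5) (nat_lit 296) (nat_lit 5) (nat_lit 287) (nat_lit 5) (nat_lit 482) (nat_lit 438) (nat_lit 220)) (XT.lf (nat_lit 0) (nat_lit 478338231) (nat_lit 836) (nat_lit 10406308122) (nat_lit 76) (nat_lit 10111109462) (nat_lit 275) (nat_lit 5) (nat_lit 286) (nat_lit 5) (nat_lit 276) (nat_lit 5) (nat_lit 483) (nat_lit 438) (nat_lit 219))) (XT.nd (nat_lit 78) (nat_lit 684) (nat_lit 0) (XT.lf (nat_lit 0) (nat_lit 705698418) (nat_lit 684) (nat_lit 2523284973) (nat_lit 760) (nat_lit 18009592807) (nat_lit 266) (nat_lit 5) (nat_lit 275) (nat_lit 5) (nat_lit 276) (nat_lit 5) (nat_lit 484) (nat_lit 438) (nat_lit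 218)) (XT.nd (nat_lit 78) (nat_lit 684) (nat_lit 0) (XT.lf (nat_lit 0) (nat_lit 6139200960) (nat_lit 760) (nat_lit 9348674937) (nat_lit 76) (nat_lit 5996287580) (nat_lit 266) (nat_lit 5) (nat_lit 276) (nat_lit 5) (nat_lit 267) (nat_lit 5) (nat_lit 485) (nat_lit 438) (nat_lit 217)) (XT.lf (nat_lit 0) (nat_lit 2064309531) (nat_lit 684) (nat_lit 7068794184) (nat_lit 760) (nat_lit 12601050812) (nat_lit 257) (nat_lit 5) (nat_lit 266) (nat_lit 5) (nat_lit 267) (nat_lit 5) (nat_lit 486) (nat_lit 438) (nat_lit 216))))) (XT.nd (nat_lit 234) (nat_lit 1292) (nat_lit 0) (XT.nd (nat_lit 78) (nat_lit 608) (nat_lit 0) (XT.lf (nat_lit 0) (nat_lit 12255314813) (nat_lit 760) (nat_lit 8171208892) (nat_lit 76) (nat_lit 1561254701) (nat_lit 257) (nat_lit 5) (nat_lit 267) (nat_lit 5) (nat_lit 258) (nat_lit 5) (nat_lit 487) (nat_lit 438) (nat_lit 215)) (XT.nd (nat_lit 78) (nat_lit 0) (nat_lit 0) (XT.lf (nat_lit 0) (nat_lit 3551955624) (nat_lit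 608) (nat_lit 11953399255) (nat_lit 684) (nat_lit 6739813767) (nat_lit 249) (nat_lit 5) (nat_lit 257) (nat_lit 5) (nat_lit 258) (nat_lit 5) (nat_lit 488) (nat_lit 438) (nat_lit 214)) (XT.lf (nat_lit 0) (nat_lit 15615164992) (nat_lit 608) (nat_lit 3255628160) (nat_lit 684) (nat_lit 3635907142) (nat_lit 249) (nat_lit 5) (nat_lit 257) (nat_lit 5) (nat_lit 258) (nat_lit 5) (nat_lit 489) (nat_lit 438) (nat_lit 213)))) (XT.nd (nat_lit 78) (nat_lit 684) (nat_lit 0) (XT.lf (nat_lit 0) (nat_lit 5172385825) (nat_lit 608) (nat_lit 17196846881) (nat_lit 684) (nat_lit 402917539) (nat_lit 241) (nat_lit 5) (nat_lit 249) (nat_lit 5) (nat_lit 250) (nat_lit 5) (nat_lit 490) (nat_lit 438) (nat_lit 212)) (XT.nd (nat_lit 78) (nat_lit 608) (nat_lit 0) (XT.lf (nat_lit 0) (nat_lit 2920548094) (nat_lit 684) (nat_lit 5516832090) (nat_lit 76) (nat_lit 14603878955) (nat_lit 240) (nat_lit 5) (nat_lit 249) (nat_lit 5) (nat_lit 241) (nat_lit 5) (nat_lit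 491) (nat_lit 438) (nat_lit 211)) (XT.lf (nat_lit 0) (nat_lit 6349120565) (nat_lit 684) (nat_lit 16428053366) (nat_lit 76) (nat_lit 537643794) (nat_lit 232) (nat_lit 5) (nat_lit 241) (nat_lit 5) (nat_lit 233) (nat_lit 5) (nat_lit 492) (nat_lit 438) (nat_lit 210))))))) (XT.nd (nat_lit 55536) (nat_lit 0) (nat_lit 14972) (XT.nd (nat_lit 390) (nat_lit 608) (nat_lit 0) (XT.nd (nat_lit 156) (nat_lit 608) (nat_lit 0) (XT.nd (nat_lit 78) (nat_lit 608) (nat_lit 0) (XT.lf (nat_lit 0) (nat_lit 9935205632) (nat_lit 684) (nat_lit 4041147165) (nat_lit 76) (nat_lit 9615717267) (nat_lit 232) (nat_lit 5) (nat_lit 241) (nat_lit 5) (nat_lit 233) (nat_lit 5) (nat_lit 493) (nat_lit 438) (nat_lit 209)) (XT.lf (nat_lit 0) (nat_lit 8702600899) (nat_lit 608) (nat_lit 4942795382) (nat_lit 684) (nat_lit 10228424867) (nat_lit 224) (nat_lit 5) (nat_lit 232) (nat_lit 5) (nat_lit 233) (nat_lit 5) (nat_lit 494) (nat_lit 438) (nat_lit 208))) (XT.nd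 (nat_lit 78) (nat_lit 608) (nat_lit 0) (XT.lf (nat_lit 0) (nat_lit 17480744639) (nat_lit 684) (nat_lit 2437650787) (nat_lit 76) (nat_lit 4241794098) (nat_lit 224) (nat_lit 5) (nat_lit 233) (nat_lit 5) (nat_lit 225) (nat_lit 5) (nat_lit 495) (nat_lit 438) (nat_lit 207)) (XT.nd (nat_lit 78) (nat_lit 76) (nat_lit 0) (XT.lf (nat_lit 0) (nat_lit 10652590421) (nat_lit 532) (nat_lit 10838110011) (nat_lit 608) (nat_lit 2959628148) (nat_lit 217) (nat_lit 5) (nat_lit 224) (nat_lit 5) (nat_lit 225) (nat_lit 5) (nat_lit 496) (nat_lit 438) (nat_lit 206)) (XT.lf (nat_lit 0) (nat_lit 836127315) (nat_lit 608) (nat_lit 718788752) (nat_lit 76) (nat_lit 23190997486) (nat_lit 216) (nat_lit 5) (nat_lit 224) (nat_lit 5) (nat_lit 217) (nat_lit 5) (nat_lit 497) (nat_lit 438) (nat_lit 205))))) (XT.nd (nat_lit 54912) (nat_lit 0) (nat_lit 16340) (XT.nd (nat_lit 54756) (nat_lit 0) (nat_lit 16264) (XT.lf (nat_lit 0) (nat_lit 4799236685) (nat_lit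 684) (nat_lit 12332844457) (nat_lit 76) (nat_lit 7912317702) (nat_lit 208) (nat_lit 5) (nat_lit 217) (nat_lit 5) (nat_lit 209) (nat_lit 5) (nat_lit 498) (nat_lit 438) (nat_lit 204)) (XT.nd (nat_lit 78) (nat_lit 0) (nat_lit 0) (XT.lf (nat_lit 0) (nat_lit 3207940699) (nat_lit 1748) (nat_lit 1737945011) (nat_lit 1748) (nat_lit 1737945011) (nat_lit 422) (nat_lit 3) (nat_lit 445) (nat_lit 3) (nat_lit 445) (nat_lit 5) (nat_lit 439) (nat_lit 439) (nat_lit 262)) (XT.lf (nat_lit 76) (nat_lit 2899726754) (nat_lit 0) (nat_lit 3968148876) (nat_lit 1748) (nat_lit 6625543550) (nat_lit 423) (nat_lit 5) (nat_lit 422) (nat_lit 3) (nat_lit 445) (nat_lit 5) (nat_lit 440) (nat_lit 439) (nat_lit 261)))) (XT.nd (nat_lit 78) (nat_lit 0) (nat_lit 0) (XT.lf (nat_lit 0) (nat_lit 7356173552) (nat_lit 1672) (nat_lit 4190106217) (nat_lit 1748) (nat_lit 2074871278) (nat_lit 423) (nat_lit 5) (nat_lit 445) (nat_lit 5) (nat_lit 446) (nat_lit 5) (nat_lit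 441) (nat_lit 439) (nat_lit 260)) (XT.nd (nat_lit 78) (nat_lit 0) (nat_lit 76) (XT.lf (nat_lit 76) (nat_lit 2340842552) (nat_lit 0) (nat_lit 5545380990) (nat_lit 1748) (nat_lit 5864578458) (nat_lit 424) (nat_lit 5) (nat_lit 423) (nat_lit 5) (nat_lit 446) (nat_lit 5) (nat_lit 442) (nat_lit 439) (nat_lit 259)) (XT.lf (nat_lit 0) (nat_lit 8449604548) (nat_lit 1672) (nat_lit 4832513539) (nat_lit 1748) (nat_lit 600477374) (nat_lit 424) (nat_lit 5) (nat_lit 446) (nat_lit 5) (nat_lit 447) (nat_lit 5) (nat_lit 443) (nat_lit 439) (nat_lit 258)))))) (XT.nd (nat_lit 390) (nat_lit 1444) (nat_lit 0) (XT.nd (nat_lit 156) (nat_lit 0) (nat_lit 76) (XT.nd (nat_lit 78) (nat_lit 0) (nat_lit 0) (XT.lf (nat_lit 76) (nat_lit 1858926038) (nat_lit 0) (nat_lit 7204992684) (nat_lit 1748) (nat_lit 4952316766) (nat_lit 425) (nat_lit 5) (nat_lit 424) (nat_lit 5) (nat_lit 447) (nat_lit 5) (nat_lit 444) (nat_lit 439) (nat_lit 257)) (XT.lf (nat_lit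 76) (nat_lit 8744523662) (nat_lit 0) (nat_lit 969441392) (nat_lit 1748) (nat_lit 4438118274) (nat_lit 425) (nat_lit 5) (nat_lit 424) (nat_lit 5) (nat_lit 447) (nat_lit 5) (nat_lit 445) (nat_lit 439) (nat_lit 256))) (XT.nd (nat_lit 78) (nat_lit 0) (nat_lit 0) (XT.lf (nat_lit 76) (nat_lit 1456000588) (nat_lit 0) (nat_lit 8956683356) (nat_lit 1748) (nat_lit 3877254601) (nat_lit 426) (nat_lit 5) (nat_lit 425) (nat_lit 5) (nat_lit 448) (nat_lit 5) (nat_lit 446) (nat_lit 439) (nat_lit 255)) (XT.nd (nat_lit 78) (nat_lit 0) (nat_lit 76) (XT.lf (nat_lit 76) (nat_lit 8518382767) (nat_lit 0) (nat_lit 2641015600) (nat_lit 1748) (nat_lit 3270475854) (nat_lit 426) (nat_lit 5) (nat_lit 425) (nat_lit 5) (nat_lit 448) (nat_lit 5) (nat_lit 447) (nat_lit 439) (nat_lit 254)) (XT.lf (nat_lit 76) (nat_lit 1134264961) (nat_lit 0) (nat_lit 10810371721) (nat_lit 1748) (nat_lit 2627503839) (nat_lit 427) (nat_lit 5) (nat_lit 426) (nat_lit 5) (nat_lit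 449) (nat_lit 5) (nat_lit 448) (nat_lit 439) (nat_lit 253))))) (XT.nd (nat_lit 234) (nat_lit 1596) (nat_lit 0) (XT.nd (nat_lit 78) (nat_lit 0) (nat_lit 76) (XT.lf (nat_lit 76) (nat_lit 8378044117) (nat_lit 0) (nat_lit 4416258111) (nat_lit 1748) (nat_lit 1921979100) (nat_lit 427) (nat_lit 5) (nat_lit 426) (nat_lit 5) (nat_lit 449) (nat_lit 5) (nat_lit 449) (nat_lit 439) (nat_lit 252)) (XT.nd (nat_lit 78) (nat_lit 0) (nat_lit 0) (XT.lf (nat_lit 76) (nat_lit 896090837) (nat_lit 0) (nat_lit 12776220651) (nat_lit 1748) (nat_lit 1190770016) (nat_lit 428) (nat_lit 5) (nat_lit 427) (nat_lit 5) (nat_lit 450) (nat_lit 5) (nat_lit 450) (nat_lit 439) (nat_lit 251)) (XT.lf (nat_lit 76) (nat_lit 8326038313) (nat_lit 0) (nat_lit 6305415272) (nat_lit 1748) (nat_lit 380096134) (nat_lit 428) (nat_lit 5) (nat_lit 427) (nat_lit 5) (nat_lit 450) (nat_lit 5) (nat_lit 451) (nat_lit 439) (nat_lit 250)))) (XT.nd (nat_lit 78) (nat_lit 0) (nat_lit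 0) (XT.lf (nat_lit 0) (nat_lit 439825131) (nat_lit 1748) (nat_lit 14421885767) (nat_lit 1824) (nat_lit 301243864) (nat_lit 405) (nat_lit 5) (nat_lit 428) (nat_lit 5) (nat_lit 429) (nat_lit 5) (nat_lit 452) (nat_lit 439) (nat_lit 249)) (XT.nd (nat_lit 78) (nat_lit 0) (nat_lit 0) (XT.lf (nat_lit 0) (nat_lit 1350202076) (nat_lit 1748) (nat_lit 6959749620) (nat_lit 1824) (nat_lit 7005806315) (nat_lit 405) (nat_lit 5) (nat_lit 428) (nat_lit 5) (nat_lit 429) (nat_lit 5) (nat_lit 453) (nat_lit 439) (nat_lit 248)) (XT.lf (nat_lit 76) (nat_lit 654833355) (nat_lit 0) (nat_lit 1620581149) (nat_lit 1824) (nat_lit 13196273485) (nat_lit 406) (nat_lit 5) (nat_lit 405) (nat_lit 5) (nat_lit 429) (nat_lit 5) (nat_lit 454) (nat_lit 439) (nat_lit 247))))))))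
noncomputable def xc224 : XT := (XT.nd (nat_lit 1638) (nat_lit 7828) (nat_lit 0) (XT.nd (nat_lit 780) (nat_lit 4560) (nat_lit 0) (XT.nd (nat_lit 390) (nat_lit 1444) (nat_lit 0) (XT.nd (nat_lit 156) (nat_lit 0) (nat_lit 76) (XT.nd (nat_lit 78) (nat_lit 0) (nat_lit 0) (XT.lf (nat_lit 0) (nat_lit 3292427753) (nat_lit 1748) (nat_lit 7153357237) (nat_lit 1824) (nat_lit 5183488807) (nat_lit 406) (nat_lit 5) (nat_lit 429) (nat_lit 5) (nat_lit 430) (nat_lit 5) (nat_lit 455) (nat_lit 439) (nat_lit 246)) (XT.lf (nat_lit 76) (nat_lit 655871723) (nat_lit 0) (nat_lit 3681552294) (nat_lit 1824) (nat_lit 11452437547) (nat_lit 407) (nat_lit 5) (nat_lit 406) (nat_lit 5) (nat_lit 430) (nat_lit 5) (nat_lit 456) (nat_lit 439) (nat_lit 245))) (XT.nd (nat_lit 78) (nat_lit 0) (nat_lit 0) (XT.lf (nat_lit 0) (nat_lit 5465307448) (nat_lit 1748) (nat_lit 7261193477) (nat_lit 1824) (nat_lit 3225923454) (nat_lit 407) (nat_lit 5) (nat_lit 430) (nat_lit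 5) (nat_lit 431) (nat_lit 5) (nat_lit 457) (nat_lit 439) (nat_lit 244)) (XT.nd (nat_lit 78) (nat_lit 0) (nat_lit 76) (XT.lf (nat_lit 76) (nat_lit 749078156) (nat_lit 0) (nat_lit 5888830128) (nat_lit 1824) (nat_lit 9479889951) (nat_lit 408) (nat_lit 5) (nat_lit 407) (nat_lit 5) (nat_lit 431) (nat_lit 5) (nat_lit 458) (nat_lit 439) (nat_lit 243)) (XT.lf (nat_lit 0) (nat_lit 7883088019) (nat_lit 1748) (nat_lit 7280434526) (nat_lit 1824) (nat_lit 1121977406) (nat_lit 408) (nat_lit 5) (nat_lit 431) (nat_lit 5) (nat_lit 432) (nat_lit 5) (nat_lit 459) (nat_lit 439) (nat_lit 242))))) (XT.nd (nat_lit 156) (nat_lit 1596) (nat_lit 0) (XT.nd (nat_lit 78) (nat_lit 0) (nat_lit 0) (XT.lf (nat_lit 76) (nat_lit 937480731) (nat_lit 0) (nat_lit 8253942281) (nat_lit 1824) (nat_lit 7264370518) (nat_lit 409) (nat_lit 5) (nat_lit 408) (nat_lit 5) (nat_lit 432) (nat_lit 5) (nat_lit 460) (nat_lit 439) (nat_lit 241)) (XT.lf (nat_lit 76) (nat_lit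 9413045876) (nat_lit 0) (nat_lit 1154999377) (nat_lit 1824) (nat_lit 6060608122) (nat_lit 409) (nat_lit 5) (nat_lit 408) (nat_lit 5) (nat_lit 432) (nat_lit 5) (nat_lit 461) (nat_lit 439) (nat_lit 240))) (XT.nd (nat_lit 78) (nat_lit 1672) (nat_lit 0) (XT.lf (nat_lit 76) (nat_lit 1224260319) (nat_lit 0) (nat_lit 10788807757) (nat_lit 1824) (nat_lit 4791087731) (nat_lit 410) (nat_lit 5) (nat_lit 409) (nat_lit 5) (nat_lit 433) (nat_lit 5) (nat_lit 462) (nat_lit 439) (nat_lit 239)) (XT.nd (nat_lit 78) (nat_lit 1672) (nat_lit 0) (XT.lf (nat_lit 76) (nat_lit 9917585915) (nat_lit 0) (nat_lit 3618924477) (nat_lit 1824) (nat_lit 3445670212) (nat_lit 410) (nat_lit 5) (nat_lit 409) (nat_lit 5) (nat_lit 433) (nat_lit 5) (nat_lit 463) (nat_lit 439) (nat_lit 238)) (XT.lf (nat_lit 0) (nat_lit 1612747742) (nat_lit 1748) (nat_lit 13505765354) (nat_lit 1824) (nat_lit 2044693616) (nat_lit 387) (nat_lit 5) (nat_lit 410) (nat_lit 5) (nat_lit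 411) (nat_lit 5) (nat_lit 464) (nat_lit 439) (nat_lit 237)))))) (XT.nd (nat_lit 390) (nat_lit 2508) (nat_lit 0) (XT.nd (nat_lit 156) (nat_lit 912) (nat_lit 0) (XT.nd (nat_lit 78) (nat_lit 1140) (nat_lit 0) (XT.lf (nat_lit 0) (nat_lit 10529720650) (nat_lit 1748) (nat_lit 6267375162) (nat_lit 1824) (nat_lit 549461322) (nat_lit 387) (nat_lit 5) (nat_lit 410) (nat_lit 5) (nat_lit 411) (nat_lit 5) (nat_lit 465) (nat_lit 439) (nat_lit 236)) (XT.lf (nat_lit 0) (nat_lit 977748236) (nat_lit 1140) (nat_lit 15433293432) (nat_lit 76) (nat_lit 1122111318) (nat_lit 372) (nat_lit 5) (nat_lit 387) (nat_lit 5) (nat_lit 373) (nat_lit 5) (nat_lit 466) (nat_lit 439) (nat_lit 235))) (XT.nd (nat_lit 78) (nat_lit 912) (nat_lit 0) (XT.lf (nat_lit 0) (nat_lit 2609600621) (nat_lit 1140) (nat_lit 6486187181) (nat_lit 76) (nat_lit 8625993640) (nat_lit 372) (nat_lit 5) (nat_lit 387) (nat_lit 5) (nat_lit 373) (nat_lit 5) (nat_lit 467) (nat_lit 439)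 (nat_lit 234)) (XT.nd (nat_lit 78) (nat_lit 0) (nat_lit 0) (XT.lf (nat_lit 0) (nat_lit 2669512242) (nat_lit 912) (nat_lit 1615925492) (nat_lit 988) (nat_lit 13628520176) (nat_lit 360) (nat_lit 5) (nat_lit 372) (nat_lit 5) (nat_lit 373) (nat_lit 5) (nat_lit 468) (nat_lit 439) (nat_lit 233)) (XT.lf (nat_lit 0) (nat_lit 6071751375) (nat_lit 988) (nat_lit 6057640816) (nat_lit 76) (nat_lit 5979048868) (nat_lit 360) (nat_lit 5) (nat_lit 373) (nat_lit 5) (nat_lit 361) (nat_lit 5) (nat_lit 469) (nat_lit 439) (nat_lit 232))))) (XT.nd (nat_lit 234) (nat_lit 836) (nat_lit 0) (XT.nd (nat_lit 78) (nat_lit 836) (nat_lit 0) (XT.lf (nat_lit 0) (nat_lit 3340670017) (nat_lit 836) (nat_lit 4579730212) (nat_lit 912) (nat_lit 10385883765) (nat_lit 349) (nat_lit 5) (nat_lit 360) (nat_lit 5) (nat_lit 361) (nat_lit 5) (nat_lit 470) (nat_lit 439) (nat_lit 231)) (XT.nd (nat_lit 78) (nat_lit 836) (nat_lit 0) (XT.lf (nat_lit 0) (nat_lit 9861503440)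 (nat_lit 912) (nat_lit 5524168991) (nat_lit 76) (nat_lit 3121303987) (nat_lit 349) (nat_lit 5) (nat_lit 361) (nat_lit 5) (nat_lit 350) (nat_lit 5) (nat_lit 471) (nat_lit 439) (nat_lit 230)) (XT.lf (nat_lit 0) (nat_lit 4124550298) (nat_lit 836) (nat_lit 7768397954) (nat_lit 912) (nat_lit 6817706261) (nat_lit 338) (nat_lit 5) (nat_lit 349) (nat_lit 5) (nat_lit 350) (nat_lit 5) (nat_lit 472) (nat_lit 439) (nat_lit 229)))) (XT.nd (nat_lit 78) (nat_lit 836) (nat_lit 0) (XT.lf (nat_lit 0) (nat_lit 13996833126) (nat_lit 912) (nat_lit 4882191075) (nat_lit 76) (nat_lit 38747914) (nat_lit 338) (nat_lit 5) (nat_lit 350) (nat_lit 5) (nat_lit 339) (nat_lit 5) (nat_lit 473) (nat_lit 439) (nat_lit 228)) (XT.nd (nat_lit 78) (nat_lit 0) (nat_lit 0) (XT.lf (nat_lit 0) (nat_lit 5024964736) (nat_lit 836) (nat_lit 11196498447) (nat_lit 912) (nat_lit 2905997665) (nat_lit 327) (nat_lit 5) (nat_lit 338) (nat_lit 5) (nat_lit 339) (nat_lit 5)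 (nat_lit 474) (nat_lit 439) (nat_lit 227)) (XT.lf (nat_lit 0) (nat_lit 15191185305) (nat_lit 836) (nat_lit 3326830174) (nat_lit 912) (nat_lit 822781368) (nat_lit 327) (nat_lit 5) (nat_lit 338) (nat_lit 5) (nat_lit 339) (nat_lit 5) (nat_lit 475) (nat_lit 439) (nat_lit 226))))))) (XT.nd (nat_lit 780) (nat_lit 3192) (nat_lit 0) (XT.nd (nat_lit 390) (nat_lit 2204) (nat_lit 0) (XT.nd (nat_lit 156) (nat_lit 1520) (nat_lit 0) (XT.nd (nat_lit 78) (nat_lit 0) (nat_lit 0) (XT.lf (nat_lit 0) (nat_lit 1349990661) (nat_lit 912) (nat_lit 13520147958) (nat_lit 76) (nat_lit 4686794496) (nat_lit 315) (nat_lit 5) (nat_lit 327) (nat_lit 5) (nat_lit 316) (nat_lit 5) (nat_lit 476) (nat_lit 439) (nat_lit 225)) (XT.lf (nat_lit 0) (nat_lit 3600078880) (nat_lit 912) (nat_lit 3326639716) (nat_lit 76) (nat_lit 12849669150) (nat_lit 315) (nat_lit 5) (nat_lit 327) (nat_lit 5) (nat_lit 316) (nat_lit 5) (nat_lit 477) (nat_lit 439) (nat_lit 224)))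 (XT.nd (nat_lit 78) (nat_lit 760) (nat_lit 0) (XT.lf (nat_lit 0) (nat_lit 5944499351) (nat_lit 836) (nat_lit 12847903519) (nat_lit 76) (nat_lit 1206843917) (nat_lit 305) (nat_lit 5) (nat_lit 316) (nat_lit 5) (nat_lit 306) (nat_lit 5) (nat_lit 478) (nat_lit 439) (nat_lit 223)) (XT.nd (nat_lit 78) (nat_lit 760) (nat_lit 0) (XT.lf (nat_lit 0) (nat_lit 8399124258) (nat_lit 836) (nat_lit 2393418910) (nat_lit 76) (nat_lit 9432755408) (nat_lit 305) (nat_lit 5) (nat_lit 316) (nat_lit 5) (nat_lit 306) (nat_lit 5) (nat_lit 479) (nat_lit 439) (nat_lit 222)) (XT.lf (nat_lit 0) (nat_lit 8374834401) (nat_lit 760) (nat_lit 2577453198) (nat_lit 836) (nat_lit 9502596735) (nat_lit 295) (nat_lit 5) (nat_lit 305) (nat_lit 5) (nat_lit 306) (nat_lit 5) (nat_lit 480) (nat_lit 439) (nat_lit 221))))) (XT.nd (nat_lit 156) (nat_lit 1520) (nat_lit 0) (XT.nd (nat_lit 78) (nat_lit 684) (nat_lit 0) (XT.lf (nat_lit 0) (nat_lit 13605484361) (nat_lit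 836) (nat_lit 1340842740) (nat_lit 76) (nat_lit 5741757119) (nat_lit 295) (nat_lit 5) (nat_lit 306) (nat_lit 5) (nat_lit 296) (nat_lit 5) (nat_lit 481) (nat_lit 439) (nat_lit 220)) (XT.lf (nat_lit 0) (nat_lit 9718418611) (nat_lit 684) (nat_lit 6668722183) (nat_lit 760) (nat_lit 4537301174) (nat_lit 286) (nat_lit 5) (nat_lit 295) (nat_lit 5) (nat_lit 296) (nat_lit 5) (nat_lit 482) (nat_lit 439) (nat_lit 219))) (XT.nd (nat_lit 78) (nat_lit 1520) (nat_lit 0) (XT.lf (nat_lit 0) (nat_lit 19240294720) (nat_lit 760) (nat_lit 165066072) (nat_lit 76) (nat_lit 1759850538) (nat_lit 286) (nat_lit 5) (nat_lit 296) (nat_lit 5) (nat_lit 287) (nat_lit 5) (nat_lit 483) (nat_lit 439) (nat_lit 218)) (XT.nd (nat_lit 78) (nat_lit 684) (nat_lit 0) (XT.lf (nat_lit 0) (nat_lit 842978721) (nat_lit 836) (nat_lit 10219815429) (nat_lit 76) (nat_lit 10345648259) (nat_lit 275) (nat_lit 5) (nat_lit 286) (nat_lit 5) (nat_lit 276) (nat_lit 5) (nat_lit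 484) (nat_lit 439) (nat_lit 217)) (XT.lf (nat_lit 0) (nat_lit 1111835064) (nat_lit 684) (nat_lit 2532384761) (nat_lit 760) (nat_lit 18011990205) (nat_lit 266) (nat_lit 5) (nat_lit 275) (nat_lit 5) (nat_lit 276) (nat_lit 5) (nat_lit 485) (nat_lit 439) (nat_lit 216)))))) (XT.nd (nat_lit 390) (nat_lit 1900) (nat_lit 0) (XT.nd (nat_lit 156) (nat_lit 608) (nat_lit 0) (XT.nd (nat_lit 78) (nat_lit 684) (nat_lit 0) (XT.lf (nat_lit 0) (nat_lit 6606029432) (nat_lit 760) (nat_lit 9144578048) (nat_lit 76) (nat_lit 6156236263) (nat_lit 266) (nat_lit 5) (nat_lit 276) (nat_lit 5) (nat_lit 267) (nat_lit 5) (nat_lit 486) (nat_lit 439) (nat_lit 215)) (XT.lf (nat_lit 0) (nat_lit 2494093278) (nat_lit 684) (nat_lit 7161493379) (nat_lit 760) (nat_lit 12506334824) (nat_lit 257) (nat_lit 5) (nat_lit 266) (nat_lit 5) (nat_lit 267) (nat_lit 5) (nat_lit 487) (nat_lit 439) (nat_lit 214))) (XT.nd (nat_lit 78) (nat_lit 608) (nat_lit 0) (XT.lf (nat_lit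 0) (nat_lit 12833888666) (nat_lit 760) (nat_lit 7947282431) (nat_lit 76) (nat_lit 1639576153) (nat_lit 257) (nat_lit 5) (nat_lit 267) (nat_lit 5) (nat_lit 258) (nat_lit 5) (nat_lit 488) (nat_lit 439) (nat_lit 213)) (XT.nd (nat_lit 78) (nat_lit 0) (nat_lit 0) (XT.lf (nat_lit 0) (nat_lit 4007797016) (nat_lit 608) (nat_lit 12137092331) (nat_lit 684) (nat_lit 6538479055) (nat_lit 249) (nat_lit 5) (nat_lit 257) (nat_lit 5) (nat_lit 258) (nat_lit 5) (nat_lit 489) (nat_lit 439) (nat_lit 212)) (XT.lf (nat_lit 0) (nat_lit 16304725428) (nat_lit 608) (nat_lit 3266451597) (nat_lit 684) (nat_lit 3379085101) (nat_lit 249) (nat_lit 5) (nat_lit 257) (nat_lit 5) (nat_lit 258) (nat_lit 5) (nat_lit 490) (nat_lit 439) (nat_lit 211))))) (XT.nd (nat_lit 234) (nat_lit 608) (nat_lit 0) (XT.nd (nat_lit 78) (nat_lit 684) (nat_lit 0) (XT.lf (nat_lit 0) (nat_lit 5656787498) (nat_lit 608) (nat_lit 17479284141) (nat_lit 684) (nat_lit 85021923) (nat_lit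 241) (nat_lit 5) (nat_lit 249) (nat_lit 5) (nat_lit 250) (nat_lit 5) (nat_lit 491) (nat_lit 439) (nat_lit 210)) (XT.nd (nat_lit 78) (nat_lit 608) (nat_lit 0) (XT.lf (nat_lit 0) (nat_lit 3294330645) (nat_lit 684) (nat_lit 5249387032) (nat_lit 76) (nat_lit 14951952905) (nat_lit 240) (nat_lit 5) (nat_lit 249) (nat_lit 5) (nat_lit 241) (nat_lit 5) (nat_lit 492) (nat_lit 439) (nat_lit 209)) (XT.lf (nat_lit 0) (nat_lit 6788140881) (nat_lit 684) (nat_lit 16375394825) (nat_lit 76) (nat_lit 611233392) (nat_lit 232) (nat_lit 5) (nat_lit 241) (nat_lit 5) (nat_lit 233) (nat_lit 5) (nat_lit 493) (nat_lit 439) (nat_lit 208)))) (XT.nd (nat_lit 78) (nat_lit 608) (nat_lit 0) (XT.lf (nat_lit 0) (nat_lit 10439829260) (nat_lit 684) (nat_lit 3748225394) (nat_lit 76) (nat_lit 9869636242) (nat_lit 232) (nat_lit 5) (nat_lit 241) (nat_lit 5) (nat_lit 233) (nat_lit 5) (nat_lit 494) (nat_lit 439) (nat_lit 207)) (XT.nd (nat_lit 78) (nat_lit 0)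 (nat_lit 0) (XT.lf (nat_lit 0) (nat_lit 9247938784) (nat_lit 608) (nat_lit 4972697149) (nat_lit 684) (nat_lit 10124514827) (nat_lit 224) (nat_lit 5) (nat_lit 232) (nat_lit 5) (nat_lit 233) (nat_lit 5) (nat_lit 495) (nat_lit 439) (nat_lit 206)) (XT.lf (nat_lit 0) (nat_lit 18127202103) (nat_lit 684) (nat_lit 2116810684) (nat_lit 76) (nat_lit 4393345464) (nat_lit 224) (nat_lit 5) (nat_lit 233) (nat_lit 5) (nat_lit 225) (nat_lit 5) (nat_lit 496) (nat_lit 439) (nat_lit 205))))))))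
noncomputable def xc225 : XT := (XT.nd (nat_lit 56316) (nat_lit 0) (nat_lit 7904) (XT.nd (nat_lit 55458) (nat_lit 0) (nat_lit 15428) (XT.nd (nat_lit 55068) (nat_lit 0) (nat_lit 16872) (XT.nd (nat_lit 234) (nat_lit 1140) (nat_lit 0) (XT.nd (nat_lit 78) (nat_lit 76) (nat_lit 0) (XT.lf (nat_lit 0) (nat_lit 11232803815) (nat_lit 532) (nat_lit 10981116611) (nat_lit 608) (nat_lit 2719450320) (nat_lit 217) (nat_lit 5) (nat_lit 224) (nat_lit 5) (nat_lit 225) (nat_lit 5) (nat_lit 497) (nat_lit 439) (nat_lit 204)) (XT.lf (nat_lit 0) (nat_lit 1142500935) (nat_lit 608) (nat_lit 369260330) (nat_lit 76) (nat_lit 23723184990) (nat_lit 216) (nat_lit 5) (nat_lit 224) (nat_lit 5) (nat_lit 217) (nat_lit 5) (nat_lit 498) (nat_lit 439) (nat_lit 203))) (XT.nd (nat_lit 54678) (nat_lit 0) (nat_lit 16796) (XT.lf (nat_lit 0) (nat_lit 1456088918) (nat_lit 532) (nat_lit 7864505556) (nat_lit 608) (nat_lit 16529105657) (nat_lit 201) (nat_lit 5) (nat_lit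 208) (nat_lit 5) (nat_lit 209) (nat_lit 5) (nat_lit 500) (nat_lit 439) (nat_lit 201)) (XT.nd (nat_lit 78) (nat_lit 0) (nat_lit 0) (XT.lf (nat_lit 0) (nat_lit 3638712134) (nat_lit 1748) (nat_lit 1585650916) (nat_lit 1748) (nat_lit 1585650916) (nat_lit 422) (nat_lit 3) (nat_lit 445) (nat_lit 3) (nat_lit 445) (nat_lit 5) (nat_lit 440) (nat_lit 440) (nat_lit 260)) (XT.lf (nat_lit 76) (nat_lit 3329366056) (nat_lit 0) (nat_lit 4397128327) (nat_lit 1748) (nat_lit 6022052038) (nat_lit 423) (nat_lit 5) (nat_lit 422) (nat_lit 3) (nat_lit 445) (nat_lit 5) (nat_lit 441) (nat_lit 440) (nat_lit 259))))) (XT.nd (nat_lit 156) (nat_lit 0) (nat_lit 76) (XT.nd (nat_lit 78) (nat_lit 0) (nat_lit 0) (XT.lf (nat_lit 0) (nat_lit 8208190453) (nat_lit 1672) (nat_lit 3892873192) (nat_lit 1748) (nat_lit 1778102831) (nat_lit 423) (nat_lit 5) (nat_lit 445) (nat_lit 5) (nat_lit 446) (nat_lit 5) (nat_lit 442) (nat_lit 440) (nat_lit 258)) (XT.lf (nat_lit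 76) (nat_lit 2766187742) (nat_lit 0) (nat_lit 5971289918) (nat_lit 1748) (nat_lit 5274166137) (nat_lit 424) (nat_lit 5) (nat_lit 423) (nat_lit 5) (nat_lit 446) (nat_lit 5) (nat_lit 443) (nat_lit 440) (nat_lit 257))) (XT.nd (nat_lit 78) (nat_lit 0) (nat_lit 0) (XT.lf (nat_lit 0) (nat_lit 9296522570) (nat_lit 1672) (nat_lit 4542156183) (nat_lit 1748) (nat_lit 307712402) (nat_lit 424) (nat_lit 5) (nat_lit 446) (nat_lit 5) (nat_lit 447) (nat_lit 5) (nat_lit 444) (nat_lit 440) (nat_lit 256)) (XT.nd (nat_lit 78) (nat_lit 0) (nat_lit 0) (XT.lf (nat_lit 76) (nat_lit 2280566083) (nat_lit 0) (nat_lit 7631760459) (nat_lit 1748) (nat_lit 4370599208) (nat_lit 425) (nat_lit 5) (nat_lit 424) (nat_lit 5) (nat_lit 447) (nat_lit 5) (nat_lit 445) (nat_lit 440) (nat_lit 255)) (XT.lf (nat_lit 76) (nat_lit 9296337198) (nat_lit 0) (nat_lit 1265955633) (nat_lit 1748) (nat_lit 3859465058) (nat_lit 425) (nat_lit 5) (nat_lit 424) (nat_lit 5) (nat_lit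 447) (nat_lit 5) (nat_lit 446) (nat_lit 440) (nat_lit 254)))))) (XT.nd (nat_lit 390) (nat_lit 1596) (nat_lit 0) (XT.nd (nat_lit 156) (nat_lit 0) (nat_lit 76) (XT.nd (nat_lit 78) (nat_lit 0) (nat_lit 0) (XT.lf (nat_lit 76) (nat_lit 1874630515) (nat_lit 0) (nat_lit 9388296059) (nat_lit 1748) (nat_lit 3299690438) (nat_lit 426) (nat_lit 5) (nat_lit 425) (nat_lit 5) (nat_lit 448) (nat_lit 5) (nat_lit 447) (nat_lit 440) (nat_lit 253)) (XT.lf (nat_lit 76) (nat_lit 9070622888) (nat_lit 0) (nat_lit 2941364378) (nat_lit 1748) (nat_lit 2693621395) (nat_lit 426) (nat_lit 5) (nat_lit 425) (nat_lit 5) (nat_lit 448) (nat_lit 5) (nat_lit 448) (nat_lit 440) (nat_lit 252))) (XT.nd (nat_lit 78) (nat_lit 0) (nat_lit 0) (XT.lf (nat_lit 76) (nat_lit 1550685371) (nat_lit 0) (nat_lit 11250884565) (nat_lit 1748) (nat_lit 2049382953) (nat_lit 427) (nat_lit 5) (nat_lit 426) (nat_lit 5) (nat_lit 449) (nat_lit 5) (nat_lit 449) (nat_lit 440) (nat_lit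 251)) (XT.nd (nat_lit 78) (nat_lit 0) (nat_lit 76) (XT.lf (nat_lit 76) (nat_lit 8931619814) (nat_lit 0) (nat_lit 4724490537) (nat_lit 1748) (nat_lit 1342113817) (nat_lit 427) (nat_lit 5) (nat_lit 426) (nat_lit 5) (nat_lit 449) (nat_lit 5) (nat_lit 450) (nat_lit 440) (nat_lit 250)) (XT.lf (nat_lit 76) (nat_lit 1311207609) (nat_lit 0) (nat_lit 13229770427) (nat_lit 1748) (nat_lit 607201529) (nat_lit 428) (nat_lit 5) (nat_lit 427) (nat_lit 5) (nat_lit 450) (nat_lit 5) (nat_lit 451) (nat_lit 440) (nat_lit 249))))) (XT.nd (nat_lit 234) (nat_lit 0) (nat_lit 76) (XT.nd (nat_lit 78) (nat_lit 0) (nat_lit 76) (XT.lf (nat_lit 0) (nat_lit 205051317) (nat_lit 1748) (nat_lit 6419238770) (nat_lit 1824) (nat_lit 8675538578) (nat_lit 404) (nat_lit 5) (nat_lit 427) (nat_lit 5) (nat_lit 428) (nat_lit 5) (nat_lit 452) (nat_lit 440) (nat_lit 248)) (XT.nd (nat_lit 78) (nat_lit 0) (nat_lit 0) (XT.lf (nat_lit 0) (nat_lit 1026133369) (nat_lit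 1748) (nat_lit 14302460687) (nat_lit 1824) (nat_lit 125825352) (nat_lit 405) (nat_lit 5) (nat_lit 428) (nat_lit 5) (nat_lit 429) (nat_lit 5) (nat_lit 453) (nat_lit 440) (nat_lit 247)) (XT.lf (nat_lit 0) (nat_lit 1943394094) (nat_lit 1748) (nat_lit 6699079127) (nat_lit 1824) (nat_lit 6968036765) (nat_lit 405) (nat_lit 5) (nat_lit 428) (nat_lit 5) (nat_lit 429) (nat_lit 5) (nat_lit 454) (nat_lit 440) (nat_lit 246)))) (XT.nd (nat_lit 78) (nat_lit 0) (nat_lit 76) (XT.lf (nat_lit 76) (nat_lit 1065164814) (nat_lit 0) (nat_lit 1813423343) (nat_lit 1824) (nat_lit 12891145554) (nat_lit 406) (nat_lit 5) (nat_lit 405) (nat_lit 5) (nat_lit 429) (nat_lit 5) (nat_lit 455) (nat_lit 440) (nat_lit 245)) (XT.nd (nat_lit 78) (nat_lit 0) (nat_lit 0) (XT.lf (nat_lit 0) (nat_lit 3903985858) (nat_lit 1748) (nat_lit 6894792566) (nat_lit 1824) (nat_lit 5131936529) (nat_lit 406) (nat_lit 5) (nat_lit 429) (nat_lit 5) (nat_lit 430) (nat_lit 5)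 (nat_lit 456) (nat_lit 440) (nat_lit 244)) (XT.lf (nat_lit 76) (nat_lit 1067978659) (nat_lit 0) (nat_lit 3893793706) (nat_lit 1824) (nat_lit 11132908817) (nat_lit 407) (nat_lit 5) (nat_lit 406) (nat_lit 5) (nat_lit 430) (nat_lit 5) (nat_lit 457) (nat_lit 440) (nat_lit 243))))))) (XT.nd (nat_lit 858) (nat_lit 5092) (nat_lit 0) (XT.nd (nat_lit 390) (nat_lit 2660) (nat_lit 0) (XT.nd (nat_lit 156) (nat_lit 0) (nat_lit 76) (XT.nd (nat_lit 78) (nat_lit 0) (nat_lit 0) (XT.lf (nat_lit 0) (nat_lit 6100789986) (nat_lit 1748) (nat_lit 7003606498) (nat_lit 1824) (nat_lit 3156331663) (nat_lit 407) (nat_lit 5) (nat_lit 430) (nat_lit 5) (nat_lit 431) (nat_lit 5) (nat_lit 458) (nat_lit 440) (nat_lit 242)) (XT.lf (nat_lit 76) (nat_lit 1164220497) (nat_lit 0) (nat_lit 6124903268) (nat_lit 1824) (nat_lit 9140444434) (nat_lit 408) (nat_lit 5) (nat_lit 407) (nat_lit 5) (nat_lit 431) (nat_lit 5) (nat_lit 459) (nat_lit 440) (nat_lit 241)))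 (XT.nd (nat_lit 78) (nat_lit 0) (nat_lit 0) (XT.lf (nat_lit 0) (nat_lit 8548288265) (nat_lit 1748) (nat_lit 7022597296) (nat_lit 1824) (nat_lit 1029961016) (nat_lit 408) (nat_lit 5) (nat_lit 431) (nat_lit 5) (nat_lit 432) (nat_lit 5) (nat_lit 460) (nat_lit 440) (nat_lit 240)) (XT.nd (nat_lit 78) (nat_lit 0) (nat_lit 0) (XT.lf (nat_lit 76) (nat_lit 1357022016) (nat_lit 0) (nat_lit 8518418411) (nat_lit 1824) (nat_lit 6899256759) (nat_lit 409) (nat_lit 5) (nat_lit 408) (nat_lit 5) (nat_lit 432) (nat_lit 5) (nat_lit 461) (nat_lit 440) (nat_lit 239)) (XT.lf (nat_lit 76) (nat_lit 9994239805) (nat_lit 0) (nat_lit 1275547683) (nat_lit 1824) (nat_lit 5681426981) (nat_lit 409) (nat_lit 5) (nat_lit 408) (nat_lit 5) (nat_lit 432) (nat_lit 5) (nat_lit 462) (nat_lit 440) (nat_lit 238))))) (XT.nd (nat_lit 234) (nat_lit 1140) (nat_lit 0) (XT.nd (nat_lit 78) (nat_lit 1672) (nat_lit 0) (XT.lf (nat_lit 76) (nat_lit 1649668093) (nat_lit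 0) (nat_lit 11086410115) (nat_lit 1824) (nat_lit 4394305399) (nat_lit 410) (nat_lit 5) (nat_lit 409) (nat_lit 5) (nat_lit 433) (nat_lit 5) (nat_lit 463) (nat_lit 440) (nat_lit 237)) (XT.nd (nat_lit 78) (nat_lit 1672) (nat_lit 0) (XT.lf (nat_lit 76) (nat_lit 10508998974) (nat_lit 0) (nat_lit 3771524734) (nat_lit 1824) (nat_lit 3031638433) (nat_lit 410) (nat_lit 5) (nat_lit 409) (nat_lit 5) (nat_lit 433) (nat_lit 5) (nat_lit 464) (nat_lit 440) (nat_lit 236)) (XT.lf (nat_lit 0) (nat_lit 2045594042) (nat_lit 1748) (nat_lit 13841382627) (nat_lit 1824) (nat_lit 1609979748) (nat_lit 387) (nat_lit 5) (nat_lit 410) (nat_lit 5) (nat_lit 411) (nat_lit 5) (nat_lit 465) (nat_lit 440) (nat_lit 235)))) (XT.nd (nat_lit 78) (nat_lit 1140) (nat_lit 0) (XT.lf (nat_lit 0) (nat_lit 11133051676) (nat_lit 1748) (nat_lit 6456940280) (nat_lit 1824) (nat_lit 94168450) (nat_lit 387) (nat_lit 5) (nat_lit 410) (nat_lit 5) (nat_lit 411) (nat_lit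 5) (nat_lit 466) (nat_lit 440) (nat_lit 234)) (XT.nd (nat_lit 78) (nat_lit 0) (nat_lit 0) (XT.lf (nat_lit 0) (nat_lit 1450648750) (nat_lit 1140) (nat_lit 15335919599) (nat_lit 76) (nat_lit 1087999332) (nat_lit 372) (nat_lit 5) (nat_lit 387) (nat_lit 5) (nat_lit 373) (nat_lit 5) (nat_lit 467) (nat_lit 440) (nat_lit 233)) (XT.lf (nat_lit 0) (nat_lit 3106249054) (nat_lit 1140) (nat_lit 6217832786) (nat_lit 76) (nat_lit 8743068206) (nat_lit 372) (nat_lit 5) (nat_lit 387) (nat_lit 5) (nat_lit 373) (nat_lit 5) (nat_lit 468) (nat_lit 440) (nat_lit 232)))))) (XT.nd (nat_lit 390) (nat_lit 2508) (nat_lit 0) (XT.nd (nat_lit 156) (nat_lit 1672) (nat_lit 0) (XT.nd (nat_lit 78) (nat_lit 0) (nat_lit 0) (XT.lf (nat_lit 0) (nat_lit 3118361691) (nat_lit 912) (nat_lit 1691093970) (nat_lit 988) (nat_lit 13453840815) (nat_lit 360) (nat_lit 5) (nat_lit 372) (nat_lit 5) (nat_lit 373) (nat_lit 5) (nat_lit 469) (nat_lit 440) (nat_lit 231)) (XT.lf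 (nat_lit 0) (nat_lit 6622628522) (nat_lit 988) (nat_lit 5782050489) (nat_lit 76) (nat_lit 6057171038) (nat_lit 360) (nat_lit 5) (nat_lit 373) (nat_lit 5) (nat_lit 361) (nat_lit 5) (nat_lit 470) (nat_lit 440) (nat_lit 230))) (XT.nd (nat_lit 78) (nat_lit 836) (nat_lit 0) (XT.lf (nat_lit 0) (nat_lit 3801616409) (nat_lit 836) (nat_lit 4700772483) (nat_lit 912) (nat_lit 10161381533) (nat_lit 349) (nat_lit 5) (nat_lit 360) (nat_lit 5) (nat_lit 361) (nat_lit 5) (nat_lit 471) (nat_lit 440) (nat_lit 229)) (XT.nd (nat_lit 78) (nat_lit 836) (nat_lit 0) (XT.lf (nat_lit 0) (nat_lit 10473821219) (nat_lit 912) (nat_lit 5239590180) (nat_lit 76) (nat_lit 3155238444) (nat_lit 349) (nat_lit 5) (nat_lit 361) (nat_lit 5) (nat_lit 350) (nat_lit 5) (nat_lit 472) (nat_lit 440) (nat_lit 228)) (XT.lf (nat_lit 0) (nat_lit 4599504401) (nat_lit 836) (nat_lit 7940799682) (nat_lit 912) (nat_lit 6536212455) (nat_lit 338) (nat_lit 5) (nat_lit 349) (nat_lit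 5) (nat_lit 350) (nat_lit 5) (nat_lit 473) (nat_lit 440) (nat_lit 227))))) (XT.nd (nat_lit 234) (nat_lit 1672) (nat_lit 0) (XT.nd (nat_lit 78) (nat_lit 836) (nat_lit 0) (XT.lf (nat_lit 0) (nat_lit 14678128879) (nat_lit 912) (nat_lit 4586771410) (nat_lit 76) (nat_lit 23042119) (nat_lit 338) (nat_lit 5) (nat_lit 350) (nat_lit 5) (nat_lit 339) (nat_lit 5) (nat_lit 474) (nat_lit 440) (nat_lit 226)) (XT.nd (nat_lit 78) (nat_lit 0) (nat_lit 0) (XT.lf (nat_lit 0) (nat_lit 5515941573) (nat_lit 836) (nat_lit 11425975417) (nat_lit 912) (nat_lit 2560017714) (nat_lit 327) (nat_lit 5) (nat_lit 338) (nat_lit 5) (nat_lit 339) (nat_lit 5) (nat_lit 475) (nat_lit 440) (nat_lit 225)) (XT.lf (nat_lit 0) (nat_lit 15877830131) (nat_lit 836) (nat_lit 3398805014) (nat_lit 912) (nat_lit 443060619) (nat_lit 327) (nat_lit 5) (nat_lit 338) (nat_lit 5) (nat_lit 339) (nat_lit 5) (nat_lit 476) (nat_lit 440) (nat_lit 224)))) (XT.nd (nat_lit 78) (nat_lit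 760) (nat_lit 0) (XT.lf (nat_lit 0) (nat_lit 1762806957) (nat_lit 912) (nat_lit 13397075111) (nat_lit 76) (nat_lit 4780327442) (nat_lit 315) (nat_lit 5) (nat_lit 327) (nat_lit 5) (nat_lit 316) (nat_lit 5) (nat_lit 477) (nat_lit 440) (nat_lit 223)) (XT.nd (nat_lit 78) (nat_lit 760) (nat_lit 0) (XT.lf (nat_lit 0) (nat_lit 4050331912) (nat_lit 912) (nat_lit 3007411916) (nat_lit 76) (nat_lit 13106463568) (nat_lit 315) (nat_lit 5) (nat_lit 327) (nat_lit 5) (nat_lit 316) (nat_lit 5) (nat_lit 478) (nat_lit 440) (nat_lit 222)) (XT.lf (nat_lit 0) (nat_lit 6436776509) (nat_lit 836) (nat_lit 12714096441) (nat_lit 76) (nat_lit 1240750759) (nat_lit 305) (nat_lit 5) (nat_lit 316) (nat_lit 5) (nat_lit 306) (nat_lit 5) (nat_lit 479) (nat_lit 440) (nat_lit 221))))))))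
noncomputable def xc226 : XT := (XT.nd (nat_lit 56550) (nat_lit 0) (nat_lit 13680) (XT.nd (nat_lit 780) (nat_lit 2508) (nat_lit 0) (XT.nd (nat_lit 390) (nat_lit 1444) (nat_lit 0) (XT.nd (nat_lit 156) (nat_lit 1444) (nat_lit 0) (XT.nd (nat_lit 78) (nat_lit 760) (nat_lit 0) (XT.lf (nat_lit 0) (nat_lit 8933172597) (nat_lit 836) (nat_lit 2058184202) (nat_lit 76) (nat_lit 9630988912) (nat_lit 305) (nat_lit 5) (nat_lit 316) (nat_lit 5) (nat_lit 306) (nat_lit 5) (nat_lit 480) (nat_lit 440) (nat_lit 220)) (XT.lf (nat_lit 0) (nat_lit 8922913761) (nat_lit 760) (nat_lit 2609778678) (nat_lit 836) (nat_lit 9323927577) (nat_lit 295) (nat_lit 5) (nat_lit 305) (nat_lit 5) (nat_lit 306) (nat_lit 5) (nat_lit 481) (nat_lit 440) (nat_lit 219))) (XT.nd (nat_lit 78) (nat_lit 1444) (nat_lit 0) (XT.lf (nat_lit 0) (nat_lit 14231990029) (nat_lit 836) (nat_lit 987444041) (nat_lit 76) (nat_lit 5875191736) (nat_lit 295) (nat_lit 5) (nat_lit 306)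 (nat_lit 5) (nat_lit 296) (nat_lit 5) (nat_lit 482) (nat_lit 440) (nat_lit 218)) (XT.nd (nat_lit 78) (nat_lit 760) (nat_lit 0) (XT.lf (nat_lit 0) (nat_lit 10290501119) (nat_lit 684) (nat_lit 6774281901) (nat_lit 760) (nat_lit 4271020211) (nat_lit 286) (nat_lit 5) (nat_lit 295) (nat_lit 5) (nat_lit 296) (nat_lit 5) (nat_lit 483) (nat_lit 440) (nat_lit 217)) (XT.lf (nat_lit 0) (nat_lit 211525546) (nat_lit 760) (nat_lit 19758164119) (nat_lit 836) (nat_lit 1611807063) (nat_lit 276) (nat_lit 5) (nat_lit 286) (nat_lit 5) (nat_lit 287) (nat_lit 5) (nat_lit 484) (nat_lit 440) (nat_lit 216))))) (XT.nd (nat_lit 156) (nat_lit 684) (nat_lit 0) (XT.nd (nat_lit 78) (nat_lit 684) (nat_lit 0) (XT.lf (nat_lit 0) (nat_lit 1201124076) (nat_lit 836) (nat_lit 10044916414) (nat_lit 76) (nat_lit 10583622938) (nat_lit 275) (nat_lit 5) (nat_lit 286) (nat_lit 5) (nat_lit 276) (nat_lit 5) (nat_lit 485) (nat_lit 440) (nat_lit 215)) (XT.lf (nat_lit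 0) (nat_lit 1510871726) (nat_lit 684) (nat_lit 2543272834) (nat_lit 760) (nat_lit 18028329145) (nat_lit 266) (nat_lit 5) (nat_lit 275) (nat_lit 5) (nat_lit 276) (nat_lit 5) (nat_lit 486) (nat_lit 440) (nat_lit 214))) (XT.nd (nat_lit 78) (nat_lit 684) (nat_lit 0) (XT.lf (nat_lit 0) (nat_lit 7068834808) (nat_lit 760) (nat_lit 8951584962) (nat_lit 76) (nat_lit 6317829780) (nat_lit 266) (nat_lit 5) (nat_lit 276) (nat_lit 5) (nat_lit 267) (nat_lit 5) (nat_lit 487) (nat_lit 440) (nat_lit 213)) (XT.nd (nat_lit 78) (nat_lit 0) (nat_lit 0) (XT.lf (nat_lit 0) (nat_lit 2917386865) (nat_lit 684) (nat_lit 7257936733) (nat_lit 760) (nat_lit 12423188737) (nat_lit 257) (nat_lit 5) (nat_lit 266) (nat_lit 5) (nat_lit 267) (nat_lit 5) (nat_lit 488) (nat_lit 440) (nat_lit 212)) (XT.lf (nat_lit 0) (nat_lit 13411085045) (nat_lit 760) (nat_lit 7733918739) (nat_lit 76) (nat_lit 1717635225) (nat_lit 257) (nat_lit 5) (nat_lit 267) (nat_lit 5)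 (nat_lit 258) (nat_lit 5) (nat_lit 489) (nat_lit 440) (nat_lit 211)))))) (XT.nd (nat_lit 390) (nat_lit 608) (nat_lit 0) (XT.nd (nat_lit 156) (nat_lit 1292) (nat_lit 0) (XT.nd (nat_lit 78) (nat_lit 0) (nat_lit 0) (XT.lf (nat_lit 0) (nat_lit 4457812894) (nat_lit 608) (nat_lit 12326609543) (nat_lit 684) (nat_lit 6346170025) (nat_lit 249) (nat_lit 5) (nat_lit 257) (nat_lit 5) (nat_lit 258) (nat_lit 5) (nat_lit 490) (nat_lit 440) (nat_lit 210)) (XT.lf (nat_lit 0) (nat_lit 16993427719) (nat_lit 608) (nat_lit 3279599614) (nat_lit 684) (nat_lit 3129923067) (nat_lit 249) (nat_lit 5) (nat_lit 257) (nat_lit 5) (nat_lit 258) (nat_lit 5) (nat_lit 491) (nat_lit 440) (nat_lit 209))) (XT.nd (nat_lit 78) (nat_lit 608) (nat_lit 0) (XT.lf (nat_lit 0) (nat_lit 223602850) (nat_lit 684) (nat_lit 17544654910) (nat_lit 76) (nat_lit 5910980954) (nat_lit 240) (nat_lit 5) (nat_lit 249) (nat_lit 5) (nat_lit 241) (nat_lit 5) (nat_lit 492) (nat_lit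 440) (nat_lit 208)) (XT.nd (nat_lit 78) (nat_lit 608) (nat_lit 0) (XT.lf (nat_lit 0) (nat_lit 3663342585) (nat_lit 684) (nat_lit 4991262795) (nat_lit 76) (nat_lit 15304813928) (nat_lit 240) (nat_lit 5) (nat_lit 249) (nat_lit 5) (nat_lit 241) (nat_lit 5) (nat_lit 493) (nat_lit 440) (nat_lit 207)) (XT.lf (nat_lit 0) (nat_lit 7223824792) (nat_lit 684) (nat_lit 16336486335) (nat_lit 76) (nat_lit 683854756) (nat_lit 232) (nat_lit 5) (nat_lit 241) (nat_lit 5) (nat_lit 233) (nat_lit 5) (nat_lit 494) (nat_lit 440) (nat_lit 206))))) (XT.nd (nat_lit 55146) (nat_lit 0) (nat_lit 15048) (XT.nd (nat_lit 78) (nat_lit 608) (nat_lit 0) (XT.lf (nat_lit 0) (nat_lit 10942666132) (nat_lit 684) (nat_lit 3463958150) (nat_lit 76) (nat_lit 10126241413) (nat_lit 232) (nat_lit 5) (nat_lit 241) (nat_lit 5) (nat_lit 233) (nat_lit 5) (nat_lit 495) (nat_lit 440) (nat_lit 205)) (XT.nd (nat_lit 78) (nat_lit 0) (nat_lit 0) (XT.lf (nat_lit 0) (nat_lit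 9789765944) (nat_lit 608) (nat_lit 5005874525) (nat_lit 684) (nat_lit 10030505183) (nat_lit 224) (nat_lit 5) (nat_lit 232) (nat_lit 5) (nat_lit 233) (nat_lit 5) (nat_lit 496) (nat_lit 440) (nat_lit 204)) (XT.lf (nat_lit 0) (nat_lit 18775061958) (nat_lit 684) (nat_lit 1803905529) (nat_lit 76) (nat_lit 4545337215) (nat_lit 224) (nat_lit 5) (nat_lit 233) (nat_lit 5) (nat_lit 225) (nat_lit 5) (nat_lit 497) (nat_lit 440) (nat_lit 203)))) (XT.nd (nat_lit 78) (nat_lit 0) (nat_lit 0) (XT.lf (nat_lit 0) (nat_lit 4063862982) (nat_lit 1748) (nat_lit 1437574434) (nat_lit 1748) (nat_lit 1437574434) (nat_lit 422) (nat_lit 3) (nat_lit 445) (nat_lit 3) (nat_lit 445) (nat_lit 5) (nat_lit 441) (nat_lit 441) (nat_lit 258)) (XT.nd (nat_lit 78) (nat_lit 0) (nat_lit 76) (XT.lf (nat_lit 76) (nat_lit 3753166726) (nat_lit 0) (nat_lit 4821111332) (nat_lit 1748) (nat_lit 5435070565) (nat_lit 423) (nat_lit 5) (nat_lit 422) (nat_lit 3) (nat_lit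 445) (nat_lit 5) (nat_lit 442) (nat_lit 441) (nat_lit 257)) (XT.lf (nat_lit 0) (nat_lit 9049875822) (nat_lit 1672) (nat_lit 3604491566) (nat_lit 1748) (nat_lit 1488534291) (nat_lit 423) (nat_lit 5) (nat_lit 445) (nat_lit 5) (nat_lit 446) (nat_lit 5) (nat_lit 443) (nat_lit 441) (nat_lit 256))))))) (XT.nd (nat_lit 780) (nat_lit 0) (nat_lit 0) (XT.nd (nat_lit 390) (nat_lit 1444) (nat_lit 0) (XT.nd (nat_lit 156) (nat_lit 0) (nat_lit 76) (XT.nd (nat_lit 78) (nat_lit 0) (nat_lit 76) (XT.lf (nat_lit 76) (nat_lit 3185341119) (nat_lit 0) (nat_lit 6393485140) (nat_lit 1748) (nat_lit 4699426574) (nat_lit 424) (nat_lit 5) (nat_lit 423) (nat_lit 5) (nat_lit 446) (nat_lit 5) (nat_lit 444) (nat_lit 441) (nat_lit 255)) (XT.lf (nat_lit 0) (nat_lit 10134054263) (nat_lit 1672) (nat_lit 4261019658) (nat_lit 1748) (nat_lit 20926897) (nat_lit 424) (nat_lit 5) (nat_lit 446) (nat_lit 5) (nat_lit 447) (nat_lit 5) (nat_lit 445) (nat_lit 441)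 (nat_lit 254))) (XT.nd (nat_lit 78) (nat_lit 0) (nat_lit 0) (XT.lf (nat_lit 76) (nat_lit 2695709819) (nat_lit 0) (nat_lit 8056087250) (nat_lit 1748) (nat_lit 3803682191) (nat_lit 425) (nat_lit 5) (nat_lit 424) (nat_lit 5) (nat_lit 447) (nat_lit 5) (nat_lit 446) (nat_lit 441) (nat_lit 253)) (XT.nd (nat_lit 78) (nat_lit 0) (nat_lit 76) (XT.lf (nat_lit 76) (nat_lit 9844550623) (nat_lit 0) (nat_lit 1557639041) (nat_lit 1748) (nat_lit 3295155338) (nat_lit 425) (nat_lit 5) (nat_lit 424) (nat_lit 5) (nat_lit 447) (nat_lit 5) (nat_lit 447) (nat_lit 441) (nat_lit 252)) (XT.lf (nat_lit 76) (nat_lit 2286507895) (nat_lit 0) (nat_lit 9818736948) (nat_lit 1748) (nat_lit 2736013682) (nat_lit 426) (nat_lit 5) (nat_lit 425) (nat_lit 5) (nat_lit 448) (nat_lit 5) (nat_lit 448) (nat_lit 441) (nat_lit 251))))) (XT.nd (nat_lit 156) (nat_lit 1596) (nat_lit 0) (XT.nd (nat_lit 78) (nat_lit 0) (nat_lit 76) (XT.lf (nat_lit 76) (nat_lit 9619079238)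 (nat_lit 0) (nat_lit 3238108301) (nat_lit 1748) (nat_lit 2130169740) (nat_lit 426) (nat_lit 5) (nat_lit 425) (nat_lit 5) (nat_lit 448) (nat_lit 5) (nat_lit 449) (nat_lit 441) (nat_lit 250)) (XT.lf (nat_lit 76) (nat_lit 1960144975) (nat_lit 0) (nat_lit 11691497613) (nat_lit 1748) (nat_lit 1484189371) (nat_lit 427) (nat_lit 5) (nat_lit 426) (nat_lit 5) (nat_lit 449) (nat_lit 5) (nat_lit 450) (nat_lit 441) (nat_lit 249))) (XT.nd (nat_lit 78) (nat_lit 1672) (nat_lit 0) (XT.lf (nat_lit 76) (nat_lit 9481277599) (nat_lit 0) (nat_lit 5030348345) (nat_lit 1748) (nat_lit 774660759) (nat_lit 427) (nat_lit 5) (nat_lit 426) (nat_lit 5) (nat_lit 449) (nat_lit 5) (nat_lit 451) (nat_lit 441) (nat_lit 248)) (XT.nd (nat_lit 78) (nat_lit 1748) (nat_lit 0) (XT.lf (nat_lit 76) (nat_lit 1719203153) (nat_lit 0) (nat_lit 13684701632) (nat_lit 1748) (nat_lit 35547129) (nat_lit 428) (nat_lit 5) (nat_lit 427) (nat_lit 5) (nat_lit 450) (nat_lit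 5) (nat_lit 452) (nat_lit 441) (nat_lit 247)) (XT.lf (nat_lit 0) (nat_lit 773997254) (nat_lit 1748) (nat_lit 6165591951) (nat_lit 1824) (nat_lit 8654699710) (nat_lit 404) (nat_lit 5) (nat_lit 427) (nat_lit 5) (nat_lit 428) (nat_lit 5) (nat_lit 453) (nat_lit 441) (nat_lit 246)))))) (XT.nd (nat_lit 390) (nat_lit 0) (nat_lit 228) (XT.nd (nat_lit 156) (nat_lit 0) (nat_lit 76) (XT.nd (nat_lit 78) (nat_lit 0) (nat_lit 76) (XT.lf (nat_lit 76) (nat_lit 1555377367) (nat_lit 0) (nat_lit 46667919) (nat_lit 1824) (nat_lit 14150119994) (nat_lit 405) (nat_lit 5) (nat_lit 404) (nat_lit 5) (nat_lit 428) (nat_lit 5) (nat_lit 454) (nat_lit 441) (nat_lit 245)) (XT.lf (nat_lit 0) (nat_lit 2526464183) (nat_lit 1748) (nat_lit 6448722487) (nat_lit 1824) (nat_lit 6936419342) (nat_lit 405) (nat_lit 5) (nat_lit 428) (nat_lit 5) (nat_lit 429) (nat_lit 5) (nat_lit 455) (nat_lit 441) (nat_lit 244))) (XT.nd (nat_lit 78) (nat_lit 0) (nat_lit 76) (XT.lf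 (nat_lit 76) (nat_lit 1468277791) (nat_lit 0) (nat_lit 2003892666) (nat_lit 1824) (nat_lit 12602012100) (nat_lit 406) (nat_lit 5) (nat_lit 405) (nat_lit 5) (nat_lit 429) (nat_lit 5) (nat_lit 456) (nat_lit 441) (nat_lit 243)) (XT.nd (nat_lit 78) (nat_lit 0) (nat_lit 0) (XT.lf (nat_lit 0) (nat_lit 4506584558) (nat_lit 1748) (nat_lit 6646652454) (nat_lit 1824) (nat_lit 5085380667) (nat_lit 406) (nat_lit 5) (nat_lit 429) (nat_lit 5) (nat_lit 430) (nat_lit 5) (nat_lit 457) (nat_lit 441) (nat_lit 242)) (XT.lf (nat_lit 76) (nat_lit 1472834485) (nat_lit 0) (nat_lit 4104897536) (nat_lit 1824) (nat_lit 10828291444) (nat_lit 407) (nat_lit 5) (nat_lit 406) (nat_lit 5) (nat_lit 430) (nat_lit 5) (nat_lit 458) (nat_lit 441) (nat_lit 241))))) (XT.nd (nat_lit 234) (nat_lit 0) (nat_lit 76) (XT.nd (nat_lit 78) (nat_lit 0) (nat_lit 0) (XT.lf (nat_lit 0) (nat_lit 6728550105) (nat_lit 1748) (nat_lit 6756509416) (nat_lit 1824) (nat_lit 3090555700)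 (nat_lit 407) (nat_lit 5) (nat_lit 430) (nat_lit 5) (nat_lit 431) (nat_lit 5) (nat_lit 459) (nat_lit 441) (nat_lit 240)) (XT.nd (nat_lit 78) (nat_lit 0) (nat_lit 76) (XT.lf (nat_lit 76) (nat_lit 1572126953) (nat_lit 0) (nat_lit 6361104271) (nat_lit 1824) (nat_lit 8814753404) (nat_lit 408) (nat_lit 5) (nat_lit 407) (nat_lit 5) (nat_lit 431) (nat_lit 5) (nat_lit 460) (nat_lit 441) (nat_lit 239)) (XT.lf (nat_lit 0) (nat_lit 9207084177) (nat_lit 1748) (nat_lit 6775269618) (nat_lit 1824) (nat_lit 940548762) (nat_lit 408) (nat_lit 5) (nat_lit 431) (nat_lit 5) (nat_lit 432) (nat_lit 5) (nat_lit 461) (nat_lit 441) (nat_lit 238)))) (XT.nd (nat_lit 78) (nat_lit 0) (nat_lit 0) (XT.lf (nat_lit 76) (nat_lit 1769390898) (nat_lit 0) (nat_lit 8784324346) (nat_lit 1824) (nat_lit 6546660225) (nat_lit 409) (nat_lit 5) (nat_lit 408) (nat_lit 5) (nat_lit 432) (nat_lit 5) (nat_lit 462) (nat_lit 441) (nat_lit 237)) (XT.nd (nat_lit 78) (nat_lit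 0) (nat_lit 76) (XT.lf (nat_lit 76) (nat_lit 10571799543) (nat_lit 0) (nat_lit 1394722918) (nat_lit 1824) (nat_lit 5314093100) (nat_lit 409) (nat_lit 5) (nat_lit 408) (nat_lit 5) (nat_lit 432) (nat_lit 5) (nat_lit 463) (nat_lit 441) (nat_lit 236)) (XT.lf (nat_lit 76) (nat_lit 2068015711) (nat_lit 0) (nat_lit 11386787109) (nat_lit 1824) (nat_lit 4008715837) (nat_lit 410) (nat_lit 5) (nat_lit 409) (nat_lit 5) (nat_lit 433) (nat_lit 5) (nat_lit 464) (nat_lit 441) (nat_lit 235))))))))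
noncomputable def xc227 : XT := (XT.nd (nat_lit 1638) (nat_lit 3952) (nat_lit 0) (XT.nd (nat_lit 780) (nat_lit 4712) (nat_lit 0) (XT.nd (nat_lit 390) (nat_lit 2584) (nat_lit 0) (XT.nd (nat_lit 156) (nat_lit 1140) (nat_lit 0) (XT.nd (nat_lit 78) (nat_lit 1672) (nat_lit 0) (XT.lf (nat_lit 76) (nat_lit 11096977243) (nat_lit 0) (nat_lit 3924061887) (nat_lit 1824) (nat_lit 2628079369) (nat_lit 410) (nat_lit 5) (nat_lit 409) (nat_lit 5) (nat_lit 433) (nat_lit 5) (nat_lit 465) (nat_lit 441) (nat_lit 234)) (XT.lf (nat_lit 0) (nat_lit 2471541819) (nat_lit 1748) (nat_lit 14181168725) (nat_lit 1824) (nat_lit 1185040032) (nat_lit 387) (nat_lit 5) (nat_lit 410) (nat_lit 5) (nat_lit 411) (nat_lit 5) (nat_lit 466) (nat_lit 441) (nat_lit 233))) (XT.nd (nat_lit 78) (nat_lit 1064) (nat_lit 0) (XT.lf (nat_lit 0) (nat_lit 347505806) (nat_lit 1824) (nat_lit 6297965297) (nat_lit 76) (nat_lit 11383361128) (nat_lit 386) (nat_lit 5) (nat_lit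 410) (nat_lit 5) (nat_lit 387) (nat_lit 5) (nat_lit 467) (nat_lit 441) (nat_lit 232)) (XT.nd (nat_lit 78) (nat_lit 0) (nat_lit 0) (XT.lf (nat_lit 0) (nat_lit 1915403313) (nat_lit 1140) (nat_lit 15252365306) (nat_lit 76) (nat_lit 1055401174) (nat_lit 372) (nat_lit 5) (nat_lit 387) (nat_lit 5) (nat_lit 373) (nat_lit 5) (nat_lit 468) (nat_lit 441) (nat_lit 231)) (XT.lf (nat_lit 0) (nat_lit 3595571671) (nat_lit 1140) (nat_lit 5959569162) (nat_lit 76) (nat_lit 8864637272) (nat_lit 372) (nat_lit 5) (nat_lit 387) (nat_lit 5) (nat_lit 373) (nat_lit 5) (nat_lit 469) (nat_lit 441) (nat_lit 230))))) (XT.nd (nat_lit 156) (nat_lit 1672) (nat_lit 0) (XT.nd (nat_lit 78) (nat_lit 0) (nat_lit 0) (XT.lf (nat_lit 0) (nat_lit 3560831966) (nat_lit 912) (nat_lit 1766101901) (nat_lit 988) (nat_lit 13293035121) (nat_lit 360) (nat_lit 5) (nat_lit 372) (nat_lit 5) (nat_lit 373) (nat_lit 5) (nat_lit 470) (nat_lit 441) (nat_lit 229)) (XT.lf (nat_lit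 0) (nat_lit 7167847450) (nat_lit 988) (nat_lit 5516354375) (nat_lit 76) (nat_lit 6138465548) (nat_lit 360) (nat_lit 5) (nat_lit 373) (nat_lit 5) (nat_lit 361) (nat_lit 5) (nat_lit 471) (nat_lit 441) (nat_lit 228))) (XT.nd (nat_lit 78) (nat_lit 836) (nat_lit 0) (XT.lf (nat_lit 0) (nat_lit 4256477064) (nat_lit 836) (nat_lit 4823092111) (nat_lit 912) (nat_lit 9949172882) (nat_lit 349) (nat_lit 5) (nat_lit 360) (nat_lit 5) (nat_lit 361) (nat_lit 5) (nat_lit 472) (nat_lit 441) (nat_lit 227)) (XT.nd (nat_lit 78) (nat_lit 836) (nat_lit 0) (XT.lf (nat_lit 0) (nat_lit 11082266992) (nat_lit 912) (nat_lit 4964660539) (nat_lit 76) (nat_lit 3190957954) (nat_lit 349) (nat_lit 5) (nat_lit 361) (nat_lit 5) (nat_lit 350) (nat_lit 5) (nat_lit 473) (nat_lit 441) (nat_lit 226)) (XT.lf (nat_lit 0) (nat_lit 5068717767) (nat_lit 836) (nat_lit 8115988002) (nat_lit 912) (nat_lit 6265314319) (nat_lit 338) (nat_lit 5) (nat_lit 349) (nat_lit 5)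 (nat_lit 350) (nat_lit 5) (nat_lit 474) (nat_lit 441) (nat_lit 225)))))) (XT.nd (nat_lit 390) (nat_lit 2964) (nat_lit 0) (XT.nd (nat_lit 156) (nat_lit 912) (nat_lit 0) (XT.nd (nat_lit 78) (nat_lit 836) (nat_lit 0) (XT.lf (nat_lit 0) (nat_lit 15357465284) (nat_lit 912) (nat_lit 4300706486) (nat_lit 76) (nat_lit 7662177) (nat_lit 338) (nat_lit 5) (nat_lit 350) (nat_lit 5) (nat_lit 339) (nat_lit 5) (nat_lit 475) (nat_lit 441) (nat_lit 224)) (XT.lf (nat_lit 0) (nat_lit 6001575228) (nat_lit 836) (nat_lit 11659826529) (nat_lit 912) (nat_lit 2222809856) (nat_lit 327) (nat_lit 5) (nat_lit 338) (nat_lit 5) (nat_lit 339) (nat_lit 5) (nat_lit 476) (nat_lit 441) (nat_lit 223))) (XT.nd (nat_lit 78) (nat_lit 912) (nat_lit 0) (XT.lf (nat_lit 0) (nat_lit 16563342443) (nat_lit 836) (nat_lit 3472008177) (nat_lit 912) (nat_lit 71129466) (nat_lit 327) (nat_lit 5) (nat_lit 338) (nat_lit 5) (nat_lit 339) (nat_lit 5) (nat_lit 477) (nat_lit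 441) (nat_lit 222)) (XT.nd (nat_lit 78) (nat_lit 0) (nat_lit 0) (XT.lf (nat_lit 0) (nat_lit 2168897856) (nat_lit 912) (nat_lit 13286819951) (nat_lit 76) (nat_lit 4875738928) (nat_lit 315) (nat_lit 5) (nat_lit 327) (nat_lit 5) (nat_lit 316) (nat_lit 5) (nat_lit 478) (nat_lit 441) (nat_lit 221)) (XT.lf (nat_lit 0) (nat_lit 4494902040) (nat_lit 912) (nat_lit 2696779113) (nat_lit 76) (nat_lit 13368401601) (nat_lit 315) (nat_lit 5) (nat_lit 327) (nat_lit 5) (nat_lit 316) (nat_lit 5) (nat_lit 479) (nat_lit 441) (nat_lit 220))))) (XT.nd (nat_lit 234) (nat_lit 1444) (nat_lit 0) (XT.nd (nat_lit 78) (nat_lit 760) (nat_lit 0) (XT.lf (nat_lit 0) (nat_lit 6924400132) (nat_lit 836) (nat_lit 12592787108) (nat_lit 76) (nat_lit 1274956357) (nat_lit 305) (nat_lit 5) (nat_lit 316) (nat_lit 5) (nat_lit 306) (nat_lit 5) (nat_lit 480) (nat_lit 441) (nat_lit 219)) (XT.nd (nat_lit 78) (nat_lit 760) (nat_lit 0) (XT.lf (nat_lit 0) (nat_lit 9463687120)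 (nat_lit 836) (nat_lit 1731121159) (nat_lit 76) (nat_lit 9832815144) (nat_lit 305) (nat_lit 5) (nat_lit 316) (nat_lit 5) (nat_lit 306) (nat_lit 5) (nat_lit 481) (nat_lit 441) (nat_lit 218)) (XT.lf (nat_lit 0) (nat_lit 9467176219) (nat_lit 760) (nat_lit 2643497142) (nat_lit 836) (nat_lit 9156002925) (nat_lit 295) (nat_lit 5) (nat_lit 305) (nat_lit 5) (nat_lit 306) (nat_lit 5) (nat_lit 482) (nat_lit 441) (nat_lit 217)))) (XT.nd (nat_lit 78) (nat_lit 1444) (nat_lit 0) (XT.lf (nat_lit 0) (nat_lit 14857264182) (nat_lit 836) (nat_lit 641741601) (nat_lit 76) (nat_lit 6010572804) (nat_lit 295) (nat_lit 5) (nat_lit 306) (nat_lit 5) (nat_lit 296) (nat_lit 5) (nat_lit 483) (nat_lit 441) (nat_lit 216)) (XT.nd (nat_lit 78) (nat_lit 760) (nat_lit 0) (XT.lf (nat_lit 0) (nat_lit 10859358177) (nat_lit 684) (nat_lit 6883032893) (nat_lit 760) (nat_lit 4013277422) (nat_lit 286) (nat_lit 5) (nat_lit 295) (nat_lit 5) (nat_lit 296) (nat_lit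 5) (nat_lit 484) (nat_lit 441) (nat_lit 215)) (XT.lf (nat_lit 0) (nat_lit 583047921) (nat_lit 760) (nat_lit 20118308444) (nat_lit 836) (nat_lit 1305002725) (nat_lit 276) (nat_lit 5) (nat_lit 286) (nat_lit 5) (nat_lit 287) (nat_lit 5) (nat_lit 485) (nat_lit 441) (nat_lit 214))))))) (XT.nd (nat_lit 858) (nat_lit 608) (nat_lit 0) (XT.nd (nat_lit 390) (nat_lit 1900) (nat_lit 0) (XT.nd (nat_lit 156) (nat_lit 684) (nat_lit 0) (XT.nd (nat_lit 78) (nat_lit 684) (nat_lit 0) (XT.lf (nat_lit 0) (nat_lit 1553179795) (nat_lit 836) (nat_lit 9881247918) (nat_lit 76) (nat_lit 10825150947) (nat_lit 275) (nat_lit 5) (nat_lit 286) (nat_lit 5) (nat_lit 276) (nat_lit 5) (nat_lit 486) (nat_lit 441) (nat_lit 213)) (XT.lf (nat_lit 0) (nat_lit 1903257518) (nat_lit 684) (nat_lit 2555922583) (nat_lit 760) (nat_lit 18058348954) (nat_lit 266) (nat_lit 5) (nat_lit 275) (nat_lit 5) (nat_lit 276) (nat_lit 5) (nat_lit 487) (nat_lit 441) (nat_lit 212)))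 (XT.nd (nat_lit 78) (nat_lit 684) (nat_lit 0) (XT.lf (nat_lit 0) (nat_lit 7528055398) (nat_lit 760) (nat_lit 8769328073) (nat_lit 76) (nat_lit 6481161377) (nat_lit 266) (nat_lit 5) (nat_lit 276) (nat_lit 5) (nat_lit 267) (nat_lit 5) (nat_lit 488) (nat_lit 441) (nat_lit 211)) (XT.nd (nat_lit 78) (nat_lit 0) (nat_lit 0) (XT.lf (nat_lit 0) (nat_lit 3334646292) (nat_lit 684) (nat_lit 7358125732) (nat_lit 760) (nat_lit 12351321117) (nat_lit 257) (nat_lit 5) (nat_lit 266) (nat_lit 5) (nat_lit 267) (nat_lit 5) (nat_lit 489) (nat_lit 441) (nat_lit 210)) (XT.lf (nat_lit 0) (nat_lit 13987379224) (nat_lit 760) (nat_lit 7530744998) (nat_lit 76) (nat_lit 1795497685) (nat_lit 257) (nat_lit 5) (nat_lit 267) (nat_lit 5) (nat_lit 258) (nat_lit 5) (nat_lit 490) (nat_lit 441) (nat_lit 209))))) (XT.nd (nat_lit 234) (nat_lit 608) (nat_lit 0) (XT.nd (nat_lit 78) (nat_lit 684) (nat_lit 0) (XT.lf (nat_lit 0) (nat_lit 4902466977) (nat_lit 608)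 (nat_lit 12521983877) (nat_lit 684) (nat_lit 6162560350) (nat_lit 249) (nat_lit 5) (nat_lit 257) (nat_lit 5) (nat_lit 258) (nat_lit 5) (nat_lit 491) (nat_lit 441) (nat_lit 208)) (XT.nd (nat_lit 78) (nat_lit 684) (nat_lit 0) (XT.lf (nat_lit 0) (nat_lit 17681823553) (nat_lit 608) (nat_lit 3295036845) (nat_lit 684) (nat_lit 2888077336) (nat_lit 249) (nat_lit 5) (nat_lit 257) (nat_lit 5) (nat_lit 258) (nat_lit 5) (nat_lit 492) (nat_lit 441) (nat_lit 207)) (XT.lf (nat_lit 0) (nat_lit 525256600) (nat_lit 684) (nat_lit 17539555874) (nat_lit 76) (nat_lit 6081967204) (nat_lit 240) (nat_lit 5) (nat_lit 249) (nat_lit 5) (nat_lit 241) (nat_lit 5) (nat_lit 493) (nat_lit 441) (nat_lit 206)))) (XT.nd (nat_lit 78) (nat_lit 608) (nat_lit 0) (XT.lf (nat_lit 0) (nat_lit 4027964037) (nat_lit 684) (nat_lit 4742076155) (nat_lit 76) (nat_lit 15662642198) (nat_lit 240) (nat_lit 5) (nat_lit 249) (nat_lit 5) (nat_lit 241) (nat_lit 5) (nat_lit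 494) (nat_lit 441) (nat_lit 205)) (XT.nd (nat_lit 78) (nat_lit 0) (nat_lit 0) (XT.lf (nat_lit 0) (nat_lit 7656576079) (nat_lit 684) (nat_lit 16311028071) (nat_lit 76) (nat_lit 755583269) (nat_lit 232) (nat_lit 5) (nat_lit 241) (nat_lit 5) (nat_lit 233) (nat_lit 5) (nat_lit 495) (nat_lit 441) (nat_lit 204)) (XT.lf (nat_lit 0) (nat_lit 11444141799) (nat_lit 684) (nat_lit 3187954969) (nat_lit 76) (nat_lit 10385679397) (nat_lit 232) (nat_lit 5) (nat_lit 241) (nat_lit 5) (nat_lit 233) (nat_lit 5) (nat_lit 496) (nat_lit 441) (nat_lit 203)))))) (XT.nd (nat_lit 55380) (nat_lit 0) (nat_lit 15124) (XT.nd (nat_lit 55146) (nat_lit 0) (nat_lit 15048) (XT.nd (nat_lit 55068) (nat_lit 0) (nat_lit 15048) (XT.lf (nat_lit 0) (nat_lit 10328572013) (nat_lit 608) (nat_lit 5042289049) (nat_lit 684) (nat_lit 9946128801) (nat_lit 224) (nat_lit 5) (nat_lit 232) (nat_lit 5) (nat_lit 233) (nat_lit 5) (nat_lit 497) (nat_lit 441) (nat_lit 202)) (XT.lf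 (nat_lit 0) (nat_lit 4483833635) (nat_lit 1748) (nat_lit 1293517868) (nat_lit 1748) (nat_lit 1293517868) (nat_lit 422) (nat_lit 3) (nat_lit 445) (nat_lit 3) (nat_lit 445) (nat_lit 5) (nat_lit 442) (nat_lit 442) (nat_lit 256))) (XT.nd (nat_lit 78) (nat_lit 0) (nat_lit 76) (XT.lf (nat_lit 76) (nat_lit 4171572379) (nat_lit 0) (nat_lit 5240525139) (nat_lit 1748) (nat_lit 4863819541) (nat_lit 423) (nat_lit 5) (nat_lit 422) (nat_lit 3) (nat_lit 445) (nat_lit 5) (nat_lit 443) (nat_lit 442) (nat_lit 255)) (XT.nd (nat_lit 78) (nat_lit 0) (nat_lit 0) (XT.lf (nat_lit 0) (nat_lit 9882085910) (nat_lit 1672) (nat_lit 3324563818) (nat_lit 1748) (nat_lit 1205799597) (nat_lit 423) (nat_lit 5) (nat_lit 445) (nat_lit 5) (nat_lit 446) (nat_lit 5) (nat_lit 444) (nat_lit 442) (nat_lit 254)) (XT.lf (nat_lit 76) (nat_lit 3598749616) (nat_lit 0) (nat_lit 6812367361) (nat_lit 1748) (nat_lit 4139606103) (nat_lit 424) (nat_lit 5) (nat_lit 423)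 (nat_lit 5) (nat_lit 446) (nat_lit 5) (nat_lit 445) (nat_lit 442) (nat_lit 253))))) (XT.nd (nat_lit 234) (nat_lit 0) (nat_lit 152) (XT.nd (nat_lit 78) (nat_lit 0) (nat_lit 76) (XT.lf (nat_lit 76) (nat_lit 10701068801) (nat_lit 0) (nat_lit 263677285) (nat_lit 1748) (nat_lit 3726739507) (nat_lit 424) (nat_lit 5) (nat_lit 423) (nat_lit 5) (nat_lit 446) (nat_lit 5) (nat_lit 446) (nat_lit 442) (nat_lit 252)) (XT.nd (nat_lit 78) (nat_lit 0) (nat_lit 0) (XT.lf (nat_lit 76) (nat_lit 3104807036) (nat_lit 0) (nat_lit 8478350461) (nat_lit 1748) (nat_lit 3250835226) (nat_lit 425) (nat_lit 5) (nat_lit 424) (nat_lit 5) (nat_lit 447) (nat_lit 5) (nat_lit 447) (nat_lit 442) (nat_lit 251)) (XT.lf (nat_lit 76) (nat_lit 10389660283) (nat_lit 0) (nat_lit 1844812867) (nat_lit 1748) (nat_lit 2744469613) (nat_lit 425) (nat_lit 5) (nat_lit 424) (nat_lit 5) (nat_lit 447) (nat_lit 5) (nat_lit 448) (nat_lit 442) (nat_lit 250)))) (XT.nd (nat_lit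 78) (nat_lit 0) (nat_lit 0) (XT.lf (nat_lit 76) (nat_lit 2692085006) (nat_lit 0) (nat_lit 10248363289) (nat_lit 1748) (nat_lit 2185514266) (nat_lit 426) (nat_lit 5) (nat_lit 425) (nat_lit 5) (nat_lit 448) (nat_lit 5) (nat_lit 449) (nat_lit 442) (nat_lit 249)) (XT.nd (nat_lit 78) (nat_lit 0) (nat_lit 76) (XT.lf (nat_lit 76) (nat_lit 10164251953) (nat_lit 0) (nat_lit 3531548509) (nat_lit 1748) (nat_lit 1579420499) (nat_lit 426) (nat_lit 5) (nat_lit 425) (nat_lit 5) (nat_lit 448) (nat_lit 5) (nat_lit 450) (nat_lit 442) (nat_lit 248)) (XT.lf (nat_lit 76) (nat_lit 2363098256) (nat_lit 0) (nat_lit 12132551091) (nat_lit 1748) (nat_lit 931230674) (nat_lit 427) (nat_lit 5) (nat_lit 426) (nat_lit 5) (nat_lit 449) (nat_lit 5) (nat_lit 451) (nat_lit 442) (nat_lit 247))))))))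
noncomputable def xc228 : XT := (XT.nd (nat_lit 1638) (nat_lit 8436) (nat_lit 0) (XT.nd (nat_lit 780) (nat_lit 3344) (nat_lit 0) (XT.nd (nat_lit 390) (nat_lit 0) (nat_lit 76) (XT.nd (nat_lit 156) (nat_lit 0) (nat_lit 0) (XT.nd (nat_lit 78) (nat_lit 1672) (nat_lit 0) (XT.lf (nat_lit 76) (nat_lit 10027521172) (nat_lit 0) (nat_lit 5334115631) (nat_lit 1748) (nat_lit 218935852) (nat_lit 427) (nat_lit 5) (nat_lit 426) (nat_lit 5) (nat_lit 449) (nat_lit 5) (nat_lit 452) (nat_lit 442) (nat_lit 246)) (XT.lf (nat_lit 0) (nat_lit 517986979) (nat_lit 1748) (nat_lit 13619877546) (nat_lit 1824) (nat_lit 1599071014) (nat_lit 404) (nat_lit 5) (nat_lit 427) (nat_lit 5) (nat_lit 428) (nat_lit 5) (nat_lit 453) (nat_lit 442) (nat_lit 245))) (XT.nd (nat_lit 78) (nat_lit 0) (nat_lit 0) (XT.lf (nat_lit 0) (nat_lit 1332388494) (nat_lit 1748) (nat_lit 5921706947) (nat_lit 1824) (nat_lit 8640990897) (nat_lit 404) (nat_lit 5) (nat_lit 427) (nat_lit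 5) (nat_lit 428) (nat_lit 5) (nat_lit 454) (nat_lit 442) (nat_lit 244)) (XT.nd (nat_lit 78) (nat_lit 0) (nat_lit 76) (XT.lf (nat_lit 76) (nat_lit 1951265988) (nat_lit 0) (nat_lit 217454579) (nat_lit 1824) (nat_lit 13887569714) (nat_lit 405) (nat_lit 5) (nat_lit 404) (nat_lit 5) (nat_lit 428) (nat_lit 5) (nat_lit 455) (nat_lit 442) (nat_lit 243)) (XT.lf (nat_lit 0) (nat_lit 3100063638) (nat_lit 1748) (nat_lit 6208283037) (nat_lit 1824) (nat_lit 6910808861) (nat_lit 405) (nat_lit 5) (nat_lit 428) (nat_lit 5) (nat_lit 429) (nat_lit 5) (nat_lit 456) (nat_lit 442) (nat_lit 242))))) (XT.nd (nat_lit 156) (nat_lit 0) (nat_lit 76) (XT.nd (nat_lit 78) (nat_lit 0) (nat_lit 76) (XT.lf (nat_lit 76) (nat_lit 1864626892) (nat_lit 0) (nat_lit 2192183569) (nat_lit 1824) (nat_lit 12328334960) (nat_lit 406) (nat_lit 5) (nat_lit 405) (nat_lit 5) (nat_lit 429) (nat_lit 5) (nat_lit 457) (nat_lit 442) (nat_lit 241)) (XT.lf (nat_lit 0) (nat_lit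 5100867521) (nat_lit 1748) (nat_lit 6408539787) (nat_lit 1824) (nat_lit 5043687096) (nat_lit 406) (nat_lit 5) (nat_lit 429) (nat_lit 5) (nat_lit 430) (nat_lit 5) (nat_lit 458) (nat_lit 442) (nat_lit 240))) (XT.nd (nat_lit 78) (nat_lit 0) (nat_lit 76) (XT.lf (nat_lit 76) (nat_lit 1870895801) (nat_lit 0) (nat_lit 4315050040) (nat_lit 1824) (nat_lit 10538056476) (nat_lit 407) (nat_lit 5) (nat_lit 406) (nat_lit 5) (nat_lit 430) (nat_lit 5) (nat_lit 459) (nat_lit 442) (nat_lit 239)) (XT.nd (nat_lit 78) (nat_lit 0) (nat_lit 0) (XT.lf (nat_lit 0) (nat_lit 7349226757) (nat_lit 1748) (nat_lit 6519504644) (nat_lit 1824) (nat_lit 3028469663) (nat_lit 407) (nat_lit 5) (nat_lit 430) (nat_lit 5) (nat_lit 431) (nat_lit 5) (nat_lit 460) (nat_lit 442) (nat_lit 238)) (XT.lf (nat_lit 76) (nat_lit 1973256196) (nat_lit 0) (nat_lit 6597614072) (nat_lit 1824) (nat_lit 8502294224) (nat_lit 408) (nat_lit 5) (nat_lit 407) (nat_lit 5) (nat_lit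 431) (nat_lit 5) (nat_lit 461) (nat_lit 442) (nat_lit 237)))))) (XT.nd (nat_lit 390) (nat_lit 3648) (nat_lit 0) (XT.nd (nat_lit 156) (nat_lit 0) (nat_lit 0) (XT.nd (nat_lit 78) (nat_lit 0) (nat_lit 0) (XT.lf (nat_lit 0) (nat_lit 9860112968) (nat_lit 1748) (nat_lit 6538053343) (nat_lit 1824) (nat_lit 853620143) (nat_lit 408) (nat_lit 5) (nat_lit 431) (nat_lit 5) (nat_lit 432) (nat_lit 5) (nat_lit 462) (nat_lit 442) (nat_lit 236)) (XT.lf (nat_lit 76) (nat_lit 2175048268) (nat_lit 0) (nat_lit 9051838560) (nat_lit 1824) (nat_lit 6206061644) (nat_lit 409) (nat_lit 5) (nat_lit 408) (nat_lit 5) (nat_lit 432) (nat_lit 5) (nat_lit 463) (nat_lit 442) (nat_lit 235))) (XT.nd (nat_lit 78) (nat_lit 0) (nat_lit 76) (XT.lf (nat_lit 76) (nat_lit 11146244899) (nat_lit 0) (nat_lit 1512644559) (nat_lit 1824) (nat_lit 4958088897) (nat_lit 409) (nat_lit 5) (nat_lit 408) (nat_lit 5) (nat_lit 432) (nat_lit 5) (nat_lit 464) (nat_lit 442) (nat_lit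 234)) (XT.nd (nat_lit 78) (nat_lit 0) (nat_lit 0) (XT.lf (nat_lit 76) (nat_lit 2479766505) (nat_lit 0) (nat_lit 11690117615) (nat_lit 1824) (nat_lit 3633800121) (nat_lit 410) (nat_lit 5) (nat_lit 409) (nat_lit 5) (nat_lit 433) (nat_lit 5) (nat_lit 465) (nat_lit 442) (nat_lit 233)) (XT.lf (nat_lit 76) (nat_lit 11682044710) (nat_lit 0) (nat_lit 4076655638) (nat_lit 1824) (nat_lit 2234474257) (nat_lit 410) (nat_lit 5) (nat_lit 409) (nat_lit 5) (nat_lit 433) (nat_lit 5) (nat_lit 466) (nat_lit 442) (nat_lit 232))))) (XT.nd (nat_lit 234) (nat_lit 912) (nat_lit 0) (XT.nd (nat_lit 78) (nat_lit 1140) (nat_lit 0) (XT.lf (nat_lit 0) (nat_lit 2891057138) (nat_lit 1748) (nat_lit 14525305791) (nat_lit 1824) (nat_lit 769352797) (nat_lit 387) (nat_lit 5) (nat_lit 410) (nat_lit 5) (nat_lit 411) (nat_lit 5) (nat_lit 467) (nat_lit 442) (nat_lit 231)) (XT.nd (nat_lit 78) (nat_lit 1064) (nat_lit 0) (XT.lf (nat_lit 0) (nat_lit 779578846)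 (nat_lit 1824) (nat_lit 6055276030) (nat_lit 76) (nat_lit 11545880553) (nat_lit 386) (nat_lit 5) (nat_lit 410) (nat_lit 5) (nat_lit 387) (nat_lit 5) (nat_lit 468) (nat_lit 442) (nat_lit 230)) (XT.lf (nat_lit 0) (nat_lit 2372532591) (nat_lit 1140) (nat_lit 15182294691) (nat_lit 76) (nat_lit 1024261847) (nat_lit 372) (nat_lit 5) (nat_lit 387) (nat_lit 5) (nat_lit 373) (nat_lit 5) (nat_lit 469) (nat_lit 442) (nat_lit 229)))) (XT.nd (nat_lit 78) (nat_lit 912) (nat_lit 0) (XT.lf (nat_lit 0) (nat_lit 4078092135) (nat_lit 1140) (nat_lit 5710997878) (nat_lit 76) (nat_lit 8990707125) (nat_lit 372) (nat_lit 5) (nat_lit 387) (nat_lit 5) (nat_lit 373) (nat_lit 5) (nat_lit 470) (nat_lit 442) (nat_lit 228)) (XT.nd (nat_lit 78) (nat_lit 0) (nat_lit 0) (XT.lf (nat_lit 0) (nat_lit 3997391781) (nat_lit 912) (nat_lit 1841010686) (nat_lit 988) (nat_lit 13145706174) (nat_lit 360) (nat_lit 5) (nat_lit 372) (nat_lit 5) (nat_lit 373) (nat_lit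 5) (nat_lit 471) (nat_lit 442) (nat_lit 227)) (XT.lf (nat_lit 0) (nat_lit 7707942537) (nat_lit 988) (nat_lit 5260152124) (nat_lit 76) (nat_lit 6222933330) (nat_lit 360) (nat_lit 5) (nat_lit 373) (nat_lit 5) (nat_lit 361) (nat_lit 5) (nat_lit 472) (nat_lit 442) (nat_lit 226))))))) (XT.nd (nat_lit 780) (nat_lit 4256) (nat_lit 0) (XT.nd (nat_lit 390) (nat_lit 1672) (nat_lit 0) (XT.nd (nat_lit 156) (nat_lit 1672) (nat_lit 0) (XT.nd (nat_lit 78) (nat_lit 0) (nat_lit 0) (XT.lf (nat_lit 0) (nat_lit 4705724567) (nat_lit 836) (nat_lit 4946759045) (nat_lit 912) (nat_lit 9748851955) (nat_lit 349) (nat_lit 5) (nat_lit 360) (nat_lit 5) (nat_lit 361) (nat_lit 5) (nat_lit 473) (nat_lit 442) (nat_lit 225)) (XT.lf (nat_lit 0) (nat_lit 11687389214) (nat_lit 912) (nat_lit 4698977352) (nat_lit 76) (nat_lit 3228455258) (nat_lit 349) (nat_lit 5) (nat_lit 361) (nat_lit 5) (nat_lit 350) (nat_lit 5) (nat_lit 474) (nat_lit 442) (nat_lit 224)))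 (XT.nd (nat_lit 78) (nat_lit 836) (nat_lit 0) (XT.lf (nat_lit 0) (nat_lit 5532667359) (nat_lit 836) (nat_lit 8294044332) (nat_lit 912) (nat_lit 6004593706) (nat_lit 338) (nat_lit 5) (nat_lit 349) (nat_lit 5) (nat_lit 350) (nat_lit 5) (nat_lit 475) (nat_lit 442) (nat_lit 223)) (XT.nd (nat_lit 78) (nat_lit 836) (nat_lit 0) (XT.lf (nat_lit 0) (nat_lit 16027948375) (nat_lit 836) (nat_lit 7508725) (nat_lit 912) (nat_lit 4016130738) (nat_lit 338) (nat_lit 5) (nat_lit 349) (nat_lit 5) (nat_lit 350) (nat_lit 5) (nat_lit 476) (nat_lit 442) (nat_lit 222)) (XT.lf (nat_lit 0) (nat_lit 6482347624) (nat_lit 836) (nat_lit 11898147631) (nat_lit 912) (nat_lit 1893940205) (nat_lit 327) (nat_lit 5) (nat_lit 338) (nat_lit 5) (nat_lit 339) (nat_lit 5) (nat_lit 477) (nat_lit 442) (nat_lit 221))))) (XT.nd (nat_lit 156) (nat_lit 760) (nat_lit 0) (XT.nd (nat_lit 78) (nat_lit 836) (nat_lit 0) (XT.lf (nat_lit 0) (nat_lit 289604979) (nat_lit 912)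 (nat_lit 3254924048) (nat_lit 76) (nat_lit 16956728451) (nat_lit 326) (nat_lit 5) (nat_lit 338) (nat_lit 5) (nat_lit 327) (nat_lit 5) (nat_lit 478) (nat_lit 442) (nat_lit 220)) (XT.lf (nat_lit 0) (nat_lit 2568710607) (nat_lit 912) (nat_lit 13189045526) (nat_lit 76) (nat_lit 4973066217) (nat_lit 315) (nat_lit 5) (nat_lit 327) (nat_lit 5) (nat_lit 316) (nat_lit 5) (nat_lit 479) (nat_lit 442) (nat_lit 219))) (XT.nd (nat_lit 78) (nat_lit 760) (nat_lit 0) (XT.lf (nat_lit 0) (nat_lit 4934245957) (nat_lit 912) (nat_lit 2394331535) (nat_lit 76) (nat_lit 13635585820) (nat_lit 315) (nat_lit 5) (nat_lit 327) (nat_lit 5) (nat_lit 316) (nat_lit 5) (nat_lit 480) (nat_lit 442) (nat_lit 218)) (XT.nd (nat_lit 78) (nat_lit 0) (nat_lit 0) (XT.lf (nat_lit 0) (nat_lit 7407840165) (nat_lit 836) (nat_lit 12483636255) (nat_lit 76) (nat_lit 1309481421) (nat_lit 305) (nat_lit 5) (nat_lit 316) (nat_lit 5) (nat_lit 306) (nat_lit 5) (nat_lit 481)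 (nat_lit 442) (nat_lit 217)) (XT.lf (nat_lit 0) (nat_lit 9991149127) (nat_lit 836) (nat_lit 1411815548) (nat_lit 76) (nat_lit 10038320404) (nat_lit 305) (nat_lit 5) (nat_lit 316) (nat_lit 5) (nat_lit 306) (nat_lit 5) (nat_lit 482) (nat_lit 442) (nat_lit 216)))))) (XT.nd (nat_lit 390) (nat_lit 1976) (nat_lit 0) (XT.nd (nat_lit 156) (nat_lit 1520) (nat_lit 0) (XT.nd (nat_lit 78) (nat_lit 0) (nat_lit 0) (XT.lf (nat_lit 0) (nat_lit 10008119304) (nat_lit 760) (nat_lit 2678607465) (nat_lit 836) (nat_lit 8998481688) (nat_lit 295) (nat_lit 5) (nat_lit 305) (nat_lit 5) (nat_lit 306) (nat_lit 5) (nat_lit 483) (nat_lit 442) (nat_lit 215)) (XT.lf (nat_lit 0) (nat_lit 15481816570) (nat_lit 836) (nat_lit 303316033) (nat_lit 76) (nat_lit 6147967299) (nat_lit 295) (nat_lit 5) (nat_lit 306) (nat_lit 5) (nat_lit 296) (nat_lit 5) (nat_lit 484) (nat_lit 442) (nat_lit 214))) (XT.nd (nat_lit 78) (nat_lit 836) (nat_lit 0) (XT.lf (nat_lit 0)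 (nat_lit 11425494818) (nat_lit 684) (nat_lit 6994997044) (nat_lit 760) (nat_lit 3763705222) (nat_lit 286) (nat_lit 5) (nat_lit 295) (nat_lit 5) (nat_lit 296) (nat_lit 5) (nat_lit 485) (nat_lit 442) (nat_lit 213)) (XT.nd (nat_lit 78) (nat_lit 76) (nat_lit 0) (XT.lf (nat_lit 0) (nat_lit 947738353) (nat_lit 760) (nat_lit 20487015485) (nat_lit 836) (nat_lit 1005227655) (nat_lit 276) (nat_lit 5) (nat_lit 286) (nat_lit 5) (nat_lit 287) (nat_lit 5) (nat_lit 486) (nat_lit 442) (nat_lit 212)) (XT.lf (nat_lit 0) (nat_lit 1899538698) (nat_lit 836) (nat_lit 9728462627) (nat_lit 76) (nat_lit 11070350188) (nat_lit 275) (nat_lit 5) (nat_lit 286) (nat_lit 5) (nat_lit 276) (nat_lit 5) (nat_lit 487) (nat_lit 442) (nat_lit 211))))) (XT.nd (nat_lit 234) (nat_lit 608) (nat_lit 0) (XT.nd (nat_lit 78) (nat_lit 684) (nat_lit 0) (XT.lf (nat_lit 0) (nat_lit 2289427588) (nat_lit 684) (nat_lit 2570309290) (nat_lit 760) (nat_lit 18101804693) (nat_lit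 266) (nat_lit 5) (nat_lit 275) (nat_lit 5) (nat_lit 276) (nat_lit 5) (nat_lit 488) (nat_lit 442) (nat_lit 210)) (XT.nd (nat_lit 78) (nat_lit 684) (nat_lit 0) (XT.lf (nat_lit 0) (nat_lit 7984118135) (nat_lit 760) (nat_lit 8597455322) (nat_lit 76) (nat_lit 6646323823) (nat_lit 266) (nat_lit 5) (nat_lit 276) (nat_lit 5) (nat_lit 267) (nat_lit 5) (nat_lit 489) (nat_lit 442) (nat_lit 209)) (XT.lf (nat_lit 0) (nat_lit 3746313930) (nat_lit 684) (nat_lit 7462064740) (nat_lit 760) (nat_lit 12290455003) (nat_lit 257) (nat_lit 5) (nat_lit 266) (nat_lit 5) (nat_lit 267) (nat_lit 5) (nat_lit 490) (nat_lit 442) (nat_lit 208)))) (XT.nd (nat_lit 78) (nat_lit 608) (nat_lit 0) (XT.lf (nat_lit 0) (nat_lit 14563236456) (nat_lit 760) (nat_lit 7337403616) (nat_lit 76) (nat_lit 1873227856) (nat_lit 257) (nat_lit 5) (nat_lit 267) (nat_lit 5) (nat_lit 258) (nat_lit 5) (nat_lit 491) (nat_lit 442) (nat_lit 207)) (XT.nd (nat_lit 78) (nat_lit 0)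 (nat_lit 0) (XT.lf (nat_lit 0) (nat_lit 5342209728) (nat_lit 608) (nat_lit 12723252220) (nat_lit 684) (nat_lit 5987336859) (nat_lit 249) (nat_lit 5) (nat_lit 257) (nat_lit 5) (nat_lit 258) (nat_lit 5) (nat_lit 492) (nat_lit 442) (nat_lit 206)) (XT.lf (nat_lit 0) (nat_lit 18370453565) (nat_lit 608) (nat_lit 3312730391) (nat_lit 684) (nat_lit 2653216631) (nat_lit 249) (nat_lit 5) (nat_lit 257) (nat_lit 5) (nat_lit 258) (nat_lit 5) (nat_lit 493) (nat_lit 442) (nat_lit 205))))))))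
noncomputable def xc229 : XT := (XT.nd (nat_lit 56628) (nat_lit 0) (nat_lit 6916) (XT.nd (nat_lit 55770) (nat_lit 0) (nat_lit 13604) (XT.nd (nat_lit 55380) (nat_lit 0) (nat_lit 15048) (XT.nd (nat_lit 156) (nat_lit 1216) (nat_lit 0) (XT.nd (nat_lit 78) (nat_lit 0) (nat_lit 0) (XT.lf (nat_lit 0) (nat_lit 821403497) (nat_lit 684) (nat_lit 17548178466) (nat_lit 76) (nat_lit 6254324187) (nat_lit 240) (nat_lit 5) (nat_lit 249) (nat_lit 5) (nat_lit 241) (nat_lit 5) (nat_lit 494) (nat_lit 442) (nat_lit 204)) (XT.lf (nat_lit 0) (nat_lit 4388564265) (nat_lit 684) (nat_lit 4501458339) (nat_lit 76) (nat_lit 16025618217) (nat_lit 240) (nat_lit 5) (nat_lit 249) (nat_lit 5) (nat_lit 241) (nat_lit 5) (nat_lit 495) (nat_lit 442) (nat_lit 203))) (XT.nd (nat_lit 78) (nat_lit 608) (nat_lit 0) (XT.lf (nat_lit 0) (nat_lit 8086788331) (nat_lit 684) (nat_lit 16298736529) (nat_lit 76) (nat_lit 826492145) (nat_lit 232) (nat_lit 5) (nat_lit 241)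 (nat_lit 5) (nat_lit 233) (nat_lit 5) (nat_lit 496) (nat_lit 442) (nat_lit 202)) (XT.nd (nat_lit 156) (nat_lit 608) (nat_lit 0) (XT.lf (nat_lit 0) (nat_lit 11944672410) (nat_lit 684) (nat_lit 2919839458) (nat_lit 76) (nat_lit 10648096133) (nat_lit 232) (nat_lit 5) (nat_lit 241) (nat_lit 5) (nat_lit 233) (nat_lit 5) (nat_lit 497) (nat_lit 442) (nat_lit 201)) (XT.lf (nat_lit 0) (nat_lit 20076883555) (nat_lit 684) (nat_lit 1200319348) (nat_lit 76) (nat_lit 4851077771) (nat_lit 224) (nat_lit 5) (nat_lit 233) (nat_lit 5) (nat_lit 225) (nat_lit 5) (nat_lit 499) (nat_lit 442) (nat_lit 199))))) (XT.nd (nat_lit 156) (nat_lit 0) (nat_lit 76) (XT.nd (nat_lit 78) (nat_lit 0) (nat_lit 0) (XT.lf (nat_lit 0) (nat_lit 4899051824) (nat_lit 1748) (nat_lit 1153290519) (nat_lit 1748) (nat_lit 1153290519) (nat_lit 422) (nat_lit 3) (nat_lit 445) (nat_lit 3) (nat_lit 445) (nat_lit 5) (nat_lit 443) (nat_lit 443) (nat_lit 254)) (XT.lf (nat_lit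 76) (nat_lit 4585013745) (nat_lit 0) (nat_lit 5655785064) (nat_lit 1748) (nat_lit 4307546878) (nat_lit 423) (nat_lit 5) (nat_lit 422) (nat_lit 3) (nat_lit 445) (nat_lit 5) (nat_lit 444) (nat_lit 443) (nat_lit 253))) (XT.nd (nat_lit 78) (nat_lit 0) (nat_lit 0) (XT.lf (nat_lit 0) (nat_lit 10705652821) (nat_lit 1672) (nat_lit 3052706786) (nat_lit 1748) (nat_lit 929545174) (nat_lit 423) (nat_lit 5) (nat_lit 445) (nat_lit 5) (nat_lit 446) (nat_lit 5) (nat_lit 445) (nat_lit 443) (nat_lit 252)) (XT.nd (nat_lit 78) (nat_lit 0) (nat_lit 0) (XT.lf (nat_lit 76) (nat_lit 4006846941) (nat_lit 0) (nat_lit 7228326856) (nat_lit 1748) (nat_lit 3593977423) (nat_lit 424) (nat_lit 5) (nat_lit 423) (nat_lit 5) (nat_lit 446) (nat_lit 5) (nat_lit 446) (nat_lit 443) (nat_lit 251)) (XT.lf (nat_lit 76) (nat_lit 11244621876) (nat_lit 0) (nat_lit 543178426) (nat_lit 1748) (nat_lit 3185175472) (nat_lit 424) (nat_lit 5) (nat_lit 423) (nat_lit 5)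 (nat_lit 446) (nat_lit 5) (nat_lit 447) (nat_lit 443) (nat_lit 250)))))) (XT.nd (nat_lit 390) (nat_lit 1596) (nat_lit 0) (XT.nd (nat_lit 156) (nat_lit 0) (nat_lit 76) (XT.nd (nat_lit 78) (nat_lit 0) (nat_lit 0) (XT.lf (nat_lit 76) (nat_lit 3508294007) (nat_lit 0) (nat_lit 8898918495) (nat_lit 1748) (nat_lit 2711353075) (nat_lit 425) (nat_lit 5) (nat_lit 424) (nat_lit 5) (nat_lit 447) (nat_lit 5) (nat_lit 448) (nat_lit 443) (nat_lit 249)) (XT.lf (nat_lit 76) (nat_lit 10932150381) (nat_lit 0) (nat_lit 2127788561) (nat_lit 1748) (nat_lit 2206713069) (nat_lit 425) (nat_lit 5) (nat_lit 424) (nat_lit 5) (nat_lit 447) (nat_lit 5) (nat_lit 449) (nat_lit 443) (nat_lit 248))) (XT.nd (nat_lit 78) (nat_lit 0) (nat_lit 0) (XT.lf (nat_lit 76) (nat_lit 3091800363) (nat_lit 0) (nat_lit 10677524714) (nat_lit 1748) (nat_lit 1647506281) (nat_lit 426) (nat_lit 5) (nat_lit 425) (nat_lit 5) (nat_lit 448) (nat_lit 5) (nat_lit 450) (nat_lit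 443) (nat_lit 247)) (XT.nd (nat_lit 78) (nat_lit 0) (nat_lit 76) (XT.lf (nat_lit 76) (nat_lit 10706628813) (nat_lit 0) (nat_lit 3821977674) (nat_lit 1748) (nat_lit 1040696878) (nat_lit 426) (nat_lit 5) (nat_lit 425) (nat_lit 5) (nat_lit 448) (nat_lit 5) (nat_lit 451) (nat_lit 443) (nat_lit 246)) (XT.lf (nat_lit 76) (nat_lit 2759985732) (nat_lit 0) (nat_lit 12574378897) (nat_lit 1748) (nat_lit 389837521) (nat_lit 427) (nat_lit 5) (nat_lit 426) (nat_lit 5) (nat_lit 449) (nat_lit 5) (nat_lit 452) (nat_lit 443) (nat_lit 245))))) (XT.nd (nat_lit 234) (nat_lit 0) (nat_lit 76) (XT.nd (nat_lit 78) (nat_lit 0) (nat_lit 76) (XT.lf (nat_lit 0) (nat_lit 321450547) (nat_lit 1748) (nat_lit 5312461651) (nat_lit 1824) (nat_lit 10247234054) (nat_lit 403) (nat_lit 5) (nat_lit 426) (nat_lit 5) (nat_lit 427) (nat_lit 5) (nat_lit 453) (nat_lit 443) (nat_lit 244)) (XT.nd (nat_lit 78) (nat_lit 0) (nat_lit 0) (XT.lf (nat_lit 0) (nat_lit 1060612694)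 (nat_lit 1748) (nat_lit 13532278192) (nat_lit 1824) (nat_lit 1447912428) (nat_lit 404) (nat_lit 5) (nat_lit 427) (nat_lit 5) (nat_lit 428) (nat_lit 5) (nat_lit 454) (nat_lit 443) (nat_lit 243)) (XT.lf (nat_lit 0) (nat_lit 1880865651) (nat_lit 1748) (nat_lit 5687202944) (nat_lit 1824) (nat_lit 8634261689) (nat_lit 404) (nat_lit 5) (nat_lit 427) (nat_lit 5) (nat_lit 428) (nat_lit 5) (nat_lit 455) (nat_lit 443) (nat_lit 242)))) (XT.nd (nat_lit 78) (nat_lit 0) (nat_lit 76) (XT.lf (nat_lit 76) (nat_lit 2340907488) (nat_lit 0) (nat_lit 385061362) (nat_lit 1824) (nat_lit 13640952904) (nat_lit 405) (nat_lit 5) (nat_lit 404) (nat_lit 5) (nat_lit 428) (nat_lit 5) (nat_lit 456) (nat_lit 443) (nat_lit 241)) (XT.nd (nat_lit 78) (nat_lit 0) (nat_lit 0) (XT.lf (nat_lit 0) (nat_lit 3664823631) (nat_lit 1748) (nat_lit 5977379589) (nat_lit 1824) (nat_lit 6891067649) (nat_lit 405) (nat_lit 5) (nat_lit 428) (nat_lit 5) (nat_lit 429) (nat_lit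 5) (nat_lit 457) (nat_lit 443) (nat_lit 240)) (XT.lf (nat_lit 76) (nat_lit 2254652558) (nat_lit 0) (nat_lit 2378484996) (nat_lit 1824) (nat_lit 12069598524) (nat_lit 406) (nat_lit 5) (nat_lit 405) (nat_lit 5) (nat_lit 429) (nat_lit 5) (nat_lit 458) (nat_lit 443) (nat_lit 239))))))) (XT.nd (nat_lit 858) (nat_lit 5396) (nat_lit 0) (XT.nd (nat_lit 390) (nat_lit 1520) (nat_lit 0) (XT.nd (nat_lit 156) (nat_lit 0) (nat_lit 76) (XT.nd (nat_lit 78) (nat_lit 0) (nat_lit 0) (XT.lf (nat_lit 0) (nat_lit 5687459335) (nat_lit 1748) (nat_lit 6180073024) (nat_lit 1824) (nat_lit 5006728096) (nat_lit 406) (nat_lit 5) (nat_lit 429) (nat_lit 5) (nat_lit 430) (nat_lit 5) (nat_lit 459) (nat_lit 443) (nat_lit 238)) (XT.lf (nat_lit 76) (nat_lit 2262604976) (nat_lit 0) (nat_lit 4524433079) (nat_lit 1824) (nat_lit 10261696502) (nat_lit 407) (nat_lit 5) (nat_lit 406) (nat_lit 5) (nat_lit 430) (nat_lit 5) (nat_lit 460) (nat_lit 443) (nat_lit 237)))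 (XT.nd (nat_lit 78) (nat_lit 0) (nat_lit 0) (XT.lf (nat_lit 0) (nat_lit 7963440868) (nat_lit 1748) (nat_lit 6292210231) (nat_lit 1824) (nat_lit 2969952982) (nat_lit 407) (nat_lit 5) (nat_lit 430) (nat_lit 5) (nat_lit 431) (nat_lit 5) (nat_lit 461) (nat_lit 443) (nat_lit 236)) (XT.nd (nat_lit 78) (nat_lit 0) (nat_lit 76) (XT.lf (nat_lit 76) (nat_lit 2368052638) (nat_lit 0) (nat_lit 6834610293) (nat_lit 1824) (nat_lit 8202564784) (nat_lit 408) (nat_lit 5) (nat_lit 407) (nat_lit 5) (nat_lit 431) (nat_lit 5) (nat_lit 462) (nat_lit 443) (nat_lit 235)) (XT.lf (nat_lit 0) (nat_lit 10507994878) (nat_lit 1748) (nat_lit 6310565978) (nat_lit 1824) (nat_lit 769058948) (nat_lit 408) (nat_lit 5) (nat_lit 431) (nat_lit 5) (nat_lit 432) (nat_lit 5) (nat_lit 463) (nat_lit 443) (nat_lit 234))))) (XT.nd (nat_lit 234) (nat_lit 1672) (nat_lit 0) (XT.nd (nat_lit 78) (nat_lit 0) (nat_lit 0) (XT.lf (nat_lit 76) (nat_lit 2574440767) (nat_lit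 0) (nat_lit 9321137275) (nat_lit 1824) (nat_lit 5876961245) (nat_lit 409) (nat_lit 5) (nat_lit 408) (nat_lit 5) (nat_lit 432) (nat_lit 5) (nat_lit 464) (nat_lit 443) (nat_lit 233)) (XT.nd (nat_lit 78) (nat_lit 0) (nat_lit 76) (XT.lf (nat_lit 76) (nat_lit 11718083065) (nat_lit 0) (nat_lit 1629428768) (nat_lit 1824) (nat_lit 4612915742) (nat_lit 409) (nat_lit 5) (nat_lit 408) (nat_lit 5) (nat_lit 432) (nat_lit 5) (nat_lit 465) (nat_lit 443) (nat_lit 232)) (XT.lf (nat_lit 76) (nat_lit 2885369602) (nat_lit 0) (nat_lit 11996579294) (nat_lit 1824) (nat_lit 3269057791) (nat_lit 410) (nat_lit 5) (nat_lit 409) (nat_lit 5) (nat_lit 433) (nat_lit 5) (nat_lit 466) (nat_lit 443) (nat_lit 231)))) (XT.nd (nat_lit 78) (nat_lit 1748) (nat_lit 0) (XT.lf (nat_lit 76) (nat_lit 12264712826) (nat_lit 0) (nat_lit 4229423385) (nat_lit 1824) (nat_lit 1850322241) (nat_lit 410) (nat_lit 5) (nat_lit 409) (nat_lit 5) (nat_lit 433) (nat_lit 5) (nat_lit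 467) (nat_lit 443) (nat_lit 230)) (XT.nd (nat_lit 78) (nat_lit 76) (nat_lit 0) (XT.lf (nat_lit 0) (nat_lit 3304591931) (nat_lit 1748) (nat_lit 14873975779) (nat_lit 1824) (nat_lit 362413791) (nat_lit 387) (nat_lit 5) (nat_lit 410) (nat_lit 5) (nat_lit 411) (nat_lit 5) (nat_lit 468) (nat_lit 443) (nat_lit 229)) (XT.lf (nat_lit 0) (nat_lit 1203785305) (nat_lit 1824) (nat_lit 5822048051) (nat_lit 76) (nat_lit 11714180135) (nat_lit 386) (nat_lit 5) (nat_lit 410) (nat_lit 5) (nat_lit 387) (nat_lit 5) (nat_lit 469) (nat_lit 443) (nat_lit 228)))))) (XT.nd (nat_lit 390) (nat_lit 2584) (nat_lit 0) (XT.nd (nat_lit 156) (nat_lit 1748) (nat_lit 0) (XT.nd (nat_lit 78) (nat_lit 0) (nat_lit 0) (XT.lf (nat_lit 0) (nat_lit 2822541116) (nat_lit 1140) (nat_lit 15125388950) (nat_lit 76) (nat_lit 994528561) (nat_lit 372) (nat_lit 5) (nat_lit 387) (nat_lit 5) (nat_lit 373) (nat_lit 5) (nat_lit 470) (nat_lit 443) (nat_lit 227)) (XT.lf (nat_lit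 0) (nat_lit 4554318560) (nat_lit 1140) (nat_lit 5471735840) (nat_lit 76) (nat_lit 9121287422) (nat_lit 372) (nat_lit 5) (nat_lit 387) (nat_lit 5) (nat_lit 373) (nat_lit 5) (nat_lit 471) (nat_lit 443) (nat_lit 226))) (XT.nd (nat_lit 78) (nat_lit 836) (nat_lit 0) (XT.lf (nat_lit 0) (nat_lit 4428496073) (nat_lit 912) (nat_lit 1915880445) (nat_lit 988) (nat_lit 13011475307) (nat_lit 360) (nat_lit 5) (nat_lit 372) (nat_lit 5) (nat_lit 373) (nat_lit 5) (nat_lit 472) (nat_lit 443) (nat_lit 225)) (XT.nd (nat_lit 78) (nat_lit 836) (nat_lit 0) (XT.lf (nat_lit 0) (nat_lit 8243433700) (nat_lit 988) (nat_lit 5013058609) (nat_lit 76) (nat_lit 6310577762) (nat_lit 360) (nat_lit 5) (nat_lit 373) (nat_lit 5) (nat_lit 361) (nat_lit 5) (nat_lit 473) (nat_lit 443) (nat_lit 224)) (XT.lf (nat_lit 0) (nat_lit 5149817875) (nat_lit 836) (nat_lit 5071842911) (nat_lit 912) (nat_lit 9560030085) (nat_lit 349) (nat_lit 5) (nat_lit 360) (nat_lit 5)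 (nat_lit 361) (nat_lit 5) (nat_lit 474) (nat_lit 443) (nat_lit 223))))) (XT.nd (nat_lit 234) (nat_lit 1748) (nat_lit 0) (XT.nd (nat_lit 78) (nat_lit 836) (nat_lit 0) (XT.lf (nat_lit 0) (nat_lit 12289723006) (nat_lit 912) (nat_lit 4442152980) (nat_lit 76) (nat_lit 3267724617) (nat_lit 349) (nat_lit 5) (nat_lit 361) (nat_lit 5) (nat_lit 350) (nat_lit 5) (nat_lit 475) (nat_lit 443) (nat_lit 222)) (XT.nd (nat_lit 78) (nat_lit 0) (nat_lit 0) (XT.lf (nat_lit 0) (nat_lit 5991816706) (nat_lit 836) (nat_lit 8475050718) (nat_lit 912) (nat_lit 5753648576) (nat_lit 338) (nat_lit 5) (nat_lit 349) (nat_lit 5) (nat_lit 350) (nat_lit 5) (nat_lit 476) (nat_lit 443) (nat_lit 221)) (XT.lf (nat_lit 0) (nat_lit 16690170087) (nat_lit 836) (nat_lit 22487821) (nat_lit 912) (nat_lit 3732691584) (nat_lit 338) (nat_lit 5) (nat_lit 349) (nat_lit 5) (nat_lit 350) (nat_lit 5) (nat_lit 477) (nat_lit 443) (nat_lit 220)))) (XT.nd (nat_lit 78) (nat_lit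 912) (nat_lit 0) (XT.lf (nat_lit 0) (nat_lit 6958727459) (nat_lit 836) (nat_lit 12141036161) (nat_lit 912) (nat_lit 1572989859) (nat_lit 327) (nat_lit 5) (nat_lit 338) (nat_lit 5) (nat_lit 339) (nat_lit 5) (nat_lit 478) (nat_lit 443) (nat_lit 219)) (XT.nd (nat_lit 78) (nat_lit 836) (nat_lit 0) (XT.lf (nat_lit 0) (nat_lit 642576531) (nat_lit 912) (nat_lit 2975342318) (nat_lit 76) (nat_lit 17286288010) (nat_lit 326) (nat_lit 5) (nat_lit 338) (nat_lit 5) (nat_lit 327) (nat_lit 5) (nat_lit 479) (nat_lit 443) (nat_lit 218)) (XT.lf (nat_lit 0) (nat_lit 2962678815) (nat_lit 912) (nat_lit 13103431181) (nat_lit 76) (nat_lit 5072347333) (nat_lit 315) (nat_lit 5) (nat_lit 327) (nat_lit 5) (nat_lit 316) (nat_lit 5) (nat_lit 480) (nat_lit 443) (nat_lit 217))))))))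
noncomputable def xc230 : XT := (XT.nd (nat_lit 56706) (nat_lit 0) (nat_lit 13604) (XT.nd (nat_lit 780) (nat_lit 3192) (nat_lit 0) (XT.nd (nat_lit 390) (nat_lit 1520) (nat_lit 0) (XT.nd (nat_lit 156) (nat_lit 1444) (nat_lit 0) (XT.nd (nat_lit 78) (nat_lit 760) (nat_lit 0) (XT.lf (nat_lit 0) (nat_lit 5368807343) (nat_lit 912) (nat_lit 2099673797) (nat_lit 76) (nat_lit 13908120862) (nat_lit 315) (nat_lit 5) (nat_lit 327) (nat_lit 5) (nat_lit 316) (nat_lit 5) (nat_lit 481) (nat_lit 443) (nat_lit 216)) (XT.lf (nat_lit 0) (nat_lit 7887554091) (nat_lit 836) (nat_lit 12386320711) (nat_lit 76) (nat_lit 1344346497) (nat_lit 305) (nat_lit 5) (nat_lit 316) (nat_lit 5) (nat_lit 306) (nat_lit 5) (nat_lit 482) (nat_lit 443) (nat_lit 215))) (XT.nd (nat_lit 78) (nat_lit 1444) (nat_lit 0) (XT.lf (nat_lit 0) (nat_lit 10516028112) (nat_lit 836) (nat_lit 1099867281) (nat_lit 76) (nat_lit 10247592153) (nat_lit 305) (nat_lit 5) (nat_lit 316)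 (nat_lit 5) (nat_lit 306) (nat_lit 5) (nat_lit 483) (nat_lit 443) (nat_lit 214)) (XT.nd (nat_lit 78) (nat_lit 684) (nat_lit 0) (XT.lf (nat_lit 0) (nat_lit 10546228211) (nat_lit 760) (nat_lit 2715109621) (nat_lit 836) (nat_lit 8851037543) (nat_lit 295) (nat_lit 5) (nat_lit 305) (nat_lit 5) (nat_lit 306) (nat_lit 5) (nat_lit 484) (nat_lit 443) (nat_lit 213)) (XT.lf (nat_lit 0) (nat_lit 28613447) (nat_lit 684) (nat_lit 16077718720) (nat_lit 760) (nat_lit 6259014776) (nat_lit 286) (nat_lit 5) (nat_lit 295) (nat_lit 5) (nat_lit 296) (nat_lit 5) (nat_lit 485) (nat_lit 443) (nat_lit 212))))) (XT.nd (nat_lit 156) (nat_lit 760) (nat_lit 0) (XT.nd (nat_lit 78) (nat_lit 760) (nat_lit 0) (XT.lf (nat_lit 0) (nat_lit 11989404057) (nat_lit 684) (nat_lit 7110198304) (nat_lit 760) (nat_lit 3521949579) (nat_lit 286) (nat_lit 5) (nat_lit 295) (nat_lit 5) (nat_lit 296) (nat_lit 5) (nat_lit 486) (nat_lit 443) (nat_lit 211)) (XT.lf (nat_lit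 0) (nat_lit 1306014029) (nat_lit 760) (nat_lit 20864403691) (nat_lit 836) (nat_lit 712111213) (nat_lit 276) (nat_lit 5) (nat_lit 286) (nat_lit 5) (nat_lit 287) (nat_lit 5) (nat_lit 487) (nat_lit 443) (nat_lit 210))) (XT.nd (nat_lit 78) (nat_lit 684) (nat_lit 0) (XT.lf (nat_lit 0) (nat_lit 2240581478) (nat_lit 836) (nat_lit 9586228486) (nat_lit 76) (nat_lit 11319339105) (nat_lit 275) (nat_lit 5) (nat_lit 286) (nat_lit 5) (nat_lit 276) (nat_lit 5) (nat_lit 488) (nat_lit 443) (nat_lit 209)) (XT.nd (nat_lit 78) (nat_lit 0) (nat_lit 0) (XT.lf (nat_lit 0) (nat_lit 2669803721) (nat_lit 684) (nat_lit 2586410068) (nat_lit 760) (nat_lit 18158466662) (nat_lit 266) (nat_lit 5) (nat_lit 275) (nat_lit 5) (nat_lit 276) (nat_lit 5) (nat_lit 489) (nat_lit 443) (nat_lit 208)) (XT.lf (nat_lit 0) (nat_lit 8437439125) (nat_lit 760) (nat_lit 8435629619) (nat_lit 76) (nat_lit 6813409485) (nat_lit 266) (nat_lit 5) (nat_lit 276) (nat_lit 5)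 (nat_lit 267) (nat_lit 5) (nat_lit 490) (nat_lit 443) (nat_lit 207)))))) (XT.nd (nat_lit 390) (nat_lit 1216) (nat_lit 0) (XT.nd (nat_lit 156) (nat_lit 1292) (nat_lit 0) (XT.nd (nat_lit 78) (nat_lit 0) (nat_lit 0) (XT.lf (nat_lit 0) (nat_lit 4152819131) (nat_lit 684) (nat_lit 7569760950) (nat_lit 760) (nat_lit 12240327408) (nat_lit 257) (nat_lit 5) (nat_lit 266) (nat_lit 5) (nat_lit 267) (nat_lit 5) (nat_lit 491) (nat_lit 443) (nat_lit 206)) (XT.lf (nat_lit 0) (nat_lit 15139112534) (nat_lit 760) (nat_lit 7153551648) (nat_lit 76) (nat_lit 1950888701) (nat_lit 257) (nat_lit 5) (nat_lit 267) (nat_lit 5) (nat_lit 258) (nat_lit 5) (nat_lit 492) (nat_lit 443) (nat_lit 205))) (XT.nd (nat_lit 78) (nat_lit 684) (nat_lit 0) (XT.lf (nat_lit 0) (nat_lit 5777478963) (nat_lit 608) (nat_lit 12930455312) (nat_lit 684) (nat_lit 5820199035) (nat_lit 249) (nat_lit 5) (nat_lit 257) (nat_lit 5) (nat_lit 258) (nat_lit 5) (nat_lit 493) (nat_lit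 443) (nat_lit 204)) (XT.nd (nat_lit 78) (nat_lit 684) (nat_lit 0) (XT.lf (nat_lit 0) (nat_lit 19059847969) (nat_lit 608) (nat_lit 3332649751) (nat_lit 684) (nat_lit 2425021590) (nat_lit 249) (nat_lit 5) (nat_lit 257) (nat_lit 5) (nat_lit 258) (nat_lit 5) (nat_lit 494) (nat_lit 443) (nat_lit 203)) (XT.lf (nat_lit 0) (nat_lit 1112381515) (nat_lit 684) (nat_lit 17570260331) (nat_lit 76) (nat_lit 6428158882) (nat_lit 240) (nat_lit 5) (nat_lit 249) (nat_lit 5) (nat_lit 241) (nat_lit 5) (nat_lit 495) (nat_lit 443) (nat_lit 202))))) (XT.nd (nat_lit 55302) (nat_lit 0) (nat_lit 15048) (XT.nd (nat_lit 78) (nat_lit 1216) (nat_lit 0) (XT.lf (nat_lit 0) (nat_lit 4745502165) (nat_lit 684) (nat_lit 4269054462) (nat_lit 76) (nat_lit 16393922945) (nat_lit 240) (nat_lit 5) (nat_lit 249) (nat_lit 5) (nat_lit 241) (nat_lit 5) (nat_lit 496) (nat_lit 443) (nat_lit 201)) (XT.nd (nat_lit 156) (nat_lit 608) (nat_lit 0) (XT.lf (nat_lit 0) (nat_lit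 8514845445) (nat_lit 684) (nat_lit 16299343995) (nat_lit 76) (nat_lit 896652525) (nat_lit 232) (nat_lit 5) (nat_lit 241) (nat_lit 5) (nat_lit 233) (nat_lit 5) (nat_lit 497) (nat_lit 443) (nat_lit 200)) (XT.lf (nat_lit 0) (nat_lit 11399020285) (nat_lit 608) (nat_lit 5124691942) (nat_lit 684) (nat_lit 9805270427) (nat_lit 224) (nat_lit 5) (nat_lit 232) (nat_lit 5) (nat_lit 233) (nat_lit 5) (nat_lit 499) (nat_lit 443) (nat_lit 198)))) (XT.nd (nat_lit 78) (nat_lit 0) (nat_lit 0) (XT.lf (nat_lit 0) (nat_lit 5309933202) (nat_lit 1748) (nat_lit 1016708398) (nat_lit 1748) (nat_lit 1016708398) (nat_lit 422) (nat_lit 3) (nat_lit 445) (nat_lit 3) (nat_lit 445) (nat_lit 5) (nat_lit 444) (nat_lit 444) (nat_lit 252)) (XT.nd (nat_lit 78) (nat_lit 0) (nat_lit 76) (XT.lf (nat_lit 76) (nat_lit 4993909251) (nat_lit 0) (nat_lit 6067295059) (nat_lit 1748) (nat_lit 3765526868) (nat_lit 423) (nat_lit 5) (nat_lit 422) (nat_lit 3) (nat_lit 445)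 (nat_lit 5) (nat_lit 445) (nat_lit 444) (nat_lit 251)) (XT.lf (nat_lit 0) (nat_lit 11521385633) (nat_lit 1672) (nat_lit 2788551091) (nat_lit 1748) (nat_lit 659429413) (nat_lit 423) (nat_lit 5) (nat_lit 445) (nat_lit 5) (nat_lit 446) (nat_lit 5) (nat_lit 446) (nat_lit 444) (nat_lit 250))))))) (XT.nd (nat_lit 858) (nat_lit 0) (nat_lit 152) (XT.nd (nat_lit 390) (nat_lit 1520) (nat_lit 0) (XT.nd (nat_lit 156) (nat_lit 0) (nat_lit 76) (XT.nd (nat_lit 78) (nat_lit 0) (nat_lit 0) (XT.lf (nat_lit 76) (nat_lit 4410054172) (nat_lit 0) (nat_lit 7641743977) (nat_lit 1748) (nat_lit 3061838515) (nat_lit 424) (nat_lit 5) (nat_lit 423) (nat_lit 5) (nat_lit 446) (nat_lit 5) (nat_lit 447) (nat_lit 444) (nat_lit 249)) (XT.lf (nat_lit 76) (nat_lit 11786249894) (nat_lit 0) (nat_lit 817620999) (nat_lit 1748) (nat_lit 2656704024) (nat_lit 424) (nat_lit 5) (nat_lit 423) (nat_lit 5) (nat_lit 446) (nat_lit 5) (nat_lit 448) (nat_lit 444) (nat_lit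 248))) (XT.nd (nat_lit 78) (nat_lit 0) (nat_lit 0) (XT.lf (nat_lit 76) (nat_lit 3906594096) (nat_lit 0) (nat_lit 9318151214) (nat_lit 1748) (nat_lit 2184554708) (nat_lit 425) (nat_lit 5) (nat_lit 424) (nat_lit 5) (nat_lit 447) (nat_lit 5) (nat_lit 449) (nat_lit 444) (nat_lit 247)) (XT.nd (nat_lit 78) (nat_lit 0) (nat_lit 76) (XT.lf (nat_lit 76) (nat_lit 11472493594) (nat_lit 0) (nat_lit 2406868203) (nat_lit 1748) (nat_lit 1681214558) (nat_lit 425) (nat_lit 5) (nat_lit 424) (nat_lit 5) (nat_lit 447) (nat_lit 5) (nat_lit 450) (nat_lit 444) (nat_lit 246)) (XT.lf (nat_lit 76) (nat_lit 3486079332) (nat_lit 0) (nat_lit 11106563634) (nat_lit 1748) (nat_lit 1121326965) (nat_lit 426) (nat_lit 5) (nat_lit 425) (nat_lit 5) (nat_lit 448) (nat_lit 5) (nat_lit 451) (nat_lit 444) (nat_lit 245))))) (XT.nd (nat_lit 234) (nat_lit 0) (nat_lit 76) (XT.nd (nat_lit 78) (nat_lit 1672) (nat_lit 0) (XT.lf (nat_lit 76) (nat_lit 11246685861) (nat_lit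 0) (nat_lit 4109680390) (nat_lit 1748) (nat_lit 513344697) (nat_lit 426) (nat_lit 5) (nat_lit 425) (nat_lit 5) (nat_lit 448) (nat_lit 5) (nat_lit 452) (nat_lit 444) (nat_lit 244)) (XT.nd (nat_lit 78) (nat_lit 0) (nat_lit 0) (XT.lf (nat_lit 0) (nat_lit 138792838) (nat_lit 1748) (nat_lit 12877584770) (nat_lit 1824) (nat_lit 3011510361) (nat_lit 403) (nat_lit 5) (nat_lit 426) (nat_lit 5) (nat_lit 427) (nat_lit 5) (nat_lit 453) (nat_lit 444) (nat_lit 243)) (XT.lf (nat_lit 0) (nat_lit 848675701) (nat_lit 1748) (nat_lit 5082108658) (nat_lit 1824) (nat_lit 10257347704) (nat_lit 403) (nat_lit 5) (nat_lit 426) (nat_lit 5) (nat_lit 427) (nat_lit 5) (nat_lit 454) (nat_lit 444) (nat_lit 242)))) (XT.nd (nat_lit 78) (nat_lit 0) (nat_lit 0) (XT.lf (nat_lit 0) (nat_lit 1593422386) (nat_lit 1748) (nat_lit 13456905970) (nat_lit 1824) (nat_lit 1300842219) (nat_lit 404) (nat_lit 5) (nat_lit 427) (nat_lit 5) (nat_lit 428) (nat_lit 5) (nat_lit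 455) (nat_lit 444) (nat_lit 241)) (XT.nd (nat_lit 78) (nat_lit 0) (nat_lit 0) (XT.lf (nat_lit 0) (nat_lit 2420049080) (nat_lit 1748) (nat_lit 5461713879) (nat_lit 1824) (nat_lit 8634370005) (nat_lit 404) (nat_lit 5) (nat_lit 427) (nat_lit 5) (nat_lit 428) (nat_lit 5) (nat_lit 456) (nat_lit 444) (nat_lit 240)) (XT.lf (nat_lit 76) (nat_lit 2724726965) (nat_lit 0) (nat_lit 549680785) (nat_lit 1824) (nat_lit 13409765614) (nat_lit 405) (nat_lit 5) (nat_lit 404) (nat_lit 5) (nat_lit 428) (nat_lit 5) (nat_lit 457) (nat_lit 444) (nat_lit 239)))))) (XT.nd (nat_lit 390) (nat_lit 0) (nat_lit 152) (XT.nd (nat_lit 156) (nat_lit 0) (nat_lit 76) (XT.nd (nat_lit 78) (nat_lit 0) (nat_lit 0) (XT.lf (nat_lit 0) (nat_lit 4221356089) (nat_lit 1748) (nat_lit 5755645839) (nat_lit 1824) (nat_lit 6877065291) (nat_lit 405) (nat_lit 5) (nat_lit 428) (nat_lit 5) (nat_lit 429) (nat_lit 5) (nat_lit 458) (nat_lit 444) (nat_lit 238)) (XT.lf (nat_lit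 76) (nat_lit 2638781679) (nat_lit 0) (nat_lit 2562980643) (nat_lit 1824) (nat_lit 11825308896) (nat_lit 406) (nat_lit 5) (nat_lit 405) (nat_lit 5) (nat_lit 429) (nat_lit 5) (nat_lit 459) (nat_lit 444) (nat_lit 237))) (XT.nd (nat_lit 78) (nat_lit 0) (nat_lit 0) (XT.lf (nat_lit 0) (nat_lit 6266966369) (nat_lit 1748) (nat_lit 5960885597) (nat_lit 1824) (nat_lit 4974382130) (nat_lit 406) (nat_lit 5) (nat_lit 429) (nat_lit 5) (nat_lit 430) (nat_lit 5) (nat_lit 460) (nat_lit 444) (nat_lit 236)) (XT.nd (nat_lit 78) (nat_lit 0) (nat_lit 76) (XT.lf (nat_lit 76) (nat_lit 2648390773) (nat_lit 0) (nat_lit 4733224353) (nat_lit 1824) (nat_lit 9998724834) (nat_lit 407) (nat_lit 5) (nat_lit 406) (nat_lit 5) (nat_lit 430) (nat_lit 5) (nat_lit 461) (nat_lit 444) (nat_lit 235)) (XT.lf (nat_lit 0) (nat_lit 8571796167) (nat_lit 1748) (nat_lit 6074259255) (nat_lit 1824) (nat_lit 2914890225) (nat_lit 407) (nat_lit 5) (nat_lit 430) (nat_lit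 5) (nat_lit 431) (nat_lit 5) (nat_lit 462) (nat_lit 444) (nat_lit 234))))) (XT.nd (nat_lit 234) (nat_lit 0) (nat_lit 76) (XT.nd (nat_lit 78) (nat_lit 0) (nat_lit 76) (XT.lf (nat_lit 76) (nat_lit 2756947061) (nat_lit 0) (nat_lit 7072267454) (nat_lit 1824) (nat_lit 7915082703) (nat_lit 408) (nat_lit 5) (nat_lit 407) (nat_lit 5) (nat_lit 431) (nat_lit 5) (nat_lit 463) (nat_lit 444) (nat_lit 233)) (XT.nd (nat_lit 78) (nat_lit 0) (nat_lit 0) (XT.lf (nat_lit 0) (nat_lit 11151333985) (nat_lit 1748) (nat_lit 6092440090) (nat_lit 1824) (nat_lit 686753086) (nat_lit 408) (nat_lit 5) (nat_lit 431) (nat_lit 5) (nat_lit 432) (nat_lit 5) (nat_lit 464) (nat_lit 444) (nat_lit 232)) (XT.lf (nat_lit 76) (nat_lit 2968001414) (nat_lit 0) (nat_lit 9592394646) (nat_lit 1824) (nat_lit 5558877987) (nat_lit 409) (nat_lit 5) (nat_lit 408) (nat_lit 5) (nat_lit 432) (nat_lit 5) (nat_lit 465) (nat_lit 444) (nat_lit 231)))) (XT.nd (nat_lit 78) (nat_lit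 0) (nat_lit 76) (XT.lf (nat_lit 76) (nat_lit 12287809267) (nat_lit 0) (nat_lit 1745188545) (nat_lit 1824) (nat_lit 4278093191) (nat_lit 409) (nat_lit 5) (nat_lit 408) (nat_lit 5) (nat_lit 432) (nat_lit 5) (nat_lit 466) (nat_lit 444) (nat_lit 230)) (XT.nd (nat_lit 78) (nat_lit 0) (nat_lit 0) (XT.lf (nat_lit 76) (nat_lit 3285260545) (nat_lit 0) (nat_lit 12306348756) (nat_lit 1824) (nat_lit 2914006102) (nat_lit 410) (nat_lit 5) (nat_lit 409) (nat_lit 5) (nat_lit 433) (nat_lit 5) (nat_lit 467) (nat_lit 444) (nat_lit 229)) (XT.lf (nat_lit 76) (nat_lit 12845481153) (nat_lit 0) (nat_lit 4382480359) (nat_lit 1824) (nat_lit 1475139622) (nat_lit 410) (nat_lit 5) (nat_lit 409) (nat_lit 5) (nat_lit 433) (nat_lit 5) (nat_lit 468) (nat_lit 444) (nat_lit 228))))))))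
noncomputable def xc231 : XT := (XT.nd (nat_lit 1638) (nat_lit 2660) (nat_lit 0) (XT.nd (nat_lit 780) (nat_lit 4788) (nat_lit 0) (XT.nd (nat_lit 390) (nat_lit 1672) (nat_lit 0) (XT.nd (nat_lit 156) (nat_lit 1976) (nat_lit 0) (XT.nd (nat_lit 78) (nat_lit 0) (nat_lit 0) (XT.lf (nat_lit 0) (nat_lit 35788942) (nat_lit 1824) (nat_lit 15191331486) (nat_lit 76) (nat_lit 3676555521) (nat_lit 386) (nat_lit 5) (nat_lit 410) (nat_lit 5) (nat_lit 387) (nat_lit 5) (nat_lit 469) (nat_lit 444) (nat_lit 227)) (XT.lf (nat_lit 0) (nat_lit 1620608879) (nat_lit 1824) (nat_lit 5597914715) (nat_lit 76) (nat_lit 11888277242) (nat_lit 386) (nat_lit 5) (nat_lit 410) (nat_lit 5) (nat_lit 387) (nat_lit 5) (nat_lit 470) (nat_lit 444) (nat_lit 226))) (XT.nd (nat_lit 78) (nat_lit 912) (nat_lit 0) (XT.lf (nat_lit 0) (nat_lit 3265917999) (nat_lit 1140) (nat_lit 15081345753) (nat_lit 76) (nat_lit 966150656) (nat_lit 372) (nat_lit 5) (nat_lit 387) (nat_lit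 5) (nat_lit 373) (nat_lit 5) (nat_lit 471) (nat_lit 444) (nat_lit 225)) (XT.nd (nat_lit 78) (nat_lit 912) (nat_lit 0) (XT.lf (nat_lit 0) (nat_lit 5024744206) (nat_lit 1140) (nat_lit 5241414698) (nat_lit 76) (nat_lit 9256391135) (nat_lit 372) (nat_lit 5) (nat_lit 387) (nat_lit 5) (nat_lit 373) (nat_lit 5) (nat_lit 472) (nat_lit 444) (nat_lit 224)) (XT.lf (nat_lit 0) (nat_lit 4854586617) (nat_lit 912) (nat_lit 1990770089) (nat_lit 988) (nat_lit 12889981445) (nat_lit 360) (nat_lit 5) (nat_lit 372) (nat_lit 5) (nat_lit 373) (nat_lit 5) (nat_lit 473) (nat_lit 444) (nat_lit 223))))) (XT.nd (nat_lit 156) (nat_lit 836) (nat_lit 0) (XT.nd (nat_lit 78) (nat_lit 836) (nat_lit 0) (XT.lf (nat_lit 0) (nat_lit 8774827087) (nat_lit 988) (nat_lit 4774703328) (nat_lit 76) (nat_lit 6401404625) (nat_lit 360) (nat_lit 5) (nat_lit 373) (nat_lit 5) (nat_lit 361) (nat_lit 5) (nat_lit 474) (nat_lit 444) (nat_lit 222)) (XT.lf (nat_lit 0) (nat_lit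 5589202946) (nat_lit 836) (nat_lit 5198413070) (nat_lit 912) (nat_lit 9382335157) (nat_lit 349) (nat_lit 5) (nat_lit 360) (nat_lit 5) (nat_lit 361) (nat_lit 5) (nat_lit 475) (nat_lit 444) (nat_lit 221))) (XT.nd (nat_lit 78) (nat_lit 836) (nat_lit 0) (XT.lf (nat_lit 0) (nat_lit 12889790830) (nat_lit 912) (nat_lit 4193814263) (nat_lit 76) (nat_lit 3308761784) (nat_lit 349) (nat_lit 5) (nat_lit 361) (nat_lit 5) (nat_lit 350) (nat_lit 5) (nat_lit 476) (nat_lit 444) (nat_lit 220)) (XT.nd (nat_lit 78) (nat_lit 0) (nat_lit 0) (XT.lf (nat_lit 0) (nat_lit 6446616515) (nat_lit 836) (nat_lit 8659089890) (nat_lit 912) (nat_lit 5512092362) (nat_lit 338) (nat_lit 5) (nat_lit 349) (nat_lit 5) (nat_lit 350) (nat_lit 5) (nat_lit 477) (nat_lit 444) (nat_lit 219)) (XT.lf (nat_lit 0) (nat_lit 17352369052) (nat_lit 836) (nat_lit 37190673) (nat_lit 912) (nat_lit 3457708959) (nat_lit 338) (nat_lit 5) (nat_lit 349) (nat_lit 5) (nat_lit 350)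 (nat_lit 5) (nat_lit 478) (nat_lit 444) (nat_lit 218)))))) (XT.nd (nat_lit 390) (nat_lit 2280) (nat_lit 0) (XT.nd (nat_lit 156) (nat_lit 1596) (nat_lit 0) (XT.nd (nat_lit 78) (nat_lit 76) (nat_lit 0) (XT.lf (nat_lit 0) (nat_lit 7431170831) (nat_lit 836) (nat_lit 12388591196) (nat_lit 912) (nat_lit 1259554279) (nat_lit 327) (nat_lit 5) (nat_lit 338) (nat_lit 5) (nat_lit 339) (nat_lit 5) (nat_lit 479) (nat_lit 444) (nat_lit 217)) (XT.lf (nat_lit 0) (nat_lit 989126113) (nat_lit 912) (nat_lit 2703553305) (nat_lit 76) (nat_lit 17622810569) (nat_lit 326) (nat_lit 5) (nat_lit 338) (nat_lit 5) (nat_lit 327) (nat_lit 5) (nat_lit 480) (nat_lit 444) (nat_lit 216))) (XT.nd (nat_lit 78) (nat_lit 760) (nat_lit 0) (XT.lf (nat_lit 0) (nat_lit 3351223045) (nat_lit 912) (nat_lit 13029671992) (nat_lit 76) (nat_lit 5173621069) (nat_lit 315) (nat_lit 5) (nat_lit 327) (nat_lit 5) (nat_lit 316) (nat_lit 5) (nat_lit 481) (nat_lit 444) (nat_lit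 215)) (XT.nd (nat_lit 78) (nat_lit 760) (nat_lit 0) (XT.lf (nat_lit 0) (nat_lit 5799017464) (nat_lit 912) (nat_lit 1812424319) (nat_lit 76) (nat_lit 14186113465) (nat_lit 315) (nat_lit 5) (nat_lit 327) (nat_lit 5) (nat_lit 316) (nat_lit 5) (nat_lit 482) (nat_lit 444) (nat_lit 214)) (XT.lf (nat_lit 0) (nat_lit 8363987528) (nat_lit 836) (nat_lit 12300532833) (nat_lit 76) (nat_lit 1379571996) (nat_lit 305) (nat_lit 5) (nat_lit 316) (nat_lit 5) (nat_lit 306) (nat_lit 5) (nat_lit 483) (nat_lit 444) (nat_lit 213))))) (XT.nd (nat_lit 234) (nat_lit 836) (nat_lit 0) (XT.nd (nat_lit 78) (nat_lit 1444) (nat_lit 0) (XT.lf (nat_lit 0) (nat_lit 11038782356) (nat_lit 836) (nat_lit 794889831) (nat_lit 76) (nat_lit 10460719065) (nat_lit 305) (nat_lit 5) (nat_lit 316) (nat_lit 5) (nat_lit 306) (nat_lit 5) (nat_lit 484) (nat_lit 444) (nat_lit 212)) (XT.nd (nat_lit 78) (nat_lit 684) (nat_lit 0) (XT.lf (nat_lit 0) (nat_lit 11081976421) (nat_lit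 760) (nat_lit 2753004670) (nat_lit 836) (nat_lit 8713358392) (nat_lit 295) (nat_lit 5) (nat_lit 305) (nat_lit 5) (nat_lit 306) (nat_lit 5) (nat_lit 485) (nat_lit 444) (nat_lit 211)) (XT.lf (nat_lit 0) (nat_lit 358008602) (nat_lit 684) (nat_lit 16375058702) (nat_lit 760) (nat_lit 6073381594) (nat_lit 286) (nat_lit 5) (nat_lit 295) (nat_lit 5) (nat_lit 296) (nat_lit 5) (nat_lit 486) (nat_lit 444) (nat_lit 210)))) (XT.nd (nat_lit 78) (nat_lit 836) (nat_lit 0) (XT.lf (nat_lit 0) (nat_lit 12551567516) (nat_lit 684) (nat_lit 7228662670) (nat_lit 760) (nat_lit 3287669476) (nat_lit 286) (nat_lit 5) (nat_lit 295) (nat_lit 5) (nat_lit 296) (nat_lit 5) (nat_lit 487) (nat_lit 444) (nat_lit 209)) (XT.nd (nat_lit 78) (nat_lit 76) (nat_lit 0) (XT.lf (nat_lit 0) (nat_lit 1658278974) (nat_lit 760) (nat_lit 21250595933) (nat_lit 836) (nat_lit 425295194) (nat_lit 276) (nat_lit 5) (nat_lit 286) (nat_lit 5) (nat_lit 287) (nat_lit 5) (nat_lit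 488) (nat_lit 444) (nat_lit 208)) (XT.lf (nat_lit 0) (nat_lit 2576677234) (nat_lit 836) (nat_lit 9454228149) (nat_lit 76) (nat_lit 11572236761) (nat_lit 275) (nat_lit 5) (nat_lit 286) (nat_lit 5) (nat_lit 276) (nat_lit 5) (nat_lit 489) (nat_lit 444) (nat_lit 207))))))) (XT.nd (nat_lit 56082) (nat_lit 0) (nat_lit 12312) (XT.nd (nat_lit 390) (nat_lit 684) (nat_lit 0) (XT.nd (nat_lit 156) (nat_lit 1292) (nat_lit 0) (XT.nd (nat_lit 78) (nat_lit 0) (nat_lit 0) (XT.lf (nat_lit 0) (nat_lit 3044794933) (nat_lit 684) (nat_lit 2604203815) (nat_lit 760) (nat_lit 18228119919) (nat_lit 266) (nat_lit 5) (nat_lit 275) (nat_lit 5) (nat_lit 276) (nat_lit 5) (nat_lit 490) (nat_lit 444) (nat_lit 206)) (XT.lf (nat_lit 0) (nat_lit 8888424190) (nat_lit 760) (nat_lit 8283528284) (nat_lit 76) (nat_lit 6982510419) (nat_lit 266) (nat_lit 5) (nat_lit 276) (nat_lit 5) (nat_lit 267) (nat_lit 5) (nat_lit 491) (nat_lit 444) (nat_lit 205))) (XT.nd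 (nat_lit 78) (nat_lit 608) (nat_lit 0) (XT.lf (nat_lit 0) (nat_lit 4554578823) (nat_lit 684) (nat_lit 7681224330) (nat_lit 760) (nat_lit 12200688845) (nat_lit 257) (nat_lit 5) (nat_lit 266) (nat_lit 5) (nat_lit 267) (nat_lit 5) (nat_lit 492) (nat_lit 444) (nat_lit 204)) (XT.nd (nat_lit 78) (nat_lit 608) (nat_lit 0) (XT.lf (nat_lit 0) (nat_lit 15715454329) (nat_lit 760) (nat_lit 6978860243) (nat_lit 76) (nat_lit 2028541893) (nat_lit 257) (nat_lit 5) (nat_lit 267) (nat_lit 5) (nat_lit 258) (nat_lit 5) (nat_lit 493) (nat_lit 444) (nat_lit 203)) (XT.lf (nat_lit 0) (nat_lit 6208700437) (nat_lit 608) (nat_lit 13143637705) (nat_lit 684) (nat_lit 5660858532) (nat_lit 249) (nat_lit 5) (nat_lit 257) (nat_lit 5) (nat_lit 258) (nat_lit 5) (nat_lit 494) (nat_lit 444) (nat_lit 202))))) (XT.nd (nat_lit 55458) (nat_lit 0) (nat_lit 13832) (XT.nd (nat_lit 78) (nat_lit 684) (nat_lit 0) (XT.lf (nat_lit 0) (nat_lit 19750527179) (nat_lit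 608) (nat_lit 3354766753) (nat_lit 684) (nat_lit 2203184292) (nat_lit 249) (nat_lit 5) (nat_lit 257) (nat_lit 5) (nat_lit 258) (nat_lit 5) (nat_lit 495) (nat_lit 444) (nat_lit 201)) (XT.nd (nat_lit 78) (nat_lit 0) (nat_lit 0) (XT.lf (nat_lit 0) (nat_lit 1398517984) (nat_lit 684) (nat_lit 17605554710) (nat_lit 76) (nat_lit 6603577318) (nat_lit 240) (nat_lit 5) (nat_lit 249) (nat_lit 5) (nat_lit 241) (nat_lit 5) (nat_lit 496) (nat_lit 444) (nat_lit 200)) (XT.lf (nat_lit 0) (nat_lit 5099126756) (nat_lit 684) (nat_lit 4044522976) (nat_lit 76) (nat_lit 16767737932) (nat_lit 240) (nat_lit 5) (nat_lit 249) (nat_lit 5) (nat_lit 241) (nat_lit 5) (nat_lit 497) (nat_lit 444) (nat_lit 199)))) (XT.nd (nat_lit 78) (nat_lit 0) (nat_lit 0) (XT.lf (nat_lit 0) (nat_lit 5716881907) (nat_lit 1748) (nat_lit 883593959) (nat_lit 1748) (nat_lit 883593959) (nat_lit 422) (nat_lit 3) (nat_lit 445) (nat_lit 3) (nat_lit 445) (nat_lit 5) (nat_lit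 445) (nat_lit 445) (nat_lit 250)) (XT.nd (nat_lit 78) (nat_lit 0) (nat_lit 76) (XT.lf (nat_lit 76) (nat_lit 5398665589) (nat_lit 0) (nat_lit 6475448240) (nat_lit 1748) (nat_lit 3237059102) (nat_lit 423) (nat_lit 5) (nat_lit 422) (nat_lit 3) (nat_lit 445) (nat_lit 5) (nat_lit 446) (nat_lit 445) (nat_lit 249)) (XT.lf (nat_lit 0) (nat_lit 12330071473) (nat_lit 1672) (nat_lit 2531740576) (nat_lit 1748) (nat_lit 395122167) (nat_lit 423) (nat_lit 5) (nat_lit 445) (nat_lit 5) (nat_lit 446) (nat_lit 5) (nat_lit 447) (nat_lit 445) (nat_lit 248)))))) (XT.nd (nat_lit 390) (nat_lit 1596) (nat_lit 0) (XT.nd (nat_lit 156) (nat_lit 0) (nat_lit 76) (XT.nd (nat_lit 78) (nat_lit 0) (nat_lit 0) (XT.lf (nat_lit 76) (nat_lit 4808780335) (nat_lit 0) (nat_lit 8052989644) (nat_lit 1748) (nat_lit 2542511602) (nat_lit 424) (nat_lit 5) (nat_lit 423) (nat_lit 5) (nat_lit 446) (nat_lit 5) (nat_lit 448) (nat_lit 445) (nat_lit 247)) (XT.lf (nat_lit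 76) (nat_lit 12326411244) (nat_lit 0) (nat_lit 1087317328) (nat_lit 1748) (nat_lit 2140658023) (nat_lit 424) (nat_lit 5) (nat_lit 423) (nat_lit 5) (nat_lit 446) (nat_lit 5) (nat_lit 449) (nat_lit 445) (nat_lit 246))) (XT.nd (nat_lit 78) (nat_lit 0) (nat_lit 0) (XT.lf (nat_lit 76) (nat_lit 4300118336) (nat_lit 0) (nat_lit 9736400387) (nat_lit 1748) (nat_lit 1669782300) (nat_lit 425) (nat_lit 5) (nat_lit 424) (nat_lit 5) (nat_lit 447) (nat_lit 5) (nat_lit 450) (nat_lit 445) (nat_lit 245)) (XT.nd (nat_lit 78) (nat_lit 0) (nat_lit 76) (XT.lf (nat_lit 76) (nat_lit 12011151659) (nat_lit 0) (nat_lit 2682344929) (nat_lit 1748) (nat_lit 1167325611) (nat_lit 425) (nat_lit 5) (nat_lit 424) (nat_lit 5) (nat_lit 447) (nat_lit 5) (nat_lit 451) (nat_lit 445) (nat_lit 244)) (XT.lf (nat_lit 76) (nat_lit 3875334715) (nat_lit 0) (nat_lit 11535815655) (nat_lit 1748) (nat_lit 606335740) (nat_lit 426) (nat_lit 5) (nat_lit 425) (nat_lit 5)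 (nat_lit 448) (nat_lit 5) (nat_lit 452) (nat_lit 445) (nat_lit 243))))) (XT.nd (nat_lit 234) (nat_lit 0) (nat_lit 152) (XT.nd (nat_lit 78) (nat_lit 0) (nat_lit 76) (XT.lf (nat_lit 0) (nat_lit 3225701) (nat_lit 1748) (nat_lit 4391686207) (nat_lit 1824) (nat_lit 11781640658) (nat_lit 402) (nat_lit 5) (nat_lit 425) (nat_lit 5) (nat_lit 426) (nat_lit 5) (nat_lit 453) (nat_lit 445) (nat_lit 242)) (XT.nd (nat_lit 78) (nat_lit 0) (nat_lit 0) (XT.lf (nat_lit 0) (nat_lit 652153149) (nat_lit 1748) (nat_lit 12805134283) (nat_lit 1824) (nat_lit 2880729753) (nat_lit 403) (nat_lit 5) (nat_lit 426) (nat_lit 5) (nat_lit 427) (nat_lit 5) (nat_lit 454) (nat_lit 445) (nat_lit 241)) (XT.lf (nat_lit 0) (nat_lit 1366222208) (nat_lit 1748) (nat_lit 4860219279) (nat_lit 1824) (nat_lit 10275229153) (nat_lit 403) (nat_lit 5) (nat_lit 426) (nat_lit 5) (nat_lit 427) (nat_lit 5) (nat_lit 455) (nat_lit 445) (nat_lit 240)))) (XT.nd (nat_lit 78) (nat_lit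 0) (nat_lit 0) (XT.lf (nat_lit 0) (nat_lit 2117022320) (nat_lit 1748) (nat_lit 13393462596) (nat_lit 1824) (nat_lit 1157666007) (nat_lit 404) (nat_lit 5) (nat_lit 427) (nat_lit 5) (nat_lit 428) (nat_lit 5) (nat_lit 456) (nat_lit 445) (nat_lit 239)) (XT.nd (nat_lit 78) (nat_lit 0) (nat_lit 0) (XT.lf (nat_lit 0) (nat_lit 2950539755) (nat_lit 1748) (nat_lit 5244887869) (nat_lit 1824) (nat_lit 8641181859) (nat_lit 404) (nat_lit 5) (nat_lit 427) (nat_lit 5) (nat_lit 428) (nat_lit 5) (nat_lit 457) (nat_lit 445) (nat_lit 238)) (XT.lf (nat_lit 76) (nat_lit 3103136659) (nat_lit 0) (nat_lit 711499272) (nat_lit 1824) (nat_lit 13193525759) (nat_lit 405) (nat_lit 5) (nat_lit 404) (nat_lit 5) (nat_lit 428) (nat_lit 5) (nat_lit 458) (nat_lit 445) (nat_lit 237))))))))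
noncomputable def xc232 : XT := (XT.nd (nat_lit 1638) (nat_lit 7448) (nat_lit 0) (XT.nd (nat_lit 780) (nat_lit 5092) (nat_lit 0) (XT.nd (nat_lit 390) (nat_lit 0) (nat_lit 152) (XT.nd (nat_lit 156) (nat_lit 0) (nat_lit 76) (XT.nd (nat_lit 78) (nat_lit 0) (nat_lit 0) (XT.lf (nat_lit 0) (nat_lit 4770254555) (nat_lit 1748) (nat_lit 5542729784) (nat_lit 1824) (nat_lit 6868678385) (nat_lit 405) (nat_lit 5) (nat_lit 428) (nat_lit 5) (nat_lit 429) (nat_lit 5) (nat_lit 459) (nat_lit 445) (nat_lit 236)) (XT.lf (nat_lit 76) (nat_lit 3017428199) (nat_lit 0) (nat_lit 2745849202) (nat_lit 1824) (nat_lit 11594993083) (nat_lit 406) (nat_lit 5) (nat_lit 405) (nat_lit 5) (nat_lit 429) (nat_lit 5) (nat_lit 460) (nat_lit 445) (nat_lit 235))) (XT.nd (nat_lit 78) (nat_lit 0) (nat_lit 0) (XT.lf (nat_lit 0) (nat_lit 6839977598) (nat_lit 1748) (nat_lit 5750625332) (nat_lit 1824) (nat_lit 4946533624) (nat_lit 406) (nat_lit 5) (nat_lit 429) (nat_lit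 5) (nat_lit 430) (nat_lit 5) (nat_lit 461) (nat_lit 445) (nat_lit 234)) (XT.nd (nat_lit 78) (nat_lit 0) (nat_lit 76) (XT.lf (nat_lit 76) (nat_lit 3028668947) (nat_lit 0) (nat_lit 4941597619) (nat_lit 1824) (nat_lit 9748674726) (nat_lit 407) (nat_lit 5) (nat_lit 406) (nat_lit 5) (nat_lit 430) (nat_lit 5) (nat_lit 462) (nat_lit 445) (nat_lit 233)) (XT.lf (nat_lit 0) (nat_lit 9174879997) (nat_lit 1748) (nat_lit 5865299245) (nat_lit 1824) (nat_lit 2863170905) (nat_lit 407) (nat_lit 5) (nat_lit 430) (nat_lit 5) (nat_lit 431) (nat_lit 5) (nat_lit 463) (nat_lit 445) (nat_lit 232))))) (XT.nd (nat_lit 156) (nat_lit 0) (nat_lit 76) (XT.nd (nat_lit 78) (nat_lit 0) (nat_lit 76) (XT.lf (nat_lit 76) (nat_lit 3140357216) (nat_lit 0) (nat_lit 7310757166) (nat_lit 1824) (nat_lit 7639384573) (nat_lit 408) (nat_lit 5) (nat_lit 407) (nat_lit 5) (nat_lit 431) (nat_lit 5) (nat_lit 464) (nat_lit 445) (nat_lit 231)) (XT.lf (nat_lit 0) (nat_lit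 11790718998) (nat_lit 1748) (nat_lit 5883322717) (nat_lit 1824) (nat_lit 606594414) (nat_lit 408) (nat_lit 5) (nat_lit 431) (nat_lit 5) (nat_lit 432) (nat_lit 5) (nat_lit 465) (nat_lit 445) (nat_lit 230))) (XT.nd (nat_lit 78) (nat_lit 0) (nat_lit 0) (XT.lf (nat_lit 76) (nat_lit 3356150208) (nat_lit 0) (nat_lit 9865782933) (nat_lit 1824) (nat_lit 5251348815) (nat_lit 409) (nat_lit 5) (nat_lit 408) (nat_lit 5) (nat_lit 432) (nat_lit 5) (nat_lit 466) (nat_lit 445) (nat_lit 229)) (XT.nd (nat_lit 78) (nat_lit 0) (nat_lit 76) (XT.lf (nat_lit 76) (nat_lit 12855907380) (nat_lit 0) (nat_lit 1860033878) (nat_lit 1824) (nat_lit 3953158259) (nat_lit 409) (nat_lit 5) (nat_lit 408) (nat_lit 5) (nat_lit 432) (nat_lit 5) (nat_lit 467) (nat_lit 445) (nat_lit 228)) (XT.lf (nat_lit 76) (nat_lit 3679861903) (nat_lit 0) (nat_lit 12619601717) (nat_lit 1824) (nat_lit 2568179299) (nat_lit 410) (nat_lit 5) (nat_lit 409) (nat_lit 5) (nat_lit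 433) (nat_lit 5) (nat_lit 468) (nat_lit 445) (nat_lit 227)))))) (XT.nd (nat_lit 390) (nat_lit 2584) (nat_lit 0) (XT.nd (nat_lit 156) (nat_lit 1064) (nat_lit 0) (XT.nd (nat_lit 78) (nat_lit 1748) (nat_lit 0) (XT.lf (nat_lit 76) (nat_lit 13424837978) (nat_lit 0) (nat_lit 4535939757) (nat_lit 1824) (nat_lit 1108459154) (nat_lit 410) (nat_lit 5) (nat_lit 409) (nat_lit 5) (nat_lit 433) (nat_lit 5) (nat_lit 469) (nat_lit 445) (nat_lit 226)) (XT.lf (nat_lit 0) (nat_lit 421551651) (nat_lit 1824) (nat_lit 15161261746) (nat_lit 76) (nat_lit 3691080264) (nat_lit 386) (nat_lit 5) (nat_lit 410) (nat_lit 5) (nat_lit 387) (nat_lit 5) (nat_lit 470) (nat_lit 445) (nat_lit 225))) (XT.nd (nat_lit 78) (nat_lit 1064) (nat_lit 0) (XT.lf (nat_lit 0) (nat_lit 2030518047) (nat_lit 1824) (nat_lit 5382523626) (nat_lit 76) (nat_lit 12068193407) (nat_lit 386) (nat_lit 5) (nat_lit 410) (nat_lit 5) (nat_lit 387) (nat_lit 5) (nat_lit 471) (nat_lit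 445) (nat_lit 224)) (XT.nd (nat_lit 78) (nat_lit 0) (nat_lit 0) (XT.lf (nat_lit 0) (nat_lit 3703137609) (nat_lit 1140) (nat_lit 15049878689) (nat_lit 76) (nat_lit 939079517) (nat_lit 372) (nat_lit 5) (nat_lit 387) (nat_lit 5) (nat_lit 373) (nat_lit 5) (nat_lit 472) (nat_lit 445) (nat_lit 223)) (XT.lf (nat_lit 0) (nat_lit 5489848159) (nat_lit 1140) (nat_lit 5019680268) (nat_lit 76) (nat_lit 9396034494) (nat_lit 372) (nat_lit 5) (nat_lit 387) (nat_lit 5) (nat_lit 373) (nat_lit 5) (nat_lit 473) (nat_lit 445) (nat_lit 222))))) (XT.nd (nat_lit 234) (nat_lit 836) (nat_lit 0) (XT.nd (nat_lit 78) (nat_lit 836) (nat_lit 0) (XT.lf (nat_lit 0) (nat_lit 5276092635) (nat_lit 912) (nat_lit 2065737389) (nat_lit 988) (nat_lit 12780880491) (nat_lit 360) (nat_lit 5) (nat_lit 372) (nat_lit 5) (nat_lit 373) (nat_lit 5) (nat_lit 474) (nat_lit 445) (nat_lit 221)) (XT.nd (nat_lit 78) (nat_lit 836) (nat_lit 0) (XT.lf (nat_lit 0) (nat_lit 9302615741)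 (nat_lit 988) (nat_lit 4544729831) (nat_lit 76) (nat_lit 6495422056) (nat_lit 360) (nat_lit 5) (nat_lit 373) (nat_lit 5) (nat_lit 361) (nat_lit 5) (nat_lit 475) (nat_lit 445) (nat_lit 220)) (XT.lf (nat_lit 0) (nat_lit 6024313334) (nat_lit 836) (nat_lit 5326538675) (nat_lit 912) (nat_lit 9215410994) (nat_lit 349) (nat_lit 5) (nat_lit 360) (nat_lit 5) (nat_lit 361) (nat_lit 5) (nat_lit 476) (nat_lit 445) (nat_lit 219)))) (XT.nd (nat_lit 78) (nat_lit 836) (nat_lit 0) (XT.lf (nat_lit 0) (nat_lit 13488103144) (nat_lit 912) (nat_lit 3953601952) (nat_lit 76) (nat_lit 3351563965) (nat_lit 349) (nat_lit 5) (nat_lit 361) (nat_lit 5) (nat_lit 350) (nat_lit 5) (nat_lit 477) (nat_lit 445) (nat_lit 218)) (XT.nd (nat_lit 78) (nat_lit 0) (nat_lit 0) (XT.lf (nat_lit 0) (nat_lit 6897505280) (nat_lit 836) (nat_lit 8846245311) (nat_lit 912) (nat_lit 5279553370) (nat_lit 338) (nat_lit 5) (nat_lit 349) (nat_lit 5) (nat_lit 350) (nat_lit 5)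 (nat_lit 478) (nat_lit 445) (nat_lit 217)) (XT.lf (nat_lit 0) (nat_lit 18015059996) (nat_lit 836) (nat_lit 51634117) (nat_lit 912) (nat_lit 3190803492) (nat_lit 338) (nat_lit 5) (nat_lit 349) (nat_lit 5) (nat_lit 350) (nat_lit 5) (nat_lit 479) (nat_lit 445) (nat_lit 216))))))) (XT.nd (nat_lit 780) (nat_lit 2736) (nat_lit 0) (XT.nd (nat_lit 390) (nat_lit 2204) (nat_lit 0) (XT.nd (nat_lit 156) (nat_lit 1596) (nat_lit 0) (XT.nd (nat_lit 78) (nat_lit 76) (nat_lit 0) (XT.lf (nat_lit 0) (nat_lit 7900121836) (nat_lit 836) (nat_lit 12640913493) (nat_lit 912) (nat_lit 953242696) (nat_lit 327) (nat_lit 5) (nat_lit 338) (nat_lit 5) (nat_lit 339) (nat_lit 5) (nat_lit 480) (nat_lit 445) (nat_lit 215)) (XT.lf (nat_lit 0) (nat_lit 1329648784) (nat_lit 912) (nat_lit 2439193135) (nat_lit 76) (nat_lit 17966420951) (nat_lit 326) (nat_lit 5) (nat_lit 338) (nat_lit 5) (nat_lit 327) (nat_lit 5) (nat_lit 481) (nat_lit 445) (nat_lit 214)))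 (XT.nd (nat_lit 78) (nat_lit 760) (nat_lit 0) (XT.lf (nat_lit 0) (nat_lit 3734751402) (nat_lit 912) (nat_lit 12967478223) (nat_lit 76) (nat_lit 5276927006) (nat_lit 315) (nat_lit 5) (nat_lit 327) (nat_lit 5) (nat_lit 316) (nat_lit 5) (nat_lit 482) (nat_lit 445) (nat_lit 213)) (XT.nd (nat_lit 78) (nat_lit 760) (nat_lit 0) (XT.lf (nat_lit 0) (nat_lit 6225295751) (nat_lit 912) (nat_lit 1532214758) (nat_lit 76) (nat_lit 14469672513) (nat_lit 315) (nat_lit 5) (nat_lit 327) (nat_lit 5) (nat_lit 316) (nat_lit 5) (nat_lit 483) (nat_lit 445) (nat_lit 212)) (XT.lf (nat_lit 0) (nat_lit 8837574810) (nat_lit 836) (nat_lit 12225979965) (nat_lit 76) (nat_lit 1415178209) (nat_lit 305) (nat_lit 5) (nat_lit 316) (nat_lit 5) (nat_lit 306) (nat_lit 5) (nat_lit 484) (nat_lit 445) (nat_lit 211))))) (XT.nd (nat_lit 156) (nat_lit 1444) (nat_lit 0) (XT.nd (nat_lit 78) (nat_lit 760) (nat_lit 0) (XT.lf (nat_lit 0) (nat_lit 11559859505) (nat_lit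 836) (nat_lit 496509661) (nat_lit 76) (nat_lit 10677791066) (nat_lit 305) (nat_lit 5) (nat_lit 316) (nat_lit 5) (nat_lit 306) (nat_lit 5) (nat_lit 485) (nat_lit 445) (nat_lit 210)) (XT.lf (nat_lit 0) (nat_lit 11615826297) (nat_lit 760) (nat_lit 2792294728) (nat_lit 836) (nat_lit 8585145838) (nat_lit 295) (nat_lit 5) (nat_lit 305) (nat_lit 5) (nat_lit 306) (nat_lit 5) (nat_lit 486) (nat_lit 445) (nat_lit 209))) (XT.nd (nat_lit 78) (nat_lit 760) (nat_lit 0) (XT.lf (nat_lit 0) (nat_lit 681223066) (nat_lit 684) (nat_lit 16679285758) (nat_lit 760) (nat_lit 5896105015) (nat_lit 286) (nat_lit 5) (nat_lit 295) (nat_lit 5) (nat_lit 296) (nat_lit 5) (nat_lit 487) (nat_lit 445) (nat_lit 208)) (XT.nd (nat_lit 78) (nat_lit 760) (nat_lit 0) (XT.lf (nat_lit 0) (nat_lit 13112456016) (nat_lit 684) (nat_lit 7350418160) (nat_lit 760) (nat_lit 3060536384) (nat_lit 286) (nat_lit 5) (nat_lit 295) (nat_lit 5) (nat_lit 296) (nat_lit 5) (nat_lit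 488) (nat_lit 445) (nat_lit 207)) (XT.lf (nat_lit 0) (nat_lit 2004924623) (nat_lit 760) (nat_lit 21645719509) (nat_lit 836) (nat_lit 144433314) (nat_lit 276) (nat_lit 5) (nat_lit 286) (nat_lit 5) (nat_lit 287) (nat_lit 5) (nat_lit 489) (nat_lit 445) (nat_lit 206)))))) (XT.nd (nat_lit 390) (nat_lit 1292) (nat_lit 0) (XT.nd (nat_lit 156) (nat_lit 684) (nat_lit 0) (XT.nd (nat_lit 78) (nat_lit 684) (nat_lit 0) (XT.lf (nat_lit 0) (nat_lit 2908183989) (nat_lit 836) (nat_lit 9332158438) (nat_lit 76) (nat_lit 11829162920) (nat_lit 275) (nat_lit 5) (nat_lit 286) (nat_lit 5) (nat_lit 276) (nat_lit 5) (nat_lit 490) (nat_lit 445) (nat_lit 205)) (XT.lf (nat_lit 0) (nat_lit 3414798038) (nat_lit 684) (nat_lit 2623671153) (nat_lit 760) (nat_lit 18310563829) (nat_lit 266) (nat_lit 5) (nat_lit 275) (nat_lit 5) (nat_lit 276) (nat_lit 5) (nat_lit 491) (nat_lit 445) (nat_lit 204))) (XT.nd (nat_lit 78) (nat_lit 684) (nat_lit 0) (XT.lf (nat_lit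 0) (nat_lit 9337469377) (nat_lit 760) (nat_lit 8140842518) (nat_lit 76) (nat_lit 7153718435) (nat_lit 266) (nat_lit 5) (nat_lit 276) (nat_lit 5) (nat_lit 267) (nat_lit 5) (nat_lit 492) (nat_lit 445) (nat_lit 203)) (XT.nd (nat_lit 78) (nat_lit 0) (nat_lit 0) (XT.lf (nat_lit 0) (nat_lit 4951998071) (nat_lit 684) (nat_lit 7796467580) (nat_lit 760) (nat_lit 12171302860) (nat_lit 257) (nat_lit 5) (nat_lit 266) (nat_lit 5) (nat_lit 267) (nat_lit 5) (nat_lit 493) (nat_lit 445) (nat_lit 202)) (XT.lf (nat_lit 0) (nat_lit 16292700308) (nat_lit 760) (nat_lit 6813014113) (nat_lit 76) (nat_lit 2106247887) (nat_lit 257) (nat_lit 5) (nat_lit 267) (nat_lit 5) (nat_lit 258) (nat_lit 5) (nat_lit 494) (nat_lit 445) (nat_lit 201))))) (XT.nd (nat_lit 55536) (nat_lit 0) (nat_lit 13832) (XT.nd (nat_lit 78) (nat_lit 684) (nat_lit 0) (XT.lf (nat_lit 0) (nat_lit 6636288417) (nat_lit 608) (nat_lit 13362847721) (nat_lit 684) (nat_lit 5509038713)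 (nat_lit 249) (nat_lit 5) (nat_lit 257) (nat_lit 5) (nat_lit 258) (nat_lit 5) (nat_lit 495) (nat_lit 445) (nat_lit 200)) (XT.nd (nat_lit 156) (nat_lit 684) (nat_lit 0) (XT.lf (nat_lit 0) (nat_lit 20443002400) (nat_lit 608) (nat_lit 3379055482) (nat_lit 684) (nat_lit 1987407792) (nat_lit 249) (nat_lit 5) (nat_lit 257) (nat_lit 5) (nat_lit 258) (nat_lit 5) (nat_lit 496) (nat_lit 445) (nat_lit 199)) (XT.lf (nat_lit 0) (nat_lit 5449777637) (nat_lit 684) (nat_lit 3827535143) (nat_lit 76) (nat_lit 17147245448) (nat_lit 240) (nat_lit 5) (nat_lit 249) (nat_lit 5) (nat_lit 241) (nat_lit 5) (nat_lit 498) (nat_lit 445) (nat_lit 197)))) (XT.nd (nat_lit 78) (nat_lit 0) (nat_lit 0) (XT.lf (nat_lit 0) (nat_lit 6120291095) (nat_lit 1748) (nat_lit 753775828) (nat_lit 1748) (nat_lit 753775828) (nat_lit 422) (nat_lit 3) (nat_lit 445) (nat_lit 3) (nat_lit 445) (nat_lit 5) (nat_lit 446) (nat_lit 446) (nat_lit 248)) (XT.nd (nat_lit 78) (nat_lit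 0) (nat_lit 76) (XT.lf (nat_lit 76) (nat_lit 5799678264) (nat_lit 0) (nat_lit 6880627408) (nat_lit 1748) (nat_lit 2721467428) (nat_lit 423) (nat_lit 5) (nat_lit 422) (nat_lit 3) (nat_lit 445) (nat_lit 5) (nat_lit 447) (nat_lit 446) (nat_lit 247)) (XT.lf (nat_lit 0) (nat_lit 13132476562) (nat_lit 1672) (nat_lit 2281931773) (nat_lit 1748) (nat_lit 136304278) (nat_lit 423) (nat_lit 5) (nat_lit 445) (nat_lit 5) (nat_lit 446) (nat_lit 5) (nat_lit 448) (nat_lit 446) (nat_lit 246))))))))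
noncomputable def xc233 : XT := (XT.nd (nat_lit 1638) (nat_lit 9652) (nat_lit 0) (XT.nd (nat_lit 780) (nat_lit 0) (nat_lit 152) (XT.nd (nat_lit 390) (nat_lit 1596) (nat_lit 0) (XT.nd (nat_lit 156) (nat_lit 0) (nat_lit 76) (XT.nd (nat_lit 78) (nat_lit 0) (nat_lit 0) (XT.lf (nat_lit 76) (nat_lit 5203422954) (nat_lit 0) (nat_lit 8462425819) (nat_lit 1748) (nat_lit 2035342146) (nat_lit 424) (nat_lit 5) (nat_lit 423) (nat_lit 5) (nat_lit 446) (nat_lit 5) (nat_lit 449) (nat_lit 446) (nat_lit 245)) (XT.lf (nat_lit 76) (nat_lit 12865554187) (nat_lit 0) (nat_lit 1352569932) (nat_lit 1748) (nat_lit 1636393058) (nat_lit 424) (nat_lit 5) (nat_lit 423) (nat_lit 5) (nat_lit 446) (nat_lit 5) (nat_lit 450) (nat_lit 446) (nat_lit 244))) (XT.nd (nat_lit 78) (nat_lit 0) (nat_lit 0) (XT.lf (nat_lit 76) (nat_lit 4689265991) (nat_lit 0) (nat_lit 10154010122) (nat_lit 1748) (nat_lit 1166400262) (nat_lit 425) (nat_lit 5) (nat_lit 424) (nat_lit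 5) (nat_lit 447) (nat_lit 5) (nat_lit 451) (nat_lit 446) (nat_lit 243)) (XT.nd (nat_lit 78) (nat_lit 0) (nat_lit 76) (XT.lf (nat_lit 76) (nat_lit 12548575955) (nat_lit 0) (nat_lit 2954503325) (nat_lit 1748) (nat_lit 664419492) (nat_lit 425) (nat_lit 5) (nat_lit 424) (nat_lit 5) (nat_lit 447) (nat_lit 5) (nat_lit 452) (nat_lit 446) (nat_lit 242)) (XT.lf (nat_lit 76) (nat_lit 4259967319) (nat_lit 0) (nat_lit 11965609965) (nat_lit 1748) (nat_lit 101913278) (nat_lit 426) (nat_lit 5) (nat_lit 425) (nat_lit 5) (nat_lit 448) (nat_lit 5) (nat_lit 453) (nat_lit 446) (nat_lit 241))))) (XT.nd (nat_lit 156) (nat_lit 0) (nat_lit 76) (XT.nd (nat_lit 78) (nat_lit 0) (nat_lit 76) (XT.lf (nat_lit 0) (nat_lit 503069178) (nat_lit 1748) (nat_lit 4171561695) (nat_lit 1824) (nat_lit 11815244562) (nat_lit 402) (nat_lit 5) (nat_lit 425) (nat_lit 5) (nat_lit 426) (nat_lit 5) (nat_lit 454) (nat_lit 446) (nat_lit 240)) (XT.lf (nat_lit 0) (nat_lit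 1155954048) (nat_lit 1748) (nat_lit 12744049173) (nat_lit 1824) (nat_lit 2754750715) (nat_lit 403) (nat_lit 5) (nat_lit 426) (nat_lit 5) (nat_lit 427) (nat_lit 5) (nat_lit 455) (nat_lit 446) (nat_lit 239))) (XT.nd (nat_lit 78) (nat_lit 0) (nat_lit 76) (XT.lf (nat_lit 0) (nat_lit 1874681787) (nat_lit 1748) (nat_lit 4646455237) (nat_lit 1824) (nat_lit 10300739978) (nat_lit 403) (nat_lit 5) (nat_lit 426) (nat_lit 5) (nat_lit 427) (nat_lit 5) (nat_lit 456) (nat_lit 446) (nat_lit 238)) (XT.nd (nat_lit 78) (nat_lit 0) (nat_lit 0) (XT.lf (nat_lit 0) (nat_lit 2631999720) (nat_lit 1748) (nat_lit 13341664899) (nat_lit 1824) (nat_lit 1018196242) (nat_lit 404) (nat_lit 5) (nat_lit 427) (nat_lit 5) (nat_lit 428) (nat_lit 5) (nat_lit 457) (nat_lit 446) (nat_lit 237)) (XT.lf (nat_lit 0) (nat_lit 3472920112) (nat_lit 1748) (nat_lit 5036386657) (nat_lit 1824) (nat_lit 8654571099) (nat_lit 404) (nat_lit 5) (nat_lit 427) (nat_lit 5) (nat_lit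 428) (nat_lit 5) (nat_lit 458) (nat_lit 446) (nat_lit 236)))))) (XT.nd (nat_lit 390) (nat_lit 0) (nat_lit 228) (XT.nd (nat_lit 156) (nat_lit 0) (nat_lit 76) (XT.nd (nat_lit 78) (nat_lit 0) (nat_lit 76) (XT.lf (nat_lit 76) (nat_lit 3476536526) (nat_lit 0) (nat_lit 870697415) (nat_lit 1824) (nat_lit 12991772316) (nat_lit 405) (nat_lit 5) (nat_lit 404) (nat_lit 5) (nat_lit 428) (nat_lit 5) (nat_lit 459) (nat_lit 446) (nat_lit 235)) (XT.lf (nat_lit 0) (nat_lit 5312095001) (nat_lit 1748) (nat_lit 5338293173) (nat_lit 1824) (nat_lit 6865790312) (nat_lit 405) (nat_lit 5) (nat_lit 428) (nat_lit 5) (nat_lit 429) (nat_lit 5) (nat_lit 460) (nat_lit 446) (nat_lit 234))) (XT.nd (nat_lit 78) (nat_lit 0) (nat_lit 76) (XT.lf (nat_lit 76) (nat_lit 3390993685) (nat_lit 0) (nat_lit 2927264597) (nat_lit 1824) (nat_lit 11378198221) (nat_lit 406) (nat_lit 5) (nat_lit 405) (nat_lit 5) (nat_lit 429) (nat_lit 5) (nat_lit 461) (nat_lit 446) (nat_lit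 233)) (XT.nd (nat_lit 78) (nat_lit 0) (nat_lit 0) (XT.lf (nat_lit 0) (nat_lit 7407065406) (nat_lit 1748) (nat_lit 5548953892) (nat_lit 1824) (nat_lit 4923072766) (nat_lit 406) (nat_lit 5) (nat_lit 429) (nat_lit 5) (nat_lit 430) (nat_lit 5) (nat_lit 462) (nat_lit 446) (nat_lit 232)) (XT.lf (nat_lit 76) (nat_lit 3403842825) (nat_lit 0) (nat_lit 5149722899) (nat_lit 1824) (nat_lit 9511098621) (nat_lit 407) (nat_lit 5) (nat_lit 406) (nat_lit 5) (nat_lit 430) (nat_lit 5) (nat_lit 463) (nat_lit 446) (nat_lit 231))))) (XT.nd (nat_lit 234) (nat_lit 0) (nat_lit 76) (XT.nd (nat_lit 78) (nat_lit 0) (nat_lit 0) (XT.lf (nat_lit 0) (nat_lit 9773264089) (nat_lit 1748) (nat_lit 5664991625) (nat_lit 1824) (nat_lit 2814689298) (nat_lit 407) (nat_lit 5) (nat_lit 430) (nat_lit 5) (nat_lit 431) (nat_lit 5) (nat_lit 464) (nat_lit 446) (nat_lit 230)) (XT.nd (nat_lit 78) (nat_lit 0) (nat_lit 76) (XT.lf (nat_lit 76) (nat_lit 3518688402) (nat_lit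 0) (nat_lit 7550248321) (nat_lit 1824) (nat_lit 7375025220) (nat_lit 408) (nat_lit 5) (nat_lit 407) (nat_lit 5) (nat_lit 431) (nat_lit 5) (nat_lit 465) (nat_lit 446) (nat_lit 229)) (XT.lf (nat_lit 0) (nat_lit 12426724010) (nat_lit 1748) (nat_lit 5682874816) (nat_lit 1824) (nat_lit 528478576) (nat_lit 408) (nat_lit 5) (nat_lit 431) (nat_lit 5) (nat_lit 432) (nat_lit 5) (nat_lit 466) (nat_lit 446) (nat_lit 228)))) (XT.nd (nat_lit 78) (nat_lit 0) (nat_lit 0) (XT.lf (nat_lit 76) (nat_lit 3739294709) (nat_lit 0) (nat_lit 10141472672) (nat_lit 1824) (nat_lit 4953927953) (nat_lit 409) (nat_lit 5) (nat_lit 408) (nat_lit 5) (nat_lit 432) (nat_lit 5) (nat_lit 467) (nat_lit 446) (nat_lit 227)) (XT.nd (nat_lit 78) (nat_lit 0) (nat_lit 76) (XT.lf (nat_lit 76) (nat_lit 13422850525) (nat_lit 0) (nat_lit 1974071890) (nat_lit 1824) (nat_lit 3637664720) (nat_lit 409) (nat_lit 5) (nat_lit 408) (nat_lit 5) (nat_lit 432) (nat_lit 5) (nat_lit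 468) (nat_lit 446) (nat_lit 226)) (XT.lf (nat_lit 76) (nat_lit 4069583849) (nat_lit 0) (nat_lit 12936513154) (nat_lit 1824) (nat_lit 2231127924) (nat_lit 410) (nat_lit 5) (nat_lit 409) (nat_lit 5) (nat_lit 433) (nat_lit 5) (nat_lit 469) (nat_lit 446) (nat_lit 225))))))) (XT.nd (nat_lit 858) (nat_lit 4788) (nat_lit 0) (XT.nd (nat_lit 390) (nat_lit 2584) (nat_lit 0) (XT.nd (nat_lit 156) (nat_lit 1064) (nat_lit 0) (XT.nd (nat_lit 78) (nat_lit 1748) (nat_lit 0) (XT.lf (nat_lit 76) (nat_lit 14003260923) (nat_lit 0) (nat_lit 4689912868) (nat_lit 1824) (nat_lit 749829356) (nat_lit 410) (nat_lit 5) (nat_lit 409) (nat_lit 5) (nat_lit 433) (nat_lit 5) (nat_lit 470) (nat_lit 446) (nat_lit 224)) (XT.lf (nat_lit 0) (nat_lit 800077772) (nat_lit 1824) (nat_lit 15143556213) (nat_lit 76) (nat_lit 3708186790) (nat_lit 386) (nat_lit 5) (nat_lit 410) (nat_lit 5) (nat_lit 387) (nat_lit 5) (nat_lit 471) (nat_lit 446) (nat_lit 223))) (XT.nd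 (nat_lit 78) (nat_lit 1064) (nat_lit 0) (XT.lf (nat_lit 0) (nat_lit 2433966729) (nat_lit 1824) (nat_lit 5175536091) (nat_lit 76) (nat_lit 12253954257) (nat_lit 386) (nat_lit 5) (nat_lit 410) (nat_lit 5) (nat_lit 387) (nat_lit 5) (nat_lit 472) (nat_lit 446) (nat_lit 222)) (XT.nd (nat_lit 78) (nat_lit 0) (nat_lit 0) (XT.lf (nat_lit 0) (nat_lit 4134660233) (nat_lit 1140) (nat_lit 15030716729) (nat_lit 76) (nat_lit 913268497) (nat_lit 372) (nat_lit 5) (nat_lit 387) (nat_lit 5) (nat_lit 373) (nat_lit 5) (nat_lit 473) (nat_lit 446) (nat_lit 221)) (XT.lf (nat_lit 0) (nat_lit 5950095976) (nat_lit 1140) (nat_lit 4806191977) (nat_lit 76) (nat_lit 9540236938) (nat_lit 372) (nat_lit 5) (nat_lit 387) (nat_lit 5) (nat_lit 373) (nat_lit 5) (nat_lit 474) (nat_lit 446) (nat_lit 220))))) (XT.nd (nat_lit 234) (nat_lit 836) (nat_lit 0) (XT.nd (nat_lit 78) (nat_lit 836) (nat_lit 0) (XT.lf (nat_lit 0) (nat_lit 5693431371) (nat_lit 912) (nat_lit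 2140839045) (nat_lit 988) (nat_lit 12683844714) (nat_lit 360) (nat_lit 5) (nat_lit 372) (nat_lit 5) (nat_lit 373) (nat_lit 5) (nat_lit 475) (nat_lit 446) (nat_lit 219)) (XT.nd (nat_lit 78) (nat_lit 836) (nat_lit 0) (XT.lf (nat_lit 0) (nat_lit 9827280237) (nat_lit 988) (nat_lit 4322795167) (nat_lit 76) (nat_lit 6592640510) (nat_lit 360) (nat_lit 5) (nat_lit 373) (nat_lit 5) (nat_lit 361) (nat_lit 5) (nat_lit 476) (nat_lit 446) (nat_lit 218)) (XT.lf (nat_lit 0) (nat_lit 6455570775) (nat_lit 836) (nat_lit 5456288733) (nat_lit 912) (nat_lit 9058916766) (nat_lit 349) (nat_lit 5) (nat_lit 360) (nat_lit 5) (nat_lit 361) (nat_lit 5) (nat_lit 477) (nat_lit 446) (nat_lit 217)))) (XT.nd (nat_lit 78) (nat_lit 836) (nat_lit 0) (XT.lf (nat_lit 0) (nat_lit 14085159034) (nat_lit 912) (nat_lit 3721170150) (nat_lit 76) (nat_lit 3396129794) (nat_lit 349) (nat_lit 5) (nat_lit 361) (nat_lit 5) (nat_lit 350) (nat_lit 5) (nat_lit 478) (nat_lit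 446) (nat_lit 216)) (XT.nd (nat_lit 78) (nat_lit 0) (nat_lit 0) (XT.lf (nat_lit 0) (nat_lit 7344909859) (nat_lit 836) (nat_lit 9036601228) (nat_lit 912) (nat_lit 5055674196) (nat_lit 338) (nat_lit 5) (nat_lit 349) (nat_lit 5) (nat_lit 350) (nat_lit 5) (nat_lit 479) (nat_lit 446) (nat_lit 215)) (XT.lf (nat_lit 0) (nat_lit 18678747935) (nat_lit 836) (nat_lit 65834457) (nat_lit 912) (nat_lit 2931609521) (nat_lit 338) (nat_lit 5) (nat_lit 349) (nat_lit 5) (nat_lit 350) (nat_lit 5) (nat_lit 480) (nat_lit 446) (nat_lit 214)))))) (XT.nd (nat_lit 390) (nat_lit 2280) (nat_lit 0) (XT.nd (nat_lit 156) (nat_lit 1596) (nat_lit 0) (XT.nd (nat_lit 78) (nat_lit 76) (nat_lit 0) (XT.lf (nat_lit 0) (nat_lit 8366013150) (nat_lit 836) (nat_lit 12898105535) (nat_lit 912) (nat_lit 653677533) (nat_lit 327) (nat_lit 5) (nat_lit 338) (nat_lit 5) (nat_lit 339) (nat_lit 5) (nat_lit 481) (nat_lit 446) (nat_lit 213)) (XT.lf (nat_lit 0) (nat_lit 1664527178)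 (nat_lit 912) (nat_lit 2181910834) (nat_lit 76) (nat_lit 18317247035) (nat_lit 326) (nat_lit 5) (nat_lit 338) (nat_lit 5) (nat_lit 327) (nat_lit 5) (nat_lit 482) (nat_lit 446) (nat_lit 212))) (XT.nd (nat_lit 78) (nat_lit 760) (nat_lit 0) (XT.lf (nat_lit 0) (nat_lit 4113660094) (nat_lit 912) (nat_lit 12916574799) (nat_lit 76) (nat_lit 5382305526) (nat_lit 315) (nat_lit 5) (nat_lit 327) (nat_lit 5) (nat_lit 316) (nat_lit 5) (nat_lit 483) (nat_lit 446) (nat_lit 211)) (XT.nd (nat_lit 78) (nat_lit 760) (nat_lit 0) (XT.lf (nat_lit 0) (nat_lit 6648050356) (nat_lit 912) (nat_lit 1258689456) (nat_lit 76) (nat_lit 14758909081) (nat_lit 315) (nat_lit 5) (nat_lit 327) (nat_lit 5) (nat_lit 316) (nat_lit 5) (nat_lit 484) (nat_lit 446) (nat_lit 210)) (XT.lf (nat_lit 0) (nat_lit 9308739542) (nat_lit 836) (nat_lit 12162383911) (nat_lit 76) (nat_lit 1451185323) (nat_lit 305) (nat_lit 5) (nat_lit 316) (nat_lit 5) (nat_lit 306) (nat_lit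 5) (nat_lit 485) (nat_lit 446) (nat_lit 209))))) (XT.nd (nat_lit 234) (nat_lit 836) (nat_lit 0) (XT.nd (nat_lit 78) (nat_lit 1444) (nat_lit 0) (XT.lf (nat_lit 0) (nat_lit 12079697123) (nat_lit 836) (nat_lit 204365685) (nat_lit 76) (nat_lit 10898899387) (nat_lit 305) (nat_lit 5) (nat_lit 316) (nat_lit 5) (nat_lit 306) (nat_lit 5) (nat_lit 486) (nat_lit 446) (nat_lit 208)) (XT.nd (nat_lit 78) (nat_lit 684) (nat_lit 0) (XT.lf (nat_lit 0) (nat_lit 12148229663) (nat_lit 760) (nat_lit 2832982958) (nat_lit 836) (nat_lit 8466114689) (nat_lit 295) (nat_lit 5) (nat_lit 305) (nat_lit 5) (nat_lit 306) (nat_lit 5) (nat_lit 487) (nat_lit 446) (nat_lit 207)) (XT.lf (nat_lit 0) (nat_lit 998629046) (nat_lit 684) (nat_lit 16990501117) (nat_lit 760) (nat_lit 5726883506) (nat_lit 286) (nat_lit 5) (nat_lit 295) (nat_lit 5) (nat_lit 296) (nat_lit 5) (nat_lit 488) (nat_lit 446) (nat_lit 206)))) (XT.nd (nat_lit 78) (nat_lit 836) (nat_lit 0)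 (XT.lf (nat_lit 0) (nat_lit 13672530155) (nat_lit 684) (nat_lit 7475494802) (nat_lit 760) (nat_lit 2840233769) (nat_lit 286) (nat_lit 5) (nat_lit 295) (nat_lit 5) (nat_lit 296) (nat_lit 5) (nat_lit 489) (nat_lit 446) (nat_lit 205)) (XT.nd (nat_lit 78) (nat_lit 0) (nat_lit 0) (XT.lf (nat_lit 0) (nat_lit 129093712) (nat_lit 836) (nat_lit 21919946158) (nat_lit 76) (nat_lit 2216370372) (nat_lit 275) (nat_lit 5) (nat_lit 286) (nat_lit 5) (nat_lit 276) (nat_lit 5) (nat_lit 490) (nat_lit 446) (nat_lit 204)) (XT.lf (nat_lit 0) (nat_lit 3235449177) (nat_lit 836) (nat_lit 9219729833) (nat_lit 76) (nat_lit 12090238128) (nat_lit 275) (nat_lit 5) (nat_lit 286) (nat_lit 5) (nat_lit 276) (nat_lit 5) (nat_lit 491) (nat_lit 446) (nat_lit 203))))))))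
noncomputable def xc234 : XT := (XT.nd (nat_lit 57018) (nat_lit 0) (nat_lit 6612) (XT.nd (nat_lit 56160) (nat_lit 0) (nat_lit 12312) (XT.nd (nat_lit 468) (nat_lit 684) (nat_lit 0) (XT.nd (nat_lit 156) (nat_lit 1292) (nat_lit 0) (XT.nd (nat_lit 78) (nat_lit 0) (nat_lit 0) (XT.lf (nat_lit 0) (nat_lit 3780198196) (nat_lit 684) (nat_lit 2644794385) (nat_lit 760) (nat_lit 18405611621) (nat_lit 266) (nat_lit 5) (nat_lit 275) (nat_lit 5) (nat_lit 276) (nat_lit 5) (nat_lit 492) (nat_lit 446) (nat_lit 202)) (XT.lf (nat_lit 0) (nat_lit 9784961462) (nat_lit 760) (nat_lit 8007276889) (nat_lit 76) (nat_lit 7327125184) (nat_lit 266) (nat_lit 5) (nat_lit 276) (nat_lit 5) (nat_lit 267) (nat_lit 5) (nat_lit 493) (nat_lit 446) (nat_lit 201))) (XT.nd (nat_lit 78) (nat_lit 608) (nat_lit 0) (XT.lf (nat_lit 0) (nat_lit 5345470627) (nat_lit 684) (nat_lit 7915506085) (nat_lit 760) (nat_lit 12151945602) (nat_lit 257) (nat_lit 5) (nat_lit 266)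 (nat_lit 5) (nat_lit 267) (nat_lit 5) (nat_lit 494) (nat_lit 446) (nat_lit 200)) (XT.nd (nat_lit 78) (nat_lit 608) (nat_lit 0) (XT.lf (nat_lit 0) (nat_lit 16871281048) (nat_lit 760) (nat_lit 6655711021) (nat_lit 76) (nat_lit 2184065998) (nat_lit 257) (nat_lit 5) (nat_lit 267) (nat_lit 5) (nat_lit 258) (nat_lit 5) (nat_lit 495) (nat_lit 446) (nat_lit 199)) (XT.lf (nat_lit 0) (nat_lit 7060646222) (nat_lit 608) (nat_lit 13588137414) (nat_lit 684) (nat_lit 5364474207) (nat_lit 249) (nat_lit 5) (nat_lit 257) (nat_lit 5) (nat_lit 258) (nat_lit 5) (nat_lit 496) (nat_lit 446) (nat_lit 198))))) (XT.nd (nat_lit 55458) (nat_lit 0) (nat_lit 13832) (XT.nd (nat_lit 55380) (nat_lit 0) (nat_lit 13832) (XT.lf (nat_lit 0) (nat_lit 1957525154) (nat_lit 684) (nat_lit 17714869002) (nat_lit 76) (nat_lit 6959585387) (nat_lit 240) (nat_lit 5) (nat_lit 249) (nat_lit 5) (nat_lit 241) (nat_lit 5) (nat_lit 498) (nat_lit 446) (nat_lit 196)) (XT.lf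 (nat_lit 0) (nat_lit 6520543466) (nat_lit 1748) (nat_lit 627088551) (nat_lit 1748) (nat_lit 627088551) (nat_lit 422) (nat_lit 3) (nat_lit 445) (nat_lit 3) (nat_lit 445) (nat_lit 5) (nat_lit 447) (nat_lit 447) (nat_lit 246))) (XT.nd (nat_lit 78) (nat_lit 0) (nat_lit 0) (XT.lf (nat_lit 76) (nat_lit 6197332117) (nat_lit 0) (nat_lit 7283205549) (nat_lit 1748) (nat_lit 2218098952) (nat_lit 423) (nat_lit 5) (nat_lit 422) (nat_lit 3) (nat_lit 445) (nat_lit 5) (nat_lit 448) (nat_lit 447) (nat_lit 245)) (XT.nd (nat_lit 78) (nat_lit 0) (nat_lit 76) (XT.lf (nat_lit 76) (nat_lit 13811226961) (nat_lit 0) (nat_lit 118892184) (nat_lit 1748) (nat_lit 1920673128) (nat_lit 423) (nat_lit 5) (nat_lit 422) (nat_lit 3) (nat_lit 445) (nat_lit 5) (nat_lit 449) (nat_lit 447) (nat_lit 244)) (XT.lf (nat_lit 76) (nat_lit 5594368587) (nat_lit 0) (nat_lit 8870405960) (nat_lit 1748) (nat_lit 1539697886) (nat_lit 424) (nat_lit 5) (nat_lit 423) (nat_lit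 5) (nat_lit 446) (nat_lit 5) (nat_lit 450) (nat_lit 447) (nat_lit 243)))))) (XT.nd (nat_lit 390) (nat_lit 0) (nat_lit 76) (XT.nd (nat_lit 156) (nat_lit 1596) (nat_lit 0) (XT.nd (nat_lit 78) (nat_lit 0) (nat_lit 76) (XT.lf (nat_lit 76) (nat_lit 13404117402) (nat_lit 0) (nat_lit 1613671943) (nat_lit 1748) (nat_lit 1143286504) (nat_lit 424) (nat_lit 5) (nat_lit 423) (nat_lit 5) (nat_lit 446) (nat_lit 5) (nat_lit 451) (nat_lit 447) (nat_lit 242)) (XT.lf (nat_lit 76) (nat_lit 5074425097) (nat_lit 0) (nat_lit 10571317282) (nat_lit 1748) (nat_lit 673794315) (nat_lit 425) (nat_lit 5) (nat_lit 424) (nat_lit 5) (nat_lit 447) (nat_lit 5) (nat_lit 452) (nat_lit 447) (nat_lit 241))) (XT.nd (nat_lit 78) (nat_lit 1672) (nat_lit 0) (XT.lf (nat_lit 76) (nat_lit 13085208050) (nat_lit 0) (nat_lit 3223619820) (nat_lit 1748) (nat_lit 171890282) (nat_lit 425) (nat_lit 5) (nat_lit 424) (nat_lit 5) (nat_lit 447) (nat_lit 5) (nat_lit 453) (nat_lit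 447) (nat_lit 240)) (XT.nd (nat_lit 78) (nat_lit 0) (nat_lit 0) (XT.lf (nat_lit 0) (nat_lit 387391174) (nat_lit 1748) (nat_lit 12006278947) (nat_lit 1824) (nat_lit 4250375728) (nat_lit 402) (nat_lit 5) (nat_lit 425) (nat_lit 5) (nat_lit 426) (nat_lit 5) (nat_lit 454) (nat_lit 447) (nat_lit 239)) (XT.lf (nat_lit 0) (nat_lit 993502498) (nat_lit 1748) (nat_lit 3958993087) (nat_lit 1824) (nat_lit 11857365572) (nat_lit 402) (nat_lit 5) (nat_lit 425) (nat_lit 5) (nat_lit 426) (nat_lit 5) (nat_lit 455) (nat_lit 447) (nat_lit 238))))) (XT.nd (nat_lit 234) (nat_lit 0) (nat_lit 76) (XT.nd (nat_lit 78) (nat_lit 0) (nat_lit 0) (XT.lf (nat_lit 0) (nat_lit 1650774241) (nat_lit 1748) (nat_lit 12694059149) (nat_lit 1824) (nat_lit 2633381262) (nat_lit 403) (nat_lit 5) (nat_lit 426) (nat_lit 5) (nat_lit 427) (nat_lit 5) (nat_lit 456) (nat_lit 447) (nat_lit 237)) (XT.nd (nat_lit 78) (nat_lit 0) (nat_lit 76) (XT.lf (nat_lit 0) (nat_lit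 2374627493) (nat_lit 1748) (nat_lit 4440491198) (nat_lit 1824) (nat_lit 10333750398) (nat_lit 403) (nat_lit 5) (nat_lit 426) (nat_lit 5) (nat_lit 427) (nat_lit 5) (nat_lit 457) (nat_lit 447) (nat_lit 236)) (XT.lf (nat_lit 0) (nat_lit 3138923600) (nat_lit 1748) (nat_lit 13301244305) (nat_lit 1824) (nat_lit 882251935) (nat_lit 404) (nat_lit 5) (nat_lit 427) (nat_lit 5) (nat_lit 428) (nat_lit 5) (nat_lit 458) (nat_lit 447) (nat_lit 235)))) (XT.nd (nat_lit 78) (nat_lit 0) (nat_lit 0) (XT.lf (nat_lit 0) (nat_lit 3987754872) (nat_lit 1748) (nat_lit 4835885085) (nat_lit 1824) (nat_lit 8674419156) (nat_lit 404) (nat_lit 5) (nat_lit 427) (nat_lit 5) (nat_lit 428) (nat_lit 5) (nat_lit 459) (nat_lit 447) (nat_lit 234)) (XT.nd (nat_lit 78) (nat_lit 0) (nat_lit 76) (XT.lf (nat_lit 76) (nat_lit 3845314790) (nat_lit 0) (nat_lit 1027450231) (nat_lit 1824) (nat_lit 12804064549) (nat_lit 405) (nat_lit 5) (nat_lit 404) (nat_lit 5) (nat_lit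 428) (nat_lit 5) (nat_lit 460) (nat_lit 447) (nat_lit 233)) (XT.lf (nat_lit 0) (nat_lit 5847436628) (nat_lit 1748) (nat_lit 5142010972) (nat_lit 1824) (nat_lit 6868291007) (nat_lit 405) (nat_lit 5) (nat_lit 428) (nat_lit 5) (nat_lit 429) (nat_lit 5) (nat_lit 461) (nat_lit 447) (nat_lit 232))))))) (XT.nd (nat_lit 780) (nat_lit 5928) (nat_lit 0) (XT.nd (nat_lit 390) (nat_lit 0) (nat_lit 228) (XT.nd (nat_lit 156) (nat_lit 0) (nat_lit 76) (XT.nd (nat_lit 78) (nat_lit 0) (nat_lit 76) (XT.lf (nat_lit 76) (nat_lit 3759867887) (nat_lit 0) (nat_lit 3107396212) (nat_lit 1824) (nat_lit 11174490825) (nat_lit 406) (nat_lit 5) (nat_lit 405) (nat_lit 5) (nat_lit 429) (nat_lit 5) (nat_lit 462) (nat_lit 447) (nat_lit 231)) (XT.lf (nat_lit 0) (nat_lit 7968786353) (nat_lit 1748) (nat_lit 5355546248) (nat_lit 1824) (nat_lit 4903895304) (nat_lit 406) (nat_lit 5) (nat_lit 429) (nat_lit 5) (nat_lit 430) (nat_lit 5) (nat_lit 463) (nat_lit 447)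 (nat_lit 230))) (XT.nd (nat_lit 78) (nat_lit 0) (nat_lit 76) (XT.lf (nat_lit 76) (nat_lit 3774303860) (nat_lit 0) (nat_lit 5357766691) (nat_lit 1824) (nat_lit 9285567421) (nat_lit 407) (nat_lit 5) (nat_lit 406) (nat_lit 5) (nat_lit 430) (nat_lit 5) (nat_lit 464) (nat_lit 447) (nat_lit 229)) (XT.nd (nat_lit 78) (nat_lit 0) (nat_lit 0) (XT.lf (nat_lit 0) (nat_lit 10367505315) (nat_lit 1748) (nat_lit 5473011176) (nat_lit 1824) (nat_lit 2769344266) (nat_lit 407) (nat_lit 5) (nat_lit 430) (nat_lit 5) (nat_lit 431) (nat_lit 5) (nat_lit 465) (nat_lit 447) (nat_lit 228)) (XT.lf (nat_lit 76) (nat_lit 3892334029) (nat_lit 0) (nat_lit 7790907279) (nat_lit 1824) (nat_lit 7121577008) (nat_lit 408) (nat_lit 5) (nat_lit 407) (nat_lit 5) (nat_lit 431) (nat_lit 5) (nat_lit 466) (nat_lit 447) (nat_lit 227))))) (XT.nd (nat_lit 156) (nat_lit 0) (nat_lit 0) (XT.nd (nat_lit 78) (nat_lit 0) (nat_lit 0) (XT.lf (nat_lit 0) (nat_lit 13059909232)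 (nat_lit 1748) (nat_lit 5490770726) (nat_lit 1824) (nat_lit 452304851) (nat_lit 408) (nat_lit 5) (nat_lit 431) (nat_lit 5) (nat_lit 432) (nat_lit 5) (nat_lit 467) (nat_lit 447) (nat_lit 226)) (XT.lf (nat_lit 76) (nat_lit 4117830601) (nat_lit 0) (nat_lit 10419632845) (nat_lit 1824) (nat_lit 4666186213) (nat_lit 409) (nat_lit 5) (nat_lit 408) (nat_lit 5) (nat_lit 432) (nat_lit 5) (nat_lit 468) (nat_lit 447) (nat_lit 225))) (XT.nd (nat_lit 78) (nat_lit 0) (nat_lit 76) (XT.lf (nat_lit 76) (nat_lit 13989101650) (nat_lit 0) (nat_lit 2087406974) (nat_lit 1824) (nat_lit 3331182427) (nat_lit 409) (nat_lit 5) (nat_lit 408) (nat_lit 5) (nat_lit 432) (nat_lit 5) (nat_lit 469) (nat_lit 447) (nat_lit 224)) (XT.nd (nat_lit 78) (nat_lit 0) (nat_lit 0) (XT.lf (nat_lit 76) (nat_lit 4454824727) (nat_lit 0) (nat_lit 13257257453) (nat_lit 1824) (nat_lit 1902418148) (nat_lit 410) (nat_lit 5) (nat_lit 409) (nat_lit 5) (nat_lit 433) (nat_lit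 5) (nat_lit 470) (nat_lit 447) (nat_lit 223)) (XT.lf (nat_lit 76) (nat_lit 14581217515) (nat_lit 0) (nat_lit 4844509200) (nat_lit 1824) (nat_lit 398813850) (nat_lit 410) (nat_lit 5) (nat_lit 409) (nat_lit 5) (nat_lit 433) (nat_lit 5) (nat_lit 471) (nat_lit 447) (nat_lit 222)))))) (XT.nd (nat_lit 390) (nat_lit 2508) (nat_lit 0) (XT.nd (nat_lit 156) (nat_lit 1976) (nat_lit 0) (XT.nd (nat_lit 78) (nat_lit 0) (nat_lit 0) (XT.lf (nat_lit 0) (nat_lit 1171803172) (nat_lit 1824) (nat_lit 15137958703) (nat_lit 76) (nat_lit 3727837763) (nat_lit 386) (nat_lit 5) (nat_lit 410) (nat_lit 5) (nat_lit 387) (nat_lit 5) (nat_lit 472) (nat_lit 447) (nat_lit 221)) (XT.lf (nat_lit 0) (nat_lit 2831394932) (nat_lit 1824) (nat_lit 4976626583) (nat_lit 76) (nat_lit 12445589456) (nat_lit 386) (nat_lit 5) (nat_lit 410) (nat_lit 5) (nat_lit 387) (nat_lit 5) (nat_lit 473) (nat_lit 447) (nat_lit 220))) (XT.nd (nat_lit 78) (nat_lit 912) (nat_lit 0)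 (XT.lf (nat_lit 0) (nat_lit 4560932706) (nat_lit 1140) (nat_lit 15023603715) (nat_lit 76) (nat_lit 888672841) (nat_lit 372) (nat_lit 5) (nat_lit 387) (nat_lit 5) (nat_lit 373) (nat_lit 5) (nat_lit 474) (nat_lit 447) (nat_lit 219)) (XT.nd (nat_lit 78) (nat_lit 912) (nat_lit 0) (XT.lf (nat_lit 0) (nat_lit 6405940316) (nat_lit 1140) (nat_lit 4600622337) (nat_lit 76) (nat_lit 9689021064) (nat_lit 372) (nat_lit 5) (nat_lit 387) (nat_lit 5) (nat_lit 373) (nat_lit 5) (nat_lit 475) (nat_lit 447) (nat_lit 218)) (XT.lf (nat_lit 0) (nat_lit 6107008652) (nat_lit 912) (nat_lit 2216130746) (nat_lit 988) (nat_lit 12598562182) (nat_lit 360) (nat_lit 5) (nat_lit 372) (nat_lit 5) (nat_lit 373) (nat_lit 5) (nat_lit 476) (nat_lit 447) (nat_lit 217))))) (XT.nd (nat_lit 234) (nat_lit 1672) (nat_lit 0) (XT.nd (nat_lit 78) (nat_lit 836) (nat_lit 0) (XT.lf (nat_lit 0) (nat_lit 10349289298) (nat_lit 988) (nat_lit 4108569350) (nat_lit 76) (nat_lit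 6693072726) (nat_lit 360) (nat_lit 5) (nat_lit 373) (nat_lit 5) (nat_lit 361) (nat_lit 5) (nat_lit 477) (nat_lit 447) (nat_lit 216)) (XT.nd (nat_lit 78) (nat_lit 0) (nat_lit 0) (XT.lf (nat_lit 0) (nat_lit 6883385741) (nat_lit 836) (nat_lit 5587732158) (nat_lit 912) (nat_lit 8912526428) (nat_lit 349) (nat_lit 5) (nat_lit 360) (nat_lit 5) (nat_lit 361) (nat_lit 5) (nat_lit 478) (nat_lit 447) (nat_lit 215)) (XT.lf (nat_lit 0) (nat_lit 14681446823) (nat_lit 912) (nat_lit 3496185785) (nat_lit 76) (nat_lit 3442459300) (nat_lit 349) (nat_lit 5) (nat_lit 361) (nat_lit 5) (nat_lit 350) (nat_lit 5) (nat_lit 479) (nat_lit 447) (nat_lit 214)))) (XT.nd (nat_lit 78) (nat_lit 836) (nat_lit 0) (XT.lf (nat_lit 0) (nat_lit 7789246036) (nat_lit 836) (nat_lit 9230242720) (nat_lit 912) (nat_lit 4840111169) (nat_lit 338) (nat_lit 5) (nat_lit 349) (nat_lit 5) (nat_lit 350) (nat_lit 5) (nat_lit 480) (nat_lit 447) (nat_lit 213)) (XT.nd (nat_lit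 78) (nat_lit 836) (nat_lit 0) (XT.lf (nat_lit 0) (nat_lit 19343928757) (nat_lit 836) (nat_lit 79807487) (nat_lit 912) (nat_lit 2679774545) (nat_lit 338) (nat_lit 5) (nat_lit 349) (nat_lit 5) (nat_lit 350) (nat_lit 5) (nat_lit 481) (nat_lit 447) (nat_lit 212)) (XT.lf (nat_lit 0) (nat_lit 8829266590) (nat_lit 836) (nat_lit 13160271579) (nat_lit 912) (nat_lit 360493859) (nat_lit 327) (nat_lit 5) (nat_lit 338) (nat_lit 5) (nat_lit 339) (nat_lit 5) (nat_lit 482) (nat_lit 447) (nat_lit 211))))))))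
noncomputable def xc235 : XT := (XT.nd (nat_lit 57096) (nat_lit 0) (nat_lit 9348) (XT.nd (nat_lit 780) (nat_lit 1976) (nat_lit 0) (XT.nd (nat_lit 390) (nat_lit 1520) (nat_lit 0) (XT.nd (nat_lit 156) (nat_lit 1520) (nat_lit 0) (XT.nd (nat_lit 78) (nat_lit 836) (nat_lit 0) (XT.lf (nat_lit 0) (nat_lit 1994132041) (nat_lit 912) (nat_lit 1931367809) (nat_lit 76) (nat_lit 18675419797) (nat_lit 326) (nat_lit 5) (nat_lit 338) (nat_lit 5) (nat_lit 327) (nat_lit 5) (nat_lit 483) (nat_lit 447) (nat_lit 210)) (XT.lf (nat_lit 0) (nat_lit 4488333973) (nat_lit 912) (nat_lit 12876700808) (nat_lit 76) (nat_lit 5489797830) (nat_lit 315) (nat_lit 5) (nat_lit 327) (nat_lit 5) (nat_lit 316) (nat_lit 5) (nat_lit 484) (nat_lit 447) (nat_lit 209))) (XT.nd (nat_lit 78) (nat_lit 1520) (nat_lit 0) (XT.lf (nat_lit 0) (nat_lit 7067678694) (nat_lit 912) (nat_lit 991504925) (nat_lit 76) (nat_lit 15053936473) (nat_lit 315) (nat_lit 5) (nat_lit 327)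 (nat_lit 5) (nat_lit 316) (nat_lit 5) (nat_lit 485) (nat_lit 447) (nat_lit 208)) (XT.nd (nat_lit 78) (nat_lit 760) (nat_lit 0) (XT.lf (nat_lit 0) (nat_lit 9777895145) (nat_lit 836) (nat_lit 12109480443) (nat_lit 76) (nat_lit 1487613440) (nat_lit 305) (nat_lit 5) (nat_lit 316) (nat_lit 5) (nat_lit 306) (nat_lit 5) (nat_lit 486) (nat_lit 447) (nat_lit 207)) (XT.lf (nat_lit 0) (nat_lit 82979553) (nat_lit 760) (nat_lit 12516282438) (nat_lit 836) (nat_lit 11041695806) (nat_lit 295) (nat_lit 5) (nat_lit 305) (nat_lit 5) (nat_lit 306) (nat_lit 5) (nat_lit 487) (nat_lit 447) (nat_lit 206))))) (XT.nd (nat_lit 156) (nat_lit 836) (nat_lit 0) (XT.nd (nat_lit 78) (nat_lit 684) (nat_lit 0) (XT.lf (nat_lit 0) (nat_lit 12679628358) (nat_lit 760) (nat_lit 2875073543) (nat_lit 836) (nat_lit 8355992476) (nat_lit 295) (nat_lit 5) (nat_lit 305) (nat_lit 5) (nat_lit 306) (nat_lit 5) (nat_lit 488) (nat_lit 447) (nat_lit 205)) (XT.lf (nat_lit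 0) (nat_lit 1310586939) (nat_lit 684) (nat_lit 17308809452) (nat_lit 760) (nat_lit 5565427703) (nat_lit 286) (nat_lit 5) (nat_lit 295) (nat_lit 5) (nat_lit 296) (nat_lit 5) (nat_lit 489) (nat_lit 447) (nat_lit 204))) (XT.nd (nat_lit 78) (nat_lit 836) (nat_lit 0) (XT.lf (nat_lit 0) (nat_lit 14232240868) (nat_lit 684) (nat_lit 7603924612) (nat_lit 760) (nat_lit 2626456608) (nat_lit 286) (nat_lit 5) (nat_lit 295) (nat_lit 5) (nat_lit 296) (nat_lit 5) (nat_lit 490) (nat_lit 447) (nat_lit 203)) (XT.nd (nat_lit 78) (nat_lit 0) (nat_lit 0) (XT.lf (nat_lit 0) (nat_lit 395500595) (nat_lit 836) (nat_lit 22065137459) (nat_lit 76) (nat_lit 2284709495) (nat_lit 275) (nat_lit 5) (nat_lit 286) (nat_lit 5) (nat_lit 276) (nat_lit 5) (nat_lit 491) (nat_lit 447) (nat_lit 202)) (XT.lf (nat_lit 0) (nat_lit 3558810130) (nat_lit 836) (nat_lit 9116665977) (nat_lit 76) (nat_lit 12355583788) (nat_lit 275) (nat_lit 5) (nat_lit 286) (nat_lit 5)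 (nat_lit 276) (nat_lit 5) (nat_lit 492) (nat_lit 447) (nat_lit 201)))))) (XT.nd (nat_lit 55848) (nat_lit 0) (nat_lit 13148) (XT.nd (nat_lit 156) (nat_lit 1292) (nat_lit 0) (XT.nd (nat_lit 78) (nat_lit 0) (nat_lit 0) (XT.lf (nat_lit 0) (nat_lit 4141369438) (nat_lit 684) (nat_lit 2667557448) (nat_lit 760) (nat_lit 18513089978) (nat_lit 266) (nat_lit 5) (nat_lit 275) (nat_lit 5) (nat_lit 276) (nat_lit 5) (nat_lit 493) (nat_lit 447) (nat_lit 200)) (XT.lf (nat_lit 0) (nat_lit 10231278433) (nat_lit 760) (nat_lit 7882548841) (nat_lit 76) (nat_lit 7502822224) (nat_lit 266) (nat_lit 5) (nat_lit 276) (nat_lit 5) (nat_lit 267) (nat_lit 5) (nat_lit 494) (nat_lit 447) (nat_lit 199))) (XT.nd (nat_lit 78) (nat_lit 608) (nat_lit 0) (XT.lf (nat_lit 0) (nat_lit 5735379457) (nat_lit 684) (nat_lit 8038357877) (nat_lit 760) (nat_lit 12142405395) (nat_lit 257) (nat_lit 5) (nat_lit 266) (nat_lit 5) (nat_lit 267) (nat_lit 5) (nat_lit 495) (nat_lit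 447) (nat_lit 198)) (XT.nd (nat_lit 156) (nat_lit 608) (nat_lit 0) (XT.lf (nat_lit 0) (nat_lit 17451619715) (nat_lit 760) (nat_lit 6506661290) (nat_lit 76) (nat_lit 2262054463) (nat_lit 257) (nat_lit 5) (nat_lit 267) (nat_lit 5) (nat_lit 258) (nat_lit 5) (nat_lit 496) (nat_lit 447) (nat_lit 197)) (XT.lf (nat_lit 0) (nat_lit 21835343115) (nat_lit 608) (nat_lit 3434055375) (nat_lit 684) (nat_lit 1572901619) (nat_lit 249) (nat_lit 5) (nat_lit 257) (nat_lit 5) (nat_lit 258) (nat_lit 5) (nat_lit 498) (nat_lit 447) (nat_lit 195))))) (XT.nd (nat_lit 234) (nat_lit 0) (nat_lit 76) (XT.nd (nat_lit 78) (nat_lit 0) (nat_lit 0) (XT.lf (nat_lit 0) (nat_lit 6918011764) (nat_lit 1748) (nat_lit 503372350) (nat_lit 1748) (nat_lit 503372350) (nat_lit 422) (nat_lit 3) (nat_lit 445) (nat_lit 3) (nat_lit 445) (nat_lit 5) (nat_lit 448) (nat_lit 448) (nat_lit 244)) (XT.nd (nat_lit 78) (nat_lit 0) (nat_lit 0) (XT.lf (nat_lit 76) (nat_lit 6592001835)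 (nat_lit 0) (nat_lit 7683546316) (nat_lit 1748) (nat_lit 1726323076) (nat_lit 423) (nat_lit 5) (nat_lit 422) (nat_lit 3) (nat_lit 445) (nat_lit 5) (nat_lit 449) (nat_lit 448) (nat_lit 243)) (XT.lf (nat_lit 76) (nat_lit 14352866280) (nat_lit 0) (nat_lit 370953024) (nat_lit 1748) (nat_lit 1433461242) (nat_lit 423) (nat_lit 5) (nat_lit 422) (nat_lit 3) (nat_lit 445) (nat_lit 5) (nat_lit 450) (nat_lit 448) (nat_lit 242)))) (XT.nd (nat_lit 78) (nat_lit 0) (nat_lit 0) (XT.lf (nat_lit 76) (nat_lit 5981993343) (nat_lit 0) (nat_lit 9277275464) (nat_lit 1748) (nat_lit 1054967907) (nat_lit 424) (nat_lit 5) (nat_lit 423) (nat_lit 5) (nat_lit 446) (nat_lit 5) (nat_lit 451) (nat_lit 448) (nat_lit 241)) (XT.nd (nat_lit 78) (nat_lit 0) (nat_lit 76) (XT.lf (nat_lit 76) (nat_lit 13942530519) (nat_lit 0) (nat_lit 1870907523) (nat_lit 1748) (nat_lit 660736610) (nat_lit 424) (nat_lit 5) (nat_lit 423) (nat_lit 5) (nat_lit 446) (nat_lit 5)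 (nat_lit 452) (nat_lit 448) (nat_lit 240)) (XT.lf (nat_lit 76) (nat_lit 5455972987) (nat_lit 0) (nat_lit 10988651892) (nat_lit 1748) (nat_lit 191370593) (nat_lit 425) (nat_lit 5) (nat_lit 424) (nat_lit 5) (nat_lit 447) (nat_lit 5) (nat_lit 453) (nat_lit 448) (nat_lit 239))))))) (XT.nd (nat_lit 858) (nat_lit 2204) (nat_lit 0) (XT.nd (nat_lit 390) (nat_lit 0) (nat_lit 228) (XT.nd (nat_lit 156) (nat_lit 0) (nat_lit 76) (XT.nd (nat_lit 78) (nat_lit 0) (nat_lit 76) (XT.lf (nat_lit 0) (nat_lit 306771171) (nat_lit 1748) (nat_lit 3181133297) (nat_lit 1824) (nat_lit 13312650471) (nat_lit 401) (nat_lit 5) (nat_lit 424) (nat_lit 5) (nat_lit 425) (nat_lit 5) (nat_lit 454) (nat_lit 448) (nat_lit 238)) (XT.lf (nat_lit 0) (nat_lit 866091876) (nat_lit 1748) (nat_lit 11956208603) (nat_lit 1824) (nat_lit 4145006889) (nat_lit 402) (nat_lit 5) (nat_lit 425) (nat_lit 5) (nat_lit 426) (nat_lit 5) (nat_lit 455) (nat_lit 448) (nat_lit 237)))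 (XT.nd (nat_lit 78) (nat_lit 0) (nat_lit 76) (XT.lf (nat_lit 0) (nat_lit 1475091056) (nat_lit 1748) (nat_lit 3753667142) (nat_lit 1824) (nat_lit 11907869400) (nat_lit 402) (nat_lit 5) (nat_lit 425) (nat_lit 5) (nat_lit 426) (nat_lit 5) (nat_lit 456) (nat_lit 448) (nat_lit 236)) (XT.nd (nat_lit 78) (nat_lit 0) (nat_lit 0) (XT.lf (nat_lit 0) (nat_lit 2137174109) (nat_lit 1748) (nat_lit 12654907838) (nat_lit 1824) (nat_lit 2516436749) (nat_lit 403) (nat_lit 5) (nat_lit 426) (nat_lit 5) (nat_lit 427) (nat_lit 5) (nat_lit 457) (nat_lit 448) (nat_lit 235)) (XT.lf (nat_lit 0) (nat_lit 2866614536) (nat_lit 1748) (nat_lit 4242014262) (nat_lit 1824) (nat_lit 10374138996) (nat_lit 403) (nat_lit 5) (nat_lit 426) (nat_lit 5) (nat_lit 427) (nat_lit 5) (nat_lit 458) (nat_lit 448) (nat_lit 234))))) (XT.nd (nat_lit 234) (nat_lit 0) (nat_lit 76) (XT.nd (nat_lit 78) (nat_lit 0) (nat_lit 0) (XT.lf (nat_lit 0) (nat_lit 3638345559) (nat_lit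 1748) (nat_lit 13271946342) (nat_lit 1824) (nat_lit 749658381) (nat_lit 404) (nat_lit 5) (nat_lit 427) (nat_lit 5) (nat_lit 428) (nat_lit 5) (nat_lit 459) (nat_lit 448) (nat_lit 233)) (XT.nd (nat_lit 78) (nat_lit 0) (nat_lit 0) (XT.lf (nat_lit 0) (nat_lit 4495591820) (nat_lit 1748) (nat_lit 4643070582) (nat_lit 1824) (nat_lit 8700614801) (nat_lit 404) (nat_lit 5) (nat_lit 427) (nat_lit 5) (nat_lit 428) (nat_lit 5) (nat_lit 460) (nat_lit 448) (nat_lit 232)) (XT.lf (nat_lit 76) (nat_lit 4209848474) (nat_lit 0) (nat_lit 1181927405) (nat_lit 1824) (nat_lit 12629981275) (nat_lit 405) (nat_lit 5) (nat_lit 404) (nat_lit 5) (nat_lit 428) (nat_lit 5) (nat_lit 461) (nat_lit 448) (nat_lit 231)))) (XT.nd (nat_lit 78) (nat_lit 0) (nat_lit 0) (XT.lf (nat_lit 0) (nat_lit 6376822621) (nat_lit 1748) (nat_lit 4953570852) (nat_lit 1824) (nat_lit 6876076751) (nat_lit 405) (nat_lit 5) (nat_lit 428) (nat_lit 5) (nat_lit 429) (nat_lit 5) (nat_lit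 462) (nat_lit 448) (nat_lit 230)) (XT.nd (nat_lit 78) (nat_lit 0) (nat_lit 76) (XT.lf (nat_lit 76) (nat_lit 4124429266) (nat_lit 0) (nat_lit 3286409114) (nat_lit 1824) (nat_lit 10983456073) (nat_lit 406) (nat_lit 5) (nat_lit 405) (nat_lit 5) (nat_lit 429) (nat_lit 5) (nat_lit 463) (nat_lit 448) (nat_lit 229)) (XT.lf (nat_lit 0) (nat_lit 8525681917) (nat_lit 1748) (nat_lit 5170090158) (nat_lit 1824) (nat_lit 4888902354) (nat_lit 406) (nat_lit 5) (nat_lit 429) (nat_lit 5) (nat_lit 430) (nat_lit 5) (nat_lit 464) (nat_lit 448) (nat_lit 228)))))) (XT.nd (nat_lit 390) (nat_lit 2584) (nat_lit 0) (XT.nd (nat_lit 156) (nat_lit 0) (nat_lit 76) (XT.nd (nat_lit 78) (nat_lit 0) (nat_lit 76) (XT.lf (nat_lit 76) (nat_lit 4140432169) (nat_lit 0) (nat_lit 5565892166) (nat_lit 1824) (nat_lit 9071669800) (nat_lit 407) (nat_lit 5) (nat_lit 406) (nat_lit 5) (nat_lit 430) (nat_lit 5) (nat_lit 465) (nat_lit 448) (nat_lit 227)) (XT.lf (nat_lit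 0) (nat_lit 10958146409) (nat_lit 1748) (nat_lit 5289045523) (nat_lit 1824) (nat_lit 2727039094) (nat_lit 407) (nat_lit 5) (nat_lit 430) (nat_lit 5) (nat_lit 431) (nat_lit 5) (nat_lit 466) (nat_lit 448) (nat_lit 226))) (XT.nd (nat_lit 78) (nat_lit 0) (nat_lit 76) (XT.lf (nat_lit 76) (nat_lit 4261676153) (nat_lit 0) (nat_lit 8032898041) (nat_lit 1824) (nat_lit 6878629159) (nat_lit 408) (nat_lit 5) (nat_lit 407) (nat_lit 5) (nat_lit 431) (nat_lit 5) (nat_lit 467) (nat_lit 448) (nat_lit 225)) (XT.nd (nat_lit 78) (nat_lit 0) (nat_lit 0) (XT.lf (nat_lit 0) (nat_lit 13690821701) (nat_lit 1748) (nat_lit 5306697649) (nat_lit 1824) (nat_lit 377975999) (nat_lit 408) (nat_lit 5) (nat_lit 431) (nat_lit 5) (nat_lit 432) (nat_lit 5) (nat_lit 468) (nat_lit 448) (nat_lit 224)) (XT.lf (nat_lit 76) (nat_lit 4492142227) (nat_lit 0) (nat_lit 10700431038) (nat_lit 1824) (nat_lit 4387710342) (nat_lit 409) (nat_lit 5) (nat_lit 408) (nat_lit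 5) (nat_lit 432) (nat_lit 5) (nat_lit 469) (nat_lit 448) (nat_lit 223))))) (XT.nd (nat_lit 234) (nat_lit 2736) (nat_lit 0) (XT.nd (nat_lit 78) (nat_lit 0) (nat_lit 76) (XT.lf (nat_lit 76) (nat_lit 14555114090) (nat_lit 0) (nat_lit 2200140933) (nat_lit 1824) (nat_lit 3033296669) (nat_lit 409) (nat_lit 5) (nat_lit 408) (nat_lit 5) (nat_lit 432) (nat_lit 5) (nat_lit 470) (nat_lit 448) (nat_lit 222)) (XT.nd (nat_lit 78) (nat_lit 0) (nat_lit 0) (XT.lf (nat_lit 76) (nat_lit 4835971587) (nat_lit 0) (nat_lit 13582008557) (nat_lit 1824) (nat_lit 1581631126) (nat_lit 410) (nat_lit 5) (nat_lit 409) (nat_lit 5) (nat_lit 433) (nat_lit 5) (nat_lit 471) (nat_lit 448) (nat_lit 221)) (XT.lf (nat_lit 76) (nat_lit 15159165753) (nat_lit 0) (nat_lit 4999836595) (nat_lit 1824) (nat_lit 54990730) (nat_lit 410) (nat_lit 5) (nat_lit 409) (nat_lit 5) (nat_lit 433) (nat_lit 5) (nat_lit 472) (nat_lit 448) (nat_lit 220)))) (XT.nd (nat_lit 78) (nat_lit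 1064) (nat_lit 0) (XT.lf (nat_lit 0) (nat_lit 1537149890) (nat_lit 1824) (nat_lit 15144227455) (nat_lit 76) (nat_lit 3749998552) (nat_lit 386) (nat_lit 5) (nat_lit 410) (nat_lit 5) (nat_lit 387) (nat_lit 5) (nat_lit 473) (nat_lit 448) (nat_lit 219)) (XT.nd (nat_lit 78) (nat_lit 1064) (nat_lit 0) (XT.lf (nat_lit 0) (nat_lit 3223229354) (nat_lit 1824) (nat_lit 4785482231) (nat_lit 76) (nat_lit 12643132651) (nat_lit 386) (nat_lit 5) (nat_lit 410) (nat_lit 5) (nat_lit 387) (nat_lit 5) (nat_lit 474) (nat_lit 448) (nat_lit 218)) (XT.lf (nat_lit 0) (nat_lit 4982389027) (nat_lit 1140) (nat_lit 15028297868) (nat_lit 76) (nat_lit 865249618) (nat_lit 372) (nat_lit 5) (nat_lit 387) (nat_lit 5) (nat_lit 373) (nat_lit 5) (nat_lit 475) (nat_lit 448) (nat_lit 217))))))))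
noncomputable def xc236 : XT := (XT.nd (nat_lit 1638) (nat_lit 0) (nat_lit 0) (XT.nd (nat_lit 780) (nat_lit 4408) (nat_lit 0) (XT.nd (nat_lit 390) (nat_lit 2584) (nat_lit 0) (XT.nd (nat_lit 156) (nat_lit 836) (nat_lit 0) (XT.nd (nat_lit 78) (nat_lit 912) (nat_lit 0) (XT.lf (nat_lit 0) (nat_lit 6857821541) (nat_lit 1140) (nat_lit 4402656430) (nat_lit 76) (nat_lit 9842412583) (nat_lit 372) (nat_lit 5) (nat_lit 387) (nat_lit 5) (nat_lit 373) (nat_lit 5) (nat_lit 476) (nat_lit 448) (nat_lit 216)) (XT.lf (nat_lit 0) (nat_lit 6517219427) (nat_lit 912) (nat_lit 2291667241) (nat_lit 988) (nat_lit 12524736207) (nat_lit 360) (nat_lit 5) (nat_lit 372) (nat_lit 5) (nat_lit 373) (nat_lit 5) (nat_lit 477) (nat_lit 448) (nat_lit 215))) (XT.nd (nat_lit 78) (nat_lit 836) (nat_lit 0) (XT.lf (nat_lit 0) (nat_lit 10869100398) (nat_lit 988) (nat_lit 3901734855) (nat_lit 76) (nat_lit 6796733686) (nat_lit 360) (nat_lit 5) (nat_lit 373) (nat_lit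 5) (nat_lit 361) (nat_lit 5) (nat_lit 478) (nat_lit 448) (nat_lit 214)) (XT.nd (nat_lit 78) (nat_lit 0) (nat_lit 0) (XT.lf (nat_lit 0) (nat_lit 7308157983) (nat_lit 836) (nat_lit 5720937831) (nat_lit 912) (nat_lit 8775928174) (nat_lit 349) (nat_lit 5) (nat_lit 360) (nat_lit 5) (nat_lit 361) (nat_lit 5) (nat_lit 479) (nat_lit 448) (nat_lit 213)) (XT.lf (nat_lit 0) (nat_lit 15277444665) (nat_lit 912) (nat_lit 3278328102) (nat_lit 76) (nat_lit 3490553883) (nat_lit 349) (nat_lit 5) (nat_lit 361) (nat_lit 5) (nat_lit 350) (nat_lit 5) (nat_lit 480) (nat_lit 448) (nat_lit 212))))) (XT.nd (nat_lit 156) (nat_lit 1748) (nat_lit 0) (XT.nd (nat_lit 78) (nat_lit 0) (nat_lit 0) (XT.lf (nat_lit 0) (nat_lit 8230919057) (nat_lit 836) (nat_lit 9427255752) (nat_lit 912) (nat_lit 4632533817) (nat_lit 338) (nat_lit 5) (nat_lit 349) (nat_lit 5) (nat_lit 350) (nat_lit 5) (nat_lit 481) (nat_lit 448) (nat_lit 211)) (XT.lf (nat_lit 0) (nat_lit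 20011089783) (nat_lit 836) (nat_lit 93568517) (nat_lit 912) (nat_lit 2434958687) (nat_lit 338) (nat_lit 5) (nat_lit 349) (nat_lit 5) (nat_lit 350) (nat_lit 5) (nat_lit 482) (nat_lit 448) (nat_lit 210))) (XT.nd (nat_lit 78) (nat_lit 912) (nat_lit 0) (XT.lf (nat_lit 0) (nat_lit 9290293653) (nat_lit 836) (nat_lit 13427517700) (nat_lit 912) (nat_lit 73338853) (nat_lit 327) (nat_lit 5) (nat_lit 338) (nat_lit 5) (nat_lit 339) (nat_lit 5) (nat_lit 483) (nat_lit 448) (nat_lit 209)) (XT.nd (nat_lit 78) (nat_lit 836) (nat_lit 0) (XT.lf (nat_lit 0) (nat_lit 2318822756) (nat_lit 912) (nat_lit 1687237340) (nat_lit 76) (nat_lit 19041073350) (nat_lit 326) (nat_lit 5) (nat_lit 338) (nat_lit 5) (nat_lit 327) (nat_lit 5) (nat_lit 484) (nat_lit 448) (nat_lit 208)) (XT.lf (nat_lit 0) (nat_lit 4859147055) (nat_lit 912) (nat_lit 12847609020) (nat_lit 76) (nat_lit 5599445953) (nat_lit 315) (nat_lit 5) (nat_lit 327) (nat_lit 5) (nat_lit 316)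 (nat_lit 5) (nat_lit 485) (nat_lit 448) (nat_lit 207)))))) (XT.nd (nat_lit 390) (nat_lit 2204) (nat_lit 0) (XT.nd (nat_lit 156) (nat_lit 1444) (nat_lit 0) (XT.nd (nat_lit 78) (nat_lit 760) (nat_lit 0) (XT.lf (nat_lit 0) (nat_lit 7484567956) (nat_lit 912) (nat_lit 730329333) (nat_lit 76) (nat_lit 15354870267) (nat_lit 315) (nat_lit 5) (nat_lit 327) (nat_lit 5) (nat_lit 316) (nat_lit 5) (nat_lit 486) (nat_lit 448) (nat_lit 206)) (XT.lf (nat_lit 0) (nat_lit 10245445369) (nat_lit 836) (nat_lit 12067018815) (nat_lit 76) (nat_lit 1524482598) (nat_lit 305) (nat_lit 5) (nat_lit 316) (nat_lit 5) (nat_lit 306) (nat_lit 5) (nat_lit 487) (nat_lit 448) (nat_lit 205))) (XT.nd (nat_lit 78) (nat_lit 684) (nat_lit 0) (XT.lf (nat_lit 0) (nat_lit 367417676) (nat_lit 760) (nat_lit 12752324680) (nat_lit 836) (nat_lit 10988564519) (nat_lit 295) (nat_lit 5) (nat_lit 305) (nat_lit 5) (nat_lit 306) (nat_lit 5) (nat_lit 488) (nat_lit 448) (nat_lit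 204)) (XT.nd (nat_lit 78) (nat_lit 684) (nat_lit 0) (XT.lf (nat_lit 0) (nat_lit 13210454779) (nat_lit 760) (nat_lit 2918571674) (nat_lit 836) (nat_lit 8254518989) (nat_lit 295) (nat_lit 5) (nat_lit 305) (nat_lit 5) (nat_lit 306) (nat_lit 5) (nat_lit 489) (nat_lit 448) (nat_lit 203)) (XT.lf (nat_lit 0) (nat_lit 1617445844) (nat_lit 684) (nat_lit 17634318890) (nat_lit 760) (nat_lit 5411459947) (nat_lit 286) (nat_lit 5) (nat_lit 295) (nat_lit 5) (nat_lit 296) (nat_lit 5) (nat_lit 490) (nat_lit 448) (nat_lit 202))))) (XT.nd (nat_lit 234) (nat_lit 1368) (nat_lit 0) (XT.nd (nat_lit 78) (nat_lit 836) (nat_lit 0) (XT.lf (nat_lit 0) (nat_lit 14792029966) (nat_lit 684) (nat_lit 7735741584) (nat_lit 760) (nat_lit 2418910926) (nat_lit 286) (nat_lit 5) (nat_lit 295) (nat_lit 5) (nat_lit 296) (nat_lit 5) (nat_lit 491) (nat_lit 448) (nat_lit 201)) (XT.nd (nat_lit 78) (nat_lit 0) (nat_lit 0) (XT.lf (nat_lit 0) (nat_lit 656990968) (nat_lit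 836) (nat_lit 22224618196) (nat_lit 76) (nat_lit 2353482996) (nat_lit 275) (nat_lit 5) (nat_lit 286) (nat_lit 5) (nat_lit 276) (nat_lit 5) (nat_lit 492) (nat_lit 448) (nat_lit 200)) (XT.lf (nat_lit 0) (nat_lit 3878594530) (nat_lit 836) (nat_lit 9022703205) (nat_lit 76) (nat_lit 12625322239) (nat_lit 275) (nat_lit 5) (nat_lit 286) (nat_lit 5) (nat_lit 276) (nat_lit 5) (nat_lit 493) (nat_lit 448) (nat_lit 199)))) (XT.nd (nat_lit 78) (nat_lit 684) (nat_lit 0) (XT.lf (nat_lit 0) (nat_lit 4498675180) (nat_lit 684) (nat_lit 2691945866) (nat_lit 760) (nat_lit 18632838633) (nat_lit 266) (nat_lit 5) (nat_lit 275) (nat_lit 5) (nat_lit 276) (nat_lit 5) (nat_lit 494) (nat_lit 448) (nat_lit 198)) (XT.nd (nat_lit 78) (nat_lit 684) (nat_lit 0) (XT.lf (nat_lit 0) (nat_lit 10676789951) (nat_lit 760) (nat_lit 7766388220) (nat_lit 76) (nat_lit 7680901099) (nat_lit 266) (nat_lit 5) (nat_lit 276) (nat_lit 5) (nat_lit 267) (nat_lit 5) (nat_lit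 495) (nat_lit 448) (nat_lit 197)) (XT.lf (nat_lit 0) (nat_lit 6122097252) (nat_lit 684) (nat_lit 8165043595) (nat_lit 760) (nat_lit 12142482339) (nat_lit 257) (nat_lit 5) (nat_lit 266) (nat_lit 5) (nat_lit 267) (nat_lit 5) (nat_lit 496) (nat_lit 448) (nat_lit 196))))))) (XT.nd (nat_lit 56316) (nat_lit 0) (nat_lit 11096) (XT.nd (nat_lit 55926) (nat_lit 0) (nat_lit 10944) (XT.nd (nat_lit 55692) (nat_lit 0) (nat_lit 12540) (XT.nd (nat_lit 55614) (nat_lit 0) (nat_lit 12540) (XT.lf (nat_lit 0) (nat_lit 18034132546) (nat_lit 760) (nat_lit 6365587335) (nat_lit 76) (nat_lit 2340270509) (nat_lit 257) (nat_lit 5) (nat_lit 267) (nat_lit 5) (nat_lit 258) (nat_lit 5) (nat_lit 497) (nat_lit 448) (nat_lit 195)) (XT.lf (nat_lit 0) (nat_lit 7313059263) (nat_lit 1748) (nat_lit 382472889) (nat_lit 1748) (nat_lit 382472889) (nat_lit 422) (nat_lit 3) (nat_lit 445) (nat_lit 3) (nat_lit 445) (nat_lit 5) (nat_lit 449) (nat_lit 449) (nat_lit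 242))) (XT.nd (nat_lit 78) (nat_lit 0) (nat_lit 0) (XT.lf (nat_lit 76) (nat_lit 6984052440) (nat_lit 0) (nat_lit 8082004494) (nat_lit 1748) (nat_lit 1245530569) (nat_lit 423) (nat_lit 5) (nat_lit 422) (nat_lit 3) (nat_lit 445) (nat_lit 5) (nat_lit 450) (nat_lit 449) (nat_lit 241)) (XT.nd (nat_lit 78) (nat_lit 0) (nat_lit 76) (XT.lf (nat_lit 76) (nat_lit 14895032006) (nat_lit 0) (nat_lit 618359586) (nat_lit 1748) (nat_lit 956915792) (nat_lit 423) (nat_lit 5) (nat_lit 422) (nat_lit 3) (nat_lit 445) (nat_lit 5) (nat_lit 451) (nat_lit 449) (nat_lit 240)) (XT.lf (nat_lit 76) (nat_lit 6366663375) (nat_lit 0) (nat_lit 9683372093) (nat_lit 1748) (nat_lit 580561752) (nat_lit 424) (nat_lit 5) (nat_lit 423) (nat_lit 5) (nat_lit 446) (nat_lit 5) (nat_lit 452) (nat_lit 449) (nat_lit 239))))) (XT.nd (nat_lit 156) (nat_lit 0) (nat_lit 0) (XT.nd (nat_lit 78) (nat_lit 1672) (nat_lit 0) (XT.lf (nat_lit 76) (nat_lit 14481214625) (nat_lit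 0) (nat_lit 2124552262) (nat_lit 1748) (nat_lit 188161623) (nat_lit 424) (nat_lit 5) (nat_lit 423) (nat_lit 5) (nat_lit 446) (nat_lit 5) (nat_lit 453) (nat_lit 449) (nat_lit 238)) (XT.lf (nat_lit 0) (nat_lit 277754011) (nat_lit 1748) (nat_lit 11126719638) (nat_lit 1824) (nat_lit 5554658900) (nat_lit 401) (nat_lit 5) (nat_lit 424) (nat_lit 5) (nat_lit 425) (nat_lit 5) (nat_lit 454) (nat_lit 449) (nat_lit 237))) (XT.nd (nat_lit 78) (nat_lit 0) (nat_lit 76) (XT.lf (nat_lit 0) (nat_lit 774075183) (nat_lit 1748) (nat_lit 2974524646) (nat_lit 1824) (nat_lit 13378546424) (nat_lit 401) (nat_lit 5) (nat_lit 424) (nat_lit 5) (nat_lit 425) (nat_lit 5) (nat_lit 455) (nat_lit 449) (nat_lit 236)) (XT.nd (nat_lit 78) (nat_lit 0) (nat_lit 0) (XT.lf (nat_lit 0) (nat_lit 1336078918) (nat_lit 1748) (nat_lit 11916405513) (nat_lit 1824) (nat_lit 4044923219) (nat_lit 402) (nat_lit 5) (nat_lit 425) (nat_lit 5) (nat_lit 426) (nat_lit 5) (nat_lit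 456) (nat_lit 449) (nat_lit 235)) (XT.lf (nat_lit 0) (nat_lit 1948382293) (nat_lit 1748) (nat_lit 3555282384) (nat_lit 1824) (nat_lit 11966630897) (nat_lit 402) (nat_lit 5) (nat_lit 425) (nat_lit 5) (nat_lit 426) (nat_lit 5) (nat_lit 457) (nat_lit 449) (nat_lit 234)))))) (XT.nd (nat_lit 390) (nat_lit 0) (nat_lit 152) (XT.nd (nat_lit 156) (nat_lit 0) (nat_lit 76) (XT.nd (nat_lit 78) (nat_lit 0) (nat_lit 0) (XT.lf (nat_lit 0) (nat_lit 2615696506) (nat_lit 1748) (nat_lit 12626352309) (nat_lit 1824) (nat_lit 2403739593) (nat_lit 403) (nat_lit 5) (nat_lit 426) (nat_lit 5) (nat_lit 427) (nat_lit 5) (nat_lit 458) (nat_lit 449) (nat_lit 233)) (XT.lf (nat_lit 0) (nat_lit 3351181057) (nat_lit 1748) (nat_lit 4050723483) (nat_lit 1824) (nat_lit 10421792471) (nat_lit 403) (nat_lit 5) (nat_lit 426) (nat_lit 5) (nat_lit 427) (nat_lit 5) (nat_lit 459) (nat_lit 449) (nat_lit 232))) (XT.nd (nat_lit 78) (nat_lit 0) (nat_lit 0) (XT.lf (nat_lit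 0) (nat_lit 4130800559) (nat_lit 1748) (nat_lit 13253530167) (nat_lit 1824) (nat_lit 620246903) (nat_lit 404) (nat_lit 5) (nat_lit 427) (nat_lit 5) (nat_lit 428) (nat_lit 5) (nat_lit 460) (nat_lit 449) (nat_lit 231)) (XT.nd (nat_lit 78) (nat_lit 0) (nat_lit 0) (XT.lf (nat_lit 0) (nat_lit 4996962567) (nat_lit 1748) (nat_lit 4457642677) (nat_lit 1824) (nat_lit 8733053916) (nat_lit 404) (nat_lit 5) (nat_lit 427) (nat_lit 5) (nat_lit 428) (nat_lit 5) (nat_lit 461) (nat_lit 449) (nat_lit 230)) (XT.lf (nat_lit 76) (nat_lit 4570503908) (nat_lit 0) (nat_lit 1334293528) (nat_lit 1824) (nat_lit 12469120150) (nat_lit 405) (nat_lit 5) (nat_lit 404) (nat_lit 5) (nat_lit 428) (nat_lit 5) (nat_lit 462) (nat_lit 449) (nat_lit 229))))) (XT.nd (nat_lit 234) (nat_lit 0) (nat_lit 76) (XT.nd (nat_lit 78) (nat_lit 0) (nat_lit 0) (XT.lf (nat_lit 0) (nat_lit 6900780893) (nat_lit 1748) (nat_lit 4772672700) (nat_lit 1824) (nat_lit 6889049963)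 (nat_lit 405) (nat_lit 5) (nat_lit 428) (nat_lit 5) (nat_lit 429) (nat_lit 5) (nat_lit 463) (nat_lit 449) (nat_lit 228)) (XT.nd (nat_lit 78) (nat_lit 0) (nat_lit 76) (XT.lf (nat_lit 76) (nat_lit 4485045515) (nat_lit 0) (nat_lit 3464464264) (nat_lit 1824) (nat_lit 10804697121) (nat_lit 406) (nat_lit 5) (nat_lit 405) (nat_lit 5) (nat_lit 429) (nat_lit 5) (nat_lit 464) (nat_lit 449) (nat_lit 227)) (XT.lf (nat_lit 0) (nat_lit 9078279213) (nat_lit 1748) (nat_lit 4992285680) (nat_lit 1824) (nat_lit 4878000225) (nat_lit 406) (nat_lit 5) (nat_lit 429) (nat_lit 5) (nat_lit 430) (nat_lit 5) (nat_lit 465) (nat_lit 449) (nat_lit 226)))) (XT.nd (nat_lit 78) (nat_lit 0) (nat_lit 76) (XT.lf (nat_lit 76) (nat_lit 4502597052) (nat_lit 0) (nat_lit 5774259357) (nat_lit 1824) (nat_lit 8869011529) (nat_lit 407) (nat_lit 5) (nat_lit 406) (nat_lit 5) (nat_lit 430) (nat_lit 5) (nat_lit 466) (nat_lit 449) (nat_lit 225)) (XT.nd (nat_lit 78) (nat_lit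 0) (nat_lit 0) (XT.lf (nat_lit 0) (nat_lit 11545716669) (nat_lit 1748) (nat_lit 5112794641) (nat_lit 1824) (nat_lit 2687681319) (nat_lit 407) (nat_lit 5) (nat_lit 430) (nat_lit 5) (nat_lit 431) (nat_lit 5) (nat_lit 467) (nat_lit 449) (nat_lit 224)) (XT.lf (nat_lit 76) (nat_lit 4627085995) (nat_lit 0) (nat_lit 8276382432) (nat_lit 1824) (nat_lit 6645787105) (nat_lit 408) (nat_lit 5) (nat_lit 407) (nat_lit 5) (nat_lit 431) (nat_lit 5) (nat_lit 468) (nat_lit 449) (nat_lit 223))))))))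
noncomputable def xc237 : XT := (XT.nd (nat_lit 1638) (nat_lit 2888) (nat_lit 0) (XT.nd (nat_lit 780) (nat_lit 4940) (nat_lit 0) (XT.nd (nat_lit 390) (nat_lit 1900) (nat_lit 0) (XT.nd (nat_lit 156) (nat_lit 1748) (nat_lit 0) (XT.nd (nat_lit 78) (nat_lit 0) (nat_lit 0) (XT.lf (nat_lit 0) (nat_lit 14319995964) (nat_lit 1748) (nat_lit 5130355159) (nat_lit 1824) (nat_lit 305398121) (nat_lit 408) (nat_lit 5) (nat_lit 431) (nat_lit 5) (nat_lit 432) (nat_lit 5) (nat_lit 469) (nat_lit 449) (nat_lit 222)) (XT.lf (nat_lit 76) (nat_lit 4862603118) (nat_lit 0) (nat_lit 10984033599) (nat_lit 1824) (nat_lit 4118102385) (nat_lit 409) (nat_lit 5) (nat_lit 408) (nat_lit 5) (nat_lit 432) (nat_lit 5) (nat_lit 470) (nat_lit 449) (nat_lit 221))) (XT.nd (nat_lit 78) (nat_lit 1748) (nat_lit 0) (XT.lf (nat_lit 76) (nat_lit 15121332103) (nat_lit 0) (nat_lit 2312373106) (nat_lit 1824) (nat_lit 2743607540) (nat_lit 409) (nat_lit 5) (nat_lit 408)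 (nat_lit 5) (nat_lit 432) (nat_lit 5) (nat_lit 471) (nat_lit 449) (nat_lit 220)) (XT.nd (nat_lit 78) (nat_lit 1824) (nat_lit 0) (XT.lf (nat_lit 76) (nat_lit 5213400713) (nat_lit 0) (nat_lit 13910940112) (nat_lit 1824) (nat_lit 1268362379) (nat_lit 410) (nat_lit 5) (nat_lit 409) (nat_lit 5) (nat_lit 433) (nat_lit 5) (nat_lit 472) (nat_lit 449) (nat_lit 219)) (XT.lf (nat_lit 0) (nat_lit 278348941) (nat_lit 1824) (nat_lit 4875784540) (nat_lit 1900) (nat_lit 15457337842) (nat_lit 385) (nat_lit 5) (nat_lit 409) (nat_lit 5) (nat_lit 410) (nat_lit 5) (nat_lit 473) (nat_lit 449) (nat_lit 218))))) (XT.nd (nat_lit 156) (nat_lit 1976) (nat_lit 0) (XT.nd (nat_lit 78) (nat_lit 0) (nat_lit 0) (XT.lf (nat_lit 0) (nat_lit 1896526735) (nat_lit 1824) (nat_lit 15162134667) (nat_lit 76) (nat_lit 3774637157) (nat_lit 386) (nat_lit 5) (nat_lit 410) (nat_lit 5) (nat_lit 387) (nat_lit 5) (nat_lit 474) (nat_lit 449) (nat_lit 217)) (XT.lf (nat_lit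 0) (nat_lit 3609883987) (nat_lit 1824) (nat_lit 4601802329) (nat_lit 76) (nat_lit 12846621415) (nat_lit 386) (nat_lit 5) (nat_lit 410) (nat_lit 5) (nat_lit 387) (nat_lit 5) (nat_lit 475) (nat_lit 449) (nat_lit 216))) (XT.nd (nat_lit 78) (nat_lit 912) (nat_lit 0) (XT.lf (nat_lit 0) (nat_lit 5399450944) (nat_lit 1140) (nat_lit 15044571322) (nat_lit 76) (nat_lit 842957648) (nat_lit 372) (nat_lit 5) (nat_lit 387) (nat_lit 5) (nat_lit 373) (nat_lit 5) (nat_lit 476) (nat_lit 449) (nat_lit 215)) (XT.nd (nat_lit 78) (nat_lit 912) (nat_lit 0) (XT.lf (nat_lit 0) (nat_lit 7306168302) (nat_lit 1140) (nat_lit 4211991418) (nat_lit 76) (nat_lit 10000440284) (nat_lit 372) (nat_lit 5) (nat_lit 387) (nat_lit 5) (nat_lit 373) (nat_lit 5) (nat_lit 477) (nat_lit 449) (nat_lit 214)) (XT.lf (nat_lit 0) (nat_lit 6924448284) (nat_lit 912) (nat_lit 2367502393) (nat_lit 988) (nat_lit 12462084816) (nat_lit 360) (nat_lit 5) (nat_lit 372) (nat_lit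 5) (nat_lit 373) (nat_lit 5) (nat_lit 478) (nat_lit 449) (nat_lit 213)))))) (XT.nd (nat_lit 390) (nat_lit 3268) (nat_lit 0) (XT.nd (nat_lit 156) (nat_lit 836) (nat_lit 0) (XT.nd (nat_lit 78) (nat_lit 836) (nat_lit 0) (XT.lf (nat_lit 0) (nat_lit 11387160331) (nat_lit 988) (nat_lit 3701986121) (nat_lit 76) (nat_lit 6903640588) (nat_lit 360) (nat_lit 5) (nat_lit 373) (nat_lit 5) (nat_lit 361) (nat_lit 5) (nat_lit 479) (nat_lit 449) (nat_lit 212)) (XT.lf (nat_lit 0) (nat_lit 7730277052) (nat_lit 836) (nat_lit 5855974648) (nat_lit 912) (nat_lit 8648823917) (nat_lit 349) (nat_lit 5) (nat_lit 360) (nat_lit 5) (nat_lit 361) (nat_lit 5) (nat_lit 480) (nat_lit 449) (nat_lit 211))) (XT.nd (nat_lit 78) (nat_lit 836) (nat_lit 0) (XT.lf (nat_lit 0) (nat_lit 15873621110) (nat_lit 912) (nat_lit 3067288167) (nat_lit 76) (nat_lit 3540416284) (nat_lit 349) (nat_lit 5) (nat_lit 361) (nat_lit 5) (nat_lit 350) (nat_lit 5) (nat_lit 481) (nat_lit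 449) (nat_lit 210)) (XT.nd (nat_lit 78) (nat_lit 0) (nat_lit 0) (XT.lf (nat_lit 0) (nat_lit 8670324155) (nat_lit 836) (nat_lit 9627727220) (nat_lit 912) (nat_lit 4432624347) (nat_lit 338) (nat_lit 5) (nat_lit 349) (nat_lit 5) (nat_lit 350) (nat_lit 5) (nat_lit 482) (nat_lit 449) (nat_lit 209)) (XT.lf (nat_lit 0) (nat_lit 20680710321) (nat_lit 836) (nat_lit 107132390) (nat_lit 912) (nat_lit 2196834188) (nat_lit 338) (nat_lit 5) (nat_lit 349) (nat_lit 5) (nat_lit 350) (nat_lit 5) (nat_lit 483) (nat_lit 449) (nat_lit 208))))) (XT.nd (nat_lit 234) (nat_lit 1520) (nat_lit 0) (XT.nd (nat_lit 78) (nat_lit 836) (nat_lit 0) (XT.lf (nat_lit 0) (nat_lit 205399060) (nat_lit 912) (nat_lit 13493174442) (nat_lit 76) (nat_lit 9542718642) (nat_lit 326) (nat_lit 5) (nat_lit 338) (nat_lit 5) (nat_lit 327) (nat_lit 5) (nat_lit 484) (nat_lit 449) (nat_lit 207)) (XT.nd (nat_lit 78) (nat_lit 836) (nat_lit 0) (XT.lf (nat_lit 0) (nat_lit 2638947840)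 (nat_lit 912) (nat_lit 1449204092) (nat_lit 76) (nat_lit 19414344986) (nat_lit 326) (nat_lit 5) (nat_lit 338) (nat_lit 5) (nat_lit 327) (nat_lit 5) (nat_lit 485) (nat_lit 449) (nat_lit 206)) (XT.lf (nat_lit 0) (nat_lit 5226463024) (nat_lit 912) (nat_lit 12829065426) (nat_lit 76) (nat_lit 5711292779) (nat_lit 315) (nat_lit 5) (nat_lit 327) (nat_lit 5) (nat_lit 316) (nat_lit 5) (nat_lit 486) (nat_lit 449) (nat_lit 205)))) (XT.nd (nat_lit 78) (nat_lit 1520) (nat_lit 0) (XT.lf (nat_lit 0) (nat_lit 7899095617) (nat_lit 912) (nat_lit 474842023) (nat_lit 76) (nat_lit 15661828366) (nat_lit 315) (nat_lit 5) (nat_lit 327) (nat_lit 5) (nat_lit 316) (nat_lit 5) (nat_lit 487) (nat_lit 449) (nat_lit 204)) (XT.nd (nat_lit 78) (nat_lit 760) (nat_lit 0) (XT.lf (nat_lit 0) (nat_lit 10711784805) (nat_lit 836) (nat_lit 12034761309) (nat_lit 76) (nat_lit 1561812781) (nat_lit 305) (nat_lit 5) (nat_lit 316) (nat_lit 5) (nat_lit 306) (nat_lit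 5) (nat_lit 488) (nat_lit 449) (nat_lit 203)) (XT.lf (nat_lit 0) (nat_lit 646563925) (nat_lit 760) (nat_lit 12993642410) (nat_lit 836) (nat_lit 10945009009) (nat_lit 295) (nat_lit 5) (nat_lit 305) (nat_lit 5) (nat_lit 306) (nat_lit 5) (nat_lit 489) (nat_lit 449) (nat_lit 202))))))) (XT.nd (nat_lit 56550) (nat_lit 0) (nat_lit 10868) (XT.nd (nat_lit 390) (nat_lit 1368) (nat_lit 0) (XT.nd (nat_lit 156) (nat_lit 836) (nat_lit 0) (XT.nd (nat_lit 78) (nat_lit 684) (nat_lit 0) (XT.lf (nat_lit 0) (nat_lit 13741132400) (nat_lit 760) (nat_lit 2963483535) (nat_lit 836) (nat_lit 8161445838) (nat_lit 295) (nat_lit 5) (nat_lit 305) (nat_lit 5) (nat_lit 306) (nat_lit 5) (nat_lit 490) (nat_lit 449) (nat_lit 201)) (XT.lf (nat_lit 0) (nat_lit 1919544056) (nat_lit 684) (nat_lit 17967141032) (nat_lit 760) (nat_lit 5264713839) (nat_lit 286) (nat_lit 5) (nat_lit 295) (nat_lit 5) (nat_lit 296) (nat_lit 5) (nat_lit 491) (nat_lit 449) (nat_lit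 200))) (XT.nd (nat_lit 78) (nat_lit 836) (nat_lit 0) (XT.lf (nat_lit 0) (nat_lit 15352330659) (nat_lit 684) (nat_lit 7870981675) (nat_lit 760) (nat_lit 2217313353) (nat_lit 286) (nat_lit 5) (nat_lit 295) (nat_lit 5) (nat_lit 296) (nat_lit 5) (nat_lit 492) (nat_lit 449) (nat_lit 199)) (XT.nd (nat_lit 78) (nat_lit 0) (nat_lit 0) (XT.lf (nat_lit 0) (nat_lit 913864315) (nat_lit 836) (nat_lit 22398232039) (nat_lit 76) (nat_lit 2422735769) (nat_lit 275) (nat_lit 5) (nat_lit 286) (nat_lit 5) (nat_lit 276) (nat_lit 5) (nat_lit 493) (nat_lit 449) (nat_lit 198)) (XT.lf (nat_lit 0) (nat_lit 4195120859) (nat_lit 836) (nat_lit 8937590093) (nat_lit 76) (nat_lit 12899576834) (nat_lit 275) (nat_lit 5) (nat_lit 286) (nat_lit 5) (nat_lit 276) (nat_lit 5) (nat_lit 494) (nat_lit 449) (nat_lit 197))))) (XT.nd (nat_lit 55926) (nat_lit 0) (nat_lit 12540) (XT.nd (nat_lit 156) (nat_lit 684) (nat_lit 0) (XT.lf (nat_lit 0) (nat_lit 4852468708)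 (nat_lit 684) (nat_lit 2717946711) (nat_lit 760) (nat_lit 18764709992) (nat_lit 266) (nat_lit 5) (nat_lit 275) (nat_lit 5) (nat_lit 276) (nat_lit 5) (nat_lit 495) (nat_lit 449) (nat_lit 196)) (XT.nd (nat_lit 55692) (nat_lit 0) (nat_lit 12540) (XT.lf (nat_lit 0) (nat_lit 6505986915) (nat_lit 684) (nat_lit 8295586451) (nat_lit 760) (nat_lit 12151987922) (nat_lit 257) (nat_lit 5) (nat_lit 266) (nat_lit 5) (nat_lit 267) (nat_lit 5) (nat_lit 497) (nat_lit 449) (nat_lit 194)) (XT.lf (nat_lit 0) (nat_lit 7706040233) (nat_lit 1748) (nat_lit 264241043) (nat_lit 1748) (nat_lit 264241043) (nat_lit 422) (nat_lit 3) (nat_lit 445) (nat_lit 3) (nat_lit 445) (nat_lit 5) (nat_lit 450) (nat_lit 450) (nat_lit 240)))) (XT.nd (nat_lit 78) (nat_lit 0) (nat_lit 0) (XT.lf (nat_lit 76) (nat_lit 7373839763) (nat_lit 0) (nat_lit 8478926448) (nat_lit 1748) (nat_lit 775132675) (nat_lit 423) (nat_lit 5) (nat_lit 422) (nat_lit 3) (nat_lit 445) (nat_lit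 5) (nat_lit 451) (nat_lit 450) (nat_lit 239)) (XT.nd (nat_lit 78) (nat_lit 0) (nat_lit 76) (XT.lf (nat_lit 76) (nat_lit 15438134876) (nat_lit 0) (nat_lit 861395272) (nat_lit 1748) (nat_lit 490457534) (nat_lit 423) (nat_lit 5) (nat_lit 422) (nat_lit 3) (nat_lit 445) (nat_lit 5) (nat_lit 452) (nat_lit 450) (nat_lit 238)) (XT.lf (nat_lit 76) (nat_lit 6748735363) (nat_lit 0) (nat_lit 10089026385) (nat_lit 1748) (nat_lit 115908556) (nat_lit 424) (nat_lit 5) (nat_lit 423) (nat_lit 5) (nat_lit 446) (nat_lit 5) (nat_lit 453) (nat_lit 450) (nat_lit 237)))))) (XT.nd (nat_lit 390) (nat_lit 0) (nat_lit 228) (XT.nd (nat_lit 156) (nat_lit 0) (nat_lit 76) (XT.nd (nat_lit 78) (nat_lit 0) (nat_lit 76) (XT.lf (nat_lit 0) (nat_lit 271394367) (nat_lit 1748) (nat_lit 2101657985) (nat_lit 1824) (nat_lit 14747367194) (nat_lit 400) (nat_lit 5) (nat_lit 423) (nat_lit 5) (nat_lit 424) (nat_lit 5) (nat_lit 454) (nat_lit 450) (nat_lit 236)) (XT.lf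 (nat_lit 0) (nat_lit 735435158) (nat_lit 1748) (nat_lit 11084321367) (nat_lit 1824) (nat_lit 5469323591) (nat_lit 401) (nat_lit 5) (nat_lit 424) (nat_lit 5) (nat_lit 425) (nat_lit 5) (nat_lit 455) (nat_lit 450) (nat_lit 235))) (XT.nd (nat_lit 78) (nat_lit 0) (nat_lit 76) (XT.lf (nat_lit 0) (nat_lit 1232817537) (nat_lit 1748) (nat_lit 2774277234) (nat_lit 1824) (nat_lit 13453540404) (nat_lit 401) (nat_lit 5) (nat_lit 424) (nat_lit 5) (nat_lit 425) (nat_lit 5) (nat_lit 456) (nat_lit 450) (nat_lit 234)) (XT.nd (nat_lit 78) (nat_lit 0) (nat_lit 0) (XT.lf (nat_lit 0) (nat_lit 1797888159) (nat_lit 1748) (nat_lit 11886637446) (nat_lit 1824) (nat_lit 3949943360) (nat_lit 402) (nat_lit 5) (nat_lit 425) (nat_lit 5) (nat_lit 426) (nat_lit 5) (nat_lit 457) (nat_lit 450) (nat_lit 233)) (XT.lf (nat_lit 0) (nat_lit 2413906472) (nat_lit 1748) (nat_lit 3363548643) (nat_lit 1824) (nat_lit 12033533786) (nat_lit 402) (nat_lit 5) (nat_lit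 425) (nat_lit 5) (nat_lit 426) (nat_lit 5) (nat_lit 458) (nat_lit 450) (nat_lit 232))))) (XT.nd (nat_lit 234) (nat_lit 0) (nat_lit 76) (XT.nd (nat_lit 78) (nat_lit 0) (nat_lit 0) (XT.lf (nat_lit 0) (nat_lit 3086867525) (nat_lit 1748) (nat_lit 12608162625) (nat_lit 1824) (nat_lit 2295118987) (nat_lit 403) (nat_lit 5) (nat_lit 426) (nat_lit 5) (nat_lit 427) (nat_lit 5) (nat_lit 459) (nat_lit 450) (nat_lit 231)) (XT.nd (nat_lit 78) (nat_lit 0) (nat_lit 76) (XT.lf (nat_lit 0) (nat_lit 3828848882) (nat_lit 1748) (nat_lit 3866329394) (nat_lit 1824) (nat_lit 10476605381) (nat_lit 403) (nat_lit 5) (nat_lit 426) (nat_lit 5) (nat_lit 427) (nat_lit 5) (nat_lit 460) (nat_lit 450) (nat_lit 230)) (XT.lf (nat_lit 0) (nat_lit 4616807660) (nat_lit 1748) (nat_lit 13245768107) (nat_lit 1824) (nat_lit 493854604) (nat_lit 404) (nat_lit 5) (nat_lit 427) (nat_lit 5) (nat_lit 428) (nat_lit 5) (nat_lit 461) (nat_lit 450) (nat_lit 229)))) (XT.nd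 (nat_lit 78) (nat_lit 0) (nat_lit 0) (XT.lf (nat_lit 0) (nat_lit 5492383278) (nat_lit 1748) (nat_lit 4279312528) (nat_lit 1824) (nat_lit 8771639272) (nat_lit 404) (nat_lit 5) (nat_lit 427) (nat_lit 5) (nat_lit 428) (nat_lit 5) (nat_lit 462) (nat_lit 450) (nat_lit 228)) (XT.nd (nat_lit 78) (nat_lit 0) (nat_lit 76) (XT.lf (nat_lit 76) (nat_lit 4927637233) (nat_lit 0) (nat_lit 1484708325) (nat_lit 1824) (nat_lit 12321096987) (nat_lit 405) (nat_lit 5) (nat_lit 404) (nat_lit 5) (nat_lit 428) (nat_lit 5) (nat_lit 463) (nat_lit 450) (nat_lit 227)) (XT.lf (nat_lit 0) (nat_lit 7419824788) (nat_lit 1748) (nat_lit 4599028145) (nat_lit 1824) (nat_lit 6907119002) (nat_lit 405) (nat_lit 5) (nat_lit 428) (nat_lit 5) (nat_lit 429) (nat_lit 5) (nat_lit 464) (nat_lit 450) (nat_lit 226))))))))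
noncomputable def xc238 : XT := (XT.nd (nat_lit 1638) (nat_lit 4560) (nat_lit 0) (XT.nd (nat_lit 780) (nat_lit 4484) (nat_lit 0) (XT.nd (nat_lit 390) (nat_lit 1520) (nat_lit 0) (XT.nd (nat_lit 156) (nat_lit 0) (nat_lit 76) (XT.nd (nat_lit 78) (nat_lit 0) (nat_lit 76) (XT.lf (nat_lit 76) (nat_lit 4842074052) (nat_lit 0) (nat_lit 3641718725) (nat_lit 1824) (nat_lit 10637834437) (nat_lit 406) (nat_lit 5) (nat_lit 405) (nat_lit 5) (nat_lit 429) (nat_lit 5) (nat_lit 465) (nat_lit 450) (nat_lit 225)) (XT.lf (nat_lit 0) (nat_lit 9627091681) (nat_lit 1748) (nat_lit 4821844695) (nat_lit 1824) (nat_lit 4871100237) (nat_lit 406) (nat_lit 5) (nat_lit 429) (nat_lit 5) (nat_lit 430) (nat_lit 5) (nat_lit 466) (nat_lit 450) (nat_lit 224))) (XT.nd (nat_lit 78) (nat_lit 0) (nat_lit 76) (XT.lf (nat_lit 76) (nat_lit 4861157490) (nat_lit 0) (nat_lit 5983025347) (nat_lit 1824) (nat_lit 8677214841) (nat_lit 407) (nat_lit 5) (nat_lit 406) (nat_lit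 5) (nat_lit 430) (nat_lit 5) (nat_lit 467) (nat_lit 450) (nat_lit 223)) (XT.nd (nat_lit 78) (nat_lit 0) (nat_lit 0) (XT.lf (nat_lit 0) (nat_lit 12130732628) (nat_lit 1748) (nat_lit 4943970381) (nat_lit 1824) (nat_lit 2651182584) (nat_lit 407) (nat_lit 5) (nat_lit 430) (nat_lit 5) (nat_lit 431) (nat_lit 5) (nat_lit 468) (nat_lit 450) (nat_lit 222)) (XT.lf (nat_lit 76) (nat_lit 4988924447) (nat_lit 0) (nat_lit 8521520259) (nat_lit 1824) (nat_lit 6422671862) (nat_lit 408) (nat_lit 5) (nat_lit 407) (nat_lit 5) (nat_lit 431) (nat_lit 5) (nat_lit 469) (nat_lit 450) (nat_lit 221))))) (XT.nd (nat_lit 156) (nat_lit 1748) (nat_lit 0) (XT.nd (nat_lit 78) (nat_lit 0) (nat_lit 0) (XT.lf (nat_lit 0) (nat_lit 14947954734) (nat_lit 1748) (nat_lit 4961454723) (nat_lit 1824) (nat_lit 234480518) (nat_lit 408) (nat_lit 5) (nat_lit 431) (nat_lit 5) (nat_lit 432) (nat_lit 5) (nat_lit 470) (nat_lit 450) (nat_lit 220)) (XT.lf (nat_lit 76) (nat_lit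 5229576485) (nat_lit 0) (nat_lit 11270605794) (nat_lit 1824) (nat_lit 3856979078) (nat_lit 409) (nat_lit 5) (nat_lit 408) (nat_lit 5) (nat_lit 432) (nat_lit 5) (nat_lit 471) (nat_lit 450) (nat_lit 219))) (XT.nd (nat_lit 78) (nat_lit 1748) (nat_lit 0) (XT.lf (nat_lit 76) (nat_lit 15688191397) (nat_lit 0) (nat_lit 2424200492) (nat_lit 1824) (nat_lit 2461729343) (nat_lit 409) (nat_lit 5) (nat_lit 408) (nat_lit 5) (nat_lit 432) (nat_lit 5) (nat_lit 472) (nat_lit 450) (nat_lit 218)) (XT.nd (nat_lit 78) (nat_lit 1824) (nat_lit 0) (XT.lf (nat_lit 76) (nat_lit 5587478123) (nat_lit 0) (nat_lit 14244225603) (nat_lit 1824) (nat_lit 962221198) (nat_lit 410) (nat_lit 5) (nat_lit 409) (nat_lit 5) (nat_lit 433) (nat_lit 5) (nat_lit 473) (nat_lit 450) (nat_lit 217)) (XT.lf (nat_lit 0) (nat_lit 604661642) (nat_lit 1824) (nat_lit 4704389086) (nat_lit 1900) (nat_lit 15708105518) (nat_lit 385) (nat_lit 5) (nat_lit 409) (nat_lit 5) (nat_lit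 410) (nat_lit 5) (nat_lit 474) (nat_lit 450) (nat_lit 216)))))) (XT.nd (nat_lit 390) (nat_lit 2584) (nat_lit 0) (XT.nd (nat_lit 156) (nat_lit 1976) (nat_lit 0) (XT.nd (nat_lit 78) (nat_lit 0) (nat_lit 0) (XT.lf (nat_lit 0) (nat_lit 2250329864) (nat_lit 1824) (nat_lit 15191466040) (nat_lit 76) (nat_lit 3801724126) (nat_lit 386) (nat_lit 5) (nat_lit 410) (nat_lit 5) (nat_lit 387) (nat_lit 5) (nat_lit 475) (nat_lit 450) (nat_lit 215)) (XT.lf (nat_lit 0) (nat_lit 3991760681) (nat_lit 1824) (nat_lit 4425297866) (nat_lit 76) (nat_lit 13056097203) (nat_lit 386) (nat_lit 5) (nat_lit 410) (nat_lit 5) (nat_lit 387) (nat_lit 5) (nat_lit 476) (nat_lit 450) (nat_lit 214))) (XT.nd (nat_lit 78) (nat_lit 912) (nat_lit 0) (XT.lf (nat_lit 0) (nat_lit 5812528521) (nat_lit 1140) (nat_lit 15072209669) (nat_lit 76) (nat_lit 821757437) (nat_lit 372) (nat_lit 5) (nat_lit 387) (nat_lit 5) (nat_lit 373) (nat_lit 5) (nat_lit 477) (nat_lit 450)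 (nat_lit 213)) (XT.nd (nat_lit 78) (nat_lit 912) (nat_lit 0) (XT.lf (nat_lit 0) (nat_lit 7751398097) (nat_lit 1140) (nat_lit 4028336071) (nat_lit 76) (nat_lit 10163135987) (nat_lit 372) (nat_lit 5) (nat_lit 387) (nat_lit 5) (nat_lit 373) (nat_lit 5) (nat_lit 478) (nat_lit 450) (nat_lit 212)) (XT.lf (nat_lit 0) (nat_lit 7329069957) (nat_lit 912) (nat_lit 2443689241) (nat_lit 988) (nat_lit 12410340242) (nat_lit 360) (nat_lit 5) (nat_lit 372) (nat_lit 5) (nat_lit 373) (nat_lit 5) (nat_lit 479) (nat_lit 450) (nat_lit 211))))) (XT.nd (nat_lit 234) (nat_lit 1748) (nat_lit 0) (XT.nd (nat_lit 78) (nat_lit 836) (nat_lit 0) (XT.lf (nat_lit 0) (nat_lit 11903905773) (nat_lit 988) (nat_lit 3509029081) (nat_lit 76) (nat_lit 7013812811) (nat_lit 360) (nat_lit 5) (nat_lit 373) (nat_lit 5) (nat_lit 361) (nat_lit 5) (nat_lit 480) (nat_lit 450) (nat_lit 210)) (XT.nd (nat_lit 78) (nat_lit 0) (nat_lit 0) (XT.lf (nat_lit 0) (nat_lit 8150122797)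 (nat_lit 836) (nat_lit 5992911577) (nat_lit 912) (nat_lit 8530928788) (nat_lit 349) (nat_lit 5) (nat_lit 360) (nat_lit 5) (nat_lit 361) (nat_lit 5) (nat_lit 481) (nat_lit 450) (nat_lit 209)) (XT.lf (nat_lit 0) (nat_lit 16470435661) (nat_lit 912) (nat_lit 2862768401) (nat_lit 76) (nat_lit 3592050564) (nat_lit 349) (nat_lit 5) (nat_lit 361) (nat_lit 5) (nat_lit 350) (nat_lit 5) (nat_lit 482) (nat_lit 450) (nat_lit 208)))) (XT.nd (nat_lit 78) (nat_lit 912) (nat_lit 0) (XT.lf (nat_lit 0) (nat_lit 9107847052) (nat_lit 836) (nat_lit 9831745003) (nat_lit 912) (nat_lit 4240077155) (nat_lit 338) (nat_lit 5) (nat_lit 349) (nat_lit 5) (nat_lit 350) (nat_lit 5) (nat_lit 483) (nat_lit 450) (nat_lit 207)) (XT.nd (nat_lit 78) (nat_lit 912) (nat_lit 0) (XT.lf (nat_lit 0) (nat_lit 21353262188) (nat_lit 836) (nat_lit 120513506) (nat_lit 912) (nat_lit 1965084912) (nat_lit 338) (nat_lit 5) (nat_lit 349) (nat_lit 5) (nat_lit 350) (nat_lit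 5) (nat_lit 484) (nat_lit 450) (nat_lit 206)) (XT.lf (nat_lit 0) (nat_lit 477888050) (nat_lit 912) (nat_lit 13496588917) (nat_lit 76) (nat_lit 9726171220) (nat_lit 326) (nat_lit 5) (nat_lit 338) (nat_lit 5) (nat_lit 327) (nat_lit 5) (nat_lit 485) (nat_lit 450) (nat_lit 205))))))) (XT.nd (nat_lit 858) (nat_lit 0) (nat_lit 0) (XT.nd (nat_lit 390) (nat_lit 2204) (nat_lit 0) (XT.nd (nat_lit 156) (nat_lit 1520) (nat_lit 0) (XT.nd (nat_lit 78) (nat_lit 836) (nat_lit 0) (XT.lf (nat_lit 0) (nat_lit 2954845433) (nat_lit 912) (nat_lit 1216963650) (nat_lit 76) (nat_lit 19795375225) (nat_lit 326) (nat_lit 5) (nat_lit 338) (nat_lit 5) (nat_lit 327) (nat_lit 5) (nat_lit 486) (nat_lit 450) (nat_lit 204)) (XT.lf (nat_lit 0) (nat_lit 5590635718) (nat_lit 912) (nat_lit 12820848796) (nat_lit 76) (nat_lit 5825382059) (nat_lit 315) (nat_lit 5) (nat_lit 327) (nat_lit 5) (nat_lit 316) (nat_lit 5) (nat_lit 487) (nat_lit 450) (nat_lit 203)))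 (XT.nd (nat_lit 78) (nat_lit 1520) (nat_lit 0) (XT.lf (nat_lit 0) (nat_lit 8311629915) (nat_lit 912) (nat_lit 224733042) (nat_lit 76) (nat_lit 15974931035) (nat_lit 315) (nat_lit 5) (nat_lit 327) (nat_lit 5) (nat_lit 316) (nat_lit 5) (nat_lit 488) (nat_lit 450) (nat_lit 202)) (XT.nd (nat_lit 78) (nat_lit 760) (nat_lit 0) (XT.lf (nat_lit 0) (nat_lit 11177299364) (nat_lit 836) (nat_lit 12012482792) (nat_lit 76) (nat_lit 1599623942) (nat_lit 305) (nat_lit 5) (nat_lit 316) (nat_lit 5) (nat_lit 306) (nat_lit 5) (nat_lit 489) (nat_lit 450) (nat_lit 201)) (XT.lf (nat_lit 0) (nat_lit 920738856) (nat_lit 760) (nat_lit 13240319598) (nat_lit 836) (nat_lit 10910807689) (nat_lit 295) (nat_lit 5) (nat_lit 305) (nat_lit 5) (nat_lit 306) (nat_lit 5) (nat_lit 490) (nat_lit 450) (nat_lit 200))))) (XT.nd (nat_lit 234) (nat_lit 1520) (nat_lit 0) (XT.nd (nat_lit 78) (nat_lit 684) (nat_lit 0) (XT.lf (nat_lit 0) (nat_lit 14272076276) (nat_lit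 760) (nat_lit 3009816284) (nat_lit 836) (nat_lit 8076536030) (nat_lit 295) (nat_lit 5) (nat_lit 305) (nat_lit 5) (nat_lit 306) (nat_lit 5) (nat_lit 491) (nat_lit 450) (nat_lit 199)) (XT.nd (nat_lit 78) (nat_lit 0) (nat_lit 0) (XT.lf (nat_lit 0) (nat_lit 2217209539) (nat_lit 684) (nat_lit 18307390969) (nat_lit 760) (nat_lit 5124933810) (nat_lit 286) (nat_lit 5) (nat_lit 295) (nat_lit 5) (nat_lit 296) (nat_lit 5) (nat_lit 492) (nat_lit 450) (nat_lit 198)) (XT.lf (nat_lit 0) (nat_lit 15913568057) (nat_lit 684) (nat_lit 8009682795) (nat_lit 760) (nat_lit 2021390693) (nat_lit 286) (nat_lit 5) (nat_lit 295) (nat_lit 5) (nat_lit 296) (nat_lit 5) (nat_lit 493) (nat_lit 450) (nat_lit 197)))) (XT.nd (nat_lit 78) (nat_lit 684) (nat_lit 0) (XT.lf (nat_lit 0) (nat_lit 1166410659) (nat_lit 836) (nat_lit 22585836703) (nat_lit 76) (nat_lit 2492512201) (nat_lit 275) (nat_lit 5) (nat_lit 286) (nat_lit 5) (nat_lit 276) (nat_lit 5) (nat_lit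 494) (nat_lit 450) (nat_lit 196)) (XT.nd (nat_lit 78) (nat_lit 684) (nat_lit 0) (XT.lf (nat_lit 0) (nat_lit 4508698823) (nat_lit 836) (nat_lit 8861087015) (nat_lit 76) (nat_lit 13178472014) (nat_lit 275) (nat_lit 5) (nat_lit 286) (nat_lit 5) (nat_lit 276) (nat_lit 5) (nat_lit 495) (nat_lit 450) (nat_lit 195)) (XT.lf (nat_lit 0) (nat_lit 5203093654) (nat_lit 684) (nat_lit 2745548559) (nat_lit 760) (nat_lit 18908568769) (nat_lit 266) (nat_lit 5) (nat_lit 275) (nat_lit 5) (nat_lit 276) (nat_lit 5) (nat_lit 496) (nat_lit 450) (nat_lit 194)))))) (XT.nd (nat_lit 56082) (nat_lit 0) (nat_lit 10184) (XT.nd (nat_lit 55848) (nat_lit 0) (nat_lit 10184) (XT.nd (nat_lit 55770) (nat_lit 0) (nat_lit 11856) (XT.lf (nat_lit 0) (nat_lit 11566836342) (nat_lit 760) (nat_lit 7558747969) (nat_lit 76) (nat_lit 8044570869) (nat_lit 266) (nat_lit 5) (nat_lit 276) (nat_lit 5) (nat_lit 267) (nat_lit 5) (nat_lit 497) (nat_lit 450) (nat_lit 193))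 (XT.lf (nat_lit 0) (nat_lit 8097300392) (nat_lit 1748) (nat_lit 148532684) (nat_lit 1748) (nat_lit 148532684) (nat_lit 422) (nat_lit 3) (nat_lit 445) (nat_lit 3) (nat_lit 445) (nat_lit 5) (nat_lit 451) (nat_lit 451) (nat_lit 238))) (XT.nd (nat_lit 78) (nat_lit 1672) (nat_lit 0) (XT.lf (nat_lit 76) (nat_lit 7761710902) (nat_lit 0) (nat_lit 8874650559) (nat_lit 1748) (nat_lit 314560257) (nat_lit 423) (nat_lit 5) (nat_lit 422) (nat_lit 3) (nat_lit 445) (nat_lit 5) (nat_lit 452) (nat_lit 451) (nat_lit 237)) (XT.nd (nat_lit 78) (nat_lit 1672) (nat_lit 0) (XT.lf (nat_lit 76) (nat_lit 15982578303) (nat_lit 0) (nat_lit 1100334533) (nat_lit 1748) (nat_lit 33526418) (nat_lit 423) (nat_lit 5) (nat_lit 422) (nat_lit 3) (nat_lit 445) (nat_lit 5) (nat_lit 453) (nat_lit 451) (nat_lit 236)) (XT.lf (nat_lit 0) (nat_lit 335090596) (nat_lit 1748) (nat_lit 10157222825) (nat_lit 1824) (nat_lit 6791217745) (nat_lit 400) (nat_lit 5) (nat_lit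 423) (nat_lit 5) (nat_lit 424) (nat_lit 5) (nat_lit 454) (nat_lit 451) (nat_lit 235))))) (XT.nd (nat_lit 234) (nat_lit 0) (nat_lit 152) (XT.nd (nat_lit 78) (nat_lit 0) (nat_lit 76) (XT.lf (nat_lit 0) (nat_lit 719730843) (nat_lit 1748) (nat_lit 1897570351) (nat_lit 1824) (nat_lit 14836479786) (nat_lit 400) (nat_lit 5) (nat_lit 423) (nat_lit 5) (nat_lit 424) (nat_lit 5) (nat_lit 455) (nat_lit 451) (nat_lit 234)) (XT.nd (nat_lit 78) (nat_lit 0) (nat_lit 0) (XT.lf (nat_lit 0) (nat_lit 1184713323) (nat_lit 1748) (nat_lit 11051362789) (nat_lit 1824) (nat_lit 5389909134) (nat_lit 401) (nat_lit 5) (nat_lit 424) (nat_lit 5) (nat_lit 425) (nat_lit 5) (nat_lit 456) (nat_lit 451) (nat_lit 233)) (XT.lf (nat_lit 0) (nat_lit 1683522379) (nat_lit 1748) (nat_lit 2580110813) (nat_lit 1824) (nat_lit 13537512262) (nat_lit 401) (nat_lit 5) (nat_lit 424) (nat_lit 5) (nat_lit 425) (nat_lit 5) (nat_lit 457) (nat_lit 451) (nat_lit 232)))) (XT.nd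 (nat_lit 78) (nat_lit 0) (nat_lit 0) (XT.lf (nat_lit 0) (nat_lit 2252038601) (nat_lit 1748) (nat_lit 11866684520) (nat_lit 1824) (nat_lit 3859893473) (nat_lit 402) (nat_lit 5) (nat_lit 425) (nat_lit 5) (nat_lit 426) (nat_lit 5) (nat_lit 458) (nat_lit 451) (nat_lit 231)) (XT.nd (nat_lit 78) (nat_lit 0) (nat_lit 76) (XT.lf (nat_lit 0) (nat_lit 2872177423) (nat_lit 1748) (nat_lit 3178186601) (nat_lit 1824) (nat_lit 12108470390) (nat_lit 402) (nat_lit 5) (nat_lit 425) (nat_lit 5) (nat_lit 426) (nat_lit 5) (nat_lit 459) (nat_lit 451) (nat_lit 230)) (XT.lf (nat_lit 0) (nat_lit 3551197232) (nat_lit 1748) (nat_lit 12600121409) (nat_lit 1824) (nat_lit 2190410643) (nat_lit 403) (nat_lit 5) (nat_lit 426) (nat_lit 5) (nat_lit 427) (nat_lit 5) (nat_lit 460) (nat_lit 451) (nat_lit 229))))))))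
noncomputable def xc239 : XT := (XT.nd (nat_lit 1638) (nat_lit 6460) (nat_lit 0) (XT.nd (nat_lit 780) (nat_lit 3268) (nat_lit 0) (XT.nd (nat_lit 390) (nat_lit 0) (nat_lit 152) (XT.nd (nat_lit 156) (nat_lit 0) (nat_lit 76) (XT.nd (nat_lit 78) (nat_lit 0) (nat_lit 76) (XT.lf (nat_lit 0) (nat_lit 4300124249) (nat_lit 1748) (nat_lit 3688553562) (nat_lit 1824) (nat_lit 10538479916) (nat_lit 403) (nat_lit 5) (nat_lit 426) (nat_lit 5) (nat_lit 427) (nat_lit 5) (nat_lit 461) (nat_lit 451) (nat_lit 228)) (XT.lf (nat_lit 0) (nat_lit 5096870734) (nat_lit 1748) (nat_lit 13248445231) (nat_lit 1824) (nat_lit 370324125) (nat_lit 404) (nat_lit 5) (nat_lit 427) (nat_lit 5) (nat_lit 428) (nat_lit 5) (nat_lit 462) (nat_lit 451) (nat_lit 227))) (XT.nd (nat_lit 78) (nat_lit 0) (nat_lit 0) (XT.lf (nat_lit 0) (nat_lit 5982355377) (nat_lit 1748) (nat_lit 4107802466) (nat_lit 1824) (nat_lit 8816280321) (nat_lit 404) (nat_lit 5) (nat_lit 427)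 (nat_lit 5) (nat_lit 428) (nat_lit 5) (nat_lit 463) (nat_lit 451) (nat_lit 226)) (XT.nd (nat_lit 78) (nat_lit 0) (nat_lit 76) (XT.lf (nat_lit 76) (nat_lit 5281594866) (nat_lit 0) (nat_lit 1633326874) (nat_lit 1824) (nat_lit 12185545103) (nat_lit 405) (nat_lit 5) (nat_lit 404) (nat_lit 5) (nat_lit 428) (nat_lit 5) (nat_lit 464) (nat_lit 451) (nat_lit 225)) (XT.lf (nat_lit 0) (nat_lit 7934453769) (nat_lit 1748) (nat_lit 4432360102) (nat_lit 1824) (nat_lit 6930197983) (nat_lit 405) (nat_lit 5) (nat_lit 428) (nat_lit 5) (nat_lit 429) (nat_lit 5) (nat_lit 465) (nat_lit 451) (nat_lit 224))))) (XT.nd (nat_lit 156) (nat_lit 0) (nat_lit 76) (XT.nd (nat_lit 78) (nat_lit 0) (nat_lit 76) (XT.lf (nat_lit 76) (nat_lit 5195862503) (nat_lit 0) (nat_lit 3818325855) (nat_lit 1824) (nat_lit 10482505172) (nat_lit 406) (nat_lit 5) (nat_lit 405) (nat_lit 5) (nat_lit 429) (nat_lit 5) (nat_lit 466) (nat_lit 451) (nat_lit 223)) (XT.lf (nat_lit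 0) (nat_lit 10172619754) (nat_lit 1748) (nat_lit 4658490452) (nat_lit 1824) (nat_lit 4868118558) (nat_lit 406) (nat_lit 5) (nat_lit 429) (nat_lit 5) (nat_lit 430) (nat_lit 5) (nat_lit 467) (nat_lit 451) (nat_lit 222))) (XT.nd (nat_lit 78) (nat_lit 0) (nat_lit 76) (XT.lf (nat_lit 76) (nat_lit 5216462624) (nat_lit 0) (nat_lit 6192344449) (nat_lit 1824) (nat_lit 8495917809) (nat_lit 407) (nat_lit 5) (nat_lit 406) (nat_lit 5) (nat_lit 430) (nat_lit 5) (nat_lit 468) (nat_lit 451) (nat_lit 221)) (XT.nd (nat_lit 78) (nat_lit 0) (nat_lit 0) (XT.lf (nat_lit 0) (nat_lit 12713698709) (nat_lit 1748) (nat_lit 4782296007) (nat_lit 1824) (nat_lit 2617458484) (nat_lit 407) (nat_lit 5) (nat_lit 430) (nat_lit 5) (nat_lit 431) (nat_lit 5) (nat_lit 469) (nat_lit 451) (nat_lit 220)) (XT.lf (nat_lit 76) (nat_lit 5347542547) (nat_lit 0) (nat_lit 8768469482) (nat_lit 1824) (nat_lit 6208919430) (nat_lit 408) (nat_lit 5) (nat_lit 407) (nat_lit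 5) (nat_lit 431) (nat_lit 5) (nat_lit 470) (nat_lit 451) (nat_lit 219)))))) (XT.nd (nat_lit 390) (nat_lit 1900) (nat_lit 0) (XT.nd (nat_lit 156) (nat_lit 1748) (nat_lit 0) (XT.nd (nat_lit 78) (nat_lit 0) (nat_lit 0) (XT.lf (nat_lit 0) (nat_lit 15575209533) (nat_lit 1748) (nat_lit 4799719247) (nat_lit 1824) (nat_lit 165135560) (nat_lit 408) (nat_lit 5) (nat_lit 431) (nat_lit 5) (nat_lit 432) (nat_lit 5) (nat_lit 471) (nat_lit 451) (nat_lit 218)) (XT.lf (nat_lit 76) (nat_lit 5593415713) (nat_lit 0) (nat_lit 11560311954) (nat_lit 1824) (nat_lit 3603971259) (nat_lit 409) (nat_lit 5) (nat_lit 408) (nat_lit 5) (nat_lit 432) (nat_lit 5) (nat_lit 472) (nat_lit 451) (nat_lit 217))) (XT.nd (nat_lit 78) (nat_lit 1748) (nat_lit 0) (XT.lf (nat_lit 76) (nat_lit 16256119634) (nat_lit 0) (nat_lit 2535717879) (nat_lit 1824) (nat_lit 2187290008) (nat_lit 409) (nat_lit 5) (nat_lit 408) (nat_lit 5) (nat_lit 432) (nat_lit 5) (nat_lit 473)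 (nat_lit 451) (nat_lit 216)) (XT.nd (nat_lit 78) (nat_lit 1824) (nat_lit 0) (XT.lf (nat_lit 76) (nat_lit 5958560052) (nat_lit 0) (nat_lit 14582038497) (nat_lit 1824) (nat_lit 662830069) (nat_lit 410) (nat_lit 5) (nat_lit 409) (nat_lit 5) (nat_lit 433) (nat_lit 5) (nat_lit 474) (nat_lit 451) (nat_lit 215)) (XT.lf (nat_lit 0) (nat_lit 925045649) (nat_lit 1824) (nat_lit 4540007871) (nat_lit 1900) (nat_lit 15966155480) (nat_lit 385) (nat_lit 5) (nat_lit 409) (nat_lit 5) (nat_lit 410) (nat_lit 5) (nat_lit 475) (nat_lit 451) (nat_lit 214))))) (XT.nd (nat_lit 234) (nat_lit 912) (nat_lit 0) (XT.nd (nat_lit 78) (nat_lit 1064) (nat_lit 0) (XT.lf (nat_lit 0) (nat_lit 2598943337) (nat_lit 1824) (nat_lit 15232020352) (nat_lit 76) (nat_lit 3831232490) (nat_lit 386) (nat_lit 5) (nat_lit 410) (nat_lit 5) (nat_lit 387) (nat_lit 5) (nat_lit 476) (nat_lit 451) (nat_lit 213)) (XT.nd (nat_lit 78) (nat_lit 1064) (nat_lit 0) (XT.lf (nat_lit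 0) (nat_lit 4369249695) (nat_lit 1824) (nat_lit 4255691069) (nat_lit 76) (nat_lit 13271605306) (nat_lit 386) (nat_lit 5) (nat_lit 410) (nat_lit 5) (nat_lit 387) (nat_lit 5) (nat_lit 477) (nat_lit 451) (nat_lit 212)) (XT.lf (nat_lit 0) (nat_lit 6222020689) (nat_lit 1140) (nat_lit 15111011533) (nat_lit 76) (nat_lit 801611113) (nat_lit 372) (nat_lit 5) (nat_lit 387) (nat_lit 5) (nat_lit 373) (nat_lit 5) (nat_lit 478) (nat_lit 451) (nat_lit 211)))) (XT.nd (nat_lit 78) (nat_lit 912) (nat_lit 0) (XT.lf (nat_lit 0) (nat_lit 8193917822) (nat_lit 1140) (nat_lit 3851410312) (nat_lit 76) (nat_lit 10330534518) (nat_lit 372) (nat_lit 5) (nat_lit 387) (nat_lit 5) (nat_lit 373) (nat_lit 5) (nat_lit 479) (nat_lit 451) (nat_lit 210)) (XT.nd (nat_lit 78) (nat_lit 0) (nat_lit 0) (XT.lf (nat_lit 0) (nat_lit 7731449807) (nat_lit 912) (nat_lit 2520280058) (nat_lit 988) (nat_lit 12369248441) (nat_lit 360) (nat_lit 5) (nat_lit 372) (nat_lit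 5) (nat_lit 373) (nat_lit 5) (nat_lit 480) (nat_lit 451) (nat_lit 209)) (XT.lf (nat_lit 0) (nat_lit 12419763815) (nat_lit 988) (nat_lit 3322580710) (nat_lit 76) (nat_lit 7127271892) (nat_lit 360) (nat_lit 5) (nat_lit 373) (nat_lit 5) (nat_lit 361) (nat_lit 5) (nat_lit 481) (nat_lit 451) (nat_lit 208))))))) (XT.nd (nat_lit 858) (nat_lit 1520) (nat_lit 0) (XT.nd (nat_lit 390) (nat_lit 2356) (nat_lit 0) (XT.nd (nat_lit 156) (nat_lit 1748) (nat_lit 0) (XT.nd (nat_lit 78) (nat_lit 0) (nat_lit 0) (XT.lf (nat_lit 0) (nat_lit 8568065858) (nat_lit 836) (nat_lit 6131817709) (nat_lit 912) (nat_lit 8421970656) (nat_lit 349) (nat_lit 5) (nat_lit 360) (nat_lit 5) (nat_lit 361) (nat_lit 5) (nat_lit 482) (nat_lit 451) (nat_lit 207)) (XT.lf (nat_lit 0) (nat_lit 17068339309) (nat_lit 912) (nat_lit 2664482123) (nat_lit 76) (nat_lit 3645462081) (nat_lit 349) (nat_lit 5) (nat_lit 361) (nat_lit 5) (nat_lit 350) (nat_lit 5) (nat_lit 483) (nat_lit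 451) (nat_lit 206))) (XT.nd (nat_lit 78) (nat_lit 912) (nat_lit 0) (XT.lf (nat_lit 0) (nat_lit 9543864445) (nat_lit 836) (nat_lit 10039398009) (nat_lit 912) (nat_lit 4054598346) (nat_lit 338) (nat_lit 5) (nat_lit 349) (nat_lit 5) (nat_lit 350) (nat_lit 5) (nat_lit 484) (nat_lit 451) (nat_lit 205)) (XT.nd (nat_lit 78) (nat_lit 912) (nat_lit 0) (XT.lf (nat_lit 0) (nat_lit 22029210227) (nat_lit 836) (nat_lit 133725842) (nat_lit 912) (nat_lit 1739405873) (nat_lit 338) (nat_lit 5) (nat_lit 349) (nat_lit 5) (nat_lit 350) (nat_lit 5) (nat_lit 485) (nat_lit 451) (nat_lit 204)) (XT.lf (nat_lit 0) (nat_lit 745405258) (nat_lit 912) (nat_lit 13510418221) (nat_lit 76) (nat_lit 9913580271) (nat_lit 326) (nat_lit 5) (nat_lit 338) (nat_lit 5) (nat_lit 327) (nat_lit 5) (nat_lit 486) (nat_lit 451) (nat_lit 203))))) (XT.nd (nat_lit 234) (nat_lit 760) (nat_lit 0) (XT.nd (nat_lit 78) (nat_lit 1596) (nat_lit 0) (XT.lf (nat_lit 0) (nat_lit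 3266843760) (nat_lit 912) (nat_lit 990222066) (nat_lit 76) (nat_lit 20184307853) (nat_lit 326) (nat_lit 5) (nat_lit 338) (nat_lit 5) (nat_lit 327) (nat_lit 5) (nat_lit 487) (nat_lit 451) (nat_lit 202)) (XT.nd (nat_lit 78) (nat_lit 760) (nat_lit 0) (XT.lf (nat_lit 0) (nat_lit 5952009595) (nat_lit 912) (nat_lit 12822750260) (nat_lit 76) (nat_lit 5941758428) (nat_lit 315) (nat_lit 5) (nat_lit 327) (nat_lit 5) (nat_lit 316) (nat_lit 5) (nat_lit 488) (nat_lit 451) (nat_lit 201)) (XT.lf (nat_lit 0) (nat_lit 20567048) (nat_lit 760) (nat_lit 8702096806) (nat_lit 836) (nat_lit 16273867444) (nat_lit 305) (nat_lit 5) (nat_lit 315) (nat_lit 5) (nat_lit 316) (nat_lit 5) (nat_lit 489) (nat_lit 451) (nat_lit 200)))) (XT.nd (nat_lit 78) (nat_lit 760) (nat_lit 0) (XT.lf (nat_lit 0) (nat_lit 11642366749) (nat_lit 836) (nat_lit 11999970296) (nat_lit 76) (nat_lit 1637936015) (nat_lit 305) (nat_lit 5) (nat_lit 316) (nat_lit 5) (nat_lit 306)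 (nat_lit 5) (nat_lit 490) (nat_lit 451) (nat_lit 199)) (XT.nd (nat_lit 78) (nat_lit 0) (nat_lit 0) (XT.lf (nat_lit 0) (nat_lit 1190252877) (nat_lit 760) (nat_lit 13492442734) (nat_lit 836) (nat_lit 10885750582) (nat_lit 295) (nat_lit 5) (nat_lit 305) (nat_lit 5) (nat_lit 306) (nat_lit 5) (nat_lit 491) (nat_lit 451) (nat_lit 198)) (XT.lf (nat_lit 0) (nat_lit 14803693530) (nat_lit 760) (nat_lit 3057578045) (nat_lit 836) (nat_lit 7999563554) (nat_lit 295) (nat_lit 5) (nat_lit 305) (nat_lit 5) (nat_lit 306) (nat_lit 5) (nat_lit 492) (nat_lit 451) (nat_lit 197)))))) (XT.nd (nat_lit 56238) (nat_lit 0) (nat_lit 9424) (XT.nd (nat_lit 156) (nat_lit 836) (nat_lit 0) (XT.nd (nat_lit 78) (nat_lit 0) (nat_lit 0) (XT.lf (nat_lit 0) (nat_lit 2510760382) (nat_lit 684) (nat_lit 18655187305) (nat_lit 760) (nat_lit 4991874714) (nat_lit 286) (nat_lit 5) (nat_lit 295) (nat_lit 5) (nat_lit 296) (nat_lit 5) (nat_lit 493) (nat_lit 451) (nat_lit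 196)) (XT.lf (nat_lit 0) (nat_lit 16476159666) (nat_lit 684) (nat_lit 8151884801) (nat_lit 760) (nat_lit 1830879515) (nat_lit 286) (nat_lit 5) (nat_lit 295) (nat_lit 5) (nat_lit 296) (nat_lit 5) (nat_lit 494) (nat_lit 451) (nat_lit 195))) (XT.nd (nat_lit 78) (nat_lit 0) (nat_lit 0) (XT.lf (nat_lit 0) (nat_lit 1414910976) (nat_lit 836) (nat_lit 22787303555) (nat_lit 76) (nat_lit 2562856212) (nat_lit 275) (nat_lit 5) (nat_lit 286) (nat_lit 5) (nat_lit 276) (nat_lit 5) (nat_lit 495) (nat_lit 451) (nat_lit 194)) (XT.nd (nat_lit 55926) (nat_lit 0) (nat_lit 11172) (XT.lf (nat_lit 0) (nat_lit 4819629764) (nat_lit 836) (nat_lit 8792965734) (nat_lit 76) (nat_lit 13462133384) (nat_lit 275) (nat_lit 5) (nat_lit 286) (nat_lit 5) (nat_lit 276) (nat_lit 5) (nat_lit 496) (nat_lit 451) (nat_lit 193)) (XT.lf (nat_lit 0) (nat_lit 8487177344) (nat_lit 1748) (nat_lit 35208471) (nat_lit 1748) (nat_lit 35208471) (nat_lit 422) (nat_lit 3)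 (nat_lit 445) (nat_lit 3) (nat_lit 445) (nat_lit 5) (nat_lit 452) (nat_lit 452) (nat_lit 236))))) (XT.nd (nat_lit 234) (nat_lit 0) (nat_lit 76) (XT.nd (nat_lit 78) (nat_lit 0) (nat_lit 0) (XT.lf (nat_lit 0) (nat_lit 134943703) (nat_lit 1748) (nat_lit 9133658397) (nat_lit 1824) (nat_lit 8012155411) (nat_lit 399) (nat_lit 5) (nat_lit 422) (nat_lit 3) (nat_lit 423) (nat_lit 5) (nat_lit 453) (nat_lit 452) (nat_lit 235)) (XT.nd (nat_lit 78) (nat_lit 0) (nat_lit 76) (XT.lf (nat_lit 0) (nat_lit 408984043) (nat_lit 1748) (nat_lit 923714715) (nat_lit 1824) (nat_lit 16117030286) (nat_lit 399) (nat_lit 5) (nat_lit 422) (nat_lit 3) (nat_lit 423) (nat_lit 5) (nat_lit 454) (nat_lit 452) (nat_lit 234)) (XT.lf (nat_lit 0) (nat_lit 776016514) (nat_lit 1748) (nat_lit 10119072385) (nat_lit 1824) (nat_lit 6725243324) (nat_lit 400) (nat_lit 5) (nat_lit 423) (nat_lit 5) (nat_lit 424) (nat_lit 5) (nat_lit 455) (nat_lit 452) (nat_lit 233))))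 (XT.nd (nat_lit 78) (nat_lit 0) (nat_lit 76) (XT.lf (nat_lit 0) (nat_lit 1159835368) (nat_lit 1748) (nat_lit 1698958135) (nat_lit 1824) (nat_lit 14935367445) (nat_lit 400) (nat_lit 5) (nat_lit 423) (nat_lit 5) (nat_lit 424) (nat_lit 5) (nat_lit 456) (nat_lit 452) (nat_lit 232)) (XT.nd (nat_lit 78) (nat_lit 0) (nat_lit 0) (XT.lf (nat_lit 0) (nat_lit 1626102188) (nat_lit 1748) (nat_lit 11027633216) (nat_lit 1824) (nat_lit 5316237757) (nat_lit 401) (nat_lit 5) (nat_lit 424) (nat_lit 5) (nat_lit 425) (nat_lit 5) (nat_lit 457) (nat_lit 452) (nat_lit 231)) (XT.lf (nat_lit 0) (nat_lit 2126697335) (nat_lit 1748) (nat_lit 2391755353) (nat_lit 1824) (nat_lit 13630351175) (nat_lit 401) (nat_lit 5) (nat_lit 424) (nat_lit 5) (nat_lit 425) (nat_lit 5) (nat_lit 458) (nat_lit 452) (nat_lit 230))))))))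
noncomputable def xc240 : XT := (XT.nd (nat_lit 1638) (nat_lit 7372) (nat_lit 0) (XT.nd (nat_lit 780) (nat_lit 2280) (nat_lit 0) (XT.nd (nat_lit 390) (nat_lit 0) (nat_lit 152) (XT.nd (nat_lit 156) (nat_lit 0) (nat_lit 76) (XT.nd (nat_lit 78) (nat_lit 0) (nat_lit 0) (XT.lf (nat_lit 0) (nat_lit 2699033121) (nat_lit 1748) (nat_lit 11856338784) (nat_lit 1824) (nat_lit 3774606957) (nat_lit 402) (nat_lit 5) (nat_lit 425) (nat_lit 5) (nat_lit 426) (nat_lit 5) (nat_lit 459) (nat_lit 452) (nat_lit 229)) (XT.lf (nat_lit 0) (nat_lit 3323693273) (nat_lit 1748) (nat_lit 2998927366) (nat_lit 1824) (nat_lit 12191341381) (nat_lit 402) (nat_lit 5) (nat_lit 425) (nat_lit 5) (nat_lit 426) (nat_lit 5) (nat_lit 460) (nat_lit 452) (nat_lit 228))) (XT.nd (nat_lit 78) (nat_lit 0) (nat_lit 0) (XT.lf (nat_lit 0) (nat_lit 4009180382) (nat_lit 1748) (nat_lit 12602023424) (nat_lit 1824) (nat_lit 2089456529) (nat_lit 403) (nat_lit 5) (nat_lit 426)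 (nat_lit 5) (nat_lit 427) (nat_lit 5) (nat_lit 461) (nat_lit 452) (nat_lit 227)) (XT.nd (nat_lit 78) (nat_lit 0) (nat_lit 76) (XT.lf (nat_lit 0) (nat_lit 4765498504) (nat_lit 1748) (nat_lit 3517128150) (nat_lit 1824) (nat_lit 10607325665) (nat_lit 403) (nat_lit 5) (nat_lit 426) (nat_lit 5) (nat_lit 427) (nat_lit 5) (nat_lit 462) (nat_lit 452) (nat_lit 226)) (XT.lf (nat_lit 0) (nat_lit 5571479161) (nat_lit 1748) (nat_lit 13261358928) (nat_lit 1824) (nat_lit 249503415) (nat_lit 404) (nat_lit 5) (nat_lit 427) (nat_lit 5) (nat_lit 428) (nat_lit 5) (nat_lit 463) (nat_lit 452) (nat_lit 225))))) (XT.nd (nat_lit 156) (nat_lit 0) (nat_lit 76) (XT.nd (nat_lit 78) (nat_lit 0) (nat_lit 0) (XT.lf (nat_lit 0) (nat_lit 6467366222) (nat_lit 1748) (nat_lit 3942845567) (nat_lit 1824) (nat_lit 8866892993) (nat_lit 404) (nat_lit 5) (nat_lit 427) (nat_lit 5) (nat_lit 428) (nat_lit 5) (nat_lit 464) (nat_lit 452) (nat_lit 224)) (XT.lf (nat_lit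 76) (nat_lit 5632713969) (nat_lit 0) (nat_lit 1780299814) (nat_lit 1824) (nat_lit 12062114691) (nat_lit 405) (nat_lit 5) (nat_lit 404) (nat_lit 5) (nat_lit 428) (nat_lit 5) (nat_lit 465) (nat_lit 452) (nat_lit 223))) (XT.nd (nat_lit 78) (nat_lit 0) (nat_lit 0) (XT.lf (nat_lit 0) (nat_lit 8445154075) (nat_lit 1748) (nat_lit 4272402340) (nat_lit 1824) (nat_lit 6958206596) (nat_lit 405) (nat_lit 5) (nat_lit 428) (nat_lit 5) (nat_lit 429) (nat_lit 5) (nat_lit 466) (nat_lit 452) (nat_lit 222)) (XT.nd (nat_lit 78) (nat_lit 0) (nat_lit 76) (XT.lf (nat_lit 76) (nat_lit 5546749159) (nat_lit 0) (nat_lit 3994435505) (nat_lit 1824) (nat_lit 10338362548) (nat_lit 406) (nat_lit 5) (nat_lit 405) (nat_lit 5) (nat_lit 429) (nat_lit 5) (nat_lit 467) (nat_lit 452) (nat_lit 221)) (XT.lf (nat_lit 0) (nat_lit 10715351503) (nat_lit 1748) (nat_lit 4501957131) (nat_lit 1824) (nat_lit 4868976043) (nat_lit 406) (nat_lit 5) (nat_lit 429) (nat_lit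 5) (nat_lit 430) (nat_lit 5) (nat_lit 468) (nat_lit 452) (nat_lit 220)))))) (XT.nd (nat_lit 390) (nat_lit 2584) (nat_lit 0) (XT.nd (nat_lit 156) (nat_lit 0) (nat_lit 76) (XT.nd (nat_lit 78) (nat_lit 0) (nat_lit 76) (XT.lf (nat_lit 76) (nat_lit 5568852223) (nat_lit 0) (nat_lit 6402368381) (nat_lit 1824) (nat_lit 8324773757) (nat_lit 407) (nat_lit 5) (nat_lit 406) (nat_lit 5) (nat_lit 430) (nat_lit 5) (nat_lit 469) (nat_lit 452) (nat_lit 219)) (XT.lf (nat_lit 0) (nat_lit 13295107851) (nat_lit 1748) (nat_lit 4627505767) (nat_lit 1824) (nat_lit 2586428423) (nat_lit 407) (nat_lit 5) (nat_lit 430) (nat_lit 5) (nat_lit 431) (nat_lit 5) (nat_lit 470) (nat_lit 452) (nat_lit 218))) (XT.nd (nat_lit 78) (nat_lit 0) (nat_lit 76) (XT.lf (nat_lit 76) (nat_lit 5703281952) (nat_lit 0) (nat_lit 9017386371) (nat_lit 1824) (nat_lit 6004180221) (nat_lit 408) (nat_lit 5) (nat_lit 407) (nat_lit 5) (nat_lit 431) (nat_lit 5) (nat_lit 471) (nat_lit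 452) (nat_lit 217)) (XT.nd (nat_lit 78) (nat_lit 0) (nat_lit 0) (XT.lf (nat_lit 0) (nat_lit 16202261306) (nat_lit 1748) (nat_lit 4644882635) (nat_lit 1824) (nat_lit 97278555) (nat_lit 408) (nat_lit 5) (nat_lit 431) (nat_lit 5) (nat_lit 432) (nat_lit 5) (nat_lit 472) (nat_lit 452) (nat_lit 216)) (XT.lf (nat_lit 76) (nat_lit 5954464821) (nat_lit 0) (nat_lit 11853315621) (nat_lit 1824) (nat_lit 3358723310) (nat_lit 409) (nat_lit 5) (nat_lit 408) (nat_lit 5) (nat_lit 432) (nat_lit 5) (nat_lit 473) (nat_lit 452) (nat_lit 215))))) (XT.nd (nat_lit 234) (nat_lit 988) (nat_lit 0) (XT.nd (nat_lit 78) (nat_lit 1748) (nat_lit 0) (XT.lf (nat_lit 76) (nat_lit 16825536923) (nat_lit 0) (nat_lit 2647017950) (nat_lit 1824) (nat_lit 1919930539) (nat_lit 409) (nat_lit 5) (nat_lit 408) (nat_lit 5) (nat_lit 432) (nat_lit 5) (nat_lit 474) (nat_lit 452) (nat_lit 214)) (XT.nd (nat_lit 78) (nat_lit 1824) (nat_lit 0) (XT.lf (nat_lit 76) (nat_lit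 6326993428) (nat_lit 0) (nat_lit 14924552376) (nat_lit 1824) (nat_lit 369824124) (nat_lit 410) (nat_lit 5) (nat_lit 409) (nat_lit 5) (nat_lit 433) (nat_lit 5) (nat_lit 475) (nat_lit 452) (nat_lit 213)) (XT.lf (nat_lit 0) (nat_lit 1239866030) (nat_lit 1824) (nat_lit 4382375697) (nat_lit 1900) (nat_lit 16231545343) (nat_lit 385) (nat_lit 5) (nat_lit 409) (nat_lit 5) (nat_lit 410) (nat_lit 5) (nat_lit 476) (nat_lit 452) (nat_lit 212)))) (XT.nd (nat_lit 78) (nat_lit 1064) (nat_lit 0) (XT.lf (nat_lit 0) (nat_lit 2942739655) (nat_lit 1824) (nat_lit 15283609039) (nat_lit 76) (nat_lit 3863137688) (nat_lit 386) (nat_lit 5) (nat_lit 410) (nat_lit 5) (nat_lit 387) (nat_lit 5) (nat_lit 477) (nat_lit 452) (nat_lit 211)) (XT.nd (nat_lit 78) (nat_lit 1064) (nat_lit 0) (XT.lf (nat_lit 0) (nat_lit 4742730229) (nat_lit 1824) (nat_lit 4092714968) (nat_lit 76) (nat_lit 13493194811) (nat_lit 386) (nat_lit 5) (nat_lit 410) (nat_lit 5) (nat_lit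 387) (nat_lit 5) (nat_lit 478) (nat_lit 452) (nat_lit 210)) (XT.lf (nat_lit 0) (nat_lit 6628315772) (nat_lit 1140) (nat_lit 15160788156) (nat_lit 76) (nat_lit 782482366) (nat_lit 372) (nat_lit 5) (nat_lit 387) (nat_lit 5) (nat_lit 373) (nat_lit 5) (nat_lit 479) (nat_lit 452) (nat_lit 209))))))) (XT.nd (nat_lit 780) (nat_lit 3040) (nat_lit 0) (XT.nd (nat_lit 390) (nat_lit 2584) (nat_lit 0) (XT.nd (nat_lit 156) (nat_lit 836) (nat_lit 0) (XT.nd (nat_lit 78) (nat_lit 912) (nat_lit 0) (XT.lf (nat_lit 0) (nat_lit 8634124285) (nat_lit 1140) (nat_lit 3680944786) (nat_lit 76) (nat_lit 10502673670) (nat_lit 372) (nat_lit 5) (nat_lit 387) (nat_lit 5) (nat_lit 373) (nat_lit 5) (nat_lit 480) (nat_lit 452) (nat_lit 208)) (XT.lf (nat_lit 0) (nat_lit 8131944288) (nat_lit 912) (nat_lit 2597326405) (nat_lit 988) (nat_lit 12338568621) (nat_lit 360) (nat_lit 5) (nat_lit 372) (nat_lit 5) (nat_lit 373) (nat_lit 5) (nat_lit 481) (nat_lit 452)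 (nat_lit 207))) (XT.nd (nat_lit 78) (nat_lit 836) (nat_lit 0) (XT.lf (nat_lit 0) (nat_lit 12935152485) (nat_lit 988) (nat_lit 3142368587) (nat_lit 76) (nat_lit 7244041499) (nat_lit 360) (nat_lit 5) (nat_lit 373) (nat_lit 5) (nat_lit 361) (nat_lit 5) (nat_lit 482) (nat_lit 452) (nat_lit 206)) (XT.nd (nat_lit 78) (nat_lit 0) (nat_lit 0) (XT.lf (nat_lit 0) (nat_lit 8984468125) (nat_lit 836) (nat_lit 6272762310) (nat_lit 912) (nat_lit 8321689665) (nat_lit 349) (nat_lit 5) (nat_lit 360) (nat_lit 5) (nat_lit 361) (nat_lit 5) (nat_lit 483) (nat_lit 452) (nat_lit 205)) (XT.lf (nat_lit 0) (nat_lit 17667775044) (nat_lit 912) (nat_lit 2472153112) (nat_lit 76) (nat_lit 3700657469) (nat_lit 349) (nat_lit 5) (nat_lit 361) (nat_lit 5) (nat_lit 350) (nat_lit 5) (nat_lit 484) (nat_lit 452) (nat_lit 204))))) (XT.nd (nat_lit 156) (nat_lit 1748) (nat_lit 0) (XT.nd (nat_lit 78) (nat_lit 0) (nat_lit 0) (XT.lf (nat_lit 0) (nat_lit 9978744475)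 (nat_lit 836) (nat_lit 10250776229) (nat_lit 912) (nat_lit 3875905276) (nat_lit 338) (nat_lit 5) (nat_lit 349) (nat_lit 5) (nat_lit 350) (nat_lit 5) (nat_lit 485) (nat_lit 452) (nat_lit 203)) (XT.lf (nat_lit 0) (nat_lit 22709012805) (nat_lit 836) (nat_lit 146782967) (nat_lit 912) (nat_lit 1519502778) (nat_lit 338) (nat_lit 5) (nat_lit 349) (nat_lit 5) (nat_lit 350) (nat_lit 5) (nat_lit 486) (nat_lit 452) (nat_lit 202))) (XT.nd (nat_lit 78) (nat_lit 836) (nat_lit 0) (XT.lf (nat_lit 0) (nat_lit 1008255931) (nat_lit 912) (nat_lit 13534468882) (nat_lit 76) (nat_lit 10105013763) (nat_lit 326) (nat_lit 5) (nat_lit 338) (nat_lit 5) (nat_lit 327) (nat_lit 5) (nat_lit 487) (nat_lit 452) (nat_lit 201)) (XT.nd (nat_lit 78) (nat_lit 836) (nat_lit 0) (XT.lf (nat_lit 0) (nat_lit 3575261584) (nat_lit 912) (nat_lit 768695426) (nat_lit 76) (nat_lit 20581289977) (nat_lit 326) (nat_lit 5) (nat_lit 338) (nat_lit 5) (nat_lit 327) (nat_lit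 5) (nat_lit 488) (nat_lit 452) (nat_lit 200)) (XT.lf (nat_lit 0) (nat_lit 6310920185) (nat_lit 912) (nat_lit 12834572901) (nat_lit 76) (nat_lit 6060467422) (nat_lit 315) (nat_lit 5) (nat_lit 327) (nat_lit 5) (nat_lit 316) (nat_lit 5) (nat_lit 489) (nat_lit 452) (nat_lit 199)))))) (XT.nd (nat_lit 468) (nat_lit 836) (nat_lit 0) (XT.nd (nat_lit 156) (nat_lit 1444) (nat_lit 0) (XT.nd (nat_lit 78) (nat_lit 0) (nat_lit 0) (XT.lf (nat_lit 0) (nat_lit 264001330) (nat_lit 760) (nat_lit 8869860724) (nat_lit 836) (nat_lit 16357776018) (nat_lit 305) (nat_lit 5) (nat_lit 315) (nat_lit 5) (nat_lit 316) (nat_lit 5) (nat_lit 490) (nat_lit 452) (nat_lit 198)) (XT.lf (nat_lit 0) (nat_lit 12107356912) (nat_lit 836) (nat_lit 11997022612) (nat_lit 76) (nat_lit 1676768931) (nat_lit 305) (nat_lit 5) (nat_lit 316) (nat_lit 5) (nat_lit 306) (nat_lit 5) (nat_lit 491) (nat_lit 452) (nat_lit 197))) (XT.nd (nat_lit 78) (nat_lit 684) (nat_lit 0)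 (XT.lf (nat_lit 0) (nat_lit 1455406688) (nat_lit 760) (nat_lit 13750100839) (nat_lit 836) (nat_lit 10869638931) (nat_lit 295) (nat_lit 5) (nat_lit 305) (nat_lit 5) (nat_lit 306) (nat_lit 5) (nat_lit 492) (nat_lit 452) (nat_lit 196)) (XT.nd (nat_lit 78) (nat_lit 684) (nat_lit 0) (XT.lf (nat_lit 0) (nat_lit 15336383826) (nat_lit 760) (nat_lit 3106777891) (nat_lit 836) (nat_lit 7930312999) (nat_lit 295) (nat_lit 5) (nat_lit 305) (nat_lit 5) (nat_lit 306) (nat_lit 5) (nat_lit 493) (nat_lit 452) (nat_lit 195)) (XT.lf (nat_lit 0) (nat_lit 2800505244) (nat_lit 684) (nat_lit 19010652178) (nat_lit 760) (nat_lit 4865301432) (nat_lit 286) (nat_lit 5) (nat_lit 295) (nat_lit 5) (nat_lit 296) (nat_lit 5) (nat_lit 494) (nat_lit 452) (nat_lit 194))))) (XT.nd (nat_lit 56160) (nat_lit 0) (nat_lit 9424) (XT.nd (nat_lit 56004) (nat_lit 0) (nat_lit 9424) (XT.lf (nat_lit 0) (nat_lit 1659637593) (nat_lit 836) (nat_lit 23002517252) (nat_lit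 76) (nat_lit 2633811306) (nat_lit 275) (nat_lit 5) (nat_lit 286) (nat_lit 5) (nat_lit 276) (nat_lit 5) (nat_lit 496) (nat_lit 452) (nat_lit 192)) (XT.nd (nat_lit 78) (nat_lit 0) (nat_lit 0) (XT.lf (nat_lit 0) (nat_lit 75367233) (nat_lit 0) (nat_lit 75367233) (nat_lit 1748) (nat_lit 8573494284) (nat_lit 399) (nat_lit 5) (nat_lit 399) (nat_lit 3) (nat_lit 422) (nat_lit 3) (nat_lit 453) (nat_lit 453) (nat_lit 234)) (XT.lf (nat_lit 0) (nat_lit 571694040) (nat_lit 1748) (nat_lit 9088290951) (nat_lit 1824) (nat_lit 7957521557) (nat_lit 399) (nat_lit 5) (nat_lit 422) (nat_lit 3) (nat_lit 423) (nat_lit 5) (nat_lit 454) (nat_lit 453) (nat_lit 233)))) (XT.nd (nat_lit 78) (nat_lit 0) (nat_lit 76) (XT.lf (nat_lit 0) (nat_lit 842704373) (nat_lit 1748) (nat_lit 718619780) (nat_lit 1824) (nat_lit 16228707204) (nat_lit 399) (nat_lit 5) (nat_lit 422) (nat_lit 3) (nat_lit 423) (nat_lit 5) (nat_lit 455) (nat_lit 453) (nat_lit 232)) (XT.nd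 (nat_lit 78) (nat_lit 0) (nat_lit 0) (XT.lf (nat_lit 0) (nat_lit 1208899499) (nat_lit 1748) (nat_lit 10089528712) (nat_lit 1824) (nat_lit 6665785506) (nat_lit 400) (nat_lit 5) (nat_lit 423) (nat_lit 5) (nat_lit 424) (nat_lit 5) (nat_lit 456) (nat_lit 453) (nat_lit 231)) (XT.lf (nat_lit 0) (nat_lit 1592211148) (nat_lit 1748) (nat_lit 1505559728) (nat_lit 1824) (nat_lit 15043915300) (nat_lit 400) (nat_lit 5) (nat_lit 423) (nat_lit 5) (nat_lit 424) (nat_lit 5) (nat_lit 457) (nat_lit 453) (nat_lit 230))))))))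
noncomputable def xc241 : XT := (XT.nd (nat_lit 1638) (nat_lit 7524) (nat_lit 0) (XT.nd (nat_lit 780) (nat_lit 1216) (nat_lit 0) (XT.nd (nat_lit 390) (nat_lit 0) (nat_lit 152) (XT.nd (nat_lit 156) (nat_lit 0) (nat_lit 76) (XT.nd (nat_lit 78) (nat_lit 0) (nat_lit 0) (XT.lf (nat_lit 0) (nat_lit 2060099241) (nat_lit 1748) (nat_lit 11012933257) (nat_lit 1824) (nat_lit 5248139638) (nat_lit 401) (nat_lit 5) (nat_lit 424) (nat_lit 5) (nat_lit 425) (nat_lit 5) (nat_lit 458) (nat_lit 453) (nat_lit 229)) (XT.lf (nat_lit 0) (nat_lit 2562834232) (nat_lit 1748) (nat_lit 2208950634) (nat_lit 1824) (nat_lit 13731955380) (nat_lit 401) (nat_lit 5) (nat_lit 424) (nat_lit 5) (nat_lit 425) (nat_lit 5) (nat_lit 459) (nat_lit 453) (nat_lit 228))) (XT.nd (nat_lit 78) (nat_lit 0) (nat_lit 0) (XT.lf (nat_lit 0) (nat_lit 3139359176) (nat_lit 1748) (nat_lit 11855403827) (nat_lit 1824) (nat_lit 3693924179) (nat_lit 402) (nat_lit 5) (nat_lit 425)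 (nat_lit 5) (nat_lit 426) (nat_lit 5) (nat_lit 460) (nat_lit 453) (nat_lit 227)) (XT.nd (nat_lit 78) (nat_lit 0) (nat_lit 76) (XT.lf (nat_lit 0) (nat_lit 3768937132) (nat_lit 1748) (nat_lit 2825512058) (nat_lit 1824) (nat_lit 12282055544) (nat_lit 402) (nat_lit 5) (nat_lit 425) (nat_lit 5) (nat_lit 426) (nat_lit 5) (nat_lit 461) (nat_lit 453) (nat_lit 226)) (XT.lf (nat_lit 0) (nat_lit 4461297098) (nat_lit 1748) (nat_lit 12613675184) (nat_lit 1824) (nat_lit 1992104631) (nat_lit 403) (nat_lit 5) (nat_lit 426) (nat_lit 5) (nat_lit 427) (nat_lit 5) (nat_lit 462) (nat_lit 453) (nat_lit 225))))) (XT.nd (nat_lit 156) (nat_lit 0) (nat_lit 76) (XT.nd (nat_lit 78) (nat_lit 0) (nat_lit 76) (XT.lf (nat_lit 0) (nat_lit 5225448776) (nat_lit 1748) (nat_lit 3351795508) (nat_lit 1824) (nat_lit 10683059405) (nat_lit 403) (nat_lit 5) (nat_lit 426) (nat_lit 5) (nat_lit 427) (nat_lit 5) (nat_lit 463) (nat_lit 453) (nat_lit 224)) (XT.lf (nat_lit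 0) (nat_lit 6041108487) (nat_lit 1748) (nat_lit 13284318510) (nat_lit 1824) (nat_lit 131245509) (nat_lit 404) (nat_lit 5) (nat_lit 427) (nat_lit 5) (nat_lit 428) (nat_lit 5) (nat_lit 464) (nat_lit 453) (nat_lit 223))) (XT.nd (nat_lit 78) (nat_lit 0) (nat_lit 0) (XT.lf (nat_lit 0) (nat_lit 6947889765) (nat_lit 1748) (nat_lit 3784185227) (nat_lit 1824) (nat_lit 8923399506) (nat_lit 404) (nat_lit 5) (nat_lit 427) (nat_lit 5) (nat_lit 428) (nat_lit 5) (nat_lit 465) (nat_lit 453) (nat_lit 222)) (XT.nd (nat_lit 78) (nat_lit 0) (nat_lit 76) (XT.lf (nat_lit 76) (nat_lit 5981322887) (nat_lit 0) (nat_lit 1925773556) (nat_lit 1824) (nat_lit 11950472216) (nat_lit 405) (nat_lit 5) (nat_lit 404) (nat_lit 5) (nat_lit 428) (nat_lit 5) (nat_lit 466) (nat_lit 453) (nat_lit 221)) (XT.lf (nat_lit 0) (nat_lit 8952399362) (nat_lit 1748) (nat_lit 4118899055) (nat_lit 1824) (nat_lit 6991069933) (nat_lit 405) (nat_lit 5) (nat_lit 428) (nat_lit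 5) (nat_lit 429) (nat_lit 5) (nat_lit 467) (nat_lit 453) (nat_lit 220)))))) (XT.nd (nat_lit 390) (nat_lit 1520) (nat_lit 0) (XT.nd (nat_lit 156) (nat_lit 0) (nat_lit 76) (XT.nd (nat_lit 78) (nat_lit 0) (nat_lit 76) (XT.lf (nat_lit 76) (nat_lit 5895063426) (nat_lit 0) (nat_lit 4170194201) (nat_lit 1824) (nat_lit 10205075275) (nat_lit 406) (nat_lit 5) (nat_lit 405) (nat_lit 5) (nat_lit 429) (nat_lit 5) (nat_lit 468) (nat_lit 453) (nat_lit 219)) (XT.lf (nat_lit 0) (nat_lit 11255763255) (nat_lit 1748) (nat_lit 4351989420) (nat_lit 1824) (nat_lit 4873598079) (nat_lit 406) (nat_lit 5) (nat_lit 429) (nat_lit 5) (nat_lit 430) (nat_lit 5) (nat_lit 469) (nat_lit 453) (nat_lit 218))) (XT.nd (nat_lit 78) (nat_lit 0) (nat_lit 76) (XT.lf (nat_lit 76) (nat_lit 5918657129) (nat_lit 0) (nat_lit 6613246432) (nat_lit 1824) (nat_lit 8163450694) (nat_lit 407) (nat_lit 5) (nat_lit 406) (nat_lit 5) (nat_lit 430) (nat_lit 5) (nat_lit 470) (nat_lit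 453) (nat_lit 217)) (XT.nd (nat_lit 78) (nat_lit 0) (nat_lit 0) (XT.lf (nat_lit 0) (nat_lit 13875442118) (nat_lit 1748) (nat_lit 4479344464) (nat_lit 1824) (nat_lit 2558015477) (nat_lit 407) (nat_lit 5) (nat_lit 430) (nat_lit 5) (nat_lit 431) (nat_lit 5) (nat_lit 471) (nat_lit 453) (nat_lit 216)) (XT.lf (nat_lit 76) (nat_lit 6056475382) (nat_lit 0) (nat_lit 9268425658) (nat_lit 1824) (nat_lit 5808118499) (nat_lit 408) (nat_lit 5) (nat_lit 407) (nat_lit 5) (nat_lit 431) (nat_lit 5) (nat_lit 472) (nat_lit 453) (nat_lit 215))))) (XT.nd (nat_lit 234) (nat_lit 1748) (nat_lit 0) (XT.nd (nat_lit 78) (nat_lit 0) (nat_lit 0) (XT.lf (nat_lit 0) (nat_lit 16829601017) (nat_lit 1748) (nat_lit 4496689363) (nat_lit 1824) (nat_lit 30827629) (nat_lit 408) (nat_lit 5) (nat_lit 431) (nat_lit 5) (nat_lit 432) (nat_lit 5) (nat_lit 473) (nat_lit 453) (nat_lit 214)) (XT.nd (nat_lit 78) (nat_lit 0) (nat_lit 0) (XT.lf (nat_lit 76) (nat_lit 6313058917)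 (nat_lit 0) (nat_lit 12149779692) (nat_lit 1824) (nat_lit 3120892611) (nat_lit 409) (nat_lit 5) (nat_lit 408) (nat_lit 5) (nat_lit 432) (nat_lit 5) (nat_lit 474) (nat_lit 453) (nat_lit 213)) (XT.lf (nat_lit 76) (nat_lit 17396856289) (nat_lit 0) (nat_lit 2758191405) (nat_lit 1824) (nat_lit 1659304477) (nat_lit 409) (nat_lit 5) (nat_lit 408) (nat_lit 5) (nat_lit 432) (nat_lit 5) (nat_lit 475) (nat_lit 453) (nat_lit 212)))) (XT.nd (nat_lit 78) (nat_lit 1824) (nat_lit 0) (XT.lf (nat_lit 76) (nat_lit 6693116318) (nat_lit 0) (nat_lit 15271941067) (nat_lit 1824) (nat_lit 82850609) (nat_lit 410) (nat_lit 5) (nat_lit 409) (nat_lit 5) (nat_lit 433) (nat_lit 5) (nat_lit 476) (nat_lit 453) (nat_lit 211)) (XT.nd (nat_lit 78) (nat_lit 0) (nat_lit 76) (XT.lf (nat_lit 0) (nat_lit 1549476373) (nat_lit 1824) (nat_lit 4231237810) (nat_lit 1900) (nat_lit 16504337297) (nat_lit 385) (nat_lit 5) (nat_lit 409) (nat_lit 5) (nat_lit 410) (nat_lit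 5) (nat_lit 477) (nat_lit 453) (nat_lit 210)) (XT.lf (nat_lit 0) (nat_lit 3282080272) (nat_lit 1824) (nat_lit 15346055806) (nat_lit 76) (nat_lit 3897417500) (nat_lit 386) (nat_lit 5) (nat_lit 410) (nat_lit 5) (nat_lit 387) (nat_lit 5) (nat_lit 478) (nat_lit 453) (nat_lit 209))))))) (XT.nd (nat_lit 858) (nat_lit 3040) (nat_lit 0) (XT.nd (nat_lit 390) (nat_lit 2584) (nat_lit 0) (XT.nd (nat_lit 156) (nat_lit 912) (nat_lit 0) (XT.nd (nat_lit 78) (nat_lit 1064) (nat_lit 0) (XT.lf (nat_lit 0) (nat_lit 5112570936) (nat_lit 1824) (nat_lit 3936112980) (nat_lit 76) (nat_lit 13720918569) (nat_lit 386) (nat_lit 5) (nat_lit 410) (nat_lit 5) (nat_lit 387) (nat_lit 5) (nat_lit 479) (nat_lit 453) (nat_lit 208)) (XT.lf (nat_lit 0) (nat_lit 7031791996) (nat_lit 1140) (nat_lit 15221363005) (nat_lit 76) (nat_lit 764336387) (nat_lit 372) (nat_lit 5) (nat_lit 387) (nat_lit 5) (nat_lit 373) (nat_lit 5) (nat_lit 480) (nat_lit 453) (nat_lit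 207))) (XT.nd (nat_lit 78) (nat_lit 912) (nat_lit 0) (XT.lf (nat_lit 0) (nat_lit 9072404720) (nat_lit 1140) (nat_lit 3516680432) (nat_lit 76) (nat_lit 10679594177) (nat_lit 372) (nat_lit 5) (nat_lit 387) (nat_lit 5) (nat_lit 373) (nat_lit 5) (nat_lit 481) (nat_lit 453) (nat_lit 206)) (XT.nd (nat_lit 78) (nat_lit 0) (nat_lit 0) (XT.lf (nat_lit 0) (nat_lit 8530901401) (nat_lit 912) (nat_lit 2674879186) (nat_lit 988) (nat_lit 12318072799) (nat_lit 360) (nat_lit 5) (nat_lit 372) (nat_lit 5) (nat_lit 373) (nat_lit 5) (nat_lit 482) (nat_lit 453) (nat_lit 205)) (XT.lf (nat_lit 0) (nat_lit 13450481249) (nat_lit 988) (nat_lit 2968130474) (nat_lit 76) (nat_lit 7364147405) (nat_lit 360) (nat_lit 5) (nat_lit 373) (nat_lit 5) (nat_lit 361) (nat_lit 5) (nat_lit 483) (nat_lit 453) (nat_lit 204))))) (XT.nd (nat_lit 234) (nat_lit 912) (nat_lit 0) (XT.nd (nat_lit 78) (nat_lit 836) (nat_lit 0) (XT.lf (nat_lit 0) (nat_lit 9399683198) (nat_lit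 836) (nat_lit 6415814872) (nat_lit 912) (nat_lit 8229837794) (nat_lit 349) (nat_lit 5) (nat_lit 360) (nat_lit 5) (nat_lit 361) (nat_lit 5) (nat_lit 484) (nat_lit 453) (nat_lit 203)) (XT.nd (nat_lit 78) (nat_lit 836) (nat_lit 0) (XT.lf (nat_lit 0) (nat_lit 18269178362) (nat_lit 912) (nat_lit 2285515193) (nat_lit 76) (nat_lit 3757644614) (nat_lit 349) (nat_lit 5) (nat_lit 361) (nat_lit 5) (nat_lit 350) (nat_lit 5) (nat_lit 485) (nat_lit 453) (nat_lit 202)) (XT.lf (nat_lit 0) (nat_lit 10412847181) (nat_lit 836) (nat_lit 10465970781) (nat_lit 912) (nat_lit 3703726114) (nat_lit 338) (nat_lit 5) (nat_lit 349) (nat_lit 5) (nat_lit 350) (nat_lit 5) (nat_lit 486) (nat_lit 453) (nat_lit 201)))) (XT.nd (nat_lit 78) (nat_lit 912) (nat_lit 0) (XT.lf (nat_lit 0) (nat_lit 23393122294) (nat_lit 836) (nat_lit 159698065) (nat_lit 912) (nat_lit 1305091591) (nat_lit 338) (nat_lit 5) (nat_lit 349) (nat_lit 5) (nat_lit 350) (nat_lit 5) (nat_lit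 487) (nat_lit 453) (nat_lit 200)) (XT.nd (nat_lit 78) (nat_lit 0) (nat_lit 0) (XT.lf (nat_lit 0) (nat_lit 1266735704) (nat_lit 912) (nat_lit 13568559161) (nat_lit 76) (nat_lit 10300541456) (nat_lit 326) (nat_lit 5) (nat_lit 338) (nat_lit 5) (nat_lit 327) (nat_lit 5) (nat_lit 488) (nat_lit 453) (nat_lit 199)) (XT.lf (nat_lit 0) (nat_lit 3880408634) (nat_lit 912) (nat_lit 552109433) (nat_lit 76) (nat_lit 20986472070) (nat_lit 326) (nat_lit 5) (nat_lit 338) (nat_lit 5) (nat_lit 327) (nat_lit 5) (nat_lit 489) (nat_lit 453) (nat_lit 198)))))) (XT.nd (nat_lit 390) (nat_lit 684) (nat_lit 0) (XT.nd (nat_lit 156) (nat_lit 760) (nat_lit 0) (XT.nd (nat_lit 78) (nat_lit 760) (nat_lit 0) (XT.lf (nat_lit 0) (nat_lit 6667694527) (nat_lit 912) (nat_lit 12856131368) (nat_lit 76) (nat_lit 6181555495) (nat_lit 315) (nat_lit 5) (nat_lit 327) (nat_lit 5) (nat_lit 316) (nat_lit 5) (nat_lit 490) (nat_lit 453) (nat_lit 197)) (XT.lf (nat_lit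 0) (nat_lit 502867420) (nat_lit 760) (nat_lit 9041223705) (nat_lit 836) (nat_lit 16452743173) (nat_lit 305) (nat_lit 5) (nat_lit 315) (nat_lit 5) (nat_lit 316) (nat_lit 5) (nat_lit 491) (nat_lit 453) (nat_lit 196))) (XT.nd (nat_lit 78) (nat_lit 760) (nat_lit 0) (XT.lf (nat_lit 0) (nat_lit 12572632489) (nat_lit 836) (nat_lit 12003449907) (nat_lit 76) (nat_lit 1716142638) (nat_lit 305) (nat_lit 5) (nat_lit 316) (nat_lit 5) (nat_lit 306) (nat_lit 5) (nat_lit 492) (nat_lit 453) (nat_lit 195)) (XT.nd (nat_lit 78) (nat_lit 0) (nat_lit 0) (XT.lf (nat_lit 0) (nat_lit 1716491709) (nat_lit 760) (nat_lit 14013385488) (nat_lit 836) (nat_lit 10862284821) (nat_lit 295) (nat_lit 5) (nat_lit 305) (nat_lit 5) (nat_lit 306) (nat_lit 5) (nat_lit 493) (nat_lit 453) (nat_lit 194)) (XT.lf (nat_lit 0) (nat_lit 15870539823) (nat_lit 760) (nat_lit 3157425833) (nat_lit 836) (nat_lit 7868579171) (nat_lit 295) (nat_lit 5) (nat_lit 305) (nat_lit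 5) (nat_lit 306) (nat_lit 5) (nat_lit 494) (nat_lit 453) (nat_lit 193))))) (XT.nd (nat_lit 56238) (nat_lit 0) (nat_lit 8588) (XT.nd (nat_lit 78) (nat_lit 0) (nat_lit 0) (XT.lf (nat_lit 0) (nat_lit 3086743775) (nat_lit 684) (nat_lit 19373911288) (nat_lit 760) (nat_lit 4744988491) (nat_lit 286) (nat_lit 5) (nat_lit 295) (nat_lit 5) (nat_lit 296) (nat_lit 5) (nat_lit 495) (nat_lit 453) (nat_lit 192)) (XT.nd (nat_lit 56082) (nat_lit 0) (nat_lit 8588) (XT.lf (nat_lit 0) (nat_lit 17607040314) (nat_lit 684) (nat_lit 8446960570) (nat_lit 760) (nat_lit 1465084340) (nat_lit 286) (nat_lit 5) (nat_lit 295) (nat_lit 5) (nat_lit 296) (nat_lit 5) (nat_lit 496) (nat_lit 453) (nat_lit 191)) (XT.lf (nat_lit 0) (nat_lit 183606227) (nat_lit 0) (nat_lit 183606227) (nat_lit 1748) (nat_lit 8527140879) (nat_lit 399) (nat_lit 5) (nat_lit 399) (nat_lit 3) (nat_lit 422) (nat_lit 3) (nat_lit 454) (nat_lit 454) (nat_lit 232)))) (XT.nd (nat_lit 78)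 (nat_lit 0) (nat_lit 0) (XT.lf (nat_lit 0) (nat_lit 1000324636) (nat_lit 1748) (nat_lit 9050871251) (nat_lit 1824) (nat_lit 7910138961) (nat_lit 399) (nat_lit 5) (nat_lit 422) (nat_lit 3) (nat_lit 423) (nat_lit 5) (nat_lit 455) (nat_lit 454) (nat_lit 231)) (XT.nd (nat_lit 78) (nat_lit 0) (nat_lit 76) (XT.lf (nat_lit 0) (nat_lit 1268574848) (nat_lit 1748) (nat_lit 518104411) (nat_lit 1824) (nat_lit 16350797988) (nat_lit 399) (nat_lit 5) (nat_lit 422) (nat_lit 3) (nat_lit 423) (nat_lit 5) (nat_lit 456) (nat_lit 454) (nat_lit 230)) (XT.lf (nat_lit 0) (nat_lit 1634233443) (nat_lit 1748) (nat_lit 10068400100) (nat_lit 1824) (nat_lit 6612670340) (nat_lit 400) (nat_lit 5) (nat_lit 423) (nat_lit 5) (nat_lit 424) (nat_lit 5) (nat_lit 457) (nat_lit 454) (nat_lit 229))))))))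
noncomputable def xc242 : XT := (XT.nd (nat_lit 1638) (nat_lit 6840) (nat_lit 0) (XT.nd (nat_lit 780) (nat_lit 1140) (nat_lit 0) (XT.nd (nat_lit 390) (nat_lit 0) (nat_lit 228) (XT.nd (nat_lit 156) (nat_lit 0) (nat_lit 76) (XT.nd (nat_lit 78) (nat_lit 0) (nat_lit 76) (XT.lf (nat_lit 0) (nat_lit 2017345522) (nat_lit 1748) (nat_lit 1317122701) (nat_lit 1824) (nat_lit 15162018237) (nat_lit 400) (nat_lit 5) (nat_lit 423) (nat_lit 5) (nat_lit 424) (nat_lit 5) (nat_lit 458) (nat_lit 454) (nat_lit 228)) (XT.lf (nat_lit 0) (nat_lit 2487186471) (nat_lit 1748) (nat_lit 11007074445) (nat_lit 1824) (nat_lit 5185452608) (nat_lit 401) (nat_lit 5) (nat_lit 424) (nat_lit 5) (nat_lit 425) (nat_lit 5) (nat_lit 459) (nat_lit 454) (nat_lit 227))) (XT.nd (nat_lit 78) (nat_lit 0) (nat_lit 76) (XT.lf (nat_lit 0) (nat_lit 2992409784) (nat_lit 1748) (nat_lit 2031445845) (nat_lit 1824) (nat_lit 13842231917) (nat_lit 401) (nat_lit 5) (nat_lit 424)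 (nat_lit 5) (nat_lit 425) (nat_lit 5) (nat_lit 460) (nat_lit 454) (nat_lit 226)) (XT.nd (nat_lit 78) (nat_lit 0) (nat_lit 0) (XT.lf (nat_lit 0) (nat_lit 3573489491) (nat_lit 1748) (nat_lit 11863694398) (nat_lit 1824) (nat_lit 3617692206) (nat_lit 402) (nat_lit 5) (nat_lit 425) (nat_lit 5) (nat_lit 426) (nat_lit 5) (nat_lit 461) (nat_lit 454) (nat_lit 225)) (XT.lf (nat_lit 0) (nat_lit 4208377768) (nat_lit 1748) (nat_lit 2657691412) (nat_lit 1824) (nat_lit 12380529541) (nat_lit 402) (nat_lit 5) (nat_lit 425) (nat_lit 5) (nat_lit 426) (nat_lit 5) (nat_lit 462) (nat_lit 454) (nat_lit 224))))) (XT.nd (nat_lit 156) (nat_lit 0) (nat_lit 76) (XT.nd (nat_lit 78) (nat_lit 0) (nat_lit 0) (XT.lf (nat_lit 0) (nat_lit 4908013531) (nat_lit 1748) (nat_lit 12634894566) (nat_lit 1824) (nat_lit 1898208711) (nat_lit 403) (nat_lit 5) (nat_lit 426) (nat_lit 5) (nat_lit 427) (nat_lit 5) (nat_lit 463) (nat_lit 454) (nat_lit 223)) (XT.lf (nat_lit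 0) (nat_lit 5680438626) (nat_lit 1748) (nat_lit 3192307770) (nat_lit 1824) (nat_lit 10765604895) (nat_lit 403) (nat_lit 5) (nat_lit 426) (nat_lit 5) (nat_lit 427) (nat_lit 5) (nat_lit 464) (nat_lit 454) (nat_lit 222))) (XT.nd (nat_lit 78) (nat_lit 0) (nat_lit 0) (XT.lf (nat_lit 0) (nat_lit 6506221067) (nat_lit 1748) (nat_lit 13317144829) (nat_lit 1824) (nat_lit 15408314) (nat_lit 404) (nat_lit 5) (nat_lit 427) (nat_lit 5) (nat_lit 428) (nat_lit 5) (nat_lit 465) (nat_lit 454) (nat_lit 221)) (XT.nd (nat_lit 78) (nat_lit 0) (nat_lit 0) (XT.lf (nat_lit 0) (nat_lit 7424387178) (nat_lit 1748) (nat_lit 3631574764) (nat_lit 1824) (nat_lit 8985728177) (nat_lit 404) (nat_lit 5) (nat_lit 427) (nat_lit 5) (nat_lit 428) (nat_lit 5) (nat_lit 466) (nat_lit 454) (nat_lit 220)) (XT.lf (nat_lit 76) (nat_lit 6327741577) (nat_lit 0) (nat_lit 2069890475) (nat_lit 1824) (nat_lit 11850299836) (nat_lit 405) (nat_lit 5) (nat_lit 404) (nat_lit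 5) (nat_lit 428) (nat_lit 5) (nat_lit 467) (nat_lit 454) (nat_lit 219)))))) (XT.nd (nat_lit 390) (nat_lit 1520) (nat_lit 0) (XT.nd (nat_lit 156) (nat_lit 0) (nat_lit 76) (XT.nd (nat_lit 78) (nat_lit 0) (nat_lit 0) (XT.lf (nat_lit 0) (nat_lit 9456651315) (nat_lit 1748) (nat_lit 3971604477) (nat_lit 1824) (nat_lit 7028718326) (nat_lit 405) (nat_lit 5) (nat_lit 428) (nat_lit 5) (nat_lit 429) (nat_lit 5) (nat_lit 468) (nat_lit 454) (nat_lit 218)) (XT.lf (nat_lit 76) (nat_lit 6241126250) (nat_lit 0) (nat_lit 4345745323) (nat_lit 1824) (nat_lit 10082326987) (nat_lit 406) (nat_lit 5) (nat_lit 405) (nat_lit 5) (nat_lit 429) (nat_lit 5) (nat_lit 469) (nat_lit 454) (nat_lit 217))) (XT.nd (nat_lit 78) (nat_lit 0) (nat_lit 0) (XT.lf (nat_lit 0) (nat_lit 11794320199) (nat_lit 1748) (nat_lit 4208342114) (nat_lit 1824) (nat_lit 4881914443) (nat_lit 406) (nat_lit 5) (nat_lit 429) (nat_lit 5) (nat_lit 430) (nat_lit 5) (nat_lit 470) (nat_lit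 454) (nat_lit 216)) (XT.nd (nat_lit 78) (nat_lit 0) (nat_lit 76) (XT.lf (nat_lit 76) (nat_lit 6266199688) (nat_lit 0) (nat_lit 6825125628) (nat_lit 1824) (nat_lit 8011630762) (nat_lit 407) (nat_lit 5) (nat_lit 406) (nat_lit 5) (nat_lit 430) (nat_lit 5) (nat_lit 471) (nat_lit 454) (nat_lit 215)) (XT.lf (nat_lit 0) (nat_lit 14455173289) (nat_lit 1748) (nat_lit 4337567052) (nat_lit 1824) (nat_lit 2532146266) (nat_lit 407) (nat_lit 5) (nat_lit 430) (nat_lit 5) (nat_lit 431) (nat_lit 5) (nat_lit 472) (nat_lit 454) (nat_lit 214))))) (XT.nd (nat_lit 234) (nat_lit 1672) (nat_lit 0) (XT.nd (nat_lit 78) (nat_lit 0) (nat_lit 0) (XT.lf (nat_lit 76) (nat_lit 6407447058) (nat_lit 0) (nat_lit 9521740692) (nat_lit 1824) (nat_lit 5620411851) (nat_lit 408) (nat_lit 5) (nat_lit 407) (nat_lit 5) (nat_lit 431) (nat_lit 5) (nat_lit 473) (nat_lit 454) (nat_lit 213)) (XT.nd (nat_lit 78) (nat_lit 0) (nat_lit 76) (XT.lf (nat_lit 76) (nat_lit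 17423183685) (nat_lit 0) (nat_lit 34752177) (nat_lit 1824) (nat_lit 4320367537) (nat_lit 408) (nat_lit 5) (nat_lit 407) (nat_lit 5) (nat_lit 431) (nat_lit 5) (nat_lit 474) (nat_lit 454) (nat_lit 212)) (XT.lf (nat_lit 76) (nat_lit 6669524632) (nat_lit 0) (nat_lit 12449866556) (nat_lit 1824) (nat_lit 2890149020) (nat_lit 409) (nat_lit 5) (nat_lit 408) (nat_lit 5) (nat_lit 432) (nat_lit 5) (nat_lit 475) (nat_lit 454) (nat_lit 211)))) (XT.nd (nat_lit 78) (nat_lit 1748) (nat_lit 0) (XT.lf (nat_lit 76) (nat_lit 17970484137) (nat_lit 0) (nat_lit 2869327067) (nat_lit 1824) (nat_lit 1405077387) (nat_lit 409) (nat_lit 5) (nat_lit 408) (nat_lit 5) (nat_lit 432) (nat_lit 5) (nat_lit 476) (nat_lit 454) (nat_lit 210)) (XT.nd (nat_lit 78) (nat_lit 0) (nat_lit 0) (XT.lf (nat_lit 0) (nat_lit 195829164) (nat_lit 1824) (nat_lit 15427235496) (nat_lit 1900) (nat_lit 6860115084) (nat_lit 385) (nat_lit 5) (nat_lit 409) (nat_lit 5) (nat_lit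 410) (nat_lit 5) (nat_lit 477) (nat_lit 454) (nat_lit 209)) (XT.lf (nat_lit 0) (nat_lit 1854219286) (nat_lit 1824) (nat_lit 4086349494) (nat_lit 1900) (nat_lit 16784598061) (nat_lit 385) (nat_lit 5) (nat_lit 409) (nat_lit 5) (nat_lit 410) (nat_lit 5) (nat_lit 478) (nat_lit 454) (nat_lit 208))))))) (XT.nd (nat_lit 780) (nat_lit 3268) (nat_lit 0) (XT.nd (nat_lit 390) (nat_lit 1672) (nat_lit 0) (XT.nd (nat_lit 156) (nat_lit 1976) (nat_lit 0) (XT.nd (nat_lit 78) (nat_lit 0) (nat_lit 0) (XT.lf (nat_lit 0) (nat_lit 3617316096) (nat_lit 1824) (nat_lit 15419196248) (nat_lit 76) (nat_lit 3934051988) (nat_lit 386) (nat_lit 5) (nat_lit 410) (nat_lit 5) (nat_lit 387) (nat_lit 5) (nat_lit 479) (nat_lit 454) (nat_lit 207)) (XT.lf (nat_lit 0) (nat_lit 5479130411) (nat_lit 1824) (nat_lit 3785638501) (nat_lit 76) (nat_lit 13954833154) (nat_lit 386) (nat_lit 5) (nat_lit 410) (nat_lit 5) (nat_lit 387) (nat_lit 5) (nat_lit 480) (nat_lit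 454) (nat_lit 206))) (XT.nd (nat_lit 78) (nat_lit 912) (nat_lit 0) (XT.lf (nat_lit 0) (nat_lit 7432817983) (nat_lit 1140) (nat_lit 15292571393) (nat_lit 76) (nat_lit 747139814) (nat_lit 372) (nat_lit 5) (nat_lit 387) (nat_lit 5) (nat_lit 373) (nat_lit 5) (nat_lit 481) (nat_lit 454) (nat_lit 205)) (XT.nd (nat_lit 78) (nat_lit 912) (nat_lit 0) (XT.lf (nat_lit 0) (nat_lit 9509137272) (nat_lit 1140) (nat_lit 3358368088) (nat_lit 76) (nat_lit 10861339687) (nat_lit 372) (nat_lit 5) (nat_lit 387) (nat_lit 5) (nat_lit 373) (nat_lit 5) (nat_lit 482) (nat_lit 454) (nat_lit 204)) (XT.lf (nat_lit 0) (nat_lit 8928661133) (nat_lit 912) (nat_lit 2752988701) (nat_lit 988) (nat_lit 12307545371) (nat_lit 360) (nat_lit 5) (nat_lit 372) (nat_lit 5) (nat_lit 373) (nat_lit 5) (nat_lit 483) (nat_lit 454) (nat_lit 203))))) (XT.nd (nat_lit 156) (nat_lit 836) (nat_lit 0) (XT.nd (nat_lit 78) (nat_lit 836) (nat_lit 0) (XT.lf (nat_lit 0) (nat_lit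 13966151499) (nat_lit 988) (nat_lit 2799613918) (nat_lit 76) (nat_lit 7487617469) (nat_lit 360) (nat_lit 5) (nat_lit 373) (nat_lit 5) (nat_lit 361) (nat_lit 5) (nat_lit 484) (nat_lit 454) (nat_lit 202)) (XT.lf (nat_lit 0) (nat_lit 9814056823) (nat_lit 836) (nat_lit 6561045160) (nat_lit 912) (nat_lit 8146178434) (nat_lit 349) (nat_lit 5) (nat_lit 360) (nat_lit 5) (nat_lit 361) (nat_lit 5) (nat_lit 485) (nat_lit 454) (nat_lit 201))) (XT.nd (nat_lit 78) (nat_lit 836) (nat_lit 0) (XT.lf (nat_lit 0) (nat_lit 18872977747) (nat_lit 912) (nat_lit 2104311828) (nat_lit 76) (nat_lit 3816432643) (nat_lit 349) (nat_lit 5) (nat_lit 361) (nat_lit 5) (nat_lit 350) (nat_lit 5) (nat_lit 486) (nat_lit 454) (nat_lit 200)) (XT.nd (nat_lit 78) (nat_lit 0) (nat_lit 0) (XT.lf (nat_lit 0) (nat_lit 10846524941) (nat_lit 836) (nat_lit 10685073960) (nat_lit 912) (nat_lit 3537799418) (nat_lit 338) (nat_lit 5) (nat_lit 349) (nat_lit 5) (nat_lit 350)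 (nat_lit 5) (nat_lit 487) (nat_lit 454) (nat_lit 199)) (XT.lf (nat_lit 0) (nat_lit 24081985540) (nat_lit 836) (nat_lit 172483951) (nat_lit 912) (nat_lit 1095898110) (nat_lit 338) (nat_lit 5) (nat_lit 349) (nat_lit 5) (nat_lit 350) (nat_lit 5) (nat_lit 488) (nat_lit 454) (nat_lit 198)))))) (XT.nd (nat_lit 390) (nat_lit 760) (nat_lit 0) (XT.nd (nat_lit 156) (nat_lit 1596) (nat_lit 0) (XT.nd (nat_lit 78) (nat_lit 0) (nat_lit 0) (XT.lf (nat_lit 0) (nat_lit 1521131025) (nat_lit 912) (nat_lit 13612518676) (nat_lit 76) (nat_lit 10500234925) (nat_lit 326) (nat_lit 5) (nat_lit 338) (nat_lit 5) (nat_lit 327) (nat_lit 5) (nat_lit 489) (nat_lit 454) (nat_lit 197)) (XT.lf (nat_lit 0) (nat_lit 4182586029) (nat_lit 912) (nat_lit 340199006) (nat_lit 76) (nat_lit 21400008021) (nat_lit 326) (nat_lit 5) (nat_lit 338) (nat_lit 5) (nat_lit 327) (nat_lit 5) (nat_lit 490) (nat_lit 454) (nat_lit 196))) (XT.nd (nat_lit 78) (nat_lit 760) (nat_lit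 0) (XT.lf (nat_lit 0) (nat_lit 7022651587) (nat_lit 912) (nat_lit 12887251505) (nat_lit 76) (nat_lit 6305070039) (nat_lit 315) (nat_lit 5) (nat_lit 327) (nat_lit 5) (nat_lit 316) (nat_lit 5) (nat_lit 491) (nat_lit 454) (nat_lit 195)) (XT.nd (nat_lit 78) (nat_lit 0) (nat_lit 0) (XT.lf (nat_lit 0) (nat_lit 737440400) (nat_lit 760) (nat_lit 9216248261) (nat_lit 836) (nat_lit 16558625829) (nat_lit 305) (nat_lit 5) (nat_lit 315) (nat_lit 5) (nat_lit 316) (nat_lit 5) (nat_lit 492) (nat_lit 454) (nat_lit 194)) (XT.lf (nat_lit 0) (nat_lit 13038549228) (nat_lit 836) (nat_lit 12019073347) (nat_lit 76) (nat_lit 1756077109) (nat_lit 305) (nat_lit 5) (nat_lit 316) (nat_lit 5) (nat_lit 306) (nat_lit 5) (nat_lit 493) (nat_lit 454) (nat_lit 193))))) (XT.nd (nat_lit 56394) (nat_lit 0) (nat_lit 7904) (XT.nd (nat_lit 78) (nat_lit 0) (nat_lit 0) (XT.lf (nat_lit 0) (nat_lit 1973790485) (nat_lit 760) (nat_lit 14282390829) (nat_lit 836) (nat_lit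 10863510824) (nat_lit 295) (nat_lit 5) (nat_lit 305) (nat_lit 5) (nat_lit 306) (nat_lit 5) (nat_lit 494) (nat_lit 454) (nat_lit 192)) (XT.nd (nat_lit 56238) (nat_lit 0) (nat_lit 7904) (XT.lf (nat_lit 0) (nat_lit 16406547622) (nat_lit 760) (nat_lit 3209532812) (nat_lit 836) (nat_lit 7814166742) (nat_lit 295) (nat_lit 5) (nat_lit 305) (nat_lit 5) (nat_lit 306) (nat_lit 5) (nat_lit 495) (nat_lit 454) (nat_lit 191)) (XT.lf (nat_lit 0) (nat_lit 289865480) (nat_lit 0) (nat_lit 289865480) (nat_lit 1748) (nat_lit 8488318749) (nat_lit 399) (nat_lit 5) (nat_lit 399) (nat_lit 3) (nat_lit 422) (nat_lit 3) (nat_lit 455) (nat_lit 455) (nat_lit 230)))) (XT.nd (nat_lit 78) (nat_lit 0) (nat_lit 0) (XT.lf (nat_lit 0) (nat_lit 1421327586) (nat_lit 1748) (nat_lit 9021214398) (nat_lit 1824) (nat_lit 7869828643) (nat_lit 399) (nat_lit 5) (nat_lit 422) (nat_lit 3) (nat_lit 423) (nat_lit 5) (nat_lit 456) (nat_lit 455) (nat_lit 229)) (XT.nd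 (nat_lit 78) (nat_lit 0) (nat_lit 76) (XT.lf (nat_lit 0) (nat_lit 1687080127) (nat_lit 1748) (nat_lit 321923089) (nat_lit 1824) (nat_lit 16483193263) (nat_lit 399) (nat_lit 5) (nat_lit 422) (nat_lit 3) (nat_lit 423) (nat_lit 5) (nat_lit 457) (nat_lit 455) (nat_lit 228)) (XT.lf (nat_lit 0) (nat_lit 2052496692) (nat_lit 1748) (nat_lit 10055505140) (nat_lit 1824) (nat_lit 6565732209) (nat_lit 400) (nat_lit 5) (nat_lit 423) (nat_lit 5) (nat_lit 424) (nat_lit 5) (nat_lit 458) (nat_lit 455) (nat_lit 227))))))))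
noncomputable def xc243 : XT := (XT.nd (nat_lit 1638) (nat_lit 6840) (nat_lit 0) (XT.nd (nat_lit 780) (nat_lit 1140) (nat_lit 0) (XT.nd (nat_lit 390) (nat_lit 0) (nat_lit 228) (XT.nd (nat_lit 156) (nat_lit 0) (nat_lit 76) (XT.nd (nat_lit 78) (nat_lit 0) (nat_lit 76) (XT.lf (nat_lit 0) (nat_lit 2435710648) (nat_lit 1748) (nat_lit 1133403427) (nat_lit 1824) (nat_lit 15289580623) (nat_lit 400) (nat_lit 5) (nat_lit 423) (nat_lit 5) (nat_lit 424) (nat_lit 5) (nat_lit 459) (nat_lit 455) (nat_lit 226)) (XT.lf (nat_lit 0) (nat_lit 2907831051) (nat_lit 1748) (nat_lit 11009878874) (nat_lit 1824) (nat_lit 5128021885) (nat_lit 401) (nat_lit 5) (nat_lit 424) (nat_lit 5) (nat_lit 425) (nat_lit 5) (nat_lit 460) (nat_lit 455) (nat_lit 225))) (XT.nd (nat_lit 78) (nat_lit 0) (nat_lit 76) (XT.lf (nat_lit 0) (nat_lit 3415886265) (nat_lit 1748) (nat_lit 1858999213) (nat_lit 1824) (nat_lit 13961096383) (nat_lit 401) (nat_lit 5) (nat_lit 424)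 (nat_lit 5) (nat_lit 425) (nat_lit 5) (nat_lit 461) (nat_lit 455) (nat_lit 224)) (XT.nd (nat_lit 78) (nat_lit 0) (nat_lit 0) (XT.lf (nat_lit 0) (nat_lit 4001882705) (nat_lit 1748) (nat_lit 11881036044) (nat_lit 1824) (nat_lit 3545764567) (nat_lit 402) (nat_lit 5) (nat_lit 425) (nat_lit 5) (nat_lit 426) (nat_lit 5) (nat_lit 462) (nat_lit 455) (nat_lit 223)) (XT.lf (nat_lit 0) (nat_lit 4642470249) (nat_lit 1748) (nat_lit 2495225394) (nat_lit 1824) (nat_lit 12486687697) (nat_lit 402) (nat_lit 5) (nat_lit 425) (nat_lit 5) (nat_lit 426) (nat_lit 5) (nat_lit 463) (nat_lit 455) (nat_lit 222))))) (XT.nd (nat_lit 156) (nat_lit 0) (nat_lit 0) (XT.nd (nat_lit 78) (nat_lit 0) (nat_lit 0) (XT.lf (nat_lit 0) (nat_lit 5349782502) (nat_lit 1748) (nat_lit 12665510448) (nat_lit 1824) (nat_lit 1807628082) (nat_lit 403) (nat_lit 5) (nat_lit 426) (nat_lit 5) (nat_lit 427) (nat_lit 5) (nat_lit 464) (nat_lit 455) (nat_lit 221)) (XT.lf (nat_lit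 0) (nat_lit 6130918673) (nat_lit 1748) (nat_lit 3038426465) (nat_lit 1824) (nat_lit 10854892676) (nat_lit 403) (nat_lit 5) (nat_lit 426) (nat_lit 5) (nat_lit 427) (nat_lit 5) (nat_lit 465) (nat_lit 455) (nat_lit 220))) (XT.nd (nat_lit 78) (nat_lit 0) (nat_lit 76) (XT.lf (nat_lit 76) (nat_lit 6868462478) (nat_lit 0) (nat_lit 99449899) (nat_lit 1824) (nat_lit 13260865710) (nat_lit 404) (nat_lit 5) (nat_lit 403) (nat_lit 5) (nat_lit 427) (nat_lit 5) (nat_lit 466) (nat_lit 455) (nat_lit 219)) (XT.nd (nat_lit 78) (nat_lit 0) (nat_lit 0) (XT.lf (nat_lit 0) (nat_lit 7897307465) (nat_lit 1748) (nat_lit 3484777032) (nat_lit 1824) (nat_lit 9053813253) (nat_lit 404) (nat_lit 5) (nat_lit 427) (nat_lit 5) (nat_lit 428) (nat_lit 5) (nat_lit 467) (nat_lit 455) (nat_lit 218)) (XT.lf (nat_lit 76) (nat_lit 6672282022) (nat_lit 0) (nat_lit 2212789099) (nat_lit 1824) (nat_lit 11761294853) (nat_lit 405) (nat_lit 5) (nat_lit 404) (nat_lit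 5) (nat_lit 428) (nat_lit 5) (nat_lit 468) (nat_lit 455) (nat_lit 217)))))) (XT.nd (nat_lit 390) (nat_lit 1520) (nat_lit 0) (XT.nd (nat_lit 156) (nat_lit 0) (nat_lit 76) (XT.nd (nat_lit 78) (nat_lit 0) (nat_lit 0) (XT.lf (nat_lit 0) (nat_lit 9958360241) (nat_lit 1748) (nat_lit 3830282472) (nat_lit 1824) (nat_lit 7071087190) (nat_lit 405) (nat_lit 5) (nat_lit 428) (nat_lit 5) (nat_lit 429) (nat_lit 5) (nat_lit 469) (nat_lit 455) (nat_lit 216)) (XT.lf (nat_lit 76) (nat_lit 6585250540) (nat_lit 0) (nat_lit 4521229277) (nat_lit 1824) (nat_lit 9969815710) (nat_lit 406) (nat_lit 5) (nat_lit 405) (nat_lit 5) (nat_lit 429) (nat_lit 5) (nat_lit 470) (nat_lit 455) (nat_lit 215))) (XT.nd (nat_lit 78) (nat_lit 0) (nat_lit 0) (XT.lf (nat_lit 0) (nat_lit 12331476960) (nat_lit 1748) (nat_lit 4070779722) (nat_lit 1824) (nat_lit 4893859155) (nat_lit 406) (nat_lit 5) (nat_lit 429) (nat_lit 5) (nat_lit 430) (nat_lit 5) (nat_lit 471) (nat_lit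 455) (nat_lit 214)) (XT.nd (nat_lit 78) (nat_lit 0) (nat_lit 76) (XT.lf (nat_lit 76) (nat_lit 6611794170) (nat_lit 0) (nat_lit 7038150888) (nat_lit 1824) (nat_lit 7869009719) (nat_lit 407) (nat_lit 5) (nat_lit 406) (nat_lit 5) (nat_lit 430) (nat_lit 5) (nat_lit 472) (nat_lit 455) (nat_lit 213)) (XT.lf (nat_lit 0) (nat_lit 15034763422) (nat_lit 1748) (nat_lit 4201938250) (nat_lit 1824) (nat_lit 2508750820) (nat_lit 407) (nat_lit 5) (nat_lit 430) (nat_lit 5) (nat_lit 431) (nat_lit 5) (nat_lit 473) (nat_lit 455) (nat_lit 212))))) (XT.nd (nat_lit 234) (nat_lit 1672) (nat_lit 0) (XT.nd (nat_lit 78) (nat_lit 0) (nat_lit 0) (XT.lf (nat_lit 76) (nat_lit 6756513115) (nat_lit 0) (nat_lit 9777483580) (nat_lit 1824) (nat_lit 5440750674) (nat_lit 408) (nat_lit 5) (nat_lit 407) (nat_lit 5) (nat_lit 431) (nat_lit 5) (nat_lit 474) (nat_lit 455) (nat_lit 211)) (XT.nd (nat_lit 78) (nat_lit 0) (nat_lit 76) (XT.lf (nat_lit 76) (nat_lit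 17988232766) (nat_lit 0) (nat_lit 99474744) (nat_lit 1824) (nat_lit 4120432325) (nat_lit 408) (nat_lit 5) (nat_lit 407) (nat_lit 5) (nat_lit 431) (nat_lit 5) (nat_lit 475) (nat_lit 455) (nat_lit 210)) (XT.lf (nat_lit 76) (nat_lit 7024180539) (nat_lit 0) (nat_lit 12753738235) (nat_lit 1824) (nat_lit 2666174373) (nat_lit 409) (nat_lit 5) (nat_lit 408) (nat_lit 5) (nat_lit 432) (nat_lit 5) (nat_lit 476) (nat_lit 455) (nat_lit 209)))) (XT.nd (nat_lit 78) (nat_lit 1748) (nat_lit 0) (XT.lf (nat_lit 76) (nat_lit 18546820696) (nat_lit 0) (nat_lit 2980511988) (nat_lit 1824) (nat_lit 1156926359) (nat_lit 409) (nat_lit 5) (nat_lit 408) (nat_lit 5) (nat_lit 432) (nat_lit 5) (nat_lit 477) (nat_lit 455) (nat_lit 208)) (XT.nd (nat_lit 78) (nat_lit 0) (nat_lit 0) (XT.lf (nat_lit 0) (nat_lit 468131419) (nat_lit 1824) (nat_lit 15510767390) (nat_lit 1900) (nat_lit 6948468383) (nat_lit 385) (nat_lit 5) (nat_lit 409) (nat_lit 5) (nat_lit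 410) (nat_lit 5) (nat_lit 478) (nat_lit 455) (nat_lit 207)) (XT.lf (nat_lit 0) (nat_lit 2154426879) (nat_lit 1824) (nat_lit 3947475684) (nat_lit 1900) (nat_lit 17072398843) (nat_lit 385) (nat_lit 5) (nat_lit 409) (nat_lit 5) (nat_lit 410) (nat_lit 5) (nat_lit 479) (nat_lit 455) (nat_lit 206))))))) (XT.nd (nat_lit 858) (nat_lit 2356) (nat_lit 0) (XT.nd (nat_lit 390) (nat_lit 2584) (nat_lit 0) (XT.nd (nat_lit 156) (nat_lit 1976) (nat_lit 0) (XT.nd (nat_lit 78) (nat_lit 0) (nat_lit 0) (XT.lf (nat_lit 0) (nat_lit 3948787963) (nat_lit 1824) (nat_lit 15502877488) (nat_lit 76) (nat_lit 3973023434) (nat_lit 386) (nat_lit 5) (nat_lit 410) (nat_lit 5) (nat_lit 387) (nat_lit 5) (nat_lit 480) (nat_lit 455) (nat_lit 205)) (XT.lf (nat_lit 0) (nat_lit 5842757672) (nat_lit 1824) (nat_lit 3641054520) (nat_lit 76) (nat_lit 14194998843) (nat_lit 386) (nat_lit 5) (nat_lit 410) (nat_lit 5) (nat_lit 387) (nat_lit 5) (nat_lit 481) (nat_lit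 455) (nat_lit 204))) (XT.nd (nat_lit 78) (nat_lit 912) (nat_lit 0) (XT.lf (nat_lit 0) (nat_lit 7831753222) (nat_lit 1140) (nat_lit 15374260122) (nat_lit 76) (nat_lit 730860676) (nat_lit 372) (nat_lit 5) (nat_lit 387) (nat_lit 5) (nat_lit 373) (nat_lit 5) (nat_lit 482) (nat_lit 455) (nat_lit 203)) (XT.nd (nat_lit 78) (nat_lit 912) (nat_lit 0) (XT.lf (nat_lit 0) (nat_lit 9944691469) (nat_lit 1140) (nat_lit 3205768097) (nat_lit 76) (nat_lit 11047956741) (nat_lit 372) (nat_lit 5) (nat_lit 387) (nat_lit 5) (nat_lit 373) (nat_lit 5) (nat_lit 483) (nat_lit 455) (nat_lit 202)) (XT.lf (nat_lit 0) (nat_lit 9325555870) (nat_lit 912) (nat_lit 2831704695) (nat_lit 988) (nat_lit 12306782704) (nat_lit 360) (nat_lit 5) (nat_lit 372) (nat_lit 5) (nat_lit 373) (nat_lit 5) (nat_lit 484) (nat_lit 455) (nat_lit 201))))) (XT.nd (nat_lit 234) (nat_lit 1748) (nat_lit 0) (XT.nd (nat_lit 78) (nat_lit 836) (nat_lit 0) (XT.lf (nat_lit 0) (nat_lit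 14482557022) (nat_lit 988) (nat_lit 2636575857) (nat_lit 76) (nat_lit 7614481618) (nat_lit 360) (nat_lit 5) (nat_lit 373) (nat_lit 5) (nat_lit 361) (nat_lit 5) (nat_lit 485) (nat_lit 455) (nat_lit 200)) (XT.nd (nat_lit 78) (nat_lit 0) (nat_lit 0) (XT.lf (nat_lit 0) (nat_lit 10227927310) (nat_lit 836) (nat_lit 6708523263) (nat_lit 912) (nat_lit 8070485974) (nat_lit 349) (nat_lit 5) (nat_lit 360) (nat_lit 5) (nat_lit 361) (nat_lit 5) (nat_lit 486) (nat_lit 455) (nat_lit 199)) (XT.lf (nat_lit 0) (nat_lit 19479595143) (nat_lit 912) (nat_lit 1928295729) (nat_lit 76) (nat_lit 3877031901) (nat_lit 349) (nat_lit 5) (nat_lit 361) (nat_lit 5) (nat_lit 350) (nat_lit 5) (nat_lit 487) (nat_lit 455) (nat_lit 198)))) (XT.nd (nat_lit 78) (nat_lit 912) (nat_lit 0) (XT.lf (nat_lit 0) (nat_lit 11280122891) (nat_lit 836) (nat_lit 10908179288) (nat_lit 912) (nat_lit 3377873728) (nat_lit 338) (nat_lit 5) (nat_lit 349) (nat_lit 5) (nat_lit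 350) (nat_lit 5) (nat_lit 488) (nat_lit 455) (nat_lit 197)) (XT.nd (nat_lit 78) (nat_lit 912) (nat_lit 0) (XT.lf (nat_lit 0) (nat_lit 24776044321) (nat_lit 836) (nat_lit 185153088) (nat_lit 912) (nat_lit 891657564) (nat_lit 338) (nat_lit 5) (nat_lit 349) (nat_lit 5) (nat_lit 350) (nat_lit 5) (nat_lit 489) (nat_lit 455) (nat_lit 196)) (XT.lf (nat_lit 0) (nat_lit 1771719550) (nat_lit 912) (nat_lit 13666188054) (nat_lit 76) (nat_lit 10704167575) (nat_lit 326) (nat_lit 5) (nat_lit 338) (nat_lit 5) (nat_lit 327) (nat_lit 5) (nat_lit 490) (nat_lit 455) (nat_lit 195)))))) (XT.nd (nat_lit 56628) (nat_lit 0) (nat_lit 7904) (XT.nd (nat_lit 156) (nat_lit 1520) (nat_lit 0) (XT.nd (nat_lit 78) (nat_lit 836) (nat_lit 0) (XT.lf (nat_lit 0) (nat_lit 4482086676) (nat_lit 912) (nat_lit 132707893) (nat_lit 76) (nat_lit 21822055191) (nat_lit 326) (nat_lit 5) (nat_lit 338) (nat_lit 5) (nat_lit 327) (nat_lit 5) (nat_lit 491) (nat_lit 455)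 (nat_lit 194)) (XT.lf (nat_lit 0) (nat_lit 7376102668) (nat_lit 912) (nat_lit 12927769997) (nat_lit 76) (nat_lit 6431059401) (nat_lit 315) (nat_lit 5) (nat_lit 327) (nat_lit 5) (nat_lit 316) (nat_lit 5) (nat_lit 492) (nat_lit 455) (nat_lit 193))) (XT.nd (nat_lit 78) (nat_lit 760) (nat_lit 0) (XT.lf (nat_lit 0) (nat_lit 967986625) (nat_lit 760) (nat_lit 9394998526) (nat_lit 836) (nat_lit 16675292186) (nat_lit 305) (nat_lit 5) (nat_lit 315) (nat_lit 5) (nat_lit 316) (nat_lit 5) (nat_lit 493) (nat_lit 455) (nat_lit 192)) (XT.nd (nat_lit 78) (nat_lit 760) (nat_lit 0) (XT.lf (nat_lit 0) (nat_lit 13505456400) (nat_lit 836) (nat_lit 12043724751) (nat_lit 76) (nat_lit 1796592363) (nat_lit 305) (nat_lit 5) (nat_lit 316) (nat_lit 5) (nat_lit 306) (nat_lit 5) (nat_lit 494) (nat_lit 455) (nat_lit 191)) (XT.lf (nat_lit 0) (nat_lit 2227577081) (nat_lit 760) (nat_lit 14557213609) (nat_lit 836) (nat_lit 10873149655) (nat_lit 295) (nat_lit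 5) (nat_lit 305) (nat_lit 5) (nat_lit 306) (nat_lit 5) (nat_lit 495) (nat_lit 455) (nat_lit 190))))) (XT.nd (nat_lit 234) (nat_lit 0) (nat_lit 76) (XT.nd (nat_lit 78) (nat_lit 0) (nat_lit 0) (XT.lf (nat_lit 0) (nat_lit 394266335) (nat_lit 0) (nat_lit 394266335) (nat_lit 1748) (nat_lit 8456850073) (nat_lit 399) (nat_lit 5) (nat_lit 399) (nat_lit 3) (nat_lit 422) (nat_lit 3) (nat_lit 456) (nat_lit 456) (nat_lit 228)) (XT.nd (nat_lit 78) (nat_lit 0) (nat_lit 0) (XT.lf (nat_lit 0) (nat_lit 1835179415) (nat_lit 1748) (nat_lit 8999145147) (nat_lit 1824) (nat_lit 7836420623) (nat_lit 399) (nat_lit 5) (nat_lit 422) (nat_lit 3) (nat_lit 423) (nat_lit 5) (nat_lit 457) (nat_lit 456) (nat_lit 227)) (XT.lf (nat_lit 0) (nat_lit 2098689649) (nat_lit 1748) (nat_lit 129838474) (nat_lit 1824) (nat_lit 16625793802) (nat_lit 399) (nat_lit 5) (nat_lit 422) (nat_lit 3) (nat_lit 423) (nat_lit 5) (nat_lit 458) (nat_lit 456) (nat_lit 226))))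 (XT.nd (nat_lit 78) (nat_lit 0) (nat_lit 0) (XT.lf (nat_lit 0) (nat_lit 2464152719) (nat_lit 1748) (nat_lit 10050672372) (nat_lit 1824) (nat_lit 6524813541) (nat_lit 400) (nat_lit 5) (nat_lit 423) (nat_lit 5) (nat_lit 424) (nat_lit 5) (nat_lit 459) (nat_lit 456) (nat_lit 225)) (XT.nd (nat_lit 78) (nat_lit 0) (nat_lit 76) (XT.lf (nat_lit 0) (nat_lit 2847764168) (nat_lit 1748) (nat_lit 954166721) (nat_lit 1824) (nat_lit 15426516047) (nat_lit 400) (nat_lit 5) (nat_lit 423) (nat_lit 5) (nat_lit 424) (nat_lit 5) (nat_lit 460) (nat_lit 456) (nat_lit 224)) (XT.lf (nat_lit 0) (nat_lit 3322485990) (nat_lit 1748) (nat_lit 11021178855) (nat_lit 1824) (nat_lit 5075699802) (nat_lit 401) (nat_lit 5) (nat_lit 424) (nat_lit 5) (nat_lit 425) (nat_lit 5) (nat_lit 461) (nat_lit 456) (nat_lit 223))))))))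
noncomputable def xc244 : XT := (XT.nd (nat_lit 1638) (nat_lit 6080) (nat_lit 0) (XT.nd (nat_lit 780) (nat_lit 1216) (nat_lit 0) (XT.nd (nat_lit 390) (nat_lit 0) (nat_lit 152) (XT.nd (nat_lit 156) (nat_lit 0) (nat_lit 76) (XT.nd (nat_lit 78) (nat_lit 0) (nat_lit 76) (XT.lf (nat_lit 0) (nat_lit 3833712145) (nat_lit 1748) (nat_lit 1691377632) (nat_lit 1824) (nat_lit 14088472702) (nat_lit 401) (nat_lit 5) (nat_lit 424) (nat_lit 5) (nat_lit 425) (nat_lit 5) (nat_lit 462) (nat_lit 456) (nat_lit 222)) (XT.lf (nat_lit 0) (nat_lit 4424984012) (nat_lit 1748) (nat_lit 11907264759) (nat_lit 1824) (nat_lit 3478001000) (nat_lit 402) (nat_lit 5) (nat_lit 425) (nat_lit 5) (nat_lit 426) (nat_lit 5) (nat_lit 463) (nat_lit 456) (nat_lit 221))) (XT.nd (nat_lit 78) (nat_lit 0) (nat_lit 76) (XT.lf (nat_lit 0) (nat_lit 5071656569) (nat_lit 1748) (nat_lit 2337882838) (nat_lit 1824) (nat_lit 12600461786) (nat_lit 402) (nat_lit 5) (nat_lit 425)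 (nat_lit 5) (nat_lit 426) (nat_lit 5) (nat_lit 464) (nat_lit 456) (nat_lit 220)) (XT.nd (nat_lit 78) (nat_lit 0) (nat_lit 0) (XT.lf (nat_lit 0) (nat_lit 5787044108) (nat_lit 1748) (nat_lit 12705362363) (nat_lit 1824) (nat_lit 1720227392) (nat_lit 403) (nat_lit 5) (nat_lit 426) (nat_lit 5) (nat_lit 427) (nat_lit 5) (nat_lit 465) (nat_lit 456) (nat_lit 219)) (XT.lf (nat_lit 0) (nat_lit 6577327199) (nat_lit 1748) (nat_lit 2889922157) (nat_lit 1824) (nat_lit 10950859891) (nat_lit 403) (nat_lit 5) (nat_lit 426) (nat_lit 5) (nat_lit 427) (nat_lit 5) (nat_lit 466) (nat_lit 456) (nat_lit 218))))) (XT.nd (nat_lit 156) (nat_lit 0) (nat_lit 76) (XT.nd (nat_lit 78) (nat_lit 0) (nat_lit 76) (XT.lf (nat_lit 76) (nat_lit 7213727770) (nat_lit 0) (nat_lit 212333980) (nat_lit 1824) (nat_lit 13200781253) (nat_lit 404) (nat_lit 5) (nat_lit 403) (nat_lit 5) (nat_lit 427) (nat_lit 5) (nat_lit 467) (nat_lit 456) (nat_lit 217)) (XT.lf (nat_lit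 0) (nat_lit 8367088046) (nat_lit 1748) (nat_lit 3343564051) (nat_lit 1824) (nat_lit 9127594740) (nat_lit 404) (nat_lit 5) (nat_lit 427) (nat_lit 5) (nat_lit 428) (nat_lit 5) (nat_lit 468) (nat_lit 456) (nat_lit 216))) (XT.nd (nat_lit 78) (nat_lit 0) (nat_lit 76) (XT.lf (nat_lit 76) (nat_lit 7015248628) (nat_lit 0) (nat_lit 2354604295) (nat_lit 1824) (nat_lit 11683169173) (nat_lit 405) (nat_lit 5) (nat_lit 404) (nat_lit 5) (nat_lit 428) (nat_lit 5) (nat_lit 469) (nat_lit 456) (nat_lit 215)) (XT.nd (nat_lit 78) (nat_lit 0) (nat_lit 0) (XT.lf (nat_lit 0) (nat_lit 10457965642) (nat_lit 1748) (nat_lit 3694706177) (nat_lit 1824) (nat_lit 7118116870) (nat_lit 405) (nat_lit 5) (nat_lit 428) (nat_lit 5) (nat_lit 429) (nat_lit 5) (nat_lit 470) (nat_lit 456) (nat_lit 214)) (XT.lf (nat_lit 76) (nat_lit 6927741561) (nat_lit 0) (nat_lit 4696783666) (nat_lit 1824) (nat_lit 9867253338) (nat_lit 406) (nat_lit 5) (nat_lit 405) (nat_lit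 5) (nat_lit 429) (nat_lit 5) (nat_lit 471) (nat_lit 456) (nat_lit 213)))))) (XT.nd (nat_lit 390) (nat_lit 1596) (nat_lit 0) (XT.nd (nat_lit 156) (nat_lit 0) (nat_lit 76) (XT.nd (nat_lit 78) (nat_lit 0) (nat_lit 0) (XT.lf (nat_lit 0) (nat_lit 12867678161) (nat_lit 1748) (nat_lit 3939076100) (nat_lit 1824) (nat_lit 4909370347) (nat_lit 406) (nat_lit 5) (nat_lit 429) (nat_lit 5) (nat_lit 430) (nat_lit 5) (nat_lit 472) (nat_lit 456) (nat_lit 212)) (XT.lf (nat_lit 76) (nat_lit 6955747171) (nat_lit 0) (nat_lit 7252465183) (nat_lit 1824) (nat_lit 7735296433) (nat_lit 407) (nat_lit 5) (nat_lit 406) (nat_lit 5) (nat_lit 430) (nat_lit 5) (nat_lit 473) (nat_lit 456) (nat_lit 211))) (XT.nd (nat_lit 78) (nat_lit 0) (nat_lit 0) (XT.lf (nat_lit 0) (nat_lit 15614665406) (nat_lit 1748) (nat_lit 4072232163) (nat_lit 1824) (nat_lit 2487762466) (nat_lit 407) (nat_lit 5) (nat_lit 430) (nat_lit 5) (nat_lit 431) (nat_lit 5) (nat_lit 474) (nat_lit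 456) (nat_lit 210)) (XT.nd (nat_lit 78) (nat_lit 0) (nat_lit 0) (XT.lf (nat_lit 76) (nat_lit 7103982012) (nat_lit 0) (nat_lit 10035805334) (nat_lit 1824) (nat_lit 5268837685) (nat_lit 408) (nat_lit 5) (nat_lit 407) (nat_lit 5) (nat_lit 431) (nat_lit 5) (nat_lit 475) (nat_lit 456) (nat_lit 209)) (XT.lf (nat_lit 76) (nat_lit 18556172554) (nat_lit 0) (nat_lit 163005496) (nat_lit 1824) (nat_lit 3927617440) (nat_lit 408) (nat_lit 5) (nat_lit 407) (nat_lit 5) (nat_lit 431) (nat_lit 5) (nat_lit 476) (nat_lit 456) (nat_lit 208))))) (XT.nd (nat_lit 234) (nat_lit 0) (nat_lit 0) (XT.nd (nat_lit 78) (nat_lit 1748) (nat_lit 0) (XT.lf (nat_lit 76) (nat_lit 7377337558) (nat_lit 0) (nat_lit 13061556509) (nat_lit 1824) (nat_lit 2448662002) (nat_lit 409) (nat_lit 5) (nat_lit 408) (nat_lit 5) (nat_lit 432) (nat_lit 5) (nat_lit 477) (nat_lit 456) (nat_lit 207)) (XT.nd (nat_lit 78) (nat_lit 1748) (nat_lit 0) (XT.lf (nat_lit 76) (nat_lit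 19126260451) (nat_lit 0) (nat_lit 3091831551) (nat_lit 1824) (nat_lit 914539535) (nat_lit 409) (nat_lit 5) (nat_lit 408) (nat_lit 5) (nat_lit 432) (nat_lit 5) (nat_lit 478) (nat_lit 456) (nat_lit 206)) (XT.lf (nat_lit 0) (nat_lit 735457976) (nat_lit 1824) (nat_lit 15604707443) (nat_lit 1900) (nat_lit 7040485615) (nat_lit 385) (nat_lit 5) (nat_lit 409) (nat_lit 5) (nat_lit 410) (nat_lit 5) (nat_lit 479) (nat_lit 456) (nat_lit 205)))) (XT.nd (nat_lit 78) (nat_lit 0) (nat_lit 76) (XT.lf (nat_lit 0) (nat_lit 2450421230) (nat_lit 1824) (nat_lit 3814390595) (nat_lit 1900) (nat_lit 17367815313) (nat_lit 385) (nat_lit 5) (nat_lit 409) (nat_lit 5) (nat_lit 410) (nat_lit 5) (nat_lit 480) (nat_lit 456) (nat_lit 204)) (XT.nd (nat_lit 78) (nat_lit 0) (nat_lit 0) (XT.lf (nat_lit 0) (nat_lit 4276827107) (nat_lit 1824) (nat_lit 15596957831) (nat_lit 76) (nat_lit 4014316281) (nat_lit 386) (nat_lit 5) (nat_lit 410) (nat_lit 5) (nat_lit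 387) (nat_lit 5) (nat_lit 481) (nat_lit 456) (nat_lit 203)) (XT.lf (nat_lit 0) (nat_lit 6203792614) (nat_lit 1824) (nat_lit 3502133251) (nat_lit 76) (nat_lit 14441479582) (nat_lit 386) (nat_lit 5) (nat_lit 410) (nat_lit 5) (nat_lit 387) (nat_lit 5) (nat_lit 482) (nat_lit 456) (nat_lit 202))))))) (XT.nd (nat_lit 780) (nat_lit 760) (nat_lit 0) (XT.nd (nat_lit 390) (nat_lit 2584) (nat_lit 0) (XT.nd (nat_lit 156) (nat_lit 1748) (nat_lit 0) (XT.nd (nat_lit 78) (nat_lit 0) (nat_lit 0) (XT.lf (nat_lit 0) (nat_lit 8228948533) (nat_lit 1140) (nat_lit 15466287136) (nat_lit 76) (nat_lit 715468341) (nat_lit 372) (nat_lit 5) (nat_lit 387) (nat_lit 5) (nat_lit 373) (nat_lit 5) (nat_lit 483) (nat_lit 456) (nat_lit 201)) (XT.lf (nat_lit 0) (nat_lit 10379428677) (nat_lit 1140) (nat_lit 3058649941) (nat_lit 76) (nat_lit 11239494750) (nat_lit 372) (nat_lit 5) (nat_lit 387) (nat_lit 5) (nat_lit 373) (nat_lit 5) (nat_lit 484) (nat_lit 456)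 (nat_lit 200))) (XT.nd (nat_lit 78) (nat_lit 836) (nat_lit 0) (XT.lf (nat_lit 0) (nat_lit 9721910811) (nat_lit 912) (nat_lit 2911076409) (nat_lit 988) (nat_lit 12315592738) (nat_lit 360) (nat_lit 5) (nat_lit 372) (nat_lit 5) (nat_lit 373) (nat_lit 5) (nat_lit 485) (nat_lit 456) (nat_lit 199)) (XT.nd (nat_lit 78) (nat_lit 836) (nat_lit 0) (XT.lf (nat_lit 0) (nat_lit 15000084452) (nat_lit 988) (nat_lit 2478782249) (nat_lit 76) (nat_lit 7744771827) (nat_lit 360) (nat_lit 5) (nat_lit 373) (nat_lit 5) (nat_lit 361) (nat_lit 5) (nat_lit 486) (nat_lit 456) (nat_lit 198)) (XT.lf (nat_lit 0) (nat_lit 10641625948) (nat_lit 836) (nat_lit 6858319641) (nat_lit 912) (nat_lit 8002545416) (nat_lit 349) (nat_lit 5) (nat_lit 360) (nat_lit 5) (nat_lit 361) (nat_lit 5) (nat_lit 487) (nat_lit 456) (nat_lit 197))))) (XT.nd (nat_lit 156) (nat_lit 1748) (nat_lit 0) (XT.nd (nat_lit 78) (nat_lit 836) (nat_lit 0) (XT.lf (nat_lit 0) (nat_lit 20089446409)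 (nat_lit 912) (nat_lit 1757228488) (nat_lit 76) (nat_lit 3939453935) (nat_lit 349) (nat_lit 5) (nat_lit 361) (nat_lit 5) (nat_lit 350) (nat_lit 5) (nat_lit 488) (nat_lit 456) (nat_lit 196)) (XT.lf (nat_lit 0) (nat_lit 11713979339) (nat_lit 836) (nat_lit 11135381558) (nat_lit 912) (nat_lit 3223707175) (nat_lit 338) (nat_lit 5) (nat_lit 349) (nat_lit 5) (nat_lit 350) (nat_lit 5) (nat_lit 489) (nat_lit 456) (nat_lit 195))) (XT.nd (nat_lit 78) (nat_lit 1748) (nat_lit 0) (XT.lf (nat_lit 0) (nat_lit 25475735785) (nat_lit 836) (nat_lit 197717606) (nat_lit 912) (nat_lit 692114218) (nat_lit 338) (nat_lit 5) (nat_lit 349) (nat_lit 5) (nat_lit 350) (nat_lit 5) (nat_lit 490) (nat_lit 456) (nat_lit 194)) (XT.nd (nat_lit 78) (nat_lit 836) (nat_lit 0) (XT.lf (nat_lit 0) (nat_lit 2018770535) (nat_lit 912) (nat_lit 13729418585) (nat_lit 76) (nat_lit 10912414662) (nat_lit 326) (nat_lit 5) (nat_lit 338) (nat_lit 5) (nat_lit 327) (nat_lit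 5) (nat_lit 491) (nat_lit 456) (nat_lit 193)) (XT.lf (nat_lit 0) (nat_lit 71550095) (nat_lit 836) (nat_lit 4708110113) (nat_lit 912) (nat_lit 22181688923) (nat_lit 315) (nat_lit 5) (nat_lit 326) (nat_lit 5) (nat_lit 327) (nat_lit 5) (nat_lit 492) (nat_lit 456) (nat_lit 192)))))) (XT.nd (nat_lit 56784) (nat_lit 0) (nat_lit 7220) (XT.nd (nat_lit 56550) (nat_lit 0) (nat_lit 7144) (XT.nd (nat_lit 78) (nat_lit 760) (nat_lit 0) (XT.lf (nat_lit 0) (nat_lit 7728351797) (nat_lit 912) (nat_lit 12977534030) (nat_lit 76) (nat_lit 6559572900) (nat_lit 315) (nat_lit 5) (nat_lit 327) (nat_lit 5) (nat_lit 316) (nat_lit 5) (nat_lit 493) (nat_lit 456) (nat_lit 191)) (XT.lf (nat_lit 0) (nat_lit 1194764097) (nat_lit 760) (nat_lit 9577540270) (nat_lit 836) (nat_lit 16802621406) (nat_lit 305) (nat_lit 5) (nat_lit 315) (nat_lit 5) (nat_lit 316) (nat_lit 5) (nat_lit 494) (nat_lit 456) (nat_lit 190))) (XT.nd (nat_lit 78) (nat_lit 0) (nat_lit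 0) (XT.lf (nat_lit 0) (nat_lit 496926311) (nat_lit 0) (nat_lit 496926311) (nat_lit 1748) (nat_lit 8432566226) (nat_lit 399) (nat_lit 5) (nat_lit 399) (nat_lit 3) (nat_lit 422) (nat_lit 3) (nat_lit 457) (nat_lit 457) (nat_lit 226)) (XT.nd (nat_lit 78) (nat_lit 0) (nat_lit 0) (XT.lf (nat_lit 0) (nat_lit 2242341747) (nat_lit 1748) (nat_lit 8984497581) (nat_lit 1824) (nat_lit 7809753618) (nat_lit 399) (nat_lit 5) (nat_lit 422) (nat_lit 3) (nat_lit 423) (nat_lit 5) (nat_lit 458) (nat_lit 457) (nat_lit 225)) (XT.lf (nat_lit 76) (nat_lit 59154766) (nat_lit 0) (nat_lit 2445087594) (nat_lit 1824) (nat_lit 16719739555) (nat_lit 400) (nat_lit 5) (nat_lit 399) (nat_lit 5) (nat_lit 423) (nat_lit 5) (nat_lit 459) (nat_lit 457) (nat_lit 224))))) (XT.nd (nat_lit 234) (nat_lit 0) (nat_lit 76) (XT.nd (nat_lit 78) (nat_lit 0) (nat_lit 0) (XT.lf (nat_lit 0) (nat_lit 2869650781) (nat_lit 1748) (nat_lit 10053739962) (nat_lit 1824) (nat_lit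 6489764529) (nat_lit 400) (nat_lit 5) (nat_lit 423) (nat_lit 5) (nat_lit 424) (nat_lit 5) (nat_lit 460) (nat_lit 457) (nat_lit 223)) (XT.nd (nat_lit 78) (nat_lit 0) (nat_lit 76) (XT.lf (nat_lit 0) (nat_lit 3253949851) (nat_lit 1748) (nat_lit 779185489) (nat_lit 1824) (nat_lit 15572747071) (nat_lit 400) (nat_lit 5) (nat_lit 423) (nat_lit 5) (nat_lit 424) (nat_lit 5) (nat_lit 461) (nat_lit 457) (nat_lit 222)) (XT.lf (nat_lit 0) (nat_lit 3731590765) (nat_lit 1748) (nat_lit 11040816583) (nat_lit 1824) (nat_lit 5028345553) (nat_lit 401) (nat_lit 5) (nat_lit 424) (nat_lit 5) (nat_lit 425) (nat_lit 5) (nat_lit 462) (nat_lit 457) (nat_lit 221)))) (XT.nd (nat_lit 78) (nat_lit 0) (nat_lit 76) (XT.lf (nat_lit 0) (nat_lit 4246322716) (nat_lit 1748) (nat_lit 1528356313) (nat_lit 1824) (nat_lit 14224292897) (nat_lit 401) (nat_lit 5) (nat_lit 424) (nat_lit 5) (nat_lit 425) (nat_lit 5) (nat_lit 463) (nat_lit 457) (nat_lit 220)) (XT.nd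 (nat_lit 78) (nat_lit 0) (nat_lit 0) (XT.lf (nat_lit 0) (nat_lit 4843225766) (nat_lit 1748) (nat_lit 11942226658) (nat_lit 1824) (nat_lit 3414267231) (nat_lit 402) (nat_lit 5) (nat_lit 425) (nat_lit 5) (nat_lit 426) (nat_lit 5) (nat_lit 464) (nat_lit 457) (nat_lit 219)) (XT.lf (nat_lit 0) (nat_lit 5496366242) (nat_lit 1748) (nat_lit 2185441086) (nat_lit 1824) (nat_lit 12721790837) (nat_lit 402) (nat_lit 5) (nat_lit 425) (nat_lit 5) (nat_lit 426) (nat_lit 5) (nat_lit 465) (nat_lit 457) (nat_lit 218))))))))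
noncomputable def xc245 : XT := (XT.nd (nat_lit 1638) (nat_lit 3420) (nat_lit 0) (XT.nd (nat_lit 780) (nat_lit 3268) (nat_lit 0) (XT.nd (nat_lit 390) (nat_lit 0) (nat_lit 152) (XT.nd (nat_lit 156) (nat_lit 0) (nat_lit 0) (XT.nd (nat_lit 78) (nat_lit 0) (nat_lit 0) (XT.lf (nat_lit 0) (nat_lit 6220226317) (nat_lit 1748) (nat_lit 12754300162) (nat_lit 1824) (nat_lit 1635876412) (nat_lit 403) (nat_lit 5) (nat_lit 426) (nat_lit 5) (nat_lit 427) (nat_lit 5) (nat_lit 466) (nat_lit 457) (nat_lit 217)) (XT.lf (nat_lit 0) (nat_lit 7020090730) (nat_lit 1748) (nat_lit 2746574083) (nat_lit 1824) (nat_lit 11053450100) (nat_lit 403) (nat_lit 5) (nat_lit 426) (nat_lit 5) (nat_lit 427) (nat_lit 5) (nat_lit 467) (nat_lit 457) (nat_lit 216))) (XT.nd (nat_lit 78) (nat_lit 0) (nat_lit 76) (XT.lf (nat_lit 76) (nat_lit 7557825511) (nat_lit 0) (nat_lit 323169551) (nat_lit 1824) (nat_lit 13152126971) (nat_lit 404) (nat_lit 5) (nat_lit 403) (nat_lit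 5) (nat_lit 427) (nat_lit 5) (nat_lit 468) (nat_lit 457) (nat_lit 215)) (XT.nd (nat_lit 78) (nat_lit 0) (nat_lit 0) (XT.lf (nat_lit 0) (nat_lit 8834155328) (nat_lit 1748) (nat_lit 3207716644) (nat_lit 1824) (nat_lit 9207018243) (nat_lit 404) (nat_lit 5) (nat_lit 427) (nat_lit 5) (nat_lit 428) (nat_lit 5) (nat_lit 469) (nat_lit 457) (nat_lit 214)) (XT.lf (nat_lit 76) (nat_lit 7356938613) (nat_lit 0) (nat_lit 2495467444) (nat_lit 1824) (nat_lit 11615648804) (nat_lit 405) (nat_lit 5) (nat_lit 404) (nat_lit 5) (nat_lit 428) (nat_lit 5) (nat_lit 470) (nat_lit 457) (nat_lit 213))))) (XT.nd (nat_lit 156) (nat_lit 0) (nat_lit 76) (XT.nd (nat_lit 78) (nat_lit 0) (nat_lit 0) (XT.lf (nat_lit 0) (nat_lit 10955896770) (nat_lit 1748) (nat_lit 3564657641) (nat_lit 1824) (nat_lit 7169752502) (nat_lit 405) (nat_lit 5) (nat_lit 428) (nat_lit 5) (nat_lit 429) (nat_lit 5) (nat_lit 471) (nat_lit 457) (nat_lit 212)) (XT.lf (nat_lit 76) (nat_lit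 7268897324) (nat_lit 0) (nat_lit 4872543450) (nat_lit 1824) (nat_lit 9774365142) (nat_lit 406) (nat_lit 5) (nat_lit 405) (nat_lit 5) (nat_lit 429) (nat_lit 5) (nat_lit 472) (nat_lit 457) (nat_lit 211))) (XT.nd (nat_lit 78) (nat_lit 0) (nat_lit 0) (XT.lf (nat_lit 0) (nat_lit 13403358965) (nat_lit 1748) (nat_lit 3813014083) (nat_lit 1824) (nat_lit 4928390134) (nat_lit 406) (nat_lit 5) (nat_lit 429) (nat_lit 5) (nat_lit 430) (nat_lit 5) (nat_lit 473) (nat_lit 457) (nat_lit 210)) (XT.nd (nat_lit 78) (nat_lit 0) (nat_lit 76) (XT.lf (nat_lit 76) (nat_lit 7298357998) (nat_lit 0) (nat_lit 7468209677) (nat_lit 1824) (nat_lit 7610212395) (nat_lit 407) (nat_lit 5) (nat_lit 406) (nat_lit 5) (nat_lit 430) (nat_lit 5) (nat_lit 474) (nat_lit 457) (nat_lit 209)) (XT.lf (nat_lit 0) (nat_lit 16195323493) (nat_lit 1748) (nat_lit 3948231928) (nat_lit 1824) (nat_lit 2469117705) (nat_lit 407) (nat_lit 5) (nat_lit 430) (nat_lit 5) (nat_lit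 431) (nat_lit 5) (nat_lit 475) (nat_lit 457) (nat_lit 208)))))) (XT.nd (nat_lit 390) (nat_lit 1900) (nat_lit 0) (XT.nd (nat_lit 156) (nat_lit 1672) (nat_lit 0) (XT.nd (nat_lit 78) (nat_lit 0) (nat_lit 0) (XT.lf (nat_lit 76) (nat_lit 7450154920) (nat_lit 0) (nat_lit 10296856006) (nat_lit 1824) (nat_lit 5104387447) (nat_lit 408) (nat_lit 5) (nat_lit 407) (nat_lit 5) (nat_lit 431) (nat_lit 5) (nat_lit 476) (nat_lit 457) (nat_lit 207)) (XT.lf (nat_lit 76) (nat_lit 19127387443) (nat_lit 0) (nat_lit 225417141) (nat_lit 1824) (nat_lit 3741633522) (nat_lit 408) (nat_lit 5) (nat_lit 407) (nat_lit 5) (nat_lit 431) (nat_lit 5) (nat_lit 477) (nat_lit 457) (nat_lit 206))) (XT.nd (nat_lit 78) (nat_lit 1748) (nat_lit 0) (XT.lf (nat_lit 76) (nat_lit 7729299350) (nat_lit 0) (nat_lit 13373483054) (nat_lit 1824) (nat_lit 2237316270) (nat_lit 409) (nat_lit 5) (nat_lit 408) (nat_lit 5) (nat_lit 432) (nat_lit 5) (nat_lit 478) (nat_lit 457)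 (nat_lit 205)) (XT.nd (nat_lit 78) (nat_lit 1748) (nat_lit 0) (XT.lf (nat_lit 76) (nat_lit 19709192563) (nat_lit 0) (nat_lit 3203369569) (nat_lit 1824) (nat_lit 677615647) (nat_lit 409) (nat_lit 5) (nat_lit 408) (nat_lit 5) (nat_lit 432) (nat_lit 5) (nat_lit 479) (nat_lit 457) (nat_lit 204)) (XT.lf (nat_lit 0) (nat_lit 998114011) (nat_lit 1824) (nat_lit 15708924531) (nat_lit 1900) (nat_lit 7136166399) (nat_lit 385) (nat_lit 5) (nat_lit 409) (nat_lit 5) (nat_lit 410) (nat_lit 5) (nat_lit 480) (nat_lit 457) (nat_lit 203))))) (XT.nd (nat_lit 234) (nat_lit 1900) (nat_lit 0) (XT.nd (nat_lit 78) (nat_lit 0) (nat_lit 76) (XT.lf (nat_lit 0) (nat_lit 2742514826) (nat_lit 1824) (nat_lit 3686877366) (nat_lit 1900) (nat_lit 17670927573) (nat_lit 385) (nat_lit 5) (nat_lit 409) (nat_lit 5) (nat_lit 410) (nat_lit 5) (nat_lit 481) (nat_lit 457) (nat_lit 202)) (XT.nd (nat_lit 78) (nat_lit 0) (nat_lit 0) (XT.lf (nat_lit 0) (nat_lit 4601755599)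 (nat_lit 1824) (nat_lit 15701306439) (nat_lit 76) (nat_lit 4057917079) (nat_lit 386) (nat_lit 5) (nat_lit 410) (nat_lit 5) (nat_lit 387) (nat_lit 5) (nat_lit 482) (nat_lit 457) (nat_lit 201)) (XT.lf (nat_lit 0) (nat_lit 6562566457) (nat_lit 1824) (nat_lit 3368655771) (nat_lit 76) (nat_lit 14694342971) (nat_lit 386) (nat_lit 5) (nat_lit 410) (nat_lit 5) (nat_lit 387) (nat_lit 5) (nat_lit 483) (nat_lit 457) (nat_lit 200)))) (XT.nd (nat_lit 78) (nat_lit 912) (nat_lit 0) (XT.lf (nat_lit 0) (nat_lit 8624746502) (nat_lit 1140) (nat_lit 15568521195) (nat_lit 76) (nat_lit 700933466) (nat_lit 372) (nat_lit 5) (nat_lit 387) (nat_lit 5) (nat_lit 373) (nat_lit 5) (nat_lit 484) (nat_lit 457) (nat_lit 199)) (XT.nd (nat_lit 78) (nat_lit 912) (nat_lit 0) (XT.lf (nat_lit 0) (nat_lit 10813702543) (nat_lit 1140) (nat_lit 2916791877) (nat_lit 76) (nat_lit 11436005976) (nat_lit 372) (nat_lit 5) (nat_lit 387) (nat_lit 5) (nat_lit 373) (nat_lit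 5) (nat_lit 485) (nat_lit 457) (nat_lit 198)) (XT.lf (nat_lit 0) (nat_lit 10118044359) (nat_lit 912) (nat_lit 2991152628) (nat_lit 988) (nat_lit 12333794616) (nat_lit 360) (nat_lit 5) (nat_lit 372) (nat_lit 5) (nat_lit 373) (nat_lit 5) (nat_lit 486) (nat_lit 457) (nat_lit 197))))))) (XT.nd (nat_lit 57330) (nat_lit 0) (nat_lit 6460) (XT.nd (nat_lit 390) (nat_lit 1748) (nat_lit 0) (XT.nd (nat_lit 156) (nat_lit 836) (nat_lit 0) (XT.nd (nat_lit 78) (nat_lit 836) (nat_lit 0) (XT.lf (nat_lit 0) (nat_lit 15519113718) (nat_lit 988) (nat_lit 2326007716) (nat_lit 76) (nat_lit 7878522104) (nat_lit 360) (nat_lit 5) (nat_lit 373) (nat_lit 5) (nat_lit 361) (nat_lit 5) (nat_lit 487) (nat_lit 457) (nat_lit 196)) (XT.lf (nat_lit 0) (nat_lit 11055477393) (nat_lit 836) (nat_lit 7010505173) (nat_lit 912) (nat_lit 7942151998) (nat_lit 349) (nat_lit 5) (nat_lit 360) (nat_lit 5) (nat_lit 361) (nat_lit 5) (nat_lit 488) (nat_lit 457) (nat_lit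 195))) (XT.nd (nat_lit 78) (nat_lit 836) (nat_lit 0) (XT.lf (nat_lit 0) (nat_lit 20702941761) (nat_lit 912) (nat_lit 1590880214) (nat_lit 76) (nat_lit 4003711483) (nat_lit 349) (nat_lit 5) (nat_lit 361) (nat_lit 5) (nat_lit 350) (nat_lit 5) (nat_lit 489) (nat_lit 457) (nat_lit 194)) (XT.nd (nat_lit 78) (nat_lit 0) (nat_lit 0) (XT.lf (nat_lit 0) (nat_lit 12148426159) (nat_lit 836) (nat_lit 11366776891) (nat_lit 912) (nat_lit 3075067105) (nat_lit 338) (nat_lit 5) (nat_lit 349) (nat_lit 5) (nat_lit 350) (nat_lit 5) (nat_lit 490) (nat_lit 457) (nat_lit 193)) (XT.lf (nat_lit 0) (nat_lit 26181492887) (nat_lit 836) (nat_lit 210189313) (nat_lit 912) (nat_lit 497020999) (nat_lit 338) (nat_lit 5) (nat_lit 349) (nat_lit 5) (nat_lit 350) (nat_lit 5) (nat_lit 491) (nat_lit 457) (nat_lit 192))))) (XT.nd (nat_lit 56706) (nat_lit 0) (nat_lit 6384) (XT.nd (nat_lit 78) (nat_lit 836) (nat_lit 0) (XT.lf (nat_lit 0) (nat_lit 2262545209)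 (nat_lit 912) (nat_lit 13802071904) (nat_lit 76) (nat_lit 11125053320) (nat_lit 326) (nat_lit 5) (nat_lit 338) (nat_lit 5) (nat_lit 327) (nat_lit 5) (nat_lit 492) (nat_lit 457) (nat_lit 191)) (XT.nd (nat_lit 78) (nat_lit 0) (nat_lit 0) (XT.lf (nat_lit 0) (nat_lit 273587630) (nat_lit 836) (nat_lit 4802379296) (nat_lit 912) (nat_lit 22420518997) (nat_lit 315) (nat_lit 5) (nat_lit 326) (nat_lit 5) (nat_lit 327) (nat_lit 5) (nat_lit 493) (nat_lit 457) (nat_lit 190)) (XT.lf (nat_lit 0) (nat_lit 8079696106) (nat_lit 912) (nat_lit 13036400966) (nat_lit 76) (nat_lit 6690660851) (nat_lit 315) (nat_lit 5) (nat_lit 327) (nat_lit 5) (nat_lit 316) (nat_lit 5) (nat_lit 494) (nat_lit 457) (nat_lit 189)))) (XT.nd (nat_lit 78) (nat_lit 0) (nat_lit 0) (XT.lf (nat_lit 0) (nat_lit 597959272) (nat_lit 0) (nat_lit 597959272) (nat_lit 1748) (nat_lit 8415307470) (nat_lit 399) (nat_lit 5) (nat_lit 399) (nat_lit 3) (nat_lit 422) (nat_lit 3) (nat_lit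 458) (nat_lit 458) (nat_lit 224)) (XT.nd (nat_lit 78) (nat_lit 0) (nat_lit 0) (XT.lf (nat_lit 0) (nat_lit 2643261961) (nat_lit 1748) (nat_lit 8977114803) (nat_lit 1824) (nat_lit 7789674740) (nat_lit 399) (nat_lit 5) (nat_lit 422) (nat_lit 3) (nat_lit 423) (nat_lit 5) (nat_lit 459) (nat_lit 458) (nat_lit 223)) (XT.lf (nat_lit 76) (nat_lit 246179850) (nat_lit 0) (nat_lit 2658445515) (nat_lit 1824) (nat_lit 16696681369) (nat_lit 400) (nat_lit 5) (nat_lit 399) (nat_lit 5) (nat_lit 423) (nat_lit 5) (nat_lit 460) (nat_lit 458) (nat_lit 222)))))) (XT.nd (nat_lit 390) (nat_lit 0) (nat_lit 152) (XT.nd (nat_lit 156) (nat_lit 0) (nat_lit 76) (XT.nd (nat_lit 78) (nat_lit 0) (nat_lit 0) (XT.lf (nat_lit 0) (nat_lit 3269426541) (nat_lit 1748) (nat_lit 10064555382) (nat_lit 1824) (nat_lit 6460442861) (nat_lit 400) (nat_lit 5) (nat_lit 423) (nat_lit 5) (nat_lit 424) (nat_lit 5) (nat_lit 461) (nat_lit 458) (nat_lit 221)) (XT.lf (nat_lit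 0) (nat_lit 3654698205) (nat_lit 1748) (nat_lit 608240396) (nat_lit 1824) (nat_lit 15728204994) (nat_lit 400) (nat_lit 5) (nat_lit 423) (nat_lit 5) (nat_lit 424) (nat_lit 5) (nat_lit 462) (nat_lit 458) (nat_lit 220))) (XT.nd (nat_lit 78) (nat_lit 0) (nat_lit 0) (XT.lf (nat_lit 0) (nat_lit 4135571921) (nat_lit 1748) (nat_lit 11068643825) (nat_lit 1824) (nat_lit 4985824956) (nat_lit 401) (nat_lit 5) (nat_lit 424) (nat_lit 5) (nat_lit 425) (nat_lit 5) (nat_lit 463) (nat_lit 458) (nat_lit 219)) (XT.nd (nat_lit 78) (nat_lit 0) (nat_lit 76) (XT.lf (nat_lit 0) (nat_lit 4654140681) (nat_lit 1748) (nat_lit 1369718450) (nat_lit 1824) (nat_lit 14368496883) (nat_lit 401) (nat_lit 5) (nat_lit 424) (nat_lit 5) (nat_lit 425) (nat_lit 5) (nat_lit 464) (nat_lit 458) (nat_lit 218)) (XT.lf (nat_lit 0) (nat_lit 5257028068) (nat_lit 1748) (nat_lit 11985777653) (nat_lit 1824) (nat_lit 3354434747) (nat_lit 402) (nat_lit 5) (nat_lit 425) (nat_lit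 5) (nat_lit 426) (nat_lit 5) (nat_lit 465) (nat_lit 458) (nat_lit 217))))) (XT.nd (nat_lit 234) (nat_lit 0) (nat_lit 76) (XT.nd (nat_lit 78) (nat_lit 0) (nat_lit 76) (XT.lf (nat_lit 0) (nat_lit 5917016887) (nat_lit 1748) (nat_lit 2037685656) (nat_lit 1824) (nat_lit 12850620939) (nat_lit 402) (nat_lit 5) (nat_lit 425) (nat_lit 5) (nat_lit 426) (nat_lit 5) (nat_lit 466) (nat_lit 458) (nat_lit 216)) (XT.nd (nat_lit 78) (nat_lit 0) (nat_lit 0) (XT.lf (nat_lit 0) (nat_lit 6649745535) (nat_lit 1748) (nat_lit 12812183697) (nat_lit 1824) (nat_lit 1554449834) (nat_lit 403) (nat_lit 5) (nat_lit 426) (nat_lit 5) (nat_lit 427) (nat_lit 5) (nat_lit 467) (nat_lit 458) (nat_lit 215)) (XT.lf (nat_lit 0) (nat_lit 7459624596) (nat_lit 1748) (nat_lit 2608169811) (nat_lit 1824) (nat_lit 11162613115) (nat_lit 403) (nat_lit 5) (nat_lit 426) (nat_lit 5) (nat_lit 427) (nat_lit 5) (nat_lit 468) (nat_lit 458) (nat_lit 214)))) (XT.nd (nat_lit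 78) (nat_lit 0) (nat_lit 76) (XT.lf (nat_lit 76) (nat_lit 7901045828) (nat_lit 0) (nat_lit 432082858) (nat_lit 1824) (nat_lit 13114640957) (nat_lit 404) (nat_lit 5) (nat_lit 403) (nat_lit 5) (nat_lit 427) (nat_lit 5) (nat_lit 469) (nat_lit 458) (nat_lit 213)) (XT.nd (nat_lit 78) (nat_lit 0) (nat_lit 0) (XT.lf (nat_lit 0) (nat_lit 9298925248) (nat_lit 1748) (nat_lit 3077024104) (nat_lit 1824) (nat_lit 9292034818) (nat_lit 404) (nat_lit 5) (nat_lit 427) (nat_lit 5) (nat_lit 428) (nat_lit 5) (nat_lit 470) (nat_lit 458) (nat_lit 212)) (XT.lf (nat_lit 76) (nat_lit 7697642371) (nat_lit 0) (nat_lit 2635506612) (nat_lit 1824) (nat_lit 11558473359) (nat_lit 405) (nat_lit 5) (nat_lit 404) (nat_lit 5) (nat_lit 428) (nat_lit 5) (nat_lit 471) (nat_lit 458) (nat_lit 211))))))))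
noncomputable def xc246 : XT := (XT.nd (nat_lit 1638) (nat_lit 1748) (nat_lit 0) (XT.nd (nat_lit 780) (nat_lit 3572) (nat_lit 0) (XT.nd (nat_lit 390) (nat_lit 1520) (nat_lit 0) (XT.nd (nat_lit 156) (nat_lit 0) (nat_lit 76) (XT.nd (nat_lit 78) (nat_lit 0) (nat_lit 0) (XT.lf (nat_lit 0) (nat_lit 11452573158) (nat_lit 1748) (nat_lit 3439927475) (nat_lit 1824) (nat_lit 7225943876) (nat_lit 405) (nat_lit 5) (nat_lit 428) (nat_lit 5) (nat_lit 429) (nat_lit 5) (nat_lit 472) (nat_lit 458) (nat_lit 210)) (XT.lf (nat_lit 76) (nat_lit 7609008962) (nat_lit 0) (nat_lit 5048641098) (nat_lit 1824) (nat_lit 9690889293) (nat_lit 406) (nat_lit 5) (nat_lit 405) (nat_lit 5) (nat_lit 429) (nat_lit 5) (nat_lit 473) (nat_lit 458) (nat_lit 209))) (XT.nd (nat_lit 78) (nat_lit 0) (nat_lit 0) (XT.lf (nat_lit 0) (nat_lit 13938945599) (nat_lit 1748) (nat_lit 3692385151) (nat_lit 1824) (nat_lit 4950864492) (nat_lit 406) (nat_lit 5) (nat_lit 429)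 (nat_lit 5) (nat_lit 430) (nat_lit 5) (nat_lit 474) (nat_lit 458) (nat_lit 208)) (XT.nd (nat_lit 78) (nat_lit 0) (nat_lit 76) (XT.lf (nat_lit 76) (nat_lit 7639919048) (nat_lit 0) (nat_lit 7685523881) (nat_lit 1824) (nat_lit 7493491262) (nat_lit 407) (nat_lit 5) (nat_lit 406) (nat_lit 5) (nat_lit 430) (nat_lit 5) (nat_lit 475) (nat_lit 458) (nat_lit 207)) (XT.lf (nat_lit 0) (nat_lit 16777173810) (nat_lit 1748) (nat_lit 3829729364) (nat_lit 1824) (nat_lit 2452756104) (nat_lit 407) (nat_lit 5) (nat_lit 430) (nat_lit 5) (nat_lit 431) (nat_lit 5) (nat_lit 476) (nat_lit 458) (nat_lit 206))))) (XT.nd (nat_lit 156) (nat_lit 1672) (nat_lit 0) (XT.nd (nat_lit 78) (nat_lit 0) (nat_lit 0) (XT.lf (nat_lit 76) (nat_lit 7795326095) (nat_lit 0) (nat_lit 10560784827) (nat_lit 1824) (nat_lit 4947125915) (nat_lit 408) (nat_lit 5) (nat_lit 407) (nat_lit 5) (nat_lit 431) (nat_lit 5) (nat_lit 477) (nat_lit 458) (nat_lit 205)) (XT.lf (nat_lit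 76) (nat_lit 19702256836) (nat_lit 0) (nat_lit 286780093) (nat_lit 1824) (nat_lit 3562202191) (nat_lit 408) (nat_lit 5) (nat_lit 407) (nat_lit 5) (nat_lit 431) (nat_lit 5) (nat_lit 478) (nat_lit 458) (nat_lit 204))) (XT.nd (nat_lit 78) (nat_lit 1748) (nat_lit 0) (XT.lf (nat_lit 76) (nat_lit 8080362692) (nat_lit 0) (nat_lit 13689679565) (nat_lit 1824) (nat_lit 2031852126) (nat_lit 409) (nat_lit 5) (nat_lit 408) (nat_lit 5) (nat_lit 432) (nat_lit 5) (nat_lit 479) (nat_lit 458) (nat_lit 203)) (XT.nd (nat_lit 78) (nat_lit 1748) (nat_lit 0) (XT.lf (nat_lit 76) (nat_lit 20296001272) (nat_lit 0) (nat_lit 3315208382) (nat_lit 1824) (nat_lit 445863579) (nat_lit 409) (nat_lit 5) (nat_lit 408) (nat_lit 5) (nat_lit 432) (nat_lit 5) (nat_lit 480) (nat_lit 458) (nat_lit 202)) (XT.lf (nat_lit 0) (nat_lit 1256395088) (nat_lit 1824) (nat_lit 15823298080) (nat_lit 1900) (nat_lit 7235513211) (nat_lit 385) (nat_lit 5) (nat_lit 409) (nat_lit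 5) (nat_lit 410) (nat_lit 5) (nat_lit 481) (nat_lit 458) (nat_lit 201)))))) (XT.nd (nat_lit 390) (nat_lit 2584) (nat_lit 0) (XT.nd (nat_lit 156) (nat_lit 988) (nat_lit 0) (XT.nd (nat_lit 78) (nat_lit 0) (nat_lit 76) (XT.lf (nat_lit 0) (nat_lit 3031011001) (nat_lit 1824) (nat_lit 3564727716) (nat_lit 1900) (nat_lit 17981820128) (nat_lit 385) (nat_lit 5) (nat_lit 409) (nat_lit 5) (nat_lit 410) (nat_lit 5) (nat_lit 482) (nat_lit 458) (nat_lit 200)) (XT.lf (nat_lit 0) (nat_lit 4923886780) (nat_lit 1824) (nat_lit 15815803014) (nat_lit 76) (nat_lit 4103814438) (nat_lit 386) (nat_lit 5) (nat_lit 410) (nat_lit 5) (nat_lit 387) (nat_lit 5) (nat_lit 483) (nat_lit 458) (nat_lit 199))) (XT.nd (nat_lit 78) (nat_lit 1064) (nat_lit 0) (XT.lf (nat_lit 0) (nat_lit 6919402167) (nat_lit 1824) (nat_lit 3240411676) (nat_lit 76) (nat_lit 14953660239) (nat_lit 386) (nat_lit 5) (nat_lit 410) (nat_lit 5) (nat_lit 387) (nat_lit 5) (nat_lit 484)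 (nat_lit 458) (nat_lit 198)) (XT.nd (nat_lit 78) (nat_lit 0) (nat_lit 0) (XT.lf (nat_lit 0) (nat_lit 9019481915) (nat_lit 1140) (nat_lit 15680841557) (nat_lit 76) (nat_lit 687227951) (nat_lit 372) (nat_lit 5) (nat_lit 387) (nat_lit 5) (nat_lit 373) (nat_lit 5) (nat_lit 485) (nat_lit 458) (nat_lit 197)) (XT.lf (nat_lit 0) (nat_lit 11247859421) (nat_lit 1140) (nat_lit 2779980595) (nat_lit 76) (nat_lit 11637545523) (nat_lit 372) (nat_lit 5) (nat_lit 387) (nat_lit 5) (nat_lit 373) (nat_lit 5) (nat_lit 486) (nat_lit 458) (nat_lit 196))))) (XT.nd (nat_lit 234) (nat_lit 836) (nat_lit 0) (XT.nd (nat_lit 78) (nat_lit 836) (nat_lit 0) (XT.lf (nat_lit 0) (nat_lit 10514268503) (nat_lit 912) (nat_lit 3071981727) (nat_lit 988) (nat_lit 12361218320) (nat_lit 360) (nat_lit 5) (nat_lit 372) (nat_lit 5) (nat_lit 373) (nat_lit 5) (nat_lit 487) (nat_lit 458) (nat_lit 195)) (XT.nd (nat_lit 78) (nat_lit 836) (nat_lit 0) (XT.lf (nat_lit 0)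 (nat_lit 16040018461) (nat_lit 988) (nat_lit 2178035197) (nat_lit 76) (nat_lit 8015768479) (nat_lit 360) (nat_lit 5) (nat_lit 373) (nat_lit 5) (nat_lit 361) (nat_lit 5) (nat_lit 488) (nat_lit 458) (nat_lit 194)) (XT.lf (nat_lit 0) (nat_lit 11469800058) (nat_lit 836) (nat_lit 7165151205) (nat_lit 912) (nat_lit 7889110833) (nat_lit 349) (nat_lit 5) (nat_lit 360) (nat_lit 5) (nat_lit 361) (nat_lit 5) (nat_lit 489) (nat_lit 458) (nat_lit 193)))) (XT.nd (nat_lit 78) (nat_lit 836) (nat_lit 0) (XT.lf (nat_lit 0) (nat_lit 21320486201) (nat_lit 912) (nat_lit 1429029186) (nat_lit 76) (nat_lit 4069818460) (nat_lit 349) (nat_lit 5) (nat_lit 361) (nat_lit 5) (nat_lit 350) (nat_lit 5) (nat_lit 490) (nat_lit 458) (nat_lit 192)) (XT.nd (nat_lit 78) (nat_lit 0) (nat_lit 0) (XT.lf (nat_lit 0) (nat_lit 12583789179) (nat_lit 836) (nat_lit 11602462777) (nat_lit 912) (nat_lit 2931729718) (nat_lit 338) (nat_lit 5) (nat_lit 349) (nat_lit 5)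 (nat_lit 350) (nat_lit 5) (nat_lit 491) (nat_lit 458) (nat_lit 191)) (XT.lf (nat_lit 0) (nat_lit 26893744800) (nat_lit 836) (nat_lit 222579715) (nat_lit 912) (nat_lit 306139136) (nat_lit 338) (nat_lit 5) (nat_lit 349) (nat_lit 5) (nat_lit 350) (nat_lit 5) (nat_lit 492) (nat_lit 458) (nat_lit 190))))))) (XT.nd (nat_lit 57408) (nat_lit 0) (nat_lit 6688) (XT.nd (nat_lit 56940) (nat_lit 0) (nat_lit 6460) (XT.nd (nat_lit 56706) (nat_lit 0) (nat_lit 6384) (XT.nd (nat_lit 78) (nat_lit 836) (nat_lit 0) (XT.lf (nat_lit 0) (nat_lit 2503297136) (nat_lit 912) (nat_lit 13884019673) (nat_lit 76) (nat_lit 11342162580) (nat_lit 326) (nat_lit 5) (nat_lit 338) (nat_lit 5) (nat_lit 327) (nat_lit 5) (nat_lit 493) (nat_lit 458) (nat_lit 189)) (XT.lf (nat_lit 0) (nat_lit 471876120) (nat_lit 836) (nat_lit 4898529708) (nat_lit 912) (nat_lit 22672078449) (nat_lit 315) (nat_lit 5) (nat_lit 326) (nat_lit 5) (nat_lit 327) (nat_lit 5) (nat_lit 494)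 (nat_lit 458) (nat_lit 188))) (XT.nd (nat_lit 78) (nat_lit 0) (nat_lit 0) (XT.lf (nat_lit 0) (nat_lit 697475584) (nat_lit 0) (nat_lit 697475584) (nat_lit 1748) (nat_lit 8404922653) (nat_lit 399) (nat_lit 5) (nat_lit 399) (nat_lit 3) (nat_lit 422) (nat_lit 3) (nat_lit 459) (nat_lit 459) (nat_lit 222)) (XT.nd (nat_lit 78) (nat_lit 0) (nat_lit 0) (XT.lf (nat_lit 0) (nat_lit 3038373816) (nat_lit 1748) (nat_lit 8976848631) (nat_lit 1824) (nat_lit 7776039217) (nat_lit 399) (nat_lit 5) (nat_lit 422) (nat_lit 3) (nat_lit 423) (nat_lit 5) (nat_lit 460) (nat_lit 459) (nat_lit 221)) (XT.lf (nat_lit 76) (nat_lit 429728964) (nat_lit 0) (nat_lit 2869684561) (nat_lit 1824) (nat_lit 16687042354) (nat_lit 400) (nat_lit 5) (nat_lit 399) (nat_lit 5) (nat_lit 423) (nat_lit 5) (nat_lit 461) (nat_lit 459) (nat_lit 220))))) (XT.nd (nat_lit 234) (nat_lit 0) (nat_lit 76) (XT.nd (nat_lit 78) (nat_lit 0) (nat_lit 0) (XT.lf (nat_lit 0) (nat_lit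 3663902676) (nat_lit 1748) (nat_lit 10082975115) (nat_lit 1824) (nat_lit 6436713466) (nat_lit 400) (nat_lit 5) (nat_lit 423) (nat_lit 5) (nat_lit 424) (nat_lit 5) (nat_lit 462) (nat_lit 459) (nat_lit 219)) (XT.nd (nat_lit 78) (nat_lit 0) (nat_lit 76) (XT.lf (nat_lit 0) (nat_lit 4050427076) (nat_lit 1748) (nat_lit 441119542) (nat_lit 1824) (nat_lit 15892829631) (nat_lit 400) (nat_lit 5) (nat_lit 423) (nat_lit 5) (nat_lit 424) (nat_lit 5) (nat_lit 463) (nat_lit 459) (nat_lit 218)) (XT.lf (nat_lit 0) (nat_lit 4534843664) (nat_lit 1748) (nat_lit 11104521614) (nat_lit 1824) (nat_lit 4948010208) (nat_lit 401) (nat_lit 5) (nat_lit 424) (nat_lit 5) (nat_lit 425) (nat_lit 5) (nat_lit 464) (nat_lit 459) (nat_lit 217)))) (XT.nd (nat_lit 78) (nat_lit 0) (nat_lit 76) (XT.lf (nat_lit 0) (nat_lit 5057576735) (nat_lit 1748) (nat_lit 1215254890) (nat_lit 1824) (nat_lit 14521032265) (nat_lit 401) (nat_lit 5) (nat_lit 424) (nat_lit 5)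 (nat_lit 425) (nat_lit 5) (nat_lit 465) (nat_lit 459) (nat_lit 216)) (XT.nd (nat_lit 78) (nat_lit 0) (nat_lit 0) (XT.lf (nat_lit 0) (nat_lit 5666799335) (nat_lit 1748) (nat_lit 12037783155) (nat_lit 1824) (nat_lit 3298380585) (nat_lit 402) (nat_lit 5) (nat_lit 425) (nat_lit 5) (nat_lit 426) (nat_lit 5) (nat_lit 466) (nat_lit 459) (nat_lit 215)) (XT.lf (nat_lit 0) (nat_lit 6334014780) (nat_lit 1748) (nat_lit 1894409906) (nat_lit 1824) (nat_lit 12986905067) (nat_lit 402) (nat_lit 5) (nat_lit 425) (nat_lit 5) (nat_lit 426) (nat_lit 5) (nat_lit 467) (nat_lit 459) (nat_lit 214)))))) (XT.nd (nat_lit 390) (nat_lit 0) (nat_lit 152) (XT.nd (nat_lit 156) (nat_lit 0) (nat_lit 0) (XT.nd (nat_lit 78) (nat_lit 0) (nat_lit 0) (XT.lf (nat_lit 0) (nat_lit 7076007163) (nat_lit 1748) (nat_lit 12878882515) (nat_lit 1824) (nat_lit 1475827079) (nat_lit 403) (nat_lit 5) (nat_lit 426) (nat_lit 5) (nat_lit 427) (nat_lit 5) (nat_lit 468) (nat_lit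 459) (nat_lit 213)) (XT.lf (nat_lit 0) (nat_lit 7896333477) (nat_lit 1748) (nat_lit 2474504917) (nat_lit 1824) (nat_lit 11278304837) (nat_lit 403) (nat_lit 5) (nat_lit 426) (nat_lit 5) (nat_lit 427) (nat_lit 5) (nat_lit 469) (nat_lit 459) (nat_lit 212))) (XT.nd (nat_lit 78) (nat_lit 0) (nat_lit 76) (XT.lf (nat_lit 76) (nat_lit 8243672481) (nat_lit 0) (nat_lit 539196175) (nat_lit 1824) (nat_lit 13088075112) (nat_lit 404) (nat_lit 5) (nat_lit 403) (nat_lit 5) (nat_lit 427) (nat_lit 5) (nat_lit 470) (nat_lit 459) (nat_lit 211)) (XT.nd (nat_lit 78) (nat_lit 0) (nat_lit 0) (XT.lf (nat_lit 0) (nat_lit 9761803805) (nat_lit 1748) (nat_lit 2951283854) (nat_lit 1824) (nat_lit 9382600821) (nat_lit 404) (nat_lit 5) (nat_lit 427) (nat_lit 5) (nat_lit 428) (nat_lit 5) (nat_lit 471) (nat_lit 459) (nat_lit 210)) (XT.lf (nat_lit 76) (nat_lit 8037643841) (nat_lit 0) (nat_lit 2774846712) (nat_lit 1824) (nat_lit 11511395594) (nat_lit 405)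 (nat_lit 5) (nat_lit 404) (nat_lit 5) (nat_lit 428) (nat_lit 5) (nat_lit 472) (nat_lit 459) (nat_lit 209))))) (XT.nd (nat_lit 234) (nat_lit 0) (nat_lit 76) (XT.nd (nat_lit 78) (nat_lit 0) (nat_lit 0) (XT.lf (nat_lit 0) (nat_lit 11948405142) (nat_lit 1748) (nat_lit 3320314531) (nat_lit 1824) (nat_lit 7286645302) (nat_lit 405) (nat_lit 5) (nat_lit 428) (nat_lit 5) (nat_lit 429) (nat_lit 5) (nat_lit 473) (nat_lit 459) (nat_lit 208)) (XT.nd (nat_lit 78) (nat_lit 0) (nat_lit 76) (XT.lf (nat_lit 76) (nat_lit 7948361086) (nat_lit 0) (nat_lit 5225206750) (nat_lit 1824) (nat_lit 9616576407) (nat_lit 406) (nat_lit 5) (nat_lit 405) (nat_lit 5) (nat_lit 429) (nat_lit 5) (nat_lit 474) (nat_lit 459) (nat_lit 207)) (XT.lf (nat_lit 0) (nat_lit 14474855859) (nat_lit 1748) (nat_lit 3576989088) (nat_lit 1824) (nat_lit 4976743139) (nat_lit 406) (nat_lit 5) (nat_lit 429) (nat_lit 5) (nat_lit 430) (nat_lit 5) (nat_lit 475) (nat_lit 459) (nat_lit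 206)))) (XT.nd (nat_lit 78) (nat_lit 0) (nat_lit 76) (XT.lf (nat_lit 76) (nat_lit 7980716170) (nat_lit 0) (nat_lit 7904545787) (nat_lit 1824) (nat_lit 7384878406) (nat_lit 407) (nat_lit 5) (nat_lit 406) (nat_lit 5) (nat_lit 430) (nat_lit 5) (nat_lit 476) (nat_lit 459) (nat_lit 205)) (XT.nd (nat_lit 78) (nat_lit 0) (nat_lit 0) (XT.lf (nat_lit 0) (nat_lit 17360644859) (nat_lit 1748) (nat_lit 3716524640) (nat_lit 1824) (nat_lit 2438620189) (nat_lit 407) (nat_lit 5) (nat_lit 430) (nat_lit 5) (nat_lit 431) (nat_lit 5) (nat_lit 477) (nat_lit 459) (nat_lit 204)) (XT.lf (nat_lit 76) (nat_lit 8139783248) (nat_lit 0) (nat_lit 10827740337) (nat_lit 1824) (nat_lit 4796790001) (nat_lit 408) (nat_lit 5) (nat_lit 407) (nat_lit 5) (nat_lit 431) (nat_lit 5) (nat_lit 478) (nat_lit 459) (nat_lit 203))))))))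
noncomputable def xc247 : XT := (XT.nd (nat_lit 58344) (nat_lit 0) (nat_lit 2584) (XT.nd (nat_lit 780) (nat_lit 1672) (nat_lit 0) (XT.nd (nat_lit 390) (nat_lit 1900) (nat_lit 0) (XT.nd (nat_lit 156) (nat_lit 1672) (nat_lit 0) (XT.nd (nat_lit 78) (nat_lit 0) (nat_lit 76) (XT.lf (nat_lit 76) (nat_lit 20281155533) (nat_lit 0) (nat_lit 347162570) (nat_lit 1824) (nat_lit 3389055615) (nat_lit 408) (nat_lit 5) (nat_lit 407) (nat_lit 5) (nat_lit 431) (nat_lit 5) (nat_lit 479) (nat_lit 459) (nat_lit 202)) (XT.lf (nat_lit 76) (nat_lit 8430817846) (nat_lit 0) (nat_lit 14010307883) (nat_lit 1824) (nat_lit 1831994677) (nat_lit 409) (nat_lit 5) (nat_lit 408) (nat_lit 5) (nat_lit 432) (nat_lit 5) (nat_lit 480) (nat_lit 459) (nat_lit 201))) (XT.nd (nat_lit 78) (nat_lit 1748) (nat_lit 0) (XT.lf (nat_lit 76) (nat_lit 20887066298) (nat_lit 0) (nat_lit 3427428949) (nat_lit 1824) (nat_lit 219001937) (nat_lit 409) (nat_lit 5) (nat_lit 408)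 (nat_lit 5) (nat_lit 432) (nat_lit 5) (nat_lit 481) (nat_lit 459) (nat_lit 200)) (XT.nd (nat_lit 78) (nat_lit 0) (nat_lit 0) (XT.lf (nat_lit 0) (nat_lit 1510587576) (nat_lit 1824) (nat_lit 15947717769) (nat_lit 1900) (nat_lit 7338531322) (nat_lit 385) (nat_lit 5) (nat_lit 409) (nat_lit 5) (nat_lit 410) (nat_lit 5) (nat_lit 482) (nat_lit 459) (nat_lit 199)) (XT.lf (nat_lit 0) (nat_lit 3316204345) (nat_lit 1824) (nat_lit 3447741611) (nat_lit 1900) (nat_lit 18300581870) (nat_lit 385) (nat_lit 5) (nat_lit 409) (nat_lit 5) (nat_lit 410) (nat_lit 5) (nat_lit 483) (nat_lit 459) (nat_lit 198))))) (XT.nd (nat_lit 156) (nat_lit 1976) (nat_lit 0) (XT.nd (nat_lit 78) (nat_lit 0) (nat_lit 0) (XT.lf (nat_lit 0) (nat_lit 5243525674) (nat_lit 1824) (nat_lit 15940337496) (nat_lit 76) (nat_lit 4151998971) (nat_lit 386) (nat_lit 5) (nat_lit 410) (nat_lit 5) (nat_lit 387) (nat_lit 5) (nat_lit 484) (nat_lit 459) (nat_lit 197)) (XT.lf (nat_lit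 0) (nat_lit 7274614875) (nat_lit 1824) (nat_lit 3117198754) (nat_lit 76) (nat_lit 15219506232) (nat_lit 386) (nat_lit 5) (nat_lit 410) (nat_lit 5) (nat_lit 387) (nat_lit 5) (nat_lit 485) (nat_lit 459) (nat_lit 196))) (XT.nd (nat_lit 78) (nat_lit 912) (nat_lit 0) (XT.lf (nat_lit 0) (nat_lit 9413482168) (nat_lit 1140) (nat_lit 15803137683) (nat_lit 76) (nat_lit 674324890) (nat_lit 372) (nat_lit 5) (nat_lit 387) (nat_lit 5) (nat_lit 373) (nat_lit 5) (nat_lit 486) (nat_lit 459) (nat_lit 195)) (XT.nd (nat_lit 78) (nat_lit 912) (nat_lit 0) (XT.lf (nat_lit 0) (nat_lit 11682238780) (nat_lit 1140) (nat_lit 2648010888) (nat_lit 76) (nat_lit 11844171315) (nat_lit 372) (nat_lit 5) (nat_lit 387) (nat_lit 5) (nat_lit 373) (nat_lit 5) (nat_lit 487) (nat_lit 459) (nat_lit 194)) (XT.lf (nat_lit 0) (nat_lit 10910889184) (nat_lit 912) (nat_lit 3153611718) (nat_lit 988) (nat_lit 12397704328) (nat_lit 360) (nat_lit 5) (nat_lit 372) (nat_lit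 5) (nat_lit 373) (nat_lit 5) (nat_lit 488) (nat_lit 459) (nat_lit 193)))))) (XT.nd (nat_lit 57096) (nat_lit 0) (nat_lit 4636) (XT.nd (nat_lit 156) (nat_lit 836) (nat_lit 0) (XT.nd (nat_lit 78) (nat_lit 836) (nat_lit 0) (XT.lf (nat_lit 0) (nat_lit 16563166454) (nat_lit 988) (nat_lit 2034655614) (nat_lit 76) (nat_lit 8156548990) (nat_lit 360) (nat_lit 5) (nat_lit 373) (nat_lit 5) (nat_lit 361) (nat_lit 5) (nat_lit 489) (nat_lit 459) (nat_lit 192)) (XT.lf (nat_lit 0) (nat_lit 11884906475) (nat_lit 836) (nat_lit 7322329592) (nat_lit 912) (nat_lit 7843236567) (nat_lit 349) (nat_lit 5) (nat_lit 360) (nat_lit 5) (nat_lit 361) (nat_lit 5) (nat_lit 490) (nat_lit 459) (nat_lit 191))) (XT.nd (nat_lit 78) (nat_lit 836) (nat_lit 0) (XT.lf (nat_lit 0) (nat_lit 21942479936) (nat_lit 912) (nat_lit 1271461527) (nat_lit 76) (nat_lit 4137789941) (nat_lit 349) (nat_lit 5) (nat_lit 361) (nat_lit 5) (nat_lit 350) (nat_lit 5) (nat_lit 491)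 (nat_lit 459) (nat_lit 190)) (XT.nd (nat_lit 78) (nat_lit 0) (nat_lit 0) (XT.lf (nat_lit 0) (nat_lit 13020388545) (nat_lit 836) (nat_lit 11842538126) (nat_lit 912) (nat_lit 2793479721) (nat_lit 338) (nat_lit 5) (nat_lit 349) (nat_lit 5) (nat_lit 350) (nat_lit 5) (nat_lit 492) (nat_lit 459) (nat_lit 189)) (XT.lf (nat_lit 0) (nat_lit 27612917326) (nat_lit 836) (nat_lit 234900028) (nat_lit 912) (nat_lit 119237809) (nat_lit 338) (nat_lit 5) (nat_lit 349) (nat_lit 5) (nat_lit 350) (nat_lit 5) (nat_lit 493) (nat_lit 459) (nat_lit 188))))) (XT.nd (nat_lit 234) (nat_lit 0) (nat_lit 76) (XT.nd (nat_lit 78) (nat_lit 0) (nat_lit 0) (XT.lf (nat_lit 0) (nat_lit 795582272) (nat_lit 0) (nat_lit 795582272) (nat_lit 1748) (nat_lit 8401268928) (nat_lit 399) (nat_lit 5) (nat_lit 399) (nat_lit 3) (nat_lit 422) (nat_lit 3) (nat_lit 460) (nat_lit 460) (nat_lit 220)) (XT.nd (nat_lit 78) (nat_lit 0) (nat_lit 0) (XT.lf (nat_lit 0) (nat_lit 3428098055)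 (nat_lit 1748) (nat_lit 8983559318) (nat_lit 1824) (nat_lit 7768710119) (nat_lit 399) (nat_lit 5) (nat_lit 422) (nat_lit 3) (nat_lit 423) (nat_lit 5) (nat_lit 461) (nat_lit 460) (nat_lit 219)) (XT.lf (nat_lit 76) (nat_lit 610012815) (nat_lit 0) (nat_lit 3079010332) (nat_lit 1824) (nat_lit 16690551903) (nat_lit 400) (nat_lit 5) (nat_lit 399) (nat_lit 5) (nat_lit 423) (nat_lit 5) (nat_lit 462) (nat_lit 460) (nat_lit 218)))) (XT.nd (nat_lit 78) (nat_lit 0) (nat_lit 0) (XT.lf (nat_lit 0) (nat_lit 4053489462) (nat_lit 1748) (nat_lit 10108864360) (nat_lit 1824) (nat_lit 6418448262) (nat_lit 400) (nat_lit 5) (nat_lit 423) (nat_lit 5) (nat_lit 424) (nat_lit 5) (nat_lit 463) (nat_lit 460) (nat_lit 217)) (XT.nd (nat_lit 78) (nat_lit 0) (nat_lit 76) (XT.lf (nat_lit 0) (nat_lit 4441542218) (nat_lit 1748) (nat_lit 277618151) (nat_lit 1824) (nat_lit 16066569093) (nat_lit 400) (nat_lit 5) (nat_lit 423) (nat_lit 5) (nat_lit 424) (nat_lit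 5) (nat_lit 464) (nat_lit 460) (nat_lit 216)) (XT.lf (nat_lit 0) (nat_lit 4929808419) (nat_lit 1748) (nat_lit 11148319959) (nat_lit 1824) (nat_lit 4914779672) (nat_lit 401) (nat_lit 5) (nat_lit 424) (nat_lit 5) (nat_lit 425) (nat_lit 5) (nat_lit 465) (nat_lit 460) (nat_lit 215))))))) (XT.nd (nat_lit 858) (nat_lit 2204) (nat_lit 0) (XT.nd (nat_lit 390) (nat_lit 0) (nat_lit 152) (XT.nd (nat_lit 156) (nat_lit 0) (nat_lit 76) (XT.nd (nat_lit 78) (nat_lit 0) (nat_lit 76) (XT.lf (nat_lit 0) (nat_lit 5457030115) (nat_lit 1748) (nat_lit 1064763823) (nat_lit 1824) (nat_lit 14681854145) (nat_lit 401) (nat_lit 5) (nat_lit 424) (nat_lit 5) (nat_lit 425) (nat_lit 5) (nat_lit 466) (nat_lit 460) (nat_lit 214)) (XT.lf (nat_lit 0) (nat_lit 6072936846) (nat_lit 1748) (nat_lit 12098117777) (nat_lit 1824) (nat_lit 3245987127) (nat_lit 402) (nat_lit 5) (nat_lit 425) (nat_lit 5) (nat_lit 426) (nat_lit 5) (nat_lit 467) (nat_lit 460) (nat_lit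 213))) (XT.nd (nat_lit 78) (nat_lit 0) (nat_lit 76) (XT.lf (nat_lit 0) (nat_lit 6747755394) (nat_lit 1748) (nat_lit 1755414731) (nat_lit 1824) (nat_lit 13130602904) (nat_lit 402) (nat_lit 5) (nat_lit 425) (nat_lit 5) (nat_lit 426) (nat_lit 5) (nat_lit 468) (nat_lit 460) (nat_lit 212)) (XT.nd (nat_lit 78) (nat_lit 0) (nat_lit 0) (XT.lf (nat_lit 0) (nat_lit 7499406120) (nat_lit 1748) (nat_lit 12954275567) (nat_lit 1824) (nat_lit 1399892110) (nat_lit 403) (nat_lit 5) (nat_lit 426) (nat_lit 5) (nat_lit 427) (nat_lit 5) (nat_lit 469) (nat_lit 460) (nat_lit 211)) (XT.lf (nat_lit 0) (nat_lit 8330611924) (nat_lit 1748) (nat_lit 2345382664) (nat_lit 1824) (nat_lit 11400487100) (nat_lit 403) (nat_lit 5) (nat_lit 426) (nat_lit 5) (nat_lit 427) (nat_lit 5) (nat_lit 470) (nat_lit 460) (nat_lit 210))))) (XT.nd (nat_lit 234) (nat_lit 0) (nat_lit 152) (XT.nd (nat_lit 78) (nat_lit 0) (nat_lit 76) (XT.lf (nat_lit 76) (nat_lit 8585983201)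 (nat_lit 0) (nat_lit 644627984) (nat_lit 1824) (nat_lit 13072194685) (nat_lit 404) (nat_lit 5) (nat_lit 403) (nat_lit 5) (nat_lit 427) (nat_lit 5) (nat_lit 471) (nat_lit 460) (nat_lit 209)) (XT.nd (nat_lit 78) (nat_lit 0) (nat_lit 0) (XT.lf (nat_lit 0) (nat_lit 10223187566) (nat_lit 1748) (nat_lit 2830301138) (nat_lit 1824) (nat_lit 9478677778) (nat_lit 404) (nat_lit 5) (nat_lit 427) (nat_lit 5) (nat_lit 428) (nat_lit 5) (nat_lit 472) (nat_lit 460) (nat_lit 208)) (XT.lf (nat_lit 76) (nat_lit 8377220845) (nat_lit 0) (nat_lit 2913609667) (nat_lit 1824) (nat_lit 11474180953) (nat_lit 405) (nat_lit 5) (nat_lit 404) (nat_lit 5) (nat_lit 428) (nat_lit 5) (nat_lit 473) (nat_lit 460) (nat_lit 207)))) (XT.nd (nat_lit 78) (nat_lit 0) (nat_lit 0) (XT.lf (nat_lit 0) (nat_lit 12443794352) (nat_lit 1748) (nat_lit 3205625576) (nat_lit 1824) (nat_lit 7351815491) (nat_lit 405) (nat_lit 5) (nat_lit 428) (nat_lit 5) (nat_lit 429) (nat_lit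 5) (nat_lit 474) (nat_lit 460) (nat_lit 206)) (XT.nd (nat_lit 78) (nat_lit 0) (nat_lit 76) (XT.lf (nat_lit 76) (nat_lit 8287232137) (nat_lit 0) (nat_lit 5402368353) (nat_lit 1824) (nat_lit 9551189104) (nat_lit 406) (nat_lit 5) (nat_lit 405) (nat_lit 5) (nat_lit 429) (nat_lit 5) (nat_lit 475) (nat_lit 460) (nat_lit 205)) (XT.lf (nat_lit 0) (nat_lit 15011499601) (nat_lit 1748) (nat_lit 3466633670) (nat_lit 1824) (nat_lit 5005979421) (nat_lit 406) (nat_lit 5) (nat_lit 429) (nat_lit 5) (nat_lit 430) (nat_lit 5) (nat_lit 476) (nat_lit 460) (nat_lit 204)))))) (XT.nd (nat_lit 390) (nat_lit 2584) (nat_lit 0) (XT.nd (nat_lit 156) (nat_lit 0) (nat_lit 76) (XT.nd (nat_lit 78) (nat_lit 0) (nat_lit 76) (XT.lf (nat_lit 76) (nat_lit 8321029014) (nat_lit 0) (nat_lit 8125412009) (nat_lit 1824) (nat_lit 7284130491) (nat_lit 407) (nat_lit 5) (nat_lit 406) (nat_lit 5) (nat_lit 430) (nat_lit 5) (nat_lit 477) (nat_lit 460) (nat_lit 203))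 (XT.lf (nat_lit 0) (nat_lit 17946158000) (nat_lit 1748) (nat_lit 3608425960) (nat_lit 1824) (nat_lit 2426655341) (nat_lit 407) (nat_lit 5) (nat_lit 430) (nat_lit 5) (nat_lit 431) (nat_lit 5) (nat_lit 478) (nat_lit 460) (nat_lit 202))) (XT.nd (nat_lit 78) (nat_lit 0) (nat_lit 0) (XT.lf (nat_lit 76) (nat_lit 8483807894) (nat_lit 0) (nat_lit 11097870511) (nat_lit 1824) (nat_lit 4653127154) (nat_lit 408) (nat_lit 5) (nat_lit 407) (nat_lit 5) (nat_lit 431) (nat_lit 5) (nat_lit 479) (nat_lit 460) (nat_lit 201)) (XT.nd (nat_lit 78) (nat_lit 0) (nat_lit 76) (XT.lf (nat_lit 76) (nat_lit 20864454115) (nat_lit 0) (nat_lit 406630692) (nat_lit 1824) (nat_lit 3221936093) (nat_lit 408) (nat_lit 5) (nat_lit 407) (nat_lit 5) (nat_lit 431) (nat_lit 5) (nat_lit 480) (nat_lit 460) (nat_lit 200)) (XT.lf (nat_lit 76) (nat_lit 8780948909) (nat_lit 0) (nat_lit 14335530119) (nat_lit 1824) (nat_lit 1637478773) (nat_lit 409) (nat_lit 5) (nat_lit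 408) (nat_lit 5) (nat_lit 432) (nat_lit 5) (nat_lit 481) (nat_lit 460) (nat_lit 199))))) (XT.nd (nat_lit 234) (nat_lit 912) (nat_lit 0) (XT.nd (nat_lit 78) (nat_lit 0) (nat_lit 76) (XT.lf (nat_lit 0) (nat_lit 3198843) (nat_lit 1824) (nat_lit 3536890628) (nat_lit 1900) (nat_lit 21479542909) (nat_lit 384) (nat_lit 5) (nat_lit 408) (nat_lit 5) (nat_lit 409) (nat_lit 5) (nat_lit 482) (nat_lit 460) (nat_lit 198)) (XT.nd (nat_lit 78) (nat_lit 0) (nat_lit 0) (XT.lf (nat_lit 0) (nat_lit 1760969057) (nat_lit 1824) (nat_lit 16082083243) (nat_lit 1900) (nat_lit 7445228752) (nat_lit 385) (nat_lit 5) (nat_lit 409) (nat_lit 5) (nat_lit 410) (nat_lit 5) (nat_lit 483) (nat_lit 460) (nat_lit 197)) (XT.lf (nat_lit 0) (nat_lit 3598381108) (nat_lit 1824) (nat_lit 3335726952) (nat_lit 1900) (nat_lit 18627306060) (nat_lit 385) (nat_lit 5) (nat_lit 409) (nat_lit 5) (nat_lit 410) (nat_lit 5) (nat_lit 484) (nat_lit 460) (nat_lit 196)))) (XT.nd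 (nat_lit 78) (nat_lit 1064) (nat_lit 0) (XT.lf (nat_lit 0) (nat_lit 5560969388) (nat_lit 1824) (nat_lit 16074809779) (nat_lit 76) (nat_lit 4202463252) (nat_lit 386) (nat_lit 5) (nat_lit 410) (nat_lit 5) (nat_lit 387) (nat_lit 5) (nat_lit 485) (nat_lit 460) (nat_lit 195)) (XT.nd (nat_lit 78) (nat_lit 1064) (nat_lit 0) (XT.lf (nat_lit 0) (nat_lit 7628512272) (nat_lit 1824) (nat_lit 2998822665) (nat_lit 76) (nat_lit 15491959398) (nat_lit 386) (nat_lit 5) (nat_lit 410) (nat_lit 5) (nat_lit 387) (nat_lit 5) (nat_lit 486) (nat_lit 460) (nat_lit 194)) (XT.lf (nat_lit 0) (nat_lit 9807067665) (nat_lit 1140) (nat_lit 15935308947) (nat_lit 76) (nat_lit 662198527) (nat_lit 372) (nat_lit 5) (nat_lit 387) (nat_lit 5) (nat_lit 373) (nat_lit 5) (nat_lit 487) (nat_lit 460) (nat_lit 193))))))))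
noncomputable def xc248 : XT := (XT.nd (nat_lit 58422) (nat_lit 0) (nat_lit 836) (XT.nd (nat_lit 57564) (nat_lit 0) (nat_lit 4712) (XT.nd (nat_lit 390) (nat_lit 836) (nat_lit 0) (XT.nd (nat_lit 156) (nat_lit 836) (nat_lit 0) (XT.nd (nat_lit 78) (nat_lit 912) (nat_lit 0) (XT.lf (nat_lit 0) (nat_lit 12117173608) (nat_lit 1140) (nat_lit 2520685333) (nat_lit 76) (nat_lit 12055944094) (nat_lit 372) (nat_lit 5) (nat_lit 387) (nat_lit 5) (nat_lit 373) (nat_lit 5) (nat_lit 488) (nat_lit 460) (nat_lit 192)) (XT.lf (nat_lit 0) (nat_lit 11308206650) (nat_lit 912) (nat_lit 3236090292) (nat_lit 988) (nat_lit 12443103283) (nat_lit 360) (nat_lit 5) (nat_lit 372) (nat_lit 5) (nat_lit 373) (nat_lit 5) (nat_lit 489) (nat_lit 460) (nat_lit 191))) (XT.nd (nat_lit 78) (nat_lit 836) (nat_lit 0) (XT.lf (nat_lit 0) (nat_lit 17088920003) (nat_lit 988) (nat_lit 1895667560) (nat_lit 76) (nat_lit 8300903674) (nat_lit 360) (nat_lit 5) (nat_lit 373)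 (nat_lit 5) (nat_lit 361) (nat_lit 5) (nat_lit 490) (nat_lit 460) (nat_lit 190)) (XT.nd (nat_lit 78) (nat_lit 0) (nat_lit 0) (XT.lf (nat_lit 0) (nat_lit 12301103658) (nat_lit 836) (nat_lit 7482112750) (nat_lit 912) (nat_lit 7804353045) (nat_lit 349) (nat_lit 5) (nat_lit 360) (nat_lit 5) (nat_lit 361) (nat_lit 5) (nat_lit 491) (nat_lit 460) (nat_lit 189)) (XT.lf (nat_lit 0) (nat_lit 22569318780) (nat_lit 912) (nat_lit 1117970878) (nat_lit 76) (nat_lit 4207642157) (nat_lit 349) (nat_lit 5) (nat_lit 361) (nat_lit 5) (nat_lit 350) (nat_lit 5) (nat_lit 492) (nat_lit 460) (nat_lit 188))))) (XT.nd (nat_lit 56940) (nat_lit 0) (nat_lit 4636) (XT.nd (nat_lit 56862) (nat_lit 0) (nat_lit 4636) (XT.lf (nat_lit 0) (nat_lit 13458539092) (nat_lit 836) (nat_lit 12087103319) (nat_lit 912) (nat_lit 2660109993) (nat_lit 338) (nat_lit 5) (nat_lit 349) (nat_lit 5) (nat_lit 350) (nat_lit 5) (nat_lit 493) (nat_lit 460) (nat_lit 187)) (XT.lf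 (nat_lit 0) (nat_lit 892383168) (nat_lit 0) (nat_lit 892383168) (nat_lit 1748) (nat_lit 8404211474) (nat_lit 399) (nat_lit 5) (nat_lit 399) (nat_lit 3) (nat_lit 422) (nat_lit 3) (nat_lit 461) (nat_lit 461) (nat_lit 218))) (XT.nd (nat_lit 78) (nat_lit 0) (nat_lit 0) (XT.lf (nat_lit 0) (nat_lit 3812842987) (nat_lit 1748) (nat_lit 8997115273) (nat_lit 1824) (nat_lit 7767558098) (nat_lit 399) (nat_lit 5) (nat_lit 422) (nat_lit 3) (nat_lit 423) (nat_lit 5) (nat_lit 462) (nat_lit 461) (nat_lit 217)) (XT.nd (nat_lit 78) (nat_lit 0) (nat_lit 76) (XT.lf (nat_lit 76) (nat_lit 787235438) (nat_lit 0) (nat_lit 3286622911) (nat_lit 1824) (nat_lit 16706954927) (nat_lit 400) (nat_lit 5) (nat_lit 399) (nat_lit 5) (nat_lit 423) (nat_lit 5) (nat_lit 463) (nat_lit 461) (nat_lit 216)) (XT.lf (nat_lit 0) (nat_lit 4438585330) (nat_lit 1748) (nat_lit 10142096764) (nat_lit 1824) (nat_lit 6405525922) (nat_lit 400) (nat_lit 5) (nat_lit 423) (nat_lit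 5) (nat_lit 424) (nat_lit 5) (nat_lit 464) (nat_lit 461) (nat_lit 215)))))) (XT.nd (nat_lit 390) (nat_lit 0) (nat_lit 228) (XT.nd (nat_lit 156) (nat_lit 0) (nat_lit 76) (XT.nd (nat_lit 78) (nat_lit 0) (nat_lit 76) (XT.lf (nat_lit 0) (nat_lit 4828437845) (nat_lit 1748) (nat_lit 117538276) (nat_lit 1824) (nat_lit 16249379587) (nat_lit 400) (nat_lit 5) (nat_lit 423) (nat_lit 5) (nat_lit 424) (nat_lit 5) (nat_lit 465) (nat_lit 461) (nat_lit 214)) (XT.lf (nat_lit 0) (nat_lit 5320857377) (nat_lit 1748) (nat_lit 11199917569) (nat_lit 1824) (nat_lit 4886017652) (nat_lit 401) (nat_lit 5) (nat_lit 424) (nat_lit 5) (nat_lit 425) (nat_lit 5) (nat_lit 466) (nat_lit 461) (nat_lit 213))) (XT.nd (nat_lit 78) (nat_lit 0) (nat_lit 76) (XT.lf (nat_lit 0) (nat_lit 5852889138) (nat_lit 1748) (nat_lit 918050484) (nat_lit 1824) (nat_lit 14850924941) (nat_lit 401) (nat_lit 5) (nat_lit 424) (nat_lit 5) (nat_lit 425) (nat_lit 5) (nat_lit 467)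 (nat_lit 461) (nat_lit 212)) (XT.nd (nat_lit 78) (nat_lit 0) (nat_lit 0) (XT.lf (nat_lit 0) (nat_lit 6475827268) (nat_lit 1748) (nat_lit 12166665060) (nat_lit 1824) (nat_lit 3197141904) (nat_lit 402) (nat_lit 5) (nat_lit 425) (nat_lit 5) (nat_lit 426) (nat_lit 5) (nat_lit 468) (nat_lit 461) (nat_lit 211)) (XT.lf (nat_lit 0) (nat_lit 7158623918) (nat_lit 1748) (nat_lit 1620508248) (nat_lit 1824) (nat_lit 13281680682) (nat_lit 402) (nat_lit 5) (nat_lit 425) (nat_lit 5) (nat_lit 426) (nat_lit 5) (nat_lit 469) (nat_lit 461) (nat_lit 210))))) (XT.nd (nat_lit 234) (nat_lit 0) (nat_lit 76) (XT.nd (nat_lit 78) (nat_lit 0) (nat_lit 0) (XT.lf (nat_lit 0) (nat_lit 7920327358) (nat_lit 1748) (nat_lit 13038250930) (nat_lit 1824) (nat_lit 1326533252) (nat_lit 403) (nat_lit 5) (nat_lit 426) (nat_lit 5) (nat_lit 427) (nat_lit 5) (nat_lit 470) (nat_lit 461) (nat_lit 209)) (XT.nd (nat_lit 78) (nat_lit 0) (nat_lit 0) (XT.lf (nat_lit 0)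 (nat_lit 8762844864) (nat_lit 1748) (nat_lit 2220613701) (nat_lit 1824) (nat_lit 11529127528) (nat_lit 403) (nat_lit 5) (nat_lit 426) (nat_lit 5) (nat_lit 427) (nat_lit 5) (nat_lit 471) (nat_lit 461) (nat_lit 208)) (XT.lf (nat_lit 76) (nat_lit 8928250029) (nat_lit 0) (nat_lit 748493136) (nat_lit 1824) (nat_lit 13066777824) (nat_lit 404) (nat_lit 5) (nat_lit 403) (nat_lit 5) (nat_lit 427) (nat_lit 5) (nat_lit 472) (nat_lit 461) (nat_lit 207)))) (XT.nd (nat_lit 78) (nat_lit 0) (nat_lit 0) (XT.lf (nat_lit 0) (nat_lit 10683464164) (nat_lit 1748) (nat_lit 2713888713) (nat_lit 1824) (nat_lit 9580232244) (nat_lit 404) (nat_lit 5) (nat_lit 427) (nat_lit 5) (nat_lit 428) (nat_lit 5) (nat_lit 473) (nat_lit 461) (nat_lit 206)) (XT.nd (nat_lit 78) (nat_lit 0) (nat_lit 76) (XT.lf (nat_lit 76) (nat_lit 8716645430) (nat_lit 0) (nat_lit 3051914560) (nat_lit 1824) (nat_lit 11446607139) (nat_lit 405) (nat_lit 5) (nat_lit 404) (nat_lit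 5) (nat_lit 428) (nat_lit 5) (nat_lit 474) (nat_lit 461) (nat_lit 205)) (XT.lf (nat_lit 0) (nat_lit 12939134203) (nat_lit 1748) (nat_lit 3095674990) (nat_lit 1824) (nat_lit 7421417431) (nat_lit 405) (nat_lit 5) (nat_lit 428) (nat_lit 5) (nat_lit 429) (nat_lit 5) (nat_lit 475) (nat_lit 461) (nat_lit 204))))))) (XT.nd (nat_lit 780) (nat_lit 2660) (nat_lit 0) (XT.nd (nat_lit 390) (nat_lit 1596) (nat_lit 0) (XT.nd (nat_lit 156) (nat_lit 0) (nat_lit 76) (XT.nd (nat_lit 78) (nat_lit 0) (nat_lit 76) (XT.lf (nat_lit 76) (nat_lit 8625894725) (nat_lit 0) (nat_lit 5580251810) (nat_lit 1824) (nat_lit 9494501591) (nat_lit 406) (nat_lit 5) (nat_lit 405) (nat_lit 5) (nat_lit 429) (nat_lit 5) (nat_lit 476) (nat_lit 461) (nat_lit 203)) (XT.lf (nat_lit 0) (nat_lit 15549279213) (nat_lit 1748) (nat_lit 3361134356) (nat_lit 1824) (nat_lit 5038530209) (nat_lit 406) (nat_lit 5) (nat_lit 429) (nat_lit 5) (nat_lit 430) (nat_lit 5) (nat_lit 477)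 (nat_lit 461) (nat_lit 202))) (XT.nd (nat_lit 78) (nat_lit 0) (nat_lit 76) (XT.lf (nat_lit 76) (nat_lit 8661131372) (nat_lit 0) (nat_lit 8348257914) (nat_lit 1824) (nat_lit 7191015059) (nat_lit 407) (nat_lit 5) (nat_lit 406) (nat_lit 5) (nat_lit 430) (nat_lit 5) (nat_lit 478) (nat_lit 461) (nat_lit 201)) (XT.nd (nat_lit 78) (nat_lit 0) (nat_lit 0) (XT.lf (nat_lit 0) (nat_lit 18534127914) (nat_lit 1748) (nat_lit 3505249254) (nat_lit 1824) (nat_lit 2416809698) (nat_lit 407) (nat_lit 5) (nat_lit 430) (nat_lit 5) (nat_lit 431) (nat_lit 5) (nat_lit 479) (nat_lit 461) (nat_lit 200)) (XT.lf (nat_lit 76) (nat_lit 8827675690) (nat_lit 0) (nat_lit 11371322892) (nat_lit 1824) (nat_lit 4515894957) (nat_lit 408) (nat_lit 5) (nat_lit 407) (nat_lit 5) (nat_lit 431) (nat_lit 5) (nat_lit 480) (nat_lit 461) (nat_lit 199))))) (XT.nd (nat_lit 156) (nat_lit 1748) (nat_lit 0) (XT.nd (nat_lit 78) (nat_lit 0) (nat_lit 76) (XT.lf (nat_lit 76)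 (nat_lit 21452519313) (nat_lit 0) (nat_lit 465248571) (nat_lit 1824) (nat_lit 3060595659) (nat_lit 408) (nat_lit 5) (nat_lit 407) (nat_lit 5) (nat_lit 431) (nat_lit 5) (nat_lit 481) (nat_lit 461) (nat_lit 198)) (XT.lf (nat_lit 76) (nat_lit 9131034156) (nat_lit 0) (nat_lit 14665508769) (nat_lit 1824) (nat_lit 1448048612) (nat_lit 409) (nat_lit 5) (nat_lit 408) (nat_lit 5) (nat_lit 432) (nat_lit 5) (nat_lit 482) (nat_lit 461) (nat_lit 197))) (XT.nd (nat_lit 78) (nat_lit 0) (nat_lit 76) (XT.lf (nat_lit 0) (nat_lit 218229299) (nat_lit 1824) (nat_lit 3433639078) (nat_lit 1900) (nat_lit 21863770111) (nat_lit 384) (nat_lit 5) (nat_lit 408) (nat_lit 5) (nat_lit 409) (nat_lit 5) (nat_lit 483) (nat_lit 461) (nat_lit 196)) (XT.nd (nat_lit 78) (nat_lit 0) (nat_lit 0) (XT.lf (nat_lit 0) (nat_lit 2007808709) (nat_lit 1824) (nat_lit 16226303838) (nat_lit 1900) (nat_lit 7555616221) (nat_lit 385) (nat_lit 5) (nat_lit 409) (nat_lit 5)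 (nat_lit 410) (nat_lit 5) (nat_lit 484) (nat_lit 461) (nat_lit 195)) (XT.lf (nat_lit 0) (nat_lit 3877819584) (nat_lit 1824) (nat_lit 3228499266) (nat_lit 1900) (nat_lit 18962090314) (nat_lit 385) (nat_lit 5) (nat_lit 409) (nat_lit 5) (nat_lit 410) (nat_lit 5) (nat_lit 485) (nat_lit 461) (nat_lit 194)))))) (XT.nd (nat_lit 390) (nat_lit 836) (nat_lit 0) (XT.nd (nat_lit 156) (nat_lit 1976) (nat_lit 0) (XT.nd (nat_lit 78) (nat_lit 0) (nat_lit 0) (XT.lf (nat_lit 0) (nat_lit 5876507500) (nat_lit 1824) (nat_lit 16219129441) (nat_lit 76) (nat_lit 4255201773) (nat_lit 386) (nat_lit 5) (nat_lit 410) (nat_lit 5) (nat_lit 387) (nat_lit 5) (nat_lit 486) (nat_lit 461) (nat_lit 193)) (XT.lf (nat_lit 0) (nat_lit 7981394992) (nat_lit 1824) (nat_lit 2885096633) (nat_lit 76) (nat_lit 15771101778) (nat_lit 386) (nat_lit 5) (nat_lit 410) (nat_lit 5) (nat_lit 387) (nat_lit 5) (nat_lit 487) (nat_lit 461) (nat_lit 192))) (XT.nd (nat_lit 78)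 (nat_lit 912) (nat_lit 0) (XT.lf (nat_lit 0) (nat_lit 10200552207) (nat_lit 1140) (nat_lit 16077264368) (nat_lit 76) (nat_lit 650824215) (nat_lit 372) (nat_lit 5) (nat_lit 387) (nat_lit 5) (nat_lit 373) (nat_lit 5) (nat_lit 488) (nat_lit 461) (nat_lit 191)) (XT.nd (nat_lit 78) (nat_lit 912) (nat_lit 0) (XT.lf (nat_lit 0) (nat_lit 12552990795) (nat_lit 1140) (nat_lit 2397813982) (nat_lit 76) (nat_lit 12272927405) (nat_lit 372) (nat_lit 5) (nat_lit 387) (nat_lit 5) (nat_lit 373) (nat_lit 5) (nat_lit 489) (nat_lit 461) (nat_lit 190)) (XT.lf (nat_lit 0) (nat_lit 11706515807) (nat_lit 912) (nat_lit 3319464866) (nat_lit 988) (nat_lit 12497275680) (nat_lit 360) (nat_lit 5) (nat_lit 372) (nat_lit 5) (nat_lit 373) (nat_lit 5) (nat_lit 490) (nat_lit 461) (nat_lit 189))))) (XT.nd (nat_lit 57174) (nat_lit 0) (nat_lit 3800) (XT.nd (nat_lit 78) (nat_lit 836) (nat_lit 0) (XT.lf (nat_lit 0) (nat_lit 17617636331) (nat_lit 988) (nat_lit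 1760876983) (nat_lit 76) (nat_lit 8448874557) (nat_lit 360) (nat_lit 5) (nat_lit 373) (nat_lit 5) (nat_lit 361) (nat_lit 5) (nat_lit 491) (nat_lit 461) (nat_lit 188)) (XT.nd (nat_lit 57018) (nat_lit 0) (nat_lit 3800) (XT.lf (nat_lit 0) (nat_lit 12718693450) (nat_lit 836) (nat_lit 7644573696) (nat_lit 912) (nat_lit 7772292995) (nat_lit 349) (nat_lit 5) (nat_lit 360) (nat_lit 5) (nat_lit 361) (nat_lit 5) (nat_lit 492) (nat_lit 461) (nat_lit 187)) (XT.lf (nat_lit 0) (nat_lit 987979054) (nat_lit 0) (nat_lit 987979054) (nat_lit 1748) (nat_lit 8413623239) (nat_lit 399) (nat_lit 5) (nat_lit 399) (nat_lit 3) (nat_lit 422) (nat_lit 3) (nat_lit 462) (nat_lit 462) (nat_lit 216)))) (XT.nd (nat_lit 78) (nat_lit 0) (nat_lit 0) (XT.lf (nat_lit 0) (nat_lit 4193005047) (nat_lit 1748) (nat_lit 9017392805) (nat_lit 1824) (nat_lit 7772461141) (nat_lit 399) (nat_lit 5) (nat_lit 422) (nat_lit 3) (nat_lit 423) (nat_lit 5) (nat_lit 463) (nat_lit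 462) (nat_lit 215)) (XT.nd (nat_lit 78) (nat_lit 0) (nat_lit 76) (XT.lf (nat_lit 76) (nat_lit 961594495) (nat_lit 0) (nat_lit 3492717126) (nat_lit 1824) (nat_lit 16736011351) (nat_lit 400) (nat_lit 5) (nat_lit 399) (nat_lit 5) (nat_lit 423) (nat_lit 5) (nat_lit 464) (nat_lit 462) (nat_lit 214)) (XT.lf (nat_lit 0) (nat_lit 4819577412) (nat_lit 1748) (nat_lit 10182554151) (nat_lit 1824) (nat_lit 6397831649) (nat_lit 400) (nat_lit 5) (nat_lit 423) (nat_lit 5) (nat_lit 424) (nat_lit 5) (nat_lit 465) (nat_lit 462) (nat_lit 213))))))))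
noncomputable def xc249 : XT := (XT.nd (nat_lit 1638) (nat_lit 1824) (nat_lit 0) (XT.nd (nat_lit 780) (nat_lit 1216) (nat_lit 0) (XT.nd (nat_lit 390) (nat_lit 0) (nat_lit 228) (XT.nd (nat_lit 156) (nat_lit 0) (nat_lit 76) (XT.nd (nat_lit 78) (nat_lit 0) (nat_lit 76) (XT.lf (nat_lit 76) (nat_lit 39833924) (nat_lit 0) (nat_lit 5171921870) (nat_lit 1824) (nat_lit 16401649930) (nat_lit 401) (nat_lit 5) (nat_lit 400) (nat_lit 5) (nat_lit 424) (nat_lit 5) (nat_lit 466) (nat_lit 462) (nat_lit 212)) (XT.lf (nat_lit 0) (nat_lit 5708371016) (nat_lit 1748) (nat_lit 11259201591) (nat_lit 1824) (nat_lit 4861614194) (nat_lit 401) (nat_lit 5) (nat_lit 424) (nat_lit 5) (nat_lit 425) (nat_lit 5) (nat_lit 467) (nat_lit 462) (nat_lit 211))) (XT.nd (nat_lit 78) (nat_lit 0) (nat_lit 76) (XT.lf (nat_lit 0) (nat_lit 6245531716) (nat_lit 1748) (nat_lit 774926856) (nat_lit 1824) (nat_lit 15028214213) (nat_lit 401) (nat_lit 5) (nat_lit 424) (nat_lit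 5) (nat_lit 425) (nat_lit 5) (nat_lit 468) (nat_lit 462) (nat_lit 210)) (XT.nd (nat_lit 78) (nat_lit 0) (nat_lit 0) (XT.lf (nat_lit 0) (nat_lit 6875847162) (nat_lit 1748) (nat_lit 12243317207) (nat_lit 1824) (nat_lit 3151737409) (nat_lit 402) (nat_lit 5) (nat_lit 425) (nat_lit 5) (nat_lit 426) (nat_lit 5) (nat_lit 469) (nat_lit 462) (nat_lit 209)) (XT.lf (nat_lit 0) (nat_lit 7566995758) (nat_lit 1748) (nat_lit 1489505518) (nat_lit 1824) (nat_lit 13440111028) (nat_lit 402) (nat_lit 5) (nat_lit 425) (nat_lit 5) (nat_lit 426) (nat_lit 5) (nat_lit 470) (nat_lit 462) (nat_lit 208))))) (XT.nd (nat_lit 156) (nat_lit 0) (nat_lit 0) (XT.nd (nat_lit 78) (nat_lit 0) (nat_lit 0) (XT.lf (nat_lit 0) (nat_lit 8339146357) (nat_lit 1748) (nat_lit 13130705540) (nat_lit 1824) (nat_lit 1255643022) (nat_lit 403) (nat_lit 5) (nat_lit 426) (nat_lit 5) (nat_lit 427) (nat_lit 5) (nat_lit 471) (nat_lit 462) (nat_lit 207)) (XT.lf (nat_lit 0) (nat_lit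 9193408087) (nat_lit 1748) (nat_lit 2100015771) (nat_lit 1824) (nat_lit 11664199397) (nat_lit 403) (nat_lit 5) (nat_lit 426) (nat_lit 5) (nat_lit 427) (nat_lit 5) (nat_lit 472) (nat_lit 462) (nat_lit 206))) (XT.nd (nat_lit 78) (nat_lit 0) (nat_lit 76) (XT.lf (nat_lit 76) (nat_lit 9270739640) (nat_lit 0) (nat_lit 850903015) (nat_lit 1824) (nat_lit 13071615153) (nat_lit 404) (nat_lit 5) (nat_lit 403) (nat_lit 5) (nat_lit 427) (nat_lit 5) (nat_lit 473) (nat_lit 462) (nat_lit 205)) (XT.nd (nat_lit 78) (nat_lit 0) (nat_lit 0) (XT.lf (nat_lit 0) (nat_lit 11143012769) (nat_lit 1748) (nat_lit 2601866556) (nat_lit 1824) (nat_lit 9687235688) (nat_lit 404) (nat_lit 5) (nat_lit 427) (nat_lit 5) (nat_lit 428) (nat_lit 5) (nat_lit 474) (nat_lit 462) (nat_lit 204)) (XT.lf (nat_lit 76) (nat_lit 9056184191) (nat_lit 0) (nat_lit 3189877784) (nat_lit 1824) (nat_lit 11428463702) (nat_lit 405) (nat_lit 5) (nat_lit 404) (nat_lit 5) (nat_lit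 428) (nat_lit 5) (nat_lit 475) (nat_lit 462) (nat_lit 203)))))) (XT.nd (nat_lit 390) (nat_lit 1596) (nat_lit 0) (XT.nd (nat_lit 156) (nat_lit 0) (nat_lit 76) (XT.nd (nat_lit 78) (nat_lit 0) (nat_lit 0) (XT.lf (nat_lit 0) (nat_lit 13434810354) (nat_lit 1748) (nat_lit 2990284475) (nat_lit 1824) (nat_lit 7495418282) (nat_lit 405) (nat_lit 5) (nat_lit 428) (nat_lit 5) (nat_lit 429) (nat_lit 5) (nat_lit 476) (nat_lit 462) (nat_lit 202)) (XT.lf (nat_lit 76) (nat_lit 8964615950) (nat_lit 0) (nat_lit 5758981115) (nat_lit 1824) (nat_lit 9446299260) (nat_lit 406) (nat_lit 5) (nat_lit 405) (nat_lit 5) (nat_lit 429) (nat_lit 5) (nat_lit 477) (nat_lit 462) (nat_lit 201))) (XT.nd (nat_lit 78) (nat_lit 0) (nat_lit 0) (XT.lf (nat_lit 0) (nat_lit 16088590076) (nat_lit 1748) (nat_lit 3260313994) (nat_lit 1824) (nat_lit 5074355791) (nat_lit 406) (nat_lit 5) (nat_lit 429) (nat_lit 5) (nat_lit 430) (nat_lit 5) (nat_lit 478) (nat_lit 462)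 (nat_lit 200)) (XT.nd (nat_lit 78) (nat_lit 0) (nat_lit 76) (XT.lf (nat_lit 76) (nat_lit 9001291501) (nat_lit 0) (nat_lit 8573217752) (nat_lit 1824) (nat_lit 7105310137) (nat_lit 407) (nat_lit 5) (nat_lit 406) (nat_lit 5) (nat_lit 430) (nat_lit 5) (nat_lit 479) (nat_lit 462) (nat_lit 199)) (XT.lf (nat_lit 0) (nat_lit 19124963062) (nat_lit 1748) (nat_lit 3406817883) (nat_lit 1824) (nat_lit 2409034060) (nat_lit 407) (nat_lit 5) (nat_lit 430) (nat_lit 5) (nat_lit 431) (nat_lit 5) (nat_lit 480) (nat_lit 462) (nat_lit 198))))) (XT.nd (nat_lit 234) (nat_lit 1748) (nat_lit 0) (XT.nd (nat_lit 78) (nat_lit 0) (nat_lit 0) (XT.lf (nat_lit 76) (nat_lit 9171656768) (nat_lit 0) (nat_lit 11648244709) (nat_lit 1824) (nat_lit 4384860742) (nat_lit 408) (nat_lit 5) (nat_lit 407) (nat_lit 5) (nat_lit 431) (nat_lit 5) (nat_lit 481) (nat_lit 462) (nat_lit 197)) (XT.nd (nat_lit 78) (nat_lit 0) (nat_lit 76) (XT.lf (nat_lit 76) (nat_lit 22045714371)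 (nat_lit 0) (nat_lit 523078404) (nat_lit 1824) (nat_lit 2904795695) (nat_lit 408) (nat_lit 5) (nat_lit 407) (nat_lit 5) (nat_lit 431) (nat_lit 5) (nat_lit 482) (nat_lit 462) (nat_lit 196)) (XT.lf (nat_lit 76) (nat_lit 9481346370) (nat_lit 0) (nat_lit 15000406842) (nat_lit 1824) (nat_lit 1263457358) (nat_lit 409) (nat_lit 5) (nat_lit 408) (nat_lit 5) (nat_lit 432) (nat_lit 5) (nat_lit 483) (nat_lit 462) (nat_lit 195)))) (XT.nd (nat_lit 78) (nat_lit 0) (nat_lit 76) (XT.lf (nat_lit 0) (nat_lit 429212954) (nat_lit 1824) (nat_lit 3335078716) (nat_lit 1900) (nat_lit 22257443384) (nat_lit 384) (nat_lit 5) (nat_lit 408) (nat_lit 5) (nat_lit 409) (nat_lit 5) (nat_lit 484) (nat_lit 462) (nat_lit 194)) (XT.nd (nat_lit 78) (nat_lit 0) (nat_lit 0) (XT.lf (nat_lit 0) (nat_lit 2251367681) (nat_lit 1824) (nat_lit 16380298321) (nat_lit 1900) (nat_lit 7669707107) (nat_lit 385) (nat_lit 5) (nat_lit 409) (nat_lit 5) (nat_lit 410) (nat_lit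 5) (nat_lit 485) (nat_lit 462) (nat_lit 193)) (XT.lf (nat_lit 0) (nat_lit 4154790483) (nat_lit 1824) (nat_lit 3125881414) (nat_lit 1900) (nat_lit 19305036591) (nat_lit 385) (nat_lit 5) (nat_lit 409) (nat_lit 5) (nat_lit 410) (nat_lit 5) (nat_lit 486) (nat_lit 462) (nat_lit 192))))))) (XT.nd (nat_lit 57876) (nat_lit 0) (nat_lit 3116) (XT.nd (nat_lit 390) (nat_lit 0) (nat_lit 0) (XT.nd (nat_lit 156) (nat_lit 1976) (nat_lit 0) (XT.nd (nat_lit 78) (nat_lit 0) (nat_lit 0) (XT.lf (nat_lit 0) (nat_lit 6190422430) (nat_lit 1824) (nat_lit 16373215476) (nat_lit 76) (nat_lit 4310210899) (nat_lit 386) (nat_lit 5) (nat_lit 410) (nat_lit 5) (nat_lit 387) (nat_lit 5) (nat_lit 487) (nat_lit 462) (nat_lit 191)) (XT.lf (nat_lit 0) (nat_lit 8333556989) (nat_lit 1824) (nat_lit 2775841161) (nat_lit 76) (nat_lit 16057019001) (nat_lit 386) (nat_lit 5) (nat_lit 410) (nat_lit 5) (nat_lit 387) (nat_lit 5) (nat_lit 488) (nat_lit 462) (nat_lit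 190))) (XT.nd (nat_lit 78) (nat_lit 912) (nat_lit 0) (XT.lf (nat_lit 0) (nat_lit 10594243364) (nat_lit 1140) (nat_lit 16228922344) (nat_lit 76) (nat_lit 640178375) (nat_lit 372) (nat_lit 5) (nat_lit 387) (nat_lit 5) (nat_lit 373) (nat_lit 5) (nat_lit 489) (nat_lit 462) (nat_lit 189)) (XT.nd (nat_lit 78) (nat_lit 912) (nat_lit 0) (XT.lf (nat_lit 0) (nat_lit 12990011505) (nat_lit 1140) (nat_lit 2279214074) (nat_lit 76) (nat_lit 12495187595) (nat_lit 372) (nat_lit 5) (nat_lit 387) (nat_lit 5) (nat_lit 373) (nat_lit 5) (nat_lit 490) (nat_lit 462) (nat_lit 188)) (XT.lf (nat_lit 0) (nat_lit 12106106546) (nat_lit 912) (nat_lit 3403782622) (nat_lit 988) (nat_lit 12560091562) (nat_lit 360) (nat_lit 5) (nat_lit 372) (nat_lit 5) (nat_lit 373) (nat_lit 5) (nat_lit 491) (nat_lit 462) (nat_lit 187))))) (XT.nd (nat_lit 57252) (nat_lit 0) (nat_lit 2964) (XT.nd (nat_lit 57096) (nat_lit 0) (nat_lit 2964) (XT.lf (nat_lit 0) (nat_lit 18149667957)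 (nat_lit 988) (nat_lit 1630096898) (nat_lit 76) (nat_lit 8600505653) (nat_lit 360) (nat_lit 5) (nat_lit 373) (nat_lit 5) (nat_lit 361) (nat_lit 5) (nat_lit 492) (nat_lit 462) (nat_lit 186)) (XT.nd (nat_lit 78) (nat_lit 0) (nat_lit 0) (XT.lf (nat_lit 0) (nat_lit 1082467800) (nat_lit 0) (nat_lit 1082467800) (nat_lit 1748) (nat_lit 8429384685) (nat_lit 399) (nat_lit 5) (nat_lit 399) (nat_lit 3) (nat_lit 422) (nat_lit 3) (nat_lit 463) (nat_lit 463) (nat_lit 214)) (XT.lf (nat_lit 0) (nat_lit 4568969340) (nat_lit 1748) (nat_lit 9044275865) (nat_lit 1824) (nat_lit 7783304329) (nat_lit 399) (nat_lit 5) (nat_lit 422) (nat_lit 3) (nat_lit 423) (nat_lit 5) (nat_lit 464) (nat_lit 463) (nat_lit 213)))) (XT.nd (nat_lit 78) (nat_lit 0) (nat_lit 76) (XT.lf (nat_lit 76) (nat_lit 1133281544) (nat_lit 0) (nat_lit 3697482807) (nat_lit 1824) (nat_lit 16777495636) (nat_lit 400) (nat_lit 5) (nat_lit 399) (nat_lit 5) (nat_lit 423) (nat_lit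 5) (nat_lit 465) (nat_lit 463) (nat_lit 212)) (XT.nd (nat_lit 78) (nat_lit 0) (nat_lit 0) (XT.lf (nat_lit 0) (nat_lit 5196842063) (nat_lit 1748) (nat_lit 10230126276) (nat_lit 1824) (nat_lit 6395256956) (nat_lit 400) (nat_lit 5) (nat_lit 423) (nat_lit 5) (nat_lit 424) (nat_lit 5) (nat_lit 466) (nat_lit 463) (nat_lit 211)) (XT.lf (nat_lit 76) (nat_lit 195682725) (nat_lit 0) (nat_lit 5396680672) (nat_lit 1824) (nat_lit 16447665619) (nat_lit 401) (nat_lit 5) (nat_lit 400) (nat_lit 5) (nat_lit 424) (nat_lit 5) (nat_lit 467) (nat_lit 463) (nat_lit 210)))))) (XT.nd (nat_lit 390) (nat_lit 0) (nat_lit 152) (XT.nd (nat_lit 156) (nat_lit 0) (nat_lit 76) (XT.nd (nat_lit 78) (nat_lit 0) (nat_lit 0) (XT.lf (nat_lit 0) (nat_lit 6092719608) (nat_lit 1748) (nat_lit 11326067352) (nat_lit 1824) (nat_lit 4841464883) (nat_lit 401) (nat_lit 5) (nat_lit 424) (nat_lit 5) (nat_lit 425) (nat_lit 5) (nat_lit 468) (nat_lit 463) (nat_lit 209))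 (XT.lf (nat_lit 0) (nat_lit 6635325853) (nat_lit 1748) (nat_lit 635211402) (nat_lit 1824) (nat_lit 15213698503) (nat_lit 401) (nat_lit 5) (nat_lit 424) (nat_lit 5) (nat_lit 425) (nat_lit 5) (nat_lit 469) (nat_lit 463) (nat_lit 208))) (XT.nd (nat_lit 78) (nat_lit 0) (nat_lit 0) (XT.lf (nat_lit 0) (nat_lit 7273363480) (nat_lit 1748) (nat_lit 12327974830) (nat_lit 1824) (nat_lit 3109670915) (nat_lit 402) (nat_lit 5) (nat_lit 425) (nat_lit 5) (nat_lit 426) (nat_lit 5) (nat_lit 470) (nat_lit 463) (nat_lit 207)) (XT.nd (nat_lit 78) (nat_lit 0) (nat_lit 76) (XT.lf (nat_lit 0) (nat_lit 7973237021) (nat_lit 1748) (nat_lit 1362228254) (nat_lit 1824) (nat_lit 13605872814) (nat_lit 402) (nat_lit 5) (nat_lit 425) (nat_lit 5) (nat_lit 426) (nat_lit 5) (nat_lit 471) (nat_lit 463) (nat_lit 206)) (XT.lf (nat_lit 0) (nat_lit 8756229603) (nat_lit 1748) (nat_lit 13231544941) (nat_lit 1824) (nat_lit 1187117958) (nat_lit 403) (nat_lit 5)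 (nat_lit 426) (nat_lit 5) (nat_lit 427) (nat_lit 5) (nat_lit 472) (nat_lit 463) (nat_lit 205))))) (XT.nd (nat_lit 234) (nat_lit 0) (nat_lit 76) (XT.nd (nat_lit 78) (nat_lit 0) (nat_lit 0) (XT.lf (nat_lit 0) (nat_lit 9622668719) (nat_lit 1748) (nat_lit 1983413430) (nat_lit 1824) (nat_lit 11805681499) (nat_lit 403) (nat_lit 5) (nat_lit 426) (nat_lit 5) (nat_lit 427) (nat_lit 5) (nat_lit 473) (nat_lit 463) (nat_lit 204)) (XT.nd (nat_lit 78) (nat_lit 0) (nat_lit 76) (XT.lf (nat_lit 76) (nat_lit 9613713651) (nat_lit 0) (nat_lit 951965689) (nat_lit 1824) (nat_lit 13086509368) (nat_lit 404) (nat_lit 5) (nat_lit 403) (nat_lit 5) (nat_lit 427) (nat_lit 5) (nat_lit 474) (nat_lit 463) (nat_lit 203)) (XT.lf (nat_lit 0) (nat_lit 11602204552) (nat_lit 1748) (nat_lit 2494061586) (nat_lit 1824) (nat_lit 9799664369) (nat_lit 404) (nat_lit 5) (nat_lit 427) (nat_lit 5) (nat_lit 428) (nat_lit 5) (nat_lit 475) (nat_lit 463) (nat_lit 202))))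 (XT.nd (nat_lit 78) (nat_lit 0) (nat_lit 76) (XT.lf (nat_lit 76) (nat_lit 9396098582) (nat_lit 0) (nat_lit 3327613183) (nat_lit 1824) (nat_lit 11419551642) (nat_lit 405) (nat_lit 5) (nat_lit 404) (nat_lit 5) (nat_lit 428) (nat_lit 5) (nat_lit 476) (nat_lit 463) (nat_lit 201)) (XT.nd (nat_lit 78) (nat_lit 0) (nat_lit 0) (XT.lf (nat_lit 0) (nat_lit 13931201167) (nat_lit 1748) (nat_lit 2889282769) (nat_lit 1824) (nat_lit 7573789260) (nat_lit 405) (nat_lit 5) (nat_lit 428) (nat_lit 5) (nat_lit 429) (nat_lit 5) (nat_lit 477) (nat_lit 463) (nat_lit 200)) (XT.lf (nat_lit 76) (nat_lit 9303657721) (nat_lit 0) (nat_lit 5938678490) (nat_lit 1824) (nat_lit 9406378298) (nat_lit 406) (nat_lit 5) (nat_lit 405) (nat_lit 5) (nat_lit 429) (nat_lit 5) (nat_lit 478) (nat_lit 463) (nat_lit 199))))))))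
noncomputable def xc250 : XT := (XT.nd (nat_lit 58812) (nat_lit 0) (nat_lit 0) (XT.nd (nat_lit 780) (nat_lit 912) (nat_lit 0) (XT.nd (nat_lit 390) (nat_lit 1672) (nat_lit 0) (XT.nd (nat_lit 156) (nat_lit 0) (nat_lit 76) (XT.nd (nat_lit 78) (nat_lit 0) (nat_lit 0) (XT.lf (nat_lit 0) (nat_lit 16629821008) (nat_lit 1748) (nat_lit 3164002542) (nat_lit 1824) (nat_lit 5113419779) (nat_lit 406) (nat_lit 5) (nat_lit 429) (nat_lit 5) (nat_lit 430) (nat_lit 5) (nat_lit 479) (nat_lit 463) (nat_lit 198)) (XT.lf (nat_lit 76) (nat_lit 9341772447) (nat_lit 0) (nat_lit 8800424782) (nat_lit 1824) (nat_lit 7026803860) (nat_lit 407) (nat_lit 5) (nat_lit 406) (nat_lit 5) (nat_lit 430) (nat_lit 5) (nat_lit 480) (nat_lit 463) (nat_lit 197))) (XT.nd (nat_lit 78) (nat_lit 0) (nat_lit 0) (XT.lf (nat_lit 0) (nat_lit 19719066120) (nat_lit 1748) (nat_lit 3312962356) (nat_lit 1824) (nat_lit 2403281800) (nat_lit 407) (nat_lit 5) (nat_lit 430) (nat_lit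 5) (nat_lit 431) (nat_lit 5) (nat_lit 481) (nat_lit 463) (nat_lit 196)) (XT.nd (nat_lit 78) (nat_lit 0) (nat_lit 0) (XT.lf (nat_lit 76) (nat_lit 9516016052) (nat_lit 0) (nat_lit 11928782996) (nat_lit 1824) (nat_lit 4259801215) (nat_lit 408) (nat_lit 5) (nat_lit 407) (nat_lit 5) (nat_lit 431) (nat_lit 5) (nat_lit 482) (nat_lit 463) (nat_lit 195)) (XT.lf (nat_lit 76) (nat_lit 22644399392) (nat_lit 0) (nat_lit 580180554) (nat_lit 1824) (nat_lit 2754306568) (nat_lit 408) (nat_lit 5) (nat_lit 407) (nat_lit 5) (nat_lit 431) (nat_lit 5) (nat_lit 483) (nat_lit 463) (nat_lit 194))))) (XT.nd (nat_lit 156) (nat_lit 0) (nat_lit 76) (XT.nd (nat_lit 78) (nat_lit 1824) (nat_lit 0) (XT.lf (nat_lit 76) (nat_lit 9832153162) (nat_lit 0) (nat_lit 15340387968) (nat_lit 1824) (nat_lit 1083466773) (nat_lit 409) (nat_lit 5) (nat_lit 408) (nat_lit 5) (nat_lit 432) (nat_lit 5) (nat_lit 484) (nat_lit 463) (nat_lit 193)) (XT.lf (nat_lit 0) (nat_lit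 636393012) (nat_lit 1824) (nat_lit 3241041014) (nat_lit 1900) (nat_lit 22660683245) (nat_lit 384) (nat_lit 5) (nat_lit 408) (nat_lit 5) (nat_lit 409) (nat_lit 5) (nat_lit 485) (nat_lit 463) (nat_lit 192))) (XT.nd (nat_lit 78) (nat_lit 0) (nat_lit 0) (XT.lf (nat_lit 0) (nat_lit 2491899454) (nat_lit 1824) (nat_lit 16543994644) (nat_lit 1900) (nat_lit 7787517397) (nat_lit 385) (nat_lit 5) (nat_lit 409) (nat_lit 5) (nat_lit 410) (nat_lit 5) (nat_lit 486) (nat_lit 463) (nat_lit 191)) (XT.nd (nat_lit 78) (nat_lit 0) (nat_lit 76) (XT.lf (nat_lit 0) (nat_lit 4429557292) (nat_lit 1824) (nat_lit 3027703313) (nat_lit 1900) (nat_lit 19656251194) (nat_lit 385) (nat_lit 5) (nat_lit 409) (nat_lit 5) (nat_lit 410) (nat_lit 5) (nat_lit 487) (nat_lit 463) (nat_lit 190)) (XT.lf (nat_lit 0) (nat_lit 6502989797) (nat_lit 1824) (nat_lit 16536996055) (nat_lit 76) (nat_lit 4367488830) (nat_lit 386) (nat_lit 5) (nat_lit 410) (nat_lit 5) (nat_lit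 387) (nat_lit 5) (nat_lit 488) (nat_lit 463) (nat_lit 189)))))) (XT.nd (nat_lit 57564) (nat_lit 0) (nat_lit 2052) (XT.nd (nat_lit 156) (nat_lit 0) (nat_lit 0) (XT.nd (nat_lit 78) (nat_lit 1064) (nat_lit 0) (XT.lf (nat_lit 0) (nat_lit 8685285893) (nat_lit 1824) (nat_lit 2670883738) (nat_lit 76) (nat_lit 16349800275) (nat_lit 386) (nat_lit 5) (nat_lit 410) (nat_lit 5) (nat_lit 387) (nat_lit 5) (nat_lit 489) (nat_lit 463) (nat_lit 188)) (XT.lf (nat_lit 0) (nat_lit 10988442834) (nat_lit 1140) (nat_lit 16390210411) (nat_lit 76) (nat_lit 630238455) (nat_lit 372) (nat_lit 5) (nat_lit 387) (nat_lit 5) (nat_lit 373) (nat_lit 5) (nat_lit 490) (nat_lit 463) (nat_lit 187))) (XT.nd (nat_lit 57252) (nat_lit 0) (nat_lit 2052) (XT.lf (nat_lit 0) (nat_lit 13428551542) (nat_lit 1140) (nat_lit 2164709748) (nat_lit 76) (nat_lit 12722793811) (nat_lit 372) (nat_lit 5) (nat_lit 387) (nat_lit 5) (nat_lit 373) (nat_lit 5) (nat_lit 491) (nat_lit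 463) (nat_lit 186)) (XT.nd (nat_lit 78) (nat_lit 0) (nat_lit 0) (XT.lf (nat_lit 0) (nat_lit 1175944496) (nat_lit 0) (nat_lit 1175944496) (nat_lit 1748) (nat_lit 8451383549) (nat_lit 399) (nat_lit 5) (nat_lit 399) (nat_lit 3) (nat_lit 422) (nat_lit 3) (nat_lit 464) (nat_lit 464) (nat_lit 212)) (XT.lf (nat_lit 0) (nat_lit 4941110156) (nat_lit 1748) (nat_lit 9077655811) (nat_lit 1824) (nat_lit 7799979608) (nat_lit 399) (nat_lit 5) (nat_lit 422) (nat_lit 3) (nat_lit 423) (nat_lit 5) (nat_lit 465) (nat_lit 464) (nat_lit 211))))) (XT.nd (nat_lit 234) (nat_lit 0) (nat_lit 152) (XT.nd (nat_lit 78) (nat_lit 0) (nat_lit 76) (XT.lf (nat_lit 76) (nat_lit 1302482314) (nat_lit 0) (nat_lit 3901105030) (nat_lit 1824) (nat_lit 16831196316) (nat_lit 400) (nat_lit 5) (nat_lit 399) (nat_lit 5) (nat_lit 423) (nat_lit 5) (nat_lit 466) (nat_lit 464) (nat_lit 210)) (XT.nd (nat_lit 78) (nat_lit 0) (nat_lit 0) (XT.lf (nat_lit 0) (nat_lit 5570745361)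 (nat_lit 1748) (nat_lit 10284710580) (nat_lit 1824) (nat_lit 6397699460) (nat_lit 400) (nat_lit 5) (nat_lit 423) (nat_lit 5) (nat_lit 424) (nat_lit 5) (nat_lit 467) (nat_lit 464) (nat_lit 209)) (XT.lf (nat_lit 76) (nat_lit 348627640) (nat_lit 0) (nat_lit 5621223633) (nat_lit 1824) (nat_lit 16505552698) (nat_lit 401) (nat_lit 5) (nat_lit 400) (nat_lit 5) (nat_lit 424) (nat_lit 5) (nat_lit 468) (nat_lit 464) (nat_lit 208)))) (XT.nd (nat_lit 78) (nat_lit 0) (nat_lit 0) (XT.lf (nat_lit 0) (nat_lit 6474263708) (nat_lit 1748) (nat_lit 11400418119) (nat_lit 1824) (nat_lit 4825470657) (nat_lit 401) (nat_lit 5) (nat_lit 424) (nat_lit 5) (nat_lit 425) (nat_lit 5) (nat_lit 469) (nat_lit 464) (nat_lit 207)) (XT.nd (nat_lit 78) (nat_lit 0) (nat_lit 76) (XT.lf (nat_lit 0) (nat_lit 7022630122) (nat_lit 1748) (nat_lit 498728787) (nat_lit 1824) (nat_lit 15407361175) (nat_lit 401) (nat_lit 5) (nat_lit 424) (nat_lit 5) (nat_lit 425) (nat_lit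 5) (nat_lit 470) (nat_lit 464) (nat_lit 206)) (XT.lf (nat_lit 0) (nat_lit 7668734031) (nat_lit 1748) (nat_lit 12420546705) (nat_lit 1824) (nat_lit 3070844300) (nat_lit 402) (nat_lit 5) (nat_lit 425) (nat_lit 5) (nat_lit 426) (nat_lit 5) (nat_lit 471) (nat_lit 464) (nat_lit 205))))))) (XT.nd (nat_lit 858) (nat_lit 2280) (nat_lit 0) (XT.nd (nat_lit 390) (nat_lit 0) (nat_lit 152) (XT.nd (nat_lit 156) (nat_lit 0) (nat_lit 76) (XT.nd (nat_lit 78) (nat_lit 0) (nat_lit 76) (XT.lf (nat_lit 0) (nat_lit 8377704979) (nat_lit 1748) (nat_lit 1238504563) (nat_lit 1824) (nat_lit 13778951022) (nat_lit 402) (nat_lit 5) (nat_lit 425) (nat_lit 5) (nat_lit 426) (nat_lit 5) (nat_lit 472) (nat_lit 464) (nat_lit 204)) (XT.lf (nat_lit 0) (nat_lit 9171935048) (nat_lit 1748) (nat_lit 13340683040) (nat_lit 1824) (nat_lit 1120858469) (nat_lit 403) (nat_lit 5) (nat_lit 426) (nat_lit 5) (nat_lit 427) (nat_lit 5) (nat_lit 473) (nat_lit 464) (nat_lit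 203))) (XT.nd (nat_lit 78) (nat_lit 0) (nat_lit 0) (XT.lf (nat_lit 0) (nat_lit 10050985674) (nat_lit 1748) (nat_lit 1870637776) (nat_lit 1824) (nat_lit 11953558022) (nat_lit 403) (nat_lit 5) (nat_lit 426) (nat_lit 5) (nat_lit 427) (nat_lit 5) (nat_lit 474) (nat_lit 464) (nat_lit 202)) (XT.nd (nat_lit 78) (nat_lit 0) (nat_lit 76) (XT.lf (nat_lit 76) (nat_lit 9957428926) (nat_lit 0) (nat_lit 1051786062) (nat_lit 1824) (nat_lit 13111274842) (nat_lit 404) (nat_lit 5) (nat_lit 403) (nat_lit 5) (nat_lit 427) (nat_lit 5) (nat_lit 475) (nat_lit 464) (nat_lit 201)) (XT.lf (nat_lit 0) (nat_lit 12061403130) (nat_lit 1748) (nat_lit 2390307388) (nat_lit 1824) (nat_lit 9917499224) (nat_lit 404) (nat_lit 5) (nat_lit 427) (nat_lit 5) (nat_lit 428) (nat_lit 5) (nat_lit 476) (nat_lit 464) (nat_lit 200))))) (XT.nd (nat_lit 234) (nat_lit 0) (nat_lit 152) (XT.nd (nat_lit 78) (nat_lit 0) (nat_lit 76) (XT.lf (nat_lit 76) (nat_lit 9736645225)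 (nat_lit 0) (nat_lit 3465232193) (nat_lit 1824) (nat_lit 11419683031) (nat_lit 405) (nat_lit 5) (nat_lit 404) (nat_lit 5) (nat_lit 428) (nat_lit 5) (nat_lit 477) (nat_lit 464) (nat_lit 199)) (XT.nd (nat_lit 78) (nat_lit 0) (nat_lit 0) (XT.lf (nat_lit 0) (nat_lit 14428678136) (nat_lit 1748) (nat_lit 2792505376) (nat_lit 1824) (nat_lit 7656505542) (nat_lit 405) (nat_lit 5) (nat_lit 428) (nat_lit 5) (nat_lit 429) (nat_lit 5) (nat_lit 478) (nat_lit 464) (nat_lit 198)) (XT.lf (nat_lit 76) (nat_lit 9643277062) (nat_lit 0) (nat_lit 6119464509) (nat_lit 1824) (nat_lit 9374545323) (nat_lit 406) (nat_lit 5) (nat_lit 405) (nat_lit 5) (nat_lit 429) (nat_lit 5) (nat_lit 479) (nat_lit 464) (nat_lit 197)))) (XT.nd (nat_lit 78) (nat_lit 0) (nat_lit 0) (XT.lf (nat_lit 0) (nat_lit 17173354693) (nat_lit 1748) (nat_lit 3072036791) (nat_lit 1824) (nat_lit 5155689013) (nat_lit 406) (nat_lit 5) (nat_lit 429) (nat_lit 5) (nat_lit 430) (nat_lit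 5) (nat_lit 480) (nat_lit 464) (nat_lit 196)) (XT.nd (nat_lit 78) (nat_lit 0) (nat_lit 76) (XT.lf (nat_lit 76) (nat_lit 9682832343) (nat_lit 0) (nat_lit 9030011397) (nat_lit 1824) (nat_lit 6955294110) (nat_lit 407) (nat_lit 5) (nat_lit 406) (nat_lit 5) (nat_lit 430) (nat_lit 5) (nat_lit 481) (nat_lit 464) (nat_lit 195)) (XT.lf (nat_lit 0) (nat_lit 20316834406) (nat_lit 1748) (nat_lit 3223520061) (nat_lit 1824) (nat_lit 2399508776) (nat_lit 407) (nat_lit 5) (nat_lit 430) (nat_lit 5) (nat_lit 431) (nat_lit 5) (nat_lit 482) (nat_lit 464) (nat_lit 194)))))) (XT.nd (nat_lit 390) (nat_lit 912) (nat_lit 0) (XT.nd (nat_lit 156) (nat_lit 1748) (nat_lit 0) (XT.nd (nat_lit 78) (nat_lit 0) (nat_lit 0) (XT.lf (nat_lit 76) (nat_lit 9861013563) (nat_lit 0) (nat_lit 12213084717) (nat_lit 1824) (nat_lit 4140502101) (nat_lit 408) (nat_lit 5) (nat_lit 407) (nat_lit 5) (nat_lit 431) (nat_lit 5) (nat_lit 483) (nat_lit 464) (nat_lit 193))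 (XT.lf (nat_lit 76) (nat_lit 23248931684) (nat_lit 0) (nat_lit 636613636) (nat_lit 1824) (nat_lit 2608907270) (nat_lit 408) (nat_lit 5) (nat_lit 407) (nat_lit 5) (nat_lit 431) (nat_lit 5) (nat_lit 484) (nat_lit 464) (nat_lit 192))) (XT.nd (nat_lit 78) (nat_lit 1824) (nat_lit 0) (XT.lf (nat_lit 76) (nat_lit 10183717279) (nat_lit 0) (nat_lit 15685616516) (nat_lit 1824) (nat_lit 907846861) (nat_lit 409) (nat_lit 5) (nat_lit 408) (nat_lit 5) (nat_lit 432) (nat_lit 5) (nat_lit 485) (nat_lit 464) (nat_lit 191)) (XT.nd (nat_lit 78) (nat_lit 0) (nat_lit 76) (XT.lf (nat_lit 0) (nat_lit 840004954) (nat_lit 1824) (nat_lit 3151364260) (nat_lit 1900) (nat_lit 23073615282) (nat_lit 384) (nat_lit 5) (nat_lit 408) (nat_lit 5) (nat_lit 409) (nat_lit 5) (nat_lit 486) (nat_lit 464) (nat_lit 190)) (XT.lf (nat_lit 0) (nat_lit 2729650187) (nat_lit 1824) (nat_lit 16717329704) (nat_lit 1900) (nat_lit 7909065658) (nat_lit 385) (nat_lit 5) (nat_lit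 409) (nat_lit 5) (nat_lit 410) (nat_lit 5) (nat_lit 487) (nat_lit 464) (nat_lit 189))))) (XT.nd (nat_lit 234) (nat_lit 988) (nat_lit 0) (XT.nd (nat_lit 78) (nat_lit 0) (nat_lit 76) (XT.lf (nat_lit 0) (nat_lit 4702376619) (nat_lit 1824) (nat_lit 2933801660) (nat_lit 1900) (nat_lit 20015844760) (nat_lit 385) (nat_lit 5) (nat_lit 409) (nat_lit 5) (nat_lit 410) (nat_lit 5) (nat_lit 488) (nat_lit 464) (nat_lit 188)) (XT.nd (nat_lit 78) (nat_lit 0) (nat_lit 0) (XT.lf (nat_lit 0) (nat_lit 6814478773) (nat_lit 1824) (nat_lit 16710408284) (nat_lit 76) (nat_lit 4427035562) (nat_lit 386) (nat_lit 5) (nat_lit 410) (nat_lit 5) (nat_lit 387) (nat_lit 5) (nat_lit 489) (nat_lit 464) (nat_lit 187)) (XT.lf (nat_lit 0) (nat_lit 9036863356) (nat_lit 1824) (nat_lit 2570058578) (nat_lit 76) (nat_lit 16649538394) (nat_lit 386) (nat_lit 5) (nat_lit 410) (nat_lit 5) (nat_lit 387) (nat_lit 5) (nat_lit 490) (nat_lit 464) (nat_lit 186)))) (XT.nd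 (nat_lit 57330) (nat_lit 0) (nat_lit 2052) (XT.lf (nat_lit 0) (nat_lit 11383446794) (nat_lit 1140) (nat_lit 16561065004) (nat_lit 76) (nat_lit 620982893) (nat_lit 372) (nat_lit 5) (nat_lit 387) (nat_lit 5) (nat_lit 373) (nat_lit 5) (nat_lit 491) (nat_lit 464) (nat_lit 185)) (XT.nd (nat_lit 78) (nat_lit 0) (nat_lit 0) (XT.lf (nat_lit 0) (nat_lit 1268501583) (nat_lit 0) (nat_lit 1268501583) (nat_lit 1748) (nat_lit 8479514612) (nat_lit 399) (nat_lit 5) (nat_lit 399) (nat_lit 3) (nat_lit 422) (nat_lit 3) (nat_lit 465) (nat_lit 465) (nat_lit 210)) (XT.lf (nat_lit 0) (nat_lit 5309791480) (nat_lit 1748) (nat_lit 9117431178) (nat_lit 1824) (nat_lit 7822385576) (nat_lit 399) (nat_lit 5) (nat_lit 422) (nat_lit 3) (nat_lit 423) (nat_lit 5) (nat_lit 466) (nat_lit 465) (nat_lit 209))))))))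
noncomputable def xc251 : XT := (XT.nd (nat_lit 1638) (nat_lit 0) (nat_lit 76) (XT.nd (nat_lit 780) (nat_lit 1140) (nat_lit 0) (XT.nd (nat_lit 390) (nat_lit 0) (nat_lit 228) (XT.nd (nat_lit 156) (nat_lit 0) (nat_lit 76) (XT.nd (nat_lit 78) (nat_lit 0) (nat_lit 76) (XT.lf (nat_lit 76) (nat_lit 1469376962) (nat_lit 0) (nat_lit 4103764354) (nat_lit 1824) (nat_lit 16896915559) (nat_lit 400) (nat_lit 5) (nat_lit 399) (nat_lit 5) (nat_lit 423) (nat_lit 5) (nat_lit 467) (nat_lit 465) (nat_lit 208)) (XT.lf (nat_lit 0) (nat_lit 5941643599) (nat_lit 1748) (nat_lit 10346211960) (nat_lit 1824) (nat_lit 6405062681) (nat_lit 400) (nat_lit 5) (nat_lit 423) (nat_lit 5) (nat_lit 424) (nat_lit 5) (nat_lit 468) (nat_lit 465) (nat_lit 207))) (XT.nd (nat_lit 78) (nat_lit 0) (nat_lit 76) (XT.lf (nat_lit 76) (nat_lit 498844387) (nat_lit 0) (nat_lit 5845729370) (nat_lit 1824) (nat_lit 16575123351) (nat_lit 401) (nat_lit 5) (nat_lit 400) (nat_lit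 5) (nat_lit 424) (nat_lit 5) (nat_lit 469) (nat_lit 465) (nat_lit 206)) (XT.nd (nat_lit 78) (nat_lit 0) (nat_lit 0) (XT.lf (nat_lit 0) (nat_lit 6853354622) (nat_lit 1748) (nat_lit 11482164870) (nat_lit 1824) (nat_lit 4813537621) (nat_lit 401) (nat_lit 5) (nat_lit 424) (nat_lit 5) (nat_lit 425) (nat_lit 5) (nat_lit 470) (nat_lit 465) (nat_lit 205)) (XT.lf (nat_lit 0) (nat_lit 7407794136) (nat_lit 1748) (nat_lit 365309626) (nat_lit 1824) (nat_lit 15609192271) (nat_lit 401) (nat_lit 5) (nat_lit 424) (nat_lit 5) (nat_lit 425) (nat_lit 5) (nat_lit 471) (nat_lit 465) (nat_lit 204))))) (XT.nd (nat_lit 156) (nat_lit 0) (nat_lit 76) (XT.nd (nat_lit 78) (nat_lit 0) (nat_lit 0) (XT.lf (nat_lit 0) (nat_lit 8062307945) (nat_lit 1748) (nat_lit 12520949544) (nat_lit 1824) (nat_lit 3035163883) (nat_lit 402) (nat_lit 5) (nat_lit 425) (nat_lit 5) (nat_lit 426) (nat_lit 5) (nat_lit 472) (nat_lit 465) (nat_lit 203)) (XT.lf (nat_lit 0) (nat_lit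 8780748522) (nat_lit 1748) (nat_lit 1118168679) (nat_lit 1824) (nat_lit 13959336609) (nat_lit 402) (nat_lit 5) (nat_lit 425) (nat_lit 5) (nat_lit 426) (nat_lit 5) (nat_lit 473) (nat_lit 465) (nat_lit 202))) (XT.nd (nat_lit 78) (nat_lit 0) (nat_lit 0) (XT.lf (nat_lit 0) (nat_lit 9586612554) (nat_lit 1748) (nat_lit 13458041875) (nat_lit 1824) (nat_lit 1056768671) (nat_lit 403) (nat_lit 5) (nat_lit 426) (nat_lit 5) (nat_lit 427) (nat_lit 5) (nat_lit 474) (nat_lit 465) (nat_lit 201)) (XT.nd (nat_lit 78) (nat_lit 0) (nat_lit 0) (XT.lf (nat_lit 0) (nat_lit 10478710099) (nat_lit 1748) (nat_lit 1761526193) (nat_lit 1824) (nat_lit 12107818430) (nat_lit 403) (nat_lit 5) (nat_lit 426) (nat_lit 5) (nat_lit 427) (nat_lit 5) (nat_lit 475) (nat_lit 465) (nat_lit 200)) (XT.lf (nat_lit 76) (nat_lit 10302137867) (nat_lit 0) (nat_lit 1150466015) (nat_lit 1824) (nat_lit 13145737254) (nat_lit 404) (nat_lit 5) (nat_lit 403) (nat_lit 5) (nat_lit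 427) (nat_lit 5) (nat_lit 476) (nat_lit 465) (nat_lit 199)))))) (XT.nd (nat_lit 390) (nat_lit 1520) (nat_lit 0) (XT.nd (nat_lit 156) (nat_lit 0) (nat_lit 76) (XT.nd (nat_lit 78) (nat_lit 0) (nat_lit 0) (XT.lf (nat_lit 0) (nat_lit 12520964993) (nat_lit 1748) (nat_lit 2290443956) (nat_lit 1824) (nat_lit 10040725764) (nat_lit 404) (nat_lit 5) (nat_lit 427) (nat_lit 5) (nat_lit 428) (nat_lit 5) (nat_lit 477) (nat_lit 465) (nat_lit 198)) (XT.lf (nat_lit 76) (nat_lit 10078076198) (nat_lit 0) (nat_lit 3602843976) (nat_lit 1824) (nat_lit 11428680648) (nat_lit 405) (nat_lit 5) (nat_lit 404) (nat_lit 5) (nat_lit 428) (nat_lit 5) (nat_lit 478) (nat_lit 465) (nat_lit 197))) (XT.nd (nat_lit 78) (nat_lit 0) (nat_lit 0) (XT.lf (nat_lit 0) (nat_lit 14927606319) (nat_lit 1748) (nat_lit 2699794306) (nat_lit 1824) (nat_lit 7743546164) (nat_lit 405) (nat_lit 5) (nat_lit 428) (nat_lit 5) (nat_lit 429) (nat_lit 5) (nat_lit 479) (nat_lit 465)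 (nat_lit 196)) (XT.nd (nat_lit 78) (nat_lit 0) (nat_lit 76) (XT.lf (nat_lit 76) (nat_lit 9983726404) (nat_lit 0) (nat_lit 6301458229) (nat_lit 1824) (nat_lit 9350617025) (nat_lit 406) (nat_lit 5) (nat_lit 405) (nat_lit 5) (nat_lit 429) (nat_lit 5) (nat_lit 480) (nat_lit 465) (nat_lit 195)) (XT.lf (nat_lit 0) (nat_lit 17719568100) (nat_lit 1748) (nat_lit 2984260109) (nat_lit 1824) (nat_lit 5201133472) (nat_lit 406) (nat_lit 5) (nat_lit 429) (nat_lit 5) (nat_lit 430) (nat_lit 5) (nat_lit 481) (nat_lit 465) (nat_lit 194))))) (XT.nd (nat_lit 234) (nat_lit 1672) (nat_lit 0) (XT.nd (nat_lit 78) (nat_lit 0) (nat_lit 76) (XT.lf (nat_lit 76) (nat_lit 10024724715) (nat_lit 0) (nat_lit 9262109241) (nat_lit 1824) (nat_lit 6890588162) (nat_lit 407) (nat_lit 5) (nat_lit 406) (nat_lit 5) (nat_lit 430) (nat_lit 5) (nat_lit 482) (nat_lit 465) (nat_lit 193)) (XT.nd (nat_lit 78) (nat_lit 0) (nat_lit 0) (XT.lf (nat_lit 0) (nat_lit 20918660293)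 (nat_lit 1748) (nat_lit 3138335001) (nat_lit 1824) (nat_lit 2397673250) (nat_lit 407) (nat_lit 5) (nat_lit 430) (nat_lit 5) (nat_lit 431) (nat_lit 5) (nat_lit 483) (nat_lit 465) (nat_lit 192)) (XT.lf (nat_lit 76) (nat_lit 10206904720) (nat_lit 0) (nat_lit 12501296873) (nat_lit 1824) (nat_lit 4026757801) (nat_lit 408) (nat_lit 5) (nat_lit 407) (nat_lit 5) (nat_lit 431) (nat_lit 5) (nat_lit 484) (nat_lit 465) (nat_lit 191)))) (XT.nd (nat_lit 78) (nat_lit 1748) (nat_lit 0) (XT.lf (nat_lit 76) (nat_lit 23859666088) (nat_lit 0) (nat_lit 692434597) (nat_lit 1824) (nat_lit 2468385079) (nat_lit 408) (nat_lit 5) (nat_lit 407) (nat_lit 5) (nat_lit 431) (nat_lit 5) (nat_lit 485) (nat_lit 465) (nat_lit 190)) (XT.nd (nat_lit 78) (nat_lit 1824) (nat_lit 0) (XT.lf (nat_lit 76) (nat_lit 10536296906) (nat_lit 0) (nat_lit 16036257709) (nat_lit 1824) (nat_lit 736375533) (nat_lit 409) (nat_lit 5) (nat_lit 408) (nat_lit 5) (nat_lit 432)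 (nat_lit 5) (nat_lit 486) (nat_lit 465) (nat_lit 189)) (XT.lf (nat_lit 0) (nat_lit 1040276873) (nat_lit 1824) (nat_lit 3065893300) (nat_lit 1900) (nat_lit 23496370144) (nat_lit 384) (nat_lit 5) (nat_lit 408) (nat_lit 5) (nat_lit 409) (nat_lit 5) (nat_lit 487) (nat_lit 465) (nat_lit 188))))))) (XT.nd (nat_lit 58266) (nat_lit 0) (nat_lit 1292) (XT.nd (nat_lit 57798) (nat_lit 0) (nat_lit 1064) (XT.nd (nat_lit 156) (nat_lit 0) (nat_lit 76) (XT.nd (nat_lit 78) (nat_lit 0) (nat_lit 0) (XT.lf (nat_lit 0) (nat_lit 2964859054) (nat_lit 1824) (nat_lit 16900249123) (nat_lit 1900) (nat_lit 8034372993) (nat_lit 385) (nat_lit 5) (nat_lit 409) (nat_lit 5) (nat_lit 410) (nat_lit 5) (nat_lit 488) (nat_lit 465) (nat_lit 187)) (XT.lf (nat_lit 0) (nat_lit 4973498527) (nat_lit 1824) (nat_lit 2844019679) (nat_lit 1900) (nat_lit 20383932265) (nat_lit 385) (nat_lit 5) (nat_lit 409) (nat_lit 5) (nat_lit 410) (nat_lit 5) (nat_lit 489) (nat_lit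 465) (nat_lit 186))) (XT.nd (nat_lit 57486) (nat_lit 0) (nat_lit 988) (XT.lf (nat_lit 0) (nat_lit 7125152412) (nat_lit 1824) (nat_lit 16893397984) (nat_lit 76) (nat_lit 4488852854) (nat_lit 386) (nat_lit 5) (nat_lit 410) (nat_lit 5) (nat_lit 387) (nat_lit 5) (nat_lit 490) (nat_lit 465) (nat_lit 185)) (XT.nd (nat_lit 78) (nat_lit 0) (nat_lit 0) (XT.lf (nat_lit 0) (nat_lit 1360228974) (nat_lit 0) (nat_lit 1360228974) (nat_lit 1748) (nat_lit 8513679484) (nat_lit 399) (nat_lit 5) (nat_lit 399) (nat_lit 3) (nat_lit 422) (nat_lit 3) (nat_lit 466) (nat_lit 466) (nat_lit 208)) (XT.lf (nat_lit 0) (nat_lit 5675367472) (nat_lit 1748) (nat_lit 9163507454) (nat_lit 1824) (nat_lit 7850427267) (nat_lit 399) (nat_lit 5) (nat_lit 422) (nat_lit 3) (nat_lit 423) (nat_lit 5) (nat_lit 467) (nat_lit 466) (nat_lit 207))))) (XT.nd (nat_lit 234) (nat_lit 0) (nat_lit 152) (XT.nd (nat_lit 78) (nat_lit 0) (nat_lit 76) (XT.lf (nat_lit 76) (nat_lit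 1634140320) (nat_lit 0) (nat_lit 4305637049) (nat_lit 1824) (nat_lit 16974468745) (nat_lit 400) (nat_lit 5) (nat_lit 399) (nat_lit 5) (nat_lit 423) (nat_lit 5) (nat_lit 468) (nat_lit 466) (nat_lit 206)) (XT.nd (nat_lit 78) (nat_lit 0) (nat_lit 0) (XT.lf (nat_lit 0) (nat_lit 6309883748) (nat_lit 1748) (nat_lit 10414542552) (nat_lit 1824) (nat_lit 6417255853) (nat_lit 400) (nat_lit 5) (nat_lit 423) (nat_lit 5) (nat_lit 424) (nat_lit 5) (nat_lit 469) (nat_lit 466) (nat_lit 205)) (XT.lf (nat_lit 76) (nat_lit 646503122) (nat_lit 0) (nat_lit 6070372969) (nat_lit 1824) (nat_lit 16656202517) (nat_lit 401) (nat_lit 5) (nat_lit 400) (nat_lit 5) (nat_lit 424) (nat_lit 5) (nat_lit 470) (nat_lit 466) (nat_lit 204)))) (XT.nd (nat_lit 78) (nat_lit 0) (nat_lit 0) (XT.lf (nat_lit 0) (nat_lit 7230334864) (nat_lit 1748) (nat_lit 11571226073) (nat_lit 1824) (nat_lit 4805576876) (nat_lit 401) (nat_lit 5) (nat_lit 424) (nat_lit 5) (nat_lit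 425) (nat_lit 5) (nat_lit 471) (nat_lit 466) (nat_lit 203)) (XT.nd (nat_lit 78) (nat_lit 0) (nat_lit 76) (XT.lf (nat_lit 0) (nat_lit 7791158988) (nat_lit 1748) (nat_lit 234790236) (nat_lit 1824) (nat_lit 15819188375) (nat_lit 401) (nat_lit 5) (nat_lit 424) (nat_lit 5) (nat_lit 425) (nat_lit 5) (nat_lit 472) (nat_lit 466) (nat_lit 202)) (XT.lf (nat_lit 0) (nat_lit 8454426108) (nat_lit 1748) (nat_lit 12629107775) (nat_lit 1824) (nat_lit 3002540265) (nat_lit 402) (nat_lit 5) (nat_lit 425) (nat_lit 5) (nat_lit 426) (nat_lit 5) (nat_lit 473) (nat_lit 466) (nat_lit 201)))))) (XT.nd (nat_lit 390) (nat_lit 0) (nat_lit 152) (XT.nd (nat_lit 156) (nat_lit 0) (nat_lit 76) (XT.nd (nat_lit 78) (nat_lit 0) (nat_lit 76) (XT.lf (nat_lit 0) (nat_lit 9182708595) (nat_lit 1748) (nat_lit 1001060719) (nat_lit 1824) (nat_lit 14147026384) (nat_lit 402) (nat_lit 5) (nat_lit 425) (nat_lit 5) (nat_lit 426) (nat_lit 5) (nat_lit 474) (nat_lit 466)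 (nat_lit 200)) (XT.lf (nat_lit 0) (nat_lit 10000604326) (nat_lit 1748) (nat_lit 13583551400) (nat_lit 1824) (nat_lit 994756248) (nat_lit 403) (nat_lit 5) (nat_lit 426) (nat_lit 5) (nat_lit 427) (nat_lit 5) (nat_lit 475) (nat_lit 466) (nat_lit 199))) (XT.nd (nat_lit 78) (nat_lit 0) (nat_lit 0) (XT.lf (nat_lit 0) (nat_lit 10906185792) (nat_lit 1748) (nat_lit 1655922097) (nat_lit 1824) (nat_lit 12268457351) (nat_lit 403) (nat_lit 5) (nat_lit 426) (nat_lit 5) (nat_lit 427) (nat_lit 5) (nat_lit 476) (nat_lit 466) (nat_lit 198)) (XT.nd (nat_lit 78) (nat_lit 0) (nat_lit 76) (XT.lf (nat_lit 76) (nat_lit 10648088701) (nat_lit 0) (nat_lit 1248104548) (nat_lit 1824) (nat_lit 13189733233) (nat_lit 404) (nat_lit 5) (nat_lit 403) (nat_lit 5) (nat_lit 427) (nat_lit 5) (nat_lit 477) (nat_lit 466) (nat_lit 197)) (XT.lf (nat_lit 0) (nat_lit 12981239927) (nat_lit 1748) (nat_lit 2194317446) (nat_lit 1824) (nat_lit 10169333969) (nat_lit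 404) (nat_lit 5) (nat_lit 427) (nat_lit 5) (nat_lit 428) (nat_lit 5) (nat_lit 478) (nat_lit 466) (nat_lit 196))))) (XT.nd (nat_lit 234) (nat_lit 0) (nat_lit 152) (XT.nd (nat_lit 78) (nat_lit 0) (nat_lit 76) (XT.lf (nat_lit 76) (nat_lit 10420639326) (nat_lit 0) (nat_lit 3740555544) (nat_lit 1824) (nat_lit 11446377632) (nat_lit 405) (nat_lit 5) (nat_lit 404) (nat_lit 5) (nat_lit 428) (nat_lit 5) (nat_lit 479) (nat_lit 466) (nat_lit 195)) (XT.nd (nat_lit 78) (nat_lit 0) (nat_lit 0) (XT.lf (nat_lit 0) (nat_lit 15428344738) (nat_lit 1748) (nat_lit 2610997827) (nat_lit 1824) (nat_lit 7834893934) (nat_lit 405) (nat_lit 5) (nat_lit 428) (nat_lit 5) (nat_lit 429) (nat_lit 5) (nat_lit 480) (nat_lit 466) (nat_lit 194)) (XT.lf (nat_lit 76) (nat_lit 10325253875) (nat_lit 0) (nat_lit 6484777311) (nat_lit 1824) (nat_lit 9334419825) (nat_lit 406) (nat_lit 5) (nat_lit 405) (nat_lit 5) (nat_lit 429) (nat_lit 5) (nat_lit 481) (nat_lit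 466) (nat_lit 193)))) (XT.nd (nat_lit 78) (nat_lit 0) (nat_lit 0) (XT.lf (nat_lit 0) (nat_lit 18268832889) (nat_lit 1748) (nat_lit 2900522188) (nat_lit 1824) (nat_lit 5249726191) (nat_lit 406) (nat_lit 5) (nat_lit 429) (nat_lit 5) (nat_lit 430) (nat_lit 5) (nat_lit 482) (nat_lit 466) (nat_lit 192)) (XT.nd (nat_lit 78) (nat_lit 0) (nat_lit 76) (XT.lf (nat_lit 76) (nat_lit 10367698760) (nat_lit 0) (nat_lit 9496849326) (nat_lit 1824) (nat_lit 6832502357) (nat_lit 407) (nat_lit 5) (nat_lit 406) (nat_lit 5) (nat_lit 430) (nat_lit 5) (nat_lit 483) (nat_lit 466) (nat_lit 191)) (XT.lf (nat_lit 0) (nat_lit 21524931615) (nat_lit 1748) (nat_lit 3057257543) (nat_lit 1824) (nat_lit 2397735807) (nat_lit 407) (nat_lit 5) (nat_lit 430) (nat_lit 5) (nat_lit 431) (nat_lit 5) (nat_lit 484) (nat_lit 466) (nat_lit 190))))))))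
noncomputable def xc252 : XT := (XT.nd (nat_lit 59124) (nat_lit 0) (nat_lit 0) (XT.nd (nat_lit 58266) (nat_lit 0) (nat_lit 1216) (XT.nd (nat_lit 390) (nat_lit 0) (nat_lit 76) (XT.nd (nat_lit 156) (nat_lit 1748) (nat_lit 0) (XT.nd (nat_lit 78) (nat_lit 0) (nat_lit 0) (XT.lf (nat_lit 76) (nat_lit 10553940629) (nat_lit 0) (nat_lit 12793566622) (nat_lit 1824) (nat_lit 3918371059) (nat_lit 408) (nat_lit 5) (nat_lit 407) (nat_lit 5) (nat_lit 431) (nat_lit 5) (nat_lit 485) (nat_lit 466) (nat_lit 189)) (XT.lf (nat_lit 76) (nat_lit 24476955306) (nat_lit 0) (nat_lit 747698791) (nat_lit 1824) (nat_lit 2332535234) (nat_lit 408) (nat_lit 5) (nat_lit 407) (nat_lit 5) (nat_lit 431) (nat_lit 5) (nat_lit 486) (nat_lit 466) (nat_lit 188))) (XT.nd (nat_lit 78) (nat_lit 1824) (nat_lit 0) (XT.lf (nat_lit 76) (nat_lit 10890145951) (nat_lit 0) (nat_lit 16392477733) (nat_lit 1824) (nat_lit 568838274) (nat_lit 409) (nat_lit 5) (nat_lit 408)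 (nat_lit 5) (nat_lit 432) (nat_lit 5) (nat_lit 487) (nat_lit 466) (nat_lit 187)) (XT.nd (nat_lit 78) (nat_lit 0) (nat_lit 76) (XT.lf (nat_lit 0) (nat_lit 1237429797) (nat_lit 1824) (nat_lit 2984479288) (nat_lit 1900) (nat_lit 23929083549) (nat_lit 384) (nat_lit 5) (nat_lit 408) (nat_lit 5) (nat_lit 409) (nat_lit 5) (nat_lit 488) (nat_lit 466) (nat_lit 186)) (XT.lf (nat_lit 0) (nat_lit 3197758565) (nat_lit 1824) (nat_lit 17092707032) (nat_lit 1900) (nat_lit 8163463011) (nat_lit 385) (nat_lit 5) (nat_lit 409) (nat_lit 5) (nat_lit 410) (nat_lit 5) (nat_lit 489) (nat_lit 466) (nat_lit 185))))) (XT.nd (nat_lit 57642) (nat_lit 0) (nat_lit 1064) (XT.nd (nat_lit 57564) (nat_lit 0) (nat_lit 1064) (XT.lf (nat_lit 0) (nat_lit 5243166860) (nat_lit 1824) (nat_lit 2758206863) (nat_lit 1900) (nat_lit 20760633026) (nat_lit 385) (nat_lit 5) (nat_lit 409) (nat_lit 5) (nat_lit 410) (nat_lit 5) (nat_lit 490) (nat_lit 466) (nat_lit 184))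 (XT.lf (nat_lit 0) (nat_lit 1451214175) (nat_lit 0) (nat_lit 1451214175) (nat_lit 1748) (nat_lit 8553786387) (nat_lit 399) (nat_lit 5) (nat_lit 399) (nat_lit 3) (nat_lit 422) (nat_lit 3) (nat_lit 467) (nat_lit 467) (nat_lit 206))) (XT.nd (nat_lit 78) (nat_lit 0) (nat_lit 0) (XT.lf (nat_lit 0) (nat_lit 6038182936) (nat_lit 1748) (nat_lit 9215796877) (nat_lit 1824) (nat_lit 7884015954) (nat_lit 399) (nat_lit 5) (nat_lit 422) (nat_lit 3) (nat_lit 423) (nat_lit 5) (nat_lit 468) (nat_lit 467) (nat_lit 205)) (XT.nd (nat_lit 78) (nat_lit 0) (nat_lit 76) (XT.lf (nat_lit 76) (nat_lit 1796942137) (nat_lit 0) (nat_lit 4506895319) (nat_lit 1824) (nat_lit 17063684067) (nat_lit 400) (nat_lit 5) (nat_lit 399) (nat_lit 5) (nat_lit 423) (nat_lit 5) (nat_lit 469) (nat_lit 467) (nat_lit 204)) (XT.lf (nat_lit 0) (nat_lit 6675803911) (nat_lit 1748) (nat_lit 10489621515) (nat_lit 1824) (nat_lit 6434193740) (nat_lit 400) (nat_lit 5) (nat_lit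 423) (nat_lit 5) (nat_lit 424) (nat_lit 5) (nat_lit 470) (nat_lit 467) (nat_lit 203)))))) (XT.nd (nat_lit 390) (nat_lit 0) (nat_lit 228) (XT.nd (nat_lit 156) (nat_lit 0) (nat_lit 76) (XT.nd (nat_lit 78) (nat_lit 0) (nat_lit 76) (XT.lf (nat_lit 76) (nat_lit 791768678) (nat_lit 0) (nat_lit 6295326192) (nat_lit 1824) (nat_lit 16748627510) (nat_lit 401) (nat_lit 5) (nat_lit 400) (nat_lit 5) (nat_lit 424) (nat_lit 5) (nat_lit 471) (nat_lit 467) (nat_lit 202)) (XT.lf (nat_lit 0) (nat_lit 7605538590) (nat_lit 1748) (nat_lit 11667527474) (nat_lit 1824) (nat_lit 4801504353) (nat_lit 401) (nat_lit 5) (nat_lit 424) (nat_lit 5) (nat_lit 425) (nat_lit 5) (nat_lit 472) (nat_lit 467) (nat_lit 201))) (XT.nd (nat_lit 78) (nat_lit 0) (nat_lit 76) (XT.lf (nat_lit 0) (nat_lit 8173057687) (nat_lit 1748) (nat_lit 107012394) (nat_lit 1824) (nat_lit 16037352475) (nat_lit 401) (nat_lit 5) (nat_lit 424) (nat_lit 5) (nat_lit 425) (nat_lit 5) (nat_lit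 473) (nat_lit 467) (nat_lit 200)) (XT.nd (nat_lit 78) (nat_lit 0) (nat_lit 0) (XT.lf (nat_lit 0) (nat_lit 8845421592) (nat_lit 1748) (nat_lit 12744953330) (nat_lit 1824) (nat_lit 2972888171) (nat_lit 402) (nat_lit 5) (nat_lit 425) (nat_lit 5) (nat_lit 426) (nat_lit 5) (nat_lit 474) (nat_lit 467) (nat_lit 199)) (XT.lf (nat_lit 0) (nat_lit 9583918612) (nat_lit 1748) (nat_lit 887026442) (nat_lit 1824) (nat_lit 14342022893) (nat_lit 402) (nat_lit 5) (nat_lit 425) (nat_lit 5) (nat_lit 426) (nat_lit 5) (nat_lit 475) (nat_lit 467) (nat_lit 198))))) (XT.nd (nat_lit 234) (nat_lit 0) (nat_lit 76) (XT.nd (nat_lit 78) (nat_lit 0) (nat_lit 0) (XT.lf (nat_lit 0) (nat_lit 10414245325) (nat_lit 1748) (nat_lit 13717149271) (nat_lit 1824) (nat_lit 934732306) (nat_lit 403) (nat_lit 5) (nat_lit 426) (nat_lit 5) (nat_lit 427) (nat_lit 5) (nat_lit 476) (nat_lit 467) (nat_lit 197)) (XT.nd (nat_lit 78) (nat_lit 0) (nat_lit 0) (XT.lf (nat_lit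 0) (nat_lit 11333749618) (nat_lit 1748) (nat_lit 1553674698) (nat_lit 1824) (nat_lit 12435474473) (nat_lit 403) (nat_lit 5) (nat_lit 426) (nat_lit 5) (nat_lit 427) (nat_lit 5) (nat_lit 477) (nat_lit 467) (nat_lit 196)) (XT.lf (nat_lit 76) (nat_lit 10995525751) (nat_lit 0) (nat_lit 1344797907) (nat_lit 1824) (nat_lit 13243110013) (nat_lit 404) (nat_lit 5) (nat_lit 403) (nat_lit 5) (nat_lit 427) (nat_lit 5) (nat_lit 478) (nat_lit 467) (nat_lit 195)))) (XT.nd (nat_lit 78) (nat_lit 0) (nat_lit 0) (XT.lf (nat_lit 0) (nat_lit 13442571409) (nat_lit 1748) (nat_lit 2101779929) (nat_lit 1824) (nat_lit 10303318197) (nat_lit 404) (nat_lit 5) (nat_lit 427) (nat_lit 5) (nat_lit 428) (nat_lit 5) (nat_lit 479) (nat_lit 467) (nat_lit 194)) (XT.nd (nat_lit 78) (nat_lit 0) (nat_lit 76) (XT.lf (nat_lit 76) (nat_lit 10764578452) (nat_lit 0) (nat_lit 3878471893) (nat_lit 1824) (nat_lit 11472617153) (nat_lit 405) (nat_lit 5) (nat_lit 404)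 (nat_lit 5) (nat_lit 428) (nat_lit 5) (nat_lit 480) (nat_lit 467) (nat_lit 193)) (XT.lf (nat_lit 0) (nat_lit 15931246786) (nat_lit 1748) (nat_lit 2525970219) (nat_lit 1824) (nat_lit 7930535342) (nat_lit 405) (nat_lit 5) (nat_lit 428) (nat_lit 5) (nat_lit 429) (nat_lit 5) (nat_lit 481) (nat_lit 467) (nat_lit 192))))))) (XT.nd (nat_lit 58422) (nat_lit 0) (nat_lit 1140) (XT.nd (nat_lit 390) (nat_lit 1596) (nat_lit 0) (XT.nd (nat_lit 156) (nat_lit 0) (nat_lit 76) (XT.nd (nat_lit 78) (nat_lit 0) (nat_lit 76) (XT.lf (nat_lit 76) (nat_lit 10668103572) (nat_lit 0) (nat_lit 6669538138) (nat_lit 1824) (nat_lit 9325789556) (nat_lit 406) (nat_lit 5) (nat_lit 405) (nat_lit 5) (nat_lit 429) (nat_lit 5) (nat_lit 482) (nat_lit 467) (nat_lit 191)) (XT.lf (nat_lit 0) (nat_lit 18821515801) (nat_lit 1748) (nat_lit 2820678802) (nat_lit 1824) (nat_lit 5301443176) (nat_lit 406) (nat_lit 5) (nat_lit 429) (nat_lit 5) (nat_lit 430) (nat_lit 5)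 (nat_lit 483) (nat_lit 467) (nat_lit 190))) (XT.nd (nat_lit 78) (nat_lit 0) (nat_lit 76) (XT.lf (nat_lit 76) (nat_lit 10711999631) (nat_lit 0) (nat_lit 9734362150) (nat_lit 1824) (nat_lit 6780861778) (nat_lit 407) (nat_lit 5) (nat_lit 406) (nat_lit 5) (nat_lit 430) (nat_lit 5) (nat_lit 484) (nat_lit 467) (nat_lit 189)) (XT.nd (nat_lit 78) (nat_lit 0) (nat_lit 0) (XT.lf (nat_lit 0) (nat_lit 22136032050) (nat_lit 1748) (nat_lit 2980144181) (nat_lit 1824) (nat_lit 2399659277) (nat_lit 407) (nat_lit 5) (nat_lit 430) (nat_lit 5) (nat_lit 431) (nat_lit 5) (nat_lit 485) (nat_lit 467) (nat_lit 188)) (XT.lf (nat_lit 76) (nat_lit 10902368360) (nat_lit 0) (nat_lit 13090041388) (nat_lit 1824) (nat_lit 3815152649) (nat_lit 408) (nat_lit 5) (nat_lit 407) (nat_lit 5) (nat_lit 431) (nat_lit 5) (nat_lit 486) (nat_lit 467) (nat_lit 187))))) (XT.nd (nat_lit 156) (nat_lit 1748) (nat_lit 0) (XT.nd (nat_lit 78) (nat_lit 0) (nat_lit 76) (XT.lf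 (nat_lit 76) (nat_lit 25101150214) (nat_lit 0) (nat_lit 802460054) (nat_lit 1824) (nat_lit 2201160614) (nat_lit 408) (nat_lit 5) (nat_lit 407) (nat_lit 5) (nat_lit 431) (nat_lit 5) (nat_lit 487) (nat_lit 467) (nat_lit 186)) (XT.lf (nat_lit 76) (nat_lit 11245514332) (nat_lit 0) (nat_lit 16754443848) (nat_lit 1824) (nat_lit 405027834) (nat_lit 409) (nat_lit 5) (nat_lit 408) (nat_lit 5) (nat_lit 432) (nat_lit 5) (nat_lit 488) (nat_lit 467) (nat_lit 185))) (XT.nd (nat_lit 57720) (nat_lit 0) (nat_lit 1140) (XT.lf (nat_lit 0) (nat_lit 1431677995) (nat_lit 1824) (nat_lit 2906979449) (nat_lit 1900) (nat_lit 24371896287) (nat_lit 384) (nat_lit 5) (nat_lit 408) (nat_lit 5) (nat_lit 409) (nat_lit 5) (nat_lit 489) (nat_lit 467) (nat_lit 184)) (XT.nd (nat_lit 78) (nat_lit 0) (nat_lit 0) (XT.lf (nat_lit 0) (nat_lit 1541542402) (nat_lit 0) (nat_lit 1541542402) (nat_lit 1748) (nat_lit 8599749960) (nat_lit 399) (nat_lit 5) (nat_lit 399)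 (nat_lit 3) (nat_lit 422) (nat_lit 3) (nat_lit 468) (nat_lit 468) (nat_lit 204)) (XT.lf (nat_lit 0) (nat_lit 6398573771) (nat_lit 1748) (nat_lit 9274218230) (nat_lit 1824) (nat_lit 7923068957) (nat_lit 399) (nat_lit 5) (nat_lit 422) (nat_lit 3) (nat_lit 423) (nat_lit 5) (nat_lit 469) (nat_lit 468) (nat_lit 203)))))) (XT.nd (nat_lit 390) (nat_lit 0) (nat_lit 228) (XT.nd (nat_lit 156) (nat_lit 0) (nat_lit 76) (XT.nd (nat_lit 78) (nat_lit 0) (nat_lit 76) (XT.lf (nat_lit 76) (nat_lit 1957947310) (nat_lit 0) (nat_lit 4707707513) (nat_lit 1824) (nat_lit 17164402142) (nat_lit 400) (nat_lit 5) (nat_lit 399) (nat_lit 5) (nat_lit 423) (nat_lit 5) (nat_lit 470) (nat_lit 468) (nat_lit 202)) (XT.lf (nat_lit 0) (nat_lit 7039733761) (nat_lit 1748) (nat_lit 10571374837) (nat_lit 1824) (nat_lit 6455796463) (nat_lit 400) (nat_lit 5) (nat_lit 423) (nat_lit 5) (nat_lit 424) (nat_lit 5) (nat_lit 471) (nat_lit 468) (nat_lit 201))) (XT.nd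 (nat_lit 78) (nat_lit 0) (nat_lit 76) (XT.lf (nat_lit 76) (nat_lit 934800797) (nat_lit 0) (nat_lit 6520757671) (nat_lit 1824) (nat_lit 16852247639) (nat_lit 401) (nat_lit 5) (nat_lit 400) (nat_lit 5) (nat_lit 424) (nat_lit 5) (nat_lit 472) (nat_lit 468) (nat_lit 200)) (XT.nd (nat_lit 78) (nat_lit 0) (nat_lit 0) (XT.lf (nat_lit 0) (nat_lit 7979292026) (nat_lit 1748) (nat_lit 11771001899) (nat_lit 1824) (nat_lit 4801240648) (nat_lit 401) (nat_lit 5) (nat_lit 424) (nat_lit 5) (nat_lit 425) (nat_lit 5) (nat_lit 473) (nat_lit 468) (nat_lit 199)) (XT.lf (nat_lit 76) (nat_lit 18418453) (nat_lit 0) (nat_lit 8535516702) (nat_lit 1824) (nat_lit 16245394978) (nat_lit 402) (nat_lit 5) (nat_lit 401) (nat_lit 5) (nat_lit 425) (nat_lit 5) (nat_lit 474) (nat_lit 468) (nat_lit 198))))) (XT.nd (nat_lit 234) (nat_lit 0) (nat_lit 76) (XT.nd (nat_lit 78) (nat_lit 0) (nat_lit 0) (XT.lf (nat_lit 0) (nat_lit 9235620069) (nat_lit 1748) (nat_lit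 12868425444) (nat_lit 1824) (nat_lit 2946126309) (nat_lit 402) (nat_lit 5) (nat_lit 425) (nat_lit 5) (nat_lit 426) (nat_lit 5) (nat_lit 475) (nat_lit 468) (nat_lit 197)) (XT.nd (nat_lit 78) (nat_lit 0) (nat_lit 76) (XT.lf (nat_lit 0) (nat_lit 9984704872) (nat_lit 1748) (nat_lit 775917018) (nat_lit 1824) (nat_lit 14544334306) (nat_lit 402) (nat_lit 5) (nat_lit 425) (nat_lit 5) (nat_lit 426) (nat_lit 5) (nat_lit 476) (nat_lit 468) (nat_lit 196)) (XT.lf (nat_lit 0) (nat_lit 10827863673) (nat_lit 1748) (nat_lit 13858780648) (nat_lit 1824) (nat_lit 876611241) (nat_lit 403) (nat_lit 5) (nat_lit 426) (nat_lit 5) (nat_lit 427) (nat_lit 5) (nat_lit 477) (nat_lit 468) (nat_lit 195)))) (XT.nd (nat_lit 78) (nat_lit 0) (nat_lit 0) (XT.lf (nat_lit 0) (nat_lit 11761731906) (nat_lit 1748) (nat_lit 1454638773) (nat_lit 1824) (nat_lit 12608874441) (nat_lit 403) (nat_lit 5) (nat_lit 426) (nat_lit 5) (nat_lit 427) (nat_lit 5) (nat_lit 478)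 (nat_lit 468) (nat_lit 194)) (XT.nd (nat_lit 78) (nat_lit 0) (nat_lit 76) (XT.lf (nat_lit 76) (nat_lit 11344689703) (nat_lit 0) (nat_lit 1440639721) (nat_lit 1824) (nat_lit 13305725112) (nat_lit 404) (nat_lit 5) (nat_lit 403) (nat_lit 5) (nat_lit 427) (nat_lit 5) (nat_lit 479) (nat_lit 468) (nat_lit 193)) (XT.lf (nat_lit 0) (nat_lit 13905297004) (nat_lit 1748) (nat_lit 2012689168) (nat_lit 1824) (nat_lit 10442677092) (nat_lit 404) (nat_lit 5) (nat_lit 427) (nat_lit 5) (nat_lit 428) (nat_lit 5) (nat_lit 480) (nat_lit 468) (nat_lit 192))))))))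
noncomputable def xc253 : XT := (XT.nd (nat_lit 59436) (nat_lit 0) (nat_lit 0) (XT.nd (nat_lit 58578) (nat_lit 0) (nat_lit 0) (XT.nd (nat_lit 390) (nat_lit 380) (nat_lit 0) (XT.nd (nat_lit 156) (nat_lit 0) (nat_lit 76) (XT.nd (nat_lit 78) (nat_lit 0) (nat_lit 76) (XT.lf (nat_lit 76) (nat_lit 11110133708) (nat_lit 0) (nat_lit 4016696115) (nat_lit 1824) (nat_lit 11507252088) (nat_lit 405) (nat_lit 5) (nat_lit 404) (nat_lit 5) (nat_lit 428) (nat_lit 5) (nat_lit 481) (nat_lit 468) (nat_lit 191)) (XT.lf (nat_lit 0) (nat_lit 16436660605) (nat_lit 1748) (nat_lit 2444571550) (nat_lit 1824) (nat_lit 8030460474) (nat_lit 405) (nat_lit 5) (nat_lit 428) (nat_lit 5) (nat_lit 429) (nat_lit 5) (nat_lit 482) (nat_lit 468) (nat_lit 190))) (XT.nd (nat_lit 78) (nat_lit 0) (nat_lit 76) (XT.lf (nat_lit 76) (nat_lit 11012515835) (nat_lit 0) (nat_lit 6855855929) (nat_lit 1824) (nat_lit 9324571144) (nat_lit 406) (nat_lit 5) (nat_lit 405) (nat_lit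 5) (nat_lit 429) (nat_lit 5) (nat_lit 483) (nat_lit 468) (nat_lit 189)) (XT.nd (nat_lit 78) (nat_lit 0) (nat_lit 0) (XT.lf (nat_lit 0) (nat_lit 19377979041) (nat_lit 1748) (nat_lit 2744591582) (nat_lit 1824) (nat_lit 5356263333) (nat_lit 406) (nat_lit 5) (nat_lit 429) (nat_lit 5) (nat_lit 430) (nat_lit 5) (nat_lit 484) (nat_lit 468) (nat_lit 188)) (XT.lf (nat_lit 76) (nat_lit 11057868704) (nat_lit 0) (nat_lit 9974777802) (nat_lit 1824) (nat_lit 6735499941) (nat_lit 407) (nat_lit 5) (nat_lit 406) (nat_lit 5) (nat_lit 430) (nat_lit 5) (nat_lit 485) (nat_lit 468) (nat_lit 187))))) (XT.nd (nat_lit 156) (nat_lit 608) (nat_lit 0) (XT.nd (nat_lit 78) (nat_lit 0) (nat_lit 0) (XT.lf (nat_lit 0) (nat_lit 22752341505) (nat_lit 1748) (nat_lit 2906857297) (nat_lit 1824) (nat_lit 2403408665) (nat_lit 407) (nat_lit 5) (nat_lit 430) (nat_lit 5) (nat_lit 431) (nat_lit 5) (nat_lit 486) (nat_lit 468) (nat_lit 186)) (XT.lf (nat_lit 76)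 (nat_lit 11252431219) (nat_lit 0) (nat_lit 13390868968) (nat_lit 1824) (nat_lit 3716921071) (nat_lit 408) (nat_lit 5) (nat_lit 407) (nat_lit 5) (nat_lit 431) (nat_lit 5) (nat_lit 487) (nat_lit 468) (nat_lit 185))) (XT.nd (nat_lit 57876) (nat_lit 608) (nat_lit 0) (XT.lf (nat_lit 76) (nat_lit 25732600172) (nat_lit 0) (nat_lit 856770777) (nat_lit 1824) (nat_lit 2074071443) (nat_lit 408) (nat_lit 5) (nat_lit 407) (nat_lit 5) (nat_lit 431) (nat_lit 5) (nat_lit 488) (nat_lit 468) (nat_lit 184)) (XT.nd (nat_lit 78) (nat_lit 0) (nat_lit 0) (XT.lf (nat_lit 0) (nat_lit 1631296686) (nat_lit 0) (nat_lit 1631296686) (nat_lit 1748) (nat_lit 8651491061) (nat_lit 399) (nat_lit 5) (nat_lit 399) (nat_lit 3) (nat_lit 422) (nat_lit 3) (nat_lit 469) (nat_lit 469) (nat_lit 202)) (XT.lf (nat_lit 0) (nat_lit 6756867408) (nat_lit 1748) (nat_lit 9338696651) (nat_lit 1824) (nat_lit 7967509465) (nat_lit 399) (nat_lit 5) (nat_lit 422) (nat_lit 3)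 (nat_lit 423) (nat_lit 5) (nat_lit 470) (nat_lit 469) (nat_lit 201)))))) (XT.nd (nat_lit 390) (nat_lit 0) (nat_lit 228) (XT.nd (nat_lit 156) (nat_lit 0) (nat_lit 76) (XT.nd (nat_lit 78) (nat_lit 0) (nat_lit 76) (XT.lf (nat_lit 76) (nat_lit 2117316109) (nat_lit 0) (nat_lit 4908238333) (nat_lit 1824) (nat_lit 17276475646) (nat_lit 400) (nat_lit 5) (nat_lit 399) (nat_lit 5) (nat_lit 423) (nat_lit 5) (nat_lit 471) (nat_lit 469) (nat_lit 200)) (XT.lf (nat_lit 0) (nat_lit 7401994960) (nat_lit 1748) (nat_lit 10659735141) (nat_lit 1824) (nat_lit 6481989333) (nat_lit 400) (nat_lit 5) (nat_lit 423) (nat_lit 5) (nat_lit 424) (nat_lit 5) (nat_lit 472) (nat_lit 469) (nat_lit 199))) (XT.nd (nat_lit 78) (nat_lit 0) (nat_lit 76) (XT.lf (nat_lit 76) (nat_lit 1075754354) (nat_lit 0) (nat_lit 6746833104) (nat_lit 1824) (nat_lit 16966923868) (nat_lit 401) (nat_lit 5) (nat_lit 400) (nat_lit 5) (nat_lit 424) (nat_lit 5) (nat_lit 473) (nat_lit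 469) (nat_lit 198)) (XT.nd (nat_lit 78) (nat_lit 0) (nat_lit 0) (XT.lf (nat_lit 0) (nat_lit 8351913877) (nat_lit 1748) (nat_lit 11881589060) (nat_lit 1824) (nat_lit 4804710875) (nat_lit 401) (nat_lit 5) (nat_lit 424) (nat_lit 5) (nat_lit 425) (nat_lit 5) (nat_lit 474) (nat_lit 469) (nat_lit 197)) (XT.lf (nat_lit 76) (nat_lit 142798430) (nat_lit 0) (nat_lit 8791879428) (nat_lit 1824) (nat_lit 16356356645) (nat_lit 402) (nat_lit 5) (nat_lit 401) (nat_lit 5) (nat_lit 425) (nat_lit 5) (nat_lit 475) (nat_lit 469) (nat_lit 196))))) (XT.nd (nat_lit 234) (nat_lit 0) (nat_lit 76) (XT.nd (nat_lit 78) (nat_lit 0) (nat_lit 0) (XT.lf (nat_lit 0) (nat_lit 9625340203) (nat_lit 1748) (nat_lit 12999470470) (nat_lit 1824) (nat_lit 2922177222) (nat_lit 402) (nat_lit 5) (nat_lit 425) (nat_lit 5) (nat_lit 426) (nat_lit 5) (nat_lit 476) (nat_lit 469) (nat_lit 195)) (XT.nd (nat_lit 78) (nat_lit 0) (nat_lit 76) (XT.lf (nat_lit 0) (nat_lit 10385386942)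 (nat_lit 1748) (nat_lit 667588806) (nat_lit 1824) (nat_lit 14753974313) (nat_lit 402) (nat_lit 5) (nat_lit 425) (nat_lit 5) (nat_lit 426) (nat_lit 5) (nat_lit 477) (nat_lit 469) (nat_lit 194)) (XT.lf (nat_lit 0) (nat_lit 11241781040) (nat_lit 1748) (nat_lit 14008398006) (nat_lit 1824) (nat_lit 820310602) (nat_lit 403) (nat_lit 5) (nat_lit 426) (nat_lit 5) (nat_lit 427) (nat_lit 5) (nat_lit 478) (nat_lit 469) (nat_lit 193)))) (XT.nd (nat_lit 78) (nat_lit 0) (nat_lit 0) (XT.lf (nat_lit 0) (nat_lit 12190456832) (nat_lit 1748) (nat_lit 1358674436) (nat_lit 1824) (nat_lit 12788666770) (nat_lit 403) (nat_lit 5) (nat_lit 426) (nat_lit 5) (nat_lit 427) (nat_lit 5) (nat_lit 479) (nat_lit 469) (nat_lit 192)) (XT.nd (nat_lit 78) (nat_lit 0) (nat_lit 76) (XT.lf (nat_lit 76) (nat_lit 11695817865) (nat_lit 0) (nat_lit 1535721120) (nat_lit 1824) (nat_lit 13377446014) (nat_lit 404) (nat_lit 5) (nat_lit 403) (nat_lit 5) (nat_lit 427)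 (nat_lit 5) (nat_lit 480) (nat_lit 469) (nat_lit 191)) (XT.lf (nat_lit 0) (nat_lit 14369748741) (nat_lit 1748) (nat_lit 1926908387) (nat_lit 1824) (nat_lit 10587413497) (nat_lit 404) (nat_lit 5) (nat_lit 427) (nat_lit 5) (nat_lit 428) (nat_lit 5) (nat_lit 481) (nat_lit 469) (nat_lit 190))))))) (XT.nd (nat_lit 58734) (nat_lit 0) (nat_lit 76) (XT.nd (nat_lit 390) (nat_lit 380) (nat_lit 0) (XT.nd (nat_lit 156) (nat_lit 0) (nat_lit 76) (XT.nd (nat_lit 78) (nat_lit 0) (nat_lit 76) (XT.lf (nat_lit 76) (nat_lit 11457541772) (nat_lit 0) (nat_lit 4155329522) (nat_lit 1824) (nat_lit 11550144719) (nat_lit 405) (nat_lit 5) (nat_lit 404) (nat_lit 5) (nat_lit 428) (nat_lit 5) (nat_lit 482) (nat_lit 469) (nat_lit 189)) (XT.lf (nat_lit 0) (nat_lit 16944929459) (nat_lit 1748) (nat_lit 2366667447) (nat_lit 1824) (nat_lit 8134662942) (nat_lit 405) (nat_lit 5) (nat_lit 428) (nat_lit 5) (nat_lit 429) (nat_lit 5) (nat_lit 483) (nat_lit 469)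 (nat_lit 188))) (XT.nd (nat_lit 78) (nat_lit 0) (nat_lit 76) (XT.lf (nat_lit 76) (nat_lit 11358727505) (nat_lit 0) (nat_lit 7043844855) (nat_lit 1824) (nat_lit 9330618311) (nat_lit 406) (nat_lit 5) (nat_lit 405) (nat_lit 5) (nat_lit 429) (nat_lit 5) (nat_lit 484) (nat_lit 469) (nat_lit 187)) (XT.nd (nat_lit 78) (nat_lit 0) (nat_lit 0) (XT.lf (nat_lit 0) (nat_lit 19938580648) (nat_lit 1748) (nat_lit 2672127784) (nat_lit 1824) (nat_lit 5414168390) (nat_lit 406) (nat_lit 5) (nat_lit 429) (nat_lit 5) (nat_lit 430) (nat_lit 5) (nat_lit 485) (nat_lit 469) (nat_lit 186)) (XT.lf (nat_lit 76) (nat_lit 11405543842) (nat_lit 0) (nat_lit 10218226077) (nat_lit 1824) (nat_lit 6696258506) (nat_lit 407) (nat_lit 5) (nat_lit 406) (nat_lit 5) (nat_lit 430) (nat_lit 5) (nat_lit 486) (nat_lit 469) (nat_lit 185))))) (XT.nd (nat_lit 58110) (nat_lit 0) (nat_lit 0) (XT.nd (nat_lit 78) (nat_lit 608) (nat_lit 0) (XT.lf (nat_lit 0) (nat_lit 23374236485)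 (nat_lit 1748) (nat_lit 2837264948) (nat_lit 1824) (nat_lit 2408951083) (nat_lit 407) (nat_lit 5) (nat_lit 430) (nat_lit 5) (nat_lit 431) (nat_lit 5) (nat_lit 487) (nat_lit 469) (nat_lit 184)) (XT.nd (nat_lit 57954) (nat_lit 608) (nat_lit 0) (XT.lf (nat_lit 76) (nat_lit 11604369013) (nat_lit 0) (nat_lit 13696197643) (nat_lit 1824) (nat_lit 3623502253) (nat_lit 408) (nat_lit 5) (nat_lit 407) (nat_lit 5) (nat_lit 431) (nat_lit 5) (nat_lit 488) (nat_lit 469) (nat_lit 183)) (XT.lf (nat_lit 0) (nat_lit 1720557987) (nat_lit 0) (nat_lit 1720557987) (nat_lit 1748) (nat_lit 8708936590) (nat_lit 399) (nat_lit 5) (nat_lit 399) (nat_lit 3) (nat_lit 422) (nat_lit 3) (nat_lit 470) (nat_lit 470) (nat_lit 200)))) (XT.nd (nat_lit 78) (nat_lit 0) (nat_lit 0) (XT.lf (nat_lit 0) (nat_lit 7113383228) (nat_lit 1748) (nat_lit 9409163448) (nat_lit 1824) (nat_lit 8017266351) (nat_lit 399) (nat_lit 5) (nat_lit 422) (nat_lit 3) (nat_lit 423) (nat_lit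 5) (nat_lit 471) (nat_lit 470) (nat_lit 199)) (XT.nd (nat_lit 78) (nat_lit 0) (nat_lit 76) (XT.lf (nat_lit 76) (nat_lit 2275204389) (nat_lit 0) (nat_lit 5108649034) (nat_lit 1824) (nat_lit 17399768962) (nat_lit 400) (nat_lit 5) (nat_lit 399) (nat_lit 5) (nat_lit 423) (nat_lit 5) (nat_lit 472) (nat_lit 470) (nat_lit 198)) (XT.lf (nat_lit 0) (nat_lit 7762901569) (nat_lit 1748) (nat_lit 10754641500) (nat_lit 1824) (nat_lit 6512702688) (nat_lit 400) (nat_lit 5) (nat_lit 423) (nat_lit 5) (nat_lit 424) (nat_lit 5) (nat_lit 473) (nat_lit 470) (nat_lit 197)))))) (XT.nd (nat_lit 390) (nat_lit 0) (nat_lit 228) (XT.nd (nat_lit 156) (nat_lit 0) (nat_lit 76) (XT.nd (nat_lit 78) (nat_lit 0) (nat_lit 76) (XT.lf (nat_lit 76) (nat_lit 1214779572) (nat_lit 0) (nat_lit 6973715441) (nat_lit 1824) (nat_lit 17092528470) (nat_lit 401) (nat_lit 5) (nat_lit 400) (nat_lit 5) (nat_lit 424) (nat_lit 5) (nat_lit 474) (nat_lit 470) (nat_lit 196))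 (XT.lf (nat_lit 0) (nat_lit 8723715717) (nat_lit 1748) (nat_lit 11999235378) (nat_lit 1824) (nat_lit 4811844514) (nat_lit 401) (nat_lit 5) (nat_lit 424) (nat_lit 5) (nat_lit 425) (nat_lit 5) (nat_lit 475) (nat_lit 470) (nat_lit 195))) (XT.nd (nat_lit 78) (nat_lit 0) (nat_lit 76) (XT.lf (nat_lit 76) (nat_lit 264850484) (nat_lit 0) (nat_lit 9050043421) (nat_lit 1824) (nat_lit 16477845338) (nat_lit 402) (nat_lit 5) (nat_lit 401) (nat_lit 5) (nat_lit 425) (nat_lit 5) (nat_lit 476) (nat_lit 470) (nat_lit 194)) (XT.nd (nat_lit 78) (nat_lit 0) (nat_lit 0) (XT.lf (nat_lit 0) (nat_lit 10014894039) (nat_lit 1748) (nat_lit 13138041690) (nat_lit 1824) (nat_lit 2900967160) (nat_lit 402) (nat_lit 5) (nat_lit 425) (nat_lit 5) (nat_lit 426) (nat_lit 5) (nat_lit 477) (nat_lit 470) (nat_lit 193)) (XT.lf (nat_lit 0) (nat_lit 10786278046) (nat_lit 1748) (nat_lit 561903142) (nat_lit 1824) (nat_lit 14970962028) (nat_lit 402) (nat_lit 5) (nat_lit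 425) (nat_lit 5) (nat_lit 426) (nat_lit 5) (nat_lit 478) (nat_lit 470) (nat_lit 192))))) (XT.nd (nat_lit 234) (nat_lit 0) (nat_lit 76) (XT.nd (nat_lit 78) (nat_lit 0) (nat_lit 0) (XT.lf (nat_lit 0) (nat_lit 11656313022) (nat_lit 1748) (nat_lit 14165960954) (nat_lit 1824) (nat_lit 765750971) (nat_lit 403) (nat_lit 5) (nat_lit 426) (nat_lit 5) (nat_lit 427) (nat_lit 5) (nat_lit 479) (nat_lit 470) (nat_lit 191)) (XT.nd (nat_lit 78) (nat_lit 0) (nat_lit 0) (XT.lf (nat_lit 0) (nat_lit 12620242792) (nat_lit 1748) (nat_lit 1265646932) (nat_lit 1824) (nat_lit 12974865748) (nat_lit 403) (nat_lit 5) (nat_lit 426) (nat_lit 5) (nat_lit 427) (nat_lit 5) (nat_lit 480) (nat_lit 470) (nat_lit 190)) (XT.lf (nat_lit 76) (nat_lit 12049144418) (nat_lit 0) (nat_lit 1630130856) (nat_lit 1824) (nat_lit 13458149875) (nat_lit 404) (nat_lit 5) (nat_lit 403) (nat_lit 5) (nat_lit 427) (nat_lit 5) (nat_lit 481) (nat_lit 470) (nat_lit 189)))) (XT.nd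 (nat_lit 78) (nat_lit 0) (nat_lit 0) (XT.lf (nat_lit 0) (nat_lit 14836253478) (nat_lit 1748) (nat_lit 1844306067) (nat_lit 1824) (nat_lit 10737534376) (nat_lit 404) (nat_lit 5) (nat_lit 427) (nat_lit 5) (nat_lit 428) (nat_lit 5) (nat_lit 482) (nat_lit 470) (nat_lit 188)) (XT.nd (nat_lit 78) (nat_lit 0) (nat_lit 76) (XT.lf (nat_lit 76) (nat_lit 11807036119) (nat_lit 0) (nat_lit 4294471758) (nat_lit 1824) (nat_lit 11601166441) (nat_lit 405) (nat_lit 5) (nat_lit 404) (nat_lit 5) (nat_lit 428) (nat_lit 5) (nat_lit 483) (nat_lit 470) (nat_lit 187)) (XT.lf (nat_lit 0) (nat_lit 17456392103) (nat_lit 1748) (nat_lit 2292128887) (nat_lit 1824) (nat_lit 8243139801) (nat_lit 405) (nat_lit 5) (nat_lit 428) (nat_lit 5) (nat_lit 429) (nat_lit 5) (nat_lit 484) (nat_lit 470) (nat_lit 186))))))))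
noncomputable def xc254 : XT := (XT.nd (nat_lit 117780) (nat_lit 0) (nat_lit 0) (XT.nd (nat_lit 58812) (nat_lit 0) (nat_lit 0) (XT.nd (nat_lit 58422) (nat_lit 0) (nat_lit 0) (XT.nd (nat_lit 156) (nat_lit 456) (nat_lit 0) (XT.nd (nat_lit 78) (nat_lit 0) (nat_lit 76) (XT.lf (nat_lit 76) (nat_lit 11706972175) (nat_lit 0) (nat_lit 7233618145) (nat_lit 1824) (nat_lit 9343793292) (nat_lit 406) (nat_lit 5) (nat_lit 405) (nat_lit 5) (nat_lit 429) (nat_lit 5) (nat_lit 485) (nat_lit 470) (nat_lit 185)) (XT.lf (nat_lit 0) (nat_lit 20503674855) (nat_lit 1748) (nat_lit 2603160084) (nat_lit 1824) (nat_lit 5475142828) (nat_lit 406) (nat_lit 5) (nat_lit 429) (nat_lit 5) (nat_lit 430) (nat_lit 5) (nat_lit 486) (nat_lit 470) (nat_lit 184))) (XT.nd (nat_lit 58110) (nat_lit 532) (nat_lit 0) (XT.lf (nat_lit 76) (nat_lit 11755259643) (nat_lit 0) (nat_lit 10464836580) (nat_lit 1824) (nat_lit 6662986988) (nat_lit 407) (nat_lit 5) (nat_lit 406)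 (nat_lit 5) (nat_lit 430) (nat_lit 5) (nat_lit 487) (nat_lit 470) (nat_lit 183)) (XT.nd (nat_lit 78) (nat_lit 0) (nat_lit 0) (XT.lf (nat_lit 0) (nat_lit 1809405294) (nat_lit 0) (nat_lit 1809405294) (nat_lit 1748) (nat_lit 8772019309) (nat_lit 399) (nat_lit 5) (nat_lit 399) (nat_lit 3) (nat_lit 422) (nat_lit 3) (nat_lit 471) (nat_lit 471) (nat_lit 198)) (XT.lf (nat_lit 0) (nat_lit 7468432967) (nat_lit 1748) (nat_lit 9485555928) (nat_lit 1824) (nat_lit 8072274017) (nat_lit 399) (nat_lit 5) (nat_lit 422) (nat_lit 3) (nat_lit 423) (nat_lit 5) (nat_lit 472) (nat_lit 471) (nat_lit 197))))) (XT.nd (nat_lit 156) (nat_lit 0) (nat_lit 76) (XT.nd (nat_lit 78) (nat_lit 0) (nat_lit 76) (XT.lf (nat_lit 76) (nat_lit 2431763799) (nat_lit 0) (nat_lit 5309097615) (nat_lit 1824) (nat_lit 17534157847) (nat_lit 400) (nat_lit 5) (nat_lit 399) (nat_lit 5) (nat_lit 423) (nat_lit 5) (nat_lit 473) (nat_lit 471) (nat_lit 196)) (XT.lf (nat_lit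 0) (nat_lit 8122760436) (nat_lit 1748) (nat_lit 10856039266) (nat_lit 1824) (nat_lit 6547871744) (nat_lit 400) (nat_lit 5) (nat_lit 423) (nat_lit 5) (nat_lit 424) (nat_lit 5) (nat_lit 474) (nat_lit 471) (nat_lit 195))) (XT.nd (nat_lit 78) (nat_lit 0) (nat_lit 76) (XT.lf (nat_lit 76) (nat_lit 1352022233) (nat_lit 0) (nat_lit 7201565062) (nat_lit 1824) (nat_lit 17228944711) (nat_lit 401) (nat_lit 5) (nat_lit 400) (nat_lit 5) (nat_lit 424) (nat_lit 5) (nat_lit 475) (nat_lit 471) (nat_lit 194)) (XT.nd (nat_lit 78) (nat_lit 0) (nat_lit 0) (XT.lf (nat_lit 0) (nat_lit 9095002375) (nat_lit 1748) (nat_lit 12123893803) (nat_lit 1824) (nat_lit 4822575273) (nat_lit 401) (nat_lit 5) (nat_lit 424) (nat_lit 5) (nat_lit 425) (nat_lit 5) (nat_lit 476) (nat_lit 471) (nat_lit 193)) (XT.lf (nat_lit 76) (nat_lit 384715050) (nat_lit 0) (nat_lit 9310173860) (nat_lit 1824) (nat_lit 16609748996) (nat_lit 402) (nat_lit 5) (nat_lit 401) (nat_lit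 5) (nat_lit 425) (nat_lit 5) (nat_lit 477) (nat_lit 471) (nat_lit 192)))))) (XT.nd (nat_lit 390) (nat_lit 228) (nat_lit 0) (XT.nd (nat_lit 156) (nat_lit 0) (nat_lit 76) (XT.nd (nat_lit 78) (nat_lit 0) (nat_lit 0) (XT.lf (nat_lit 0) (nat_lit 10404587376) (nat_lit 1748) (nat_lit 13284099152) (nat_lit 1824) (nat_lit 2882425943) (nat_lit 402) (nat_lit 5) (nat_lit 425) (nat_lit 5) (nat_lit 426) (nat_lit 5) (nat_lit 478) (nat_lit 471) (nat_lit 191)) (XT.lf (nat_lit 0) (nat_lit 11187685426) (nat_lit 1748) (nat_lit 458726134) (nat_lit 1824) (nat_lit 15195321896) (nat_lit 402) (nat_lit 5) (nat_lit 425) (nat_lit 5) (nat_lit 426) (nat_lit 5) (nat_lit 479) (nat_lit 471) (nat_lit 190))) (XT.nd (nat_lit 78) (nat_lit 0) (nat_lit 0) (XT.lf (nat_lit 0) (nat_lit 12071769502) (nat_lit 1748) (nat_lit 14331436064) (nat_lit 1824) (nat_lit 712855837) (nat_lit 403) (nat_lit 5) (nat_lit 426) (nat_lit 5) (nat_lit 427) (nat_lit 5) (nat_lit 480)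 (nat_lit 471) (nat_lit 189)) (XT.nd (nat_lit 78) (nat_lit 0) (nat_lit 0) (XT.lf (nat_lit 0) (nat_lit 13051402766) (nat_lit 1748) (nat_lit 1175426430) (nat_lit 1824) (nat_lit 13167490364) (nat_lit 403) (nat_lit 5) (nat_lit 426) (nat_lit 5) (nat_lit 427) (nat_lit 5) (nat_lit 481) (nat_lit 471) (nat_lit 188)) (XT.lf (nat_lit 76) (nat_lit 12404900660) (nat_lit 0) (nat_lit 1723955421) (nat_lit 1824) (nat_lit 13547723235) (nat_lit 404) (nat_lit 5) (nat_lit 403) (nat_lit 5) (nat_lit 427) (nat_lit 5) (nat_lit 482) (nat_lit 471) (nat_lit 187))))) (XT.nd (nat_lit 234) (nat_lit 380) (nat_lit 0) (XT.nd (nat_lit 78) (nat_lit 0) (nat_lit 0) (XT.lf (nat_lit 0) (nat_lit 15305133260) (nat_lit 1748) (nat_lit 1764755733) (nat_lit 1824) (nat_lit 10893050740) (nat_lit 404) (nat_lit 5) (nat_lit 427) (nat_lit 5) (nat_lit 428) (nat_lit 5) (nat_lit 483) (nat_lit 471) (nat_lit 186)) (XT.nd (nat_lit 78) (nat_lit 0) (nat_lit 76) (XT.lf (nat_lit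 76) (nat_lit 12158847267) (nat_lit 0) (nat_lit 4434220905) (nat_lit 1824) (nat_lit 11660197487) (nat_lit 405) (nat_lit 5) (nat_lit 404) (nat_lit 5) (nat_lit 428) (nat_lit 5) (nat_lit 484) (nat_lit 471) (nat_lit 185)) (XT.lf (nat_lit 0) (nat_lit 17971383127) (nat_lit 1748) (nat_lit 2220831990) (nat_lit 1824) (nat_lit 8355891487) (nat_lit 405) (nat_lit 5) (nat_lit 428) (nat_lit 5) (nat_lit 429) (nat_lit 5) (nat_lit 485) (nat_lit 471) (nat_lit 184)))) (XT.nd (nat_lit 78) (nat_lit 456) (nat_lit 0) (XT.lf (nat_lit 76) (nat_lit 12057480438) (nat_lit 0) (nat_lit 7425288194) (nat_lit 1824) (nat_lit 9363966557) (nat_lit 406) (nat_lit 5) (nat_lit 405) (nat_lit 5) (nat_lit 429) (nat_lit 5) (nat_lit 486) (nat_lit 471) (nat_lit 183)) (XT.nd (nat_lit 58188) (nat_lit 532) (nat_lit 0) (XT.lf (nat_lit 0) (nat_lit 21073612436) (nat_lit 1748) (nat_lit 2537566370) (nat_lit 1824) (nat_lit 5539173819) (nat_lit 406) (nat_lit 5) (nat_lit 429)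 (nat_lit 5) (nat_lit 430) (nat_lit 5) (nat_lit 487) (nat_lit 471) (nat_lit 182)) (XT.lf (nat_lit 0) (nat_lit 1897915725) (nat_lit 0) (nat_lit 1897915725) (nat_lit 1748) (nat_lit 8840677675) (nat_lit 399) (nat_lit 5) (nat_lit 399) (nat_lit 3) (nat_lit 422) (nat_lit 3) (nat_lit 472) (nat_lit 472) (nat_lit 196))))))) (XT.nd (nat_lit 858) (nat_lit 0) (nat_lit 0) (XT.nd (nat_lit 390) (nat_lit 0) (nat_lit 152) (XT.nd (nat_lit 156) (nat_lit 0) (nat_lit 76) (XT.nd (nat_lit 78) (nat_lit 0) (nat_lit 0) (XT.lf (nat_lit 0) (nat_lit 7822321115) (nat_lit 1748) (nat_lit 9567817231) (nat_lit 1824) (nat_lit 8132472227) (nat_lit 399) (nat_lit 5) (nat_lit 422) (nat_lit 3) (nat_lit 423) (nat_lit 5) (nat_lit 473) (nat_lit 472) (nat_lit 195)) (XT.lf (nat_lit 76) (nat_lit 2587141984) (nat_lit 0) (nat_lit 5509739006) (nat_lit 1824) (nat_lit 17679529110) (nat_lit 400) (nat_lit 5) (nat_lit 399) (nat_lit 5) (nat_lit 423) (nat_lit 5) (nat_lit 474)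 (nat_lit 472) (nat_lit 194))) (XT.nd (nat_lit 78) (nat_lit 0) (nat_lit 0) (XT.lf (nat_lit 0) (nat_lit 8481871580) (nat_lit 1748) (nat_lit 10963879906) (nat_lit 1824) (nat_lit 6587436447) (nat_lit 400) (nat_lit 5) (nat_lit 423) (nat_lit 5) (nat_lit 424) (nat_lit 5) (nat_lit 475) (nat_lit 472) (nat_lit 193)) (XT.nd (nat_lit 78) (nat_lit 0) (nat_lit 76) (XT.lf (nat_lit 76) (nat_lit 1487623875) (nat_lit 0) (nat_lit 7430539954) (nat_lit 1824) (nat_lit 17376066542) (nat_lit 401) (nat_lit 5) (nat_lit 400) (nat_lit 5) (nat_lit 424) (nat_lit 5) (nat_lit 476) (nat_lit 472) (nat_lit 192)) (XT.lf (nat_lit 0) (nat_lit 9466072303) (nat_lit 1748) (nat_lit 12255523657) (nat_lit 1824) (nat_lit 4836840954) (nat_lit 401) (nat_lit 5) (nat_lit 424) (nat_lit 5) (nat_lit 425) (nat_lit 5) (nat_lit 477) (nat_lit 472) (nat_lit 191))))) (XT.nd (nat_lit 234) (nat_lit 0) (nat_lit 152) (XT.nd (nat_lit 78) (nat_lit 0) (nat_lit 76) (XT.lf (nat_lit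 76) (nat_lit 502528110) (nat_lit 0) (nat_lit 9572434209) (nat_lit 1824) (nat_lit 16751965844) (nat_lit 402) (nat_lit 5) (nat_lit 401) (nat_lit 5) (nat_lit 425) (nat_lit 5) (nat_lit 478) (nat_lit 472) (nat_lit 190)) (XT.nd (nat_lit 78) (nat_lit 0) (nat_lit 0) (XT.lf (nat_lit 0) (nat_lit 10794720123) (nat_lit 1748) (nat_lit 13437609496) (nat_lit 1824) (nat_lit 2866486841) (nat_lit 402) (nat_lit 5) (nat_lit 425) (nat_lit 5) (nat_lit 426) (nat_lit 5) (nat_lit 479) (nat_lit 472) (nat_lit 189)) (XT.lf (nat_lit 0) (nat_lit 11589910703) (nat_lit 1748) (nat_lit 357928462) (nat_lit 1824) (nat_lit 15427083608) (nat_lit 402) (nat_lit 5) (nat_lit 425) (nat_lit 5) (nat_lit 426) (nat_lit 5) (nat_lit 480) (nat_lit 472) (nat_lit 188)))) (XT.nd (nat_lit 78) (nat_lit 0) (nat_lit 0) (XT.lf (nat_lit 0) (nat_lit 12488455007) (nat_lit 1748) (nat_lit 14504796705) (nat_lit 1824) (nat_lit 661551483) (nat_lit 403) (nat_lit 5) (nat_lit 426) (nat_lit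 5) (nat_lit 427) (nat_lit 5) (nat_lit 481) (nat_lit 472) (nat_lit 187)) (XT.nd (nat_lit 78) (nat_lit 0) (nat_lit 0) (XT.lf (nat_lit 0) (nat_lit 13484244659) (nat_lit 1748) (nat_lit 1087887821) (nat_lit 1824) (nat_lit 13366564220) (nat_lit 403) (nat_lit 5) (nat_lit 426) (nat_lit 5) (nat_lit 427) (nat_lit 5) (nat_lit 482) (nat_lit 472) (nat_lit 186)) (XT.lf (nat_lit 76) (nat_lit 12763315236) (nat_lit 0) (nat_lit 1817279153) (nat_lit 1824) (nat_lit 13646061746) (nat_lit 404) (nat_lit 5) (nat_lit 403) (nat_lit 5) (nat_lit 427) (nat_lit 5) (nat_lit 483) (nat_lit 472) (nat_lit 185)))))) (XT.nd (nat_lit 58656) (nat_lit 0) (nat_lit 0) (XT.nd (nat_lit 156) (nat_lit 380) (nat_lit 0) (XT.nd (nat_lit 78) (nat_lit 0) (nat_lit 0) (XT.lf (nat_lit 0) (nat_lit 15776705660) (nat_lit 1748) (nat_lit 1688135761) (nat_lit 1824) (nat_lit 11053977572) (nat_lit 404) (nat_lit 5) (nat_lit 427) (nat_lit 5) (nat_lit 428) (nat_lit 5) (nat_lit 484)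 (nat_lit 472) (nat_lit 184)) (XT.lf (nat_lit 76) (nat_lit 12513203015) (nat_lit 0) (nat_lit 4574673598) (nat_lit 1824) (nat_lit 11727126654) (nat_lit 405) (nat_lit 5) (nat_lit 404) (nat_lit 5) (nat_lit 428) (nat_lit 5) (nat_lit 485) (nat_lit 472) (nat_lit 183))) (XT.nd (nat_lit 58344) (nat_lit 456) (nat_lit 0) (XT.lf (nat_lit 0) (nat_lit 18490233302) (nat_lit 1748) (nat_lit 2152657824) (nat_lit 1824) (nat_lit 8472921744) (nat_lit 405) (nat_lit 5) (nat_lit 428) (nat_lit 5) (nat_lit 429) (nat_lit 5) (nat_lit 486) (nat_lit 472) (nat_lit 182)) (XT.nd (nat_lit 78) (nat_lit 0) (nat_lit 0) (XT.lf (nat_lit 0) (nat_lit 1986164625) (nat_lit 0) (nat_lit 1986164625) (nat_lit 1748) (nat_lit 8914855685) (nat_lit 399) (nat_lit 5) (nat_lit 399) (nat_lit 3) (nat_lit 422) (nat_lit 3) (nat_lit 473) (nat_lit 473) (nat_lit 194)) (XT.lf (nat_lit 0) (nat_lit 8175345284) (nat_lit 1748) (nat_lit 9655896167) (nat_lit 1824) (nat_lit 8197805955)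 (nat_lit 399) (nat_lit 5) (nat_lit 422) (nat_lit 3) (nat_lit 423) (nat_lit 5) (nat_lit 474) (nat_lit 473) (nat_lit 193))))) (XT.nd (nat_lit 234) (nat_lit 0) (nat_lit 152) (XT.nd (nat_lit 78) (nat_lit 0) (nat_lit 76) (XT.lf (nat_lit 76) (nat_lit 2741482776) (nat_lit 0) (nat_lit 5710725249) (nat_lit 1824) (nat_lit 17835780309) (nat_lit 400) (nat_lit 5) (nat_lit 399) (nat_lit 5) (nat_lit 423) (nat_lit 5) (nat_lit 475) (nat_lit 473) (nat_lit 192)) (XT.nd (nat_lit 78) (nat_lit 0) (nat_lit 0) (XT.lf (nat_lit 0) (nat_lit 8840528558) (nat_lit 1748) (nat_lit 11078120840) (nat_lit 1824) (nat_lit 6631341336) (nat_lit 400) (nat_lit 5) (nat_lit 423) (nat_lit 5) (nat_lit 424) (nat_lit 5) (nat_lit 476) (nat_lit 473) (nat_lit 191)) (XT.lf (nat_lit 76) (nat_lit 1621721986) (nat_lit 0) (nat_lit 7660795881) (nat_lit 1824) (nat_lit 17533798308) (nat_lit 401) (nat_lit 5) (nat_lit 400) (nat_lit 5) (nat_lit 424) (nat_lit 5) (nat_lit 477) (nat_lit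 473) (nat_lit 190)))) (XT.nd (nat_lit 78) (nat_lit 0) (nat_lit 0) (XT.lf (nat_lit 0) (nat_lit 9837217932) (nat_lit 1748) (nat_lit 12394090472) (nat_lit 1824) (nat_lit 4854583325) (nat_lit 401) (nat_lit 5) (nat_lit 424) (nat_lit 5) (nat_lit 425) (nat_lit 5) (nat_lit 478) (nat_lit 473) (nat_lit 189)) (XT.nd (nat_lit 78) (nat_lit 0) (nat_lit 76) (XT.lf (nat_lit 76) (nat_lit 618421385) (nat_lit 0) (nat_lit 9836986385) (nat_lit 1824) (nat_lit 16904404112) (nat_lit 402) (nat_lit 5) (nat_lit 401) (nat_lit 5) (nat_lit 425) (nat_lit 5) (nat_lit 479) (nat_lit 473) (nat_lit 188)) (XT.lf (nat_lit 0) (nat_lit 11185586651) (nat_lit 1748) (nat_lit 13598545809) (nat_lit 1824) (nat_lit 2853086454) (nat_lit 402) (nat_lit 5) (nat_lit 425) (nat_lit 5) (nat_lit 426) (nat_lit 5) (nat_lit 480) (nat_lit 473) (nat_lit 187))))))))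
noncomputable def xc255 : XT := (XT.nd (nat_lit 118638) (nat_lit 0) (nat_lit 0) (XT.nd (nat_lit 59202) (nat_lit 0) (nat_lit 0) (XT.nd (nat_lit 58812) (nat_lit 228) (nat_lit 0) (XT.nd (nat_lit 156) (nat_lit 0) (nat_lit 76) (XT.nd (nat_lit 78) (nat_lit 0) (nat_lit 76) (XT.lf (nat_lit 0) (nat_lit 11993250217) (nat_lit 1748) (nat_lit 259385191) (nat_lit 1824) (nat_lit 15666282022) (nat_lit 402) (nat_lit 5) (nat_lit 425) (nat_lit 5) (nat_lit 426) (nat_lit 5) (nat_lit 481) (nat_lit 473) (nat_lit 186)) (XT.lf (nat_lit 0) (nat_lit 12906669047) (nat_lit 1748) (nat_lit 14686022897) (nat_lit 1824) (nat_lit 611766875) (nat_lit 403) (nat_lit 5) (nat_lit 426) (nat_lit 5) (nat_lit 427) (nat_lit 5) (nat_lit 482) (nat_lit 473) (nat_lit 185))) (XT.nd (nat_lit 78) (nat_lit 0) (nat_lit 0) (XT.lf (nat_lit 0) (nat_lit 13919071650) (nat_lit 1748) (nat_lit 1002910537) (nat_lit 1824) (nat_lit 13572115467) (nat_lit 403) (nat_lit 5) (nat_lit 426)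 (nat_lit 5) (nat_lit 427) (nat_lit 5) (nat_lit 483) (nat_lit 473) (nat_lit 184)) (XT.nd (nat_lit 78) (nat_lit 0) (nat_lit 76) (XT.lf (nat_lit 76) (nat_lit 13124614378) (nat_lit 0) (nat_lit 1910184352) (nat_lit 1824) (nat_lit 13753069915) (nat_lit 404) (nat_lit 5) (nat_lit 403) (nat_lit 5) (nat_lit 427) (nat_lit 5) (nat_lit 484) (nat_lit 473) (nat_lit 183)) (XT.lf (nat_lit 0) (nat_lit 16251284117) (nat_lit 1748) (nat_lit 1614329190) (nat_lit 1824) (nat_lit 11220333764) (nat_lit 404) (nat_lit 5) (nat_lit 427) (nat_lit 5) (nat_lit 428) (nat_lit 5) (nat_lit 485) (nat_lit 473) (nat_lit 182))))) (XT.nd (nat_lit 156) (nat_lit 0) (nat_lit 0) (XT.nd (nat_lit 78) (nat_lit 0) (nat_lit 0) (XT.lf (nat_lit 0) (nat_lit 2074225658) (nat_lit 0) (nat_lit 2074225658) (nat_lit 1748) (nat_lit 8994502718) (nat_lit 399) (nat_lit 5) (nat_lit 399) (nat_lit 3) (nat_lit 422) (nat_lit 3) (nat_lit 474) (nat_lit 474) (nat_lit 192)) (XT.lf (nat_lit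 0) (nat_lit 8527796583) (nat_lit 1748) (nat_lit 9749747070) (nat_lit 1824) (nat_lit 8268225245) (nat_lit 399) (nat_lit 5) (nat_lit 422) (nat_lit 3) (nat_lit 423) (nat_lit 5) (nat_lit 475) (nat_lit 474) (nat_lit 191))) (XT.nd (nat_lit 78) (nat_lit 0) (nat_lit 76) (XT.lf (nat_lit 76) (nat_lit 2894926379) (nat_lit 0) (nat_lit 5912205675) (nat_lit 1824) (nat_lit 18002819461) (nat_lit 400) (nat_lit 5) (nat_lit 399) (nat_lit 5) (nat_lit 423) (nat_lit 5) (nat_lit 476) (nat_lit 474) (nat_lit 190)) (XT.nd (nat_lit 78) (nat_lit 0) (nat_lit 0) (XT.lf (nat_lit 0) (nat_lit 9199018815) (nat_lit 1748) (nat_lit 11198725294) (nat_lit 1824) (nat_lit 6679535405) (nat_lit 400) (nat_lit 5) (nat_lit 423) (nat_lit 5) (nat_lit 424) (nat_lit 5) (nat_lit 477) (nat_lit 474) (nat_lit 189)) (XT.lf (nat_lit 76) (nat_lit 1754450192) (nat_lit 0) (nat_lit 7892486547) (nat_lit 1824) (nat_lit 17702054470) (nat_lit 401) (nat_lit 5) (nat_lit 400) (nat_lit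 5) (nat_lit 424) (nat_lit 5) (nat_lit 478) (nat_lit 474) (nat_lit 188)))))) (XT.nd (nat_lit 390) (nat_lit 152) (nat_lit 0) (XT.nd (nat_lit 156) (nat_lit 0) (nat_lit 76) (XT.nd (nat_lit 78) (nat_lit 0) (nat_lit 0) (XT.lf (nat_lit 0) (nat_lit 10208726020) (nat_lit 1748) (nat_lit 12539565844) (nat_lit 1824) (nat_lit 4875747994) (nat_lit 401) (nat_lit 5) (nat_lit 424) (nat_lit 5) (nat_lit 425) (nat_lit 5) (nat_lit 479) (nat_lit 474) (nat_lit 187)) (XT.lf (nat_lit 76) (nat_lit 732522524) (nat_lit 0) (nat_lit 10103990906) (nat_lit 1824) (nat_lit 17066981766) (nat_lit 402) (nat_lit 5) (nat_lit 401) (nat_lit 5) (nat_lit 425) (nat_lit 5) (nat_lit 480) (nat_lit 474) (nat_lit 186))) (XT.nd (nat_lit 78) (nat_lit 0) (nat_lit 0) (XT.lf (nat_lit 0) (nat_lit 11577476129) (nat_lit 1748) (nat_lit 13766887471) (nat_lit 1824) (nat_lit 2842164597) (nat_lit 402) (nat_lit 5) (nat_lit 425) (nat_lit 5) (nat_lit 426) (nat_lit 5) (nat_lit 481)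 (nat_lit 474) (nat_lit 185)) (XT.nd (nat_lit 78) (nat_lit 0) (nat_lit 76) (XT.lf (nat_lit 0) (nat_lit 12397995363) (nat_lit 1748) (nat_lit 162975586) (nat_lit 1824) (nat_lit 15912957087) (nat_lit 402) (nat_lit 5) (nat_lit 425) (nat_lit 5) (nat_lit 426) (nat_lit 5) (nat_lit 482) (nat_lit 474) (nat_lit 184)) (XT.lf (nat_lit 0) (nat_lit 13326706445) (nat_lit 1748) (nat_lit 14875101158) (nat_lit 1824) (nat_lit 563433548) (nat_lit 403) (nat_lit 5) (nat_lit 426) (nat_lit 5) (nat_lit 427) (nat_lit 5) (nat_lit 483) (nat_lit 474) (nat_lit 183))))) (XT.nd (nat_lit 58812) (nat_lit 0) (nat_lit 0) (XT.nd (nat_lit 58656) (nat_lit 304) (nat_lit 0) (XT.lf (nat_lit 0) (nat_lit 14356182512) (nat_lit 1748) (nat_lit 920378358) (nat_lit 1824) (nat_lit 13784176733) (nat_lit 403) (nat_lit 5) (nat_lit 426) (nat_lit 5) (nat_lit 427) (nat_lit 5) (nat_lit 484) (nat_lit 474) (nat_lit 182)) (XT.nd (nat_lit 78) (nat_lit 0) (nat_lit 0) (XT.lf (nat_lit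 0) (nat_lit 2162170898) (nat_lit 0) (nat_lit 2162170898) (nat_lit 1748) (nat_lit 9079573394) (nat_lit 399) (nat_lit 5) (nat_lit 399) (nat_lit 3) (nat_lit 422) (nat_lit 3) (nat_lit 475) (nat_lit 475) (nat_lit 190)) (XT.lf (nat_lit 0) (nat_lit 8879959967) (nat_lit 1748) (nat_lit 9849329650) (nat_lit 1824) (nat_lit 8343685071) (nat_lit 399) (nat_lit 5) (nat_lit 422) (nat_lit 3) (nat_lit 423) (nat_lit 5) (nat_lit 476) (nat_lit 475) (nat_lit 189)))) (XT.nd (nat_lit 78) (nat_lit 0) (nat_lit 76) (XT.lf (nat_lit 76) (nat_lit 3047609555) (nat_lit 0) (nat_lit 6114327067) (nat_lit 1824) (nat_lit 18180564764) (nat_lit 400) (nat_lit 5) (nat_lit 399) (nat_lit 5) (nat_lit 423) (nat_lit 5) (nat_lit 477) (nat_lit 475) (nat_lit 188)) (XT.nd (nat_lit 78) (nat_lit 0) (nat_lit 0) (XT.lf (nat_lit 0) (nat_lit 9557624035) (nat_lit 1748) (nat_lit 11325662158) (nat_lit 1824) (nat_lit 6731971983) (nat_lit 400) (nat_lit 5) (nat_lit 423) (nat_lit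 5) (nat_lit 424) (nat_lit 5) (nat_lit 478) (nat_lit 475) (nat_lit 187)) (XT.lf (nat_lit 76) (nat_lit 1885938432) (nat_lit 0) (nat_lit 8125763755) (nat_lit 1824) (nat_lit 17880759338) (nat_lit 401) (nat_lit 5) (nat_lit 400) (nat_lit 5) (nat_lit 424) (nat_lit 5) (nat_lit 479) (nat_lit 475) (nat_lit 186))))))) (XT.nd (nat_lit 59514) (nat_lit 0) (nat_lit 0) (XT.nd (nat_lit 59046) (nat_lit 152) (nat_lit 0) (XT.nd (nat_lit 156) (nat_lit 0) (nat_lit 76) (XT.nd (nat_lit 78) (nat_lit 0) (nat_lit 0) (XT.lf (nat_lit 0) (nat_lit 10580877981) (nat_lit 1748) (nat_lit 12691927289) (nat_lit 1824) (nat_lit 4900284294) (nat_lit 401) (nat_lit 5) (nat_lit 424) (nat_lit 5) (nat_lit 425) (nat_lit 5) (nat_lit 480) (nat_lit 475) (nat_lit 185)) (XT.lf (nat_lit 76) (nat_lit 844955281) (nat_lit 0) (nat_lit 10373607051) (nat_lit 1824) (nat_lit 17239626257) (nat_lit 402) (nat_lit 5) (nat_lit 401) (nat_lit 5) (nat_lit 425) (nat_lit 5) (nat_lit 481)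 (nat_lit 475) (nat_lit 184))) (XT.nd (nat_lit 78) (nat_lit 0) (nat_lit 0) (XT.lf (nat_lit 0) (nat_lit 11970672849) (nat_lit 1748) (nat_lit 13942620015) (nat_lit 1824) (nat_lit 2833664188) (nat_lit 402) (nat_lit 5) (nat_lit 425) (nat_lit 5) (nat_lit 426) (nat_lit 5) (nat_lit 482) (nat_lit 475) (nat_lit 183)) (XT.nd (nat_lit 78) (nat_lit 0) (nat_lit 76) (XT.lf (nat_lit 0) (nat_lit 12804432915) (nat_lit 1748) (nat_lit 68582937) (nat_lit 1824) (nat_lit 16167153777) (nat_lit 402) (nat_lit 5) (nat_lit 425) (nat_lit 5) (nat_lit 426) (nat_lit 5) (nat_lit 483) (nat_lit 475) (nat_lit 182)) (XT.lf (nat_lit 0) (nat_lit 13748857661) (nat_lit 1748) (nat_lit 15072024368) (nat_lit 1824) (nat_lit 516485510) (nat_lit 403) (nat_lit 5) (nat_lit 426) (nat_lit 5) (nat_lit 427) (nat_lit 5) (nat_lit 484) (nat_lit 475) (nat_lit 181))))) (XT.nd (nat_lit 234) (nat_lit 0) (nat_lit 76) (XT.nd (nat_lit 78) (nat_lit 0) (nat_lit 0) (XT.lf (nat_lit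 0) (nat_lit 2250070917) (nat_lit 0) (nat_lit 2250070917) (nat_lit 1748) (nat_lit 9170027437) (nat_lit 399) (nat_lit 5) (nat_lit 399) (nat_lit 3) (nat_lit 422) (nat_lit 3) (nat_lit 476) (nat_lit 476) (nat_lit 188)) (XT.nd (nat_lit 78) (nat_lit 0) (nat_lit 0) (XT.lf (nat_lit 0) (nat_lit 9232114580) (nat_lit 1748) (nat_lit 9954608860) (nat_lit 1824) (nat_lit 8424145201) (nat_lit 399) (nat_lit 5) (nat_lit 422) (nat_lit 3) (nat_lit 423) (nat_lit 5) (nat_lit 477) (nat_lit 476) (nat_lit 187)) (XT.lf (nat_lit 76) (nat_lit 3199665792) (nat_lit 0) (nat_lit 6317233829) (nat_lit 1824) (nat_lit 18368944335) (nat_lit 400) (nat_lit 5) (nat_lit 399) (nat_lit 5) (nat_lit 423) (nat_lit 5) (nat_lit 478) (nat_lit 476) (nat_lit 186)))) (XT.nd (nat_lit 78) (nat_lit 0) (nat_lit 0) (XT.lf (nat_lit 0) (nat_lit 9916620463) (nat_lit 1748) (nat_lit 11458905849) (nat_lit 1824) (nat_lit 6788608607) (nat_lit 400) (nat_lit 5) (nat_lit 423) (nat_lit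 5) (nat_lit 424) (nat_lit 5) (nat_lit 479) (nat_lit 476) (nat_lit 185)) (XT.nd (nat_lit 78) (nat_lit 0) (nat_lit 76) (XT.lf (nat_lit 76) (nat_lit 2016313137) (nat_lit 0) (nat_lit 8360777567) (nat_lit 1824) (nat_lit 18069846822) (nat_lit 401) (nat_lit 5) (nat_lit 400) (nat_lit 5) (nat_lit 424) (nat_lit 5) (nat_lit 480) (nat_lit 476) (nat_lit 184)) (XT.lf (nat_lit 0) (nat_lit 10953950212) (nat_lit 1748) (nat_lit 12851158116) (nat_lit 1824) (nat_lit 4928145171) (nat_lit 401) (nat_lit 5) (nat_lit 424) (nat_lit 5) (nat_lit 425) (nat_lit 5) (nat_lit 481) (nat_lit 476) (nat_lit 183)))))) (XT.nd (nat_lit 59280) (nat_lit 0) (nat_lit 0) (XT.nd (nat_lit 59046) (nat_lit 152) (nat_lit 0) (XT.nd (nat_lit 78) (nat_lit 0) (nat_lit 76) (XT.lf (nat_lit 76) (nat_lit 955839687) (nat_lit 0) (nat_lit 10645993000) (nat_lit 1824) (nat_lit 17422274276) (nat_lit 402) (nat_lit 5) (nat_lit 401) (nat_lit 5) (nat_lit 425) (nat_lit 5) (nat_lit 482)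 (nat_lit 476) (nat_lit 182)) (XT.lf (nat_lit 0) (nat_lit 12365456546) (nat_lit 1748) (nat_lit 14125735002) (nat_lit 1824) (nat_lit 2827531146) (nat_lit 402) (nat_lit 5) (nat_lit 425) (nat_lit 5) (nat_lit 426) (nat_lit 5) (nat_lit 483) (nat_lit 476) (nat_lit 181))) (XT.nd (nat_lit 78) (nat_lit 0) (nat_lit 0) (XT.lf (nat_lit 0) (nat_lit 9584534086) (nat_lit 1748) (nat_lit 10065554764) (nat_lit 1824) (nat_lit 8509570078) (nat_lit 399) (nat_lit 5) (nat_lit 422) (nat_lit 3) (nat_lit 423) (nat_lit 5) (nat_lit 478) (nat_lit 477) (nat_lit 185)) (XT.nd (nat_lit 78) (nat_lit 0) (nat_lit 76) (XT.lf (nat_lit 76) (nat_lit 3351225471) (nat_lit 0) (nat_lit 6521068146) (nat_lit 1824) (nat_lit 18567895958) (nat_lit 400) (nat_lit 5) (nat_lit 399) (nat_lit 5) (nat_lit 423) (nat_lit 5) (nat_lit 479) (nat_lit 477) (nat_lit 184)) (XT.lf (nat_lit 0) (nat_lit 10276279235) (nat_lit 1748) (nat_lit 11598436184) (nat_lit 1824) (nat_lit 6849406907)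 (nat_lit 400) (nat_lit 5) (nat_lit 423) (nat_lit 5) (nat_lit 424) (nat_lit 5) (nat_lit 480) (nat_lit 477) (nat_lit 183))))) (XT.nd (nat_lit 59280) (nat_lit 0) (nat_lit 0) (XT.nd (nat_lit 78) (nat_lit 76) (nat_lit 0) (XT.lf (nat_lit 76) (nat_lit 2145697394) (nat_lit 0) (nat_lit 8597676449) (nat_lit 1824) (nat_lit 18269260193) (nat_lit 401) (nat_lit 5) (nat_lit 400) (nat_lit 5) (nat_lit 424) (nat_lit 5) (nat_lit 481) (nat_lit 477) (nat_lit 182)) (XT.nd (nat_lit 59124) (nat_lit 152) (nat_lit 0) (XT.lf (nat_lit 0) (nat_lit 11328214406) (nat_lit 1748) (nat_lit 13017247292) (nat_lit 1824) (nat_lit 4959287073) (nat_lit 401) (nat_lit 5) (nat_lit 424) (nat_lit 5) (nat_lit 425) (nat_lit 5) (nat_lit 482) (nat_lit 477) (nat_lit 181)) (XT.lf (nat_lit 0) (nat_lit 9937486988) (nat_lit 1748) (nat_lit 10182142413) (nat_lit 1824) (nat_lit 8599928698) (nat_lit 399) (nat_lit 5) (nat_lit 422) (nat_lit 3) (nat_lit 423) (nat_lit 5) (nat_lit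 479) (nat_lit 478) (nat_lit 183)))) (XT.nd (nat_lit 78) (nat_lit 0) (nat_lit 0) (XT.lf (nat_lit 76) (nat_lit 3502416036) (nat_lit 0) (nat_lit 6725970132) (nat_lit 1824) (nat_lit 18777366850) (nat_lit 400) (nat_lit 5) (nat_lit 399) (nat_lit 5) (nat_lit 423) (nat_lit 5) (nat_lit 480) (nat_lit 478) (nat_lit 182)) (XT.nd (nat_lit 59280) (nat_lit 76) (nat_lit 0) (XT.lf (nat_lit 0) (nat_lit 10636866683) (nat_lit 1748) (nat_lit 11744238259) (nat_lit 1824) (nat_lit 6914332500) (nat_lit 400) (nat_lit 5) (nat_lit 423) (nat_lit 5) (nat_lit 424) (nat_lit 5) (nat_lit 481) (nat_lit 478) (nat_lit 181)) (XT.lf (nat_lit 0) (nat_lit 10291236940) (nat_lit 1748) (nat_lit 10304351729) (nat_lit 1824) (nat_lit 8695194493) (nat_lit 399) (nat_lit 5) (nat_lit 422) (nat_lit 3) (nat_lit 423) (nat_lit 5) (nat_lit 480) (nat_lit 479) (nat_lit 181))))))))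

set_option maxRecDepth 10000000 in
noncomputable def Tp : PT := (PT.nd (nat_lit 11707098) (PT.nd (nat_lit 10402626) (PT.nd (nat_lit 9216324) (PT.nd (nat_lit 8207862) (PT.nd (nat_lit 7377708) (PT.nd (nat_lit 6784518) pc0 pc1) (PT.nd (nat_lit 415506) pc2 pc3)) (PT.nd (nat_lit 534456) (PT.nd (nat_lit 296634) pc4 pc5) (PT.nd (nat_lit 237198) pc6 pc7))) (PT.nd (nat_lit 653328) (PT.nd (nat_lit 356148) (PT.nd (nat_lit 178308) pc8 pc9) (PT.nd (nat_lit 177528) pc10 pc11)) (PT.nd (nat_lit 295620) (PT.nd (nat_lit 176514) pc12 pc13) (PT.nd (nat_lit 118794) pc14 pc15)))) (PT.nd (nat_lit 713856) (PT.nd (nat_lit 414648) (PT.nd (nat_lit 179478) (PT.nd (nat_lit 118170) pc16 pc17) (PT.nd (nat_lit 117702) pc18 pc19)) (PT.nd (nat_lit 177840) (PT.nd (nat_lit 60918) pc20 pc21) (PT.nd (nat_lit 60684) pc22 pc23))) (PT.nd (nat_lit 296556) (PT.nd (nat_lit 176280) (PT.nd (nat_lit 116064) pc24 pc25) (PT.nd (nat_lit 60138) pc26 pc27)) (PT.nd (nat_lit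 174876) (PT.nd (nat_lit 115128) pc28 pc29) (PT.nd (nat_lit 59592) pc30 pc31))))) (PT.nd (nat_lit 775242) (PT.nd (nat_lit 417456) (PT.nd (nat_lit 236730) (PT.nd (nat_lit 118560) (PT.nd (nat_lit 59358) pc32 pc33) (PT.nd (nat_lit 59124) pc34 pc35)) (PT.nd (nat_lit 117468) (PT.nd (nat_lit 58812) pc36 pc37) (PT.nd (nat_lit 4680) pc38 pc39))) (PT.nd (nat_lit 179556) (PT.nd (nat_lit 116688) (PT.nd (nat_lit 58422) pc40 pc41) (PT.nd (nat_lit 58110) pc42 pc43)) (PT.nd (nat_lit 115830) (PT.nd (nat_lit 57954) pc44 pc45) (PT.nd (nat_lit 57642) pc46 pc47)))) (PT.nd (nat_lit 414804) (PT.nd (nat_lit 176748) (PT.nd (nat_lit 114816) (PT.nd (nat_lit 57486) pc48 pc49) (PT.nd (nat_lit 57174) pc50 pc51)) (PT.nd (nat_lit 115362) (PT.nd (nat_lit 58500) pc52 pc53) (PT.nd (nat_lit 62400) pc54 pc55))) (PT.nd (nat_lit 408174) (PT.nd (nat_lit 172614) (PT.nd (nat_lit 60450) pc56 pc57) (PT.nd (nat_lit 117312) pc58 pc59)) (PT.nd (nat_lit 246246) (PT.nd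 (nat_lit 118794) pc60 pc61) (PT.nd (nat_lit 227760) pc62 pc63))))))

set_option maxRecDepth 10000000 in
noncomputable def Tx : XT := (XT.nd (nat_lit 18855954) (nat_lit 0) (nat_lit 912) XT.nil (XT.nd (nat_lit 9614046) (nat_lit 0) (nat_lit 0) (XT.nd (nat_lit 4444362) (nat_lit 0) (nat_lit 4408) (XT.nd (nat_lit 3025074) (nat_lit 0) (nat_lit 1824) (XT.nd (nat_lit 2132364) (nat_lit 0) (nat_lit 912) (XT.nd (nat_lit 1481142) (nat_lit 0) (nat_lit 456) (XT.nd (nat_lit 1007838) (nat_lit 0) (nat_lit 152) (XT.nd (nat_lit 710580) (nat_lit 0) (nat_lit 152) (XT.nd (nat_lit 474006) (nat_lit 0) (nat_lit 0) (XT.nd (nat_lit 296556) (nat_lit 0) (nat_lit 0) xc0 xc1) (XT.nd (nat_lit 118560) (nat_lit 0) (nat_lit 0) xc2 xc3)) (XT.nd (nat_lit 177450) (nat_lit 0) (nat_lit 0) (XT.nd (nat_lit 60372) (nat_lit 0) (nat_lit 0) xc4 xc5) (XT.nd (nat_lit 59982) (nat_lit 0) (nat_lit 0) xc6 xc7))) (XT.nd (nat_lit 237822) (nat_lit 0) (nat_lit 76) (XT.nd (nat_lit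 119184) (nat_lit 0) (nat_lit 76) (XT.nd (nat_lit 59592) (nat_lit 0) (nat_lit 76) xc8 xc9) (XT.nd (nat_lit 59358) (nat_lit 0) (nat_lit 0) xc10 xc11)) (XT.nd (nat_lit 118014) (nat_lit 0) (nat_lit 228) (XT.nd (nat_lit 59046) (nat_lit 0) (nat_lit 228) xc12 xc13) (XT.nd (nat_lit 58812) (nat_lit 0) (nat_lit 0) xc14 xc15)))) (XT.nd (nat_lit 355134) (nat_lit 0) (nat_lit 76) (XT.nd (nat_lit 178230) (nat_lit 0) (nat_lit 76) (XT.nd (nat_lit 61776) (nat_lit 0) (nat_lit 0) (XT.nd (nat_lit 58422) (nat_lit 0) (nat_lit 684) xc16 xc17) (XT.nd (nat_lit 58266) (nat_lit 0) (nat_lit 76) xc18 xc19)) (XT.nd (nat_lit 61308) (nat_lit 0) (nat_lit 0) (XT.nd (nat_lit 57954) (nat_lit 0) (nat_lit 1140) xc20 xc21) (XT.nd (nat_lit 57876) (nat_lit 0) (nat_lit 0) xc22 xc23))) (XT.nd (nat_lit 121524) (nat_lit 0) (nat_lit 152) (XT.nd (nat_lit 60840) (nat_lit 0) (nat_lit 152) (XT.nd (nat_lit 3276) (nat_lit 988) (nat_lit 0) xc24 xc25) (XT.nd (nat_lit 57330)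 (nat_lit 0) (nat_lit 1672) xc26 xc27)) (XT.nd (nat_lit 114270) (nat_lit 0) (nat_lit 76) (XT.nd (nat_lit 57174) (nat_lit 0) (nat_lit 76) xc28 xc29) (XT.nd (nat_lit 3354) (nat_lit 4104) (nat_lit 0) xc30 xc31))))) (XT.nd (nat_lit 476892) (nat_lit 0) (nat_lit 532) (XT.nd (nat_lit 239694) (nat_lit 0) (nat_lit 152) (XT.nd (nat_lit 120120) (nat_lit 0) (nat_lit 152) (XT.nd (nat_lit 60138) (nat_lit 0) (nat_lit 152) (XT.nd (nat_lit 3276) (nat_lit 2052) (nat_lit 0) xc32 xc33) (XT.nd (nat_lit 3276) (nat_lit 608) (nat_lit 0) xc34 xc35)) (XT.nd (nat_lit 59826) (nat_lit 0) (nat_lit 0) (XT.nd (nat_lit 56472) (nat_lit 0) (nat_lit 5320) xc36 xc37) (XT.nd (nat_lit 56394) (nat_lit 0) (nat_lit 4408) xc38 xc39))) (XT.nd (nat_lit 118872) (nat_lit 0) (nat_lit 228) (XT.nd (nat_lit 59514) (nat_lit 0) (nat_lit 228) (XT.nd (nat_lit 56160) (nat_lit 0) (nat_lit 4028) xc40 xc41) (XT.nd (nat_lit 56004) (nat_lit 0) (nat_lit 3800) xc42 xc43)) (XT.nd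 (nat_lit 59202) (nat_lit 0) (nat_lit 0) (XT.nd (nat_lit 55848) (nat_lit 0) (nat_lit 4408) xc44 xc45) (XT.nd (nat_lit 55770) (nat_lit 0) (nat_lit 5092) xc46 xc47)))) (XT.nd (nat_lit 234702) (nat_lit 0) (nat_lit 152) (XT.nd (nat_lit 117624) (nat_lit 0) (nat_lit 0) (XT.nd (nat_lit 58890) (nat_lit 0) (nat_lit 0) (XT.nd (nat_lit 55536) (nat_lit 0) (nat_lit 6308) xc48 xc49) (XT.nd (nat_lit 55380) (nat_lit 0) (nat_lit 8740) xc50 xc51)) (XT.nd (nat_lit 58578) (nat_lit 0) (nat_lit 152) (XT.nd (nat_lit 3276) (nat_lit 532) (nat_lit 0) xc52 xc53) (XT.nd (nat_lit 3354) (nat_lit 1596) (nat_lit 0) xc54 xc55))) (XT.nd (nat_lit 116376) (nat_lit 0) (nat_lit 228) (XT.nd (nat_lit 58266) (nat_lit 0) (nat_lit 76) (XT.nd (nat_lit 3276) (nat_lit 3800) (nat_lit 0) xc56 xc57) (XT.nd (nat_lit 3276) (nat_lit 6840) (nat_lit 0) xc58 xc59)) (XT.nd (nat_lit 6630) (nat_lit 1596) (nat_lit 0) (XT.nd (nat_lit 3276) (nat_lit 10184) (nat_lit 0) xc60 xc61)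 (XT.nd (nat_lit 54756) (nat_lit 0) (nat_lit 4180) xc62 xc63)))))) (XT.nd (nat_lit 711204) (nat_lit 0) (nat_lit 1292) (XT.nd (nat_lit 408642) (nat_lit 0) (nat_lit 608) (XT.nd (nat_lit 179868) (nat_lit 0) (nat_lit 456) (XT.nd (nat_lit 115596) (nat_lit 0) (nat_lit 152) (XT.nd (nat_lit 57876) (nat_lit 0) (nat_lit 152) (XT.nd (nat_lit 54522) (nat_lit 0) (nat_lit 9196) xc64 xc65) (XT.nd (nat_lit 3276) (nat_lit 684) (nat_lit 0) xc66 xc67)) (XT.nd (nat_lit 57564) (nat_lit 0) (nat_lit 760) (XT.nd (nat_lit 3276) (nat_lit 4028) (nat_lit 0) xc68 xc69) (XT.nd (nat_lit 3354) (nat_lit 8816) (nat_lit 0) xc70 xc71))) (XT.nd (nat_lit 114660) (nat_lit 0) (nat_lit 0) (XT.nd (nat_lit 57408) (nat_lit 0) (nat_lit 0) (XT.nd (nat_lit 54054) (nat_lit 0) (nat_lit 4712) xc72 xc73) (XT.nd (nat_lit 53898) (nat_lit 0) (nat_lit 12312) xc74 xc75)) (XT.nd (nat_lit 57096) (nat_lit 0) (nat_lit 152) (XT.nd (nat_lit 3276) (nat_lit 2204) (nat_lit 0) xc76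 xc77) (XT.nd (nat_lit 3354) (nat_lit 8132) (nat_lit 0) xc78 xc79)))) (XT.nd (nat_lit 126750) (nat_lit 0) (nat_lit 304) (XT.nd (nat_lit 63414) (nat_lit 0) (nat_lit 0) (XT.nd (nat_lit 6630) (nat_lit 5244) (nat_lit 0) (XT.nd (nat_lit 3276) (nat_lit 15048) (nat_lit 0) xc80 xc81) (XT.nd (nat_lit 53430) (nat_lit 0) (nat_lit 15808) xc82 xc83)) (XT.nd (nat_lit 56628) (nat_lit 0) (nat_lit 2052) (XT.nd (nat_lit 3276) (nat_lit 3572) (nat_lit 0) xc84 xc85) (XT.nd (nat_lit 3354) (nat_lit 10640) (nat_lit 0) xc86 xc87))) (XT.nd (nat_lit 112866) (nat_lit 0) (nat_lit 152) (XT.nd (nat_lit 56472) (nat_lit 0) (nat_lit 152) (XT.nd (nat_lit 53118) (nat_lit 0) (nat_lit 10184) xc88 xc89) (XT.nd (nat_lit 3276) (nat_lit 1064) (nat_lit 0) xc90 xc91)) (XT.nd (nat_lit 6630) (nat_lit 304) (nat_lit 0) (XT.nd (nat_lit 3276) (nat_lit 8740) (nat_lit 0) xc92 xc93) (XT.nd (nat_lit 52962) (nat_lit 0) (nat_lit 8056) xc94 xc95))))) (XT.nd (nat_lit 352482)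 (nat_lit 0) (nat_lit 532) (XT.nd (nat_lit 175890) (nat_lit 0) (nat_lit 304) (XT.nd (nat_lit 112710) (nat_lit 0) (nat_lit 76) (XT.nd (nat_lit 56316) (nat_lit 0) (nat_lit 0) (XT.nd (nat_lit 52962) (nat_lit 0) (nat_lit 24700) xc96 xc97) (XT.nd (nat_lit 3276) (nat_lit 7448) (nat_lit 0) xc98 xc99)) (XT.nd (nat_lit 6630) (nat_lit 6080) (nat_lit 0) (XT.nd (nat_lit 3276) (nat_lit 16720) (nat_lit 0) xc100 xc101) (XT.nd (nat_lit 53196) (nat_lit 0) (nat_lit 19380) xc102 xc103))) (XT.nd (nat_lit 63180) (nat_lit 0) (nat_lit 0) (XT.nd (nat_lit 56550) (nat_lit 0) (nat_lit 3268) (XT.nd (nat_lit 3276) (nat_lit 4636) (nat_lit 0) xc104 xc105) (XT.nd (nat_lit 3276) (nat_lit 12844) (nat_lit 0) xc106 xc107)) (XT.nd (nat_lit 56628) (nat_lit 0) (nat_lit 228) (XT.nd (nat_lit 53274) (nat_lit 0) (nat_lit 13452) xc108 xc109) (XT.nd (nat_lit 3354) (nat_lit 1748) (nat_lit 0) xc110 xc111)))) (XT.nd (nat_lit 177294) (nat_lit 0) (nat_lit 532) (XT.nd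 (nat_lit 63414) (nat_lit 0) (nat_lit 228) (XT.nd (nat_lit 6630) (nat_lit 532) (nat_lit 0) (XT.nd (nat_lit 3276) (nat_lit 9272) (nat_lit 0) xc112 xc113) (XT.nd (nat_lit 53430) (nat_lit 0) (nat_lit 7296) xc114 xc115)) (XT.nd (nat_lit 56862) (nat_lit 0) (nat_lit 76) (XT.nd (nat_lit 53508) (nat_lit 0) (nat_lit 18696) xc116 xc117) (XT.nd (nat_lit 3354) (nat_lit 4408) (nat_lit 0) xc118 xc119))) (XT.nd (nat_lit 63804) (nat_lit 0) (nat_lit 0) (XT.nd (nat_lit 6630) (nat_lit 2128) (nat_lit 0) (XT.nd (nat_lit 3276) (nat_lit 11856) (nat_lit 0) xc120 xc121) (XT.nd (nat_lit 53820) (nat_lit 0) (nat_lit 8664) xc122 xc123)) (XT.nd (nat_lit 57174) (nat_lit 0) (nat_lit 228) (XT.nd (nat_lit 53820) (nat_lit 0) (nat_lit 19988) xc124 xc125) (XT.nd (nat_lit 3354) (nat_lit 4788) (nat_lit 0) xc126 xc127))))))) (XT.nd (nat_lit 1663740) (nat_lit 0) (nat_lit 5168) (XT.nd (nat_lit 771810) (nat_lit 0) (nat_lit 2204) (XT.nd (nat_lit 358566) (nat_lit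 0) (nat_lit 988) (XT.nd (nat_lit 178932) (nat_lit 0) (nat_lit 608) (XT.nd (nat_lit 63960) (nat_lit 0) (nat_lit 380) (XT.nd (nat_lit 6630) (nat_lit 1596) (nat_lit 0) (XT.nd (nat_lit 3276) (nat_lit 11476) (nat_lit 0) xc128 xc129) (XT.nd (nat_lit 53976) (nat_lit 0) (nat_lit 7524) xc130 xc131)) (XT.nd (nat_lit 57408) (nat_lit 0) (nat_lit 0) (XT.nd (nat_lit 54054) (nat_lit 0) (nat_lit 16188) xc132 xc133) (XT.nd (nat_lit 3354) (nat_lit 3268) (nat_lit 0) xc134 xc135))) (XT.nd (nat_lit 64194) (nat_lit 0) (nat_lit 0) (XT.nd (nat_lit 57564) (nat_lit 0) (nat_lit 4180) (XT.nd (nat_lit 3276) (nat_lit 9424) (nat_lit 0) xc136 xc137) (XT.nd (nat_lit 3276) (nat_lit 14060) (nat_lit 0) xc138 xc139)) (XT.nd (nat_lit 57642) (nat_lit 0) (nat_lit 304) (XT.nd (nat_lit 54288) (nat_lit 0) (nat_lit 10640) xc140 xc141) (XT.nd (nat_lit 54444) (nat_lit 0) (nat_lit 18772) xc142 xc143)))) (XT.nd (nat_lit 180336) (nat_lit 0) (nat_lit 532) (XT.nd (nat_lit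 115674) (nat_lit 0) (nat_lit 228) (XT.nd (nat_lit 57798) (nat_lit 0) (nat_lit 228) (XT.nd (nat_lit 3276) (nat_lit 4180) (nat_lit 0) xc144 xc145) (XT.nd (nat_lit 3276) (nat_lit 9348) (nat_lit 0) xc146 xc147)) (XT.nd (nat_lit 6630) (nat_lit 3192) (nat_lit 0) (XT.nd (nat_lit 3276) (nat_lit 14364) (nat_lit 0) xc148 xc149) (XT.nd (nat_lit 54678) (nat_lit 0) (nat_lit 7752) xc150 xc151))) (XT.nd (nat_lit 116220) (nat_lit 0) (nat_lit 380) (XT.nd (nat_lit 58032) (nat_lit 0) (nat_lit 304) (XT.nd (nat_lit 54678) (nat_lit 0) (nat_lit 13528) xc152 xc153) (XT.nd (nat_lit 3276) (nat_lit 1368) (nat_lit 0) xc154 xc155)) (XT.nd (nat_lit 58266) (nat_lit 0) (nat_lit 304) (XT.nd (nat_lit 3276) (nat_lit 5016) (nat_lit 0) xc156 xc157) (XT.nd (nat_lit 3354) (nat_lit 8360) (nat_lit 0) xc158 xc159))))) (XT.nd (nat_lit 417378) (nat_lit 0) (nat_lit 988) (XT.nd (nat_lit 182208) (nat_lit 0) (nat_lit 380) (XT.nd (nat_lit 65052) (nat_lit 0) (nat_lit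 304) (XT.nd (nat_lit 6630) (nat_lit 988) (nat_lit 0) (XT.nd (nat_lit 3276) (nat_lit 12540) (nat_lit 0) xc160 xc161) (XT.nd (nat_lit 55068) (nat_lit 0) (nat_lit 3876) xc162 xc163)) (XT.nd (nat_lit 58500) (nat_lit 0) (nat_lit 0) (XT.nd (nat_lit 55146) (nat_lit 0) (nat_lit 6916) xc164 xc165) (XT.nd (nat_lit 55302) (nat_lit 0) (nat_lit 9880) xc166 xc167))) (XT.nd (nat_lit 117390) (nat_lit 0) (nat_lit 304) (XT.nd (nat_lit 58656) (nat_lit 0) (nat_lit 304) (XT.nd (nat_lit 55302) (nat_lit 0) (nat_lit 13908) xc168 xc169) (XT.nd (nat_lit 3276) (nat_lit 1064) (nat_lit 0) xc170 xc171)) (XT.nd (nat_lit 58812) (nat_lit 0) (nat_lit 304) (XT.nd (nat_lit 3276) (nat_lit 3192) (nat_lit 0) xc172 xc173) (XT.nd (nat_lit 3354) (nat_lit 4256) (nat_lit 0) xc174 xc175)))) (XT.nd (nat_lit 236496) (nat_lit 0) (nat_lit 1140) (XT.nd (nat_lit 118014) (nat_lit 0) (nat_lit 456) (XT.nd (nat_lit 58968) (nat_lit 0) (nat_lit 380) (XT.nd (nat_lit 3276) (nat_lit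 6232) (nat_lit 0) xc176 xc177) (XT.nd (nat_lit 3276) (nat_lit 7600) (nat_lit 0) xc178 xc179)) (XT.nd (nat_lit 59124) (nat_lit 0) (nat_lit 684) (XT.nd (nat_lit 3276) (nat_lit 9348) (nat_lit 0) xc180 xc181) (XT.nd (nat_lit 3354) (nat_lit 9880) (nat_lit 0) xc182 xc183))) (XT.nd (nat_lit 118872) (nat_lit 0) (nat_lit 456) (XT.nd (nat_lit 59358) (nat_lit 0) (nat_lit 380) (XT.nd (nat_lit 3276) (nat_lit 10640) (nat_lit 0) xc184 xc185) (XT.nd (nat_lit 3354) (nat_lit 10260) (nat_lit 0) xc186 xc187)) (XT.nd (nat_lit 59514) (nat_lit 0) (nat_lit 380) (XT.nd (nat_lit 3276) (nat_lit 10184) (nat_lit 0) xc188 xc189) (XT.nd (nat_lit 3354) (nat_lit 8436) (nat_lit 0) xc190 xc191)))))) (XT.nd (nat_lit 1129596) (nat_lit 0) (nat_lit 4788) (XT.nd (nat_lit 480012) (nat_lit 0) (nat_lit 2204) (XT.nd (nat_lit 239226) (nat_lit 0) (nat_lit 1292) (XT.nd (nat_lit 119418) (nat_lit 0) (nat_lit 380) (XT.nd (nat_lit 59670) (nat_lit 0) (nat_lit 380) (XT.nd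 (nat_lit 3276) (nat_lit 7828) (nat_lit 0) xc192 xc193) (XT.nd (nat_lit 3276) (nat_lit 6764) (nat_lit 0) xc194 xc195)) (XT.nd (nat_lit 59826) (nat_lit 0) (nat_lit 456) (XT.nd (nat_lit 3276) (nat_lit 5016) (nat_lit 0) xc196 xc197) (XT.nd (nat_lit 3354) (nat_lit 2964) (nat_lit 0) xc198 xc199))) (XT.nd (nat_lit 120198) (nat_lit 0) (nat_lit 456) (XT.nd (nat_lit 60060) (nat_lit 0) (nat_lit 0) (XT.nd (nat_lit 3276) (nat_lit 912) (nat_lit 0) xc200 xc201) (XT.nd (nat_lit 56784) (nat_lit 0) (nat_lit 8436) xc202 xc203)) (XT.nd (nat_lit 60216) (nat_lit 0) (nat_lit 0) (XT.nd (nat_lit 56862) (nat_lit 0) (nat_lit 4788) xc204 xc205) (XT.nd (nat_lit 57018) (nat_lit 0) (nat_lit 988) xc206 xc207)))) (XT.nd (nat_lit 296322) (nat_lit 0) (nat_lit 1520) (XT.nd (nat_lit 174798) (nat_lit 0) (nat_lit 988) (XT.nd (nat_lit 114192) (nat_lit 0) (nat_lit 532) (XT.nd (nat_lit 57018) (nat_lit 0) (nat_lit 76) xc208 xc209) (XT.nd (nat_lit 3276) (nat_lit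 5700) (nat_lit 0) xc210 xc211)) (XT.nd (nat_lit 60684) (nat_lit 0) (nat_lit 0) (XT.nd (nat_lit 3276) (nat_lit 532) (nat_lit 0) xc212 xc213) (XT.nd (nat_lit 57486) (nat_lit 0) (nat_lit 2812) xc214 xc215))) (XT.nd (nat_lit 176124) (nat_lit 0) (nat_lit 1064) (XT.nd (nat_lit 115128) (nat_lit 0) (nat_lit 532) (XT.nd (nat_lit 57486) (nat_lit 0) (nat_lit 76) xc216 xc217) (XT.nd (nat_lit 3276) (nat_lit 3572) (nat_lit 0) xc218 xc219)) (XT.nd (nat_lit 61152) (nat_lit 0) (nat_lit 0) (XT.nd (nat_lit 57798) (nat_lit 0) (nat_lit 3040) xc220 xc221) (XT.nd (nat_lit 57954) (nat_lit 0) (nat_lit 532) xc222 xc223))))) (XT.nd (nat_lit 771966) (nat_lit 0) (nat_lit 5624) (XT.nd (nat_lit 356460) (nat_lit 0) (nat_lit 2964) (XT.nd (nat_lit 177840) (nat_lit 0) (nat_lit 1748) (XT.nd (nat_lit 61308) (nat_lit 0) (nat_lit 1748) (XT.nd (nat_lit 3276) (nat_lit 1748) (nat_lit 0) xc224 xc225) (XT.nd (nat_lit 58188) (nat_lit 0) (nat_lit 0) xc226 xc227))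 (XT.nd (nat_lit 61620) (nat_lit 0) (nat_lit 0) (XT.nd (nat_lit 3276) (nat_lit 1900) (nat_lit 0) xc228 xc229) (XT.nd (nat_lit 58422) (nat_lit 0) (nat_lit 1216) xc230 xc231))) (XT.nd (nat_lit 179400) (nat_lit 0) (nat_lit 1292) (XT.nd (nat_lit 61932) (nat_lit 0) (nat_lit 0) (XT.nd (nat_lit 58578) (nat_lit 0) (nat_lit 2660) xc232 xc233) (XT.nd (nat_lit 58656) (nat_lit 0) (nat_lit 684) xc234 xc235)) (XT.nd (nat_lit 117858) (nat_lit 0) (nat_lit 684) (XT.nd (nat_lit 58812) (nat_lit 0) (nat_lit 0) xc236 xc237) (XT.nd (nat_lit 59046) (nat_lit 0) (nat_lit 684) xc238 xc239)))) (XT.nd (nat_lit 477126) (nat_lit 0) (nat_lit 4788) (XT.nd (nat_lit 237666) (nat_lit 0) (nat_lit 2280) (XT.nd (nat_lit 118638) (nat_lit 0) (nat_lit 1520) (XT.nd (nat_lit 59280) (nat_lit 0) (nat_lit 836) xc240 xc241) (XT.nd (nat_lit 59436) (nat_lit 0) (nat_lit 0) xc242 xc243)) (XT.nd (nat_lit 119496) (nat_lit 0) (nat_lit 760) (XT.nd (nat_lit 59670) (nat_lit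 0) (nat_lit 760) xc244 xc245) (XT.nd (nat_lit 59904) (nat_lit 0) (nat_lit 1748) xc246 xc247))) (XT.nd (nat_lit 355914) (nat_lit 0) (nat_lit 3496) (XT.nd (nat_lit 177372) (nat_lit 0) (nat_lit 2584) (XT.nd (nat_lit 117000) (nat_lit 0) (nat_lit 1672) xc248 xc249) (XT.nd (nat_lit 117780) (nat_lit 0) (nat_lit 912) xc250 xc251)) (XT.nd (nat_lit 237432) (nat_lit 0) (nat_lit 1140) (XT.nd (nat_lit 118404) (nat_lit 0) (nat_lit 1140) xc252 xc253) (XT.nd (nat_lit 177762) (nat_lit 0) (nat_lit 0) xc254 xc255)))))))) XT.nil))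

set_option maxRecDepth 10000000 in
noncomputable def Te : XT := XT.nil

set_option maxRecDepth 10000000 in
noncomputable def Tz : ZL := (ZL.cons (nat_lit 76) (nat_lit 3) (nat_lit 125116663512342276322) (ZL.cons (nat_lit 152) (nat_lit 6) (nat_lit 247878234398664155506) (ZL.cons (nat_lit 608) (nat_lit 3) (nat_lit 94723112165470437114) (ZL.cons (nat_lit 760) (nat_lit 6) (nat_lit 187766739347671698212) (ZL.cons (nat_lit 836) (nat_lit 6) (nat_lit 186124912001741613306) (ZL.cons (nat_lit 912) (nat_lit 3) (nat_lit 93044820521414253527) (ZL.cons (nat_lit 1064) (nat_lit 6) (nat_lit 184450248108892926704) (ZL.cons (nat_lit 1140) (nat_lit 6) (nat_lit 182847917646675178504) (ZL.cons (nat_lit 1216) (nat_lit 3) (nat_lit 91406669137595870500) (ZL.cons (nat_lit 1292) (nat_lit 6) (nat_lit 181282021291288118240) (ZL.cons (nat_lit 1368) (nat_lit 6) (nat_lit 181213540575213075340) (ZL.cons (nat_lit 1444) (nat_lit 6) (nat_lit 179650227637309879264)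 (ZL.cons (nat_lit 1520) (nat_lit 3) (nat_lit 89808163146359136934) (ZL.cons (nat_lit 1596) (nat_lit 6) (nat_lit 178122786397584935832) (ZL.cons (nat_lit 1672) (nat_lit 6) (nat_lit 178055648440648619266) (ZL.cons (nat_lit 1824) (nat_lit 6) (nat_lit 176530894988473888138) (ZL.cons (nat_lit 1900) (nat_lit 3) (nat_lit 88248829188064588484) (ZL.cons (nat_lit 1976) (nat_lit 6) (nat_lit 175041467993663815886) (ZL.cons (nat_lit 2052) (nat_lit 6) (nat_lit 174975646467255662390) (ZL.cons (nat_lit 2128) (nat_lit 6) (nat_lit 173586783367200829932) (ZL.cons (nat_lit 2204) (nat_lit 6) (nat_lit 173489015846612831018) (ZL.cons (nat_lit 2280) (nat_lit 3) (nat_lit 86728215466274694346) (ZL.cons (nat_lit 2356) (nat_lit 6) (nat_lit 172037183521800430762) (ZL.cons (nat_lit 2432) (nat_lit 6) (nat_lit 171972652613557143018) (ZL.cons (nat_lit 2508) (nat_lit 6) (nat_lit 170619580146808731264) (ZL.cons (nat_lit 2584) (nat_lit 6) (nat_lit 170523729636428340172)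 (ZL.cons (nat_lit 2660) (nat_lit 3) (nat_lit 85245891821124247377) (ZL.cons (nat_lit 2736) (nat_lit 6) (nat_lit 169109093796073910036) (ZL.cons (nat_lit 2812) (nat_lit 6) (nat_lit 169045828199756961270) (ZL.cons (nat_lit 2888) (nat_lit 6) (nat_lit 167728190333340772442) (ZL.cons (nat_lit 2964) (nat_lit 6) (nat_lit 167634219244732545880) (ZL.cons (nat_lit 3040) (nat_lit 3) (nat_lit 83801449821297721266) (ZL.cons (nat_lit 3192) (nat_lit 6) (nat_lit 166256403205036023330) (ZL.cons (nat_lit 3268) (nat_lit 6) (nat_lit 166194378110607642186) (ZL.cons (nat_lit 3344) (nat_lit 6) (nat_lit 164911839760651826350) (ZL.cons (nat_lit 3420) (nat_lit 6) (nat_lit 164819711242408466978) (ZL.cons (nat_lit 3496) (nat_lit 3) (nat_lit 82394502875058594591) (ZL.cons (nat_lit 3572) (nat_lit 6) (nat_lit 163600001631797843492) (ZL.cons (nat_lit 3648) (nat_lit 6) (nat_lit 163478359952951564286) (ZL.cons (nat_lit 3724) (nat_lit 6) (nat_lit 163417551036845308262)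 (ZL.cons (nat_lit 3800) (nat_lit 6) (nat_lit 162169798222123421606) (ZL.cons (nat_lit 3876) (nat_lit 6) (nat_lit 162079476145414245748) (ZL.cons (nat_lit 3952) (nat_lit 3) (nat_lit 81024686360799633760) (ZL.cons (nat_lit 4028) (nat_lit 6) (nat_lit 160893512888460969072) (ZL.cons (nat_lit 4104) (nat_lit 6) (nat_lit 160774256340572460046) (ZL.cons (nat_lit 4180) (nat_lit 6) (nat_lit 160714639756154561984) (ZL.cons (nat_lit 4332) (nat_lit 6) (nat_lit 159501379771416091632) (ZL.cons (nat_lit 4408) (nat_lit 6) (nat_lit 159412828715818860402) (ZL.cons (nat_lit 4484) (nat_lit 3) (nat_lit 79691657777607970284) (ZL.cons (nat_lit 4560) (nat_lit 6) (nat_lit 158260347270663118404) (ZL.cons (nat_lit 4636) (nat_lit 6) (nat_lit 158143429086458697790) (ZL.cons (nat_lit 4712) (nat_lit 6) (nat_lit 158084981454676444788) (ZL.cons (nat_lit 4788) (nat_lit 6) (nat_lit 157050672158901480366) (ZL.cons (nat_lit 4864) (nat_lit 6) (nat_lit 156905943064297854478)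 (ZL.cons (nat_lit 4940) (nat_lit 6) (nat_lit 156819128303908412092) (ZL.cons (nat_lit 5016) (nat_lit 3) (nat_lit 78395096916364539462) (ZL.cons (nat_lit 5092) (nat_lit 6) (nat_lit 155699885360700188954) (ZL.cons (nat_lit 5168) (nat_lit 6) (nat_lit 155585259689911541294) (ZL.cons (nat_lit 5244) (nat_lit 6) (nat_lit 155527958090125018742) (ZL.cons (nat_lit 5320) (nat_lit 6) (nat_lit 154524783011860368808) (ZL.cons (nat_lit 5396) (nat_lit 6) (nat_lit 154382891742641127738) (ZL.cons (nat_lit 5472) (nat_lit 6) (nat_lit 154297779232455399912) (ZL.cons (nat_lit 5548) (nat_lit 3) (nat_lit 77134706051924105264) (ZL.cons (nat_lit 5700) (nat_lit 6) (nat_lit 153211552945255104596) (ZL.cons (nat_lit 5776) (nat_lit 6) (nat_lit 153099174836638783360) (ZL.cons (nat_lit 5852) (nat_lit 6) (nat_lit 153042996797632388702) (ZL.cons (nat_lit 5928) (nat_lit 6) (nat_lit 152070783949205477348) (ZL.cons (nat_lit 6004) (nat_lit 6) (nat_lit 151931674861735633164)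 (ZL.cons (nat_lit 6080) (nat_lit 6) (nat_lit 151848231224298645096) (ZL.cons (nat_lit 6156) (nat_lit 3) (nat_lit 75910210156949719911) (ZL.cons (nat_lit 6232) (nat_lit 6) (nat_lit 150960137394101638298) (ZL.cons (nat_lit 6308) (nat_lit 6) (nat_lit 150794821464618536320) (ZL.cons (nat_lit 6384) (nat_lit 6) (nat_lit 150684646848328025304) (ZL.cons (nat_lit 6460) (nat_lit 6) (nat_lit 150629570339498226620) (ZL.cons (nat_lit 6536) (nat_lit 6) (nat_lit 149688168820425878282) (ZL.cons (nat_lit 6612) (nat_lit 6) (nat_lit 149551787362122109472) (ZL.cons (nat_lit 6688) (nat_lit 6) (nat_lit 149469979874438787840) (ZL.cons (nat_lit 6764) (nat_lit 3) (nat_lit 74721357138004097215) (ZL.cons (nat_lit 6840) (nat_lit 6) (nat_lit 148611282947728563890) (ZL.cons (nat_lit 6916) (nat_lit 6) (nat_lit 148449208507058856068) (ZL.cons (nat_lit 6992) (nat_lit 6) (nat_lit 148341194177362276642) (ZL.cons (nat_lit 7068) (nat_lit 6) (nat_lit 148287197600078160284)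 (ZL.cons (nat_lit 7144) (nat_lit 6) (nat_lit 147563741538341221648) (ZL.cons (nat_lit 7220) (nat_lit 6) (nat_lit 147376477899273534400) (ZL.cons (nat_lit 7296) (nat_lit 6) (nat_lit 147242770587211015962) (ZL.cons (nat_lit 7372) (nat_lit 6) (nat_lit 147162567167913641810) (ZL.cons (nat_lit 7448) (nat_lit 3) (nat_lit 73567918094530059431) (ZL.cons (nat_lit 7524) (nat_lit 6) (nat_lit 146333174860096424738) (ZL.cons (nat_lit 7600) (nat_lit 6) (nat_lit 146174278349635926874) (ZL.cons (nat_lit 7676) (nat_lit 6) (nat_lit 146068381947972613710) (ZL.cons (nat_lit 7752) (nat_lit 6) (nat_lit 146015444127105832968) (ZL.cons (nat_lit 7828) (nat_lit 6) (nat_lit 145318890251080790956) (ZL.cons (nat_lit 7904) (nat_lit 6) (nat_lit 145135298448073254442) (ZL.cons (nat_lit 7980) (nat_lit 6) (nat_lit 145004212848011961852) (ZL.cons (nat_lit 8056) (nat_lit 6) (nat_lit 144925582044779242098) (ZL.cons (nat_lit 8132) (nat_lit 3) (nat_lit 72449687601382992152)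 (ZL.cons (nat_lit 8208) (nat_lit 6) (nat_lit 144125423439424346636) (ZL.cons (nat_lit 8284) (nat_lit 6) (nat_lit 143969642546816015396) (ZL.cons (nat_lit 8360) (nat_lit 6) (nat_lit 143865822545185316216) (ZL.cons (nat_lit 8436) (nat_lit 6) (nat_lit 143813922720806119410) (ZL.cons (nat_lit 8512) (nat_lit 6) (nat_lit 143144257294274047028) (ZL.cons (nat_lit 8588) (nat_lit 6) (nat_lit 142964265330541168088) (ZL.cons (nat_lit 8664) (nat_lit 6) (nat_lit 142835750036363430258) (ZL.cons (nat_lit 8740) (nat_lit 6) (nat_lit 142758661013586254026) (ZL.cons (nat_lit 8816) (nat_lit 3) (nat_lit 71366484015610157507) (ZL.cons (nat_lit 8892) (nat_lit 6) (nat_lit 142191415241585041764) (ZL.cons (nat_lit 8968) (nat_lit 6) (nat_lit 141987686933612410182) (ZL.cons (nat_lit 9044) (nat_lit 6) (nat_lit 141834960568310124652) (ZL.cons (nat_lit 9120) (nat_lit 6) (nat_lit 141733176252985909770) (ZL.cons (nat_lit 9196) (nat_lit 6) (nat_lit 141682294072221991332)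 (ZL.cons (nat_lit 9272) (nat_lit 6) (nat_lit 141039524384109377460) (ZL.cons (nat_lit 9348) (nat_lit 6) (nat_lit 140863061674567339288) (ZL.cons (nat_lit 9424) (nat_lit 6) (nat_lit 140737066288118576706) (ZL.cons (nat_lit 9500) (nat_lit 6) (nat_lit 140661488814807619618) (ZL.cons (nat_lit 9576) (nat_lit 3) (nat_lit 70318149808204820096) (ZL.cons (nat_lit 9652) (nat_lit 6) (nat_lit 140119405853581284420) (ZL.cons (nat_lit 9728) (nat_lit 6) (nat_lit 139919672218313998556) (ZL.cons (nat_lit 9804) (nat_lit 6) (nat_lit 139769940487625483332) (ZL.cons (nat_lit 9880) (nat_lit 6) (nat_lit 139670151943189978544) (ZL.cons (nat_lit 9956) (nat_lit 6) (nat_lit 139620267452244960468) (ZL.cons (nat_lit 10032) (nat_lit 6) (nat_lit 139226970511231845532) (ZL.cons (nat_lit 10108) (nat_lit 6) (nat_lit 139004422242900591344) (ZL.cons (nat_lit 10184) (nat_lit 6) (nat_lit 138831419586486828428) (ZL.cons (nat_lit 10260) (nat_lit 6) (nat_lit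 138707894697811570998) (ZL.cons (nat_lit 10336) (nat_lit 6) (nat_lit 138633799135742005222) (ZL.cons (nat_lit 10412) (nat_lit 3) (nat_lit 69304551921597483286) (ZL.cons (nat_lit 10488) (nat_lit 6) (nat_lit 138116952826768132004) (ZL.cons (nat_lit 10564) (nat_lit 6) (nat_lit 137921135537290400764) (ZL.cons (nat_lit 10640) (nat_lit 6) (nat_lit 137774339722889895642) (ZL.cons (nat_lit 10716) (nat_lit 6) (nat_lit 137676507816580577224) (ZL.cons (nat_lit 10792) (nat_lit 6) (nat_lit 137627601452908990874) (ZL.cons (nat_lit 10868) (nat_lit 6) (nat_lit 137256915942694607806) (ZL.cons (nat_lit 10944) (nat_lit 6) (nat_lit 137038731365899260562) (ZL.cons (nat_lit 11020) (nat_lit 6) (nat_lit 136869120918434787116) (ZL.cons (nat_lit 11096) (nat_lit 6) (nat_lit 136748018086400221006) (ZL.cons (nat_lit 11172) (nat_lit 6) (nat_lit 136675375378488882014) (ZL.cons (nat_lit 11248) (nat_lit 3) (nat_lit 68325582153682167157) (ZL.cons (nat_lit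 11324) (nat_lit 6) (nat_lit 136423974321313715408) (ZL.cons (nat_lit 11400) (nat_lit 6) (nat_lit 136183861031461881884) (ZL.cons (nat_lit 11476) (nat_lit 6) (nat_lit 135991883296679792434) (ZL.cons (nat_lit 11552) (nat_lit 6) (nat_lit 135847965831581258000) (ZL.cons (nat_lit 11628) (nat_lit 6) (nat_lit 135752052197944671316) (ZL.cons (nat_lit 11704) (nat_lit 6) (nat_lit 135704104782580370974) (ZL.cons (nat_lit 11780) (nat_lit 6) (nat_lit 135356189290709857916) (ZL.cons (nat_lit 11856) (nat_lit 6) (nat_lit 135142282842871282186) (ZL.cons (nat_lit 11932) (nat_lit 6) (nat_lit 134975998090455131748) (ZL.cons (nat_lit 12008) (nat_lit 6) (nat_lit 134857269823754576740) (ZL.cons (nat_lit 12084) (nat_lit 6) (nat_lit 134786051482665028706) (ZL.cons (nat_lit 12160) (nat_lit 3) (nat_lit 67381157569212638032) (ZL.cons (nat_lit 12236) (nat_lit 6) (nat_lit 134555391566489952570) (ZL.cons (nat_lit 12312) (nat_lit 6) (nat_lit 134319986380360704018)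 (ZL.cons (nat_lit 12388) (nat_lit 6) (nat_lit 134131772914888067300) (ZL.cons (nat_lit 12464) (nat_lit 6) (nat_lit 133990677360869896288) (ZL.cons (nat_lit 12540) (nat_lit 6) (nat_lit 133896644386716379930) (ZL.cons (nat_lit 12616) (nat_lit 6) (nat_lit 133849637116751379596) (ZL.cons (nat_lit 12692) (nat_lit 6) (nat_lit 133781153820478942352) (ZL.cons (nat_lit 12768) (nat_lit 6) (nat_lit 133524671439947073388) (ZL.cons (nat_lit 12844) (nat_lit 6) (nat_lit 133314959236183763848) (ZL.cons (nat_lit 12920) (nat_lit 6) (nat_lit 133151934969109106556) (ZL.cons (nat_lit 12996) (nat_lit 6) (nat_lit 133035534707637974194) (ZL.cons (nat_lit 13072) (nat_lit 6) (nat_lit 132965712804609005536) (ZL.cons (nat_lit 13148) (nat_lit 3) (nat_lit 66471220939441878922) (ZL.cons (nat_lit 13224) (nat_lit 6) (nat_lit 132756026133418463378) (ZL.cons (nat_lit 13300) (nat_lit 6) (nat_lit 132525236735252533426) (ZL.cons (nat_lit 13376) (nat_lit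 6) (nat_lit 132340713729887203312) (ZL.cons (nat_lit 13452) (nat_lit 6) (nat_lit 132202384755359584670) (ZL.cons (nat_lit 13528) (nat_lit 6) (nat_lit 132110195565013000008) (ZL.cons (nat_lit 13604) (nat_lit 6) (nat_lit 132064110006223783992) (ZL.cons (nat_lit 13680) (nat_lit 6) (nat_lit 132013749031242901990) (ZL.cons (nat_lit 13756) (nat_lit 6) (nat_lit 131762295716995971630) (ZL.cons (nat_lit 13832) (nat_lit 6) (nat_lit 131556695517228021104) (ZL.cons (nat_lit 13908) (nat_lit 6) (nat_lit 131396867804409729640) (ZL.cons (nat_lit 13984) (nat_lit 6) (nat_lit 131282749901006658698) (ZL.cons (nat_lit 14060) (nat_lit 6) (nat_lit 131214297054899826678) (ZL.cons (nat_lit 14136) (nat_lit 3) (nat_lit 65595741210917929177) (ZL.cons (nat_lit 14212) (nat_lit 6) (nat_lit 131297549044360712532) (ZL.cons (nat_lit 14288) (nat_lit 6) (nat_lit 131025836988857899422) (ZL.cons (nat_lit 14364) (nat_lit 6) (nat_lit 130799572873008948488)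 (ZL.cons (nat_lit 14440) (nat_lit 6) (nat_lit 130618667965788036612) (ZL.cons (nat_lit 14516) (nat_lit 6) (nat_lit 130483051324094292848) (ZL.cons (nat_lit 14592) (nat_lit 6) (nat_lit 130392669764930974548) (ZL.cons (nat_lit 14668) (nat_lit 6) (nat_lit 130347487844549390220) (ZL.cons (nat_lit 14744) (nat_lit 6) (nat_lit 130315571743493948924) (ZL.cons (nat_lit 14820) (nat_lit 6) (nat_lit 130069048886389115240) (ZL.cons (nat_lit 14896) (nat_lit 6) (nat_lit 129867480063087202956) (ZL.cons (nat_lit 14972) (nat_lit 6) (nat_lit 129710786226990838780) (ZL.cons (nat_lit 15048) (nat_lit 6) (nat_lit 129598905929536847658) (ZL.cons (nat_lit 15124) (nat_lit 6) (nat_lit 129531795296098777050) (ZL.cons (nat_lit 15200) (nat_lit 3) (nat_lit 64754714004390580523) (ZL.cons (nat_lit 15276) (nat_lit 6) (nat_lit 129631221445513781334) (ZL.cons (nat_lit 15352) (nat_lit 6) (nat_lit 129364837077373768482) (ZL.cons (nat_lit 15428) (nat_lit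 6) (nat_lit 129143009512815973448) (ZL.cons (nat_lit 15504) (nat_lit 6) (nat_lit 128965651760638608864) (ZL.cons (nat_lit 15580) (nat_lit 6) (nat_lit 128832694268781997330) (ZL.cons (nat_lit 15656) (nat_lit 6) (nat_lit 128744084897053253900) (ZL.cons (nat_lit 15732) (nat_lit 6) (nat_lit 128699788896679151616) (ZL.cons (nat_lit 15808) (nat_lit 6) (nat_lit 128972517722251522078) (ZL.cons (nat_lit 15884) (nat_lit 6) (nat_lit 128686661284469176710) (ZL.cons (nat_lit 15960) (nat_lit 6) (nat_lit 128444972208876202508) (ZL.cons (nat_lit 16036) (nat_lit 6) (nat_lit 128247355715442955174) (ZL.cons (nat_lit 16112) (nat_lit 6) (nat_lit 128093734307505343232) (ZL.cons (nat_lit 16188) (nat_lit 6) (nat_lit 127984047741373979390) (ZL.cons (nat_lit 16264) (nat_lit 6) (nat_lit 127918253002709204284) (ZL.cons (nat_lit 16340) (nat_lit 3) (nat_lit 63948162144826359002) (ZL.cons (nat_lit 16416) (nat_lit 6) (nat_lit 128339202258521578110)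 (ZL.cons (nat_lit 16492) (nat_lit 6) (nat_lit 128034255556384004784) (ZL.cons (nat_lit 16568) (nat_lit 6) (nat_lit 127773094411148698066) (ZL.cons (nat_lit 16644) (nat_lit 6) (nat_lit 127555616406680271564) (ZL.cons (nat_lit 16720) (nat_lit 6) (nat_lit 127381736257486776872) (ZL.cons (nat_lit 16796) (nat_lit 6) (nat_lit 127251385775274412622) (ZL.cons (nat_lit 16872) (nat_lit 6) (nat_lit 127164513842207017104) (ZL.cons (nat_lit 16948) (nat_lit 6) (nat_lit 127121086390859858002) (ZL.cons (nat_lit 17024) (nat_lit 6) (nat_lit 127407364047734689896) (ZL.cons (nat_lit 17100) (nat_lit 6) (nat_lit 127127112638144155220) (ZL.cons (nat_lit 17176) (nat_lit 6) (nat_lit 126890162564033396202) (ZL.cons (nat_lit 17252) (nat_lit 6) (nat_lit 126696420903804722342) (ZL.cons (nat_lit 17328) (nat_lit 6) (nat_lit 126545811680336475342) (ZL.cons (nat_lit 17404) (nat_lit 6) (nat_lit 126438275831188079416) (ZL.cons (nat_lit 17480) (nat_lit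 6) (nat_lit 126373771185438299902) (ZL.cons (nat_lit 17556) (nat_lit 3) (nat_lit 63176136223573813540) (ZL.cons (nat_lit 17632) (nat_lit 6) (nat_lit 126805740918713918588) (ZL.cons (nat_lit 17708) (nat_lit 6) (nat_lit 126506773563677081992) (ZL.cons (nat_lit 17784) (nat_lit 6) (nat_lit 126250733225211095016) (ZL.cons (nat_lit 17860) (nat_lit 6) (nat_lit 126037519495340088640) (ZL.cons (nat_lit 17936) (nat_lit 6) (nat_lit 125867048760836662472) (ZL.cons (nat_lit 18012) (nat_lit 6) (nat_lit 125739254170432383796) (ZL.cons (nat_lit 18088) (nat_lit 6) (nat_lit 125654085608601603874) (ZL.cons (nat_lit 18164) (nat_lit 6) (nat_lit 125611509675908310640) (ZL.cons (nat_lit 18240) (nat_lit 6) (nat_lit 126229150238682859186) (ZL.cons (nat_lit 18316) (nat_lit 6) (nat_lit 125911833917522197178) (ZL.cons (nat_lit 18392) (nat_lit 6) (nat_lit 125637077633609908282) (ZL.cons (nat_lit 18468) (nat_lit 6) (nat_lit 125404773639383673948)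 (ZL.cons (nat_lit 18544) (nat_lit 6) (nat_lit 125214830835237915264) (ZL.cons (nat_lit 18620) (nat_lit 6) (nat_lit 125067174733798457420) (ZL.cons (nat_lit 18696) (nat_lit 6) (nat_lit 124961747430711794748) (ZL.cons (nat_lit 18772) (nat_lit 6) (nat_lit 124898507581937501106) (ZL.cons (nat_lit 18848) (nat_lit 3) (nat_lit 62438715193767440347) (ZL.cons (nat_lit 18924) (nat_lit 6) (nat_lit 125342060390014341998) (ZL.cons (nat_lit 19000) (nat_lit 6) (nat_lit 125048955139978227690) (ZL.cons (nat_lit 19076) (nat_lit 6) (nat_lit 124797935200305691436) (ZL.cons (nat_lit 19152) (nat_lit 6) (nat_lit 124588902131804704794) (ZL.cons (nat_lit 19228) (nat_lit 6) (nat_lit 124421773960722914434) (ZL.cons (nat_lit 19304) (nat_lit 6) (nat_lit 124296485146601072594) (ZL.cons (nat_lit 19380) (nat_lit 6) (nat_lit 124212986556570896202) (ZL.cons (nat_lit 19456) (nat_lit 6) (nat_lit 124171245446087275382) (ZL.cons (nat_lit 19532) (nat_lit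 6) (nat_lit 124797229540554493764) (ZL.cons (nat_lit 19608) (nat_lit 6) (nat_lit 124486135108044040818) (ZL.cons (nat_lit 19684) (nat_lit 6) (nat_lit 124216766202247679152) (ZL.cons (nat_lit 19760) (nat_lit 6) (nat_lit 123989017188300390590) (ZL.cons (nat_lit 19836) (nat_lit 6) (nat_lit 123802798752863372272) (ZL.cons (nat_lit 19912) (nat_lit 6) (nat_lit 123658037869099197916) (ZL.cons (nat_lit 19988) (nat_lit 6) (nat_lit 123554677768033842356) (ZL.cons (nat_lit 20064) (nat_lit 6) (nat_lit 123492677916294338786) (ZL.cons (nat_lit 20140) (nat_lit 3) (nat_lit 61736007000106669189) (ZL.cons (nat_lit 20216) (nat_lit 6) (nat_lit 124277127709986001556) (ZL.cons (nat_lit 20292) (nat_lit 6) (nat_lit 123948396824069334258) (ZL.cons (nat_lit 20368) (nat_lit 6) (nat_lit 123661038735798633954) (ZL.cons (nat_lit 20444) (nat_lit 6) (nat_lit 123414940755727519980) (ZL.cons (nat_lit 20520) (nat_lit 6) (nat_lit 123210006374844199742)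 (ZL.cons (nat_lit 20596) (nat_lit 6) (nat_lit 123046155226724797428) (ZL.cons (nat_lit 20672) (nat_lit 6) (nat_lit 122923323056017109352) (ZL.cons (nat_lit 20748) (nat_lit 6) (nat_lit 122841461693242426614) (ZL.cons (nat_lit 20824) (nat_lit 6) (nat_lit 122800539035905543456) (ZL.cons (nat_lit 20900) (nat_lit 6) (nat_lit 123781550936806681652) (ZL.cons (nat_lit 20976) (nat_lit 6) (nat_lit 123435529410295686558) (ZL.cons (nat_lit 21052) (nat_lit 6) (nat_lit 123130534868618771902) (ZL.cons (nat_lit 21128) (nat_lit 6) (nat_lit 122866447706073319290) (ZL.cons (nat_lit 21204) (nat_lit 6) (nat_lit 122643164359066173640) (ZL.cons (nat_lit 21280) (nat_lit 6) (nat_lit 122460597265500469406) (ZL.cons (nat_lit 21356) (nat_lit 6) (nat_lit 122318674830437553372) (ZL.cons (nat_lit 21432) (nat_lit 6) (nat_lit 122217341398020538118) (ZL.cons (nat_lit 21508) (nat_lit 6) (nat_lit 122156557229648475792) (ZL.cons (nat_lit 21584) (nat_lit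 3) (nat_lit 61068149244196296521) (ZL.cons (nat_lit 21736) (nat_lit 6) (nat_lit 122947331742247108052) (ZL.cons (nat_lit 21812) (nat_lit 6) (nat_lit 122625046559975865600) (ZL.cons (nat_lit 21888) (nat_lit 6) (nat_lit 122343322944024198636) (ZL.cons (nat_lit 21964) (nat_lit 6) (nat_lit 122102050414542714348) (ZL.cons (nat_lit 22040) (nat_lit 6) (nat_lit 121901134354853184702) (ZL.cons (nat_lit 22116) (nat_lit 6) (nat_lit 121740495974343966748) (ZL.cons (nat_lit 22192) (nat_lit 6) (nat_lit 121620072277571723536) (ZL.cons (nat_lit 22268) (nat_lit 6) (nat_lit 121539816039557328694) (ZL.cons (nat_lit 22344) (nat_lit 6) (nat_lit 121499695787266266776) (ZL.cons (nat_lit 22420) (nat_lit 6) (nat_lit 122483612369857697334) (ZL.cons (nat_lit 22496) (nat_lit 6) (nat_lit 122144375579160643318) (ZL.cons (nat_lit 22572) (nat_lit 6) (nat_lit 121845361322614648558) (ZL.cons (nat_lit 22648) (nat_lit 6) (nat_lit 121586452339726949918)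 (ZL.cons (nat_lit 22724) (nat_lit 6) (nat_lit 121367547097563081634) (ZL.cons (nat_lit 22800) (nat_lit 6) (nat_lit 121188559750930038268) (ZL.cons (nat_lit 22876) (nat_lit 6) (nat_lit 121049420108711493136) (ZL.cons (nat_lit 22952) (nat_lit 6) (nat_lit 120950073606341870336) (ZL.cons (nat_lit 23028) (nat_lit 6) (nat_lit 120890481284408475902) (ZL.cons (nat_lit 23104) (nat_lit 3) (nat_lit 60435309886686648367) (ZL.cons (nat_lit 23180) (nat_lit 6) (nat_lit 122044189442393184048) (ZL.cons (nat_lit 23256) (nat_lit 6) (nat_lit 121688333427749255950) (ZL.cons (nat_lit 23332) (nat_lit 6) (nat_lit 121372367562777449626) (ZL.cons (nat_lit 23408) (nat_lit 6) (nat_lit 121096167939295423190) (ZL.cons (nat_lit 23484) (nat_lit 6) (nat_lit 120859626243725340554) (ZL.cons (nat_lit 23560) (nat_lit 6) (nat_lit 120662649714617958550) (ZL.cons (nat_lit 23636) (nat_lit 6) (nat_lit 120505161106275588006) (ZL.cons (nat_lit 23712) (nat_lit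 6) (nat_lit 120387098658459663286) (ZL.cons (nat_lit 23788) (nat_lit 6) (nat_lit 120308416072171040894) (ZL.cons (nat_lit 23864) (nat_lit 6) (nat_lit 120269082491493529210) (ZL.cons (nat_lit 23940) (nat_lit 6) (nat_lit 121628890637136915446) (ZL.cons (nat_lit 24016) (nat_lit 6) (nat_lit 121256741265682326482) (ZL.cons (nat_lit 24092) (nat_lit 6) (nat_lit 120924156176763646076) (ZL.cons (nat_lit 24168) (nat_lit 6) (nat_lit 120631004944855808076) (ZL.cons (nat_lit 24244) (nat_lit 6) (nat_lit 120377172608691397644) (ZL.cons (nat_lit 24320) (nat_lit 6) (nat_lit 120162559626177801288) (ZL.cons (nat_lit 24396) (nat_lit 6) (nat_lit 119987081835361092106) (ZL.cons (nat_lit 24472) (nat_lit 6) (nat_lit 119850670421421341974) (ZL.cons (nat_lit 24548) (nat_lit 6) (nat_lit 119753271889686417662) (ZL.cons (nat_lit 24624) (nat_lit 6) (nat_lit 119694848044653678020) (ZL.cons (nat_lit 24700) (nat_lit 3) (nat_lit 59837687987505672752)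 (ZL.cons (nat_lit 24776) (nat_lit 6) (nat_lit 121237553091812320442) (ZL.cons (nat_lit 24852) (nat_lit 6) (nat_lit 120849429841131593374) (ZL.cons (nat_lit 24928) (nat_lit 6) (nat_lit 120500551395402252102) (ZL.cons (nat_lit 25004) (nat_lit 6) (nat_lit 120190780939547540020) (ZL.cons (nat_lit 25080) (nat_lit 6) (nat_lit 119919996994957318024) (ZL.cons (nat_lit 25156) (nat_lit 6) (nat_lit 119688093371849393872) (ZL.cons (nat_lit 25232) (nat_lit 6) (nat_lit 119494979127626470338) (ZL.cons (nat_lit 25308) (nat_lit 6) (nat_lit 119340578531212381568) (ZL.cons (nat_lit 25384) (nat_lit 6) (nat_lit 119224831033353631844) (ZL.cons (nat_lit 25460) (nat_lit 6) (nat_lit 119147691242874590282) (ZL.cons (nat_lit 25536) (nat_lit 6) (nat_lit 119109128908877029808) (ZL.cons (nat_lit 25688) (nat_lit 6) (nat_lit 120466239424126644572) (ZL.cons (nat_lit 25764) (nat_lit 6) (nat_lit 120101387099171165196) (ZL.cons (nat_lit 25840) (nat_lit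 6) (nat_lit 119775323286505792248) (ZL.cons (nat_lit 25916) (nat_lit 6) (nat_lit 119487920117968696170) (ZL.cons (nat_lit 25992) (nat_lit 6) (nat_lit 119239064886434960454) (ZL.cons (nat_lit 26068) (nat_lit 6) (nat_lit 119028660001617709124) (ZL.cons (nat_lit 26144) (nat_lit 6) (nat_lit 118856622951797406002) (ZL.cons (nat_lit 26220) (nat_lit 6) (nat_lit 118722886271464317640) (ZL.cons (nat_lit 26296) (nat_lit 6) (nat_lit 118627397514861450666) (ZL.cons (nat_lit 26372) (nat_lit 6) (nat_lit 118570119235417588272) (ZL.cons (nat_lit 26448) (nat_lit 3) (nat_lit 59275514485531180157) (ZL.cons (nat_lit 26524) (nat_lit 6) (nat_lit 120107019743915713430) (ZL.cons (nat_lit 26600) (nat_lit 6) (nat_lit 119726506753052255522) (ZL.cons (nat_lit 26676) (nat_lit 6) (nat_lit 119384469061160744470) (ZL.cons (nat_lit 26752) (nat_lit 6) (nat_lit 119080772535812987526) (ZL.cons (nat_lit 26828) (nat_lit 6) (nat_lit 118815298080332377728)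 (ZL.cons (nat_lit 26904) (nat_lit 6) (nat_lit 118587941587089314834) (ZL.cons (nat_lit 26980) (nat_lit 6) (nat_lit 118398613896674683916) (ZL.cons (nat_lit 27056) (nat_lit 6) (nat_lit 118247240762935381202) (ZL.cons (nat_lit 27132) (nat_lit 6) (nat_lit 118133762823858175590) (ZL.cons (nat_lit 27208) (nat_lit 6) (nat_lit 118058135578290487784) (ZL.cons (nat_lit 27284) (nat_lit 6) (nat_lit 118020329368488957906) (ZL.cons (nat_lit 27360) (nat_lit 6) (nat_lit 119771629930035972130) (ZL.cons (nat_lit 27436) (nat_lit 6) (nat_lit 119375763345145084288) (ZL.cons (nat_lit 27512) (nat_lit 6) (nat_lit 119018064987345594704) (ZL.cons (nat_lit 27588) (nat_lit 6) (nat_lit 118698394582771699656) (ZL.cons (nat_lit 27664) (nat_lit 6) (nat_lit 118416626770480428992) (ZL.cons (nat_lit 27740) (nat_lit 6) (nat_lit 118172651053290492016) (ZL.cons (nat_lit 27816) (nat_lit 6) (nat_lit 117966371754450049534) (ZL.cons (nat_lit 27892) (nat_lit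 6) (nat_lit 117797707980116419024) (ZL.cons (nat_lit 27968) (nat_lit 6) (nat_lit 117666593587632999060) (ZL.cons (nat_lit 28044) (nat_lit 6) (nat_lit 117572977159590972616) (ZL.cons (nat_lit 28120) (nat_lit 6) (nat_lit 117516821983665617326) (ZL.cons (nat_lit 28196) (nat_lit 3) (nat_lit 58749053019109657703) (ZL.cons (nat_lit 28272) (nat_lit 6) (nat_lit 119459938457070212934) (ZL.cons (nat_lit 28348) (nat_lit 6) (nat_lit 119049019329015178098) (ZL.cons (nat_lit 28424) (nat_lit 6) (nat_lit 118675967377188258580) (ZL.cons (nat_lit 28500) (nat_lit 6) (nat_lit 118340636306706385000) (ZL.cons (nat_lit 28576) (nat_lit 6) (nat_lit 118042894615188976232) (ZL.cons (nat_lit 28652) (nat_lit 6) (nat_lit 117782625541188378390) (ZL.cons (nat_lit 28728) (nat_lit 6) (nat_lit 117559727018401061826) (ZL.cons (nat_lit 28804) (nat_lit 6) (nat_lit 117374111635641619752) (ZL.cons (nat_lit 28880) (nat_lit 6) (nat_lit 117225706602563871992)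 (ZL.cons (nat_lit 28956) (nat_lit 6) (nat_lit 117114453721115631196) (ZL.cons (nat_lit 29032) (nat_lit 6) (nat_lit 117040309362715937268) (ZL.cons (nat_lit 29108) (nat_lit 6) (nat_lit 117003244451145809936) (ZL.cons (nat_lit 29184) (nat_lit 6) (nat_lit 118665877947511237428) (ZL.cons (nat_lit 29260) (nat_lit 6) (nat_lit 118907170851612837224) (ZL.cons (nat_lit 29336) (nat_lit 6) (nat_lit 119171823093068253190) (ZL.cons (nat_lit 29412) (nat_lit 6) (nat_lit 118746146569754250712) (ZL.cons (nat_lit 29488) (nat_lit 6) (nat_lit 118358042074763184200) (ZL.cons (nat_lit 29564) (nat_lit 6) (nat_lit 118007357410253880686) (ZL.cons (nat_lit 29640) (nat_lit 6) (nat_lit 117693955052828493386) (ZL.cons (nat_lit 29716) (nat_lit 6) (nat_lit 117417712099601757440) (ZL.cons (nat_lit 29792) (nat_lit 6) (nat_lit 117178520220003780010) (ZL.cons (nat_lit 29868) (nat_lit 6) (nat_lit 116976285613297463854) (ZL.cons (nat_lit 29944) (nat_lit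 6) (nat_lit 116810928971793904530) (ZL.cons (nat_lit 30020) (nat_lit 6) (nat_lit 116682385449751335938) (ZL.cons (nat_lit 30096) (nat_lit 6) (nat_lit 116590604637945427658) (ZL.cons (nat_lit 30172) (nat_lit 6) (nat_lit 116535550543900961688) (ZL.cons (nat_lit 30248) (nat_lit 3) (nat_lit 58258600788888568138) (ZL.cons (nat_lit 30324) (nat_lit 6) (nat_lit 116939646840957458466) (ZL.cons (nat_lit 30400) (nat_lit 6) (nat_lit 116962690892929159732) (ZL.cons (nat_lit 30476) (nat_lit 6) (nat_lit 117008788033755688422) (ZL.cons (nat_lit 30552) (nat_lit 6) (nat_lit 117077956340747172590) (ZL.cons (nat_lit 30628) (nat_lit 6) (nat_lit 117170222938729883404) (ZL.cons (nat_lit 30704) (nat_lit 6) (nat_lit 117285624010683421922) (ZL.cons (nat_lit 30780) (nat_lit 6) (nat_lit 117424204811930122872) (ZL.cons (nat_lit 30856) (nat_lit 6) (nat_lit 117586019687882239860) (ZL.cons (nat_lit 30932) (nat_lit 6) (nat_lit 117771132095353871754)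 (ZL.cons (nat_lit 31008) (nat_lit 6) (nat_lit 117979614627445987822) (ZL.cons (nat_lit 31084) (nat_lit 6) (nat_lit 118211549042014310464) (ZL.cons (nat_lit 31160) (nat_lit 6) (nat_lit 118467026293731219414) (ZL.cons (nat_lit 31236) (nat_lit 6) (nat_lit 118064164403481185260) (ZL.cons (nat_lit 31312) (nat_lit 6) (nat_lit 117698427195807734752) (ZL.cons (nat_lit 31388) (nat_lit 6) (nat_lit 117369671244354917518) (ZL.cons (nat_lit 31464) (nat_lit 6) (nat_lit 117077767625220203040) (ZL.cons (nat_lit 31540) (nat_lit 6) (nat_lit 116822601866396087506) (ZL.cons (nat_lit 31616) (nat_lit 6) (nat_lit 116604073902879110484) (ZL.cons (nat_lit 31692) (nat_lit 6) (nat_lit 116422098037428677078) (ZL.cons (nat_lit 31768) (nat_lit 6) (nat_lit 116276602906960296922) (ZL.cons (nat_lit 31844) (nat_lit 6) (nat_lit 116167531454560060846) (ZL.cons (nat_lit 31920) (nat_lit 6) (nat_lit 116094840907109380524) (ZL.cons (nat_lit 31996) (nat_lit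 6) (nat_lit 116058502758511216474) (ZL.cons (nat_lit 32072) (nat_lit 3) (nat_lit 58190360230155948012) (ZL.cons (nat_lit 32148) (nat_lit 6) (nat_lit 116392356565762953098) (ZL.cons (nat_lit 32224) (nat_lit 6) (nat_lit 116427269445294732582) (ZL.cons (nat_lit 32300) (nat_lit 6) (nat_lit 116485472790232541054) (ZL.cons (nat_lit 32376) (nat_lit 6) (nat_lit 116566989425417530600) (ZL.cons (nat_lit 32452) (nat_lit 6) (nat_lit 116671851318157616896) (ZL.cons (nat_lit 32528) (nat_lit 6) (nat_lit 116800099590763678410) (ZL.cons (nat_lit 32604) (nat_lit 6) (nat_lit 116951784536675952814) (ZL.cons (nat_lit 32680) (nat_lit 6) (nat_lit 117126965640186954724) (ZL.cons (nat_lit 32756) (nat_lit 6) (nat_lit 117325711599768649240) (ZL.cons (nat_lit 32832) (nat_lit 6) (nat_lit 117548100355013029182) (ZL.cons (nat_lit 32908) (nat_lit 6) (nat_lit 117794219117196660978) (ZL.cons (nat_lit 32984) (nat_lit 6) (nat_lit 117413724514264242828)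 (ZL.cons (nat_lit 33060) (nat_lit 6) (nat_lit 117069916019647278600) (ZL.cons (nat_lit 33136) (nat_lit 6) (nat_lit 116762658806485134188) (ZL.cons (nat_lit 33212) (nat_lit 6) (nat_lit 116491832381753040122) (ZL.cons (nat_lit 33288) (nat_lit 6) (nat_lit 116257330539009924996) (ZL.cons (nat_lit 33364) (nat_lit 6) (nat_lit 116059061316748830724) (ZL.cons (nat_lit 33440) (nat_lit 6) (nat_lit 115896946962333576486) (ZL.cons (nat_lit 33516) (nat_lit 6) (nat_lit 115770923901507528846) (ZL.cons (nat_lit 33592) (nat_lit 6) (nat_lit 115680942713462520728) (ZL.cons (nat_lit 33668) (nat_lit 6) (nat_lit 115626968111458142326) (ZL.cons (nat_lit 33744) (nat_lit 3) (nat_lit 57804489464491901844) (ZL.cons (nat_lit 33820) (nat_lit 6) (nat_lit 115855797472435006660) (ZL.cons (nat_lit 33896) (nat_lit 6) (nat_lit 115879302405446141952) (ZL.cons (nat_lit 33972) (nat_lit 6) (nat_lit 115926321489089201218) (ZL.cons (nat_lit 34048) (nat_lit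 6) (nat_lit 115996873162220515068) (ZL.cons (nat_lit 34124) (nat_lit 6) (nat_lit 116090985092162880096) (ZL.cons (nat_lit 34200) (nat_lit 6) (nat_lit 116208694185555489388) (ZL.cons (nat_lit 34276) (nat_lit 6) (nat_lit 116350046602827124356) (ZL.cons (nat_lit 34352) (nat_lit 6) (nat_lit 116515097776298283682) (ZL.cons (nat_lit 34428) (nat_lit 6) (nat_lit 116703912431919348214) (ZL.cons (nat_lit 34504) (nat_lit 6) (nat_lit 116916564614653306604) (ZL.cons (nat_lit 34580) (nat_lit 6) (nat_lit 117153137717512995700) (ZL.cons (nat_lit 34656) (nat_lit 6) (nat_lit 116794571827637063830) (ZL.cons (nat_lit 34732) (nat_lit 6) (nat_lit 116472262071310772424) (ZL.cons (nat_lit 34808) (nat_lit 6) (nat_lit 116186082052551248424) (ZL.cons (nat_lit 34884) (nat_lit 6) (nat_lit 115935919543900154766) (ZL.cons (nat_lit 34960) (nat_lit 6) (nat_lit 115721676442412922390) (ZL.cons (nat_lit 35036) (nat_lit 6) (nat_lit 115543268731187007286)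 (ZL.cons (nat_lit 35112) (nat_lit 6) (nat_lit 115400626446414085564) (ZL.cons (nat_lit 35188) (nat_lit 6) (nat_lit 115293693649943265882) (ZL.cons (nat_lit 35264) (nat_lit 6) (nat_lit 115222428407344559684) (ZL.cons (nat_lit 35340) (nat_lit 6) (nat_lit 115186802771464006694) (ZL.cons (nat_lit 35416) (nat_lit 3) (nat_lit 57676401598807301788) (ZL.cons (nat_lit 35492) (nat_lit 6) (nat_lit 115364672025174681794) (ZL.cons (nat_lit 35568) (nat_lit 6) (nat_lit 115400283162297096868) (ZL.cons (nat_lit 35644) (nat_lit 6) (nat_lit 115459650574133661512) (ZL.cons (nat_lit 35720) (nat_lit 6) (nat_lit 115542797542022350844) (ZL.cons (nat_lit 35796) (nat_lit 6) (nat_lit 115649756672617238868) (ZL.cons (nat_lit 35872) (nat_lit 6) (nat_lit 115780569910675421614) (ZL.cons (nat_lit 35948) (nat_lit 6) (nat_lit 115935288555505941504) (ZL.cons (nat_lit 36024) (nat_lit 6) (nat_lit 116113973281087163452) (ZL.cons (nat_lit 36100) (nat_lit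 6) (nat_lit 116316694159860491858) (ZL.cons (nat_lit 36176) (nat_lit 6) (nat_lit 116543530690209759402) (ZL.cons (nat_lit 36252) (nat_lit 6) (nat_lit 116206463538624500354) (ZL.cons (nat_lit 36328) (nat_lit 6) (nat_lit 115905230976700829360) (ZL.cons (nat_lit 36404) (nat_lit 6) (nat_lit 115639714874022305768) (ZL.cons (nat_lit 36480) (nat_lit 6) (nat_lit 115409811106627094860) (ZL.cons (nat_lit 36556) (nat_lit 6) (nat_lit 115215429516175041652) (ZL.cons (nat_lit 36632) (nat_lit 6) (nat_lit 115056493874591459064) (ZL.cons (nat_lit 36708) (nat_lit 6) (nat_lit 114932941854173765300) (ZL.cons (nat_lit 36784) (nat_lit 6) (nat_lit 114844725003149247538) (ZL.cons (nat_lit 36860) (nat_lit 6) (nat_lit 114791808726674366752) (ZL.cons (nat_lit 36936) (nat_lit 3) (nat_lit 57387086136634076200) (ZL.cons (nat_lit 37012) (nat_lit 6) (nat_lit 114883176488644951532) (ZL.cons (nat_lit 37088) (nat_lit 6) (nat_lit 114907151520316309532)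 (ZL.cons (nat_lit 37164) (nat_lit 6) (nat_lit 114955110985632229984) (ZL.cons (nat_lit 37240) (nat_lit 6) (nat_lit 115027073692226170110) (ZL.cons (nat_lit 37316) (nat_lit 6) (nat_lit 115123067860767382438) (ZL.cons (nat_lit 37392) (nat_lit 6) (nat_lit 115243131136027843916) (ZL.cons (nat_lit 37468) (nat_lit 6) (nat_lit 115387310601644911584) (ZL.cons (nat_lit 37544) (nat_lit 6) (nat_lit 115555662798585494096) (ZL.cons (nat_lit 37620) (nat_lit 6) (nat_lit 115748253747318979918) (ZL.cons (nat_lit 37696) (nat_lit 6) (nat_lit 115965158973707617478) (ZL.cons (nat_lit 37772) (nat_lit 6) (nat_lit 115649169016524978842) (ZL.cons (nat_lit 37848) (nat_lit 6) (nat_lit 115368600370682308256) (ZL.cons (nat_lit 37924) (nat_lit 6) (nat_lit 115123343009259667414) (ZL.cons (nat_lit 38000) (nat_lit 6) (nat_lit 114913300752899635674) (ZL.cons (nat_lit 38076) (nat_lit 6) (nat_lit 114738391232089914982) (ZL.cons (nat_lit 38152) (nat_lit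 6) (nat_lit 114598545854861560352) (ZL.cons (nat_lit 38228) (nat_lit 6) (nat_lit 114493709779890168508) (ZL.cons (nat_lit 38304) (nat_lit 6) (nat_lit 114423841894989476158) (ZL.cons (nat_lit 38380) (nat_lit 6) (nat_lit 114388914800988934010) (ZL.cons (nat_lit 38456) (nat_lit 3) (nat_lit 57217313487038959950) (ZL.cons (nat_lit 38532) (nat_lit 6) (nat_lit 114446733178189199682) (ZL.cons (nat_lit 38608) (nat_lit 6) (nat_lit 114483056538054063060) (ZL.cons (nat_lit 38684) (nat_lit 6) (nat_lit 114543611298127358994) (ZL.cons (nat_lit 38760) (nat_lit 6) (nat_lit 114628421205373822116) (ZL.cons (nat_lit 38836) (nat_lit 6) (nat_lit 114737519518580607898) (ZL.cons (nat_lit 38912) (nat_lit 6) (nat_lit 114870949021399954298) (ZL.cons (nat_lit 38988) (nat_lit 6) (nat_lit 115028762039127084588) (ZL.cons (nat_lit 39064) (nat_lit 6) (nat_lit 115211020459219930974) (ZL.cons (nat_lit 39140) (nat_lit 6) (nat_lit 115417795755568725950)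 (ZL.cons (nat_lit 39216) (nat_lit 6) (nat_lit 115122469714467087722) (ZL.cons (nat_lit 39292) (nat_lit 6) (nat_lit 114862159809880299886) (ZL.cons (nat_lit 39368) (nat_lit 6) (nat_lit 114636763959492838212) (ZL.cons (nat_lit 39444) (nat_lit 6) (nat_lit 114446193772775138988) (ZL.cons (nat_lit 39520) (nat_lit 6) (nat_lit 114290374516320646254) (ZL.cons (nat_lit 39596) (nat_lit 6) (nat_lit 114169245084538593544) (ZL.cons (nat_lit 39672) (nat_lit 6) (nat_lit 114082757975691027112) (ZL.cons (nat_lit 39748) (nat_lit 6) (nat_lit 114030879273264673400) (ZL.cons (nat_lit 39824) (nat_lit 3) (nat_lit 57006794316335172802) (ZL.cons (nat_lit 39900) (nat_lit 6) (nat_lit 114018847579703168458) (ZL.cons (nat_lit 39976) (nat_lit 6) (nat_lit 114043302112007953618) (ZL.cons (nat_lit 40052) (nat_lit 6) (nat_lit 114092220766630192478) (ZL.cons (nat_lit 40128) (nat_lit 6) (nat_lit 114165622727356011408) (ZL.cons (nat_lit 40204) (nat_lit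 6) (nat_lit 114263536779268047984) (ZL.cons (nat_lit 40280) (nat_lit 6) (nat_lit 114386001320033718688) (ZL.cons (nat_lit 40356) (nat_lit 6) (nat_lit 114533064374963127710) (ZL.cons (nat_lit 40432) (nat_lit 6) (nat_lit 114704783615842521874) (ZL.cons (nat_lit 40508) (nat_lit 6) (nat_lit 114901226383550677414) (ZL.cons (nat_lit 40584) (nat_lit 6) (nat_lit 114626159083704921936) (ZL.cons (nat_lit 40660) (nat_lit 6) (nat_lit 114385710690153313268) (ZL.cons (nat_lit 40736) (nat_lit 6) (nat_lit 114179786909408184110) (ZL.cons (nat_lit 40812) (nat_lit 6) (nat_lit 114008306987045712844) (ZL.cons (nat_lit 40888) (nat_lit 6) (nat_lit 113871203676037522030) (ZL.cons (nat_lit 40964) (nat_lit 6) (nat_lit 113768423210379294732) (ZL.cons (nat_lit 41040) (nat_lit 6) (nat_lit 113699925284006066938) (ZL.cons (nat_lit 41116) (nat_lit 6) (nat_lit 113665683034985927578) (ZL.cons (nat_lit 41192) (nat_lit 3) (nat_lit 56811663463292149883)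 (ZL.cons (nat_lit 41268) (nat_lit 6) (nat_lit 113635675254777805144) (ZL.cons (nat_lit 41344) (nat_lit 6) (nat_lit 113672725081839965786) (ZL.cons (nat_lit 41420) (nat_lit 6) (nat_lit 113734490937114727642) (ZL.cons (nat_lit 41496) (nat_lit 6) (nat_lit 113820997042506120026) (ZL.cons (nat_lit 41572) (nat_lit 6) (nat_lit 113932277321977041524) (ZL.cons (nat_lit 41648) (nat_lit 6) (nat_lit 114068375414852774850) (ZL.cons (nat_lit 41724) (nat_lit 6) (nat_lit 114229344692934447746) (ZL.cons (nat_lit 41800) (nat_lit 6) (nat_lit 114415248281429151064) (ZL.cons (nat_lit 41876) (nat_lit 6) (nat_lit 114160042492618574754) (ZL.cons (nat_lit 41952) (nat_lit 6) (nat_lit 113939066168709298602) (ZL.cons (nat_lit 42028) (nat_lit 6) (nat_lit 113752232652319397402) (ZL.cons (nat_lit 42104) (nat_lit 6) (nat_lit 113599468675403228056) (ZL.cons (nat_lit 42180) (nat_lit 6) (nat_lit 113480714330518862654) (ZL.cons (nat_lit 42256) (nat_lit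 6) (nat_lit 113395923047334973994) (ZL.cons (nat_lit 42332) (nat_lit 6) (nat_lit 113345061574367960552) (ZL.cons (nat_lit 42408) (nat_lit 3) (nat_lit 56664054982971074494) (ZL.cons (nat_lit 42484) (nat_lit 6) (nat_lit 113260016112694115620) (ZL.cons (nat_lit 42560) (nat_lit 6) (nat_lit 113284959735644996480) (ZL.cons (nat_lit 42636) (nat_lit 6) (nat_lit 113334856763359680118) (ZL.cons (nat_lit 42712) (nat_lit 6) (nat_lit 113409726763300015428) (ZL.cons (nat_lit 42788) (nat_lit 6) (nat_lit 113509599096250292734) (ZL.cons (nat_lit 42864) (nat_lit 6) (nat_lit 113634512927831276854) (ZL.cons (nat_lit 42940) (nat_lit 6) (nat_lit 113784517243859274054) (ZL.cons (nat_lit 43016) (nat_lit 6) (nat_lit 113959670869556256104) (ZL.cons (nat_lit 43092) (nat_lit 6) (nat_lit 113723937150388012310) (ZL.cons (nat_lit 43168) (nat_lit 6) (nat_lit 113522051090833964116) (ZL.cons (nat_lit 43244) (nat_lit 6) (nat_lit 113353933519890364836)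 (ZL.cons (nat_lit 43320) (nat_lit 6) (nat_lit 113219518509098020902) (ZL.cons (nat_lit 43396) (nat_lit 6) (nat_lit 113118753346687994138) (ZL.cons (nat_lit 43472) (nat_lit 6) (nat_lit 113051598516910319830) (ZL.cons (nat_lit 43548) (nat_lit 6) (nat_lit 113018027684537634184) (ZL.cons (nat_lit 43624) (nat_lit 3) (nat_lit 56458088684223131995) (ZL.cons (nat_lit 43700) (nat_lit 6) (nat_lit 112928772663203639472) (ZL.cons (nat_lit 43776) (nat_lit 6) (nat_lit 112966563486807043328) (ZL.cons (nat_lit 43852) (nat_lit 6) (nat_lit 113029564659187300420) (ZL.cons (nat_lit 43928) (nat_lit 6) (nat_lit 113117800886686520652) (ZL.cons (nat_lit 44004) (nat_lit 6) (nat_lit 113231306771746860580) (ZL.cons (nat_lit 44080) (nat_lit 6) (nat_lit 113370126826480108574) (ZL.cons (nat_lit 44156) (nat_lit 6) (nat_lit 113534315490123414928) (ZL.cons (nat_lit 44232) (nat_lit 6) (nat_lit 113317672035310399092) (ZL.cons (nat_lit 44308) (nat_lit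 6) (nat_lit 113134501921202652818) (ZL.cons (nat_lit 44384) (nat_lit 6) (nat_lit 112984733316382878950) (ZL.cons (nat_lit 44460) (nat_lit 6) (nat_lit 112868307488064873654) (ZL.cons (nat_lit 44536) (nat_lit 6) (nat_lit 112785178779061061242) (ZL.cons (nat_lit 44612) (nat_lit 6) (nat_lit 112735314589877714730) (ZL.cons (nat_lit 44688) (nat_lit 3) (nat_lit 56359347682965420324) (ZL.cons (nat_lit 44764) (nat_lit 6) (nat_lit 112604024183311015800) (ZL.cons (nat_lit 44840) (nat_lit 6) (nat_lit 112629466678720914278) (ZL.cons (nat_lit 44916) (nat_lit 6) (nat_lit 112680361646989891588) (ZL.cons (nat_lit 44992) (nat_lit 6) (nat_lit 112756729046929033602) (ZL.cons (nat_lit 45068) (nat_lit 6) (nat_lit 112858598826538316456) (ZL.cons (nat_lit 45144) (nat_lit 6) (nat_lit 112986010934750920258) (ZL.cons (nat_lit 45220) (nat_lit 6) (nat_lit 113139015337099477406) (ZL.cons (nat_lit 45296) (nat_lit 6) (nat_lit 112941087827732763490)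 (ZL.cons (nat_lit 45372) (nat_lit 6) (nat_lit 112776266679748842628) (ZL.cons (nat_lit 45448) (nat_lit 6) (nat_lit 112644487257403407398) (ZL.cons (nat_lit 45524) (nat_lit 6) (nat_lit 112545697882491616454) (ZL.cons (nat_lit 45600) (nat_lit 6) (nat_lit 112479859814082131838) (ZL.cons (nat_lit 45676) (nat_lit 6) (nat_lit 112446947233324596890) (ZL.cons (nat_lit 45752) (nat_lit 3) (nat_lit 56155293471811034765) (ZL.cons (nat_lit 45828) (nat_lit 6) (nat_lit 112323434144274592526) (ZL.cons (nat_lit 45904) (nat_lit 6) (nat_lit 112361980784350064458) (ZL.cons (nat_lit 45980) (nat_lit 6) (nat_lit 112426241980177926690) (ZL.cons (nat_lit 46056) (nat_lit 6) (nat_lit 112516242932227131326) (ZL.cons (nat_lit 46132) (nat_lit 6) (nat_lit 112632018934988678054) (ZL.cons (nat_lit 46208) (nat_lit 6) (nat_lit 112773615390816591010) (ZL.cons (nat_lit 46284) (nat_lit 6) (nat_lit 112594036847573702506) (ZL.cons (nat_lit 46360) (nat_lit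 6) (nat_lit 112447204882064120282) (ZL.cons (nat_lit 46436) (nat_lit 6) (nat_lit 112333061913124899404) (ZL.cons (nat_lit 46512) (nat_lit 6) (nat_lit 112251563178807436256) (ZL.cons (nat_lit 46588) (nat_lit 6) (nat_lit 112202676718823763204) (ZL.cons (nat_lit 46664) (nat_lit 3) (nat_lit 56093191681006551169) (ZL.cons (nat_lit 46740) (nat_lit 6) (nat_lit 112048345870709471668) (ZL.cons (nat_lit 46816) (nat_lit 6) (nat_lit 112074297216027568118) (ZL.cons (nat_lit 46892) (nat_lit 6) (nat_lit 112126210083661924972) (ZL.cons (nat_lit 46968) (nat_lit 6) (nat_lit 112204104831599849826) (ZL.cons (nat_lit 47044) (nat_lit 6) (nat_lit 112308012006801318336) (ZL.cons (nat_lit 47120) (nat_lit 6) (nat_lit 112437972357178174218) (ZL.cons (nat_lit 47196) (nat_lit 6) (nat_lit 112276382996409624352) (ZL.cons (nat_lit 47272) (nat_lit 6) (nat_lit 112147187484306256480) (ZL.cons (nat_lit 47348) (nat_lit 6) (nat_lit 112050335155961363398)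 (ZL.cons (nat_lit 47424) (nat_lit 6) (nat_lit 111985788030069711814) (ZL.cons (nat_lit 47500) (nat_lit 6) (nat_lit 111953520794032912844) (ZL.cons (nat_lit 47576) (nat_lit 3) (nat_lit 55902046990135606222) (ZL.cons (nat_lit 47652) (nat_lit 6) (nat_lit 111817198124936785898) (ZL.cons (nat_lit 47728) (nat_lit 6) (nat_lit 111856515697813767270) (ZL.cons (nat_lit 47804) (nat_lit 6) (nat_lit 111922062117558186746) (ZL.cons (nat_lit 47880) (nat_lit 6) (nat_lit 112013863088648375474) (ZL.cons (nat_lit 47956) (nat_lit 6) (nat_lit 112131954611465153138) (ZL.cons (nat_lit 48032) (nat_lit 6) (nat_lit 111988001704102817624) (ZL.cons (nat_lit 48108) (nat_lit 6) (nat_lit 111876096832593777548) (ZL.cons (nat_lit 48184) (nat_lit 6) (nat_lit 111796196112674696030) (ZL.cons (nat_lit 48260) (nat_lit 6) (nat_lit 111748268210729918528) (ZL.cons (nat_lit 48336) (nat_lit 3) (nat_lit 55866147165751890212) (ZL.cons (nat_lit 48412) (nat_lit 6)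 (nat_lit 111590582687904741026) (ZL.cons (nat_lit 48488) (nat_lit 6) (nat_lit 111617053060129199402) (ZL.cons (nat_lit 48564) (nat_lit 6) (nat_lit 111670004185116243396) (ZL.cons (nat_lit 48640) (nat_lit 6) (nat_lit 111749456828012926746) (ZL.cons (nat_lit 48716) (nat_lit 6) (nat_lit 111855442146718424628) (ZL.cons (nat_lit 48792) (nat_lit 6) (nat_lit 111728779879950416910) (ZL.cons (nat_lit 48868) (nat_lit 6) (nat_lit 111633826616867188398) (ZL.cons (nat_lit 48944) (nat_lit 6) (nat_lit 111570545120894980962) (ZL.cons (nat_lit 49020) (nat_lit 6) (nat_lit 111538910575760864326) (ZL.cons (nat_lit 49096) (nat_lit 3) (nat_lit 55697181018066298702) (ZL.cons (nat_lit 49172) (nat_lit 6) (nat_lit 111407728263691482326) (ZL.cons (nat_lit 49248) (nat_lit 6) (nat_lit 111447832188026003324) (ZL.cons (nat_lit 49324) (nat_lit 6) (nat_lit 111514689536165311192) (ZL.cons (nat_lit 49400) (nat_lit 6) (nat_lit 111608326526677303696) (ZL.cons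 (nat_lit 49476) (nat_lit 6) (nat_lit 111498615868335107542) (ZL.cons (nat_lit 49552) (nat_lit 6) (nat_lit 111420281829198753112) (ZL.cons (nat_lit 49628) (nat_lit 6) (nat_lit 111373293690037206542) (ZL.cons (nat_lit 49704) (nat_lit 3) (nat_lit 55678816512064614005) (ZL.cons (nat_lit 49780) (nat_lit 6) (nat_lit 111228459220345150268) (ZL.cons (nat_lit 49856) (nat_lit 6) (nat_lit 111255459000014097812) (ZL.cons (nat_lit 49932) (nat_lit 6) (nat_lit 111309469147500882684) (ZL.cons (nat_lit 50008) (nat_lit 6) (nat_lit 111390510843255499706) (ZL.cons (nat_lit 50084) (nat_lit 6) (nat_lit 111297419408860177634) (ZL.cons (nat_lit 50160) (nat_lit 6) (nat_lit 111235378726534484070) (ZL.cons (nat_lit 50236) (nat_lit 6) (nat_lit 111204364466599075604) (ZL.cons (nat_lit 50312) (nat_lit 3) (nat_lit 55539587814252288607) (ZL.cons (nat_lit 50388) (nat_lit 6) (nat_lit 111092809180614639836) (ZL.cons (nat_lit 50464) (nat_lit 6) (nat_lit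 111133715183435851254) (ZL.cons (nat_lit 50540) (nat_lit 6) (nat_lit 111201909678537945280) (ZL.cons (nat_lit 50616) (nat_lit 6) (nat_lit 111125111600953284074) (ZL.cons (nat_lit 50692) (nat_lit 6) (nat_lit 111079044797853728614) (ZL.cons (nat_lit 50768) (nat_lit 3) (nat_lit 55531845601913149340) (ZL.cons (nat_lit 50844) (nat_lit 6) (nat_lit 110959818945584727648) (ZL.cons (nat_lit 50920) (nat_lit 6) (nat_lit 110987358720847054144) (ZL.cons (nat_lit 50996) (nat_lit 6) (nat_lit 111042449071283574716) (ZL.cons (nat_lit 51072) (nat_lit 6) (nat_lit 110981624872925051614) (ZL.cons (nat_lit 51148) (nat_lit 6) (nat_lit 110951218735733474686) (ZL.cons (nat_lit 51224) (nat_lit 3) (nat_lit 55428218070945508093) (ZL.cons (nat_lit 51300) (nat_lit 6) (nat_lit 110870342365043280060) (ZL.cons (nat_lit 51376) (nat_lit 6) (nat_lit 110912066487920915710) (ZL.cons (nat_lit 51452) (nat_lit 6) (nat_lit 110866902955470371140) (ZL.cons (nat_lit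 51528) (nat_lit 3) (nat_lit 55425925206153112073) (ZL.cons (nat_lit 51604) (nat_lit 6) (nat_lit 110782620227257547130) (ZL.cons (nat_lit 51680) (nat_lit 6) (nat_lit 110810710798025120158) (ZL.cons (nat_lit 51756) (nat_lit 6) (nat_lit 110780900859602005522) (ZL.cons (nat_lit 51832) (nat_lit 3) (nat_lit 55362078953325754004) (ZL.cons (nat_lit 51908) (nat_lit 6) (nat_lit 110738342254266817162) (ZL.cons (nat_lit 51984) (nat_lit 3) (nat_lit 55361792429503924760) (ZL.cons (nat_lit 52060) (nat_lit 6) (nat_lit 110694932476824925034) (ZL.cons (nat_lit 52136) (nat_lit 1) (nat_lit 18446744073709551617) ZL.nil)))))))))))))))))))))))))))))))))))))))))))))))))))))))))))))))))))))))))))))))))))))))))))))))))))))))))))))))))))))))))))))))))))))))))))))))))))))))))))))))))))))))))))))))))))))))))))))))))))))))))))))))))))))))))))))))))))))))))))))))))))))))))))))))))))))))))))))))))))))))))))))))))))))))))))))))))))))))))))))))))))))))))))))))))))))))))))))))))))))))))))))))))))))))))))))))))))))))))))))))))))))))))))))))))))))))))))))))))))))))))))))))))))))))))))))))))))))))))))))))))))))))))))))))))))))))))))))))))))))))))))))))))))))))))))))))))))))))))))))))))))))))))))))))))))))))))))))))))))))))))))))))))))))))))))))))))))))))))))))))))))))))))))))))))))))))))))))))))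

noncomputable def vl : XL := ⟨(nat_lit 0), (nat_lit 76), (nat_lit 269009567), (nat_lit 152), (nat_lit 103936283), (nat_lit 152), (nat_lit 103936283), (nat_lit 1), (nat_lit 4), (nat_lit 2), (nat_lit 5), (nat_lit 2), (nat_lit 4), (nat_lit 0), (nat_lit 0), (nat_lit 0)⟩

noncomputable def cp0 : Nat := (nat_lit 16694765349239768176090977637582568095518156863308737815039335539781607194569453352970873447892533182257167734983219556107312534675004575998423798384200318767076032586339850794484772875889710048570151218101768579217686015061103106701022792924631042896272446550672228379857826589045659101130109346191386249710251035239800314018542608025709970423294826888383621316037030752876887946614448538397231398202465351523123638712228849123860920514100698804801906674206378143840638627240946747340077878675927488490163810096634454184997028431194753634071039138674299460285953128200269503977575808268767709436405643098534300823527907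138918199494595902829057207603605853258807790143813901579547058395350119818683568893727840200232715202980690692173838295767918791328703248743809080275172571824406496513361477728645645785074615123501110215707792816905561401969890908962329893905334392127849269739653817900155715481074227923284205190346225937253221815810437777074107947746275679370950424428040326083331001948864852649546409867357737736493893813404556506477993102507436222810459655192318749886963782138471554114747977245256864295090220766548037217646332416165305693431376583893520732667813040394358308614279703120352118723750550294491733665463934481207908478952741221283983259647643963854989635892825851599006978236188745176484606519352480412033589188596464131051172584362862012238649440618767203337697688686947759297997651704386233049221925337896615851785976573583815284295850457206581723500155824227873878809151033827280268149658864914644455571077105407977992728380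090966351497908551267647553955226144826240002644097885413990661276753722659384316122937838751555218381853045438262649584046192735436885991386888010826162102787136309054879885143564290205011078287938555142938498718655935334509173362280762031602242571547919127292222441661452746415838198402282634035318631482752131604905051618899708801666134530754384820722951721685691892022196819450206110146734072050986614005315767679408088948146357310603178401701426614667223090734760280626262138046972617752553251559813847085298943859756641459675799181426070386296236045330502187742517423729322488766125859028848855013680589589893162851229673966452476539324151618711843423067608380127667835115824469480073439760693135470703980025108892590135390108206050672167122570549660720134555364447620579546556257382457740927237116526327823252135251657524631944924912454156776318898133373744125561067261014963938094482504278965494666136878318295552038408277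930236700151254238323043424906488896415512229107066427093923352082545899788969849488771193559519423823896837000195951507981622110760572737418448242980962392215359762502742893353499486787520231091045628983671960173225652364362625083633767682031615992970888636625339813201868353700568105460928308456193167191443121621427054534194230511389475675980041083239151864923834736868956725645754206975469824794396539918624151765848851735435305697892462148446247566530094530589181995404071742100990503566535653712388710446107166803572709268391512808716687071037016958692500134331735885365018016793123744049076855717567060106226016299341660904139330611058542375449432702118531117334968584030211619410304009301741546998478359962530018706144446706091866497376221366126096612630164116160451802014805719071018766065973123869598358019126324967181572067417413521259645155490890095630880300725173559448553609281885532026991528829283387906253957606764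299302484470170802172534717783139927472189966005617796488721233921521332594103944881928295933253114912538105211095702945864624299133790089573869788004536956309641265136571909589720472519472650426357000669531860098779175845934800509124332377504809411225943205830044318346933967787858808675876050788657042530542599473282146172138003967335640265663127630287104844798634641498618861576071725331627991346317436989806595640764236617627125753269057286974385189162764146278816456909195474894944141641601707931334568846040431340011290025858222087481915013509837330018711589084344432429855503231417623370509115199848966579324718433925062863999669758545693402695916079503810851674794070500706134893304856238368994413503149483391920077548800239731094526856315049821094772038705883476948871203529756844556242573872714752955672422898524266951383394240056095760388847653219681887156304866227318873577936652395174401694124595781309582379341378030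038359180281116365607260101555858024569384513468405884662269807637543460467844600588890533459363840662507866224246919325223110283507881156443645581857520040147477981110269954247529350705292889956668015757674946689906675045696112714724227016866448309645372356197547090144431746817656908378450751530171778151390230960321329029107103160564931796562339571171605822809728637575599116365129334027511538666919388864852027239359857506906964748855717258279354166896098120072469223997494879497953475923995014804987609139886388248566070440193182411864653190719457982940463340722630641399325556329662617542035980001477514685623899580270105612546625942781663596025774078997487684937852041850493490149210046991055546094560867020192180267156128382885792562724185652487595353121041244899946818596095902692916971702411674867547128251100012960635446471908515917802092146976973621893122460514425170928703165991695688451574666771318165974375073012071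318100186343384338346262249411145487297948423540889627604244735695313094054485401076137630768538977825335754760638660354514518419681530874328261282511755440022298380212205140019917067961898277247064275444492653367299041852918830915054569401527167689059361885012064755182661918255532883020336697864204278609115404790102740122599943999756513087761360930125151050050088747502529893503522483501491976909034082665953441966925446704111622557136295644017723627457390651942288069352189998335583028443998771572789607797366744038381879629350208591947786871710630122244425211814965245604257729103411204922126236715399997167490245809229032137696806694404563676668320454427737091499321392972203615325035363169014485616332034007218813488808111814124928552717414628163939178156215254577668193738005927125176705795291399991409567653647775266431582331068666114384349382523286200705714661044921755150721858248591374878768035841380110827342369174787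951397068734712632311962238514091396475250959831738122988373829419065366767948754443146091404937889510074353838753800318550599178136233145929558160915727410210584929427643713714377450812983590769963923964628700333772309879403195334065308853230303625656540917879365329070988412028663835053516787550311819191486820797132329780926780773916590737041522370836140402197695399242745226228888668355174324319983968626508215922795676545350709723122664341862392103585434536708647082941248178761382207524564586854259785889725027794508506644775809100415352096886857286562833738600148708655442297286920652354340126188249562831063659184723039867619080015413790701121021592806579281330211390383226234360932048902173992774992760851516743585742962187776179747594406525847074265371251064883136192486959126238258220338139958537466047439100728234751981936606971207256186418163324194545789234535984045424330979752467890293586162672146648749441680927185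136930999234648528072896049666416846273738131125963000975841104892809417548834910231306612396680677977315419098493359592042560668678761274580539928423374233706745124182290518063769251170578736612555019140112895210714901164036299697301583087525281700223347770059863788261001738009502513738079423559916941552754430951784856049127822294935295862960694257928035520987978110141966831710852824987493062929104583327775404599225547972177993052221890121837129342761720872961713753736363405944603507217085688530968009506764315030283036470772526182922439027522894543405807653892354263792385883612041884156048827100975565903976161682577062976015452715058033119847551500652790796843289679560573790967809766497127035461175967673446061409696571462308436997177854840764311363194003836984382826154578152565681041017465654540443708870446248465241244767527469825178651169768213746817260628811060150916576405539700857388148216974671845976933220711144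600985318557404202249924997333200312551792507706791909950173012020786582980420927995777497573358306445803112726784391282941082431479078761996124435139490043796517834129256796340536287142805735479386920885868988790093376690977647787631055562553249157089039632342559327812995371883400255527886915355352575107930616018904592054631205300952106355579333061034867209465366378340002714573410814369114189856728781057564918147276374661222893116677507132768990761757274882374665608800471316207586193757052080388873787044240558595636047877647338707942437169049125642199530376689685765449063710092075860798357556319961322371907843037878454832416199022991572262750366597698037314116861146201818316723879862596098551223906821488094719500851200424807163899328174173624921364895510260435417659685987667892836411060330979340064041381500705197377009623948008629874894517353448057912506261301377530072548632589916737674842754481468883378414168664227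331994235320756415185828569356357820009739158635511545152823740943428566402280276265115530108871439769421403040502976170243277986923008813770499370123397354383480135169737513537975968043545139585556328101158478180052201796193799239672969589776247569043747859126798585033104118744015661270212277246438144849029727056290366194613427487623684193750140809343862498091836020840108780979817594756410106699944177402341091807118214170367894198740121366379447688131264096296099429279769979431684665094776176830767554068930972329385035897301042822048832931672125785862865083204580135736114095685429223664471182983373409305003776877498470116977329863129015563128579389091351562889981984162546620811920873882889250228864998422922436460243859344213780207566666993399738344673207746657767223388296650398425800389811732609855353023970766963698316553353787882486453249451999229187785490363331472034378506251458282950090970205542649725474298120357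707429989012345170307285997743704527605690853661581963085027856528028851127403707424916212386000125953681305408646950179056915727542114675539616090301325409800440830629049384593261487773668071957981246244168702291509821707467074257476153523386306736757944849061638844021857344320993377517633179923692368882141872206334237553732028455022541645917353670280721040561957014580440772869098452053137580646191243158922252286883208746775317612897924821355445379860526966712110281345373931421561976603962534436748714549449742153906666035424017973364466555415556767430805502932833695277324561869051706964579218059244849515683178584299794801097679185749979985819285770110346299827760803447328405408581415864274388270615227650698247293285322313950879848259494005335192510525439546827917418039298429690592512556866123161720164533420777336749276043598646990494818848740329209803406199331280286388314314642838114950955492457866928545432575610586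668604787406444651080748008786214751948723336550195198447662031628815057839340323727069277639888189095541956779840396419687367273011902633752295909989861557399578537289508733556415614346011357808664100517052450073837427981973015947675326980307789365597899167876483201342273786744140168613633048962396928072019403727630010847740561192443295063667716611093601915190289943111939795106697124820510369631614571749811720259405038159930323601374068355925475381760137580831409286604464995244519678773796804760515803933892407312813864831145146474938606507294061350185032792896940491233384991967633948646440546012960902347285191699155611985619668373601461699699715720874909441199890664645914854817596776851084901809732517817849241982834908028930435576974042490157483733127692454517704791947678508337750032919701900499638022613547961514242413010245380982404385201593820483744862204949880528689784740433573898960191786552106376110599221924699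223836704758417763441567342398074105969451153976652013115391612692028131618939379108673463129887539187764179946771066146048878109311439272640691609897495463959423171886405913262093117472585928163357729367361029442457933677714907096474070707427057025473805478235056770117347502434333392233261306172158243809139525160165156671978693711511763239680887221400599532152875942446713487871379093739349315574780978470417972883779217911440447565131974907114961359569081719995608083596900253460959597849621179901181841107136973345153937754318290896295821396781686212966794268870122202850310078206706999999940030808967150600744749464325518883030081695685884279112751056128916944632115429906690977023524928526708656913864049557655962467924679329237088055336399778775689756980226060385863118751396680157588818680550546275648777658187623556820485292736285185845036144381693418808241975346397910836680529668529721183029706486929253216259928874347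874539244982398224235918341261487817263360827601571217544607685535550790044726251055033282059966113184977762395830474702687790779816072818717141834138038610159427076063002327423525620103546795006998824368801464242812062053782015544049978771791298711760970752826008025533349771250019929920732801096717424509061308126532570422491014312392292696855064938435971433864561997599512430170937398321038017571253803285815073395429747012129759734229502413149893167478016163198649625663509865095503298310092269290490943365804009341656800225135780195385978997862162008710361780013659397807127924484095681683314810586115500751495490172772503139319845974193338364194185828891910991801248935367403165207801043651484342803164454530688727086937686922208839653011257653497174391183285098117425256400203185155130383516491423588254884549120709102659965702707640683386700623393533926259445187214628056614119425476695252251566330084404222351527241311281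992673306406165789467467893000784553488965831356198754998016038100730320118219883074908598947598887219401093427827094259119271486336901060373006304193357764029206481536898990395081298672605865448077154347564926646753143137200244530173868468134831245173895893596895857730972218569576176875250991838414414443684394279292051986793519029324533417869500944744779747943519285807365083012314155638105173506625699014621061510460130767257324707551056238562921046714542028462057516283743290955380261927076811200904203289331905108259142674383384173189720291789973334058165920954443646886764468493884799553479230414267000743419732925350256677709207616487062120980285684680352631459247596890729524470169595998980385454170660309007221232350612216865464893092176299515993289597202096912766025821168150559054449248294706342459477962789207154811067769048522114417929783396480494251174360373530845621424411127900406545171505670872417615427701990324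0777183515639299220195278774161818181526745937560347951078004203923593641726011225847660784102798800350452345754299628779971458848009296588547195388575177054178507973965021398457701241722934888358816630632190116611862589056482167625110139213329125251893437787651047897140060961538307879666445576916287113025232169204441981738461135240699671977470998065916301525153777239837249970759378517628004920039367010012923795495611672476684841599917910667093947880887608037902530392261235949259826889316931076073492073076739903676715352770007642117600394374280060499284975722331653742206669587654671162012710042404670988090738224788225717967492427149686192277429899631378664231320272376391283364692332378467596384919189540896796988158891183596591344351072785514084537773083715595398942452958441532066434617103775782476076616315493159444507833284709886867871632643336097954093649631419997539466800664909507830391354234951519256531348029555906260007546396015924578280365581915066970573188890443415980638262805478978695365683144382267257050120471557468155867037886783998826209343718743716041213158547033386843738208997197690302086493869035826295713912848384)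

noncomputable def cp1 : Nat := (nat_lit 169896007075958416944277861292178408836098192516423633904951232562246311651059190051105755745814209518965362240916338469311137348104554775873970940080765885402252266821136464567916378549571675053483655860959505197680805247873761798701908567751688513598056309867561831982445958079678989897654535477871826223645518108820195150391062128217139476887786534815544648024756649625255147219944717880895719884698067384465903783152910231057142501377422610248678858611621905284547658201528595659339739349306251216606862894567573528331848163251915320041722648674009724695608810616057909461371755248424873615552753998089038138765989307178575524443320075557357342385854983890752917845896939597370270222024555066231339794310048235841725339100556644049836283291641936039169387598179365104814607480050146578368760892183617677460386216449796658354831139619448527465739649605329093157495574610388240054219338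722339411906143470546316700845658172377516853984920602353935774322099766281216792764838135152905994198669900654540103492349054978018975606352537591666082794109708818281944512267202860122345722171981922100427595113046197113992299421770470710412943760520613551234853744408812273910052894861808866865044886104000888842669941995670953734579443221329840976775418270027398161365126166177751761053491712465830291607353246717821863197277509833294814802684328643763800071095769004772567274075442375978479365135195580582812464573149252314888533745792856240675376514629213615048396124105607419218940001838693355527317256614987833602874521535930035271268285468366222506564626161918543039955336404406471905021747688504228204599516402382385737260711208850883991233930984264353290394569017537199297450813137156420673583644429421734678477555763883718544826792590662459759162250701622626425986544477206255027114750661803219181780561322195851675284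779856214534133061550849172578342612178852100223967599621423197266907759732795836240079069077904284742001819366977569344252908625524998904165433184825117621196267332782224191094648582709927578610252757930500938067009116787034618891324842748750688579477697981495349061774369969887313349987431208019037402703096152069351366320002822974941275151448689899455486337453494371021949773074014107315309437260859644176284474878276264365464630196829286755500408922855742892383813855496280963144297085606824100375006255061746821499189387497112422077090522013662151382372050940079124174858815973480578349881839190630720445971067400702883759527285153949746173121167158318001791253269499178623636273213378353715563198227131521394470485839864710107605263922338968897302981637026402236111113868736303415537401131594296502941247188412194999946012603602088509186752083871957379924396930724192004267532060358570252446720148479148429372523655280605550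454335058353016913400141469961121962055032310929334305572539465031843378172692465137997274844753025274660781016992171135451119356651202572880730977444220069161041562147232452704602255905757985009783613580583933373363781649813713936522465661061644408510902476744482853116674453854927121315034331345741332900938568307188738363399004217784875581743825777044010977564119766550668745578998156430238399268509892233775231683694569325481941253294980241374562137867320594500071941516930342927505613574909806220787324025243085265996984678939345973722234512856882150750399528606637715862384564186108807213327427998131983961857687609399048906031403200050090896813508068787642219747392127278020012210352576069479009452123827961048572158754045961724136556372763688761697238340160890899860944683415535218723800840702473053361646981527477754518151091121914322193118034997609581889312385397276355303782039652356151805195270324548200971554074857069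253578236127181970140848985595969466957099075238014006441110678006658691937480730591531582053647958062806041299608038555277454556548016568264847151394083092879652243906788514603622885401228979563697420360324918366844237873780565828844599350030697724298998077095784068899250564124737206611357280425268957724186247871583783112639170376606181494729246501295485710469455534279308133089719159902207149211992666215528901066354759458890011237481655117536618998557293660057266161336428323248614153341603474212150734064414069920806174477541486336617061284162620672655094662497881417858815171953375004181003823299571181698950398763429315077243988869500589665886193697444947572561301757730303413838184498092409686439791025106772400355734490231840997858210274481911387201130085413721704872197736349710309183831255944039228010454661252845067028390248141218843314646148235860461908229785769861022627071740171364004926426174199363949616123990302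410523544837026132915240920759626140962461898404250932732050516016208799218559321200017331125498630559840051873205875686203891496606038249289854341092423941882500815823532067248122953094489878125577587728420315222199708584999810137313958203685491333709391330183599417257816564077777513117299457938768215743448847786386283025608892587162463209798430498128249079192148559535123023848216374721951346599118071242016840456763426169810258052430524020046803846720954399558985945126059510945044380747856039463918604512837560796329224593222701761318076279297533583381253566057584551375872104174127014238091134608003622979316848304678867170527102719198170158459093166034856118593215921749655488226902840585743105131030682442211337897539442021540038447331575866081588960441641753343379132564785103088407354717095459275868703856839341516991166669121987754964662754688248667526106118247977978989199307195724898613372213309272782248969281696193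120429787234269496643977031827186793399396697960086863783460497879287640249608315373064238091019858412798770619025097618374287126355543853635732310521688363809198765185289869916225552621335578045855104069702370255409876526868878752244986423630915088575837395569086294792593873273858729870861756381272011289481323312209241116438489052622199432176356811538987510351995677598924074510030616276321629230116742964820717598180605084625455071732241648419335862686576775480087567035203287894145195335897824175968579820177726421917822117856128704395777769470226411234250924329570643271280939152545857912817292773144680573715102171522628349292224190635331088969072531614860908438492018007329717579188616021875695560820343143280978111085094859485816089171456932641570101904269229119146534728245071518747034380340449812957669831797987167610743861683311545119030741453483579241915556521263970670494692502622389390270305339989411772701224930991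909908551649610117693955496523103856577913755906638185419482138111212794832650967460035488001509912717061703610300659709984164280243832665719114671121897589039234701681390449923283512842649305732803446108576961162409193125338646447127649655649882695010806357334530942502212042702075385909703905076540308160321148872121970324589002357756672420563924359598854995406407838834156422780935716242911409990046375343795025527841497536664870605357184736888082108053897667222402602601361469472974670178881680265315813443339667121108025720448163297224694587271811580291447401406491746629074908477130746816593360900588920698332703876443625852699191507630403464727391520043910311117436810418041803596540070391138616708847665520604170539324065271789081156830783121461299519112251522896422485965985286582538695139773897271537018928965297219241616149524655159102484772464900125877734910102262307123500599203993784593949315910948044624946098785474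182003967220754016575728387855786259681039817945067607497170910113646178177593022498491931705152436268547417404143782807353701275301187474343997432532687379959560246887298219267721321734317889652937563331131752816409536876960166066276609255580071481309611175670888008373482056725574340776110655014194217210978046784165576514343673298105315222178631617894152232756399968410616225597200157425241511271493756971251997481535989096981502337538152204158584442504545106209610474332636633378457946589436958678236805637976864424885586884786645969050233808431046995243589210091670781938256465301967833727336426822812434273418836775271953525939898427391453119736448357549497160090449422746324066210645082946896232466082521027592279584000682531628050253025311927509315377370644678299680298355156023185137593667492760680833404867833241269521793627836336395889684698296308919438671782131271978099697852741982701656418981494709537166405420876195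996187437886738732190230436859038469975159844041633580536678073139166364729245294703355798694020014640573315565393393328526610114403290510868776960935329648337290157139924562131015568215708749926614603449979238306132423814301981376774811196691436886174434761486501796708443882616220293539545417908339233282211813760675021219809463507783602033325482889523191626958072401116311275660448765338098061812560496958958625130491838047014902308280310250321298073762437287828059112618488947885557882589234023096321966071166801170032011490804835998631946425542434334302792712734291275328714834125848780539614386533098284234988018622238306043918931165171794015598427143017820812401998023877144439288624583056639495256341964891815932565531921531128557499935061150783720330448271621089953427810081780928078576490055956340983871986271868680832183092739283115693733042082156732128285306165989245730940049754345198938775424888403634531317292781887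929722509487738736040778976538042958463662280065344930120490734065009360961959393917530808002261578477482923599533787402779762301988001090565521376678852257641989798406747863881298347559394527770354117064938566965395413439389417806500353275864406045964848067090462382007425369437965544798387620926338711228704063047906930404274130832192435608342762353755528145562525773352912028221682265218929631901503409892526177936352713853867936841949421825794787726088630042407623818410133528371367506373757047245031177959429599813207823150838031086303871306974738367734429448109708919957992359822316751877505998079415084828114420341036302499889508259544048819788269526937812661198501737782753632020762580445827633830799683902042983166883526011280336618308995884677664775762409519541113851684020052062786283315856810325941191038857899742269803486798159712886355811649750509745439794654915818772564247647203757221767813253098816354435808134553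566723787361776200653102811285571120211365325474940988427922135013732386702795735670202629561772557596981378141696126946670705433913893641842844681688757052154058917395867701131364879906460172459206854611762648843551427517764701851823421887326534818904801017254942452990773431219139491522549876815757908918602529269849122504913588726244883158186603308639314168274781535894597038326874532708106432458210540003861502273405976758070149617117014596115468462544799296058488993963776593509807803065182823431800793586662954201894253068969707616048693272909568628755865909675920117264510758354546587575358975948588276467316246398695197940036531790473262314533162353435088479300316183551286908009487988626007017496242466238537137563242216075513470127599564106984126224005234136847486744265321618019697652003909417381709300502289656954158427147077731584602242530510195520481025525989548602220815774186854890671246566423709659964649592288705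747737247588343072793373729321041255818688336583858583962673514036029765790521907376476022216683292562382284352205661815730691817921802060839424074237833542425528663006495144967703089226318256136475926371567185024756471592963344927485238419710572939705739938005704778849998132995715612742464024734343339377407759150851637945315153193647402478730498022304208714086107393289283397766046361291574805424024635810376781393675235277199103928791684892084603557014764947288793964588608028776125646498791235559792122897760097271577836586445164310076922216435173858007432830362297787263175974742344670338174845871939314342170903881319860909398630911117102627776637782180908833943689129771985287392092367728742694848432828527552899373793259295425337164685592867395225116139751489907001774933221901561490258642550010055427442859726100894222384315301537402611856540650055469592455414472689066604120062001560257230445991479404833211331262587588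239158846319418054245680622650794469224067546402417484838934553347019759863165981155172055853566739975761301799028550036106196302084879984085196767441123077474774248943302605663498008160211546357656668430055754879156041997233442388404586717915693835253225836742361356598370631919122330650339547867334898643665571834733218036745706133454813850866772734000221798510549709504938701994033532097545859826615252303888186851584919018666167050243451117743449219852845196241090625501356734054459378045562476631371820753859668129121699637144447097984226021500778454332922283436117391413556279611968838189125939238594678790270043778902172737471139747066795284172572717578537656625848050428833108484115055469357808397316375786365015227911376374817138652838565316693757885545347134581733810021107727543388908728304774163645334490967461570540627093284263216376914100593264137351057193789448994698191580572933014979287968038494998780296019274634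852850520558467752287419549740233488010081052884537002936686156176820837580035566492732689604017858113934452121861862020807961827119562362465179476309566268645886177463692619697698542671894035501456860134552432755105500915023605172379223264784640781551892734334406021713248568055626537130058073627182577493292138504337770591831943625269659288720539938995900999997065833122205543319702866385642561913487011357482671335350300647031214907636554980904297512936395805576915596455351437737288223487304721222361159205224630055600319256943275802965220683838277151201040895855918207338402262777131909160654029519616872960710944467229400341054366709783558537602182225995120925151275700707618010598663772513564978499325075752673749989380295685017049351832717268906730600021197786622334386683489843860663557589274213737718281930396406285186982671914183827995282243783833069437939623733416017869885819345798699379811423727857903560838542546508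572304379625400101503771622491857876249909243806501943677860851945784393857359940645953012808186234322587171751264486323926343385955178203270550663891294903744498439620174502997126300769826580071582073497434486429337424208210696030057741581808299455943737338599077934190771279304846557949829688749424549348210469569683749884382949844171361831494570298443554236129443239281326513536225765699783382286233775848380399018748637553125070397446990978083816051951413954360150971979876392598904397103966610954030427596482693819294869511576748251145448302965737586146395873291206496814445048434871241469458944803782531701616908207027292005079378185833892170669678381439099984484333528668789489324519079872921749746575577236652752982835211095790228296508820683494049009333643664919752422389087516936907289405307098551157969837738380647292929104729682869849120346533129345631251197933086500646629524233747211851493349845886144822972203274625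556789425514760903774183139082971337207349797620586424391927680065600990524050031159986802139006169227642228896429007933320465797276855185806863304655499353311595875850612454516972287264415183091826093137989823335265519733533851432435008069593024227041732990882441531138743241575094919928085615643119149362797356486108877671309174860498148767729733669465793585756140731189641349990344913415590540282045453042782333186898372602868119977147973230196573223133800240544303278870026284607778639071865725628746200665722363041220363118792208840755294111136523901460962446357301607716422028120401929246631256336770995458764136146584815050004744946535151012568337217293785807300583313578579966640648954919569518999825363321947184598844155081143367605665084131826615147229562754684208629884152405419282914711365568442245779176307073186597108340652999755675092554313662196011902424842240)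

noncomputable def rc0 : Nat := (nat_lit 158094070019387284628192680428037986520255499010516018321417183411087066506206532663156669678717219262128344271937245369665045686545264785674224815186554339680895894784249008324286473710444573683476230085236051339709861518584737632525014558095918036321574524748708703058702632561754418616266645164347503457400537000991993818714681796737824263180691648252172170788947037838602675864908457039679093255393248327430873317081956321809628612239728734791498608670770309363784774434624158753786122011741126251060983903380412215064971840017149432345365641021187848860389642892895934047789236755663085354458939873260833713290076486694601027957356635972861566392144324675697477333607075428979930248426851631865236297895333732918983851610767719692739058848938636180239754818815164201086145967337393037022185435738301331123919160754678479662178169280388561865555709018491522101739314576927869271515839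808420604684121119258972263174116621988145634914307045979316167766326575364948267504370387350785308754642163604051662568465309627864068310872784959777903221627062621958047451614577468073256774636513453789744919617879567099645175330635700739403641007958990833192755520036077332142853597862660491783535003951920523655715226157920719239177177222879129709365931975281516643198137748188323052482934494494384628190433720803161772831186167429750003332507261075499128267076417986231981278526910169035623891291706864093982713648150373541936998306447262688646376641710589468118241992953252273454639210620403593097965450198271277804256780124400240193177471649395746114338027626463073559461863768961732666604939441293521140864579583237468506012891522791920732789170612589675164181185613011922147161065099015847659411045045057750009956372320789637913376100968662025780685762031247679031685462750024153301796400024229580238296320584530105807210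091731621245271292944078241902072676610762764763311158368817619078247928789696594866584760204316662975361253307404695690940891525796606509288938836917074830832752395482017685874609936780063420851996205548263716380817717695868325397499178588612043157724806100631410899899851121140177739996972080051201778609421662420077036206947982773092572547983611678488778679424801203215057840503083077015648827510487006961193744104400359087263162763188467779909994720387994972768772242043855564562751278416686511286759581161972542807021529835441107326942193143263702113989197662248622464561132865998457548291966959229488802262733785222136198599336858232768908125996930496045438482227551784832817000008034050253546041659754752155763403142324544396718626265383858351168605084588593691264968749743891967294647698537710150065952999752576811805147809111274558567084657220869955925617492739185768982767649752905893574118736167861322574587227544534381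994662060709348196714279798991866565015181986749205225807976128834099861224644609808214811136673084308217757546792356898920457208019515369529610813470057600430345323473870809742277801105371826743404661354116941079904237031065066112779736553057971214950301259706334662109170098214867969128115305701989484990643533365609560668020034070247021425796100066333544520782719562905839335083347014428438492779038148119960393611938339106713348888598591802057081595540949447954378793923908452419001941590927300749258693056314637607662805916672470305820003064615798282894526379940704776738739809557516717261721447481305364223267500698122688966171544170570409902119574734466270728014948658088122793748805068017528780262456786371420863496082752263174966757890136378906642781109626674763520311324334511637864084586572698040521551687662972077610078398552543779952942304870792434864991230703930567332700570588319747576212701350405135953813710187695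803726538387752878341354654028285538875037610252339791216780789975192218330376219606179689264812052658304216066102899909363087407986300323202247707382315466614486554851973203661995607771222972164088379976157512050661363311643583795034004688574501974536517463742830977999800105194525960725481301479859752366908700447887551428502525244375494183783331624003844492687456988647562503820961510631634170078940193570229916949739982174709506365521970906750746096908985716928543167709738127338838094615881542256953652215561280807691079241203297085678480358744557096276706992936138708361996544937004168351523947625652694910049540625459298062355330120008714243669926872241968073734960994492826498210441944318417299927839236285626438413696250477252235566734387211124372524735611197494825593293949390399438156978175731826957607962848944084785479984387973089704992682495051247013511189098786913628115998264465107220815956818558749623657198885285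268670969232177352807030064049184159053887516653722705154017985482537714542591902055856768266675245610474071300549379074670136541927059633901298316749917375009320618735191420344765835165982980583312960211492157523059189331554353082238086613405070572472669983844280898379984751285692322343872427002149291238116986372821623152011916710835182897725252296702241882372714558762583522467261794555577379811410271019232376284988606104047638124634061669365828609912262804734813240405572490931623923051838147051684611347470970105530034962547596253821539029124980682036102724767185664569782605532303527874709775733900537191063035573804513090802220420149580431384779476243257166730371635773863710618250240313813687265599474213707675022446290948786109481490380615310479973838516740209450741785546858761873341267200501892221752751411909319990740275752516834403447191310094224784232188768640627736242094580869958520145522120884406129115452944786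302093054892501251659224017343773428010644539015608414675800495652050874145868157287783591182937630607727247697289204173206765261581919612554081072296363979131799348888046468628417927090381893821623177528731516868541467033731501377529937042232287230729323733343313911556186079728838726314860507655174886927312597772953905378564626324043565742245747493631512826311957174192922984695168544023988791089253730006566667859768717715344831554375358554928468119267422281073864606583963969768265860442812293569837757639785713026794043698490618061336250544789524334981411865254466236164497007620564379765713757675608192864285547448116665140545957491880335882284187389253329540390290718684608118972136800733620276375047092435253621485745495068880916497905447373535994029255842720639457904626268012044732405801608890918881321441625317611863077444557033439826652281479079151360373539656899619388262258896313388263482413416575973303943834423973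412067866076827335293012988934724448383284014091945163751781993095657244265720325570147660751212040190349949869969051224299969753416493827139756576935801735725310624858319989544454586291071575479500074634204088691498493085333350364879885152100819474094821561449773470001341252749116216487716824998615777704123479866778098007953613531653912183356273473167945159101004945930640509672381538455305563639551402882065101687558663972882908328381380320359481441089023236249794109083740756246298672460171046904368847592298951058056503396517185958902625207890828402717692925406068109054501411334753835955091586940982641383588254625891652206666741270343814271511722398980633946722994329317907039783789404220772911596880375335389445116843489724684674966878789376738432822222053747127106052158682467782985780343226112673084203433229884374785732208862181728662005308435124129169672151586093930778825788601189416790844730157028344136544773220408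264500026594967888151396214177465777098350580886493712467048347587385307698697952392794250049084285292288133233717225258909263353141381495434414216770417252677585134408202226205911237430785876329013637756369937418292386539531535849142406977758275396610011952910978761117546264023189948390694434530410009646106249069841844865273020919402975402325374888787286876114440284497091054095708881083923308695644782361484517614034916399426360403391037754833370999910512463226275376512170042629986128131610131262587570220638141215767269817387500006998482241145988971935427359656701311992236731082126164912883128196198578227573740560833059579434075233579242474996885823434088562197461654786863226284592951423005332078451713392013410812934134962870672835706774293944155377380715798035822360461197440428888329051218712687501026523241721072034738679841089052762193530431671953554578378522376764932231086094735616199523259551508891416896770652816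321194570812836562344984099456033643056035089625169190110274437549332551842537983886978401148312122021993194127326306012836455505231985027903285037272798678758670414875195552162499321812740181300882137314576356330922477775786684068255840644450796875435509686031023574644372043767429429229940126900645843408947987149069872601732659233720277211194284556178397592201569815481429121786213294902615876141298993727441080547807506339655348509314163891325361455103452840197155837508066273767510631445873810150899225276456400865054743995523143366752584624467671248476602481441546436107494103893312571536835177395254824728704916654951093049848871782136506240158384856260451075421287931140253271125206703274872964105555260489869868860145692081476468752519368453054738803825270197183441311363837175364292306891501456731680785121877023934602558884357507892432194612244982390972477809907103268167396030247332163677217849840482083069179922996876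740490114675837631618186976605547333813948019559349048005146129376554045515340553933156487745454569298851050222311469225062947388814664275925477965062806879265186380760617385185506418946766944638607713344344873808203938297669576142109134736886532840897496367660085613131109618435811178446602703065980928494440184117870497172355487738894022504619497318143493747749478327462859179532514553074497906473386089668497805526003725011300970199928958126109586519721374313756814792200795306329230907635074902192126992742197992715394283237311489046251062185619006083636394166755408367569563175200710782500248326171371774801041236621442585950334451001120003506946561879088889488069704762893064969124259857370366635795938755951372281527626680861999047376167189000131307552458244456766689256921147188971493537645974728938008902403648559309978949682179437435539792812179358853990875502578639171821434234543802536630399918765254871568346676541775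211547600676923618801211461462453843682720402986683137933634742023622952649084054984171183376943184257251311021203433307133463905169566095867454250364170795344803194808901859031178313099646022663086839307443369037285198247423083384966580487462883331140150067950270483387037653629434041986729953518247801596662367857338936217713701065305887142726710569433559685996495292936656586152233762720516914652498861584851148152826425997991745487962049784943863924720057782213928556495902547631801671288570639609949522022802845417716597685696002281559249971137217662567438905319347521743181538732219702038382661036812820852327468159343259646316291205734152576630069285511465718413879780405987485861986591977789948362464171607477651360066662527484207492762639740957383010198793522445856566425384246454074905971290397143971742569226633338776762413810192060967765733430055417426908523265397650616251973073724219772592226126224641246798381881121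022174543680140492470153310131566587020799110548849452788372330717610044241614204730983290602097946952214658259138699553801714395617619081301626083452224673814450979852135645138789084623967162061362417067574712931659073589119127878381665648274574688402678117773649234194834270951722846053658774148895101220069072718608897720676691461064659448444183106386502550280776690504408714083788482851079847043877734079869424201882648016963704624882627173637817860758666553716798753232261813965930389903018600811189504155545820994200412756218490511885621215696478173466088528533998347654405673306572278934273334872164277891384219097102531357741368253742822426535444144206627696149453776270704265797195826858687483918339262394071797303641887110557803370880851855951100783601861977269755382037638882796103735874762372820865679766589267777715578741708863113933860714344971710441283624671251876300013631955936670809523919175289070291628644805231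943187623742424958765366286414415448025794624302728553755415224122468805512795710280433797351435990216204093579348555027504336979982091091191703321100777744938877111896866402190380228276229080063945538017501198500982688676644635570881451902128422861573079540151215332933076077663955470519423357286706822126599510613500919998292663101201687474228641585720827833499121496944834845274851396417424709647116062308891157131887985181815829560013051947221230040593414982020905570657827901020967785772879081217463868812001090898914024608890833906902762152433123575893566456785710883467507355434186081050322678913533160507655087871350197119715252100544891715497753387919945961567889541239683499610699301427115764266562801433735974543975879289913771962497584577079443670544433601410865856080481293092584233476155628520812135742896297351969045487539683965728075832749847832208626824476425602239742861975281162834484835425018362340888835460931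719517457101826780364015771100281436749669393977444238475983574748188354495781174626273096596443103863333687394742940540514923293782282248809826144285478375397785067295124105634677655585315872948139384877488295499050225421425270971382004417462640837198413820789313663695079365293391780384495589700485805328647450874248221964078493797846868198597812935616337960569349001973555664710804608055792155058061320774184273291745277233274104454741334229345028392945395490024517791979028376716799569501259623603631679334259516157419485407600471524920058391284098166608830599771118622092009429739115775348220329747667187773062958597622245761701914139101924601309460113927624591498160824840627813939242608801416251042192183232300331018579958772864447985199190502173976314392701855243617815061103287890781798824837201192736834882600323880186449493395322326529299904356836879321287108451938271474454572694816464196590225090949637097685732396875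125939701037161090277650625532522773554556323812236680399522976749085646949527692775189836555808824894938788524125662556478409190174957603423330391432761337556130995451888389557549330153326569608123764189974745166714422526832721978486214849609858744597768460840774057466408295061030616506669472364255639977100646405094482968682992200626070496913080040340170762943190164778989749999036972430135485074931288592871974106525348304784407379945832780353947212783703242308087205909651438453646593224459041585962444004983750538112543470852987432521889897661741651332517453999457443291299710277491801186337035307779745829254598003703910600067165169423155318344408132859948750491846123047879892756716629760099640939275796061036713628520746623494475600596240154696113301345514772600472436303150910653887725248926440706717186716505794683729600026436951103298576454785452271454200685126272920865593109745368833430001794961976826728632369939061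855400698145095484936816535292415350354656349732534734880635882543445426103835288744860621588697830835534209254397917883064266835324511566773935627280651493767319620499533506442816939698784431453191833653448215456863366111081258275052796339870534169207535713193301255268988038589082916898642313657682298462575454982675101251353619586163827894224984047213833993280283055743931436840087574238810582857047075678056403650978127800541354192706127045476206414363734758537926031078232353652150968651638293266429522967737036750203196312742561491242618487984582445435755975392960705032148749767209425123776340121215008226058951106836851538716438980297972222833777464085106144966558967002750303145821156258468854998037807545511328508062104879536356148288957015856245495449057877966978852257908126492925312353419173126551466939187481778295949899174345234624606759392873856990113580449792)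

noncomputable def rc1 : Nat := (nat_lit 159098154518583472423126969510129488027083100136185433463947066134200332306116516862510157416878819651025391195763204921995460082511410056130964683487527639357823204039223333986005188953127283588644276536644175550860662794789830001319860700323647309415459405054535429352144186049027798868743954587181110428409490791149047834617763423464628964428394560870263329768336626771131269601319152037392474549272412082835070562944600074347879972544907211419758868508610095004515270741553202205717884784082799544290653623339931944658151118984374995402506810884600824230154007172251607942997298831232153199096563226854732676817889752507217132882346054185047954217360365264481498233505893868198949772523695754919982774987070750988722370185399204485676412388005438368893239121403489660207757001975598686424867027779273141059668124166718468230321715749852418126259702932940688504193125291403748678796375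315680081434234943655690275740191559196184016152414209156142708191924354104720774425152386897498960190277349616433617923106370669463798136387007961424940940304462527155590875665780245655138978453130221478801744115708963663685674649447986826129110453227762498532998096796552172618241305704102529901410151909527386374684351331686083589090932439592535522631349537913707171326000875709002781951253406691578989665575047936662288856389810555254945266431926059875978311143367079494090914561509785221027268947978158066054446387455933495567549225496926064569329579900669215014560909222660597462203586801198067506202995975064863944869325235779538796007940969245747370502070952299183337192875033828869020946543855178850098573601946689631875450451175035110895781030099458254402892465303650982641184475594413245639905264847314636082866453267871724149786076641285469798167647480701144133661168987515588746141932092856297773272453667086142351074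859484888738953230187642459400927644590501615759557441389310349511669713107438414899136261189154165394423265175497254606404524180795396819170837358171193448205123197597787985598100349151503719245601998712906165624923151025325531826790941920771124649457706509513116529723007335104154537160542168203486688058118446724003199632351353796695107944967302242936630206021108134241718505736077897488056202497630443830229910540927682156384736476662289255932205657024282917572761180918241620220507960023552664027622316174331473279465203176634882410634914847977233819335834554963977904212924752667124494027440966971693903687421579396713407333662577022434528688426780114277182425221137475902191282330028519432369101976444784016345736067702027446682266232516733129017380461297205130394990275883652845564919901751801840621033722941901798485413184001059650243539799702871503525475015756599593747289431338872442658257789140043989453129843908072288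898949871732387549336317515105831931794443450808294080311295133932633666631920549083649300627616335534358968468415053403553656956619525061338517252292583690988972145333451864256835442961744526063824659583325918925350937854128581826333296366456032831273324700477280170945460101024406735855904752972561858490658891634473584047766625584608175129013545493367080632740432367569540963657459994307071293246741210576487589407219849356236641501967526887826278491462220947000046216426110973190246570692710017396208750639799958063634566372802497998833088142108205358768989821945623048631578710512581928577195986346184957866521604876758096567040438576406977486643187840228349819034907610322206448240837718130930808410118817479618493899322113683596350417275918887225022712985991403991265264784543690404067891350894285192500778311221391311020234390397702808439877710677166357620436245545699886034683927635058799073045882465938189776365766119795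807021902918314577415866851747180486565080418550810817878688127701617831236199822859335086942564095079210728346438269063641616579892154459249629508162274535568025352426023142787909184381051034698217128639489202551222988100817015360223434288835529459447466719369588669213764559328899330837215125917022931366903573563605135227560523605140166048571412018131205665332416067847123018063623046764017298116472511505193300244293973620570871911542078242635683337080817423795831145740161127920576405617851543786606804665811849081660895961041493108125574931449350844733155000427984290747082427845891000600793448514582011190767964787368092729008697526229645414394358495947190830277843597386755999284743528246218416339291132012663923357525973317356342416659027106329705350959023942359147639406851940595870780781762561325892875940953027615087597239716805676093699571754288558266528117696505067059222301965527646751135750276778466027091396787736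656943410308894727466999842289031081517008773286669300488653564699507258657310555779461435660042774709533220603150439683856532607077312017957438918043687138388371244929851361393973839186341577858028527662423252131076109998339749875286878086884544518946560486137131309225019160726780878052450581733911482948172919317395639125487798353563599974273495001238631592566768212834090208263423763760320848342707710789609338397923065715393061525497416571574854365951806775735330717690060467198328392622069516314916393874435287742458588170698775197959415146582997600041254298527453818403711208047892606324234306448392439000062647678954145296268734491629707533989304124149132641651872412124737667417382560259355193075485879794343044764094842841053468325518547402656907939014282496973005145732623032662525057430601171342478143645271498885862440342619888688917505543118670128456662600556558212943939318161554862360019458230649269666968770769312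435037451167637712343630981232593096590330682655109592710569035553444264013459717398607581142820801778942060395132928192012864719219016236846208543099215133948642991809480424227020922927551305450497321551280185473764575174448431575773157888533111943927152305925768882968100514292295012055404276328947104754944278244308635102475561138475487735060512223699593747619071569402776631613492115441229653756299527726464447232097356664716709080065883796731299966802712859644142341497096957605042950523924016046906721467908257622985711175210497390447359566286669369960687810396115602235834620026082837878731912739012489725483771673900421382700157256313155645730890364694781315252700954026662149108212650894930653306044150608852975662880577336943660204406810850820201726869444206726839983957428500364033379194678730141994457508692996969682969598773364461383610996944531814299034461624458017332803375432884942429898326829125565282039279805165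453136349416447946110138714035457264183944066800493560313201373637486413797864415125807707359898390748080914506187717408729115547152483280071858419078425878516959059442754941671507620836485765630007285390004089032699994821337700581254317691517923763618049393195369695563717870782487092731687720191007766061463820697065953949426688240152552438947955024713482978994240715184294547561491705588374412668442194094235939806369201160614697228936100570961064074893405873954049451831546288761919430561100705610388651828856797328099796308668123700762380006267427447542789825655261666707596548775270239042646356337682946599682845346394670138248497127702394765608704172494581279408366317150737452170043810129835193295156793798550903339323518241987853658084831597867151366726922872250666632023689191833057995929150135790722243583307986447960248134677136128702607580468167508730275107674964870066702034331357458133009232467777903809110751119237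829280662366288563797372164275872193134631728424447588457272036728769195674650244227278446221452342524722098441651481260056619737885322524128011284785536974152529547029111608188633874850478525971228999361992483290542977490399720130673807325154199085983018943632685981158070614060584130074315156422494080026895427929846045729178231303427967345411750674541896809234842562654388890514403752241707278273545867439285852545105220687150875459736482460607721070533688482299847271788696521457959061683167444532602411041779017055710799379028603327103908517805911763295742753311423893453319374894509904171686316216595452878454538147043124739986174436351629203845632070139582951908505522179201301780513059297421630635853564240301276323559970714022730840243419162437348634475322158164690100916791595456164481009849791190725726859729023146268016633156934734863864182783061238623589891681937411265178221443377209151530616330754892685860734382319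476373685714853149338961887479223748587173943087178760987013241993310794277254183674827925902871446801483541517868016221282502319195931296716664685503612835651791021885888765521640523085408768884413914483760974839033927335075977262050144594817105001676977419024417955723652448411472612311444084831923495430471014005521454587238080454705587702762932585959150341091609635080723860104935812309735800616370122946814588626310372459893138011028941874218121645055356143698485161715290868995019500618031826759048655306353971086870882079782050431062542034739203329107984043739981298566112782762943596412789153864117359897836890382962151445943892995600759680568963796350036230240720704960982838792460105836055854902951127139864450749670761027597797743194745341464237625045853833449146702371470181832999274084610431307936418029549456750683835778847300925109248491817656207830274197653987357542240595854346903530407046560435384775100141760543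242452511692718904909254937377589160267176994657796545472945379575431548520286231953065944646820347435360498274095455317061401404362740774100975083777584239497260024712069983652300792024068596525658771051028735503884673337119418198164178187503306223408004952033414633745201824856935912442304150624058519656867807677962932324128575381618907879681308933973771230136177124903854680061764625867838792166419971067177654873642088114497990527939630460021497072332338601242141893809721412104159584753633081664289033503163380175490665493653768215662262427674162812606501430253724302472270774517974173153121020440093173263890840462280970366591199383906399878504013885981104398099884679459993713824809455767816215101976088705386974862198783111939829691528115442694479504566756478764196834317185197061286625127751270541772940302625682541744949935486065392363569385421056398518900985852503606285251984755142992417642004079457984709933217518868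454479822627855976937707003249475260996413368653031484348367994518462009787649584637943492218049236388558302392179490607590666040575017440176303588562065592236229487233190221342453048418264725999576249686561980882973481894677407985467686784109826450089304834183466429399558013814297443618018945472792766391354627157098346174078552451838095598382533588677294236721271113148428011830537596783896678160576762932776366805090232135486394811338879852968269163956444399046526571619476688271363164973977548045008824387127678459840438108439835947951127202793654168898502962300188699940752175733645038860958994286240441037734742215784963879972530272800176972509469202555179457151710491122472998699578833938545852520794042807470692661282953560298866186827767537268836693278177419901667608592294680941749751156319207143060033764909224555383579911052087605080089829568330178019473727850844330562876876187670001954860427636858340846538726664314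616512678042114773111795948757549617073267470076904820311048393976834470094019377824698179635970099723572348559928350418793404670311400703466566676015636980378028651732934943854968587057002903233908349992568954353941528678029887280434864532352510582034460096816481142771869254104254172904232648530002191503368090224598706072924302907126645658593676881342576095890846670769228190435421552602337858164341306239259699992581568007486091696930174945509452617777305243615950055486301431959279228224720876583374856168167713240802263055680851784212072275790915354314277671923765092975084595877965351329888109241297709417780308796201450972627645114965195484366889178192360363178025175345939712356535659757774525388483832951083401937692598165087629968346714302934289357447835048799057676629890569517222617683439820488808776421511119972717750832201514579964435991264057519430499493668718475184971826313369130859380569440765088633128402293462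253738122206828190074174228620427203988583765282421377212309709888185768030881739626896439597790446690514187420792039221023406870113602866883902348619925756728356702466869176769933697224912359006104208059543614166567561223269688039222865987865730223094878614540149106157215076559977921069352219498564208477191017663392580237459635787991662341632255332698199650719604710572955492353305033391802586855753556487283398017101490425902116366289433324572250790811590068069646312958207543223778014157656093876884484952851626838464968893285677728460660281762947743914856996682284992601838395064696510040457037944533445829932510656302060417453078290164593294812137337671846428968597807635159034195208945085495690097014993550413265276133386742378915976262872817499601281439019995060269075112198862339141070039453872056636207035036918746256993995500713037934948003180808239033821474333603711632279582787619308232672248988730268887896261233091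158967630631223702999294022606919902394489554788776677009217811696248871545566741689579930077088467813254787087164844255559323278355116929372287438602119929394577211537622785294407117476766911875971123762177619462412530564042750434540748203188429034768556611254322819302508876403271389116700177481327001010109819711264255567856457302941805889503693501463602815821293106778449113079827688064042621711937619823202465570669681048069611805946462061204899019029812836672271196038316582582420286132468232556095138707935727530435959080459371365328202011915247814397032454991331062308752785090049341431111046444924557869764629604692233145703512987564578232059785523413610783267828892290656587320102301104185155128903873998997840902582461406158561109014317160732290934104817366794945719134026268261619277161523615250649220435622698172136091647778307558192871155124862905558283284071974595023077165500147476656381145788323151151148033794636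741000137094421290099414013161157730141151184021048689837056094511591900074041086732165765923561939849170711581166778971682284124856656588987274712808713189655537374654071736271100236228122776013565338496706971307214806976842459085770907395703170047300144394307716780450194632082262291276437144714341595006912008301456117994592147096804358541977638988919597489519954708455369745751252792913404491503325939743565864477283446068622949086312738678926726012454707712335351665694988249539922276487068790549600002563345097922954197543878263626915002842494398975427130126968566187390901440658675176803825259485520512263568652725077355417715651990204539833111142292725427710741981887993242675265910323050712092734195280391362258275210935824269152210719043719503986461429609549422345860281706904283914614263673296604387463139505529106797559498224727169166200585214325907951812332352129409042966294977463079713873193931213668182492848897791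868957068464728544631624880880743527258836637791436034535810770666558390111583708177869386320242745554420233337792395935045462637507923132720573934105905264299928611721094381343874761441815639537914378447818907923776356489552214186602694764056776411395607491827517761051189525883341438192422756303271894716373383757447049125283227403316092257311178154834116129345990788922034297400373719283436785217532791866803769672831364052186261647319446323568628527823076201417605870003709521507087747968797205253569000468165656064120881947850151076906361659903679386137950233811901543160014973681721836536794884340223802691804610798039707486943988422913622342547875847405217513497263588073218522456422310230558739442529601422115224055461425934394664448781698237937934995226131574994470689247291904441120082954812587514607190702870582652367237118358673180507626928649127910806720086016000)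

noncomputable def rc2 : Nat := (nat_lit 160091515001420160004035215042303970712298503037723392085738840611580375612842353185277822965377289726782029105232327475966098615713235602718236192558103873477856882242131930894800992255841578146622120734891842620190650473451108796813377286808888896153588850425880411422006604418067666132643262982132704882036818437831953051131572045605748834746563063932492400729444650649112622000855894757340845005843823957650030307372218506424207051170228987941628243346594153693927173826600126384919277456993723774398686642399834110570241207612036505154739189525194232833270209810358608726561433893060792145459731614974989935242671824358165323213078684311863183690926161812225357929896134336957804550089150325623112442693851161866181104620921452038570614492107284168142317190351295357091271491158367843330610179526853393273795409848621973369651185067442768340382946177322395437427244645838598936812647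500341649286799687777907642588565051007603829077641517116101397279366467203360481826430834422293777377486043658957793390842818477118999616203370377090842337234847965594411024045976917505231983321018933360550472778154164161019068974240650796020419691780499868214905703248026093566924133280927859503094365980054988738815631579665520793539799874179435903996651965016648233159057234746179805645765522477787670143296456978823643457903750701772129895855465323297838698836528204052416513595573357909515876136075498515430193849129178641756378947849626354377377995845343828403177112360697281853402013429411646029862312783622655240424239037290230533012557653750601506465749148021477152783389799140286539594343864465330444578076145282954929419141578811386723139144341304807387541347045011533831954771471288623914841097545093917815082428423559864139758969908819034379307406211069359425254967246148838541654108985689757252711856402885696461351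322089565718364557892746609989564660266920338768103790189397548348686784729124949289841059371610386691841324828839732793607823745132513472262589068421989344804834307337751933422063432191645804910695143024222685355520026300734191933928294094361808981087467733637297040758818933772061920127125191601475051260389045689574428446098890628887660341675273473282885045210889912198738351478212586556274615627794334003843339164171660568768678259253599322436051517602258412739718778403325948007141261668480362772603420510210747968100421336843501018626635943542405619097025074528682275302586889627851452626890504113345742207920134020772687595468290730425449623804809787791680949155053340404725593461882442664990767185097857926308072089334153827563514936605578352436042382899835544066163280807079493569830195471124589462890438262754506187616083455472085748508831207904584349776893554271200957829909969387303340404612549332614023172746262370934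476248910036004581843822696062383469309485891873457624401518481349591410404918423481194961244098552592396292049884975622227941707051861079304881970454104994109040369457868180391834677048268290089136168572787627602873561707278367833060103432110314811515679568459538002042921153900390451087221600368723622754553022962951252683286169319094363903979023342423560535788622992590106218706672277835334561287857769212289376535665382094418581375880146318402557998197744060359787715226608290118348876250007722627306117692764658745616609858933587839839810185407407188112461486052107838123398883553212827796965820250183268410621790100825337116049135030059978282853717382851082365286021584745046509563461273745407527836140920045910743012399691257771684987398630030965381585133606916958464636651018973326596543802750982397610971156260045692390865297889003733937720792775030591631411000875975640196528808468068425304716741467958603756755785630784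153109865413153035477025110757555103271804453291061983517789945903684687715719054394441898701266539453365230924385325885599666938030223247996971120303205997842663261066724502990599058142577665203031992343557709308166581157303783662391257221238125356926299999614271019530937607287623093578347192219579123218388433821036783540992583871421132177979596974970152038019283409088269047560343153240337306010567973267385325492678402366075617404116186079895832856557395583334156587372384703142943742585457037796972981001407997207736959374351317628251859565360549952833100436455629857346120217997000564078095937993319649804411464153732133762433657829770052503947659522187762553500437098597214885234961088829305465152449263685513162233315626937578751050614621839850315677030246080868594631164238483322331992054485000478555611312620963318865122710011302477311501016213079463696971722445285901063456508242615799546855805184453368157616675364904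450525420003106015240631946600144682174731224865159778411101747281889913242402486576434823542793651890050743149133787925516539079619000832401931792073358474818993257612275717909134286423991482181421587230014978479287993167061167112063710891671299477519381854893349580527193543141733848152447652946846475860727028824856260783758819213346207461370613619782899633771335690573433443619903749828082562573702772693414744945488406134899286992685251924208911598097637686444499031735882869419378979701481709913685060914147292469902925954509679589646140391199738315294540269476947592748981138632015786081062299583471213368644517175223438001780229131831296430878064032343836338703185952914248003601138576182895935512338286571953063327820424354810603199710413162169332149537793604925495471076307639202275833016110431335366640365587638761312648542565997932221123033241409445823494628511616797695313154555802541387260271610196072091912347440872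843161812424142860241831919863444303003071369584822518045095994215912075740326670328941508699068740138577395222986646738143582149696873796325079155528644972456758459447786238111000138440911110318773094752942042496112774158486455266878554113217691336652477310547638383087790418405653717917109216944229867835871604031376943756553399554992802807840309147686643001812410066344927037073556996176469610477094438256294239148429022931833769662031492274087529240775946045936586768655945100824958517782441915404292049961847075229065563362749942666046538904050676040716637927878203479389717733749133915328862708341049507433580386179087804004696108343245158123809346859282540854166494425618179159327786367276345056355211053595958792993864291082221045695906910767601957774995670622834506514313228674203035505721532336953029870893966339081472595770439511544346267208967975446643915249191661445462829209697533300734905961175769484939598634862658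445552234158961647075212240815620973957013912368378019383127394250101194042134012625878646090685953086488942822435463222648561106224115178289663857727846460295581942312969243571115101400269769724181432626043258106275489284344254489107369427389087257045973976116286251521454315090813819016461423595073521794833260041843453641583935468405168930135121890238433144036186230472828732244834020101618238176003317901254542892778850897161915518842098420699232667742918358448083180163676494610183015299728984252553394770171211265743813297231277175688396156936288603487156591786725432586677317281977430283149359163026652448211958236357991155739907095749946429886402946658480443318142253492929887576025031181693757820104284906653535836512882947829734921234818189335336050834049559451687457762568547986481956774546319255377029732343842596196544942588925025368080633534036865005418515334288273419107464872894235596876407642257312996220912634192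621107724754308970233221250448436889380484370599567894044241593088619504299947528079297205720331169853162554298266335251931910654585185235079134352752703052953331074443508901383189906657675352410411460265339964967294121984114623703623653201502158797082087754673528408023460096634761119789829469809818521417038927182229686886155648775561362231500970270495564173691397858462471799428037060463612215966185251990393647316935985184583083053691598932901969957617498621117340508796959057712476047069142606091011956072320100243089731015438980310023876614441838775634725943701402878409174847950915210208400095632279427081337846711964808826072785986789805342690442770627965505881405794578610989084402383020602489076806152483835137894332382183963041712364756804497066774793229455447926747266226087275341850798756107889074081936650422937998307978212397755692427331241318301260296781426163696411854432195117062539110691349553088928979533140508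927901924824279668410349134122587213265117900722977376579080813630253055019389513194853020054678212948866471452636496774573933503379585129491051799202795460215385479206123619376939555414988688887056333800244901832111657571171723584267047371550240410552009358133895062842493349928737230126764044827871685081690778299580722117306733097288081105877329994937367264910635458668125234061742706436046103229048490907062391595689190331238876497825229990729811567124540061261386102553653327859823700430627817045525576111840223201473654973777277593922239856351063870341766966971817898239799872530232731200966883090526104484683164075301261186373160574362505934700843382953678894405071071654787053986388224083431616400847930065199778148060520783551717728207994435570323656759199209905166660289586504855279322438465871994219002740687218568374455644266173787457121416996612613540182201370315777444755456217561912344324142027068593319407460859710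454705528117693234638866862706474792936433359458494362366348317753583343150141646603400681094549100178941030772416110447962245055721311807585577986762687302911217377915563730623986883323039988776706991659262700241264223289351736206025806922791788681048967776357334285027897159005102712643705581316939460303020185357249404363779643093115265110374604149659473283142293125226527337828475809168263721827907114546137494142013131171693260506499188697863218575465413172725037336766923506274806137223695635236153198359416549417379354580348307025625671636634449301757724455521722366062333907316735623448233500242543629234538500817484827020244217647905331625489531385473422293950986401397120685174852030326299662977524289583657805649234350057171299963344864677186433299754106040055497303522439454734935119141883238636209988497061033505799778442610809380773863428057282216650778588663631135910108167592866065731348836064753374564373353351679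203901599106931926104891816061842979042191948079947187199754084437547346349896717584471414410471429216380687024746013406475940285859954680057557734133812176020737272024289204325339732141378181608209896749770787176371349444954842609143909909872900250186505544642081326889988717771615505391140576885536674782607904012199492890880011129802250015812863927009542981894857534464690983915833613871507254647933362769266135076844787694361303540603985732605740469236440441932093112099422483026746855189247883713333451491348496820734362182711454553389721459289104618015379407540718853158206755076448203357884601135281608080583008377800682983735095172070664833132433827740180818235110319389140095651862371216099605682055977256165525434915951177317249580257820806502640610109800577970354030917491568730987021889406602823126129081677412156270808413764264182805441661524709224069700540495287862303714233533541156039985169767141865540380589307235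177860038635069794230570790628170926651505397362672405584215525114474619412299213774667220747206888469490293612032255506414021779043514202058229317495801248879311302274713698491644845855854677262334922446114665804510848016991770635482573913231497084238309092356247704437130681181189875969417756219429634446002908451890587653563646848805212456212870587693130352329947305289963120979773744626399985125459088560520528860696876220291809409900418499918434505787396276266952193485527478655046422472701669295188331889472201677126623261711521250711609947097441723332992394352400326153929318066401089986743347050647201017092328227605159208718690031576144141772440344891019206654455440384067566192970294314773257500670853498184426063101112070094773861662332194043711746588887851673924063970944987725192981139694834756937525282856193240678409062675563357134445685034723432976433789002169883601971696591758462581760486808769246183559411607495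614744300697098455799936393078011565822444959136906271945203526042524178111424575879305722950812481455874092226596150926811757214351063959301178099299194232875847633993112424718154449636471418080772828511709436067473218546233630447096206518276911038628278397900151981573117248856940294082727620973713552957114075833723970965244515135641907783320511637356496120563610171333894167466282040158118604932761694949150430867635398113971635868693718485079283008853156707308770649266114447395822283353475782891285481471427533240265934088344642735960689432089842449870733527460935054329597954616704369977869715280291892501965456721979179175951461998759191997992268755747057979947143969497544430068217086586411513141470716032695458600721933806701799622939134909363123882891373444450681018471051832470897869005726556814088246376801109961361750540159778047921168952293600335810001062172063530644268184243555158744081896404528064329767801560515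003246568704912603660073364405797876739783057526193714966215400520685255705692951542974467388355326241488019642946034697806986979888456612840683999694366965318382783532129111813541034697175009308572949364268412434511922384209372745399250461204602194440676852521927448383991166520967214903771351083991181453743255511883423170938330277574225174790360494013800444671189620488050245976866338607437612230036403087540505771564772868018389364876276978646078670328907745538759320092479633426062369551234577149598010697877814179057573183501246815063655623252355767382453186008050942956136351497682632230248072833714733298469421512620275700352729674035333664539163465079167050249394239197949211602259631036716287818717565055235640069755381804774657229901119698076390088329226902164643865586489761186748280385994715444686382054089520383761323670906665732909706662498840404624330891560104689524428962425324572637458425282699474894708938013280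727843453877483360434097217127379409682024118184479457144886340336294536568446422573818764949624806407560318029141020385518579779587071942593198408157965627158533750578097840355902649321938389355683392299193756096548103370699200243313092254449767984559960236644985428027854761493688303526835726698887971789815802246633133703207434206668891184815467011430193837877689596349334043086686000747643768389273925740983984771662129469080743815538094752096064149239422385946614051664412470822806821806133456180193457200617933042343583216140616261583286546291305155211917921249538631986809935202471211546073959668982349381594993972899203558979895631839287487335158704138076254542113669952973799516965113415620523528112131061390579402976506578680797668277610437789038253926513757578512273866884920240121511362495330008378806256184175632686836920841584967221709232168545465436531443253039966283685325052698063627353462252704204741454725388489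257761275787502154269652490097825780488005527231772467551091842677635409917361525971356874063232491194214718938903583595021671916254387173227648256449749339517306130010244699792978977238794109390160952372150333943498919316052782670488964542664543819042858972032255958016949114382330786219747224474488635690900057565738926048248279539777070867319335231174107661224177044755093306624862108051410291904659005436853136998781486028628276822925434597302495749121331672919699165949395826684016469576810742321508919707878556586798620504222067930740395273703905134060711821497066423608666267760763479246333178404738626392692782338256496984248594171181122657423313047311388078878466906483472146939134844523692876597782339511397344301965741561843695409823281487261758878932281362431872373971165987527893803917897279211376911739579911959889742482652935470402954588472931639950302867619840)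

noncomputable def rc3 : Nat := (nat_lit 161067551694169823067215414810695367362797389199400824442876264398345409382254795008063232788284915262359515522818742578870940690122696600965112019301438601133069065731396671956241024116079594176863039426189844447705278166454367732916637106101943935375540208112878237409008819432383453435039920945634822080844867961261679714433787193026098354143851532501711542683921769162423851406030164605718168032819515491105739143248092960750609673320926553795599564261027229753694983753472495487653716181756686979121219514832923479813838674121285777716836516996314618250305397715000112178642010219894157344675198827512683012958506556470811312342627926749143354575819566622013815111565685329150252753526704039316651740263325515862580639501026148766563773906556686906211137966368575468594935582579520827921076831039287901946759104404607196101934163538010137848270984103743872400789053316044498586382629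871462181311635444655995761752718176769136376299340277356450185104151872691787785740088353299652348242155338150725131546660113736873569686508284730904884640840958300408542559741534252344143960422074767457797790442327300076642397570577506572090054919548254858941045793863269479345748031798661516469165248333138363349137661042207534068931395869710996386479415657743746414162092501300644769236625565994173891019009420748458894191228031826714433877775946080607753988270325327351726750430379639095501698085120532846689697393461264477540149000460654268296578606927530779573436016522502061368610317501234787283993318243092964820965089199903332139509391466654619628182249651139678397471820930537797533614463397306211304753651257355601910627472262076950703082980040565464122947978282643928432844281164047948609529180330038224850026579610202489367250728398173566889013080078751786584544895824652349070585430309050138975151247386217867811158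554279962859482424536561458662334679225031048170079128277212251351497776876359363613619398738520835832711318276801273411392071454506980170298969025166346262057172280244333743295328761297987837986859052934355211622474648788691650681814814695471213048104926472570626007171251013354975463883951114370556786110465172895973377983907823086810656636814754085791070873417711911623572506062841871261492917149782446312199500450052706005910312887948722901010422576310670596838702869443689147763777275309767983378982214025877588167409198385927433099203755763872101472637249161542069786558441821759312676636534973842789751893091339748230347188453238771177570595369735384285242527883440124891560474884605722554304718758447016199649711758530229037559985043012500337720606206699850934903740939359982119199162761922592591984143659875993125304978658565993369758123256457855530939478168954297775019530381654225301942933536343621152890692860168442428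635017061809008447270381159688266785225536982228522600600973814357955659332380294815325813687245125486195397079471139207037994116137174755455558426683877711272156569605755037041900987563163201146835907231915865184362549790328089844544133487026766716290187049528937789952155868564187245438236253201013054297749213375803640083165398971393289794321307761606453993387399919478496953216384900982591951174592797642343026534807746844974636738289917094895508950568965128752301785145496446087915888600668154289791954157787675565339303049368053859205425710242751957360666393862656299263401501281918388161326439316559431751642565894241109079087962357137534227889202128145238411153972427047706222159830147994761545276624573589179730668976027291383950357828772313365120363976046337599179499917844796970343322364034712354744458465665983012472289442478265845383433246032953195510305517999190995008588021204108945857295849997881307116807764951892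050180270875219395441614716795174735914052459520358725235490097837410377423114451233268753527637005148943340373556637435783926108977711508743238929374214634184567049961990487422219469059428998247096345274908003464503881775150281715859359242315109999711097836597855787002196967489118441103672184776104758782546012927099757457606222121267802349470142625971029948162067021438720303182590402191485374652307762389842689817895093131773084720031401792508433649655725392937564501780902393161607259631901622123329188115661683046216171111868904068765899644214755277195498887371652651453146785424022508822952854606600444469936237912568040492995499738087687549468765329904666542291683144230632225741892700146140285015736649108569318300964631911297924522361642212224458487804918406062877505955462423816012548967280631041454313134319244013528048348690450939019473251060805620028557995436956763000715205384513165755473772895105683591630643120432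176316810688688667478722572435105594636705500813780984226788105874457472033805149019826407624472262731762702897793674725434607193867803162148558945409733759640999486469340332379445338354224875895045595403248064929156515332937910791112512189655222502094590144966288884479503263479945374000694354326230126462388262273787869014481215895441632119940978172934184082441720267156727008058930714845205389771071782073517589916198620524533300429804983279654158096504967045163025508705128581551760007265550126232416233639215979851052610875628978679041854561165824567851214212166450547421337963211934068252810700167540894575750070433584548494271563076625488490619695082027440851315112939351138150242064710967966242589256733731968752610785282071677166684909317877171995619700333336334422838816086398951828406484847568105992695008005246835596029329516096312853967410875292998225940335064825610796526433900238457344246542013718987956645614705540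309070788555783745677480585302270908244197966148376830307337004838295938744931091659442254020088332871420697282434196016111310329669461860252823218182485837155653628675443756452359597195941169252995001834055162533385551944849768031783186586406440179441953516680990402743330620849858732470987876485621305573059745732554016274607998639161933768716413956973176092881719362974505224936279124484280404839511658407649379197709783568787556107894499016301232056234179063483022133779697517965940423672773788514999188443107036842158119742372575526274348288584525708585426559665882023675186518325752249788069691119586960246528304384813918030673052571458724399174975498934189873865471273893536062398714361105210997097156270060879455297593234948331932530847371661455576702198144422047075888284632955902488928521403268057219567565525671123119175601384796964261176653886748739019981138109601569218994824266442770277533850959321493117559845898673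061697764336137485445879030977572873750568964909848050966650670458817491072050576306419861543094925364554104642465806857703721459467221683965561789085032569957561508095394531596835870019259591104917637417611312396311465058847946329879250337097859990886586683829660593677209427721559635607587775272089388008438489824915925892196837476774954632541554900310163189415630238331059416095764526394666232175657229794869482007738426084609530600260181882034704222003497638870540742738182502310074598485944338886260848726602517122939609117629384342064933096561462717640809158496587923311747633362290478926889742437841940921344842321054243468979360007160311039675594293229970878173127789651885411837866120152720087576842140632346600887732896825026674005581813887629826303263455250917351055928132286282976351014405426131962337127882966081245143394455056584532329062674052466807428093638650490487686337513469477301362596338089533146601730142293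079119714535243117836227004772311190597176803979156982960404767930422277618518341438194504247818194166933818113357218859931354862391626915153322232500665872288121622612997116804834369077978695028248702132965528956231592325958327514907511903267168073179221198678258174509436900510058150202128833175242481404394248401301730850423910000638810590969253603718871858383251806656159590148038737838009144419789290435910930951835654436362586212882748399791709927620534432797327504346196269632535190380775956152707522405897770674590733992686526389712878936041280965003853244944329129267247965864827361768544586601515402570956386235721411388249762123382840935582693009815353127914985656629226687201746181406256564970467011442491394303436379598066841049682700404384476003567673363766230137062902086861455064076123440414783343428555321905077272065274677429218518837891433623085168419120850505733123750188021551601462777225077162546842584235532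148292394954827137220026452174864104069810434426677652997115716197864130838904706469653218632120936881674523825201592852735981125948901280634162717783687736914492417399936417042960310558738895713552110408007323728298753634901965475395775432092626791911848610985486624810909861408174102383794806996921996946345559902014328798506011294419510064862382371714788091836570136633100396122692961799052917447823359814954604639477398497619859175452061114006511601713547174265544530421363708053229269490479167647238734007926690213755446778279139862930698075853656283076164401962091533299544031729553673420188698556791660977598168914781809026985302820174498507951614013399981949299423744822189459844899990742236166282739792891709468099868434092056425183412680570905063598019103417234013366282226225561074918075048324383800158397177864297239974277910813098942224516263265877796373675121391457527365410993373450886017671544355456983726136173058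024587706841105043946241261169952766025839920589171028670113531786368244317713763263506700957218666778501305052720414233229028310736096727621514256898467159212603877774801442476611457410870151275713793366266085707061096238979793982988189122982865338914322043935338224172660442187035731493903588576516614591096690637204756121585597074391629833085964397196027240403192384813688998195970076097834221293169922260008315313803717499973157493153245659392910843238013888581450029349415749774629310394952839287523811319250439601747288257463490873444482524754724911146892022355972484829890585017781271431936766001983365759038071164979344935048995786782233615244461077886971243040145710369152621700485768000924072576278512350741748765144420622989461835981705416418767646059319055750974280870865886700851529825856270692434879148073943017619378815731210986622946538922221279520510913022740295410341401595851282979642938955215463420407584723493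731447209114878658320952249255410378121591563880720309185877679140626168397198051521948421050287216681091205873254581913371084174818135538227007892783789317560520041661950519870044442185355045465895100905700414671669931295571014850871261052414106119242148316556543368447739803465106493055037733599267533979915875392569176468927779656728962384735624923021011531806758253120344683216248881407042479147104388351785639994044561583298625335724496380928497227230488567492599809663250413942727043574801591599175171298647323392729826396709642933238907576322598028224892030211486010445822510567248330234955010683851208845640612268461767961608809270483793340170192741932190347253287873544658537303805663082373017016333360633949725993583767918404912915171951648534552736164464005109784843452700807702796063341701782640279499903957558514862523104795844602367515410566743780872734235712968495570941433412172877826053280641612116480166512654378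805851622076922064209924418877936549744770939869471763424534088845533566018711034474506089897390072198250590627559784431484297635567639226404793284243838467009808068031592152688382853853683195275816743396284602348412534897442975562724811409256112310010949899121553121388070449951047697947912684395702931995642332588992101765111334918732783709677447442151890580106405858775097850951536964896772527826354635376230706412286126565179054170122007177688452123612943826743767010818008914845280156406633778130594686348828907397101409249093252649391353456427273268029004053396489970955867404086112656508869864284113291502376069039937526693779040004177662337645889610361615967532420752513627966227686717965628339761797463795601342981829132672910591451880144173638392015108091054165534135091260442112921957224034378484290504042504062424985921393948024618412979750986756411895796719151035943828608016399226152507368284574816507444261563107178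448372056330000001087203538190989903642686803494338516536905251973052756832093593072696113981698174339958647523923356931956441650024939544213433778442859328602809057316542541301759071846980117155502035371934744485501332836040866725553611739981685730922570486910133328641920233212543246943991213368340252475803676045410161175656669457765031809013423820814696773969948605844331295849192048820739452097877552881250631736959754957771217347028293811057141987264683730753793689921560877795469950603202865685920633217517664598488741094242661782376134122448811165418989043819161736903019832765272439569158702505695938767067796195770754601659567303010088824096911951182265991842481698182590147971016983576820826758220206786805467504866271263750315419878527883814438007978408404632198924998307456208179239042430691949474153461342736839178526875037418713837991783524508230789429796457014017733341673728205936199651554249958073765254451083022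147563458713922673493854423550932594682507602252689426591576006548543640020721668415212089438012927587556673130367041145543812758949498985424005885292359239557094098730025255447644738457108660676835695324031471731829090211493074229828817355665902997426940330552705905165260316848811455068449999830131934345923960066975145885636534818963985661772806740368985467608992071447824281401802040875697387041932192511312365223886966840179655346125124414845880109528967913946540449518787692226351552660608613107721427006061850637058689636835464721248967631861392392116304954889817739672813045138879961063470726671917933629343976039283498810961352783433786889559361341337369969426399743890582211536574097708737600530816409951483793688215557185705503931825720881229786768300003151039995314715131958191194648472379042701382605564559832255655930730799267285191800854919195571499963740020353222861161137463853689515231684147817095757241420065681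289503413659922072841209726341602969344874542161661381152688144781412119778481197433209590978728392656414688466483863820061916600598045545822598248520062968383780805878743524788258117102929266451098796693106797482421545039781949831576116040791278106936512152123069782966954649649022177020277376325459475085011703667877011655143982336747971154179547978316841385317864411719160605541085843442936898107097977090376147241983993935493251833118173882114025209122195820133395617213633799271420432762209282030023826774994140743851323256603073894745019745073843210773701595843651224075566564113641472583910260905656704290200894374201157646256357015043647773593002741647726419734897363809365270924339303175005111201153679691243935927141638094014811958753979784353719894690394615414383141521331456407243610063897903069926292650101499644241550462978003729315558693105438084331250312425348020506971425095748785911453710533766926722515001509933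604144333777549742952814479574882245562781440527633521443878787853800645394928725681532454184725606024323734347049563653916230584430770891535195398955328086734020745004463380585426513131012460236694776114210762989879718352106914815897037142785781105381760793627492841226511652528557627826707677088403881747123943911473467301891124759833513717157559007629546465063231154679636854750495163277840488410208641946937409021279584815675756301275852706439638254135933860610049093826149645253248439065685699026331511960054733441284891924147530074055413733020241013889932195449910266205603175250118470470580408648409283559670674566126241075706841990507032597040161333718385916424534902867284069137845383350506443849795940142376881430151494854214617205994973226243995267002817096982982379172981464657018992239813710993393413424103007861417153009960368794418600164993337369041735079952384)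

noncomputable def rc4 : Nat := (nat_lit 162027076996684879488792934085797262511802583239336380631994414220675923753550950631589061367453340699416538408293322717842982306801450788742720229484724001576328220666691334482227719688438389836430170370039458059484479320789501546297198939812549684629048950116089949378279620622924367550781986993119831082967050365459018997802063050802473789790699778401640994126842650363432566011141286583852046302430406237365431938935555840359679371412379776913462930954079111988071726236820635276863045634284171662202679474901299060418646988979632793619810946020839228434367358820902685220257696975381150563895764981050172950490245377676203742113114599287570584919812892787824309189473413337980356399095316502131744302691751655756672947956861790930320283684414169901259702110934425547555911652400044839401475547669027604283084789788776513594574667971035347167929877506230298246171501955786232617622345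522711859446394223574261164545850942293233356665502483419514918770280772516606815406555130520281317116485482647412881972760594516650035432110441576379155010965379358175651613968192410901506267968062128729210429794117860324009824780001011376908572858487992704924290858383538978145678936939267597550409440696548249664847879123149319460063627536934316441227395620493134516148836934213535085167587561340660292227638458020464126714562062246218397173634623972280017158078602557219461193900253424953320674094487423773713305674013239556640613663333413047448218246291929220125273170522109790686393990301886844615130999893467537339208131578053019945799168734567172433665565200115035668800073841962309147231504762197885382417936778714973418090556737428585027735400228181887745943006013849186848373282088255419968468590409714094335467931831904653615527443702522435194832338787315147340570847117822352835443786092025755966081325718439992151329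065142058254419705323573196684635069296463756913697102270123644953468303422391736311790671347838698840660863491901236134236418670763999536153607993761644489320977665759234101497788362577603508254786324753160145155262412922562864621973269141275106701261691209309081760140971274462155730443402464068101705399544420114626893472891971195592853812195351239655164661178332597921235924168230853630634304385672893235898556804254682888731541935399829819463074678041456236134565131389736141774437310461802861773214020691187260474875443696252258603891805329162123165001081882954034173066746310991771983485008951699770666854820659469129668647133052568198049511729679461226566760768569930401353129397719736277997933260632031238815054577023377522481980671859635386348300245882834737336161678967319765858433101353957984363774965960111488753504687383571920884408642534364110247073315449893580605884983096339392096569548820907969660601261704938566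376256456610575308440657044393858046405659632602528417253562164759508318156511619338251624172194523981543442944097422912234228145183808367349568885119803112649904230676573450424648554533609444697365364615751883614284831229947595580075733956922312133620821081549519484203834675665155820978598484898019794685307969873508242771070347148382252577047616384574027925006154607998447238451006925691343847139032692109418772405420044016790217945713378158483221743420511001465970769173272553544966142761897618075145418052214754652172020537974924714402618748200819819948385871828837698961410777361062007681890349100779984770790621539085329888884583809057933549987421312333003385132219510080582542345636638969837866378178843009206527753648210408243793732304586189407640699986513703387869255308168418755988947379352437970855563321027126453270762168728171951092673803585558076492560625636408106792979857676726796171885281218654694747838148245900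334603386715446656984605572161736886786954059958329438744409087550715607444268279348157923771890088826189830272300301458736712011400136990459569622615300454294657962354996917494094908531810124499829414820009647369358573476264798914796774026130836862778994771917584246903268388267416525417672405713867944486545576310083773572076635770865266691171312088014195540907543509018780698976100273894734965259422394069387162572568731637111633600534591179776801642350856637977635883389173403822042924711060159881168838038124331713442734750700773321224400357577906263779871480246827545186542828596643257045513355517200217880496716828665413424826348385602186874487298450625281672005798510328386610554056591150113123950028675393587997737697751051829717549884409597055495664442502802751104068749704265395721651170314902207693310605869249936318262947086525430109948674922743762134418392028305606594084154180662637036457885513174309544666159701861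363400245853882049903366684672040488694866026433413801621889519450163319206447626041452459211492163333426266575120219665432136344299216198502313664862364230570936867436723819684943188358179619259810771479603203855976390812766839482971691136525397604414521751859833046850163162070119301287425694328139955203824507348371366725732706425402914014236081036532447636470543833371429967761209423230664018552878226637308663816059467101326890503298384602487062146522654632604731561584687801584929947931085613044744298143025168593009306840591646352560161064783658144911584158085439427541850039510975469104111803014437811840557548382817160051144568757458636615077591534834253592911688310307487803997953236041819733155027441904062403148722906129436051129975762609092099590982657362776269644061278723466081879094218135690195914310381807999563871007485233097453539363756827848086518385734111694631565370981607824103751753718023655042327018739675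751374528421302311330579799056905103479394381410324374824718548737927900401972564270510332577726742934986328925163767591109740992696618635375913970734760461529084910163939427925579737264613585577067028361999747392542350861828305648564491828666014417234655133855102398601279707009142464204855285232105122821394705190957883715327571937133360427461768632445460496600576126760564025122440702484037044653450039320519517158108958750652427994199779632316020907098917420852397044643351801897391181370573404694866946708019189055025477047055824823951852420528895268150378614285045230977168974046019764812268940465885276660994935070791104392239446418535816187132323410540711505088288184911488646833398651204282437558711081324678726454518053807196603007893120822501167257162515258133926860787301908152151582511504653798268786802820013662751521674686171563532595563449898589878450662562272053173339556760098516490337762738495593289118152621202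509808739686009216643409520390392399910050421149617181122545397652561540285906122723122090330672194354627413636242592577125071926917633373225227777478977047499221919183065056257184359816842004627173044821246052921489832540224235692818301215709317662359050935431111756114173240424674786421651637824111112218874004121135191210293399516918027108013106401908634707057401570420418087185837259658416003464009017394500035853679181673663354305663014216084738378567479878361818878339965012482072068656370738193488882013118061021719251100232288396721054617590004329938033048834538331527356429326768570503087258160534134757106003998067643056057703098812595896081682800758711822351958632292572218733768749607059095778237147486823673866348845566084707206561732157256466078895485182601604910847997974871171084492383734256006221583615625622301230872664177869569150341147807026214768149427475623022960220189671347897431349532671760740982789731770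038920112062182161650156713355194896545116297610781688705051296926923455819545546965951100176634646068929518037696499159085917299118780742970199279925487169306321707632623325068208127984702391530956922139207290884172842535039536173837180308466335568850804807818169780893300261549310778963948961557944256278453090271576887690401393232006239651855392228974828120069028900981071055066471953623411100793998052554690163062519217361821954711777265308781075273397538082782540124048258854960008245723891167292780742853197243010728009000037035838304056486647463400728514302948861585835354977305967142806479526606332277426140281749459477989257044973329473193559471819290892828558932081167830275235092351301949528943459576525702754004760542644190406198025450541311785098952510763617341848820765525446241714573053500864057328070200666545392817840841656248046195885673503771561922556608371068337317378999636522160203482165579086469278192623144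707574287941511272524531575075700221590481883815301082564954290101666026146569687234410996870557551815365325205809056603578288314481270601808945137382941232219090512785305888226908979080561692883210037507984305840076745675601598390392831853484526962538742718190779675241585388330098202116097114845921574151378999206665752079858760367519546738487322023010226342667791372481237499033174279662071991405976310976925648487891665744779946903458815713252067089549626776014893343243561345848709142429646452045380057195047822749009241673875845198116320494685952736998541769189025740507883632601963756419921735598131513122378159142045874919112900200826544641816832640708716979149399181382094636702134647554788602641028454527858409497156522251341816467323692827088569943306187563195691076990112779881279684792022963334666948610390855371279321009209650469426077458197023981560320379599899606337549803129672982480494177465542515080323020530223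819981611685893987318959224792548278576288812440147582670668893044865896628999449397413728568384155457011864977393751202774229583850458164433509346135846697325841582251795852415113151011838138633254251181046721942293319539994216201619509878236651282378553549750439784295699717262623726599046582534420791186253263325186047334550157218380750755576666250163376785682454821564973977211578747139210983187738487755059177777269895254591242329041663896076279732910732850739154906299386577664108046326622656258360573905974732809270789188555327986106290409543463216734670430174658306706045285910547958667908092741625864331141142715044939852563092951181975882677330562898553025209696233822104001124387235477932362867428159852262167190402531998838076208443792158413087686865394438492684255840548038608990676471034352564894741197415231630665025844754586460842466083825235865981794244765217623410779339712930821402878324376133421470074173690665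137829808532511039247145658804952898407064017337830789944522608049309242403729984298425520246091490627253330045921423935464256243826681437167961185517574682219600067019597185660970655708974989056217397823248909068250645736703193694851410045355805511304837551640445621698595438555051474458860112787194880393578982849562960283671834181347925544100173754077787309323625947435592908949319043198191052533681203663788683748322477883062863132058259316409259672093730122261666662490277874543124314282145906794211154999996018759178947448129032425080192719667979150191605000454624522878125590698393141577634495477144335853065313203542844236163110836940685720894863125082252261906198402929256746832392715259777577029916240176619381956262218798788912905602989258983051702255349622790016643593033739214626166716488683024363322365003021857664342242610896597461468345113275031526181140990189749798077875629076707719696642958225739228535918474155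713996669570966779418590417652969326692660521195281238551489957552041392179443808114766832150124209741350800917904504775841503254478249022699466052862694048517778400354226116934960845533195199394881107245034628753692940876863389839392616885875627146861728893687745915018286476606917074965765863705289772792467844965557780160923459282626372553394307990643398886865885073234635484054170701436254224548538621912648860027509649770574654795299217795354434997648335649292422807859318748226728552746333407756470993570826179155572732500276754974985476260793544118435581646704025670765020012221546562036565651947546409862500357510191835056076060599638247969873815722029549640860158399925719214679600289134941222538507465666786435428686149591169571202636340559013683640879166796654132184127300317127104730636944294322230504455249925619144183493736908165489275070561503486793955815230753329480037478912636508056723631646401861684970120943247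450585594899988879943505566130542647994152703770950985639746631556688673040414450314893024163699316344783075281573986796037730736442910936119953086539974087073102162990808910706894832709648767963027649440172545262673051122207796725369478677399810751975320012396541949118536529413297891474665989280384764633789676607558609764152842940564514098589889374087623643894326541940230758486201036834141017979321326791014030258766039859405588311919454974223141857392632854086558985915236864678486849896832513219783270429572324210045373404372508995156448649120250462400383850305004448654781897073771649698836680869606329966372659008707728560919776446637911949523514764776731846570255099706825314135849952399099659778863333503177868475582474958412161028020364657599994239887223292343381914393075479981936641765604997914870627948995478868811870480059825497198607508570049139831411870375595143508288426734843453191933468978283225678818805780737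635849540188397636421157092131375862470791798118645249889950382029585724038769498299002647308691205334837979817938262977839882613781699041683158548101407557100958140904566653006006921469580001859424926707363725756163275830494513005853216189391285473224946364476913329635430980209965856871423457617179881525191083707800926236490009469203025062833128728175358793767837831659054338956867712213874115513905766232894299507822941303115745480496020370404956907074279914871695000231150902974028787812143611773416773191877118391922483177459713460142045470548334615981286569461220500231710239772543056762299396465019622467543821112862637499298439917973691344835659050993572305529349634002846274898815849609533211320986998622463523855130612295479388472123207246989248383921363706221190701613973660282906364622347559417608375314712793453426122402247022554820992847236092438806132447376449628841947212125801302679055489796028950727966601117334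868973397854766159083785186060273244830218448754161690837094268310580034167394081704281304155210127123312265456384841035871668232425656843241692319286379078679541749448072339301722429439303002847056602836056708440910879604711884594221283906364027783968904860870788984083612383834436188068214253247468743203128083917522632181972502326307685293666346080782293598606854699348856570115966360194228910137361789161195090036459959998050176270426653687766082148956107355342454026975938882146146871630900386507577458143888096374519779402239480839881218754060693700521543283341759076740069990997327448763671125634356497119572740122659743953101644723832217528672017674855984634744916744205366510565984858854860894519438881970764234738028607103792609282749317840025224953670114440974296830020125742777760618060287480673380501124297528053156921878324122054617175454436445866633003496563125699374305834932131906982671313057159535765357081067218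916120162268693281820488729923596174438420964586592165282107051837063330782803129317589282430339292318338328188357065344643059800033148658095878646712765932568023451601257396218496998967717603178963216372201590459427643428180136188477610628523391246467834710777507003876502671670755394384460521345287181002557614504756997093542559037943380837075347441080845843658895323398332163398562390600855735929330568710934293306009236462561554798076896777970893301489690587886151039815330869948317179518042892731605025289312550789494627544915491296705832721732240711335116931922194775493256909578369555085639326134080068089448232102844594733142070845994082520342690934848403408279367589570827772384027361960422427550544391412546048596095674452324385507084482455761750837995513363750597266031658522104475168552627994819045093438706521067654102671017146924563419855044656557320907496882176)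

noncomputable def rc5 : Nat := (nat_lit 162970007255655196475241827428177476323315975085525011935958736498861374194784545807463659520139145279220926120715089889393691579552646122905970276286436223047106349898136067133205355242613271163039113105185805030015434120325564204427865947211084787443186344624848394920255166122922156397093697252511057730899613490993368716350142923214531707973668774142456134259406783437661531033857427188318905892021389019899722342797929522315559326779877824014554353810062220046578880310643764690039896523844062401204797760961314137896823427701923168628075629035314984143890224897894783369846741372815282953596875448699907794257667028065673480219835725561689053408137040566409871363805185140633310433061833976203457793189744406157538769834543481205509586515211631670180016098472092730723588660757777944491213610897980685815848656827859653257102175211900340654206666629929231338251632429442548382013560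019642050931459635613843799127930427762908044806255249560454261744143166103251477880841091743057585783820220748142580589321843202051270806162839106436249492938260937729504886359888361345182207596392241437966386538336573896713382540492517598063587928808689503707774508732378899580049670962063893414751501763016112920079666726670920648518817424621245421364924173357868879300536686189038601608132551139327085007784195407965986849650309651139752737418547834505894465284499446866523343610761714786277545574065175353737368778334427461472380870391819884102735700848068884729995157498872702427604179554900514868949752455238807463196002767043902896525804802502118809173523867133311462301890426581534243156434933641399346575872706534404371318526435980938651174160663081343665075781264803624475358102916250294334067920886832644575719733751624438531961571692100216570511559303133394159598371396100852101271418976603508853618799337083528699976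252077867844404931731074358294916772947442858156964671550048955479223478807123511470055870565572797675138377300675640914418132428110637940720313570907734427457269861735002189145537204197567080336710495124637526391067499700311070252068977268196912423693284682320973640792926235365712238210135145399187397730409152143106321301389955790878910204221757354263709442078767724331903585479264649728880707930409666014180714036607992429993860462108124124688286115200313220715002326045765811093980243972731627798678924601442938422142879673780070852602471164311009086537815428549534643668802806834962519119608983511888277434054534631340522571902517600683869856611715478637508140392795228900330332113249474490228389224513405099206131589979944077324626074711518189730476657267385098724657921221139033849504446327653256956672081391784684436789251187202484820923586343972434671118724961702559563613952575359836325121585361674568829938501515551450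738314619832267884787457087686926776034489716807800036368913850688006126709545763737539207275406781399881568670378447448849477179396194334831252161123471493555358307077556410231395869034379869230361615759749233892882332674236320179469373193811093233311881907124609575582668517275074775667167511213182532834101479462968178777905418000303120688078941340059124339843423284300210359605317089604957562911978456000678591569907991775705787107425611435623511157314352422527226607779843914238357643568292503934081986709512213880313463295325339400816142651616929865341472934422165751906902444986353728187597078340331944035714754455773481610683407358482624542080690026972147407484534282652552574678709043231746253606640425293891664162998498506262318665703325821040687927303778655982903939584541983355537866932691844678972758151913018576738497704799075619315597424230458416717137385764525211663942235182560160661404528872301633360918280892261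988686270727319658472238476976725901004757237443194282238394932249960729209707799316838298506407507221682570672944243118728206705882348312773421892403747183519249859591649469428906262862960804975926778961869096200216353218506544822559393279511247141545114840399833607812814780590090526089486768160185209085141923932474307414930191018429373451859959117713114209421318427505874532086746790321116459819674172602224892137826006230065888244202882604610440375786470683516312250153996314007202653003444235584858507242791306429818642166632870388384638328956281268775548521886181935405306065470489162638374824380866433908110336521925113319619216459718925893198988429591603998109416955621101053237117377703468713098442610214642190021621777849979291606496150546680427383207957816370386875793219734274569155517105686176832918670427567643551098428453980483589532436628999672367501279737089214485585802831885998843289262148949587176523518913546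847528514833005374444212424435466256944986932754051731509782740628610567440844032217005601856072438432799888600740493646909779411717425212470663922046752603645567933073676522387366042201767386422515232906660880030902132053538203893963217429662192019342094763625686464758589686726045290356440380011682003919978490636377637284107437106971604598286209387466392712431612395874967215031078521508511740148168158970863590968346592218513090306566411391387589158751190615283976752616282611134574052721462516686505710410138479768427488691451956280194725044964961557743132473242181550500476459336784493496415280293648798898067305866364091201929365836992989299039384837840476956944749241854325963734925746337863524783157285812860084695105729536722194407382672802363209411024558016897296882520968729281647313420539959849211564323005999822859158573067286541120469996074899310176904922481146332752806864934753798053435586767815722772673754966969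005758100672336436122286291327272148522525407101419950475960930787767312716844952977333647874363333294331486348253806659372662029543660574471710000684158189733027444807172081243862301797579561152339175101934288809987505868134020862426149814474219034187833542740070037269525123332899033503458982177415491828335476736387729863521197832356972007140141846148283212222645542418844407264785376942493773682060723161272481348667934276898225718796481031923100543968066979966391614874328896295672997915767057361403634473914908675402787232211415746726961145289040854031561980797797941361540882559827106980034616079771420209545363388677635878520586177594446019463237235052484017501273326012381061835846135970802611422950612226222155364062952026284387833714211291529823579211771064006580984290266027530005038842651086422082840008979043440823726630425621898626117092245684659029446294449709282945205932192295341341963210678652331419131294754877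128531656826795869815353697905159317617228450401817480120408727709097511899680688460068508374092014486866148516878294486876838776372275827580140836426188778148147569691972535712680125641799539562899493296639077612428701129476709730720409562932058582220145405005877251737827485102539630494496845464322239886776610648289516214149846758883978879141430177350750463360684819204485492215065781097081482421472060033790364143573837479104199979102109951334757172976412855331003976683973741391193991476636600658436790494216801201015130563324169834940128795016599489137141043900057939395207568676483515215700223211111992180443877790406509591405910452610822289786595779001198595902603857498973886233229507030821810931602668473732598193289682746979342815867505733103023152477828054670306203466311447004661182611805218594865706802576175479097186457454718695653145123309479624506943063490829814408388505558449478892517966299642108096915360572117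958671811642268870543670581236234745990738945691245717384219890797946640863470241537169996070626905455220165702588775704488437271105745786680823750652504952089185239835965954550376725630566113513116412676415098766636328392997374838384361400636743210604983788784813685094399560323728874591175959231402130200171610166320892609995603761328887521987697963866913380420028377871097872399216198961810921284432789831241151492000095709262730719313049506920355314745624464354059986980507675208442945976736657540406411948663453249422693528620522251682405968463486876902654070474634024254227695049352921004128763956271699364444940357773063074192210263196853298326039651916975721552801962730336825044280052792862993952659295580359386796738593921515204422245065706288952377781556293531053758508077459330228042061397557943193122000977330991370185837098396014527999740307130902909800543868602435658494028723066366977754958672646551289952540120318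699648342100315668404182861163721624669646615830667242181353862238309456679297177907611838761906639612882413555168385474626091689129704789470465962235114590635603672691686877604549542352893978125770965689764951847926580519166378814769247412472944749289402301103560638119902519042495870445431118515557318404057525218398297545049453399268813863018392144902428613390731422453994222647662332884138113124305054336299796577112075549481616911092631164268303583758347482702647254560949904563121602958326776877732085348941583291837830466864988955981416967949412621517062757562118279527520737885633545542116527960777023743399253633861877413635923172434935106311137089974528530366631860904319743236430895072629004020914320636770601064938241310714494482339033352205170669541170936585407717105282950515534302303815793545827466710508406847034515160178397019426096935953403208943122376095280301265174782049834632179095336452572760898892917427638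974129609990341165925198034968338875676483205911693939505385151789597070199592408506929438305985363168448972456664814027291068912329465913976274417980794377879607781178242924045045647602570035899533891860969314097323984701236763784940942191792417792435699903010989294643378238680011492959500671303849007449591096495083118345841057071655113795827502570790320058585016707175875242428491657905444603710597772946473017075529262735459613012769356557409345657924773895007755192057895576698671926537873210859585764497452348138924827539139172726611816027661913917877159280695720845610099310696619134961477301467633824111336773713888936797094251689489322918755232519575064482235392038689653518478920675811696843321629683201849226609111789608677053331651973467563235155657570745855881855600463882652653653434447883585779719626728176843443043774236039066692057350565963131236727632551796168061113085992244181842666984078911552507067728975086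110256931893817632644121671451971538862512720465115991746752887286703740717476412844165416715705978868644446046323689109316503564792771755855884688066592586749782528898945692339686996706538368136565126927404125922375541057308055599421017253694856091898038989985925317927108950424819289899689269454282862678760932903510271371533654452775431057046411002172141059989138851129373955838839260392599815434960181325397029616873086952820841662714595299566708848806188430635162892155239838088473137750879956928554878434681478459524737804904351424896402003024393097250031102949927298364630158401172272246067392067205947328137649025005150136523927008531076515720076628111294958152467027071564897349493742192343945096151720084613160218844486739462628997891127411402323464836118162026338795974065129211057410671619344300106362976180413097481401984669973602475511855658506388441875848256969678237096550677783315777158361602247880146410252717134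512525878640960351947521465983220820979794557881390693907704322777502674414800308179533629541155500462508121011844113721101408341950794913851376840877807860255619286858347887891574880262630975905301841125205336228030177989346084381348794201041316409423042804049359589550855493413462276177481575627667488783815895004248156264384868120758350689662537542678399960467736218430224537859375456084266056638629836939252948205412143424754582608321951170844062581154029466803807165227281485253612530215255826489622282228507343026943350130715745301321136580478893072622133830873294287094192001541277477627469096777185066707637452341225629397866426433909284170496859280041861639085952284069669330027182466070220907488556795184109096039457339519623423069603136998013409323119776531632969085834337112979632583889605756411825643379591255211431869247888755507776092540256988685280343516789049123057632439548161898537834462035698231338205752281069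640199733221040079879569609520439734730183399227705523398631781863725631223814214960154519693749492955685370328379597847149086326129429467023665168186153702236977781364804293387892957202493377304981993280310257970536296077079203201607980676778879522371538876229478371932883173345020276452650456232558004147736209374673191136885405917610863431395723159579619842745922167474310147424119132057818751576005230178279615685992083962820275090718072499714564455052808774870294901952728438339372824965857352351402376256987709538176850234202890546087161902999826387028047524461417367389373651944961783612822994957111514221546871997145062586406662426893110771110553382923344974220969524221710737719848743010658866112608797199190163908997800633028546601255814268950451798842938064140005151678549767064528247888255670476264861893754288595919106388555846250113204613836050378780474697053632354230323614972815828085263691317036152716018748136118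355800439084435290888142769241572689065270484158327458707673282144226271924353808428953717720857804340203594626606952493209917823580504639124439295281976502391067011485187038889195064156792712865860709566637185929782519820873287283660451066800884508135857935701070976628009170698780657456292245917084631945341160814920664413436583418384230837922186788352422963140517576821211702069729718545985303663310018762883417518156656018605006267000896636857650918820707841118537057301569805036455467443547319387978587290790684877901313946555220477734058511848671568486495214493925478450014257031695919472887581283148503842764933361117800859178049130056458518574899954288404609911605223724362504643643883554191331734825992633233301467035526342632518563890454506615526644849284593247214232621879280630821249242886056246144970330532107661435973801400453253761075803765732084141936999169229866383907496510586757331845585039525580581904099450502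656785511059342604859808461005874342913414149540634637877288392199959339333504911802439219916779847775322272046630331069493488213101329385070713400610956419085308324646013683092706561091054741234874365276255111650887954137776220466587610804027344979897171053025437620272685767657227009550828648701532644919287574417233431595733693752653634529993849551816111135195321531875966217893081705404475979382843393566890705219059023835260378655701551624761413424305058029626126175456924813179369033236796527557426263831427166338589084206595099948071197722858362669318932485535868562677216946700370305754898238944447309483104177760255719389726577414809707345513728152325259718153566241849115767931992778056497619652757169134603993355317670235391989889530167939059051978695647711884713100532301895753703564923292065849686875401623546595883881915817518111575547010441801736217339019129874454416367710825962491322410791462898388416256610282137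098443454740156481104528922526580545029115096488054339787861978216488168454164009483953823614397827705601013795517024681380389073327504648793207145726495937746139542377775191489387589852207417083490348886193256108117966605270139501066011083934163148926940013648132744087454462509687369855361483451468624904388984019038704989764118162220226598567640762193715833870665503776752898284655808149161140435186480551365810066361800894658760492637076325773324942058967013757371294545691697186233221712785541728386714638204119797491195699635149787298469205098959447983736895405947153157759904465474824156052095072502342994579477097371791818362831062262517611678219197869017638639038797416591396462575026083234900375781681253221124131367921291205519387333508919484392183123415115265312747575746106995309739197231852424057821960238880172455011141517141062202153256617639094023712327860224)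

noncomputable def rc6 : Nat := (nat_lit 163896095009100381133461022840910879456671295391757049427094591952577118794991841038546679575517996724726477438157800229829085731860651764152699810198035773299478684963175021341636833876093287734915412342890519026225388528565118008755795091455550219975136046005048304223838618610325349612865354851442583554761314915912132929074766866233538147437210051131347063731503980390995712058640415424635078791950386047009819621247017454686853399486507609639669615321799799675396285447420338311018719494143537201636741878127954053925658350037801144851788132404760256451366271092137723417258871299639308838280095824805856417164337764178725742388049850465490118788644280842188194771126141800028811834788246099213226559380409610832328793022289806182160400510941578510937934995264488269141963684310415492181449656324523622671145501508129398167072028792942381360111778323522839228482292729982753201224912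029795599853995383964547415417170542276148425273809777939973567171689241028605272228120205886995658535518353795996337392310504613751477840198171979193075717003785675950343932746190519901595152219051812110070387730253303252753844946204988578086280302217954671307761368274511817264982524187562338689226057459638555376377262806536666649352870424981652726246422689736361095403343507918926375241454337863793252263794037564553962264101128698656739706079249378633421078943419038245173550111099965893608717140362282578876169895680756263740604693286214059736783529269517802853632916517281011455806893231128150525313973263067592035645928593624821760125589695644145248328575480956318557904827539186217228783564485900995293198580551424791349106759907377883078853790892307066275749605766576356986780363155674629870636613883939338816437179109581422189949929006612103956229292912288005994785766292094493119362428329561094295415202949303032884782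971766768920091218869016589164194319321030430537500068978083803600678162566853874885628539557812952483889651462654648709949226958239969573222851101538628794811540495158031298067383259273436235339295758098317880977589348623480150210034572165693987067785550034919666938112327090199980320623540098421289439552927664843355727580147109938636771876605788152279011262564623345972287244508886707847826293029591475781647159433834195387928013271878542591112297043008051641123605705334352853173331722114407055375457458976352966949136991587306248851160274799935632060384415053314853241180620802632811236095568575079443592007393264493966475930060828794347249428613357132350217665796100698621350043092912832968951382952874872506113883313334811213946830503646283007431612177984614044132656156662090702651146976042359491542750612581876579197512227142223837391671867449027630974143537666141163733850227229609049841529603922284188297144985662945425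093370067190645151896919164483458106239044124346134322790597886708162949623141437582501755267807074907812978630641220872078020358164521315512810596342038464693199460480500163943433285229471583840021848472391916060749693461283442852712902484299077170854251602670433638714497623448945642593742976202834791594083453978643506294625553720372028875933310679989950556420022817320502754447868351179188464644911070413037187471486686683142011656573566132808287155818980232702291269193119109939704380794601065937443059416916274728179050326437458725996512908425331459723759883288343042494288282303091182997310396105900715522555883570787940872621543259768808367548734480364497384893135201348921559367145914205257382454487278974762442419422688177396224753271411844751347157575082262884961503717294955467975121968365728674897300553346313061054121308943292330012742925650334329729901562099920651320351178728314644025936395957224687667143153272056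019283944482446089676968019414270706593226506074836508473609816573598701623555539044560191458460025509466754780240720575811845476352600522831015032254135362380209712317543656217398224099582571439927883928304706462750169181381595437366401095893297528174965049737404901331912991467384448408637695188182272130433301066934950205349507633160609342622926776464444132452040190354612544606241262783548450839360491537369758056846834751941817820109026916913332406971980882295882950682769860714231256589304589486956904282282851185353502352164299402956989564581447844407784562816423653591157614311142009181503705803382850048538784226271048580688213971871180352174841994499594757479900386867438474585549908284591812470163970900508818187007085597244233623517124492733319102857274164197612715836160915388081874826241187323463652365342813102299779175438016876236255055343830446009902289223636012591744881127255417291134862040247307495610493156847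182840527690238801205539537221069069658772325207189253679448162816758445584111978829474481184858272196370814855078329722727816986385698982131807887419976996533410074281134245465932775325967361394118217448369644912372576655496610996377422636838574796956385414930877064473835724501006710136885306951319307387893744129227216038640237050489223782748831934493303593059687330078622751336197138534957063990149224358831518289562279036170477701346780015578389361801990024830943913657889950113182030180685052631277306420633698925278368284285542553574338747544426964793582655571930260234761349178214478264479520528314504794592592115889702775238104913557890449308922168643719395072914180116726676100715208391125962122321647105539048491115880841735573957238524569422421082438638010600454138648046059724987734614977861456345426200424310708956138554117212958120341327007529397839414471082155185714379106615217659678772809520261642159217491263051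696700022765476635103673876303148529878337662150505171132659411972745448165641156396149595463593368803397223734360946621901510774793239832538871755697444595132343258547353657845817562217135139018912500515209089191175008568465075491116697765331804021368946933808596327977028641229275445852634112898127828834350672688222779468165270394638451426174151856745632658352717581823312116407147548502884425079046497798200971015370423145190466986731960712582071164177382237612682154488987147694330360416932255293308041174535707550652639171915577409033171970303866379399205755887105047877081937604656533485343693833443611866639730783594110415418006261673047963464614379723869699056230196530376006981824269707752200368621914411008565616015295715149790528069639885660831733271708652739402716827435685990779216353693462732282751767183740447772112902326243941620595071337523684066570941357502668833201542919215459087348823233572933339307327476107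846972439690659546565551257989781847739002455104699837126327705997205737762333546978166961606276203533968818172302931231248490838801722783579730543931115651982996071162568416251238227787445714959504384417422472886204727946071014388687639811065742786203418738352846265589488020246392032848827524920776909710597455295720420763841663414276523663059453296133191713342952353835566977781959877740405993391964365233304801725165383631328766327225537872242981391121363291661699148368102324928989014014986664303083466585790272732574945927310025754443620934214995121753304816235901034970236491840744349607079148117543173910379120017015873809359550106559973230502905297616395591772945583041445260918414091908574307169357399884004831101245149089525608076421885286731582878979402161948188059389238082137755449573423672191609080774790592061683780685779658937570041511517635945255472929800139843673235819156506944600918637365071390726047819499509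932984822891877492951508323437309759453634695074354835022386411239583662867332384021561892388319960374435216286784225292357812681883194156383417075930517839881193911899830570188370891896338642517217792031077718025709833177160963481277973025083896612913244743122077498222552039137363673826822810060782281173982712290268477108785539749793599715615064517799890827959981867739759954187459561790896111974100390709788650385053094669953294000304481508402493309995859352184064778657818842629164692390884508093337707963418590478912136151498835323931199627503372060800359651131788071989941298640317551887092191146540896328760824319498489789299296495918155438312369411520202795493116419579835514052751616562751625269825193402947835733853576598540595635909069344660054056153302096522924720441871107353946314705304646406783684169058909478622092042374831860655863099197459808074879060125163702232621143194178314960287851528466354417157686488119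144983317860057442162753495041048006029187849649576276915882939881117200360400360965899837774556811203795480388388060236347089387600627695691767955825560671638847851524747285511610156095905445981421976374138945670771466589714712239972554265234920745405084448263936440178907646984468673779816099207219406021873775828820012471604196191821274871618725267885920813057342745053793351692456271567759982093251692440055858117786033904094132714565726864890507065961094180673217681938448175481400754863913076931088118883686085511875720063930629312364732323270413220945371649145124470583271431416903314794722321277793262165193712031643623500625369711262832391071620788885053233610560665894003880384720645376531810355546065597890034550616798876399710110454697596689006135787732983003342417993528221195098133168840606531080859205485020539964547238472779638098903671900075738966703031352103457704124590794532599591139613998636645242593656200236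316972840764561601175936883678107034033528412029829490585931415232824958881195825133177509184343319579841923363169368788336537603543683775457434212136410113999050016255891756466997928973126727529793769043725330902276769136876368302806600214449215339957471160074658914273158970229558268615043529989899521151550612752578187778399380978406809295615098247839037755284058875306443842033315568996652103104632881178685467204817708537524320046471188308057887815369636694092054039628660631206975064849644449186235693079855896155011447498328015362569491604792120999964782433866833910839313921505820615694588565683931955987175874385913169945371934491096068423715505647187152584261658545148751583627199597735679217947984700054135179772686391974263490082101128838450592139686043523650432004584810372770925564506410202060395858795110464776186641910462766784999118758462584173741223559653682760973853653835772683544085199758161788031432693552362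211628501403261502029247173733029218062231611342819606457128563748919715197129335459947457244165791560773785606421985941928665728679249198510424329610939941560148868120529172869417877027350901136774132603043427492610694953382195686687614207797613367042610573459440447559427453593905334962383129627148699496370293042952738769457912094556013103562076344546791657659712879456995258553731568017974733948755260853130838820090862011337047555089915436140028099811427156056705194976631529640505193179543460148287406928719182993312444365643812245507015957470496441721478477824578576151808030173564808492700081154044411299318246916917367127139844492581710379408380513040120025910648619729681243776086164838475592851652479962456993450368701507209155057833316168905773928452770521844856167919634837405001458554266791060187184440656639115981684697231131704734802439744867320490329417409783128630134102021257455073840765788339238894984649904410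397742212249526553749017712348369620388670009424839363970942711893206499569686910947332479149952260654117476766334617615788307198391113901463375483010761471013529485367373606799478629448410243155802857330260650653442133155280442100472644364756409959024128433805220632097497444675021557575559207608549482874018427829993492384352544374357090673102294489045530914693528528895408658415213322426823835066348920885976780609137717851687060141090683815392983789762015344449084979307118544010491908730189749360819909540030821820898158709831442354860143150067232373111924153550298984413210181965442030490593455762006374398683242263636180339901693261134288713915246101955455485759758654869522368985307282037884889541409497966030063862883642121115065101367092584340376548225871975371329448125789644268005137280936790767401811921922815643334896680762646066871801769673672863285425681842697141153855682627495584020175346937303037440323766247042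516385297052885185205080088277022268734954336188740463478489613769245672907566099802018680639834205487840960693384023815157120993904449117796703187428091059928155197241105577857863642580689301244141528282216754186529272657597898970248313362355278862236829396420406023161056622974190751989514823655853842093303643068380968089869394219467313820453351972688788440885023461847614977487430191069049748854673969162224288509501536482439870927395633887916263021651028620043894516035035510957920050589023863342499557565936154423682089349503553384401643370154853956061660328926290757109074760031879389447323267303876687984940849571453724188721596478416034818720381835767926503574385631272105901845655814453601232369609923481581122861923142021336791742368670301946070627282589187222197110793465731897710772348705952365256192681068840985436715922333547742349602901112610305525936910892012088697897693456746975594239344794666270238780036660692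383857922606264452499885868384209514664680396402146491528972204170667573725622430795388756595193099780625201173199075042579407528192532061226375061620005426023471441196578923413627903379563521475272485769633857106817789743621625369217769692411061819761086536454083256644849251093542218378825186018778189330585802559963203151276116688706215003103154665375014408222493072914444260909248382857018073575650276034832483460195116795262506228726614961928530157845246700892114712684099785820507261250577507017261119885304407272497294449018507127351084237620777620123601111792624104368599184217491606825888544878846797353119559836999954041512350675742459186066310111834263208115353961689856374827950835967668243036159694316720592779655951318588245822226174233280826596239080181023218842373283840338067095228784003186159302618093345186263835950528443902173229809138809282634075975859164212744507531408877491466656738741803724411166481957088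334970074654964325497962340459722483576616837418167087142939916247796388555377848673789334343189798271658583034326083903200014116150736233673865162553345492401682458303844505356112945118894882079537662792767209315572127036178479238751513177078100527249494919448319308429880377056365040945472060238718212997747249303330862892676284060100754290673518374826833624806187675593221849954011347677932390934960800900406142926327219132429651153478435408123860281230291959135093571753569019961204976613848027741187739121247545471487494094110002144747277479490796516800993704651359492931373907029657285818540071167928230524409977042211071308219847486362927149713028970507362979532799181656825129990879146168009606937545487706362703613178236048530814118477258498453037936273109262783701819946694701228492629118657951758320586902172584040905514740933154998982235112958060498624547308415571732068063075765371965807160588554848605770545150406103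904914221725011790077452191467873333776568925559835476818127618585647200199472725697354641185556593350646430195684699352203638202840724297046716098447474650557514936028549644757896243276063430553566597084148286819544599928689964857586794172124942485040115363723842095195870103546708276845190438899379258481698855787276434152722515668184427628075824242943145421365795578763242899574211013365167319040273505042968755663961804253567974387229965143090958202926877053716503207709036972381760286693406250030928420450137446635624516590846188908402567439139903596150987115311601651546950990831195354757643860180265928909882176459495120815516954870684436089985094036869280466506214463091458712084062841090096532841063335254857982654773515151936296538559841270760520778642188886012657661896264097761832698610624212584658605181812973096153977005033681322938731862006619854091793203200000)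

noncomputable def rc7 : Nat := (nat_lit 164805132694669579927470726241908178397870408013997811156961056910754919046079821600548302241067442207918917601733432614103784122328728034466246712836573827295555567620309643949299566147678278488298768178814647558726756153910950014681553837437639194409869847514085186150801384639762463003939999167156043260923522133646767038610311027735494102779487267555372365320773712893771134937321826143171683129764323811169785269819745541379543331182121688030725836073521198151454198162611878292837808428654798383467385300811262305725658542636705298176531580848256062351075730444361019163076555652534746370425668974840767396568877400767555991447228075784604782126027920429007236267639146308672133526272169837815275846434281928302268527758346392826948233235379327773542707964733922315245292726187021637400792275037685922299438052861919677699543052925408357863690058066664362375043380879555702465384249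382909142780580833815270956429042974460429189879098454117253723194788264308101608750305812895005200116287609879405707762425090146685069959206470199321306190948225079127496499587519506037782074453501492579929484492071056940280189686004753903128660017228714062510656940619448474622162407646023398452868406952697353596434982421686015941359822884469656258808745919224633564689857970024072398233899969061158358751556516233760889118195667418899816217276665453364772044487663319304681780020636044187652936999795611042018271670545584142368750969220507309379932778739433180164715579068685709444557608482716255748225767854548540468284930869318712347364515623365732566159074820484559448444840774147977077879723070514434522500610537613981607680448387739861203725289389286029718970966840049522064214325418013256316303979191641831878073798368760915626428833976427636519358832793336252908356127018228399586950321436616745713262598543358791306823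907913761163082804295611409433826257494497286682418569035376445834418125356981744023712526717357572170604938856417194780725452168560114129468904018790634522407264779362060065174303758911365837226811343818286550211525137224477481126719194071615750609472003283752606630322106513155983518766078585165741135770712660335258330939857369653678655381262888288320070757078071912958800646958991858510069809928802533760575851241749218054516037659322785342640244354932025610824001204665818905285703178010251001395842671728783106367516817944565874338139835480064178283644398188334486975866488713757548032154557979475985522050085700535510158006525461604556199009735415340643602357608886385001520644988872227366106454501777830666806920712252745128792601091857467125620276530851994957898758315009912284114513520835217088850288575339650709914204362279680316544060864400868527290122353450455211000758843454744308794500214258534339719244895616808240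657962136166642464794314325685425631480446910307243554361528188874219305553566094180303991903387521273816460798592664534110180673347073305299265855924964601226156406098276624511778589922009205305573150466037673289035605927717867491847260317189529846281323319130038052988806056253343888765965393471593181233385400590363117791115320912724261248815244060101515267593608242876106789065827533804681871309750277974316510394211229416872776382051377320149721493070141963949995550029971926015936656064439111478745539310096972482199385187508426356643419340972180473586922121145788390060589870934023693771543565222535109564002324704742195034607295559191397011726910084032854929689168829630538828401532248355727963718762656640833022607981727721856748776137328461388684789084168637022890942275618058344440020979087410210433848165980157174340523316773005070777220626475241191061031876574559459408339211149262333324819493509035230204547866032796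186668357702198309800122038946056020278002139594217598635162286656035151360843142638146180456842437093079154080281301650791872630392504071458927657036203996447912001803149053213760844950518491343925535379149174736180469251480678996821022012637904920386244274433762846439805050306293723249507759106614576317976557763606237365425175850934948948152039228703762564367683483982451452993057740041078784172839089557645629000786047101127295536689558415231235183677975872177479845773320514330586130623620001380212895652422417767461383159949528422211707006562571814694035795515488418921006328879767369455430238286413550329323952641274725524836514485180455744965271110565319435204352886800282181217061278325942660377071017894250019226593879088073242499602059546123670745219773173473546256284460330824052258041069243515802511181394660047114957247338606093226898479179721153008059967367206929026571112346537615095965123939663001357167095859224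381104892209552094622815047572381764100428913995354438395393224337269238720795583955324556672260058198962090579963317737023453647236471266620418933883853869962980562697271894494713156416871646346146685909276890678897417574439498493953504778377103918044880094638454761514855664319665597058000791147324328409080907856331535214498100817029324964753254329641213483454945991580573216582767044211656806623746558737390659081331120910566005770247417542779849636754263977796379287414643275378461214715418895514184168579192834048597301596777486731059913280991967150714051829821517459580970139108733252321896978678524030157699487657561512391639804856317795549455985440738507231810069977944204100170573952163840646379158295835880951619295346283204111489389647054916667354215402468452252229675004487759040749171277218207776090946032661997686190670608969342551618826575712834678666286864129997297122911990057400242401699297133783985242379175242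707539314789143967254947268585228289069165005896845116587671915744381925757994496200474104549182429065172439651840686968035948374383030421474889615780240611852083117843627166508699591999154650949119432694442602615089509260358705203405357170386663801574459357313952838761949840969911355054863416737289616792441486797444141565712552636804844358699805568783261288593726534470975962195901129117953973929012487806286576923735013186150572051964290409378516350682596303601722823491526349073607961432696283899211863715033846769535852466966901239302370697487531772461733090474238683279864601868214482290678356466208094177022612789329105917010229955437825949337362396574802314313401335805729177781349574942497859101297016292411220392871091586601549931394059027633809386365335350975410554424069871878820225938794247346588052099439217494144507616716231424229769443290567258517799109360598606115801687678185484107472069242469282777655549377567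030447521448138001068519901463047238544099218323153525071753210550790800115018024375953358541666957400677262106643776115464493281076299866973120610321199294094773503667986958466774381456116445470737805733015172040976889923791392566514344167083059492450034935449108261990874872990583416618528227342771097511492930174523601916509376243148812517778432218498542727396691861486235780246580736738930757075641025006265069602327891795238845772308194355595338682401062942171869109788329425995556529638373697820907459693725611603779265250695989913234445939028323037920192591534904316896819958017929745661180881252477584316123239615198872260695190295023220789308602085801304562229679500575179688849186944230450558759994649442865623129589116529584680666901458944242670958384552991113716482722765110129871349073910230576703659670137187564916696406439873924937357184668521782571754804061647329572652934998776094553195144370854895070744687452107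059765819255325601104686149500094720468446638828757952590584610320127036264105494667135766128851317232171679322507972767951322516221044762255375185567238372073148042277868965397470807083668319515669638275787137161154362736408948562330073682803984486694179786229917832979837682266354476280594766982121547148636998583266421434000315741496466346869437253673252591251231639525272863201415193371811612098294485824426348147243934108633064703934067698888680739503440696682028689251123613714104868152349497102626804532794511844682709131686692503212893317029220966875676244097437008492206908272489319368748481847906792968752792738969067099481525711434962628677479622687008938500234208912913567616338364674040036957443377901675041721646644435777955882742194132536885157370996842871291506801790257864274333797457657038928658431853217998205279512618367086545961588181996193295577791907948813904866012133665926300335792947279351289202264311956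976447155519939440693862869729842217388677610278445800868516189847925808372714411180757532755373043709663391709388417017271773553336281956215402571883380382173476984695821549441664499735176729139389840274844258376513811669883859343030237870185054450002063459931283645582619708038166614338994012093796443294716940214476114381170646085512265182407739800958411571510082556535321496968272876166279026206737099171008831472930627023038368516385028041934219628345901548441548465456758469777761579912058039750961120519412736509357115989127807704409453930613534202362031411509559767158527649373089975272692400848016933794194584534022325598509683413911131094614889219810822367085826717939532396869385506313059191952845929383585451489756992375725829115655391484154020918249423281978291718702484174855427282790934900186173449904494702307824506285061424487279284727330473699019662540495691140735700686847755648114094415539029550824928881310154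355625354411412635873418220679992358605713818380792969655872576934790870932649022859147204856544647428378386560161854668659962388877406477847606516088278318221925791795617635998996809468988674117574726075846041174347447954965108057410496114845296223731575010040942588187848009461273904221780997910740179652065276848731334344715662872731721260355197739704147680477493016106527038778139385216526433285515134030202399717088159492547222235884092917947068636937426780335522017271171041673459205341746129613313315984634586395005501182731774029887610121654189189762639080789395727536071603807349017577032566213726020163069406030879638147579669251864394093955855497808001839168518047962550717987222868182226178385651166007886709374373555603010195309638509953168829230406822957200819335730242356412404849003245966158661223752287170749192059736129213398436971642890143707032458336883835129571974176500548225127892944785459818578219769704052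653205653478062690480215686694229589645320685065304960341306568845619267012956982160962339033664214926981464055544140753384185795245264476529975177988074539362666786765289462030675099567134443240322644156260799197289129876904396735302556898070443097440743016237150823923809160260134698273623807569884965364058112888557345619671883725257881582930342637740290861663355106868850666656185352991080705232284021158650787427006580101536028199241055052753030479025594929318288574451265354100716409987007962687129546956351246442841807638110095921557632745251012012157236228122721608826831070496029782309737329719795821517731879094315846760151434896032140850898943922062596102023436250899900319083627288436080350700234396223777733899525637795332641500671530082836976368697770533370747166164372352616031895566181346257363711572015050541514130452471966852831182723422657516588442003297490649643841134851703619266579630923070164228158071975289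137936803714197048032540404704525624945865251523591318889198744788256565364254333880588549626898583814229167802527725412446654547801794823684244903527165096897344957938326400811527458024827111329834507357421137086849088119663648522249960222128895516525129188767300370267321214936727091943190383892875513982755188404312293002533915178764043547939978166974705127227279667766032093493462670732341352058143949906840196204589246446906853916831217406708849309657928270041035114212168173926695017137574471819903117567746095080686204615103455918766173374775967907002255200280328688279831313497514292485061078476488465119635482969153086289221865106855714961322484766443153467735666197322268260176511126055904086829268557295413486411332684189140577743775248795243604986280328028254998129431554711062665441563699191404965269820029441565402873260903996796646999164961643957983690496621554237993166299925902966003643387902659245068711597572955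537939922713127294489487194856431263906430431498046646871083336144041876806461206327009107603203344991355471134598965901186396259505362931924163020497475585037529599271933515016639770773167047243098101514779475912110702789757027198373595746508455374956978984896456214577064747907171744585116827043542184547911936104809949308968669799136662098386420137301677988448398967363824444127633617989306461164200177596335700178423412196210675919476689555781343469632149120311683889348476394667077048972482314207557976180501175757212691617484669793584601697110039367949204439572787872024082713612841555093959809938037136629756255432142277634567197952432532663506077239380442823292650274283194316007778616119371064163471458594288267849256144202477244948396106980934330885616197598510864011668022252879324040889902611218347489331248591052669138107007171740546740439057302158792096146429331688815823619219623127500167481259338046346973065746094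017097397769485787937651370022871179960341642652248387277003947644446352428368138645433671795220960087638673507140567338440488069776380835475715872848104035244167811551132570495789241253871154514664245980759413815257858437988158276069706326930635921100991877563008688163889110184786849539821713973288016149850842735231374121726357169509624155661091451771514915318903709112439196104008277237841484166980704072930535842776849193557969448538852724979581659476693664960511041027572799939283105089100219838341461281933572315697185085258794135751419056175398079299419255303503277531517792357028821759069043091142683490427436677053478385958939228561039926673126195890349541728444518377351410856173422167945943530597190108281539592490994898786671394617585393689307900019179111436162198644344473136168684721574578573598234955264936528945752248449206117067242626065830438265134341447959282096930000104599388052922727905027716839021900151332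192146439999188533114122099944129349545177256026597901697383833677814647564761170327071063983125602211952724473100988950049173886186424068926826903442482942981933245268780791466448457659454468959670006448500729118123506954560979774239683235412916095625817806009062596088285914841190971971041293638067763217363106100347310573512503619250516806176524816011893813551119257944403616126434166553353089460141200619669602830366627159350955185146444632061562017207316242151192559849073352087622731477607241679333195837735791155235893024422684722112905900786424302329737124183752561986829010496770218962153263124835959863267560402594636013213145253378515573746738397114390068901927168399129347599538347294823348549313657584277595551343321816936011570374241033627804428362992229753254566924464084420339268259563380206917054709699252900976916630654667970634957875031405727461472338514433932730864332686673070967312499009300144138720124171906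381788577869117450784531912114755647364541716333064112994755653305333161261957528525842920899905363140268448822830360744854475937937780629575412073417078997633068447441589008487895470082769102045129832588841038943556774164773607589215770935582217828389382856642751975050795209096153547294980898344571753984569852417935579194125848923177414436676922181106590508484106016067060150478515702194781653323743248881652813257138688800712405628441016634571515540269060376062305493457760597943096524605853000327790699076471131504017622732088043891237053753836270639313125846339857789605812141287520732084095199214650084777204378063480203408681056744473437168286127566202632449388696851209094208505358173748769977120263056045381168782268381502606284652268046674187552755018704913456609448182137645771435466496322438895755047630181444402854089634857708445771150350619715675168959339954176)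

noncomputable def rc8 : Nat := (nat_lit 165697004049690191104278186019455676105697894131064420219819210593582014227836185404502302443471671682467548992630712923093839105098644338524891917936193166487245397728170720045352793711904600274900973740917744157402282252128881735514399798730234492100661088529004504342676761853534430593896623690414231886752690382991348639007783891201090923166296885837695202156879341854980595845522239748377956060448164484535202692023361872530282446217886673428518425657382891358137584428795910698598558971819574790732847047991864707323718969349205630989794223908237096400052603074658302888485835929109509693731419683360013235108806185887894139759598470462138251881784849192758025143126908640689464952567983191322988578584765686850589143199836935468558538998618054143496175349312886052518102082094490517612171282644634544722342662226632066456237466557843507272544696118899969099664187869402291378926427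982996754218007725873211437006166125105778543690771232559308858028686922556609012711226912210404374227575652606926578091941220572170800100945616122094686211830178120762432166002564898975869060174887588999195701754831846816546872952561877902218089312250414588699406976233862748566065570118765778791145981961916294336385890183943159744110350237038002518558333962124889268899202788938038016456258046398175165102349397275777638583148029963275800587080322374683158348453221256215689723575738933346009663503259299140474953011576155469070287537386185757659949634419353701550088709946699579594317443398353612164029552764605114927059136538030429211979759913856480608344240622932711666542500008007719162987193756146591113036545185090477759916556915959644370703701591326446938761554493143635009023202165471894538852335635576063748571013896602225594863947553924115589642436651989862564346931230378743510890842475192220775354000174340149339768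745795956686188036438483123297760580870594222325621566794738040742863398958581744702002508014805816174545417439760682336954312947671339657810517820199218902642409096415601822216270307641321696550283174387159207451500318977262484741812206008612781021635719289013896609254386485662551507237923683433751357971861451291128167839306958741223993081919219607061890422660188321980779864101940902030041714523066623517572074904124336839725200068514291536706387344478010090406098743155190517290443684874027470017324417937799856921273323105936099235701566556610753865020953914493986788196873657316699226701464598500314076704096939537636518819301609731192723546925617126043127299444076280982425886039246908157125125402875283633536246251591698834701352970367134273371775104334437012035653223207195940864548998582346477299777422281083885710890542665096714195230663991052383330469581208985592424683331174490201416905958206747449320109762536284902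183556770237178111052206369958763025308890112332813079538710230613385247287422883113666269145356922132588870769429792253648293299985513015146069572568280353898308592597784235015033193383828327576110562120561912540189200112805062755303992721820311671153394015227791007924375736988429417966610162256577525940753832931419788231277407855795961112457924658713691060791442783337482777541421153138257690618510483478726371233496651352747734718785716020538213034501957193873993348706194999274397978002664542670803993978760752975715755414992466711115180693973158573150654120323294923990799119569693038824086005702053685657573881809764135163531822858512170091159406126802330000144022567883501883277623143677803065929060737657256197117074318047844570396357364786255204800183494353473858978077191310710709436720128232564825094533159003718619677345696370024381153426981840659567108903086010262111365986309061018171880319383719525426510825312036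149574209154371888368544389515465110227613356996533850656672176556982232360756247969347174322152576900729671172059887996880780935270970937919599215344978815346554138441004824219125933148083036535191237943377788288826028102988470172194781470682203724625753234860824643366354318105652320556694562754329280935032243745756293583163535271895548854127230124279698076039416219050560112849813291663069713393758508705192559597894029480651985037636290997256584454377998463505857545436920556772505575311308539780558869112591468012786353201075196249403725061712487896543993902722248243134397161097611313747100951923309054202392267628565606558197762042221343360419975255292662524215544679961244661566824205004213228944127410868786035880069876994145670939173452946323260253902920349867901013833058982182973765022724467518864631344980667190223922243854622401374131537870368095030436470576907264176331773559800242038015963138597464655166384345233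112301457167556048520623606708328805811777203144830449386385627982788209461601149664909182457645113093597058441917235514687936391690805222164152837380903468688788082480580611166406879886994313086854205640924198724949660700243316345771499895339719611131513447954405223754212557160651953456303597918087413491027821581979731286396242096985850506118562975722133434775130392229082109599327336030757296762552521140582327295601399764557755579373037486138167379717070811481445678131563266527811447639192483781990925123133752690625679335679366819186684126937495336120518071398793512158237918856541990407585166040742199253923931085303615402885244386855790830830956675047994541460257330470704451508520182135622164863468496188345192971665392089189521884655967560941677621083891500671311901139117659741448929431655894600156240525147269640918505161795803752322715973443086759402049209551740506776121731166929634860714918543136433777709876459900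399761200480859036587768143393884000716192824282248122351638653667739096487551863477306567058599097830009962534108334685224141597537583620231443513777652817205501503367873214423798228025458695662381761368596458509495742788347698672271953457204069896888492450516453035941192312831940817835081883395030797106614540337921528614026158509580867936561735178247919426001236896739929350454371692966486839151323074854098601758680924656188167905283462163229915733235040069169367999901082519090853335259663536524902134486922728147748480482567733262618814182525212437973939146151474905247969441299821572388053579410471655571940125697616238947553897592258711655859828963634711684452135253346577521997095659278838523762192747458465991496723192529793436927304970506927447816525765956411802254281620857621265376709857794590654789890000954570635741088453012174196636960749006028367699814077958592290665953100642509841411021548001071468358331805228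825597759946590178363490421260698368543498441871523991677371286469303744845602218128977977330234688094497081618609721004309158879150915661264257353989795659663193567194698871264221042859149135890050672196944070824105919175390840815047992815417797383221053669110447265143286099759832550936790157516574132207789458744793834401713219063807170600307377746740908185903460362384563934349070186433850349655730541357906621003366337759010621761273184241151407237698917260358986345129792625973763931209937800061962770007213945494239283279245980581040716223766076630664942468076991120299152518341120208789684081630610376782809667930017520482390022737547419124449017049268500761056459072974333212585886300891859968805294562803110906902427922297708217100105231938460209539800699560590896139520657938010034501273129025464794798486886805004788388323650757284413227237626573329781786817241320366872020329187215496025252453569342134563095267714909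400130333364666825369750818496548281819570554650956121451330046142961329267355115215723471310404201241290155642251761303344840757867538181368128554984033348456061021431154774354216904848418351818774246115370536862878601839304647470079059896519379963284341722976256609094476265094756682970119979175335649721999845891212105844857282435594508506410337751546014936551223508737406009477350720511012429843001152113938788951412350690752345642878675354544033044026707941655465728451568772220979612317388586311505224572262768289402477772878023709762062143210244841732106396971983941767909286958998288142071292164511919012229598068196804088649103038893953420041375198072912630240035122656519798266739660034049318487362435984130959674987155415689881467590889663837843286497984684745537570092424763324105241097096455613129118992051687738960506821684635615544930001316706093715259862569474625867292992660230408257586161753974210754301808049434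248921673654705170913812901146531637031903904137050517755500552116554253462125889620055270782782242796464767296922865885995327199793772771541925648899217795032027735411266307972610673115016063181735238610503873958769011377996048426892418706659796887326486374378497066555515654109754097496588592243346612949978322639058724385940574343710274261096005617457779314180473100021412402182823957015625694858679273896831680121219718001864258691634459481311773712633230387022858139764102854228872719929870040443883647070104186003408113258856106917787340414006982249387653626323281427699710100006337847720157200434575488738459995098914221995735956701229612587019199849749578290275067632625196090075178984379203119626565361402370025049418371501240627030652585294958771593726357086667611226489167273487397745650178797092346283682652992480088842969740915842753430139195163955461968343153265144400984525393239615362773318947471114855062632813009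019978501720259315782184767348939134181286451150434856015474922943047692762577167569918869554066149290952198643686158277939556274219106907153693401748751934320128121939443595709496086285359663334796691392574573367740579764657286057344346231424659762206980018546686308923115883555046642119627120540114526583912377322970487056474408513953692819598208922472228492274405104584694727907138710140841554166384034407209449250733614555916017078427379441833970095724697882868690394568276611745654638212474477634894953656111355254452866065056543897488891840601188165673292740272893401218330056572124979711037724001313727988432906121331227811599452835425210970317684378117710867651153264283983493780674400518234090262380961625692445259904520658844800632865197989390946251257865323910809095861186841735306538173828077525289068432251991665450035448046597384245303350640035487133542065012297237703546604246867610125037375682789198240092641695644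160524410506050793893475764065743164341229379117193847374674983755523227527213654792837975723272110642533397881086062156971622054726164758664193236747396720911975189583488850829977550115683369301128871325857843204431414723232845282428355957988184584952441591370437199672454984066757912545335489420084124045919975572397175430002582197134571716323545673975795043358867454027549586389008084221707423773626032812203012588349346733862703833202152900766886675480708271012218801740803174599631497154633819632329547561500397961957827181575763841955392546157322169263513905727101372299197019537066299945287669847828563782857733096843044213087334487568986600156197394221816915706119979659424110835755075897086205613439788564686307610242174971043184345094064748680050395020729771822051416896591092261468540718513805560099329913065356607939857015804084929775630829011168047879868766092010743619006184539370777823466876771015972433861823494244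434287258982756285259529111749498402111458791776618227677908014963863574028563123316536070343076372470140607059202166831948087102723789599535070196967346460152011925329168843071049348822273736920386191091818669075028548239240235057731665079135954056852030205870808155140019278638560820408937945944452359560482203724153081561553433810309036728942469005437085461207471249376545088873051670976231516321601340210793282271068862850176586016549277876928812991063690484228400487545922712127689547714700764409333152798804870154484849009446187960306531763295536534981965643811047071051777569989085763170511273177849574156422693811530008963994579079505360450671742337275478219918095898603061905230370049999817061895409486858295865819234400753956765376997249958555077404438624178760228858824455067953044557100270399843961226744733233901689154077949005819413582784780761626807917292899476344465903290586815878776098151079467373081470005145160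401258874597860385766293265869029482679606120725309450312845922856998138672916811660336576299133456784605489416316791816130516148632855902725883597603641915720259799044899257349676876198891507181934620570246270538013344817878977796549293351790315908872554347221914382598471872547652136644908381750221808686347550300281033905161663820221626568511875428280743100615895569401766775589374682117101052949451914830715447126093075190229912422551378804384312090039942048699624859500353713214453384164172286669368753623536134717698092347774426580419107988993559761961095591685544286613704119228968466940397175984181274227285226532048264121170600952778520820230995678070655828635753841430270966082520240215745478181705346197524282300019795344560622537998576654547432270974962216528008741008689266821571271218599645082201989882870806669129509807236076518777487121085258103495966410075513791450717268923748937402868766646306891175972456301560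081051489850010754700171610894196771840110299230252709174909186181188939086170202954266592676657469134459610300330790088814366495516303823399145472124910820777614336496875485903112429348935449374545426712248653604975859701933546149465599148645725828272263889149234884042744069669513472295325051855978727162247429044672345147361432224556382654746683087905675852232165068932267906337323238609172322511806061042012137955671526236067632240409940928549887541421860431391429131694957654029455372927528730113389934095098673403027336919234983651096609361533669517464092116334106877718842266619945298028765328007464887887285159754844271296002833867697935001253699805682349099003065447320873612105672736731007787667260446103201579968262852173495821992083529233871972605452342734777086535464483255903185800011725020939444875049944256028774100297764250173580403866382932559981837286625720267690880503362662142483748221380234988427668288752177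474161696538639880398601777132355968820410877549068698939805004209834526031421110472746173744076879277269057821799852193356817706655304590074344913157375661570024154803732437886787539382318779039819242121201626272695306310184395375809717645006242386441570424523757086927714166124327632182729434930557653188692292870689077833709966389892259934924098015355519510916212724700951994006931500667867882195566434577808961940508563086684304519163806983806045343052986846545812544021094741868306897011591982003460208716562559250926034391191693041676789414745157725373011447696180001920988514959034564173410576192103700569657500089981374021845988957082215978567726881156113540605486230591852565671246249047172082134726941633578497309065005485178863261064141767394013964084856151889708197742728668504475740552794404505581161988140178816677733760995399255137847023374283401839094510527777922561704145897477116603794980751919083035579861287520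337848698072386266747290786279254313210010691311490247624768084687544920225721855649580345557540498095634399261543611520076975818744784778828441817717774104328642923923398191158850447401477378206223284322030791873853794551277674099598800430840528675482516896705923087669213795104192467852777438650651235711019262837388885334656414283861031049333484012903539566129934848688992816802393739933248865012324432135173660701924324632902081620597949824434864936518252888374844022696506963654328701573025413592326406072282171419758933007243535628395680391697934376149536656692160055696804923549491753109078789649011110377168808003295354797608878252570730352923738090053701588558636810563937902853202754659046808641899080972135591063755670166927479552119138645266323222491042349335808334726231384212451790983493725664005322633188464485834935334868713980418973043447135849288098748825600)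

noncomputable def rc9 : Nat := (nat_lit 166571556199099675623352728646017171990149806566076464331508153532339895622161739909942631305608925795694400090877873832187386382759977328043455984568385700704015020824941849919053857113125618653193394198233723565712020028360660341063228977113895741864874195580744176769236072892258015593479924948840796971631238513870155081348090231470632824800033039368328905507707335737607393878723540297771631591106068578336250809057405907237436576054975102770617547669682213839927199131204679609284992063757082349810305638602538055046385730022238126987946902266060566553596501214597251909176125463536862362645831883371379745141991712353668237584199576075716826922605716786765547903235846256853460435212834105171528958963311949459588619138022135076994147974495364254762997468572345571578832899810904255515449006874198044630588809574605706096777738628537654604845868701801303115784611653079247039848293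418492032574684228006378146425255634438340567588522627459713584673571956184331887634346080085461421901102433179434984153714988108442659951095445523940819338528923222794102671573273342178985424949643653904495989245472469510666174494420483036794597557855760946179385827502619268953774102121348193414600463688399962234509530793869471990476759664271977959751005552461952967349513513188369522324541892351094163873161894998232777078691297754476836648732411359947122291362379709226166689798025863928385972770248705082909459408352667438781458806512047602270172412688964369600854023783241926025618754070044819697426319539230000805245306241323006023093051844387630227196938802936961730808766849441830891941518624185277910938883105354609365087112722671973112663185994047915341860440934097149749928595253988091459780257726887871049744263836618392646507864420918200332650626488375458141813855621608975751676822831047977606078441491461012050113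921545034932272281752946976794576690149120629978252264641843610884173619325537802323881481603736808742667936667120185946391236661330684724389335118995222610904089612010638715324733652194056675066629373746439046960503452450963395320167435077966998917010353928938138187616714928929842956817924058593394241681700568248003212101960603962987776539002350968005034336562574986680285295719480431035212529449772288628515139428795152573188620237845875035735554240119139308680172174632584627129996537279603280884137942646279029196376106273541695558643256679021462023967895592913851839652034904557002921191598802487339002559340316779367459946710517644069658214080444926902052018888098110524553597241235907107491478848143029551055050835085338365624489606599326895406689882481730320571852125935611356722594113522111904840449793594251070044208420403146838497012141975849070836285330019061492419526616308882099415227798139987446900668711715547697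342091271048145375280479525774844716817431873909135882506047311527204506223542466348970272899605926468321600220826702757187717457137840420293859354394125746425140102744249356478538842231341751667690111311585004576859148138172440419998123199110849427868031917233089258646976729817467962510109769076649137721794415640655844108622076850293563958366849650621940581072319827347215525407139875650926451208919564221627927631373202501068829061185258459911933401367508990431177931857554402778969343599747957294340617027102039111018450176756056865914010223369131124946920224396614107476777706335545288390584308319520054717331124919609559135473360236110869442717709996190915710091121168689059377614041788221781975312518091209962652355203529745360381532278322029952610054133588399105244591490917950237714844864696549300364393245611117869594584310100157798551868014898642318306871887017477506465180085688120253871314229523824406851376983776934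554066475438989188724284071953611563339327021603673454601357807986084773636568083562878121909873380660785935800090714352727793076701027326062699876625418196280066470616906707377384514241561618004730084466402070520808057306500187864776751510972347883174655597855190121576267045685903281111773456061090293721584803640078072550878428219415670295853880318930487887235121009587670335088489596040211542335419939664772589358758578954218373548803981018252383287409057343154840612986327825986270393649007091500171291976739980543875049453842765896842231813020484945533667587637517312548275952690234938062847353473496360116750623404846032647749453966571830466302036832473438962072550932104270637487546809091616664807992827890580064993855178869154543704150779862704784473498589755973450278155688132390097743421751039386230964695148637772445715580550850498453791380965565669514578921772927712328601668310622804227690754414505389516169181359921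863314911515470684820668462102698941210662544325355763412526014253480531492396169542597948732783605140153195250776354270209273816331170178075670393173238168889740562466596811112274986061932344807621919033994345248029021855881109184946535551783265984574993036352448674797732894776082514519199011972189974820307579420271030751448971548016000545912594677398917700787311124862301389986686020870091687905334671281998994136143177573362433215858224473067163481523847043798104981183884161878949893432177623914906054624399840407165697706210576286795573769421314786799787383893537518453748222716975465207878137928149137226954521424098714890975738730942606976263333029635611132849328439181689883492276601577112125998151296225372231813703930299367760608670282880044909444157162159806758107109765500461751247270395301937329550863954092398489759363541646486200677918378103214505593607060076779946815388453053201623662884373644935080400780560696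908204180429111995211895991225839804877055019005483773350027966908205153118892669285217297466912179363837364897054242075910767662963175898903227887800034998040669186731708681661796116901677837935483856828803317927042811574218910689278806757595251322323355723485641397093512533550223072612128404700513688534740980588395693642820721933780777723301612643796268417863303965970993801918251473622771915345013808220042155103066541712754164149253254451304151359428656036092373930422412879111729128480270465806074058081041984626123464795492968057431933581116503181148089690498519186279819029878256455389543042274286166599193342291745167917282860705188144393617067941999638978847427578315482217424926916795046872688791134654454537984023581639497178740785568337268885398947023946762471461740660100053695036767594155833483386548675882466938653364465459443623020098565228494765466078071890768025712542510583298830675955999587617514391544196759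414859385894725940004371304478504711117865365754229772462180872063676695237750581965647782281041899258677339133154287407120878280996766076700416944835839381431842434248067842305492492111727493589219941321990573704116767451268479548875772756724228246109973684711028311513140583664789453686907222879149361897050548112320893471331174408317507572151051463333864683961224387684696365061502102773662048680765912139862607087329354101681770474893500255901158469758764353942094347669390060663959435105805815259474886833220112783383225605153922682425511010048933833323084563388488369737495873710818344537793855492624800962609143380714742006557720217297876233678843343657767642961271014807970699677684204264665284594245773247423220796890812807216845433781936232401120031836673258334870642395336778470304194574331580315522208559281251484072723808211223075439450993763248034367419573788782818002436356539760101247935015995589013963852475023863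267350900570342979176145875498648626481612175077852893208182365776514024387532037920647800394630863035252702415999174080104046233129356438008914736761657117641249046755202762060800018616895937842959299117065520209365965872325058501915183612058213204914947252834142048617192956005994875629926518788655487869872313670341252361694453594378407254389557424186229623010481370444030734963759882045632533172767795654377083344627641581228114659864713309464555205876964147285077106031313416457125657542118739725639875128488800457084171942067983212640733689553036242352008868368957345457340027810755019148424599952992782907229465813321351603262609949127644930207973583465816487194215611469529323442658929867508420725834650272986438651035288414029354140322059752587959881396918340018350510650820362581708758824695494557411842888998891921308085944214660374917882767114331629747039798898375134223784580817575863956270528399372346051265575033829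942573790914109658124191539084792349357293484413123617373326585356381423345770353461417398901602888988398892625506962914312722956735216375992393854974679677859950060036387054934324933332578260930622726920273617215032217943657893798875730731032944481958238396499155992929361976725667022397886568190875880142747394463407712635112156715719858186021803876360783069898180463402255511902432879118761205210164398075657008259176678871741057656856612693519658201737822907046977918650166717319702625753574798999923082733468165655875091758645497998077134812151224495627033310728890544305999860840009866068490184910415715924431765418389519497191073191342056974289910070375964729542816694017176317421757403544369368846184823856541926420199971912495733576838170880829500056510602771340893823266379727138275331274912178246425471017146082947840103748610827406896637148304163222278343991903351224384213674613878305581853082415609107433176086474037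340062103086702488136392191646245363296209322058175366171841181126438223789767348997180349406687586957067040336963608008119164998335653252941523292146924401594473360151001354723454633763746979954155559905348693353863969492720057227668132341941913519532336685570164462698168642315559030724468754935747480896011223951815979913634974287910689622417075845666144391377084567242809233676397766891275796347692553184743684988878787164229718921624225504101063995783156619143089594161742226679838393758364863199744842161771007947427436609639618262124863840642789032628208305724663064582307750527278973213351539883717415494178753625002660662227704895289170857578189386929649201793194024763387270760670948153622904107634752574251014047048770796560326655393700400823199935750738884959212985396321070329171885733657956974117087677576545511855794290323350754333858693657833968827286777112999190578234334097596193118830668152280639564691240974768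107898516495307726823210169901433367396143614375987740729227794008569212787603574854234520970147020474288882221134066547482895034823429978514530921306413318004739674793633878184055061711132548232041159938280565643289381490029068420775556986900295080406899120457535887053448080615020352545587257008025549979954110391943528517054508183644403009069553768964059613058159192307226482841900662475998148288745007350974235910634717996342263897992251348083285807571989685874549941484881344909887231662613505428835995629912703618923782031796757450998157406505409283196280878400598685263298893559591968754090589641021847988019879305351738859966873161962765215154202003233418171759436919910153577856767586636684840402003928066309277197532611695174078985718688199703614174475171489404509536923442251626568293582799662384027563186215839782950313904368127489018072614218044040379448083328326255000517171468981770861301443757437700688998219167953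765187645690548258013426188037375353929969814336324488221465174163792588959386478732023778622133876932893859396475656624690114037550281480247841677593041744995804129773509159810782355586092764907273628410305441779655341870712537534227470931131148643207969441584103372793331150362262851405002609113941440266540016816150947189248852650644935407631297768344206046335286373549422036373987930555161564753728248732103178744541915716901821954519754761888201464874738808714698624424462572807556526120545938389883347448581622515032229054726141358675790262583140642708931177082502439699849503578148308587396121725538748822944611744254411762810517466278343309507615298463705839218307363619032639384171259547811095818376755053182118847863844110866443331239306430733374610437314212023369868339299749571160426552560209650262095574709907176888626090775296136574963975864980194803615751779681198384629444164275321043048827086147087200798075973601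240072886562681717665472196371266639291056625876217258909449733832857116372876037030899186739505856360099134405965169118997549202803902513331481028310065828672835542273961840843564799002908183585754794393289892150704912768402551442057936926939371684560303511459672660319512789079587928691771483566075796005966559418044308842375019081643153912801057732287849641503494873267682102976802685401111804699375216876304533224769721850878445258397191394404978905132256635086197720562212535291753934991882298421660655165354253876545673700353566737249174259269044693172945466733524404341812841962198690897250029871551451262128522505121859071803670030904334535005553833675165893730345143781593884864856662407698451398545121085374730066699754716097291698914860114066317299752063826001964006875882270248979368064429413236989692308362285157895449608597946492229789440372564191826906932698624445800520869031552386656631969254252083569726752704030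214264508366375239188942931110211100024585945672723134833161360013865609768961521932520316602069786881633733522737820271913184952571762911448898681075777685704101291712802733413457742011751792465404860956006173405864935201503213115620463133301240748502514286895451632211944869135653058855197514711395173488550245518993545909909791975450958858416338819504064448567470086461308079642804601993512768988974580762321356211911519315460199573670900933343735653080780217063126833642788990330376116736540297740828836713204570491665552692504322951655846548380284617115176015969897228020950004180597844238112356761050777543822167948379764589403572276517813779075263985260435647306992293227034251173314114841163746200440831470505510692629098104784688001740052962958124757288546555439083562546081443662399753928410835652708137012007763191832564070828605523753254889803010847362818111650272340992635827726770021317286321629620388686715299320771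110182373731584120292518332053912752582736049898053200191228902699080457662584671187987161208546636963492475466948667509190041808321700940176951558350733948300976948040351513325166936021705549148809675650067915124133277384864089391707190388766428586479280249060528587247043200188360003077246355632305166581595771563223920583871396777828962588395513124525295728489495671562424148079655751721422083758780616376707692739913921692492018793050379479795326442221549407977219445913510911877592308844927564240164650857880181384399639602517036266231702068739384337087099760838240650250038928483939256657568545012217657319238529233654571785362183109736064198805293396077904401173165535995536889457366995401838024411504310928951302564548657796384436773090596977961192401731939254464711888203769690598868009196080741755466434200940026081395215154425966841767892816482618011188985651609783448614068822159040258071603892580665262239905489839201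681275080824295979981823220095257695417027748667199548546813852775015461191461782958122474898212524228735718857664068325249095557183236720864932306382607262072429017914590458095484725976274104001267463999714254790252553563276219106881986353867109682486504609644163443815583922173596432685990124287551622377408331420244884612992378865211634551242439521162964206424304208579460866181475249308419081375717667495105625198442690603859658866681280107648997544722627742729005332762345124772075274972195768152200943735656682326538856490897018238346661086785540752882623659815909845983556052003180558536761302880475010697524949313355995507572952131532648203178848447103082057761493232156730405871163344978144134103556067578771569505675823597277123341739147236360627374672921172530717598462808172035171506231084440166957611054541932159934388204561692114544026132434599725754078944296960)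

noncomputable def rc10 : Nat := (nat_lit 16742873861729651769920879284824638556949644175618876212450928283229286897633050461812437714462756528040971623685158595132352766276856206976831993721055661597552806879489621349025127272137035287109850430504952761684042176972841815001442892718051986539614688384913675459795739825858842298078064952586645155531732693666557463743643942144405661282332860200108171140731750916036418103621772953276598393985300771687612062671788799998423492041124747523877932530230406788467785394502088146556973575394997533540683156424564507647135608785714138381998763897836145499278518570783085252251031728861411147132634708739875701516583613896700935455024252164406154780639014587947206216685312444142326687616986737056315442343215797309060243985288312147298296110742152074954531202424767456997942107265040848289938902716624162860371277915071256558667059779708429051508955698710233854081973286016597374220369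410183437474697346579109936070818842972879385428720562788222739545323326684387864101100955949211315090707778123615470145558077508015978576450630177730273677372464748395884608953233050749892017431901890784305243448651764171406457263150708213230448079258228814211078346742037306219355509417328361103194195746258719667026628427203846480570462285638626300887344728547315097849769167439392644719801790852071274963690866836281795731405453454515134672126494350462986180462179166895906050208931179444876495907325047170429729567516104117410681637841394823134087883402316792021757445907478353318719936216252324711672659517773523772256861543288604078471865381058474386290728250847077245952913914655603420771567650157585519962177032760339379873988629907917062003614568583864742890609700931634740939911669840363832418451477518842959933309107675699504485794034255873866230250271958420540044408156036421422141146453628430855057842785012663161245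287165181871169905427100621058173907078921991642942144214127618519285111337755908062309307176955441956376738777002184246903112378495129193413519214099481901766747856150383942946472341676715656177706672936562238908128936320878453625581222578491334227553568501077871869642998898516934872124574939337017587767221935094033998123560635576773508465907822645580803064726949193444943281040126066055925884409397313661532176781677694514175990121271772150590150647555953257238875443100504645048402520279452818532667178181735392897928705763317668208369211453416186911279725714884363275224701489092748273272761868398032936324127075443016746265706850852364503502451804762098840985800083548366947397972795719983463480679479046124452214739796672553169833257913851328638421944758941394919346031070669551912513576993863227390515792073243404654905372611170151384649497191080262253655000621068393940662922325950160188116905670234947275684177274666748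759425818825172530825583393865593809521064006710004161352035682028031349393700119975698048597401573053412661632042208443377684857460258222252735119964887659285561055534530861451044587973579157191308848137246113775002938481748484583133865945153483174827301205404668865395150321147118067761574563660628761260820348907146251807704611906345492929538448263548211704796146833884563611805043311440340784502062872718711069800222223597223822001159469819914086310664768689444603790545919891544611662709315796082128782843083030454901420773238285174183434353703243295178059214214563885634939588692310824631635815539295648835084504594080838210576478115663676354114128274344612311547951378289028683958726410616655845912946074807479873009265562514482391539438593133757168504780630436173466834213982666069867058216282937661170864055720406965409540272879554500196912044541740979697396269455207542526269528150915586632963405445553789579454854686135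122771286683956774037528293614900098355794924553025960555418685041203428865862649363009960079652419663842826105443628508523761899533429211171079006406906771396849830721390016045600182023845841178708932554230735194435610028916391316564627558926267716095155297536087614377596174758243277415663103909471163620190939904033713547718339937243121658401160221000737662760555299457651845291328711403423038708883506461195634632545750814584549601946192050728463705925191000141170851487975126945222307776474626903367721767064693837240965202365148924531683494198072606468608316094545934330695711180655549318711292677789528889752129067557539586379181797069565027101664306409267780513060434253523406444384742370746878739920022825845988025538532180336040135991213948406889703864545243201970986909082446846782596690912230491804797064945220511130193483720501936605721221560166616332946450688136783176553354591859548083060983517294118868818920729775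146432458516446238338894311695517749875872786322562439025928956107977897802435605049267959295545004751644502113203769045048684287938319091953547913355053837803618983463689244179011791822648841916268815927539462032196063568112005516316863741419927847286244473191591617746048944948965686142769932709149072503704575472774323172666520064405768138013499545567456925182193564187987552706982533831592024593526868421499136779901852742783996874439130919520846268096329104340128492257283773292288121763149305506850148977001591220121650289277033446819259354662126491315811442581907302856627864383661452534957332477351347946271670274845686610573010311472386229205235300629247241564603480517102834181868148814275276190849876414486855801851509119745537772295279357526001117425522478117697916382673332050197956939751273382167900705339136461375426621130436420574020101182701999866149294630815832651776874158715723160829793864844647566310122610916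722122589812098058678986807140012877957766439932021196572110297773438931362128936340679774218896397603602085912007159621908367934053213363770139772020520711093919938196126841017710752324423258599750969463001301631962277823389847821071477725273212577462758316799158086855299198630237109882707811800773523276240967477740028983219957054259244390409117014153432041071661925819858419434383679544005095383341960337072624615109471286150685305198136071494215414386968891656793204544992740090578669189764987965961624580534826748588339435155451246693040765834736282828200786250302876749038772370312493326139505600465539441362545588429841278517113442347390121007623465898242163118276120828188374750036021596858611789164839881048355077942233118384127665278635022257186934558798215300680269792071660370155857372241857681007425604597442012912845074456164387568326489400321796376201624620055310502220988799168294238664421859543054524515970842659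239153544233759742352502561891945925720770962004517064911033642663338623162152392404013956915599688042158712601591295711084732085253479754798226131196178750098156559126354492209861513930477942308208397890897444218861321198201995896026508029378660081858264768654695691548873458106215290719217348454104521687643327074683250176426088815889156397628103294776592342573584820455037804233025036989072956846403048992788393591475009665360748849928409946167517001406321521790282311810742429380607360167840639212831347276822975585374745389267337174770153717451462291456920345626460102666857925350612306528599919317113178084416820107353706862840363359333070887210073387009370995944161370158757074313350576852108970936022876465884060817000239439164526983327668313962269650136120876146531378772806352904506751233579019491467012261199451486627581061039108911338210783795069279357699146907743954453920620991433195130003718750699687518813718977973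409565211805877692577240788638521954079213371439386003082817868321572708952174409883817082720000777920089127643067646629331084095360691292771959310046422718568608682050591245832438368365103010432317668917314144583776497847739857911783056473610489439621806337759331906067844753509928745521699263670564349687775789235635171996963384443757513517973469757442678340116498930269598518612507088689780174841071235261124403973080348465357409021739282326064869338701352041706142788845101133511655812866205648523699083345664440338538951933588494422569437834183400343712364817060316040855078216123149292602970279357875401836535279308736122520287354482400279377322645699174888055816495923489388100202301398303880580829819091775964002886393058721861847602584702291949953217277188448272683627322376979177066263912661884920582799838340202174602906118645358586119335286107438456118712731930471932804512200534018182346179724441537910299816168966632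741389146797785253105483670622758818889479884240572289050412405363914126631577199351362973019976799147520766027999416178142416618527845851633899963813031273191995087620635882533626282355786346350507259418392233583051899551153240624862988971572031368977777405738061136845892715625457353874726699782050878788710321864764858181558066594834557955318939163782705120775408094958569368707982041423744950792990207635725765157977150434758914685769438255801876113110559500468186224912048371738981728145986592108629315119118433495734854918141050341986585247996459388923345402662895819689350396112889402755705153834601101123534837162455081777305696243314585187682384607683402198024472152573922662704492184329314424284583134034469714103219502811393310711860921722608078895619084811539512373223443261261413292751357402314279574166188481376671117434530039705448745039942592414522723242963641437002585579363692035800306793079171311438960164175369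318787074990453139192782234135774322899307392621826777480842712364878407113618503532425841379350688046906561429257903529342267889804932901209807210017390452345067369503624276862582488223395070882739852155279301605892073430615591200176876249893891361369623480489076287079608001386029436619393654814363684109990774653548702464468839445029663186193953904631980730178498025642030152395021638474178910634258015668950117089368422941103489081923207916339995010867680533275845386887538260028501058022563071062647107869446522279956626451097063796293118707730947544845504677221056553066145006557467744232425323633688834191200940053650150708909168191591268758437382697910207653406229015421102615287468187846665089625574825373178712938055934028078814580412705152494107012476192826995531904481256007918701301455717479027916180225839757753667780473470191488903184155385327550617098620033727046351221986129579752468576173665025801273124755728573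019554444526564946959769949747741509832279252980691113290621588900984060031612665356971784873123766263453233744140299492761440760762547545413002872672473458154718625016691952253462537526120401787883860266655348364457752575022867079662404680097155680907850326444921639886932808050866502936413055345989535065451037864224556615514515621478104121646499557105753769300696178308956022968487109031509501714180122140357962354293657967618131227212703798502801736216325045075598362714043057561897431334452178790559108806385594077879719267749267657723039056297538704369926450973929266854273871663548954819784590507372266672938165569224376769693626265246949977254605050136718522631093665044756229417503045542583038908915530601176843540835838998615719487237413905810078995933749737032844362139509053837921404556196678221850652511352705458003904679927457760380756769592746619649420724102020568677495475279975001377064705052692358665224630992279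319684694259193051951418803927664656716780560849721566087603877798762209207382118858656758024319047198438196053939913935287383687752734272180236747820563106563950251031329764540716797666279367033484872594979972302377533713298797482168133137923928876314685081632081503022525896865632184718774470622863297527469453772477532288216255441524950316168264893895432849691301337785464707557563688179365285171997592094804195198820880756467264555945418218803710766026537025169474760513053991270141637394156957291686799257275809427524793142783977506015612577799812609087368582788309301215166112243717542708015247612058185918001622765530822066501948476177739115809833632092473957302504204639769304079930210528193729852164159216974978441967760595192016381834346266380217778358054204081155300018052672205654058573058993826612027897380231845153437266749887248225038833686002457489224645244436326347885450479130026991663023411803970612509363927849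132439512917696871194668137202045904866571702210907432694976854456387268839878801903633915442276564659771655904173233466581666207306176307221467576196871795719697355799656945586904256976785714777036888987589692872919425602195867734111299458846369594273996026487865224912335419367980352253365773595200451394712504423429262442206007460714367829264786037364952866534961257929294358660240108742021226184237979500220105724905804949536133816944030893327913709301842649106140910632664047170912586676653623801075999152637874583498896764291834358544177244592686579867017350450135606849944687988447165605482283824020721772266440786730163202841152068050863130258290775495936336773467234447516850084820699211648687582216143312369830703020648115768488380002532130884523207108347150640390357121052173600928116752333969214799637157663999881351748167262999815246357795835289897882338981677798515513493232088174377919775157802572088843605393703799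961273900251780690156951965015537431890054052367291254261127664457180162015548696324663473586009025527901114243071926371564173122074249362648899630639174408135182791816914773514320754130545226241563645261424906579096988091870203936728298044678233710366027707707030716938518237943285159566856799497699208884582688793716577094650939219797119238352110462482653485425470301202511635674821482557466188701309252016069276231098580327065151287799821558861075925654571705619859602218559597270509671567657016669896694680323345187519893556796461286253331170896382160654697030587244678107129915421144078117438291662309327822302312398808382116425904880207759513859912722139144813083209995517605711829139431428154334692186171565047899229977198176953090382495235189867237983810418211315131001387122033574298996411761184855969902130330265104216394648780141951455922157464590356262589964207063787471172419039685810545125962495808146510597441791711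295833688692311159641244983312053117135512624745687073230078232663512266664989304371593360212505354664958315794227273275851373218873460633126975284768579701659883847023724108128587329094537291685187274982405892565398117879270196316785134547108261172741985333419252654515741297241716993175015632983668507919175722817099182966216731935458982011834502414922603958969569490764571535079268251866589675486815071265567684399497569405255402190066726785684717961372359581661182474926824837685159863705639765339097656999379477632254064518566352914865930592713755912940935240377643719256453575500314633270832045898477356659224684799376328379984230860528282129261161783030256547165105394020556774067594262376493052899439399868624102323751646644303275076953152306497025976370387701409266682487600201103377475027471983949136007143839240514392639587238410545594880471657445620061826409747322052131546377729834790335282418556354289459071694248355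0549426335794266452912663442085287444544635496523804723041208382262368242474848075850612062849142098220450373436171849675935047536731740536017889734539370847586837585629407853548852803867154720048279543562881729421617350120822515888155142765921366760319739031011278487705977256119771335657376753754828187243929148923250837497974789353780344386201236724691162112663679500449256706896921265619957590574931963298535806147868123732656138246362207802672451179148057528448639605881068732554510114471579878625106073813996618645399674935412796369508351031496872104362799246811610096274455657990483852604221089141319013580146737769086629481685166652465627989738776101246138466915522759814725664534754310768852370783079913501525540156710840778899561465034802022888350335885841660973253789469946667805261756129812904225532934019283821300746904887933757637782784171020552145517783212359680)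

noncomputable def rc11 : Nat := (nat_lit 16826853181515808943450516270531508598634997916902544736580919771533143037231279916928413563436988253739612996011196984703039204361242859208209258571040163475400507542911216552816205880597879940373874819219162063847075060542709075901613077503459184249880490038625649208860372832671466622409234891146652295235047050863706747041008279361884067722676878491740727002222972348472304822198973676042606011669361444297787510389267242921718932602799299247109058436237997664390795853455133853342831814641368703569849504882741240882093789654676679952703827585051107513690814334076748571654700618364029454260329771622736063448076987780938582999428609455855725206268667693490248921412412586335932437402353420220747817838489847689515850572860921792000525537530845824007921435990853510378906076191717233547745622531415349038009909874698870202863173842937013742621740491030214707731333858316608498788052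138020692944189240410712830503756333514211277354634612758351293568584195951110072090458016604911843775207061010471572244604908345353714950147914727406930438733106046705284899878454655913885031757524387859150305657275012579935758390121647825397412797747084426943848646033400472192156057450562981542396013034291051050549429996123771692038802006191395670754296566899645229406737865121070545622097384937039924358952393240365217666115986290341537352211390112489529516801088408895285687084742047083252001807570233103728082934574472736416739825486863510763518531403028377905566202802899741051394241484603845573662410460525152608757461640153894712657792623911347108133279844295057735619051577236601268474567124698326565167550365690211174811176035863356222603923440766150371758237507402351684550930838840453110235497928017582674476135339252124617212020903800472912705029878497710061382005813462471159256891280332079125687338008277932249441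342528430312645701983930560968550792316727219943184767905826331162582337511410071222034850722163110428232709619638476451502929499418324452545892705719736900282476330944436745644551326619792687112991131813964600595235812622818309966434515353508351272386614944856384075926070947536947551335354802367947964407848034863779493172847584763581704684756475441890876579532086454350565632025591260695958145829842614065689319067824088927520314288495113085924478607091751115111523379869800069487088573802680276149031701075373623198873429026455493027244819270631612936674464192932472956873232370119844316448637656306130552972459244395640215484024537063157151194358224646152343490769538675353558703965087987436416411134093488310661620236785185505989899670068864370873261528874659876438694950302112808125407197989774065785082822112987603236742171833366017359947844301695277237193374683708641799042679938637001450379180459153605389215809283381924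371343837625162809574305303152230180666545205968529635204708323698629302934638452429165106499756224609968518811083084024586640084625271657421821658270355260720459473135851274570878994892937706389955753040746787136574624195072136471305107736267466966803227414178218102978893911110268888994519773399819631364842087426433763031325533874473401178611895034629670539932853438631306771307094134440848462963842942067353101451421855895954801479792000500540371417673810139248122692154820239280390153736456333031800574076254011751121986011735138098925907016425961529646077428101157237437242665247240513716796848259362541762842700458280999933275035229031667842244567441714765095107814595315134330101357454159768839369280874727926437480184563660160444724798880784945652296450914868073771040418092332388802576561196577720528916801316776952064254718834952088899951323204499951103452427134286397715816478599623346787978282226908151039388620826116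520977548420822124960573459763263692791174587533424103550458054138429125296455712884330418867703327502660110268788452698262676406152751420659496544759887342139749525300428047195912444650395829529662184479966917678306867751091450130859067590289811616781839877074388638294508278666693274802899280246439863662793957640047337075861849247158108160567840848699631402495954436811881836316203761673419601175403592950121583569215231629193233237179518049668054522113893839378013865790697732346929719980269743383438421902989643307352618439853989659921220276950552838990218897622196965607368357610647284831837122360208433070862069657416713794637957647268866258903275076144194533535032418332170888161469916230897906723395345728160745471369766988616069889064156666672037962011061999569715588849772012378691692752670072230822136061966731037516705751555929180545489715129679599190297949612075927503096170960416157502744101209105262117148595034474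662378145166679517356179615585337931535336690364671057190925124925422184164488255507578454892613773731531505346657693236635182936369774344612755932820677338805015000621986956183647047437331815166073333995304544424169395016491417790837337445003806004933812979069257925362195697327315897968964041542019812843223913726553831986836312099616322397975085348332576762111693858130862715698027213151394128600556981000679652259758167850952673457733921841068777896034781100638502918668185972380175593688917278535347477132087866425530383816530747667271533968510986220781931977667734286357064424248239826157246744513156291977533448875553424024098151730086629100897168888357011165444409813221471575689871576910598217520023791397299425502020564529246784010259597693505425346179101140450264407078641964788366816741717556069420430939722719014127513587015403992740654223740059774961117612166806225299646211111798875019339946822239156864245878491169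033830439247545068429422104748686016313183087480983810695822593548776629797728305544335290573942199335495330055677086041310026277367480648883534338980158143699033629297959773368954716640463398989468096676992922092161799375153373661352099707673846384299495122733388880397633534151144239966472143875376843574982338367399857447329243666350720459458929152017119717471352850631742689052690783337085654172828035588331590797801134104723341940970443715147604651383550743067868172685612308019692114967875625758604987389824815950395210315199839702906532884657176421039666189998023473226330576031853996687217515206804867717933058724958354435002042578432756693730652956863635631789502162899880785756753935161569577619913348409575113548988346508656445845223678512202795405069046730088327867482623601970503926071614072644701706049884199308551304962248925718357924727507998675138719802660143413491371773761648074712119469188012031494277636543038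542430104817418189941590374829351878635802474011499240859230174720386425516540159413058559914718989234729359387943160545547531511549658019817653842973048725417441582272741416686583442512895777848731068989391436811752417075058268170672348293956808558474244615965928393411542726840478566695808833583094753682697699113052809581309782804882291582739382787414719274888927409221809837067525056638898457651803377385029609497153476637587170629878622935836190872655520622566715059103380696077443950466648017671230036127349226275370000013331480633872005248676648232207428002678259099506762606174791510031269448427191752414631414299770518970652871278791392786444403180712973521044882378159907300084157958422174614731565123096292710107678443892341931744171168066691866147958861384391831521936518405365654041428302452220770529465959069029381594260932309112383747605158886939533799583413246555457196474332312912746152209522157906721207905251997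256209947910522098743623870732371473092042289186484351614036289950066923872099187917260444533128188798996507612944566524961292397169372932619800647678238251281040519148341086436113654356538276510498541116941052212123538053156902028894657385962881372608331587417061398836881785284842801813260651296921721372877115557295521595970336852264385710426827385483338636688062457389029643753750523368165543004281834710430665217403204240065298518719978822882945679851701155023034986440543253861705656008928343271012082351388056794551947289741724852997104199727791280351822647475297207779079791847474972945085806365262577852662056065855088037752115712061543051371095589310703044638358895875845662891998444209041138080058324339766637466052032930941340585364020819003847933938577212992702594159751773614683885243512274986156186920004096167550217180014067762025744951085137629558498403807262955226638979682063491688602010463501055126651687792897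998660457510429155687943506969122173872244719300304262406191052543111900408565383485382428347560665375621150450118461017628609373068889105858726078702259338510040010265667601277571453587921875010394204835432338614641577318846498520149413941310605753156749834940936486136629973401247213800456702333136480605584037409955185851893138566626286824471906516854840012449855007154882971902763797535318152328914222837771779425454733337114950581231488816799713028223226757036354776827294130590477614378335686663309238506241608776311838408142509507190273604729522814933277585528034194886882837724502711907779239100088910026138063333436582265077936071513629126360270468058290870709867932779043846480659001009845742383814526803396456647465288090192419475263503860936374913538521459459656549803297016569221053811801631092146629579814282207084005165065422521332924070581250744355653305021716789202450966698126588801725852306806396653997431875877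303325091564722121644252881143014247267450471123249203985693512375906131372498873643141687401883124009880951260733641790621107194558673562519337904159445756318264743987334891942989409758411436418002669898748030538142093948834750986158279687453251031197905797124286207332277731223875414969825178957916469618463530131972800683591662061664445774194070145747746440214858998924839440301457541750912124927201780635826606129527699097897556820276076803853201279342003695165834307442683975136926098078653767571753916903241958724888310553195188675299637941366078500444346986559382110686261697871768878111876604978294344875287316902031695621984612285051981730402997660338053254587787684142635602893505253490981039341649012482159456483614132278501356298223423654108910327529851426615803894529267940707030327987469215122784057997583288244851880481724190599907936830357604139373022454017882210017257080502081963047036527272771857977384638995340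780188034779757455410888356388199735561711092059155497117297130730421475158514702921672760543472403176827533225474074284604743159876094499731456111747467204652400635720308158772443349079233881373561938309918195960719436264972973956243490334860008505731915123390508170657801386800482936261718016317256581920133048831350910880481713728575016519633893801804039655732352466853015223394991902236990084045031172008579332452106047295643468561347770944029846956795929207389104440288984242844987018855019824979438335926946219063363659822286656982707166140766361020097137303193649435611805338722167261678821619917072231112895878403984064647764343747160391787059129073783537455478340571749954628620149240640677224394407941448323487094992497351443016466516505232169957617158299725502611923678174613197330769393908180197397146763675830139540575675347986721605758181335048099452279591223192193550070342149571386891698846269170806531889394062782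678919937309919105324357172315261404678168631959447891013072716518648013408600920319810761823053844734912488146358054534736930617531151643949306445058056998296760697281435082296004625860757917443105921976797453830499170257079470189263821704050333285926354635857405499069819849604373965563219965621253709724862154219904888885125118688786356549005720863726750497247750246364273712172895807374368333912160294577630029486270881092366047882108243563702293590454320530249453219936751413479358468952893524924211376586438150655834805687367081827775006586795160394736609414855935282213907705787020986928986244855049682300485694762286380926440950636235501767029122707357613757082011861121854422526788063504883438485352999235752168348699681942566869064177385170267287466849501013493345801058867871730525796081950158528081375665965544770296780283166465259866308764817817901400921792502803539619250272693011928660647811853627846813596376174811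139105824002595337262579335580997284309951644453705986950101788109139019461334526893345392167583994771902360465298806520140531292596648678163310756851389322823353937190900226024381066953598367780452655575590576408888685040713474643054690575973947118901292653536730911833671519210561868659301634949114151773802953920371125513104918340081359157291942175915945823169094194369575360199003555028115434007187715594339849023628374392874412244829405532018070358105740171332680027413189206179068282127715726657519945418344728883627806080398095521199040192741330173028696050328315289170125582566833457824443775824405335082484420561266155264058323155694103427023562749336864870923966086535792464552143375522544959083104715264729875144508962815610277539537710991974837039581073427266806689157753244689128927266856241010698122904360291443200081293936274878373797106268808116956440024723352620022470736228588467405921373858463156769904219614850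515140042490350766663625681328638186220533754180302799010992470438753053093081726159304254139177905523112284786002535847877799932772881479796647085149844745357265301152208678481156124120611769014125925376142630140842329324882178536025083610653972714245016925918529008763438936844252180829686813039143153132438629883123257178502638915603760406146390986462105804320300411568915241176288368314487601613225177240073808664143522377000577013386477567251684420038700469562820374987581960200001775086071651919633881646069648172132430305444351810676835919980580801002332868170910829747884644368591394600653038321351192537858811209678636657664697706890077549649900865168249508837211243026912446314400264662898787012258512936169082820530102270948142994740985246003884021476226631788269398855979498747588490588651979073228339406359643590362919709271144345079723686381018865798559285420338646438700519985858042825398480615594700815322726749416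962143915320627830016652469464739942407828627493259806020649489025729478935053975117832096400493429629903740207112115101444732761008999689285388191384587613639027052372068944233919571953868779671243101518305705036774974658262169177114119291158092606215595736876974348315455295887463964252304002398226998265520217228209003534088484551382543436456942471435211682888626381385311941943385809175921369506944568111395079493058735557006092719641476674665998139863139208623765613897746533038816778056848169356393866346998782352064506790709060661654108843458449773387595620836151208620109452548394142034321933105179362601986772358780907555099579597707889845868944299950556994589697717023020260939261396678550341352060563685010844572032125642352736245877008771124859694875841565511544372812715587087709122555179765343872009423366501476082183366910924691727744808404210105486714095996185414706073420156126554959829675234843554234088515219253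4795388870715104366517255804960614076793496576360015093264090654776824808201045303619612380426855426363509874944636396853401505610145824869303277665075481007409743072481381598543330218013710130451626423823676808042899310546610529136829778837431112128324843723197965496071426217335574255586907227295311227791442008832546701749502720664725067273344847480656746231670892175877604095713679410996590182809631138924328156155401639098818703645048451635227864987655122466610791416257728214559490006384379582806957418326339967552755403588875208527626481375323117624055691286952387479142595500575558806146029781925203881225195604879155070144360384759973306467030288244842343829015473199959821099614491429404259095515250796036210766457660611590235915459423700384601453900769157562841702766277565150569623067598672748941568108406746098679936029843705437026844324299205962246108850348359680)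

noncomputable def rc12 : Nat := (nat_lit 16909094145934613408511686960332643092887129446986042029065042687746491531183768335554399660850148615817729936278240786270546545043256864430458583554849257596617233785903737805800828719024273172975636572373312236031109712418276000183993054201183761702971837420708022115322875525486772250811145693293802369486564989856667658996256516723002188670247565996075067311159311872034335343676498409963019874249714041484258149733501933986023934252505220700178276968082848552769727770105627691855738485074715987760926053017522380731418781513973311912118938553755061903849395772295023195803163022777794920840606091180312998009287404599058303389811456307435658984714911076390783647501169847794890020150439289459147487396339735029853027158917413998113117105587831120234136565452681192166022531394396129170956029006751618491565435836867893089438282073099554024871556836935935534783762967201627229541713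141039575222998204618763491932541030240388625861148076540425689957272692515538530460375723959759690886505146003017546560658144171293450292734363917122836411915443165179971557543188269058488228334050740242851372204273985593795189196643610933726297027949201304280328139536587678588546529814793233596937258302076343777327073468457567298127888398271398651957183403023664051680444395814817342329874770516854715599207628199618723415607273125285071414963640715755345071753550171103667953347576086190315711861229252221833864400797851795209330389139021265733174811074386459826554997046702668708369879654555890075107420973683798215487510603642091827738783392349675577977903223024654071142414395929008931922870440750241374536843443817922041253188742087924296889601957520491789482480496279342856612785421988701573354172446048640270586106599279989490220326241332093429811182860705196341373785783232677130190573468518653388933346588532277845476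290853309298962757929442957602121729283711961937502822091812183585464714478700961241678111944260958056315989916795772200437420928065121863513085712481432168733342556338512599943658116385192353523913780852285151600045244884791414196779809988211251219414228840059075018395113953446442164187686965475074659852304222963500030341274494911508322386213954146185683303757473414845526033246527235244158198567157386551330357002151222920099523903332806076412396345946039264558395076391130433073651187318191241433765339893408243328719055297974934383887177081574377939076247542118174001110984442906908616907735933960279154273928794276475247742644530996280488937070662341726656898336089912141483929359812326657736673007890036932986777512841724588030500902628750281122282485849469868880272652409336909300068283992716672927730200324344812376318433562443794065945801654297693528037628041641571012335952685750244919237339580205464770937749877795573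458482206050231099247564613618818356563862279994645624143014976870130552685072313306018585692999470029067811388443060954238941225515688108336380057365324439085301814360505863455164839996732745746855845175784015955871190572371513920300153463310871836497393175458657046780676535876896042223129167612011558629202143967788700980397364526959983228006720863897969774921548921359134556932123487362400423764523813374629604853653786189994831840950622240678573262539541232470161586980345782473379378946210667009935803674618613397059621359485746055531711627183764958554302309596011772322558171758392545696483059231200750078544092544127195952503965289186118533395537277459873836242507621117746934984713363927205513542576744724674359739422328548822317879284823961064336890538245216615165412916811052160743511813103939463093941036936749050761877421958135703352052326916379279924321216984063944703201291833636120318407984227982212466042358956927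183603073607865921607452203714654714931906927979817393038024379727850505544553374840975669867806377501862346027441090112771533227776531238978285818143935478581524372380274788505674607307866257643279726288745984402201579486913532854055756166258235823708788220019229164061323985555268640506657562904486168598833002489353936523729760693598394450864137801112660061668739068901447095207645366121635278301187654525696940940972251378380442606818440536360468220020084746940673736807551898954801509996427479493341694965898959403260834003128453108129124377320912530906985403924602723448294570490232267299293192810674979630866863462463014952707783297214678745877218860055721389123645693499194964713744565613331305683879876394384844915587912095421239405318736151348310511705688236655721411182784402522236570041647654222406892963977614332476873378581311156581129486865926949895659460166033543021924091542893990195723897030258736807818623359407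192990224313619195900627765963610654232599789471847283281021280251910370395370670927595515381850744634658146833224696281928215476060224013480676679313690483477452519353587546135615451781620280472848977711699889138797732207188135257274427434783441649600445059206472743873559249766340661850605221525621939079047837957843319670072101505331307741140790434717194197661611248563880059653852685676696364508521464423381731241791403835267952214678866327910804007090214512440989082900736202665617143146304512040159344916745191893885283375902114071896386407690251276027514606305706838014522684330783896364525790995930074646107872545073110418277366021424493083260192930775857205840307472294837220366984362137511413696742041906010834900381923051820169639664130661373391545006546418327022783594971033781394873137811402572982919807537430966462326361503234561317926537517902502383109013816716183855254503610810791419617619704358557722922108273491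143278551401077027014674126575267040505609404130753793802649971151967103291459727357080968792334911553650783946383675338467726420946860116999425393319195064967785868100296294420446939118052445451603960228689235977975430402483824301670779628540446008763319003278583672956457766921263841507133063824521898780632497496071288910000018678337360062813287499787467676562670987017977472428856757573887906849562877587057445236727588836121935490580333819215451618352629505615413221153626045356136725923544083863187541308101677467165848458379922070486177246765232881614831139807636610948580052478749483827709592328644167953125864781273115377146148221187288504160409332109895542565960205412671416197108172331556551773515520767281961085709865876535125361398526509507967135356267772603842927818773044135370675081719892336492634640202282735848852281016441262246942861913953481700683000627414907359657359496225113261868091069934011934959018475021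030957888383875653499893385224917973705999381645143644873777148703651578545059526245361289094733913741756365790320810661977863698838043345811136936976099217137186041932790582604198934065346095268511251723305518330815812575639633406735954672347353159773681593699225316530263232138787500163963070923709919908452256134574109181270716742528512068898407097248890222597365488609910377555168267033557488256246792450920960229461719189013966219268755956179614328046391646264167676820286737404526243260060195756409538561112009675089437061593607488486425524311046328432914926994267808858356289451927853022944100665307232977459123586554347515297108464408963422225362963239827545562067166254819550620760395749130368134846835578237128655914822682323455646951684080766344812605747539789156133648709547666586842338247471136654241769668176556262348066388149157508621402601157320310298506648267722955134697643184227039097734084640071992595650228057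489675891966002100658761871979582193581035967443548173574043713628203458504706972805101142336689017368523051997621693863540348723645284738576182811641806527563768385067671859118299977109663976442286659933563434356174166176821423129224521743302974520579940138506821804618713681458513314730950223044643711458595294847003092021460595486226215307272288570401751633050255295244470182079788648063543042349861532238041588495534279752612840480240389345180482406364281299221544504525604804589997413305422719711970381748179733844428276182376029723115276572138716605124230359958649495995607176315770200837239335542188985467161887179219685022352228622302609942557259033611393732529527668457034913690549900725296740778813127727298547456395461586279837559733123639595829944469559249600508550342905042773371996879335654273134556941012669586807571280047183274094522436503719818292225443586215119641955968198772614654519085350276635493562566850246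972186860435816812054244497669454328450132722278058128758097204946146406462007870648466585035773773340958572448560926356094562028638981713863760543061213852265373312806883216734702114004036354660055691148858322965082331920607753920536898250743158052491439394114577500837555860335744474644429456445918628173468619928904951615347316351655281659393542592609639267594822136378237740849870011064446367451472432278236562974378694508731880829939360883604775106196569631197871575482779337164749129971763327255732532597099865661182672021994076863089606057427554505197279997287547938835370509018599913108233059478847281741137495594355939978104820114178445863182352979902727656030356836125048811611377056067344161072413638224192079200758124702810751599392367982927629509136219929374116078851427281073626514716430237385482359066009029464186713794799956459762325551727098862315106161579770180032505423185760704161368828388873533038435278119994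583928817439538635779371583444263797602600990174795439000228530053594200121969363328900539651545372074724643506834746843163374978035368246187528247016909207476850452548677734889487662693068173518228334491335488637150552019367136445879418938707800408271114251886281631185340892532702818452339544526149755790304111875450047541157113752404763595695451739444312698725461610475636528444988482236369561952346158271637775607345185187375223805871983317143973853242566141563625309047159311450714231823864065252370727481744844130876238425613661886467277124032665721301605274366757217266326806514164877774528664200873292689408003666946629799487274782510706314251750552795876723381118091320720383111502531559206301636222642991296829213495825761946494464683037596759081111311322067974124562187682176751298031549988806380928930179846127978176842293452037205220263675470158784771243026887480809026871894173889623159376411141213893486566191239652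947965356094703755004818659418999061396424276258455424919136470094630637463316429552101616859672689979523315175513106258469111580964151186283073352955357027607648538217393129478278792072854457348824097701476195058245148944516406099664872066430137926639058592459912944673542585483045803918981719078709450840073577950018628669015214468893968128101024546408525221668826966837866053119736945789172581889379055738526705180328879284483752389713177431624289563412653126619139712880249692636185575899162911030544455512328833304865734779914573502196248506621134216516903870206715053062557042791132891414692407832773327629922828514848143422163224129602183885940809834987406589209912546009712546837894063340165937716507129705042644573894641617220720112735650922954499036667783769383167029919099222985086406473318889162640530356770929311690880120544126417323737936535086073852312012548086326519429430728330842291200963597399664653621059040453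465763814583025870483864929489345097945851648083340484186578725789266711810454686572610793553475104565759479878469636552011973968795959514744759388434399680635933887060636484429257597400625327695799237146809206294742710308470218395369112325797963763065288040386395129771853441891068896082476079188567389455171498709121877810634617113748093037112721448702208943507712190903177616850081520275394943307192550985800177666987032351079315323375169498332681848230472819477505092788380368076241536277045749444025871541483824878407800544168595533429220330431693786269963003434411766675272800244848474463021014222528807221858073168569406914438227957921422154039527659498161649252829594526657625793785299189733723633815023933056550926797694583610298799364661005379735645167156145453985765902687873334082809090622417595916552101222678215405039945404401437559031867266005295396847709735225601665093770318710153443265432365759122784944334223578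998951208269283492246766026817558850282439474892555745474821842336326210043318145655475211466891697574110486122951039329040654919425819662437236297041300108643137619055406105983681358698307576349593906154659454462713912703364253774256712390744682744205437926892629201097546908038007718524747518248086744047832039072563673653657391759786155552309829379186547380400920498401795769625302995693284769541378555670059594152088859590910467333978591174777924936838186189902305288457716001455091254312833057754080248673447910034140900220996339444006916357738702329543383553976983106513560560976983292496769216503410182040279461867080764373149713843359000710323966334628312581985161058082440076867202402940821228904041114077981341341693460306251552185485779928683149150667118573984601845846840891321792356275946019580272472396184624532740487166115811212607648030512256207703972115359201705649016883513815473606456076309689670840037832317323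603947853614128485957591030834323187854898337783791615868965356016792364856590114643302194890832197343320934008508044655850094114705287899675519524244304925640867093936988586311720940010476788652317710925607220128145082446931332407397578934281972141116128363104217893456602135183853507427611682502366947540271133637912526402373939131615362290942094609428439958780509202519408371297384196589375052277675654373795643815243453772202314724692847816533699184470939248657656058175505159886444631457358316326100502624596973922119004211052526153281141701403240319358423037208155667124586650598119000114700597533384123933255819184042999830795175739977448076517744457927840174521341890182062646193130346164111257055956032267780299711614136835475159061261431501152704382471283480289317674520916964607406213107270072054962609043291680126295646331465372713901684420496425089405576829608459842156186434420760497646919245640821645713556967417730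309779356957465331320944087877834978727694740756697695129451867565680941626525039867735204466462974024849845464904275797890798740681934235213849449192142144215180932672293208119675545744107296572364205129751952557824150831824642843901830639340116014841399171076897754107066385009994309297237835241730625177721649896592203097224692953950990354838173664363806711378108240659175481680420406194937415091547997853831480156113039301897134160377387658946621294224301467189976543076690153282232442674601885388668566761771632479303280667418966634118299432901651318752732245587676423651275476845806835302005884410265353802816800843064415294422910134320350456783393476072194465713056970300697353537238625683508169097704720898757947793269140018320667055534936028328067755607696561110282597763661379196489966314394656346453741034828800239239229614886018214871499363061262765546339948560866149822363136578783739576300642267640340043910904490749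0203974914833064094139771566749846537496069433201665304346266416044681343572133482423329263053691637187007421925819728763456384296029093352227543113538555198413485907918706258775101607641185259167556065241282992730993961195910962882670617939562716240760712081234768935536421794466621690076471875653273360359463159832793834612278335505265175434380487003188992027937469801476546181526397604752266373061186346999539022661453334242397325986819274184858505315149749054486672694381084235476510272925966276079799537803304520287898582674536589493883097120248910910265063066424258899794717419443122978080151659065564991080580895501021987030371384954141484401155158829832016469509250362329859433576369969389511737644254521762291817587103454596100274321725855586066841780444383957741226180472475238473663751362042337642224566423809196410177409029223231634804430723340630631751094672293888)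

noncomputable def rc13 : Nat := (nat_lit 16989600707595841694427786129217840883609819251642363390495123256224631165105919005110575574581420951896536224091633846931113734810455477587397094008076588540225226682113646456791637854957167505348365586095950519768080524787376179870190856775168851359805630986756183198244595807967898989765453547787182622364551810882019515039106212821713947688778653481554464802475664962525514721994471788089571988469806738446590378315291023105714250137742261024867885861162190528454765820152859565933973934930625121660686289456757352833184816325191532004172264867400972469560881061605790946137175524842487361555275399808903813876598930717857552444332007555735734238585498389075291784589693959737027022202455506623133979431004823584172533910055664404983628329164193603916938759817936510481460748005014657836876089218361767746038621644979665835483113961944852746573964960532909315749557461038824005421933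872233941190614347054631670084565817237751685398492060235393577432209976628121679276483813515290599419866990065454010349234905497801897560635253759166608279410970881828194451226720286012234572217198192210042759511304619711399229942177047071041294376052061355123485374440881227391005289486180886686504488610400088884266994199567095373457944322132984097677541827002739816136512616617775176105349171246583029160735324671782186319727750983329481480268432864376380007109576900477256727407544237597847936513519558058281246457314925231488853374579285624067537651462921361504839612410560741921894000183869335552731725661498783360287452153593003527126828546836622250656462616191854303995533640440647190502174768850422820459951640238238573726071120885088399123393098426435329039456901753719929745081313715642067358364442942173467847755576388371854482679259066245975916225070162262642598654447720625502711475066180321918178056132219585167528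477985621453413306155084917257834261217885210022396759962142319726690775973279583624007906907790428474200181936697756934425290862552499890416543318482511762119626733278222419109464858270992757861025275793050093806700911678703461889132484274875068857947769798149534906177436996988731334998743120801903740270309615206935136632000282297494127515144868989945548633745349437102194977307401410731530943726085964417628447487827626436546463019682928675550040892285574289238381385549628096314429708560682410037500625506174682149918938749711242207709052201366215138237205094007912417485881597348057834988183919063072044597106740070288375952728515394974617312116715831800179125326949917862363627321337835371556319822713152139447048583986471010760526392233896889730298163702640223611111386873630341553740113159429650294124718841219499994601260360208850918675208387195737992439693072419200426753206035857025244672014847914842937252365528060555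045433505835301691340014146996112196205503231092933430557253946503184337817269246513799727484475302527466078101699217113545111935665120257288073097744422006916104156214723245270460225590575798500978361358058393337336378164981371393652246566106164440851090247674448285311667445385492712131503433134574133290093856830718873836339900421778487558174382577704401097756411976655066874557899815643023839926850989223377523168369456932548194125329498024137456213786732059450007194151693034292750561357490980622078732402524308526599698467893934597372223451285688215075039952860663771586238456418610880721332742799813198396185768760939904890603140320005009089681350806878764221974739212727802001221035257606947900945212382796104857215875404596172413655637276368876169723834016089089986094468341553521872380084070247305336164698152747775451815109112191432219311803499760958188931238539727635530378203965235615180519527032454820097155407485706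925357823612718197014084898559596946695709907523801400644111067800665869193748073059153158205364795806280604129960803855527745455654801656826484715139408309287965224390678851460362288540122897956369742036032491836684423787378056582884459935003069772429899807709578406889925056412473720661135728042526895772418624787158378311263917037660618149472924650129548571046945553427930813308971915990220714921199266621552890106635475945889001123748165511753661899855729366005726616133642832324861415334160347421215073406441406992080617447754148633661706128416262067265509466249788141785881517195337500418100382329957118169895039876342931507724398886950058966588619369744494757256130175773030341383818449809240968643979102510677240035573449023184099785821027448191138720113008541372170487219773634971030918383125594403922801045466125284506702839024814121884331464614823586046190822978576986102262707174017136400492642617419936394961612399030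241052354483702613291524092075962614096246189840425093273205051601620879921855932120001733112549863055984005187320587568620389149660603824928985434109242394188250081582353206724812295309448987812557758772842031522219970858499981013731395820368549133370939133018359941725781656407777751311729945793876821574344884778638628302560889258716246320979843049812824907919214855953512302384821637472195134659911807124201684045676342616981025805243052402004680384672095439955898594512605951094504438074785603946391860451283756079632922459322270176131807627929753358338125356605758455137587210417412701423809113460800362297931684830467886717052710271919817015845909316603485611859321592174965548822690284058574310513103068244221133789753944202154003844733157586608158896044164175334337913256478510308840735471709545927586870385683934151699116666912198775496466275468824866752610611824797797898919930719572489861337221330927278224896928169619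312042978723426949664397703182718679339939669796008686378346049787928764024960831537306423809101985841279877061902509761837428712635554385363573231052168836380919876518528986991622555262133557804585510406970237025540987652686887875224498642363091508857583739556908629479259387327385872987086175638127201128948132331220924111643848905262219943217635681153898751035199567759892407451003061627632162923011674296482071759818060508462545507173224164841933586268657677548008756703520328789414519533589782417596857982017772642191782211785612870439577776947022641123425092432957064327128093915254585791281729277314468057371510217152262834929222419063533108896907253161486090843849201800732971757918861602187569556082034314328097811108509485948581608917145693264157010190426922911914653472824507151874703438034044981295766983179798716761074386168331154511903074145348357924191555652126397067049469250262238939027030533998941177270122493099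190990855164961011769395549652310385657791375590663818541948213811121279483265096746003548800150991271706170361030065970998416428024383266571911467112189758903923470168139044992328351284264930573280344610857696116240919312533864644712764965564988269501080635733453094250221204270207538590970390507654030816032114887212197032458900235775667242056392435959885499540640783883415642278093571624291140999004637534379502552784149753666487060535718473688808210805389766722240260260136146947297467017888168026531581344333966712110802572044816329722469458727181158029144740140649174662907490847713074681659336090058892069833270387644362585269919150763040346472739152004391031111743681041804180359654007039113861670884766552060417053932406527178908115683078312146129951911225152289642248596598528658253869513977389727153701892896529721924161614952465515910248477246490012587773491010226230712350059920399378459394931591094804462494609878547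418200396722075401657572838785578625968103981794506760749717091011364617817759302249849193170515243626854741740414378280735370127530118747434399743253268737995956024688729821926772132173431788965293756333113175281640953687696016606627660925558007148130961117567088800837348205672557434077611065501419421721097804678416557651434367329810531522217863161789415223275639996841061622559720015742524151127149375697125199748153598909698150233753815220415858444250454510620961047433263663337845794658943695867823680563797686442488558688478664596905023380843104699524358921009167078193825646530196783372733642682281243427341883677527195352593989842739145311973644835754949716009044942274632406621064508294689623246608252102759227958400068253162805025302531192750931537737064467829968029835515602318513759366749276068083340486783324126952179362783633639588968469829630891943867178213127197809969785274198270165641898149470953716640542087619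599618743788673873219023043685903846997515984404163358053667807313916636472924529470335579869402001464057331556539339332852661011440329051086877696093532964833729015713992456213101556821570874992661460344997923830613242381430198137677481119669143688617443476148650179670844388261622029353954541790833923328221181376067502121980946350778360203332548288952319162695807240111631127566044876533809806181256049695895862513049183804701490230828031025032129807376243728782805911261848894788555788258923402309632196607116680117003201149080483599863194642554243433430279271273429127532871483412584878053961438653309828423498801862223830604391893116517179401559842714301782081240199802387714443928862458305663949525634196489181593256553192153112855749993506115078372033044827162108995342781008178092807857649005595634098387198627186868083218309273928311569373304208215673212828530616598924573094004975434519893877542488840363453131729278188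792972250948773873604077897653804295846366228006534493012049073406500936096195939391753080800226157847748292359953378740277976230198800109056552137667885225764198979840674786388129834755939452777035411706493856696539541343938941780650035327586440604596484806709046238200742536943796554479838762092633871122870406304790693040427413083219243560834276235375552814556252577335291202822168226521892963190150340989252617793635271385386793684194942182579478772608863004240762381841013352837136750637375704724503117795942959981320782315083803108630387130697473836773442944810970891995799235982231675187750599807941508482811442034103630249988950825954404881978826952693781266119850173778275363202076258044582763383079968390204298316688352601128033661830899588467766477576240951954111385168402005206278628331585681032594119103885789974226980348679815971288635581164975050974543979465491581877256424764720375722176781325309881635443580813455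356672378736177620065310281128557112021136532547494098842792213501373238670279573567020262956177255759698137814169612694667070543391389364184284468168875705215405891739586770113136487990646017245920685461176264884355142751776470185182342188732653481890480101725494245299077343121913949152254987681575790891860252926984912250491358872624488315818660330863931416827478153589459703832687453270810643245821054000386150227340597675807014961711701459611546846254479929605848899396377659350980780306518282343180079358666295420189425306896970761604869327290956862875586590967592011726451075835454658757535897594858827646731624639869519794003653179047326231453316235343508847930031618355128690800948798862600701749624246623853713756324221607551347012759956410698412622400523413684748674426532161801969765200390941738170930050228965695415842714707773158460224253051019552048102552598954860222081577418685489067124656642370965996464959228870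574773724758834307279337372932104125581868833658385858396267351403602976579052190737647602221668329256238228435220566181573069181792180206083942407423783354242552866300649514496770308922631825613647592637156718502475647159296334492748523841971057293970573993800570477884999813299571561274246402473434333937740775915085163794531515319364740247873049802230420871408610739328928339776604636129157480542402463581037678139367523527719910392879168489208460355701476494728879396458860802877612564649879123555979212289776009727157783658644516431007692221643517385800743283036229778726317597474234467033817484587193931434217090388131986090939863091111710262777663778218090883394368912977198528739209236772874269484843282852755289937379325929542533716468559286739522511613975148990700177493322190156149025864255001005542744285972610089422238431530153740261185654065005546959245541447268906660412006200156025723044599147940483321133126258758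823915884631941805424568062265079446922406754640241748483893455334701975986316598115517205585356673997576130179902855003610619630208487998408519676744112307747477424894330260566349800816021154635765666843005575487915604199723344238840458671791569383525322583674236135659837063191912233065033954786733489864366557183473321803674570613345481385086677273400022179851054970950493870199403353209754585982661525230388818685158491901866616705024345111774344921985284519624109062550135673405445937804556247663137182075385966812912169963714444709798422602150077845433292228343611739141355627961196883818912593923859467879027004377890217273747113974706679528417257271757853765662584805042883310848411505546935780839731637578636501522791137637481713865283856531669375788554534713458173381002110772754338890872830477416364533449096746157054062709328426321637691410059326413735105719378944899469819158057293301497928796803849499878029601927463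485285052055846775228741954974023348801008105288453700293668615617682083758003556649273268960401785811393445212186186202080796182711956236246517947630956626864588617746369261969769854267189403550145686013455243275510550091502360517237922326478464078155189273433440602171324856805562653713005807362718257749329213850433777059183194362526965928872053993899590099999706583312220554331970286638564256191348701135748267133535030064703121490763655498090429751293639580557691559645535143773728822348730472122236115920522463005560031925694327580296522068383827715120104089585591820733840226277713190916065402951961687296071094446722940034105436670978355853760218222599512092515127570070761801059866377251356497849932507575267374998938029568501704935183271726890673060002119778662233438668348984386066355758927421373771828193039640628518698267191418382799528224378383306943793962373341601786988581934579869937981142372785790356083854254650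857230437962540010150377162249185787624990924380650194367786085194578439385735994064595301280818623432258717175126448632392634338595517820327055066389129490374449843962017450299712630076982658007158207349743448642933742420821069603005774158180829945594373733859907793419077127930484655794982968874942454934821046956968374988438294984417136183149457029844355423612944323928132651353622576569978338228623377584838039901874863755312507039744699097808381605195141395436015097197987639259890439710396661095403042759648269381929486951157674825114544830296573758614639587329120649681444504843487124146945894480378253170161690820702729200507937818583389217066967838143909998448433352866878948932451907987292174974657557723665275298283521109579022829650882068349404900933364366491975242238908751693690728940530709855115796983773838064729292910472968286984912034653312934563125119793308650064662952423374721185149334984588614482297220327462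5556789425514760903774183139082971337207349797620586424391927680065600990524050031159986802139006169227642228896429007933320465797276855185806863304655499353311595875850612454516972287264415183091826093137989823335265519733533851432435008069593024227041732990882441531138743241575094919928085615643119149362797356486108877671309174860498148767729733669465793585756140731189641349990344913415590540282045453042782333186898372602868119977147973230196573223133800240544303278870026284607778639071865725628746200665722363041220363118792208840755294111136523901460962446357301607716422028120401929246631256336770995458764136146584815050004744946535151012568337217293785807300583313578579966640648954919569518999825363321947184598844155081143367605665084131826615147229562754684208629884152405419282914711365568442245779176307073186597108340652999755675092554313662196011902424842240)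

end Vale.Agent.Lib.P154.PChain.BI.S8
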